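import Vale.Agent.Snaky.Cert.Pass
import Vale.Agent.Snaky.Cert.R1_1
import Vale.Agent.Snaky.Cert.R2_0
import Vale.Agent.Snaky.Cert.R2_1
import Vale.Agent.Snaky.Cert.R2_2
import Vale.Agent.Snaky.Cert.R3_0
import Vale.Agent.Snaky.Cert.R3_1
import Vale.Agent.Snaky.Cert.R3_2
import Vale.Agent.Snaky.Cert.R3_3
import Vale.Agent.Snaky.Cert.R4_0
import Vale.Agent.Snaky.Cert.R4_1
import Vale.Agent.Snaky.Cert.R4_2
import Vale.Agent.Snaky.Cert.R4_3
import Vale.Agent.Snaky.Cert.R4_4
import Vale.Agent.Snaky.Cert.R5_0
import Vale.Agent.Snaky.Cert.R5_1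
import Vale.Agent.Snaky.Cert.R5_2
import Vale.Agent.Snaky.Cert.R5_3
import Vale.Agent.Snaky.Cert.R6_0
import Vale.Agent.Snaky.Cert.R6_1

/-!
# Assembling the certificates
-/

namespace Vale.Agent.Snaky

/-- The zone of the certificate for the position with a single Maker stone. -/
def passZone : Nat :=
  1319512513607571480504241543443215711214269350450678990866481769283699030265228095628828591699498378637821687454235808477538782905830074502091017684706502561518669763903416197818513536253064720745980539745586035284700552017758140387623342421401909352211325360608298516383906008482148230803921395521006385690327384064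

/-- The cells of that zone. -/
def passCells : List Nat :=
  [593, 594, 595, 634, 635, 636, 638, 672, 673, 674, 675, 676, 677, 678, 679, 680, 713, 714, 715, 716, 717, 718, 719, 720, 721, 753, 754, 755, 756, 757, 758, 759, 760, 761, 762, 763, 794, 795, 796, 797, 798, 799, 800, 801, 802, 803, 836, 837, 838, 839, 841, 842, 843, 844, 845, 876, 877, 878, 879, 880, 881, 882, 883, 884, 885, 886, 918, 919, 920, 921, 922, 923, 924, 925, 926, 959, 960, 961, 962, 963, 964, 965, 966, 967, 1003, 1004, 1005, 1044, 1045, 1046]

theorem passZone_lt : passZone < 2 ^ 1681 := by decide +kernel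

theorem passCells_spec : ∀ i, i < 1681 → passZone.testBit i = true → i ∈ passCells := by
  decide +kernel

theorem pass_bit {i : Nat} (h : passZone.testBit i = true) : i ∈ passCells :=
  passCells_spec i (bit_lt_of_lt passZone_lt h) h

theorem reply_in_zone (i : Nat) (hi : i ∈ passCells) (hadj : i ≠ 799 ∧ i ≠ 839 ∧ i ≠ 841 ∧ i ≠ 881) :
    MakerWins {centre} {cellOf i} := by
  simp only [passCells, List.mem_cons, List.not_mem_nil, or_false] at hi
  rcases hi with rfl | rfl | rfl | rfl | rfl | rfl | rfl | rfl | rfl | rfl | rfl | rfl | rfl | rfl | rfl | rfl | rfl | rfl | rfl | rfl | rfl | rfl | rfl | rfl | rfl | rfl | rfl | rfl | rfl | rfl | rfl | rfl | rfl | rfl | rfl | rfl | rfl | rfl | rfl | rfl | rfl | rfl | rfl | rfl | rfl | rfl | rfl | rfl | rfl | rfl | rfl | rfl | rfl | rfl | rfl | rfl | rfl | rfl | rfl | rfl | rfl | rfl | rfl | rfl | rfl | rfl | rfl | rfl | rfl | rfl | rfl | rfl | rfl | rfl | rfl | rfl | rfl | rfl | rfl | rfl | rfl | rfl | rfl | rfl | rfl | rfl | rfl | rfl | rfl | rfl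
  · exact reply_sym (c := cellOf 887) 7 (reply_centre R6_1.reply) (by decide)
  · exact reply_sym (c := cellOf 846) 3 (reply_centre R6_0.reply) (by decide)
  · exact reply_sym (c := cellOf 887) 3 (reply_centre R6_1.reply) (by decide)
  · exact reply_sym (c := cellOf 886) 7 (reply_centre R5_1.reply) (by decide)
  · exact reply_sym (c := cellOf 845) 3 (reply_centre R5_0.reply) (by decide)
  · exact reply_sym (c := cellOf 886) 3 (reply_centre R5_1.reply) (by decide)
  · exact reply_sym (c := cellOf 968) 3 (reply_centre R5_3.reply) (by decide)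
  · exact reply_sym (c := cellOf 1008) 2 (reply_centre R4_4.reply) (by decide)
  · exact reply_sym (c := cellOf 967) 7 (reply_centre R4_3.reply) (by decide)
  · exact reply_sym (c := cellOf 926) 7 (reply_centre R4_2.reply) (by decide)
  · exact reply_sym (c := cellOf 885) 7 (reply_centre R4_1.reply) (by decide)
  · exact reply_sym (c := cellOf 844) 3 (reply_centre R4_0.reply) (by decide)
  · exact reply_sym (c := cellOf 885) 3 (reply_centre R4_1.reply) (by decide)
  · exact reply_sym (c := cellOf 926) 3 (reply_centre R4_2.reply) (by decide)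
  · exact reply_sym (c := cellOf 967) 3 (reply_centre R4_3.reply) (by decide)
  · exact reply_sym (c := cellOf 1008) 3 (reply_centre R4_4.reply) (by decide)
  · exact reply_sym (c := cellOf 967) 2 (reply_centre R4_3.reply) (by decide)
  · exact reply_sym (c := cellOf 966) 2 (reply_centre R3_3.reply) (by decide)
  · exact reply_sym (c := cellOf 925) 7 (reply_centre R3_2.reply) (by decide)
  · exact reply_sym (c := cellOf 884) 7 (reply_centre R3_1.reply) (by decide)
  · exact reply_sym (c := cellOf 843) 3 (reply_centre R3_0.reply) (by decide)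
  · exact reply_sym (c := cellOf 884) 3 (reply_centre R3_1.reply) (by decide)
  · exact reply_sym (c := cellOf 925) 3 (reply_centre R3_2.reply) (by decide)
  · exact reply_sym (c := cellOf 966) 3 (reply_centre R3_3.reply) (by decide)
  · exact reply_sym (c := cellOf 967) 5 (reply_centre R4_3.reply) (by decide)
  · exact reply_sym (c := cellOf 927) 2 (reply_centre R5_2.reply) (by decide)
  · exact reply_sym (c := cellOf 926) 2 (reply_centre R4_2.reply) (by decide)
  · exact reply_sym (c := cellOf 925) 2 (reply_centre R3_2.reply) (by decide)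
  · exact reply_sym (c := cellOf 924) 2 (reply_centre R2_2.reply) (by decide)
  · exact reply_sym (c := cellOf 883) 7 (reply_centre R2_1.reply) (by decide)
  · exact reply_sym (c := cellOf 842) 3 (reply_centre R2_0.reply) (by decide)
  · exact reply_sym (c := cellOf 883) 3 (reply_centre R2_1.reply) (by decide)
  · exact reply_sym (c := cellOf 924) 3 (reply_centre R2_2.reply) (by decide)
  · exact reply_sym (c := cellOf 925) 5 (reply_centre R3_2.reply) (by decide)
  · exact reply_sym (c := cellOf 926) 5 (reply_centre R4_2.reply) (by decide)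
  · exact reply_sym (c := cellOf 927) 5 (reply_centre R5_2.reply) (by decide)
  · exact reply_sym (c := cellOf 886) 2 (reply_centre R5_1.reply) (by decide)
  · exact reply_sym (c := cellOf 885) 2 (reply_centre R4_1.reply) (by decide)
  · exact reply_sym (c := cellOf 884) 2 (reply_centre R3_1.reply) (by decide)
  · exact reply_sym (c := cellOf 883) 2 (reply_centre R2_1.reply) (by decide)
  · exact reply_sym (c := cellOf 882) 2 (reply_centre R1_1.reply) (by decide)
  · simp at hadj
  · exact reply_sym (c := cellOf 882) 3 (reply_centre R1_1.reply) (by decide)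
  · exact reply_sym (c := cellOf 883) 5 (reply_centre R2_1.reply) (by decide)
  · exact reply_sym (c := cellOf 884) 5 (reply_centre R3_1.reply) (by decide)
  · exact reply_sym (c := cellOf 885) 5 (reply_centre R4_1.reply) (by decide)
  · exact reply_sym (c := cellOf 844) 2 (reply_centre R4_0.reply) (by decide)
  · exact reply_sym (c := cellOf 843) 2 (reply_centre R3_0.reply) (by decide)
  · exact reply_sym (c := cellOf 842) 2 (reply_centre R2_0.reply) (by decide)
  · simp at hadj
  · simp at hadj
  · exact reply_sym (c := cellOf 842) 0 (reply_centre R2_0.reply) (by decide)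
  · exact reply_sym (c := cellOf 843) 0 (reply_centre R3_0.reply) (by decide)
  · exact reply_sym (c := cellOf 844) 0 (reply_centre R4_0.reply) (by decide)
  · exact reply_sym (c := cellOf 845) 0 (reply_centre R5_0.reply) (by decide)
  · exact reply_sym (c := cellOf 886) 4 (reply_centre R5_1.reply) (by decide)
  · exact reply_sym (c := cellOf 885) 4 (reply_centre R4_1.reply) (by decide)
  · exact reply_sym (c := cellOf 884) 4 (reply_centre R3_1.reply) (by decide)
  · exact reply_sym (c := cellOf 883) 4 (reply_centre R2_1.reply) (by decide)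
  · exact reply_sym (c := cellOf 882) 1 (reply_centre R1_1.reply) (by decide)
  · simp at hadj
  · exact reply_sym (c := cellOf 882) 0 (reply_centre R1_1.reply) (by decide)
  · exact reply_sym (c := cellOf 883) 0 (reply_centre R2_1.reply) (by decide)
  · exact reply_sym (c := cellOf 884) 0 (reply_centre R3_1.reply) (by decide)
  · exact reply_sym (c := cellOf 885) 0 (reply_centre R4_1.reply) (by decide)
  · exact reply_sym (c := cellOf 886) 0 (reply_centre R5_1.reply) (by decide)
  · exact reply_sym (c := cellOf 926) 4 (reply_centre R4_2.reply) (by decide)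
  · exact reply_sym (c := cellOf 925) 4 (reply_centre R3_2.reply) (by decide)
  · exact reply_sym (c := cellOf 924) 1 (reply_centre R2_2.reply) (by decide)
  · exact reply_sym (c := cellOf 883) 1 (reply_centre R2_1.reply) (by decide)
  · exact reply_sym (c := cellOf 842) 1 (reply_centre R2_0.reply) (by decide)
  · exact reply_sym (c := cellOf 883) 6 (reply_centre R2_1.reply) (by decide)
  · exact reply_sym (c := cellOf 924) 0 (reply_centre R2_2.reply) (by decide)
  · exact reply_sym (c := cellOf 925) 0 (reply_centre R3_2.reply) (by decide)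
  · exact reply_sym (c := cellOf 926) 0 (reply_centre R4_2.reply) (by decide)
  · exact reply_sym (c := cellOf 967) 4 (reply_centre R4_3.reply) (by decide)
  · exact reply_sym (c := cellOf 966) 1 (reply_centre R3_3.reply) (by decide)
  · exact reply_sym (c := cellOf 925) 1 (reply_centre R3_2.reply) (by decide)
  · exact reply_sym (c := cellOf 884) 1 (reply_centre R3_1.reply) (by decide)
  · exact reply_sym (c := cellOf 843) 1 (reply_centre R3_0.reply) (by decide)
  · exact reply_sym (c := cellOf 884) 6 (reply_centre R3_1.reply) (by decide)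
  · exact reply_sym (c := cellOf 925) 6 (reply_centre R3_2.reply) (by decide)
  · exact reply_sym (c := cellOf 966) 0 (reply_centre R3_3.reply) (by decide)
  · exact reply_sym (c := cellOf 967) 0 (reply_centre R4_3.reply) (by decide)
  · exact reply_sym (c := cellOf 885) 1 (reply_centre R4_1.reply) (by decide)
  · exact reply_sym (c := cellOf 844) 1 (reply_centre R4_0.reply) (by decide)
  · exact reply_sym (c := cellOf 885) 6 (reply_centre R4_1.reply) (by decide)
  · exact reply_sym (c := cellOf 886) 1 (reply_centre R5_1.reply) (by decide)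
  · exact reply_sym (c := cellOf 845) 1 (reply_centre R5_0.reply) (by decide)
  · exact reply_sym (c := cellOf 886) 6 (reply_centre R5_1.reply) (by decide)

theorem reply_far (b : Cell) (hb : ∀ i, passZone.testBit i = true → cellOf i ≠ b) :
    MakerWins {centre} {b} :=
  reply_centre (makerWins_far _ 840 passZone Pass.ok (by decide +kernel) b hb)

theorem reply_all (b : Cell) (hadj : ∀ i, (i = 799 ∨ i = 839 ∨ i = 841 ∨ i = 881) → cellOf i ≠ b) : MakerWins {centre} {b} := by
  by_cases h : ∀ i, passZone.testBit i = true → cellOf i ≠ b
  · exact reply_far b h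
  · push Not at h
    obtain ⟨i, hi, rfl⟩ := h
    refine reply_in_zone i (pass_bit hi) ⟨?_, ?_, ?_, ?_⟩ <;> (rintro rfl; exact absurd rfl (hadj _ (by simp)))

end Vale.Agent.Snaky
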