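import Vale.Agent.Snaky.Assemble

namespace Vale.Agent.Snaky.Pass

open Vale.Agent.Snaky

noncomputable def n0 : Strat := .win 675 7 675
noncomputable def n1 : Strat := .win 757 7 716
noncomputable def n2 : Strat := .win 677 3 676
noncomputable def n3 : Strat := .win 759 3 717
noncomputable def n4 : Strat := .move 718 n2 (.cons 677 n3 .nil)
noncomputable def n5 : Strat := .move 881 n1 (.cons 757 n4 .nil)
noncomputable def n6 : Strat := .move 716 n0 (.cons 675 n5 .nil)
noncomputable def n7 : Strat := .win 882 6 717
noncomputable def n8 : Strat := .win 800 6 676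
noncomputable def n9 : Strat := .win 880 1 716
noncomputable def n10 : Strat := .win 798 1 675
noncomputable def n11 : Strat := .move 839 n9 (.cons 880 n10 .nil)
noncomputable def n12 : Strat := .move 676 n8 (.cons 800 n11 .nil)
noncomputable def n13 : Strat := .move 841 n7 (.cons 882 n12 .nil)
noncomputable def n14 : Strat := .move 717 n6 (.cons 716 n13 .nil)
noncomputable def n15 : Strat := .win 718 3 676
noncomputable def n16 : Strat := .win 636 3 635
noncomputable def n17 : Strat := .move 677 n15 (.cons 718 n16 .nil)
noncomputable def n18 : Strat := .move 676 n8 (.cons 800 n17 .nil)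
noncomputable def n19 : Strat := .move 841 n7 (.cons 882 n18 .nil)
noncomputable def n20 : Strat := .win 839 1 716
noncomputable def n21 : Strat := .win 921 1 757
noncomputable def n22 : Strat := .move 880 n20 (.cons 839 n21 .nil)
noncomputable def n23 : Strat := .move 881 n3 (.cons 759 n22 .nil)
noncomputable def n24 : Strat := .move 718 n2 (.cons 677 n23 .nil)
noncomputable def n25 : Strat := .move 717 n13 (.cons 839 n19 (.cons 841 n24 .nil))
noncomputable def n26 : Strat := .move 841 n7 (.cons 882 n8 .nil)
noncomputable def n27 : Strat := .move 676 n10 (.cons 798 n26 .nil)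
noncomputable def n28 : Strat := .move 839 n9 (.cons 880 n27 .nil)
noncomputable def n29 : Strat := .win 716 7 675
noncomputable def n30 : Strat := .win 634 7 634
noncomputable def n31 : Strat := .move 675 n29 (.cons 716 n30 .nil)
noncomputable def n32 : Strat := .move 676 n10 (.cons 798 n31 .nil)
noncomputable def n33 : Strat := .move 839 n9 (.cons 880 n32 .nil)
noncomputable def n34 : Strat := .win 841 6 717
noncomputable def n35 : Strat := .win 923 6 758
noncomputable def n36 : Strat := .move 882 n34 (.cons 841 n35 .nil)
noncomputable def n37 : Strat := .move 881 n1 (.cons 757 n36 .nil)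
noncomputable def n38 : Strat := .move 716 n0 (.cons 675 n37 .nil)
noncomputable def n39 : Strat := .move 717 n28 (.cons 841 n33 (.cons 839 n38 .nil))
noncomputable def n40 : Strat := .win 718 3 717
noncomputable def n41 : Strat := .win 800 3 758
noncomputable def n42 : Strat := .win 716 7 716
noncomputable def n43 : Strat := .win 798 7 757
noncomputable def n44 : Strat := .move 757 n42 (.cons 716 n43 .nil)
noncomputable def n45 : Strat := .move 922 n41 (.cons 800 n44 .nil)
noncomputable def n46 : Strat := .move 759 n40 (.cons 718 n45 .nil)
noncomputable def n47 : Strat := .win 882 6 758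
noncomputable def n48 : Strat := .win 964 6 799
noncomputable def n49 : Strat := .move 923 n47 (.cons 882 n48 .nil)
noncomputable def n50 : Strat := .move 922 n41 (.cons 800 n49 .nil)
noncomputable def n51 : Strat := .move 759 n40 (.cons 718 n50 .nil)
noncomputable def n52 : Strat := .move 716 n0 (.cons 675 n1 .nil)
noncomputable def n53 : Strat := .move 717 n34 (.cons 841 n52 .nil)
noncomputable def n54 : Strat := .move 882 n35 (.cons 923 n53 .nil)
noncomputable def n55 : Strat := .move 881 n46 (.cons 757 n51 (.cons 759 n54 .nil))
noncomputable def n56 : Strat := .move 759 n40 (.cons 718 n41 .nil)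
noncomputable def n57 : Strat := .move 922 n43 (.cons 798 n56 .nil)
noncomputable def n58 : Strat := .move 757 n42 (.cons 716 n57 .nil)
noncomputable def n59 : Strat := .win 880 1 757
noncomputable def n60 : Strat := .win 962 1 798
noncomputable def n61 : Strat := .move 921 n59 (.cons 880 n60 .nil)
noncomputable def n62 : Strat := .move 922 n43 (.cons 798 n61 .nil)
noncomputable def n63 : Strat := .move 757 n42 (.cons 716 n62 .nil)
noncomputable def n64 : Strat := .move 717 n20 (.cons 839 n4 .nil)
noncomputable def n65 : Strat := .move 880 n21 (.cons 921 n64 .nil)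
noncomputable def n66 : Strat := .move 881 n58 (.cons 759 n63 (.cons 757 n65 .nil))
noncomputable def n67 : Strat := .move 881 n3 (.cons 759 n52 .nil)
noncomputable def n68 : Strat := .move 718 n2 (.cons 677 n67 .nil)
noncomputable def n69 : Strat := .move 881 n3 (.cons 759 n36 .nil)
noncomputable def n70 : Strat := .move 718 n2 (.cons 677 n69 .nil)
noncomputable def n71 : Strat := .move 676 n8 (.cons 800 n31 .nil)
noncomputable def n72 : Strat := .move 841 n7 (.cons 882 n71 .nil)
noncomputable def n73 : Strat := .move 717 n68 (.cons 716 n70 (.cons 718 n72 .nil))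
noncomputable def n74 : Strat := .move 717 n20 (.cons 839 n36 .nil)
noncomputable def n75 : Strat := .move 880 n21 (.cons 921 n74 .nil)
noncomputable def n76 : Strat := .move 717 n20 (.cons 839 n52 .nil)
noncomputable def n77 : Strat := .move 880 n21 (.cons 921 n76 .nil)
noncomputable def n78 : Strat := .move 922 n43 (.cons 798 n49 .nil)
noncomputable def n79 : Strat := .move 757 n42 (.cons 716 n78 .nil)
noncomputable def n80 : Strat := .move 881 n75 (.cons 882 n77 (.cons 880 n79 .nil))
noncomputable def n81 : Strat := .move 922 n41 (.cons 800 n61 .nil)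
noncomputable def n82 : Strat := .move 759 n40 (.cons 718 n81 .nil)
noncomputable def n83 : Strat := .win 801 0 756
noncomputable def n84 : Strat := .win 755 0 755
noncomputable def n85 : Strat := .move 800 n83 (.cons 801 n84 .nil)
noncomputable def n86 : Strat := .win 760 4 756
noncomputable def n87 : Strat := .win 796 4 755
noncomputable def n88 : Strat := .move 797 n86 (.cons 760 n87 .nil)
noncomputable def n89 : Strat := .win 761 4 757
noncomputable def n90 : Strat := .win 797 4 756
noncomputable def n91 : Strat := .move 760 n89 (.cons 761 n90 .nil)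
noncomputable def n92 : Strat := .win 839 7 715
noncomputable def n93 : Strat := .win 714 2 714
noncomputable def n94 : Strat := .move 715 n92 (.cons 839 n93 .nil)
noncomputable def n95 : Strat := .move 798 n88 (.cons 796 n91 (.cons 760 n94 .nil))
noncomputable def n96 : Strat := .move 756 n85 (.cons 755 n95 .nil)
noncomputable def n97 : Strat := .move 880 n21 (.cons 921 n96 .nil)
noncomputable def n98 : Strat := .move 759 n40 (.cons 718 n97 .nil)
noncomputable def n99 : Strat := .move 757 n42 (.cons 716 n98 .nil)
noncomputable def n100 : Strat := .move 881 n58 (.cons 757 n82 (.cons 759 n79 (.cons 922 n99 .nil)))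
noncomputable def n101 : Strat := .move 676 n10 (.cons 798 n17 .nil)
noncomputable def n102 : Strat := .move 839 n9 (.cons 880 n101 .nil)
noncomputable def n103 : Strat := .win 760 0 715
noncomputable def n104 : Strat := .win 714 0 714
noncomputable def n105 : Strat := .move 759 n103 (.cons 760 n104 .nil)
noncomputable def n106 : Strat := .win 719 4 715
noncomputable def n107 : Strat := .win 755 4 714
noncomputable def n108 : Strat := .move 756 n106 (.cons 719 n107 .nil)
noncomputable def n109 : Strat := .win 720 4 716
noncomputable def n110 : Strat := .win 756 4 715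
noncomputable def n111 : Strat := .move 719 n109 (.cons 720 n110 .nil)
noncomputable def n112 : Strat := .win 798 7 674
noncomputable def n113 : Strat := .win 673 2 673
noncomputable def n114 : Strat := .move 674 n112 (.cons 798 n113 .nil)
noncomputable def n115 : Strat := .move 757 n108 (.cons 755 n111 (.cons 719 n114 .nil))
noncomputable def n116 : Strat := .move 715 n105 (.cons 714 n115 .nil)
noncomputable def n117 : Strat := .move 839 n9 (.cons 880 n116 .nil)
noncomputable def n118 : Strat := .move 718 n2 (.cons 677 n117 .nil)
noncomputable def n119 : Strat := .move 716 n0 (.cons 675 n118 .nil)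
noncomputable def n120 : Strat := .move 717 n13 (.cons 841 n102 (.cons 839 n72 (.cons 676 n119 .nil)))
noncomputable def n121 : Strat := .move 758 n14 (.cons 757 n25 (.cons 759 n39 (.cons 839 n55 (.cons 841 n66 (.cons 798 n73 (.cons 800 n80 (.cons 717 n100 (.cons 881 n120 .nil))))))))
noncomputable def n122 : Strat := .win 676 6 676
noncomputable def n123 : Strat := .win 802 4 798
noncomputable def n124 : Strat := .win 838 5 797
noncomputable def n125 : Strat := .move 801 n123 (.cons 802 n124 .nil)
noncomputable def n126 : Strat := .move 839 n9 (.cons 880 n125 .nil)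
noncomputable def n127 : Strat := .move 800 n122 (.cons 676 n126 .nil)
noncomputable def n128 : Strat := .move 841 n7 (.cons 882 n127 .nil)
noncomputable def n129 : Strat := .move 717 n70 (.cons 881 n19 (.cons 841 n24 (.cons 677 n128 .nil)))
noncomputable def n130 : Strat := .move 881 n1 (.cons 757 n22 .nil)
noncomputable def n131 : Strat := .move 716 n0 (.cons 675 n130 .nil)
noncomputable def n132 : Strat := .win 595 3 594
noncomputable def n133 : Strat := .win 677 3 635
noncomputable def n134 : Strat := .move 636 n132 (.cons 595 n133 .nil)
noncomputable def n135 : Strat := .win 593 7 593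
noncomputable def n136 : Strat := .win 675 7 634
noncomputable def n137 : Strat := .move 634 n135 (.cons 593 n136 .nil)
noncomputable def n138 : Strat := .move 635 n134 (.cons 677 n137 .nil)
noncomputable def n139 : Strat := .move 881 n21 (.cons 921 n138 .nil)
noncomputable def n140 : Strat := .move 880 n20 (.cons 839 n139 .nil)
noncomputable def n141 : Strat := .move 676 n8 (.cons 800 n140 .nil)
noncomputable def n142 : Strat := .move 841 n7 (.cons 882 n141 .nil)
noncomputable def n143 : Strat := .move 717 n72 (.cons 841 n131 (.cons 716 n142 (.cons 675 n128 .nil)))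
noncomputable def n144 : Strat := .win 1003 1 839
noncomputable def n145 : Strat := .win 921 1 798
noncomputable def n146 : Strat := .move 962 n144 (.cons 1003 n145 .nil)
noncomputable def n147 : Strat := .win 1005 6 840
noncomputable def n148 : Strat := .win 923 6 799
noncomputable def n149 : Strat := .move 964 n147 (.cons 1005 n148 .nil)
noncomputable def n150 : Strat := .move 963 n146 (.cons 921 n149 .nil)
noncomputable def n151 : Strat := .move 717 n0 (.cons 675 n150 .nil)
noncomputable def n152 : Strat := .move 716 n1 (.cons 757 n151 .nil)
noncomputable def n153 : Strat := .move 922 n41 (.cons 800 n152 .nil)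
noncomputable def n154 : Strat := .move 759 n40 (.cons 718 n153 .nil)
noncomputable def n155 : Strat := .win 922 3 758
noncomputable def n156 : Strat := .win 756 0 756
noncomputable def n157 : Strat := .win 802 2 757
noncomputable def n158 : Strat := .move 801 n156 (.cons 756 n157 .nil)
noncomputable def n159 : Strat := .move 757 n42 (.cons 716 n158 .nil)
noncomputable def n160 : Strat := .move 800 n155 (.cons 922 n159 .nil)
noncomputable def n161 : Strat := .move 759 n40 (.cons 718 n160 .nil)
noncomputable def n162 : Strat := .move 881 n82 (.cons 759 n77 (.cons 880 n154 (.cons 921 n161 .nil)))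
noncomputable def n163 : Strat := .move 881 n3 (.cons 759 n1 .nil)
noncomputable def n164 : Strat := .move 718 n2 (.cons 677 n163 .nil)
noncomputable def n165 : Strat := .move 716 n0 (.cons 675 n164 .nil)
noncomputable def n166 : Strat := .move 839 n9 (.cons 880 n165 .nil)
noncomputable def n167 : Strat := .move 757 n110 (.cons 756 n109 .nil)
noncomputable def n168 : Strat := .win 761 0 716
noncomputable def n169 : Strat := .win 759 0 715
noncomputable def n170 : Strat := .move 760 n168 (.cons 761 n169 .nil)
noncomputable def n171 : Strat := .win 757 4 715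
noncomputable def n172 : Strat := .move 756 n171 (.cons 757 n107 .nil)
noncomputable def n173 : Strat := .move 715 n105 (.cons 714 n170 (.cons 760 n172 .nil))
noncomputable def n174 : Strat := .win 757 4 716
noncomputable def n175 : Strat := .win 762 0 717
noncomputable def n176 : Strat := .win 760 0 716
noncomputable def n177 : Strat := .move 761 n175 (.cons 762 n176 .nil)
noncomputable def n178 : Strat := .move 720 n174 (.cons 757 n177 .nil)
noncomputable def n179 : Strat := .win 680 5 676
noncomputable def n180 : Strat := .win 678 5 675
noncomputable def n181 : Strat := .move 679 n179 (.cons 680 n180 .nil)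
noncomputable def n182 : Strat := .move 720 n177 (.cons 760 n181 .nil)
noncomputable def n183 : Strat := .move 719 n167 (.cons 720 n173 (.cons 756 n178 (.cons 757 n182 .nil)))
noncomputable def n184 : Strat := .move 716 n0 (.cons 675 n183 .nil)
noncomputable def n185 : Strat := .move 718 n2 (.cons 677 n184 .nil)
noncomputable def n186 : Strat := .move 839 n9 (.cons 880 n185 .nil)
noncomputable def n187 : Strat := .move 717 n166 (.cons 716 n24 (.cons 718 n38 (.cons 881 n186 .nil)))
noncomputable def n188 : Strat := .move 756 n83 (.cons 801 n84 .nil)
noncomputable def n189 : Strat := .move 757 n42 (.cons 716 n188 .nil)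
noncomputable def n190 : Strat := .move 800 n155 (.cons 922 n189 .nil)
noncomputable def n191 : Strat := .move 759 n40 (.cons 718 n190 .nil)
noncomputable def n192 : Strat := .move 880 n21 (.cons 921 n191 .nil)
noncomputable def n193 : Strat := .move 882 n35 (.cons 923 n192 .nil)
noncomputable def n194 : Strat := .win 842 5 838
noncomputable def n195 : Strat := .win 878 5 837
noncomputable def n196 : Strat := .move 841 n194 (.cons 842 n195 .nil)
noncomputable def n197 : Strat := .win 839 2 838
noncomputable def n198 : Strat := .win 837 2 837
noncomputable def n199 : Strat := .move 838 n197 (.cons 839 n198 .nil)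
noncomputable def n200 : Strat := .win 884 2 839
noncomputable def n201 : Strat := .win 838 2 838
noncomputable def n202 : Strat := .move 839 n200 (.cons 884 n201 .nil)
noncomputable def n203 : Strat := .win 843 5 839
noncomputable def n204 : Strat := .win 841 5 838
noncomputable def n205 : Strat := .move 842 n203 (.cons 843 n204 .nil)
noncomputable def n206 : Strat := .move 883 n199 (.cons 837 n202 (.cons 839 n205 .nil))
noncomputable def n207 : Strat := .win 841 5 837
noncomputable def n208 : Strat := .win 836 2 836
noncomputable def n209 : Strat := .win 838 2 837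
noncomputable def n210 : Strat := .move 837 n208 (.cons 836 n209 .nil)
noncomputable def n211 : Strat := .move 878 n207 (.cons 841 n210 .nil)
noncomputable def n212 : Strat := .win 918 4 877
noncomputable def n213 : Strat := .win 920 4 878
noncomputable def n214 : Strat := .move 919 n212 (.cons 918 n213 .nil)
noncomputable def n215 : Strat := .move 878 n210 (.cons 838 n214 .nil)
noncomputable def n216 : Strat := .move 879 n196 (.cons 878 n206 (.cons 842 n211 (.cons 841 n215 .nil)))
noncomputable def n217 : Strat := .move 882 n35 (.cons 923 n216 .nil)
noncomputable def n218 : Strat := .move 880 n21 (.cons 921 n217 .nil)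
noncomputable def n219 : Strat := .move 759 n40 (.cons 718 n218 .nil)
noncomputable def n220 : Strat := .move 759 n81 (.cons 880 n50 (.cons 800 n218 .nil))
noncomputable def n221 : Strat := .win 926 0 881
noncomputable def n222 : Strat := .win 924 0 880
noncomputable def n223 : Strat := .move 925 n221 (.cons 926 n222 .nil)
noncomputable def n224 : Strat := .win 885 2 840
noncomputable def n225 : Strat := .win 879 5 838
noncomputable def n226 : Strat := .move 841 n224 (.cons 885 n225 .nil)
noncomputable def n227 : Strat := .move 884 n223 (.cons 924 n226 .nil)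
noncomputable def n228 : Strat := .move 842 n203 (.cons 843 n227 .nil)
noncomputable def n229 : Strat := .move 879 n198 (.cons 837 n196 .nil)
noncomputable def n230 : Strat := .move 838 n197 (.cons 839 n229 .nil)
noncomputable def n231 : Strat := .move 883 n202 (.cons 839 n228 (.cons 884 n230 .nil))
noncomputable def n232 : Strat := .move 880 n21 (.cons 921 n231 .nil)
noncomputable def n233 : Strat := .move 882 n35 (.cons 923 n232 .nil)
noncomputable def n234 : Strat := .move 881 n193 (.cons 882 n82 (.cons 880 n51 (.cons 800 n219 (.cons 718 n220 (.cons 759 n233 .nil)))))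
noncomputable def n235 : Strat := .win 801 5 797
noncomputable def n236 : Strat := .win 837 5 796
noncomputable def n237 : Strat := .move 838 n235 (.cons 801 n236 .nil)
noncomputable def n238 : Strat := .move 839 n9 (.cons 880 n237 .nil)
noncomputable def n239 : Strat := .move 800 n122 (.cons 676 n238 .nil)
noncomputable def n240 : Strat := .move 841 n7 (.cons 882 n239 .nil)
noncomputable def n241 : Strat := .move 716 n0 (.cons 675 n240 .nil)
noncomputable def n242 : Strat := .move 718 n2 (.cons 677 n241 .nil)
noncomputable def n243 : Strat := .move 717 n242 (.cons 718 n72 (.cons 716 n19 (.cons 800 n186 .nil)))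
noncomputable def n244 : Strat := .move 758 n73 (.cons 716 n129 (.cons 718 n143 (.cons 882 n162 (.cons 800 n187 (.cons 717 n234 (.cons 881 n243 .nil))))))
noncomputable def n245 : Strat := .win 922 7 757
noncomputable def n246 : Strat := .win 796 5 755
noncomputable def n247 : Strat := .move 797 n86 (.cons 760 n246 .nil)
noncomputable def n248 : Strat := .move 759 n40 (.cons 718 n247 .nil)
noncomputable def n249 : Strat := .move 798 n245 (.cons 922 n248 .nil)
noncomputable def n250 : Strat := .move 757 n42 (.cons 716 n249 .nil)
noncomputable def n251 : Strat := .move 881 n77 (.cons 717 n63 (.cons 757 n65 (.cons 921 n250 .nil)))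
noncomputable def n252 : Strat := .move 717 n34 (.cons 841 n4 .nil)
noncomputable def n253 : Strat := .move 882 n35 (.cons 923 n252 .nil)
noncomputable def n254 : Strat := .move 717 n2 (.cons 677 n150 .nil)
noncomputable def n255 : Strat := .move 718 n3 (.cons 759 n254 .nil)
noncomputable def n256 : Strat := .move 922 n43 (.cons 798 n255 .nil)
noncomputable def n257 : Strat := .move 757 n42 (.cons 716 n256 .nil)
noncomputable def n258 : Strat := .move 881 n79 (.cons 757 n253 (.cons 882 n257 (.cons 923 n250 .nil)))
noncomputable def n259 : Strat := .move 881 n35 (.cons 923 n138 .nil)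
noncomputable def n260 : Strat := .move 882 n34 (.cons 841 n259 .nil)
noncomputable def n261 : Strat := .move 676 n10 (.cons 798 n260 .nil)
noncomputable def n262 : Strat := .move 839 n9 (.cons 880 n261 .nil)
noncomputable def n263 : Strat := .win 676 1 675
noncomputable def n264 : Strat := .win 796 0 796
noncomputable def n265 : Strat := .win 842 2 797
noncomputable def n266 : Strat := .move 797 n264 (.cons 796 n265 .nil)
noncomputable def n267 : Strat := .move 841 n7 (.cons 882 n266 .nil)
noncomputable def n268 : Strat := .move 798 n263 (.cons 676 n267 .nil)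
noncomputable def n269 : Strat := .move 839 n9 (.cons 880 n268 .nil)
noncomputable def n270 : Strat := .move 717 n102 (.cons 839 n70 (.cons 718 n262 (.cons 677 n269 .nil)))
noncomputable def n271 : Strat := .move 797 n265 (.cons 842 n264 .nil)
noncomputable def n272 : Strat := .move 841 n7 (.cons 882 n271 .nil)
noncomputable def n273 : Strat := .move 798 n263 (.cons 676 n272 .nil)
noncomputable def n274 : Strat := .move 839 n9 (.cons 880 n273 .nil)
noncomputable def n275 : Strat := .move 718 n2 (.cons 677 n274 .nil)
noncomputable def n276 : Strat := .move 716 n0 (.cons 675 n275 .nil)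
noncomputable def n277 : Strat := .move 839 n101 (.cons 718 n32 (.cons 798 n185 .nil))
noncomputable def n278 : Strat := .move 759 n104 (.cons 714 n103 .nil)
noncomputable def n279 : Strat := .win 713 0 713
noncomputable def n280 : Strat := .move 757 n279 (.cons 713 n106 .nil)
noncomputable def n281 : Strat := .win 672 2 672
noncomputable def n282 : Strat := .win 674 2 673
noncomputable def n283 : Strat := .move 673 n281 (.cons 672 n282 .nil)
noncomputable def n284 : Strat := .move 714 n280 (.cons 719 n283 .nil)
noncomputable def n285 : Strat := .move 756 n107 (.cons 755 n284 .nil)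
noncomputable def n286 : Strat := .move 719 n168 (.cons 761 n172 .nil)
noncomputable def n287 : Strat := .move 760 n169 (.cons 759 n286 .nil)
noncomputable def n288 : Strat := .move 715 n278 (.cons 759 n285 (.cons 714 n287 .nil))
noncomputable def n289 : Strat := .move 718 n2 (.cons 677 n288 .nil)
noncomputable def n290 : Strat := .move 716 n0 (.cons 675 n289 .nil)
noncomputable def n291 : Strat := .move 717 n276 (.cons 716 n102 (.cons 718 n33 (.cons 798 n186 (.cons 880 n277 (.cons 839 n290 .nil)))))
noncomputable def n292 : Strat := .move 759 n40 (.cons 718 n91 .nil)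
noncomputable def n293 : Strat := .move 798 n245 (.cons 922 n292 .nil)
noncomputable def n294 : Strat := .move 757 n42 (.cons 716 n293 .nil)
noncomputable def n295 : Strat := .move 882 n35 (.cons 923 n294 .nil)
noncomputable def n296 : Strat := .move 880 n21 (.cons 921 n295 .nil)
noncomputable def n297 : Strat := .move 881 n296 (.cons 880 n79 (.cons 882 n63 (.cons 798 n219 .nil)))
noncomputable def n298 : Strat := .move 758 n80 (.cons 882 n251 (.cons 880 n258 (.cons 716 n270 (.cons 798 n187 (.cons 881 n291 (.cons 717 n297 .nil))))))
noncomputable def n299 : Strat := .move 758 n46 (.cons 757 n51 (.cons 759 n54 .nil))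
noncomputable def n300 : Strat := .move 718 n3 (.cons 759 n2 .nil)
noncomputable def n301 : Strat := .move 717 n34 (.cons 841 n300 .nil)
noncomputable def n302 : Strat := .move 882 n35 (.cons 923 n301 .nil)
noncomputable def n303 : Strat := .win 717 6 717
noncomputable def n304 : Strat := .win 843 4 839
noncomputable def n305 : Strat := .move 842 n304 (.cons 843 n225 .nil)
noncomputable def n306 : Strat := .move 880 n21 (.cons 921 n305 .nil)
noncomputable def n307 : Strat := .move 841 n303 (.cons 717 n306 .nil)
noncomputable def n308 : Strat := .move 882 n35 (.cons 923 n307 .nil)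
noncomputable def n309 : Strat := .move 758 n51 (.cons 922 n302 (.cons 882 n82 (.cons 718 n308 .nil)))
noncomputable def n310 : Strat := .move 677 n16 (.cons 636 n15 .nil)
noncomputable def n311 : Strat := .move 675 n30 (.cons 634 n29 .nil)
noncomputable def n312 : Strat := .move 676 n310 (.cons 718 n311 .nil)
noncomputable def n313 : Strat := .move 922 n60 (.cons 962 n312 .nil)
noncomputable def n314 : Strat := .move 921 n59 (.cons 880 n313 .nil)
noncomputable def n315 : Strat := .move 717 n34 (.cons 841 n314 .nil)
noncomputable def n316 : Strat := .move 882 n35 (.cons 923 n315 .nil)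
noncomputable def n317 : Strat := .move 758 n54 (.cons 882 n63 (.cons 757 n316 (.cons 716 n308 .nil)))
noncomputable def n318 : Strat := .win 759 3 758
noncomputable def n319 : Strat := .win 841 3 799
noncomputable def n320 : Strat := .move 962 n145 (.cons 921 n144 .nil)
noncomputable def n321 : Strat := .move 963 n319 (.cons 841 n320 .nil)
noncomputable def n322 : Strat := .move 800 n318 (.cons 759 n321 .nil)
noncomputable def n323 : Strat := .move 758 n59 (.cons 880 n44 .nil)
noncomputable def n324 : Strat := .move 921 n60 (.cons 962 n323 .nil)
noncomputable def n325 : Strat := .win 1044 1 880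
noncomputable def n326 : Strat := .win 962 1 839
noncomputable def n327 : Strat := .move 1003 n325 (.cons 1044 n326 .nil)
noncomputable def n328 : Strat := .win 1046 6 881
noncomputable def n329 : Strat := .win 964 6 840
noncomputable def n330 : Strat := .move 1005 n328 (.cons 1046 n329 .nil)
noncomputable def n331 : Strat := .move 1004 n327 (.cons 962 n330 .nil)
noncomputable def n332 : Strat := .move 758 n42 (.cons 716 n331 .nil)
noncomputable def n333 : Strat := .move 757 n43 (.cons 798 n332 .nil)
noncomputable def n334 : Strat := .move 963 n319 (.cons 841 n333 .nil)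
noncomputable def n335 : Strat := .move 800 n318 (.cons 759 n334 .nil)
noncomputable def n336 : Strat := .win 963 3 799
noncomputable def n337 : Strat := .win 757 7 757
noncomputable def n338 : Strat := .win 797 0 797
noncomputable def n339 : Strat := .win 843 2 798
noncomputable def n340 : Strat := .move 842 n338 (.cons 797 n339 .nil)
noncomputable def n341 : Strat := .move 798 n337 (.cons 757 n340 .nil)
noncomputable def n342 : Strat := .move 841 n336 (.cons 963 n341 .nil)
noncomputable def n343 : Strat := .move 800 n318 (.cons 759 n342 .nil)
noncomputable def n344 : Strat := .move 922 n322 (.cons 800 n324 (.cons 921 n335 (.cons 962 n343 .nil)))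
noncomputable def n345 : Strat := .move 922 n41 (.cons 800 n43 .nil)
noncomputable def n346 : Strat := .move 759 n40 (.cons 718 n345 .nil)
noncomputable def n347 : Strat := .move 757 n42 (.cons 716 n346 .nil)
noncomputable def n348 : Strat := .move 880 n21 (.cons 921 n347 .nil)
noncomputable def n349 : Strat := .move 798 n90 (.cons 797 n89 .nil)
noncomputable def n350 : Strat := .win 802 0 757
noncomputable def n351 : Strat := .win 800 0 756
noncomputable def n352 : Strat := .move 801 n350 (.cons 802 n351 .nil)
noncomputable def n353 : Strat := .win 798 4 756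
noncomputable def n354 : Strat := .move 797 n353 (.cons 798 n87 .nil)
noncomputable def n355 : Strat := .move 756 n85 (.cons 755 n352 (.cons 801 n354 .nil))
noncomputable def n356 : Strat := .win 798 4 757
noncomputable def n357 : Strat := .win 803 0 758
noncomputable def n358 : Strat := .win 801 0 757
noncomputable def n359 : Strat := .move 802 n357 (.cons 803 n358 .nil)
noncomputable def n360 : Strat := .move 761 n356 (.cons 798 n359 .nil)
noncomputable def n361 : Strat := .win 721 5 717
noncomputable def n362 : Strat := .win 719 5 716
noncomputable def n363 : Strat := .move 720 n361 (.cons 721 n362 .nil)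
noncomputable def n364 : Strat := .move 761 n359 (.cons 801 n363 .nil)
noncomputable def n365 : Strat := .move 760 n349 (.cons 761 n355 (.cons 797 n360 (.cons 798 n364 .nil)))
noncomputable def n366 : Strat := .move 757 n42 (.cons 716 n365 .nil)
noncomputable def n367 : Strat := .move 759 n40 (.cons 718 n366 .nil)
noncomputable def n368 : Strat := .move 880 n21 (.cons 921 n367 .nil)
noncomputable def n369 : Strat := .move 758 n348 (.cons 757 n82 (.cons 759 n79 (.cons 922 n368 .nil)))
noncomputable def n370 : Strat := .win 842 0 797
noncomputable def n371 : Strat := .move 797 n370 (.cons 842 n264 .nil)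
noncomputable def n372 : Strat := .move 798 n337 (.cons 757 n371 .nil)
noncomputable def n373 : Strat := .move 841 n336 (.cons 963 n372 .nil)
noncomputable def n374 : Strat := .move 800 n318 (.cons 759 n373 .nil)
noncomputable def n375 : Strat := .move 921 n60 (.cons 962 n374 .nil)
noncomputable def n376 : Strat := .move 923 n48 (.cons 964 n375 .nil)
noncomputable def n377 : Strat := .move 964 n148 (.cons 923 n147 .nil)
noncomputable def n378 : Strat := .move 963 n319 (.cons 841 n377 .nil)
noncomputable def n379 : Strat := .move 800 n318 (.cons 759 n378 .nil)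
noncomputable def n380 : Strat := .win 883 5 879
noncomputable def n381 : Strat := .win 919 5 878
noncomputable def n382 : Strat := .move 882 n380 (.cons 883 n381 .nil)
noncomputable def n383 : Strat := .win 880 2 879
noncomputable def n384 : Strat := .win 878 2 878
noncomputable def n385 : Strat := .move 879 n383 (.cons 880 n384 .nil)
noncomputable def n386 : Strat := .win 925 2 880
noncomputable def n387 : Strat := .win 879 2 879
noncomputable def n388 : Strat := .move 880 n386 (.cons 925 n387 .nil)
noncomputable def n389 : Strat := .win 884 5 880
noncomputable def n390 : Strat := .win 882 5 879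
noncomputable def n391 : Strat := .move 883 n389 (.cons 884 n390 .nil)
noncomputable def n392 : Strat := .move 924 n385 (.cons 878 n388 (.cons 880 n391 .nil))
noncomputable def n393 : Strat := .win 882 5 878
noncomputable def n394 : Strat := .win 877 2 877
noncomputable def n395 : Strat := .win 879 2 878
noncomputable def n396 : Strat := .move 878 n394 (.cons 877 n395 .nil)
noncomputable def n397 : Strat := .move 919 n393 (.cons 882 n396 .nil)
noncomputable def n398 : Strat := .win 959 4 918
noncomputable def n399 : Strat := .win 961 4 919
noncomputable def n400 : Strat := .move 960 n398 (.cons 959 n399 .nil)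
noncomputable def n401 : Strat := .move 919 n396 (.cons 879 n400 .nil)
noncomputable def n402 : Strat := .move 920 n382 (.cons 919 n392 (.cons 883 n397 (.cons 882 n401 .nil)))
noncomputable def n403 : Strat := .move 923 n48 (.cons 964 n402 .nil)
noncomputable def n404 : Strat := .move 921 n60 (.cons 962 n403 .nil)
noncomputable def n405 : Strat := .move 800 n318 (.cons 759 n404 .nil)
noncomputable def n406 : Strat := .move 800 n321 (.cons 921 n378 (.cons 841 n404 .nil))
noncomputable def n407 : Strat := .win 967 0 922
noncomputable def n408 : Strat := .win 965 0 921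
noncomputable def n409 : Strat := .move 966 n407 (.cons 967 n408 .nil)
noncomputable def n410 : Strat := .win 926 2 881
noncomputable def n411 : Strat := .win 920 5 879
noncomputable def n412 : Strat := .move 882 n410 (.cons 926 n411 .nil)
noncomputable def n413 : Strat := .move 925 n409 (.cons 965 n412 .nil)
noncomputable def n414 : Strat := .move 883 n389 (.cons 884 n413 .nil)
noncomputable def n415 : Strat := .move 920 n384 (.cons 878 n382 .nil)
noncomputable def n416 : Strat := .move 879 n383 (.cons 880 n415 .nil)
noncomputable def n417 : Strat := .move 924 n388 (.cons 880 n414 (.cons 925 n416 .nil))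
noncomputable def n418 : Strat := .move 921 n60 (.cons 962 n417 .nil)
noncomputable def n419 : Strat := .move 923 n48 (.cons 964 n418 .nil)
noncomputable def n420 : Strat := .move 922 n376 (.cons 923 n322 (.cons 921 n379 (.cons 841 n405 (.cons 759 n406 (.cons 800 n419 .nil)))))
noncomputable def n421 : Strat := .move 879 n194 (.cons 842 n195 .nil)
noncomputable def n422 : Strat := .move 880 n21 (.cons 921 n421 .nil)
noncomputable def n423 : Strat := .move 841 n303 (.cons 717 n422 .nil)
noncomputable def n424 : Strat := .move 882 n35 (.cons 923 n423 .nil)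
noncomputable def n425 : Strat := .move 757 n42 (.cons 716 n424 .nil)
noncomputable def n426 : Strat := .move 759 n40 (.cons 718 n425 .nil)
noncomputable def n427 : Strat := .move 716 n1 (.cons 757 n0 .nil)
noncomputable def n428 : Strat := .move 717 n34 (.cons 841 n427 .nil)
noncomputable def n429 : Strat := .move 882 n35 (.cons 923 n428 .nil)
noncomputable def n430 : Strat := .move 758 n426 (.cons 759 n429 (.cons 757 n302 (.cons 841 n368 .nil)))
noncomputable def n431 : Strat := .move 881 n299 (.cons 757 n309 (.cons 759 n317 (.cons 923 n344 (.cons 841 n369 (.cons 758 n420 (.cons 922 n430 .nil))))))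
noncomputable def n432 : Strat := .move 758 n59 (.cons 880 n49 .nil)
noncomputable def n433 : Strat := .move 921 n60 (.cons 962 n432 .nil)
noncomputable def n434 : Strat := .win 839 7 798
noncomputable def n435 : Strat := .move 963 n434 (.cons 839 n377 .nil)
noncomputable def n436 : Strat := .move 798 n337 (.cons 757 n435 .nil)
noncomputable def n437 : Strat := .move 922 n433 (.cons 923 n324 (.cons 921 n436 .nil))
noncomputable def n438 : Strat := .move 963 n434 (.cons 839 n320 .nil)
noncomputable def n439 : Strat := .move 798 n337 (.cons 757 n438 .nil)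
noncomputable def n440 : Strat := .move 758 n59 (.cons 880 n56 .nil)
noncomputable def n441 : Strat := .move 921 n60 (.cons 962 n440 .nil)
noncomputable def n442 : Strat := .win 963 7 798
noncomputable def n443 : Strat := .win 801 4 797
noncomputable def n444 : Strat := .move 838 n443 (.cons 801 n236 .nil)
noncomputable def n445 : Strat := .move 800 n318 (.cons 759 n444 .nil)
noncomputable def n446 : Strat := .move 839 n442 (.cons 963 n445 .nil)
noncomputable def n447 : Strat := .move 798 n337 (.cons 757 n446 .nil)
noncomputable def n448 : Strat := .move 922 n324 (.cons 758 n439 (.cons 798 n441 (.cons 962 n447 .nil)))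
noncomputable def n449 : Strat := .move 758 n47 (.cons 882 n56 .nil)
noncomputable def n450 : Strat := .move 923 n48 (.cons 964 n449 .nil)
noncomputable def n451 : Strat := .move 758 n40 (.cons 718 n331 .nil)
noncomputable def n452 : Strat := .move 759 n41 (.cons 800 n451 .nil)
noncomputable def n453 : Strat := .move 963 n434 (.cons 839 n452 .nil)
noncomputable def n454 : Strat := .move 798 n337 (.cons 757 n453 .nil)
noncomputable def n455 : Strat := .move 922 n436 (.cons 798 n450 (.cons 923 n454 (.cons 964 n447 .nil)))
noncomputable def n456 : Strat := .move 922 n48 (.cons 964 n312 .nil)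
noncomputable def n457 : Strat := .move 923 n47 (.cons 882 n456 .nil)
noncomputable def n458 : Strat := .move 717 n20 (.cons 839 n457 .nil)
noncomputable def n459 : Strat := .move 880 n21 (.cons 921 n458 .nil)
noncomputable def n460 : Strat := .win 717 1 716
noncomputable def n461 : Strat := .win 837 0 837
noncomputable def n462 : Strat := .win 883 2 838
noncomputable def n463 : Strat := .move 838 n461 (.cons 837 n462 .nil)
noncomputable def n464 : Strat := .move 882 n35 (.cons 923 n463 .nil)
noncomputable def n465 : Strat := .move 839 n460 (.cons 717 n464 .nil)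
noncomputable def n466 : Strat := .move 880 n21 (.cons 921 n465 .nil)
noncomputable def n467 : Strat := .move 758 n65 (.cons 880 n51 (.cons 759 n459 (.cons 718 n466 .nil)))
noncomputable def n468 : Strat := .move 838 n462 (.cons 883 n461 .nil)
noncomputable def n469 : Strat := .move 882 n35 (.cons 923 n468 .nil)
noncomputable def n470 : Strat := .move 839 n460 (.cons 717 n469 .nil)
noncomputable def n471 : Strat := .move 880 n21 (.cons 921 n470 .nil)
noncomputable def n472 : Strat := .move 759 n40 (.cons 718 n471 .nil)
noncomputable def n473 : Strat := .move 757 n42 (.cons 716 n472 .nil)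
noncomputable def n474 : Strat := .move 717 n20 (.cons 839 n300 .nil)
noncomputable def n475 : Strat := .move 880 n21 (.cons 921 n474 .nil)
noncomputable def n476 : Strat := .move 717 n20 (.cons 839 n427 .nil)
noncomputable def n477 : Strat := .move 880 n21 (.cons 921 n476 .nil)
noncomputable def n478 : Strat := .move 880 n474 (.cons 759 n476 (.cons 839 n367 .nil))
noncomputable def n479 : Strat := .move 800 n84 (.cons 755 n83 .nil)
noncomputable def n480 : Strat := .win 754 0 754
noncomputable def n481 : Strat := .move 798 n480 (.cons 754 n86 .nil)
noncomputable def n482 : Strat := .win 713 2 713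
noncomputable def n483 : Strat := .win 715 2 714
noncomputable def n484 : Strat := .move 714 n482 (.cons 713 n483 .nil)
noncomputable def n485 : Strat := .move 755 n481 (.cons 760 n484 .nil)
noncomputable def n486 : Strat := .move 797 n87 (.cons 796 n485 .nil)
noncomputable def n487 : Strat := .move 760 n350 (.cons 802 n354 .nil)
noncomputable def n488 : Strat := .move 801 n351 (.cons 800 n487 .nil)
noncomputable def n489 : Strat := .move 756 n479 (.cons 800 n486 (.cons 755 n488 .nil))
noncomputable def n490 : Strat := .move 759 n40 (.cons 718 n489 .nil)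
noncomputable def n491 : Strat := .move 757 n42 (.cons 716 n490 .nil)
noncomputable def n492 : Strat := .move 758 n473 (.cons 757 n475 (.cons 759 n477 (.cons 839 n368 (.cons 921 n478 (.cons 880 n491 .nil)))))
noncomputable def n493 : Strat := .win 838 4 797
noncomputable def n494 : Strat := .move 801 n123 (.cons 802 n493 .nil)
noncomputable def n495 : Strat := .move 800 n318 (.cons 759 n494 .nil)
noncomputable def n496 : Strat := .move 839 n442 (.cons 963 n495 .nil)
noncomputable def n497 : Strat := .move 798 n337 (.cons 757 n496 .nil)
noncomputable def n498 : Strat := .move 923 n48 (.cons 964 n497 .nil)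
noncomputable def n499 : Strat := .move 921 n60 (.cons 962 n498 .nil)
noncomputable def n500 : Strat := .move 922 n499 (.cons 921 n436 (.cons 923 n439 (.cons 839 n405 .nil)))
noncomputable def n501 : Strat := .move 881 n437 (.cons 923 n448 (.cons 921 n455 (.cons 757 n467 (.cons 839 n369 (.cons 922 n492 (.cons 758 n500 .nil))))))
noncomputable def n502 : Strat := .move 758 n58 (.cons 757 n82 (.cons 759 n79 (.cons 922 n99 .nil)))
noncomputable def n503 : Strat := .win 839 2 839
noncomputable def n504 : Strat := .move 884 n503 (.cons 839 n223 .nil)
noncomputable def n505 : Strat := .move 842 n225 (.cons 879 n304 .nil)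
noncomputable def n506 : Strat := .win 800 6 759
noncomputable def n507 : Strat := .win 925 0 880
noncomputable def n508 : Strat := .move 924 n506 (.cons 800 n507 .nil)
noncomputable def n509 : Strat := .move 841 n421 (.cons 878 n505 (.cons 842 n508 .nil))
noncomputable def n510 : Strat := .move 883 n202 (.cons 838 n504 (.cons 884 n509 .nil))
noncomputable def n511 : Strat := .move 759 n40 (.cons 718 n510 .nil)
noncomputable def n512 : Strat := .move 882 n35 (.cons 923 n511 .nil)
noncomputable def n513 : Strat := .move 880 n21 (.cons 921 n512 .nil)
noncomputable def n514 : Strat := .move 883 n201 (.cons 838 n200 .nil)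
noncomputable def n515 : Strat := .win 798 1 756
noncomputable def n516 : Strat := .win 919 4 878
noncomputable def n517 : Strat := .move 920 n515 (.cons 798 n516 .nil)
noncomputable def n518 : Strat := .move 839 n514 (.cons 884 n468 (.cons 838 n517 .nil))
noncomputable def n519 : Strat := .move 879 n196 (.cons 878 n518 .nil)
noncomputable def n520 : Strat := .move 757 n42 (.cons 716 n519 .nil)
noncomputable def n521 : Strat := .move 880 n21 (.cons 921 n520 .nil)
noncomputable def n522 : Strat := .move 882 n35 (.cons 923 n521 .nil)
noncomputable def n523 : Strat := .move 798 n89 (.cons 761 n90 .nil)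
noncomputable def n524 : Strat := .move 801 n156 (.cons 756 n350 .nil)
noncomputable def n525 : Strat := .win 841 3 718
noncomputable def n526 : Strat := .win 720 5 716
noncomputable def n527 : Strat := .move 719 n525 (.cons 841 n526 .nil)
noncomputable def n528 : Strat := .move 800 n188 (.cons 755 n524 (.cons 801 n527 .nil))
noncomputable def n529 : Strat := .move 760 n523 (.cons 797 n360 (.cons 761 n528 .nil))
noncomputable def n530 : Strat := .move 882 n35 (.cons 923 n529 .nil)
noncomputable def n531 : Strat := .move 759 n40 (.cons 718 n530 .nil)
noncomputable def n532 : Strat := .move 757 n42 (.cons 716 n531 .nil)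
noncomputable def n533 : Strat := .move 758 n99 (.cons 716 n513 (.cons 718 n522 (.cons 921 n532 .nil)))
noncomputable def n534 : Strat := .move 758 n59 (.cons 880 n47 .nil)
noncomputable def n535 : Strat := .move 921 n60 (.cons 962 n534 .nil)
noncomputable def n536 : Strat := .move 923 n48 (.cons 964 n535 .nil)
noncomputable def n537 : Strat := .move 922 n536 (.cons 923 n322 (.cons 962 n450 .nil))
noncomputable def n538 : Strat := .win 758 6 758
noncomputable def n539 : Strat := .win 878 0 878
noncomputable def n540 : Strat := .win 924 0 879
noncomputable def n541 : Strat := .move 879 n539 (.cons 878 n540 .nil)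
noncomputable def n542 : Strat := .move 882 n538 (.cons 758 n541 .nil)
noncomputable def n543 : Strat := .move 923 n48 (.cons 964 n542 .nil)
noncomputable def n544 : Strat := .move 800 n318 (.cons 759 n319 .nil)
noncomputable def n545 : Strat := .move 963 n434 (.cons 839 n544 .nil)
noncomputable def n546 : Strat := .move 798 n337 (.cons 757 n545 .nil)
noncomputable def n547 : Strat := .move 880 n543 (.cons 758 n546 .nil)
noncomputable def n548 : Strat := .move 839 n493 (.cons 838 n123 .nil)
noncomputable def n549 : Strat := .win 761 5 757
noncomputable def n550 : Strat := .win 841 3 759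
noncomputable def n551 : Strat := .move 760 n549 (.cons 761 n550 .nil)
noncomputable def n552 : Strat := .move 801 n548 (.cons 802 n551 .nil)
noncomputable def n553 : Strat := .move 798 n337 (.cons 757 n552 .nil)
noncomputable def n554 : Strat := .move 800 n318 (.cons 759 n553 .nil)
noncomputable def n555 : Strat := .move 882 n538 (.cons 758 n554 .nil)
noncomputable def n556 : Strat := .move 923 n48 (.cons 964 n555 .nil)
noncomputable def n557 : Strat := .move 963 n319 (.cons 841 n434 .nil)
noncomputable def n558 : Strat := .move 798 n337 (.cons 757 n557 .nil)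
noncomputable def n559 : Strat := .move 800 n318 (.cons 759 n558 .nil)
noncomputable def n560 : Strat := .move 922 n547 (.cons 963 n556 (.cons 841 n436 (.cons 757 n379 (.cons 964 n559 .nil))))
noncomputable def n561 : Strat := .win 758 1 757
noncomputable def n562 : Strat := .win 884 4 880
noncomputable def n563 : Strat := .win 920 4 879
noncomputable def n564 : Strat := .move 883 n562 (.cons 884 n563 .nil)
noncomputable def n565 : Strat := .move 880 n561 (.cons 758 n564 .nil)
noncomputable def n566 : Strat := .move 921 n60 (.cons 962 n565 .nil)
noncomputable def n567 : Strat := .move 798 n337 (.cons 757 n434 .nil)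
noncomputable def n568 : Strat := .move 963 n319 (.cons 841 n567 .nil)
noncomputable def n569 : Strat := .move 800 n318 (.cons 759 n568 .nil)
noncomputable def n570 : Strat := .move 882 n566 (.cons 758 n569 .nil)
noncomputable def n571 : Strat := .move 841 n370 (.cons 842 n264 .nil)
noncomputable def n572 : Strat := .win 755 2 755
noncomputable def n573 : Strat := .win 839 7 756
noncomputable def n574 : Strat := .move 756 n572 (.cons 755 n573 .nil)
noncomputable def n575 : Strat := .move 797 n571 (.cons 796 n574 .nil)
noncomputable def n576 : Strat := .move 800 n318 (.cons 759 n575 .nil)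
noncomputable def n577 : Strat := .move 798 n337 (.cons 757 n576 .nil)
noncomputable def n578 : Strat := .move 880 n561 (.cons 758 n577 .nil)
noncomputable def n579 : Strat := .move 921 n60 (.cons 962 n578 .nil)
noncomputable def n580 : Strat := .move 800 n318 (.cons 759 n557 .nil)
noncomputable def n581 : Strat := .move 798 n337 (.cons 757 n580 .nil)
noncomputable def n582 : Strat := .move 922 n570 (.cons 963 n579 (.cons 839 n322 (.cons 759 n439 (.cons 962 n581 .nil))))
noncomputable def n583 : Strat := .move 757 n43 (.cons 798 n322 .nil)
noncomputable def n584 : Strat := .win 837 4 796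
noncomputable def n585 : Strat := .move 838 n443 (.cons 801 n584 .nil)
noncomputable def n586 : Strat := .win 880 7 756
noncomputable def n587 : Strat := .move 756 n586 (.cons 880 n572 .nil)
noncomputable def n588 : Strat := .move 839 n585 (.cons 837 n494 (.cons 801 n587 .nil))
noncomputable def n589 : Strat := .move 797 n571 (.cons 796 n588 .nil)
noncomputable def n590 : Strat := .move 921 n60 (.cons 962 n589 .nil)
noncomputable def n591 : Strat := .move 800 n318 (.cons 759 n590 .nil)
noncomputable def n592 : Strat := .move 798 n337 (.cons 757 n591 .nil)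
noncomputable def n593 : Strat := .move 922 n583 (.cons 963 n592 (.cons 798 n322 (.cons 800 n436 .nil)))
noncomputable def n594 : Strat := .move 758 n79 (.cons 882 n63 (.cons 798 n233 .nil))
noncomputable def n595 : Strat := .move 883 n562 (.cons 884 n411 .nil)
noncomputable def n596 : Strat := .move 921 n60 (.cons 962 n595 .nil)
noncomputable def n597 : Strat := .move 882 n538 (.cons 758 n596 .nil)
noncomputable def n598 : Strat := .move 923 n48 (.cons 964 n597 .nil)
noncomputable def n599 : Strat := .move 922 n569 (.cons 757 n379 (.cons 800 n598 .nil))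
noncomputable def n600 : Strat := .move 881 n502 (.cons 922 n533 (.cons 839 n537 (.cons 921 n560 (.cons 923 n582 (.cons 758 n593 (.cons 759 n594 (.cons 880 n599 .nil)))))))
noncomputable def n601 : Strat := .move 717 n34 (.cons 841 n22 .nil)
noncomputable def n602 : Strat := .move 882 n35 (.cons 923 n601 .nil)
noncomputable def n603 : Strat := .move 881 n602 (.cons 882 n65 (.cons 880 n54 (.cons 717 n99 .nil)))
noncomputable def n604 : Strat := .move 881 n99 (.cons 716 n513 (.cons 718 n522 (.cons 921 n532 .nil)))
noncomputable def n605 : Strat := .move 717 n165 (.cons 716 n102 (.cons 677 n131 .nil))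
noncomputable def n606 : Strat := .win 881 7 716
noncomputable def n607 : Strat := .win 761 2 716
noncomputable def n608 : Strat := .win 715 2 715
noncomputable def n609 : Strat := .move 760 n607 (.cons 761 n608 .nil)
noncomputable def n610 : Strat := .move 757 n606 (.cons 881 n609 .nil)
noncomputable def n611 : Strat := .move 716 n0 (.cons 675 n610 .nil)
noncomputable def n612 : Strat := .move 759 n611 (.cons 881 n13 .nil)
noncomputable def n613 : Strat := .win 878 4 837
noncomputable def n614 : Strat := .win 798 1 715
noncomputable def n615 : Strat := .move 879 n613 (.cons 878 n614 .nil)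
noncomputable def n616 : Strat := .move 800 n235 (.cons 801 n236 .nil)
noncomputable def n617 : Strat := .move 838 n615 (.cons 798 n616 .nil)
noncomputable def n618 : Strat := .move 841 n7 (.cons 882 n617 .nil)
noncomputable def n619 : Strat := .move 839 n9 (.cons 880 n618 .nil)
noncomputable def n620 : Strat := .move 757 n606 (.cons 881 n619 .nil)
noncomputable def n621 : Strat := .move 716 n0 (.cons 675 n620 .nil)
noncomputable def n622 : Strat := .move 676 n10 (.cons 798 n8 .nil)
noncomputable def n623 : Strat := .move 841 n7 (.cons 882 n622 .nil)
noncomputable def n624 : Strat := .move 839 n9 (.cons 880 n623 .nil)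
noncomputable def n625 : Strat := .move 717 n612 (.cons 676 n621 (.cons 798 n72 (.cons 882 n33 (.cons 675 n624 .nil))))
noncomputable def n626 : Strat := .win 881 3 717
noncomputable def n627 : Strat := .win 755 5 714
noncomputable def n628 : Strat := .win 719 5 715
noncomputable def n629 : Strat := .move 756 n627 (.cons 755 n628 .nil)
noncomputable def n630 : Strat := .move 759 n626 (.cons 881 n629 .nil)
noncomputable def n631 : Strat := .move 718 n2 (.cons 677 n630 .nil)
noncomputable def n632 : Strat := .move 757 n631 (.cons 881 n28 .nil)
noncomputable def n633 : Strat := .win 884 0 839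
noncomputable def n634 : Strat := .win 800 6 718
noncomputable def n635 : Strat := .move 883 n633 (.cons 884 n634 .nil)
noncomputable def n636 : Strat := .win 797 2 797
noncomputable def n637 : Strat := .move 798 n636 (.cons 797 n339 .nil)
noncomputable def n638 : Strat := .move 842 n635 (.cons 800 n637 .nil)
noncomputable def n639 : Strat := .move 839 n9 (.cons 880 n638 .nil)
noncomputable def n640 : Strat := .move 841 n7 (.cons 882 n639 .nil)
noncomputable def n641 : Strat := .move 759 n626 (.cons 881 n640 .nil)
noncomputable def n642 : Strat := .move 718 n2 (.cons 677 n641 .nil)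
noncomputable def n643 : Strat := .move 839 n9 (.cons 880 n622 .nil)
noncomputable def n644 : Strat := .move 841 n7 (.cons 882 n643 .nil)
noncomputable def n645 : Strat := .move 717 n632 (.cons 676 n642 (.cons 800 n102 (.cons 880 n19 (.cons 677 n644 .nil))))
noncomputable def n646 : Strat := .move 882 n34 (.cons 841 n102 .nil)
noncomputable def n647 : Strat := .move 801 n124 (.cons 838 n123 .nil)
noncomputable def n648 : Strat := .win 759 6 718
noncomputable def n649 : Strat := .move 883 n648 (.cons 759 n633 .nil)
noncomputable def n650 : Strat := .move 800 n237 (.cons 837 n647 (.cons 801 n649 .nil))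
noncomputable def n651 : Strat := .move 842 n637 (.cons 843 n650 .nil)
noncomputable def n652 : Strat := .move 718 n2 (.cons 677 n651 .nil)
noncomputable def n653 : Strat := .move 839 n9 (.cons 880 n652 .nil)
noncomputable def n654 : Strat := .move 841 n7 (.cons 882 n653 .nil)
noncomputable def n655 : Strat := .move 717 n646 (.cons 676 n654 (.cons 841 n102 (.cons 839 n72 .nil)))
noncomputable def n656 : Strat := .move 881 n54 (.cons 757 n253 (.cons 841 n491 .nil))
noncomputable def n657 : Strat := .move 756 n106 (.cons 719 n627 .nil)
noncomputable def n658 : Strat := .move 718 n2 (.cons 677 n657 .nil)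
noncomputable def n659 : Strat := .move 757 n606 (.cons 881 n658 .nil)
noncomputable def n660 : Strat := .move 716 n0 (.cons 675 n659 .nil)
noncomputable def n661 : Strat := .move 717 n28 (.cons 882 n33 (.cons 839 n660 .nil))
noncomputable def n662 : Strat := .move 716 n0 (.cons 675 n163 .nil)
noncomputable def n663 : Strat := .move 718 n2 (.cons 677 n662 .nil)
noncomputable def n664 : Strat := .move 717 n663 (.cons 718 n72 (.cons 675 n70 .nil))
noncomputable def n665 : Strat := .move 758 n603 (.cons 717 n604 (.cons 800 n605 (.cons 718 n625 (.cons 716 n645 (.cons 881 n655 (.cons 880 n656 (.cons 759 n661 (.cons 798 n664 .nil))))))))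
noncomputable def n666 : Strat := .move 841 n195 (.cons 878 n194 .nil)
noncomputable def n667 : Strat := .win 877 5 836
noncomputable def n668 : Strat := .move 839 n667 (.cons 877 n462 .nil)
noncomputable def n669 : Strat := .move 878 n214 (.cons 920 n668 .nil)
noncomputable def n670 : Strat := .move 838 n198 (.cons 837 n669 .nil)
noncomputable def n671 : Strat := .move 883 n203 (.cons 843 n199 .nil)
noncomputable def n672 : Strat := .move 842 n204 (.cons 841 n671 .nil)
noncomputable def n673 : Strat := .move 879 n666 (.cons 841 n670 (.cons 878 n672 .nil))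
noncomputable def n674 : Strat := .move 882 n35 (.cons 923 n673 .nil)
noncomputable def n675 : Strat := .move 880 n21 (.cons 921 n674 .nil)
noncomputable def n676 : Strat := .move 881 n82 (.cons 880 n51 (.cons 800 n675 .nil))
noncomputable def n677 : Strat := .move 716 n0 (.cons 675 n644 .nil)
noncomputable def n678 : Strat := .move 839 n9 (.cons 880 n651 .nil)
noncomputable def n679 : Strat := .move 841 n7 (.cons 882 n678 .nil)
noncomputable def n680 : Strat := .move 718 n2 (.cons 677 n679 .nil)
noncomputable def n681 : Strat := .move 717 n677 (.cons 841 n102 (.cons 839 n19 (.cons 676 n680 .nil)))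
noncomputable def n682 : Strat := .move 715 n103 (.cons 760 n104 .nil)
noncomputable def n683 : Strat := .move 716 n0 (.cons 675 n682 .nil)
noncomputable def n684 : Strat := .move 759 n626 (.cons 881 n683 .nil)
noncomputable def n685 : Strat := .move 718 n2 (.cons 677 n684 .nil)
noncomputable def n686 : Strat := .move 839 n9 (.cons 880 n685 .nil)
noncomputable def n687 : Strat := .move 841 n12 (.cons 676 n686 (.cons 839 n18 .nil))
noncomputable def n688 : Strat := .win 715 0 715
noncomputable def n689 : Strat := .move 760 n688 (.cons 715 n607 .nil)
noncomputable def n690 : Strat := .move 716 n0 (.cons 675 n689 .nil)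
noncomputable def n691 : Strat := .move 759 n626 (.cons 881 n690 .nil)
noncomputable def n692 : Strat := .move 718 n2 (.cons 677 n691 .nil)
noncomputable def n693 : Strat := .move 717 n687 (.cons 839 n692 (.cons 759 n102 (.cons 677 n33 .nil)))
noncomputable def n694 : Strat := .move 800 n122 (.cons 676 n683 .nil)
noncomputable def n695 : Strat := .move 841 n7 (.cons 882 n694 .nil)
noncomputable def n696 : Strat := .move 759 n626 (.cons 881 n695 .nil)
noncomputable def n697 : Strat := .move 718 n2 (.cons 677 n696 .nil)
noncomputable def n698 : Strat := .move 717 n697 (.cons 841 n692 (.cons 759 n72 (.cons 716 n19 .nil)))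
noncomputable def n699 : Strat := .move 798 n339 (.cons 843 n636 .nil)
noncomputable def n700 : Strat := .win 802 5 798
noncomputable def n701 : Strat := .win 885 0 840
noncomputable def n702 : Strat := .win 883 0 839
noncomputable def n703 : Strat := .move 884 n701 (.cons 885 n702 .nil)
noncomputable def n704 : Strat := .win 844 2 799
noncomputable def n705 : Strat := .move 800 n704 (.cons 844 n124 .nil)
noncomputable def n706 : Strat := .move 843 n703 (.cons 883 n705 .nil)
noncomputable def n707 : Strat := .move 801 n700 (.cons 802 n706 .nil)
noncomputable def n708 : Strat := .win 798 2 797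
noncomputable def n709 : Strat := .win 796 2 796
noncomputable def n710 : Strat := .move 838 n709 (.cons 796 n616 .nil)
noncomputable def n711 : Strat := .move 797 n708 (.cons 798 n710 .nil)
noncomputable def n712 : Strat := .move 842 n699 (.cons 798 n707 (.cons 843 n711 .nil))
noncomputable def n713 : Strat := .move 839 n9 (.cons 880 n712 .nil)
noncomputable def n714 : Strat := .move 841 n7 (.cons 882 n713 .nil)
noncomputable def n715 : Strat := .move 717 n624 (.cons 841 n33 (.cons 839 n72 (.cons 676 n714 .nil)))
noncomputable def n716 : Strat := .move 921 n60 (.cons 962 n59 .nil)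
noncomputable def n717 : Strat := .move 923 n48 (.cons 964 n47 .nil)
noncomputable def n718 : Strat := .move 922 n716 (.cons 880 n717 .nil)
noncomputable def n719 : Strat := .move 676 n30 (.cons 634 n718 .nil)
noncomputable def n720 : Strat := .move 675 n29 (.cons 716 n719 .nil)
noncomputable def n721 : Strat := .move 881 n3 (.cons 759 n720 .nil)
noncomputable def n722 : Strat := .move 718 n2 (.cons 677 n721 .nil)
noncomputable def n723 : Strat := .move 717 n24 (.cons 718 n33 (.cons 839 n722 (.cons 880 n692 .nil)))
noncomputable def n724 : Strat := .move 758 n25 (.cons 717 n676 (.cons 881 n681 (.cons 882 n693 (.cons 880 n698 (.cons 718 n715 (.cons 841 n723 .nil))))))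
noncomputable def n725 : Strat := .move 881 n79 (.cons 882 n63 (.cons 798 n233 .nil))
noncomputable def n726 : Strat := .move 718 n2 (.cons 677 n624 .nil)
noncomputable def n727 : Strat := .move 842 n339 (.cons 843 n636 .nil)
noncomputable def n728 : Strat := .win 757 1 715
noncomputable def n729 : Strat := .move 879 n728 (.cons 757 n613 .nil)
noncomputable def n730 : Strat := .move 798 n271 (.cons 796 n727 (.cons 842 n729 .nil))
noncomputable def n731 : Strat := .move 838 n616 (.cons 837 n730 .nil)
noncomputable def n732 : Strat := .move 841 n7 (.cons 882 n731 .nil)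
noncomputable def n733 : Strat := .move 839 n9 (.cons 880 n732 .nil)
noncomputable def n734 : Strat := .move 716 n0 (.cons 675 n733 .nil)
noncomputable def n735 : Strat := .move 717 n726 (.cons 839 n72 (.cons 841 n33 (.cons 676 n734 .nil)))
noncomputable def n736 : Strat := .move 718 n2 (.cons 677 n111 .nil)
noncomputable def n737 : Strat := .move 757 n606 (.cons 881 n736 .nil)
noncomputable def n738 : Strat := .move 716 n0 (.cons 675 n737 .nil)
noncomputable def n739 : Strat := .move 841 n7 (.cons 882 n738 .nil)
noncomputable def n740 : Strat := .move 839 n27 (.cons 676 n739 (.cons 841 n32 .nil))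
noncomputable def n741 : Strat := .move 717 n740 (.cons 841 n660 (.cons 757 n72 (.cons 675 n19 .nil)))
noncomputable def n742 : Strat := .move 798 n263 (.cons 676 n736 .nil)
noncomputable def n743 : Strat := .move 839 n9 (.cons 880 n742 .nil)
noncomputable def n744 : Strat := .move 757 n606 (.cons 881 n743 .nil)
noncomputable def n745 : Strat := .move 716 n0 (.cons 675 n744 .nil)
noncomputable def n746 : Strat := .move 717 n745 (.cons 839 n660 (.cons 757 n102 (.cons 718 n33 .nil)))
noncomputable def n747 : Strat := .move 800 n236 (.cons 837 n235 .nil)
noncomputable def n748 : Strat := .win 877 4 836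
noncomputable def n749 : Strat := .win 879 4 837
noncomputable def n750 : Strat := .move 878 n748 (.cons 877 n749 .nil)
noncomputable def n751 : Strat := .win 836 5 795
noncomputable def n752 : Strat := .move 798 n751 (.cons 836 n265 .nil)
noncomputable def n753 : Strat := .move 837 n750 (.cons 879 n752 .nil)
noncomputable def n754 : Strat := .move 797 n709 (.cons 796 n753 .nil)
noncomputable def n755 : Strat := .win 800 5 797
noncomputable def n756 : Strat := .move 797 n708 (.cons 798 n709 .nil)
noncomputable def n757 : Strat := .move 842 n700 (.cons 802 n756 .nil)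
noncomputable def n758 : Strat := .move 801 n755 (.cons 800 n757 .nil)
noncomputable def n759 : Strat := .move 838 n747 (.cons 800 n754 (.cons 837 n758 .nil))
noncomputable def n760 : Strat := .move 841 n7 (.cons 882 n759 .nil)
noncomputable def n761 : Strat := .move 839 n9 (.cons 880 n760 .nil)
noncomputable def n762 : Strat := .move 717 n644 (.cons 839 n19 (.cons 841 n102 (.cons 676 n761 .nil)))
noncomputable def n763 : Strat := .move 881 n54 (.cons 882 n63 (.cons 757 n316 (.cons 716 n308 .nil)))
noncomputable def n764 : Strat := .move 717 n20 (.cons 839 n34 .nil)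
noncomputable def n765 : Strat := .move 882 n35 (.cons 923 n764 .nil)
noncomputable def n766 : Strat := .move 880 n21 (.cons 921 n765 .nil)
noncomputable def n767 : Strat := .move 881 n766 (.cons 882 n77 (.cons 880 n54 (.cons 717 n233 .nil)))
noncomputable def n768 : Strat := .move 758 n39 (.cons 717 n725 (.cons 881 n735 (.cons 880 n741 (.cons 882 n746 (.cons 716 n762 (.cons 839 n763 (.cons 798 n767 .nil)))))))
noncomputable def n769 : Strat := .move 758 n47 (.cons 882 n44 .nil)
noncomputable def n770 : Strat := .move 923 n48 (.cons 964 n769 .nil)
noncomputable def n771 : Strat := .move 922 n569 (.cons 798 n379 (.cons 800 n770 .nil))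
noncomputable def n772 : Strat := .move 758 n54 (.cons 757 n253 (.cons 841 n491 .nil))
noncomputable def n773 : Strat := .move 921 n60 (.cons 962 n559 .nil)
noncomputable def n774 : Strat := .win 843 0 798
noncomputable def n775 : Strat := .move 842 n774 (.cons 843 n338 .nil)
noncomputable def n776 : Strat := .win 882 3 759
noncomputable def n777 : Strat := .move 760 n776 (.cons 882 n549 .nil)
noncomputable def n778 : Strat := .move 841 n371 (.cons 796 n775 (.cons 842 n777 .nil))
noncomputable def n779 : Strat := .move 801 n548 (.cons 802 n778 .nil)
noncomputable def n780 : Strat := .move 798 n337 (.cons 757 n779 .nil)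
noncomputable def n781 : Strat := .move 800 n318 (.cons 759 n780 .nil)
noncomputable def n782 : Strat := .move 923 n48 (.cons 964 n781 .nil)
noncomputable def n783 : Strat := .move 922 n773 (.cons 800 n436 (.cons 798 n379 (.cons 963 n782 .nil)))
noncomputable def n784 : Strat := .move 920 n380 (.cons 883 n381 .nil)
noncomputable def n785 : Strat := .move 921 n60 (.cons 962 n784 .nil)
noncomputable def n786 : Strat := .move 882 n538 (.cons 758 n785 .nil)
noncomputable def n787 : Strat := .move 923 n48 (.cons 964 n786 .nil)
noncomputable def n788 : Strat := .move 798 n337 (.cons 757 n787 .nil)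
noncomputable def n789 : Strat := .move 800 n568 (.cons 963 n788 (.cons 798 n378 .nil))
noncomputable def n790 : Strat := .move 922 n789 (.cons 798 n598 (.cons 882 n436 (.cons 964 n439 .nil)))
noncomputable def n791 : Strat := .win 963 1 799
noncomputable def n792 : Strat := .win 760 3 759
noncomputable def n793 : Strat := .win 803 4 799
noncomputable def n794 : Strat := .win 839 4 798
noncomputable def n795 : Strat := .move 802 n793 (.cons 803 n794 .nil)
noncomputable def n796 : Strat := .move 801 n792 (.cons 760 n795 .nil)
noncomputable def n797 : Strat := .move 841 n791 (.cons 963 n796 .nil)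
noncomputable def n798 : Strat := .move 800 n318 (.cons 759 n797 .nil)
noncomputable def n799 : Strat := .move 882 n538 (.cons 758 n798 .nil)
noncomputable def n800 : Strat := .move 923 n48 (.cons 964 n799 .nil)
noncomputable def n801 : Strat := .move 922 n800 (.cons 800 n598 (.cons 882 n322 .nil))
noncomputable def n802 : Strat := .move 839 n123 (.cons 802 n493 .nil)
noncomputable def n803 : Strat := .move 841 n793 (.cons 803 n338 .nil)
noncomputable def n804 : Strat := .win 762 5 758
noncomputable def n805 : Strat := .win 760 5 757
noncomputable def n806 : Strat := .move 761 n804 (.cons 762 n805 .nil)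
noncomputable def n807 : Strat := .move 802 n803 (.cons 797 n806 .nil)
noncomputable def n808 : Strat := .move 842 n774 (.cons 843 n807 .nil)
noncomputable def n809 : Strat := .win 839 4 797
noncomputable def n810 : Strat := .move 797 n584 (.cons 837 n571 .nil)
noncomputable def n811 : Strat := .move 838 n809 (.cons 839 n810 .nil)
noncomputable def n812 : Strat := .move 801 n802 (.cons 839 n808 (.cons 802 n811 .nil))
noncomputable def n813 : Strat := .move 798 n337 (.cons 757 n812 .nil)
noncomputable def n814 : Strat := .move 800 n318 (.cons 759 n813 .nil)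
noncomputable def n815 : Strat := .move 922 n581 (.cons 800 n439 (.cons 798 n322 (.cons 963 n814 .nil)))
noncomputable def n816 : Strat := .move 717 n4 (.cons 759 n52 .nil)
noncomputable def n817 : Strat := .move 963 n144 (.cons 1003 n816 .nil)
noncomputable def n818 : Strat := .move 962 n145 (.cons 921 n817 .nil)
noncomputable def n819 : Strat := .move 758 n47 (.cons 882 n818 .nil)
noncomputable def n820 : Strat := .move 923 n48 (.cons 964 n819 .nil)
noncomputable def n821 : Strat := .move 922 n770 (.cons 923 n439 (.cons 798 n820 (.cons 757 n598 .nil)))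
noncomputable def n822 : Strat := .move 881 n771 (.cons 922 n772 (.cons 758 n783 (.cons 759 n790 (.cons 757 n801 (.cons 923 n815 (.cons 800 n821 .nil))))))
noncomputable def n823 : Strat := .move 922 n546 (.cons 800 n439 (.cons 798 n441 .nil))
noncomputable def n824 : Strat := .win 762 4 758
noncomputable def n825 : Strat := .move 800 n824 (.cons 762 n156 .nil)
noncomputable def n826 : Strat := .move 761 n825 (.cons 756 n363 .nil)
noncomputable def n827 : Strat := .move 801 n350 (.cons 802 n826 .nil)
noncomputable def n828 : Strat := .move 756 n87 (.cons 796 n85 .nil)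
noncomputable def n829 : Strat := .move 797 n353 (.cons 798 n828 .nil)
noncomputable def n830 : Strat := .move 760 n523 (.cons 798 n827 (.cons 761 n829 .nil))
noncomputable def n831 : Strat := .move 757 n42 (.cons 716 n830 .nil)
noncomputable def n832 : Strat := .move 759 n40 (.cons 718 n831 .nil)
noncomputable def n833 : Strat := .move 758 n65 (.cons 759 n477 (.cons 839 n832 .nil))
noncomputable def n834 : Strat := .move 923 n48 (.cons 964 n581 .nil)
noncomputable def n835 : Strat := .move 800 n318 (.cons 759 n589 .nil)
noncomputable def n836 : Strat := .move 798 n337 (.cons 757 n835 .nil)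
noncomputable def n837 : Strat := .move 921 n60 (.cons 962 n836 .nil)
noncomputable def n838 : Strat := .move 922 n834 (.cons 798 n322 (.cons 800 n439 (.cons 963 n837 .nil)))
noncomputable def n839 : Strat := .win 924 2 879
noncomputable def n840 : Strat := .move 879 n839 (.cons 924 n539 .nil)
noncomputable def n841 : Strat := .move 923 n48 (.cons 964 n840 .nil)
noncomputable def n842 : Strat := .move 880 n561 (.cons 758 n841 .nil)
noncomputable def n843 : Strat := .move 921 n60 (.cons 962 n842 .nil)
noncomputable def n844 : Strat := .move 800 n318 (.cons 759 n843 .nil)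
noncomputable def n845 : Strat := .move 798 n545 (.cons 963 n844 (.cons 800 n438 .nil))
noncomputable def n846 : Strat := .move 879 n539 (.cons 878 n839 .nil)
noncomputable def n847 : Strat := .move 923 n48 (.cons 964 n846 .nil)
noncomputable def n848 : Strat := .move 880 n561 (.cons 758 n847 .nil)
noncomputable def n849 : Strat := .move 921 n60 (.cons 962 n848 .nil)
noncomputable def n850 : Strat := .move 922 n845 (.cons 800 n849 (.cons 880 n322 (.cons 962 n379 .nil)))
noncomputable def n851 : Strat := .win 963 6 798
noncomputable def n852 : Strat := .win 756 7 756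
noncomputable def n853 : Strat := .win 795 0 795
noncomputable def n854 : Strat := .win 841 0 796
noncomputable def n855 : Strat := .move 796 n853 (.cons 795 n854 .nil)
noncomputable def n856 : Strat := .move 797 n852 (.cons 756 n855 .nil)
noncomputable def n857 : Strat := .move 839 n851 (.cons 963 n856 .nil)
noncomputable def n858 : Strat := .move 798 n337 (.cons 757 n857 .nil)
noncomputable def n859 : Strat := .move 880 n561 (.cons 758 n858 .nil)
noncomputable def n860 : Strat := .move 921 n60 (.cons 962 n859 .nil)
noncomputable def n861 : Strat := .move 922 n860 (.cons 798 n849 (.cons 880 n436 .nil))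
noncomputable def n862 : Strat := .move 841 n264 (.cons 796 n370 .nil)
noncomputable def n863 : Strat := .move 839 n853 (.cons 795 n443 .nil)
noncomputable def n864 : Strat := .win 754 2 754
noncomputable def n865 : Strat := .win 756 2 755
noncomputable def n866 : Strat := .move 755 n864 (.cons 754 n865 .nil)
noncomputable def n867 : Strat := .move 796 n863 (.cons 801 n866 .nil)
noncomputable def n868 : Strat := .move 838 n584 (.cons 837 n867 .nil)
noncomputable def n869 : Strat := .win 841 0 797
noncomputable def n870 : Strat := .move 838 n809 (.cons 839 n584 .nil)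
noncomputable def n871 : Strat := .move 801 n774 (.cons 843 n870 .nil)
noncomputable def n872 : Strat := .move 842 n869 (.cons 841 n871 .nil)
noncomputable def n873 : Strat := .move 797 n862 (.cons 841 n868 (.cons 796 n872 .nil))
noncomputable def n874 : Strat := .move 800 n318 (.cons 759 n873 .nil)
noncomputable def n875 : Strat := .move 798 n337 (.cons 757 n874 .nil)
noncomputable def n876 : Strat := .move 922 n559 (.cons 798 n379 (.cons 800 n436 (.cons 963 n875 .nil)))
noncomputable def n877 : Strat := .move 758 n82 (.cons 759 n77 (.cons 880 n154 (.cons 921 n161 .nil)))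
noncomputable def n878 : Strat := .move 758 n347 (.cons 759 n63 (.cons 757 n82 (.cons 922 n832 .nil)))
noncomputable def n879 : Strat := .move 881 n823 (.cons 922 n833 (.cons 758 n838 (.cons 757 n850 (.cons 759 n861 (.cons 921 n876 (.cons 798 n877 (.cons 839 n878 .nil)))))))
noncomputable def n880 : Strat := .move 758 n766 (.cons 880 n51 (.cons 882 n82 .nil))
noncomputable def n881 : Strat := .move 882 n538 (.cons 758 n784 .nil)
noncomputable def n882 : Strat := .move 921 n60 (.cons 962 n881 .nil)
noncomputable def n883 : Strat := .move 923 n48 (.cons 964 n882 .nil)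
noncomputable def n884 : Strat := .move 757 n43 (.cons 798 n883 .nil)
noncomputable def n885 : Strat := .move 882 n538 (.cons 758 n595 .nil)
noncomputable def n886 : Strat := .move 921 n60 (.cons 962 n885 .nil)
noncomputable def n887 : Strat := .move 923 n48 (.cons 964 n886 .nil)
noncomputable def n888 : Strat := .move 922 n884 (.cons 882 n860 (.cons 758 n436 (.cons 798 n887 .nil)))
noncomputable def n889 : Strat := .move 839 n851 (.cons 963 n495 .nil)
noncomputable def n890 : Strat := .move 798 n337 (.cons 757 n889 .nil)
noncomputable def n891 : Strat := .move 880 n561 (.cons 758 n890 .nil)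
noncomputable def n892 : Strat := .move 921 n60 (.cons 962 n891 .nil)
noncomputable def n893 : Strat := .move 922 n569 (.cons 759 n860 (.cons 798 n322 (.cons 963 n579 (.cons 841 n892 .nil))))
noncomputable def n894 : Strat := .win 715 7 715
noncomputable def n895 : Strat := .win 800 0 755
noncomputable def n896 : Strat := .move 755 n480 (.cons 754 n895 .nil)
noncomputable def n897 : Strat := .move 756 n894 (.cons 715 n896 .nil)
noncomputable def n898 : Strat := .move 839 n460 (.cons 717 n897 .nil)
noncomputable def n899 : Strat := .move 880 n21 (.cons 921 n898 .nil)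
noncomputable def n900 : Strat := .move 798 n248 (.cons 759 n899 .nil)
noncomputable def n901 : Strat := .move 760 n90 (.cons 797 n89 .nil)
noncomputable def n902 : Strat := .move 759 n40 (.cons 718 n901 .nil)
noncomputable def n903 : Strat := .move 839 n9 (.cons 880 n263 .nil)
noncomputable def n904 : Strat := .win 635 1 634
noncomputable def n905 : Strat := .win 839 1 675
noncomputable def n906 : Strat := .move 676 n904 (.cons 635 n905 .nil)
noncomputable def n907 : Strat := .move 717 n903 (.cons 880 n906 (.cons 839 n300 .nil))
noncomputable def n908 : Strat := .move 676 n905 (.cons 839 n904 .nil)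
noncomputable def n909 : Strat := .move 717 n34 (.cons 841 n908 .nil)
noncomputable def n910 : Strat := .move 882 n35 (.cons 923 n909 .nil)
noncomputable def n911 : Strat := .move 798 n248 (.cons 796 n902 (.cons 797 n907 (.cons 718 n910 .nil)))
noncomputable def n912 : Strat := .move 880 n21 (.cons 921 n764 .nil)
noncomputable def n913 : Strat := .move 882 n35 (.cons 923 n912 .nil)
noncomputable def n914 : Strat := .win 800 3 718
noncomputable def n915 : Strat := .move 719 n914 (.cons 800 n526 .nil)
noncomputable def n916 : Strat := .move 760 n523 (.cons 797 n915 .nil)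
noncomputable def n917 : Strat := .move 841 n303 (.cons 717 n916 .nil)
noncomputable def n918 : Strat := .move 882 n35 (.cons 923 n917 .nil)
noncomputable def n919 : Strat := .move 759 n40 (.cons 718 n918 .nil)
noncomputable def n920 : Strat := .move 757 n900 (.cons 717 n98 (.cons 921 n911 (.cons 798 n913 (.cons 880 n919 .nil))))
noncomputable def n921 : Strat := .move 758 n920 (.cons 882 n475 (.cons 921 n302 (.cons 759 n766 (.cons 717 n513 .nil))))
noncomputable def n922 : Strat := .move 757 n43 (.cons 798 n379 .nil)
noncomputable def n923 : Strat := .move 922 n922 (.cons 923 n569 (.cons 798 n379 (.cons 841 n887 .nil)))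
noncomputable def n924 : Strat := .move 757 n57 (.cons 922 n472 (.cons 759 n62 .nil))
noncomputable def n925 : Strat := .move 758 n924 (.cons 759 n466 (.cons 839 n82 (.cons 921 n51 .nil)))
noncomputable def n926 : Strat := .win 880 1 797
noncomputable def n927 : Strat := .win 960 4 919
noncomputable def n928 : Strat := .move 961 n926 (.cons 880 n927 .nil)
noncomputable def n929 : Strat := .move 920 n382 (.cons 919 n928 .nil)
noncomputable def n930 : Strat := .move 839 n442 (.cons 963 n929 .nil)
noncomputable def n931 : Strat := .move 798 n337 (.cons 757 n930 .nil)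
noncomputable def n932 : Strat := .move 923 n48 (.cons 964 n931 .nil)
noncomputable def n933 : Strat := .move 921 n60 (.cons 962 n932 .nil)
noncomputable def n934 : Strat := .move 801 n493 (.cons 838 n123 .nil)
noncomputable def n935 : Strat := .move 839 n934 (.cons 802 n585 (.cons 838 n587 .nil))
noncomputable def n936 : Strat := .move 797 n571 (.cons 796 n935 .nil)
noncomputable def n937 : Strat := .move 921 n60 (.cons 962 n936 .nil)
noncomputable def n938 : Strat := .move 798 n337 (.cons 757 n937 .nil)
noncomputable def n939 : Strat := .move 800 n318 (.cons 759 n938 .nil)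
noncomputable def n940 : Strat := .move 922 n322 (.cons 800 n933 (.cons 963 n939 (.cons 921 n569 .nil)))
noncomputable def n941 : Strat := .move 882 n538 (.cons 758 n372 .nil)
noncomputable def n942 : Strat := .move 841 n336 (.cons 963 n941 .nil)
noncomputable def n943 : Strat := .move 800 n318 (.cons 759 n942 .nil)
noncomputable def n944 : Strat := .move 923 n48 (.cons 964 n943 .nil)
noncomputable def n945 : Strat := .move 922 n887 (.cons 923 n322 (.cons 921 n944 .nil))
noncomputable def n946 : Strat := .win 1045 3 881
noncomputable def n947 : Strat := .win 841 3 840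
noncomputable def n948 : Strat := .move 1004 n946 (.cons 1045 n947 .nil)
noncomputable def n949 : Strat := .move 963 n434 (.cons 839 n948 .nil)
noncomputable def n950 : Strat := .move 798 n337 (.cons 757 n949 .nil)
noncomputable def n951 : Strat := .move 882 n538 (.cons 758 n950 .nil)
noncomputable def n952 : Strat := .move 923 n48 (.cons 964 n951 .nil)
noncomputable def n953 : Strat := .move 922 n569 (.cons 839 n944 (.cons 757 n379 (.cons 963 n556 (.cons 800 n952 (.cons 841 n498 .nil)))))
noncomputable def n954 : Strat := .move 881 n880 (.cons 759 n888 (.cons 923 n893 (.cons 922 n921 (.cons 880 n923 (.cons 841 n925 (.cons 758 n940 (.cons 839 n945 (.cons 921 n953 .nil))))))))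
noncomputable def n955 : Strat := .move 758 n913 (.cons 882 n63 (.cons 880 n79 .nil))
noncomputable def n956 : Strat := .move 880 n561 (.cons 758 n840 .nil)
noncomputable def n957 : Strat := .move 923 n48 (.cons 964 n956 .nil)
noncomputable def n958 : Strat := .move 921 n60 (.cons 962 n957 .nil)
noncomputable def n959 : Strat := .move 759 n41 (.cons 800 n958 .nil)
noncomputable def n960 : Strat := .move 880 n561 (.cons 758 n846 .nil)
noncomputable def n961 : Strat := .move 923 n48 (.cons 964 n960 .nil)
noncomputable def n962 : Strat := .move 921 n60 (.cons 962 n961 .nil)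
noncomputable def n963 : Strat := .move 922 n959 (.cons 880 n800 (.cons 758 n322 (.cons 800 n962 .nil)))
noncomputable def n964 : Strat := .move 841 n791 (.cons 963 n372 .nil)
noncomputable def n965 : Strat := .move 800 n318 (.cons 759 n964 .nil)
noncomputable def n966 : Strat := .move 882 n538 (.cons 758 n965 .nil)
noncomputable def n967 : Strat := .move 923 n48 (.cons 964 n966 .nil)
noncomputable def n968 : Strat := .move 922 n546 (.cons 757 n800 (.cons 800 n436 (.cons 963 n556 (.cons 839 n967 .nil))))
noncomputable def n969 : Strat := .win 719 3 718
noncomputable def n970 : Strat := .move 761 n824 (.cons 762 n356 .nil)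
noncomputable def n971 : Strat := .move 760 n969 (.cons 719 n970 .nil)
noncomputable def n972 : Strat := .move 841 n303 (.cons 717 n971 .nil)
noncomputable def n973 : Strat := .move 882 n35 (.cons 923 n972 .nil)
noncomputable def n974 : Strat := .move 800 n159 (.cons 757 n973 .nil)
noncomputable def n975 : Strat := .move 757 n42 (.cons 716 n97 .nil)
noncomputable def n976 : Strat := .move 759 n974 (.cons 717 n975 (.cons 800 n766 .nil))
noncomputable def n977 : Strat := .move 758 n976 (.cons 880 n429 (.cons 923 n477 (.cons 757 n913 (.cons 717 n522 .nil))))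
noncomputable def n978 : Strat := .move 759 n41 (.cons 800 n439 .nil)
noncomputable def n979 : Strat := .move 922 n978 (.cons 921 n546 (.cons 800 n439 (.cons 839 n962 .nil)))
noncomputable def n980 : Strat := .move 759 n45 (.cons 922 n425 (.cons 757 n50 .nil))
noncomputable def n981 : Strat := .move 758 n980 (.cons 757 n308 (.cons 841 n79 (.cons 923 n63 .nil)))
noncomputable def n982 : Strat := .move 880 n387 (.cons 879 n386 .nil)
noncomputable def n983 : Strat := .win 882 6 800
noncomputable def n984 : Strat := .win 966 0 921
noncomputable def n985 : Strat := .move 965 n983 (.cons 882 n984 .nil)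
noncomputable def n986 : Strat := .move 924 n982 (.cons 925 n985 .nil)
noncomputable def n987 : Strat := .move 841 n336 (.cons 963 n986 .nil)
noncomputable def n988 : Strat := .move 800 n318 (.cons 759 n987 .nil)
noncomputable def n989 : Strat := .move 921 n60 (.cons 962 n988 .nil)
noncomputable def n990 : Strat := .move 923 n48 (.cons 964 n989 .nil)
noncomputable def n991 : Strat := .win 844 0 799
noncomputable def n992 : Strat := .win 842 0 798
noncomputable def n993 : Strat := .move 843 n991 (.cons 844 n992 .nil)
noncomputable def n994 : Strat := .move 802 n794 (.cons 839 n993 .nil)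
noncomputable def n995 : Strat := .move 842 n338 (.cons 797 n774 .nil)
noncomputable def n996 : Strat := .move 841 n371 (.cons 796 n995 (.cons 842 n777 .nil))
noncomputable def n997 : Strat := .move 801 n802 (.cons 838 n994 (.cons 802 n996 .nil))
noncomputable def n998 : Strat := .move 923 n48 (.cons 964 n997 .nil)
noncomputable def n999 : Strat := .move 800 n318 (.cons 759 n998 .nil)
noncomputable def n1000 : Strat := .move 798 n337 (.cons 757 n999 .nil)
noncomputable def n1001 : Strat := .move 922 n436 (.cons 798 n990 (.cons 963 n1000 (.cons 923 n546 .nil)))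
noncomputable def n1002 : Strat := .move 880 n561 (.cons 758 n495 .nil)
noncomputable def n1003 : Strat := .move 839 n442 (.cons 963 n1002 .nil)
noncomputable def n1004 : Strat := .move 798 n337 (.cons 757 n1003 .nil)
noncomputable def n1005 : Strat := .move 921 n60 (.cons 962 n1004 .nil)
noncomputable def n1006 : Strat := .move 922 n962 (.cons 921 n436 (.cons 923 n1005 .nil))
noncomputable def n1007 : Strat := .win 1045 7 880
noncomputable def n1008 : Strat := .win 839 7 839
noncomputable def n1009 : Strat := .move 1004 n1007 (.cons 1045 n1008 .nil)
noncomputable def n1010 : Strat := .move 963 n319 (.cons 841 n1009 .nil)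
noncomputable def n1011 : Strat := .move 800 n318 (.cons 759 n1010 .nil)
noncomputable def n1012 : Strat := .move 880 n561 (.cons 758 n1011 .nil)
noncomputable def n1013 : Strat := .move 921 n60 (.cons 962 n1012 .nil)
noncomputable def n1014 : Strat := .move 922 n546 (.cons 841 n1005 (.cons 759 n439 (.cons 963 n579 (.cons 798 n1013 (.cons 839 n375 .nil)))))
noncomputable def n1015 : Strat := .move 881 n955 (.cons 757 n963 (.cons 921 n968 (.cons 922 n977 (.cons 882 n979 (.cons 839 n981 (.cons 758 n1001 (.cons 841 n1006 (.cons 923 n1014 .nil))))))))
noncomputable def n1016 : Strat := .move 881 n347 (.cons 757 n253 (.cons 759 n54 .nil))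
noncomputable def n1017 : Strat := .move 759 n626 (.cons 881 n682 .nil)
noncomputable def n1018 : Strat := .move 716 n0 (.cons 675 n1017 .nil)
noncomputable def n1019 : Strat := .move 718 n2 (.cons 677 n1018 .nil)
noncomputable def n1020 : Strat := .move 880 n20 (.cons 839 n1019 .nil)
noncomputable def n1021 : Strat := .win 674 7 674
noncomputable def n1022 : Strat := .win 759 0 714
noncomputable def n1023 : Strat := .move 714 n279 (.cons 713 n1022 .nil)
noncomputable def n1024 : Strat := .move 715 n1021 (.cons 674 n1023 .nil)
noncomputable def n1025 : Strat := .move 798 n263 (.cons 676 n1024 .nil)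
noncomputable def n1026 : Strat := .move 839 n9 (.cons 880 n1025 .nil)
noncomputable def n1027 : Strat := .move 757 n606 (.cons 881 n1026 .nil)
noncomputable def n1028 : Strat := .move 716 n0 (.cons 675 n1027 .nil)
noncomputable def n1029 : Strat := .move 759 n626 (.cons 881 n689 .nil)
noncomputable def n1030 : Strat := .move 716 n0 (.cons 675 n1029 .nil)
noncomputable def n1031 : Strat := .move 718 n2 (.cons 677 n1030 .nil)
noncomputable def n1032 : Strat := .move 717 n1020 (.cons 759 n745 (.cons 881 n102 (.cons 718 n1028 (.cons 839 n1031 .nil))))
noncomputable def n1033 : Strat := .move 717 n13 (.cons 882 n1028 (.cons 839 n72 (.cons 676 n621 .nil)))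
noncomputable def n1034 : Strat := .win 922 6 757
noncomputable def n1035 : Strat := .move 798 n1034 (.cons 922 n897 .nil)
noncomputable def n1036 : Strat := .move 757 n42 (.cons 716 n1035 .nil)
noncomputable def n1037 : Strat := .move 839 n464 (.cons 882 n1036 .nil)
noncomputable def n1038 : Strat := .move 757 n42 (.cons 716 n345 .nil)
noncomputable def n1039 : Strat := .move 759 n40 (.cons 718 n1038 .nil)
noncomputable def n1040 : Strat := .move 880 n1037 (.cons 922 n512 (.cons 839 n1039 (.cons 800 n295 .nil)))
noncomputable def n1041 : Strat := .move 881 n1040 (.cons 759 n79 (.cons 716 n51 (.cons 882 n347 (.cons 922 n532 .nil))))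
noncomputable def n1042 : Strat := .move 880 n20 (.cons 839 n19 .nil)
noncomputable def n1043 : Strat := .move 717 n1042 (.cons 718 n13 (.cons 839 n19 (.cons 800 n1031 .nil)))
noncomputable def n1044 : Strat := .win 757 7 674
noncomputable def n1045 : Strat := .move 674 n1044 (.cons 757 n113 .nil)
noncomputable def n1046 : Strat := .move 715 n105 (.cons 714 n1045 .nil)
noncomputable def n1047 : Strat := .move 798 n263 (.cons 676 n1046 .nil)
noncomputable def n1048 : Strat := .move 839 n9 (.cons 880 n1047 .nil)
noncomputable def n1049 : Strat := .move 718 n2 (.cons 677 n1048 .nil)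
noncomputable def n1050 : Strat := .move 716 n0 (.cons 675 n1049 .nil)
noncomputable def n1051 : Strat := .move 842 n636 (.cons 797 n339 .nil)
noncomputable def n1052 : Strat := .move 798 n1051 (.cons 843 n271 (.cons 797 n729 .nil))
noncomputable def n1053 : Strat := .move 838 n616 (.cons 837 n1052 .nil)
noncomputable def n1054 : Strat := .move 716 n0 (.cons 675 n1053 .nil)
noncomputable def n1055 : Strat := .move 839 n9 (.cons 880 n1054 .nil)
noncomputable def n1056 : Strat := .move 841 n7 (.cons 882 n1055 .nil)
noncomputable def n1057 : Strat := .move 717 n72 (.cons 841 n1050 (.cons 676 n1056 (.cons 716 n13 .nil)))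
noncomputable def n1058 : Strat := .win 881 1 717
noncomputable def n1059 : Strat := .win 678 3 677
noncomputable def n1060 : Strat := .win 721 4 717
noncomputable def n1061 : Strat := .move 720 n1060 (.cons 721 n174 .nil)
noncomputable def n1062 : Strat := .move 719 n1059 (.cons 678 n1061 .nil)
noncomputable def n1063 : Strat := .move 759 n1058 (.cons 881 n1062 .nil)
noncomputable def n1064 : Strat := .move 800 n122 (.cons 676 n1063 .nil)
noncomputable def n1065 : Strat := .move 841 n7 (.cons 882 n1064 .nil)
noncomputable def n1066 : Strat := .move 718 n2 (.cons 677 n1065 .nil)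
noncomputable def n1067 : Strat := .move 717 n1031 (.cons 718 n72 (.cons 716 n1066 .nil))
noncomputable def n1068 : Strat := .win 800 6 635
noncomputable def n1069 : Strat := .win 594 6 594
noncomputable def n1070 : Strat := .move 635 n1068 (.cons 800 n1069 .nil)
noncomputable def n1071 : Strat := .move 676 n10 (.cons 798 n1070 .nil)
noncomputable def n1072 : Strat := .move 839 n9 (.cons 880 n1071 .nil)
noncomputable def n1073 : Strat := .move 759 n626 (.cons 881 n1072 .nil)
noncomputable def n1074 : Strat := .move 718 n2 (.cons 677 n1073 .nil)
noncomputable def n1075 : Strat := .move 717 n13 (.cons 798 n1066 (.cons 676 n642 (.cons 841 n1074 (.cons 800 n275 .nil))))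
noncomputable def n1076 : Strat := .move 676 n10 (.cons 798 n310 .nil)
noncomputable def n1077 : Strat := .move 839 n9 (.cons 880 n1076 .nil)
noncomputable def n1078 : Strat := .move 717 n34 (.cons 841 n1077 .nil)
noncomputable def n1079 : Strat := .move 882 n35 (.cons 923 n1078 .nil)
noncomputable def n1080 : Strat := .move 882 n34 (.cons 841 n908 .nil)
noncomputable def n1081 : Strat := .move 676 n8 (.cons 800 n904 .nil)
noncomputable def n1082 : Strat := .move 841 n7 (.cons 882 n1081 .nil)
noncomputable def n1083 : Strat := .move 841 n7 (.cons 882 n1051 .nil)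
noncomputable def n1084 : Strat := .move 839 n9 (.cons 880 n1083 .nil)
noncomputable def n1085 : Strat := .move 717 n903 (.cons 880 n1080 (.cons 839 n1082 (.cons 676 n1084 .nil)))
noncomputable def n1086 : Strat := .move 798 n245 (.cons 922 n1085 .nil)
noncomputable def n1087 : Strat := .move 757 n42 (.cons 716 n1086 .nil)
noncomputable def n1088 : Strat := .move 717 n0 (.cons 675 n1077 .nil)
noncomputable def n1089 : Strat := .move 716 n1 (.cons 757 n1088 .nil)
noncomputable def n1090 : Strat := .move 881 n54 (.cons 757 n1079 (.cons 923 n1087 (.cons 717 n79 (.cons 882 n1089 .nil))))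
noncomputable def n1091 : Strat := .move 758 n1016 (.cons 882 n1032 (.cons 718 n1033 (.cons 717 n1041 (.cons 757 n1043 (.cons 881 n1057 (.cons 798 n1067 (.cons 716 n1075 (.cons 759 n1090 .nil))))))))
noncomputable def n1092 : Strat := .move 881 n1039 (.cons 759 n77 (.cons 757 n65 .nil))
noncomputable def n1093 : Strat := .move 757 n606 (.cons 881 n111 .nil)
noncomputable def n1094 : Strat := .move 718 n2 (.cons 677 n1093 .nil)
noncomputable def n1095 : Strat := .move 716 n0 (.cons 675 n1094 .nil)
noncomputable def n1096 : Strat := .move 882 n34 (.cons 841 n1095 .nil)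
noncomputable def n1097 : Strat := .move 800 n122 (.cons 676 n1062 .nil)
noncomputable def n1098 : Strat := .move 841 n7 (.cons 882 n1097 .nil)
noncomputable def n1099 : Strat := .move 759 n626 (.cons 881 n1098 .nil)
noncomputable def n1100 : Strat := .move 718 n2 (.cons 677 n1099 .nil)
noncomputable def n1101 : Strat := .move 757 n606 (.cons 881 n657 .nil)
noncomputable def n1102 : Strat := .move 718 n2 (.cons 677 n1101 .nil)
noncomputable def n1103 : Strat := .move 716 n0 (.cons 675 n1102 .nil)
noncomputable def n1104 : Strat := .move 717 n1096 (.cons 757 n697 (.cons 881 n72 (.cons 716 n1100 (.cons 841 n1103 .nil))))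
noncomputable def n1105 : Strat := .move 717 n28 (.cons 880 n1100 (.cons 841 n102 (.cons 676 n642 .nil)))
noncomputable def n1106 : Strat := .win 922 1 758
noncomputable def n1107 : Strat := .move 800 n1106 (.cons 922 n189 .nil)
noncomputable def n1108 : Strat := .move 759 n40 (.cons 718 n1107 .nil)
noncomputable def n1109 : Strat := .move 841 n306 (.cons 880 n1108 .nil)
noncomputable def n1110 : Strat := .move 880 n21 (.cons 921 n511 .nil)
noncomputable def n1111 : Strat := .move 879 n195 (.cons 878 n194 .nil)
noncomputable def n1112 : Strat := .move 880 n21 (.cons 921 n1111 .nil)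
noncomputable def n1113 : Strat := .win 759 1 758
noncomputable def n1114 : Strat := .move 800 n1113 (.cons 759 n336 .nil)
noncomputable def n1115 : Strat := .win 800 3 799
noncomputable def n1116 : Strat := .win 1004 3 840
noncomputable def n1117 : Strat := .move 963 n1115 (.cons 800 n1116 .nil)
noncomputable def n1118 : Strat := .move 922 n1114 (.cons 759 n1117 (.cons 800 n61 .nil))
noncomputable def n1119 : Strat := .move 800 n336 (.cons 963 n1113 .nil)
noncomputable def n1120 : Strat := .move 922 n43 (.cons 798 n1119 .nil)
noncomputable def n1121 : Strat := .move 757 n42 (.cons 716 n1120 .nil)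
noncomputable def n1122 : Strat := .move 841 n306 (.cons 843 n1112 (.cons 842 n1118 (.cons 921 n1121 .nil)))
noncomputable def n1123 : Strat := .win 839 1 756
noncomputable def n1124 : Strat := .move 920 n1123 (.cons 839 n516 .nil)
noncomputable def n1125 : Strat := .move 879 n196 (.cons 878 n1124 .nil)
noncomputable def n1126 : Strat := .move 798 n245 (.cons 922 n1125 .nil)
noncomputable def n1127 : Strat := .move 757 n42 (.cons 716 n1126 .nil)
noncomputable def n1128 : Strat := .move 880 n21 (.cons 921 n1127 .nil)
noncomputable def n1129 : Strat := .move 882 n1109 (.cons 922 n1110 (.cons 718 n1122 (.cons 841 n347 (.cons 759 n1128 .nil))))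
noncomputable def n1130 : Strat := .move 798 n901 (.cons 761 n88 (.cons 797 n94 .nil))
noncomputable def n1131 : Strat := .move 756 n85 (.cons 755 n1130 .nil)
noncomputable def n1132 : Strat := .move 880 n21 (.cons 921 n1131 .nil)
noncomputable def n1133 : Strat := .move 757 n42 (.cons 716 n1132 .nil)
noncomputable def n1134 : Strat := .move 759 n40 (.cons 718 n1133 .nil)
noncomputable def n1135 : Strat := .move 881 n1129 (.cons 757 n82 (.cons 718 n63 (.cons 880 n1039 (.cons 922 n1134 .nil))))
noncomputable def n1136 : Strat := .move 882 n34 (.cons 841 n33 .nil)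
noncomputable def n1137 : Strat := .move 717 n1136 (.cons 716 n28 (.cons 841 n33 (.cons 798 n1103 .nil)))
noncomputable def n1138 : Strat := .win 759 3 677
noncomputable def n1139 : Strat := .win 679 5 675
noncomputable def n1140 : Strat := .move 678 n1138 (.cons 759 n1139 .nil)
noncomputable def n1141 : Strat := .move 719 n167 (.cons 720 n1140 .nil)
noncomputable def n1142 : Strat := .move 800 n122 (.cons 676 n1141 .nil)
noncomputable def n1143 : Strat := .move 841 n7 (.cons 882 n1142 .nil)
noncomputable def n1144 : Strat := .move 716 n0 (.cons 675 n1143 .nil)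
noncomputable def n1145 : Strat := .move 718 n2 (.cons 677 n1144 .nil)
noncomputable def n1146 : Strat := .win 798 2 798
noncomputable def n1147 : Strat := .move 843 n1146 (.cons 798 n703 .nil)
noncomputable def n1148 : Strat := .move 842 n699 (.cons 797 n1147 (.cons 843 n650 .nil))
noncomputable def n1149 : Strat := .move 718 n2 (.cons 677 n1148 .nil)
noncomputable def n1150 : Strat := .move 841 n7 (.cons 882 n1149 .nil)
noncomputable def n1151 : Strat := .move 839 n9 (.cons 880 n1150 .nil)
noncomputable def n1152 : Strat := .move 717 n102 (.cons 839 n1145 (.cons 676 n1151 (.cons 718 n28 .nil)))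
noncomputable def n1153 : Strat := .win 881 6 716
noncomputable def n1154 : Strat := .move 757 n1153 (.cons 881 n1024 .nil)
noncomputable def n1155 : Strat := .move 798 n263 (.cons 676 n1154 .nil)
noncomputable def n1156 : Strat := .move 839 n9 (.cons 880 n1155 .nil)
noncomputable def n1157 : Strat := .move 716 n0 (.cons 675 n1156 .nil)
noncomputable def n1158 : Strat := .move 717 n1103 (.cons 716 n102 (.cons 718 n1157 .nil))
noncomputable def n1159 : Strat := .win 798 1 634
noncomputable def n1160 : Strat := .win 594 1 593
noncomputable def n1161 : Strat := .move 635 n1159 (.cons 798 n1160 .nil)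
noncomputable def n1162 : Strat := .move 676 n8 (.cons 800 n1161 .nil)
noncomputable def n1163 : Strat := .move 841 n7 (.cons 882 n1162 .nil)
noncomputable def n1164 : Strat := .move 757 n606 (.cons 881 n1163 .nil)
noncomputable def n1165 : Strat := .move 716 n0 (.cons 675 n1164 .nil)
noncomputable def n1166 : Strat := .move 717 n28 (.cons 800 n1157 (.cons 676 n621 (.cons 839 n1165 (.cons 798 n241 .nil))))
noncomputable def n1167 : Strat := .move 676 n8 (.cons 800 n310 .nil)
noncomputable def n1168 : Strat := .move 841 n7 (.cons 882 n1167 .nil)
noncomputable def n1169 : Strat := .move 717 n20 (.cons 839 n1168 .nil)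
noncomputable def n1170 : Strat := .move 880 n21 (.cons 921 n1169 .nil)
noncomputable def n1171 : Strat := .move 841 n7 (.cons 882 n122 .nil)
noncomputable def n1172 : Strat := .win 841 6 676
noncomputable def n1173 : Strat := .win 635 6 635
noncomputable def n1174 : Strat := .move 676 n1172 (.cons 841 n1173 .nil)
noncomputable def n1175 : Strat := .move 880 n20 (.cons 839 n1174 .nil)
noncomputable def n1176 : Strat := .move 676 n10 (.cons 798 n1173 .nil)
noncomputable def n1177 : Strat := .move 839 n9 (.cons 880 n1176 .nil)
noncomputable def n1178 : Strat := .move 841 n7 (.cons 882 n238 .nil)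
noncomputable def n1179 : Strat := .move 717 n1171 (.cons 882 n1175 (.cons 841 n1177 (.cons 676 n1178 .nil)))
noncomputable def n1180 : Strat := .move 800 n155 (.cons 922 n1179 .nil)
noncomputable def n1181 : Strat := .move 759 n40 (.cons 718 n1180 .nil)
noncomputable def n1182 : Strat := .move 676 n8 (.cons 800 n311 .nil)
noncomputable def n1183 : Strat := .move 841 n7 (.cons 882 n1182 .nil)
noncomputable def n1184 : Strat := .move 717 n2 (.cons 677 n1183 .nil)
noncomputable def n1185 : Strat := .move 718 n3 (.cons 759 n1184 .nil)
noncomputable def n1186 : Strat := .win 836 0 836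
noncomputable def n1187 : Strat := .win 882 0 837
noncomputable def n1188 : Strat := .move 837 n1186 (.cons 836 n1187 .nil)
noncomputable def n1189 : Strat := .move 882 n461 (.cons 837 n462 .nil)
noncomputable def n1190 : Strat := .win 879 4 838
noncomputable def n1191 : Strat := .move 842 n1190 (.cons 879 n304 .nil)
noncomputable def n1192 : Strat := .win 842 4 838
noncomputable def n1193 : Strat := .move 879 n1192 (.cons 842 n613 .nil)
noncomputable def n1194 : Strat := .win 882 0 838
noncomputable def n1195 : Strat := .move 842 n633 (.cons 884 n304 .nil)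
noncomputable def n1196 : Strat := .move 883 n1194 (.cons 882 n1195 .nil)
noncomputable def n1197 : Strat := .move 922 n336 (.cons 963 n318 .nil)
noncomputable def n1198 : Strat := .move 800 n235 (.cons 801 n1197 .nil)
noncomputable def n1199 : Strat := .move 841 n1191 (.cons 843 n1193 (.cons 879 n1196 (.cons 842 n1198 .nil)))
noncomputable def n1200 : Strat := .win 800 5 796
noncomputable def n1201 : Strat := .move 837 n1186 (.cons 836 n1200 .nil)
noncomputable def n1202 : Strat := .move 838 n1188 (.cons 836 n1189 (.cons 837 n1199 (.cons 882 n1201 .nil)))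
noncomputable def n1203 : Strat := .move 839 n460 (.cons 717 n1202 .nil)
noncomputable def n1204 : Strat := .move 880 n21 (.cons 921 n1203 .nil)
noncomputable def n1205 : Strat := .move 881 n65 (.cons 759 n1170 (.cons 921 n1181 (.cons 717 n82 (.cons 880 n1185 (.cons 718 n1204 .nil)))))
noncomputable def n1206 : Strat := .move 758 n1092 (.cons 880 n1104 (.cons 716 n1105 (.cons 717 n1135 (.cons 759 n1137 (.cons 881 n1152 (.cons 800 n1158 (.cons 718 n1166 (.cons 757 n1205 .nil))))))))
noncomputable def n1207 : Strat := .win 962 3 798
noncomputable def n1208 : Strat := .move 841 n264 (.cons 796 n265 .nil)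
noncomputable def n1209 : Strat := .move 797 n852 (.cons 756 n1208 .nil)
noncomputable def n1210 : Strat := .win 757 6 757
noncomputable def n1211 : Strat := .move 800 n318 (.cons 759 n934 .nil)
noncomputable def n1212 : Strat := .move 881 n1210 (.cons 757 n1211 .nil)
noncomputable def n1213 : Strat := .move 922 n851 (.cons 963 n1212 .nil)
noncomputable def n1214 : Strat := .move 798 n1209 (.cons 797 n1213 .nil)
noncomputable def n1215 : Strat := .move 921 n1207 (.cons 962 n1214 .nil)
noncomputable def n1216 : Strat := .move 881 n1186 (.cons 836 n1187 .nil)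
noncomputable def n1217 : Strat := .move 837 n1200 (.cons 800 n1216 .nil)
noncomputable def n1218 : Strat := .win 881 0 836
noncomputable def n1219 : Strat := .win 798 5 795
noncomputable def n1220 : Strat := .move 836 n1218 (.cons 881 n1219 .nil)
noncomputable def n1221 : Strat := .move 837 n1200 (.cons 800 n1220 .nil)
noncomputable def n1222 : Strat := .win 798 4 797
noncomputable def n1223 : Strat := .move 801 n123 (.cons 802 n1222 .nil)
noncomputable def n1224 : Strat := .move 800 n236 (.cons 837 n1223 .nil)
noncomputable def n1225 : Strat := .win 715 6 715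
noncomputable def n1226 : Strat := .move 756 n572 (.cons 755 n1225 .nil)
noncomputable def n1227 : Strat := .move 798 n370 (.cons 842 n1226 .nil)
noncomputable def n1228 : Strat := .move 797 n709 (.cons 796 n1227 .nil)
noncomputable def n1229 : Strat := .move 800 n235 (.cons 801 n1228 .nil)
noncomputable def n1230 : Strat := .win 921 6 756
noncomputable def n1231 : Strat := .move 756 n1230 (.cons 921 n1225 .nil)
noncomputable def n1232 : Strat := .move 797 n709 (.cons 796 n1231 .nil)
noncomputable def n1233 : Strat := .move 879 n613 (.cons 878 n1232 .nil)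
noncomputable def n1234 : Strat := .move 841 n1193 (.cons 879 n1229 (.cons 842 n1233 .nil))
noncomputable def n1235 : Strat := .win 878 4 836
noncomputable def n1236 : Strat := .win 876 4 835
noncomputable def n1237 : Strat := .move 877 n1235 (.cons 878 n1236 .nil)
noncomputable def n1238 : Strat := .move 836 n1219 (.cons 798 n1237 .nil)
noncomputable def n1239 : Strat := .win 797 2 796
noncomputable def n1240 : Strat := .win 795 2 795
noncomputable def n1241 : Strat := .move 796 n1239 (.cons 797 n1240 .nil)
noncomputable def n1242 : Strat := .move 841 n749 (.cons 879 n1241 .nil)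
noncomputable def n1243 : Strat := .move 878 n748 (.cons 877 n1242 .nil)
noncomputable def n1244 : Strat := .move 881 n1187 (.cons 882 n1243 .nil)
noncomputable def n1245 : Strat := .move 837 n1216 (.cons 882 n1220 (.cons 881 n1238 (.cons 836 n1244 .nil)))
noncomputable def n1246 : Strat := .move 838 n1217 (.cons 882 n1221 (.cons 836 n1224 (.cons 837 n1234 (.cons 800 n1245 .nil))))
noncomputable def n1247 : Strat := .win 838 4 837
noncomputable def n1248 : Strat := .move 841 n1192 (.cons 842 n1247 .nil)
noncomputable def n1249 : Strat := .move 878 n667 (.cons 877 n1248 .nil)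
noncomputable def n1250 : Strat := .win 756 6 756
noncomputable def n1251 : Strat := .move 797 n709 (.cons 796 n1250 .nil)
noncomputable def n1252 : Strat := .move 838 n1251 (.cons 756 n616 .nil)
noncomputable def n1253 : Strat := .move 841 n1192 (.cons 842 n1252 .nil)
noncomputable def n1254 : Strat := .move 838 n1187 (.cons 882 n1200 .nil)
noncomputable def n1255 : Strat := .move 837 n208 (.cons 836 n1254 .nil)
noncomputable def n1256 : Strat := .win 922 0 878
noncomputable def n1257 : Strat := .move 923 n540 (.cons 924 n1256 .nil)
noncomputable def n1258 : Strat := .move 883 n200 (.cons 884 n201 .nil)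
noncomputable def n1259 : Strat := .move 882 n1257 (.cons 922 n1258 .nil)
noncomputable def n1260 : Strat := .win 838 5 796
noncomputable def n1261 : Strat := .move 837 n208 (.cons 836 n1260 .nil)
noncomputable def n1262 : Strat := .win 923 0 878
noncomputable def n1263 : Strat := .move 922 n318 (.cons 759 n1262 .nil)
noncomputable def n1264 : Strat := .move 800 n1261 (.cons 838 n1263 .nil)
noncomputable def n1265 : Strat := .move 919 n213 (.cons 920 n212 .nil)
noncomputable def n1266 : Strat := .move 882 n1257 (.cons 922 n1265 .nil)
noncomputable def n1267 : Strat := .move 881 n1255 (.cons 837 n1259 (.cons 882 n1264 (.cons 838 n1266 .nil)))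
noncomputable def n1268 : Strat := .move 878 n667 (.cons 877 n1267 .nil)
noncomputable def n1269 : Strat := .move 881 n207 (.cons 841 n1266 .nil)
noncomputable def n1270 : Strat := .move 878 n667 (.cons 877 n1269 .nil)
noncomputable def n1271 : Strat := .move 879 n1249 (.cons 878 n1253 (.cons 841 n1268 (.cons 838 n1270 .nil)))
noncomputable def n1272 : Strat := .move 921 n1207 (.cons 962 n1271 .nil)
noncomputable def n1273 : Strat := .move 796 n854 (.cons 841 n853 .nil)
noncomputable def n1274 : Strat := .move 797 n852 (.cons 756 n1273 .nil)
noncomputable def n1275 : Strat := .move 881 n1210 (.cons 757 n1274 .nil)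
noncomputable def n1276 : Strat := .move 922 n851 (.cons 963 n1275 .nil)
noncomputable def n1277 : Strat := .win 961 1 797
noncomputable def n1278 : Strat := .win 918 5 877
noncomputable def n1279 : Strat := .move 919 n393 (.cons 882 n1278 .nil)
noncomputable def n1280 : Strat := .move 920 n1277 (.cons 961 n1279 .nil)
noncomputable def n1281 : Strat := .move 881 n1210 (.cons 757 n1280 .nil)
noncomputable def n1282 : Strat := .move 922 n851 (.cons 963 n1281 .nil)
noncomputable def n1283 : Strat := .move 798 n1276 (.cons 796 n1282 (.cons 922 n1209 .nil))
noncomputable def n1284 : Strat := .move 921 n1207 (.cons 962 n1283 .nil)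
noncomputable def n1285 : Strat := .win 757 1 756
noncomputable def n1286 : Strat := .win 923 2 878
noncomputable def n1287 : Strat := .move 922 n1286 (.cons 923 n851 .nil)
noncomputable def n1288 : Strat := .move 878 n667 (.cons 877 n1287 .nil)
noncomputable def n1289 : Strat := .move 879 n1285 (.cons 757 n1288 .nil)
noncomputable def n1290 : Strat := .move 920 n1277 (.cons 961 n1289 .nil)
noncomputable def n1291 : Strat := .move 798 n1209 (.cons 797 n1290 .nil)
noncomputable def n1292 : Strat := .move 921 n1207 (.cons 962 n1291 .nil)
noncomputable def n1293 : Strat := .win 797 7 756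
noncomputable def n1294 : Strat := .win 879 1 756
noncomputable def n1295 : Strat := .move 920 n1294 (.cons 879 n1277 .nil)
noncomputable def n1296 : Strat := .move 757 n894 (.cons 715 n1295 .nil)
noncomputable def n1297 : Strat := .move 756 n1293 (.cons 797 n1296 .nil)
noncomputable def n1298 : Strat := .win 760 5 756
noncomputable def n1299 : Strat := .win 881 3 758
noncomputable def n1300 : Strat := .move 759 n1298 (.cons 760 n1299 .nil)
noncomputable def n1301 : Strat := .move 800 n934 (.cons 802 n585 (.cons 838 n1300 .nil))
noncomputable def n1302 : Strat := .move 797 n852 (.cons 756 n1301 .nil)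
noncomputable def n1303 : Strat := .move 922 n851 (.cons 963 n1302 .nil)
noncomputable def n1304 : Strat := .move 798 n1213 (.cons 881 n1297 (.cons 757 n1303 .nil))
noncomputable def n1305 : Strat := .move 921 n1207 (.cons 962 n1304 .nil)
noncomputable def n1306 : Strat := .win 965 0 920
noncomputable def n1307 : Strat := .win 881 6 799
noncomputable def n1308 : Strat := .move 964 n1306 (.cons 965 n1307 .nil)
noncomputable def n1309 : Strat := .move 879 n384 (.cons 878 n839 .nil)
noncomputable def n1310 : Strat := .move 923 n1308 (.cons 881 n1309 .nil)
noncomputable def n1311 : Strat := .move 920 n1277 (.cons 961 n1310 .nil)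
noncomputable def n1312 : Strat := .move 922 n851 (.cons 963 n1311 .nil)
noncomputable def n1313 : Strat := .win 675 6 675
noncomputable def n1314 : Strat := .move 716 n1153 (.cons 881 n1313 .nil)
noncomputable def n1315 : Strat := .move 757 n1294 (.cons 879 n1314 .nil)
noncomputable def n1316 : Strat := .move 920 n1277 (.cons 961 n1315 .nil)
noncomputable def n1317 : Strat := .move 798 n1213 (.cons 881 n1290 (.cons 757 n1312 (.cons 922 n1316 .nil)))
noncomputable def n1318 : Strat := .move 921 n1207 (.cons 962 n1317 .nil)
noncomputable def n1319 : Strat := .move 837 n1216 (.cons 882 n1220 (.cons 836 n1244 (.cons 881 n1238 .nil)))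
noncomputable def n1320 : Strat := .move 841 n1192 (.cons 842 n613 .nil)
noncomputable def n1321 : Strat := .win 841 4 837
noncomputable def n1322 : Strat := .move 878 n667 (.cons 877 n1321 .nil)
noncomputable def n1323 : Strat := .move 798 n442 (.cons 963 n1210 .nil)
noncomputable def n1324 : Strat := .move 922 n1262 (.cons 923 n1323 .nil)
noncomputable def n1325 : Strat := .move 882 n462 (.cons 883 n1265 .nil)
noncomputable def n1326 : Strat := .move 881 n1324 (.cons 922 n1325 .nil)
noncomputable def n1327 : Strat := .move 878 n667 (.cons 877 n1326 .nil)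
noncomputable def n1328 : Strat := .win 716 1 715
noncomputable def n1329 : Strat := .win 920 1 756
noncomputable def n1330 : Strat := .move 757 n1328 (.cons 716 n1329 .nil)
noncomputable def n1331 : Strat := .win 961 3 797
noncomputable def n1332 : Strat := .move 920 n1285 (.cons 757 n1331 .nil)
noncomputable def n1333 : Strat := .move 797 n862 (.cons 842 n855 (.cons 796 n1226 .nil))
noncomputable def n1334 : Strat := .move 800 n443 (.cons 801 n1333 .nil)
noncomputable def n1335 : Strat := .move 798 n1330 (.cons 716 n1332 (.cons 757 n1334 .nil))
noncomputable def n1336 : Strat := .move 879 n1320 (.cons 842 n1322 (.cons 841 n1327 (.cons 878 n1335 .nil)))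
noncomputable def n1337 : Strat := .move 838 n1217 (.cons 800 n1319 (.cons 882 n1221 (.cons 836 n1224 (.cons 837 n1336 .nil))))
noncomputable def n1338 : Strat := .move 880 n1215 (.cons 962 n1246 (.cons 798 n1272 (.cons 838 n1284 (.cons 881 n1292 (.cons 841 n1305 (.cons 797 n1318 (.cons 921 n1337 .nil)))))))
noncomputable def n1339 : Strat := .win 716 6 716
noncomputable def n1340 : Strat := .move 881 n1339 (.cons 716 n245 .nil)
noncomputable def n1341 : Strat := .win 880 7 715
noncomputable def n1342 : Strat := .win 797 2 755
noncomputable def n1343 : Strat := .win 801 2 756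
noncomputable def n1344 : Strat := .move 800 n1342 (.cons 797 n1343 .nil)
noncomputable def n1345 : Strat := .move 755 n480 (.cons 754 n1344 .nil)
noncomputable def n1346 : Strat := .move 756 n1341 (.cons 880 n1345 .nil)
noncomputable def n1347 : Strat := .move 715 n1021 (.cons 674 n1346 .nil)
noncomputable def n1348 : Strat := .move 716 n1313 (.cons 675 n1347 .nil)
noncomputable def n1349 : Strat := .move 878 n207 (.cons 841 n667 .nil)
noncomputable def n1350 : Strat := .move 879 n1329 (.cons 920 n1349 .nil)
noncomputable def n1351 : Strat := .move 920 n1277 (.cons 961 n1294 .nil)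
noncomputable def n1352 : Strat := .move 921 n1207 (.cons 962 n1351 .nil)
noncomputable def n1353 : Strat := .move 756 n1293 (.cons 797 n894 .nil)
noncomputable def n1354 : Strat := .move 921 n1207 (.cons 962 n1353 .nil)
noncomputable def n1355 : Strat := .move 880 n1350 (.cons 877 n1352 (.cons 879 n1354 .nil))
noncomputable def n1356 : Strat := .move 881 n245 (.cons 922 n1355 .nil)
noncomputable def n1357 : Strat := .move 757 n1340 (.cons 881 n1348 (.cons 716 n1356 .nil))
noncomputable def n1358 : Strat := .move 921 n1293 (.cons 797 n1207 .nil)
noncomputable def n1359 : Strat := .move 756 n894 (.cons 715 n1358 .nil)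
noncomputable def n1360 : Strat := .move 755 n1342 (.cons 797 n480 .nil)
noncomputable def n1361 : Strat := .move 800 n1343 (.cons 801 n1360 .nil)
noncomputable def n1362 : Strat := .move 756 n894 (.cons 715 n1361 .nil)
noncomputable def n1363 : Strat := .move 880 n1352 (.cons 961 n1359 (.cons 921 n1362 .nil))
noncomputable def n1364 : Strat := .move 881 n245 (.cons 922 n1363 .nil)
noncomputable def n1365 : Strat := .move 757 n1340 (.cons 881 n1348 (.cons 716 n1364 .nil))
noncomputable def n1366 : Strat := .win 800 2 755
noncomputable def n1367 : Strat := .win 674 6 674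
noncomputable def n1368 : Strat := .win 878 3 714
noncomputable def n1369 : Strat := .win 836 4 795
noncomputable def n1370 : Strat := .move 837 n1368 (.cons 878 n1369 .nil)
noncomputable def n1371 : Strat := .move 715 n1367 (.cons 674 n1370 .nil)
noncomputable def n1372 : Strat := .move 756 n1366 (.cons 800 n1371 .nil)
noncomputable def n1373 : Strat := .move 755 n864 (.cons 754 n1372 .nil)
noncomputable def n1374 : Strat := .move 796 n853 (.cons 795 n1373 .nil)
noncomputable def n1375 : Strat := .win 757 2 756
noncomputable def n1376 : Strat := .move 756 n1375 (.cons 757 n572 .nil)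
noncomputable def n1377 : Strat := .move 801 n123 (.cons 802 n1376 .nil)
noncomputable def n1378 : Strat := .win 921 7 756
noncomputable def n1379 : Strat := .win 757 7 715
noncomputable def n1380 : Strat := .move 715 n1379 (.cons 757 n1367 .nil)
noncomputable def n1381 : Strat := .move 880 n1378 (.cons 921 n1380 .nil)
noncomputable def n1382 : Strat := .move 756 n572 (.cons 755 n1381 .nil)
noncomputable def n1383 : Strat := .win 759 5 756
noncomputable def n1384 : Strat := .move 760 n549 (.cons 761 n1383 .nil)
noncomputable def n1385 : Strat := .move 801 n123 (.cons 802 n1384 .nil)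
noncomputable def n1386 : Strat := .move 800 n1377 (.cons 801 n1382 (.cons 755 n1385 .nil))
noncomputable def n1387 : Strat := .move 841 n265 (.cons 842 n1386 .nil)
noncomputable def n1388 : Strat := .move 797 n1208 (.cons 841 n1374 (.cons 796 n1387 .nil))
noncomputable def n1389 : Strat := .win 756 7 715
noncomputable def n1390 : Strat := .move 880 n1389 (.cons 756 n1352 .nil)
noncomputable def n1391 : Strat := .move 715 n1021 (.cons 674 n1390 .nil)
noncomputable def n1392 : Strat := .move 716 n1313 (.cons 675 n1391 .nil)
noncomputable def n1393 : Strat := .move 841 n339 (.cons 843 n636 .nil)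
noncomputable def n1394 : Strat := .move 841 n1190 (.cons 879 n339 .nil)
noncomputable def n1395 : Strat := .move 841 n1190 (.cons 879 n636 .nil)
noncomputable def n1396 : Strat := .move 883 n203 (.cons 843 n200 .nil)
noncomputable def n1397 : Strat := .move 842 n1393 (.cons 797 n1394 (.cons 843 n1395 (.cons 841 n1396 .nil)))
noncomputable def n1398 : Strat := .move 882 n1352 (.cons 921 n1397 (.cons 879 n1354 .nil))
noncomputable def n1399 : Strat := .move 880 n1350 (.cons 878 n1398 (.cons 879 n1354 .nil))
noncomputable def n1400 : Strat := .move 881 n245 (.cons 922 n1399 .nil)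
noncomputable def n1401 : Strat := .move 757 n1340 (.cons 881 n1392 (.cons 716 n1400 .nil))
noncomputable def n1402 : Strat := .move 800 n865 (.cons 756 n1385 .nil)
noncomputable def n1403 : Strat := .move 755 n864 (.cons 754 n1402 .nil)
noncomputable def n1404 : Strat := .move 796 n853 (.cons 795 n1403 .nil)
noncomputable def n1405 : Strat := .win 677 1 676
noncomputable def n1406 : Strat := .move 718 n1058 (.cons 881 n1405 .nil)
noncomputable def n1407 : Strat := .move 759 n1298 (.cons 760 n1406 .nil)
noncomputable def n1408 : Strat := .move 881 n336 (.cons 963 n337 .nil)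
noncomputable def n1409 : Strat := .move 881 n1113 (.cons 759 n336 .nil)
noncomputable def n1410 : Strat := .move 881 n1113 (.cons 759 n337 .nil)
noncomputable def n1411 : Strat := .win 964 7 799
noncomputable def n1412 : Strat := .move 923 n791 (.cons 963 n1411 .nil)
noncomputable def n1413 : Strat := .move 922 n1408 (.cons 757 n1409 (.cons 963 n1410 (.cons 881 n1412 .nil)))
noncomputable def n1414 : Strat := .move 801 n549 (.cons 761 n123 .nil)
noncomputable def n1415 : Strat := .move 760 n1383 (.cons 759 n1414 .nil)
noncomputable def n1416 : Strat := .move 882 n1377 (.cons 801 n1413 (.cons 757 n1415 .nil))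
noncomputable def n1417 : Strat := .move 800 n1407 (.cons 718 n1416 (.cons 759 n1377 .nil))
noncomputable def n1418 : Strat := .move 841 n265 (.cons 842 n1417 .nil)
noncomputable def n1419 : Strat := .move 797 n1208 (.cons 841 n1404 (.cons 796 n1418 .nil))
noncomputable def n1420 : Strat := .move 841 n370 (.cons 842 n1407 .nil)
noncomputable def n1421 : Strat := .win 718 1 717
noncomputable def n1422 : Strat := .move 881 n1421 (.cons 718 n155 .nil)
noncomputable def n1423 : Strat := .move 759 n1298 (.cons 760 n1422 .nil)
noncomputable def n1424 : Strat := .move 841 n370 (.cons 842 n1423 .nil)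
noncomputable def n1425 : Strat := .move 760 n1383 (.cons 759 n549 .nil)
noncomputable def n1426 : Strat := .move 801 n123 (.cons 802 n1425 .nil)
noncomputable def n1427 : Strat := .move 801 n123 (.cons 802 n774 .nil)
noncomputable def n1428 : Strat := .move 842 n869 (.cons 841 n1427 .nil)
noncomputable def n1429 : Strat := .move 800 n1420 (.cons 677 n1424 (.cons 841 n1426 (.cons 760 n1428 .nil)))
noncomputable def n1430 : Strat := .move 797 n1208 (.cons 841 n1374 (.cons 796 n1429 .nil))
noncomputable def n1431 : Strat := .win 676 3 675
noncomputable def n1432 : Strat := .win 718 4 714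
noncomputable def n1433 : Strat := .move 755 n1432 (.cons 718 n480 .nil)
noncomputable def n1434 : Strat := .move 717 n1431 (.cons 676 n1433 .nil)
noncomputable def n1435 : Strat := .move 756 n1341 (.cons 880 n1434 .nil)
noncomputable def n1436 : Strat := .move 715 n1021 (.cons 674 n1435 .nil)
noncomputable def n1437 : Strat := .move 716 n1313 (.cons 675 n1436 .nil)
noncomputable def n1438 : Strat := .move 881 n1034 (.cons 922 n1350 .nil)
noncomputable def n1439 : Strat := .move 841 n195 (.cons 878 n1192 .nil)
noncomputable def n1440 : Strat := .move 879 n1329 (.cons 920 n1439 .nil)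
noncomputable def n1441 : Strat := .move 881 n1034 (.cons 922 n1440 .nil)
noncomputable def n1442 : Strat := .move 921 n1207 (.cons 962 n1295 .nil)
noncomputable def n1443 : Strat := .win 881 6 757
noncomputable def n1444 : Strat := .move 921 n1207 (.cons 962 n851 .nil)
noncomputable def n1445 : Strat := .move 922 n1443 (.cons 881 n1444 .nil)
noncomputable def n1446 : Strat := .move 880 n1438 (.cons 877 n1441 (.cons 881 n1442 (.cons 920 n1445 .nil)))
noncomputable def n1447 : Strat := .move 757 n1340 (.cons 881 n1437 (.cons 716 n1446 .nil))
noncomputable def n1448 : Strat := .win 882 1 718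
noncomputable def n1449 : Strat := .win 678 1 677
noncomputable def n1450 : Strat := .move 719 n1448 (.cons 882 n1449 .nil)
noncomputable def n1451 : Strat := .move 760 n549 (.cons 761 n1450 .nil)
noncomputable def n1452 : Strat := .move 841 n338 (.cons 797 n1451 .nil)
noncomputable def n1453 : Strat := .move 842 n774 (.cons 843 n1452 .nil)
noncomputable def n1454 : Strat := .move 801 n123 (.cons 802 n1453 .nil)
noncomputable def n1455 : Strat := .move 797 n264 (.cons 796 n370 .nil)
noncomputable def n1456 : Strat := .move 922 n337 (.cons 757 n336 .nil)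
noncomputable def n1457 : Strat := .move 797 n1298 (.cons 760 n264 .nil)
noncomputable def n1458 : Strat := .move 759 n1421 (.cons 718 n1457 .nil)
noncomputable def n1459 : Strat := .move 881 n1456 (.cons 757 n1197 (.cons 922 n1458 .nil))
noncomputable def n1460 : Strat := .win 718 6 718
noncomputable def n1461 : Strat := .win 882 6 759
noncomputable def n1462 : Strat := .win 965 7 800
noncomputable def n1463 : Strat := .move 924 n1461 (.cons 882 n1462 .nil)
noncomputable def n1464 : Strat := .move 759 n1460 (.cons 718 n1463 .nil)
noncomputable def n1465 : Strat := .move 883 n633 (.cons 884 n1464 .nil)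
noncomputable def n1466 : Strat := .move 842 n339 (.cons 843 n1465 .nil)
noncomputable def n1467 : Strat := .move 841 n340 (.cons 843 n1455 (.cons 842 n1459 (.cons 797 n1466 .nil)))
noncomputable def n1468 : Strat := .win 925 6 760
noncomputable def n1469 : Strat := .win 841 0 839
noncomputable def n1470 : Strat := .move 884 n1468 (.cons 925 n1469 .nil)
noncomputable def n1471 : Strat := .win 718 7 718
noncomputable def n1472 : Strat := .win 924 7 759
noncomputable def n1473 : Strat := .move 759 n1471 (.cons 718 n1472 .nil)
noncomputable def n1474 : Strat := .move 883 n1470 (.cons 841 n1473 .nil)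
noncomputable def n1475 : Strat := .move 760 n549 (.cons 761 n1474 .nil)
noncomputable def n1476 : Strat := .move 842 n774 (.cons 843 n1475 .nil)
noncomputable def n1477 : Strat := .move 801 n123 (.cons 802 n1476 .nil)
noncomputable def n1478 : Strat := .move 759 n1460 (.cons 718 n1472 .nil)
noncomputable def n1479 : Strat := .move 883 n633 (.cons 884 n1478 .nil)
noncomputable def n1480 : Strat := .move 841 n338 (.cons 797 n1479 .nil)
noncomputable def n1481 : Strat := .move 842 n774 (.cons 843 n1480 .nil)
noncomputable def n1482 : Strat := .move 801 n123 (.cons 802 n1481 .nil)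
noncomputable def n1483 : Strat := .move 797 n1383 (.cons 759 n1273 .nil)
noncomputable def n1484 : Strat := .move 760 n549 (.cons 761 n1483 .nil)
noncomputable def n1485 : Strat := .move 801 n123 (.cons 802 n1484 .nil)
noncomputable def n1486 : Strat := .win 797 5 756
noncomputable def n1487 : Strat := .win 883 7 718
noncomputable def n1488 : Strat := .move 842 n1487 (.cons 883 n774 .nil)
noncomputable def n1489 : Strat := .move 718 n1405 (.cons 677 n1488 .nil)
noncomputable def n1490 : Strat := .move 759 n1486 (.cons 797 n1489 .nil)
noncomputable def n1491 : Strat := .move 760 n549 (.cons 761 n1490 .nil)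
noncomputable def n1492 : Strat := .move 801 n123 (.cons 802 n1491 .nil)
noncomputable def n1493 : Strat := .move 800 n1454 (.cons 801 n1467 (.cons 797 n1477 (.cons 760 n1482 (.cons 843 n1485 (.cons 841 n1492 .nil)))))
noncomputable def n1494 : Strat := .move 798 n1357 (.cons 841 n1365 (.cons 881 n1388 (.cons 800 n1401 (.cons 880 n1419 (.cons 757 n1430 (.cons 797 n1447 (.cons 756 n1493 .nil)))))))
noncomputable def n1495 : Strat := .win 796 2 795
noncomputable def n1496 : Strat := .win 794 2 794
noncomputable def n1497 : Strat := .move 795 n1495 (.cons 796 n1496 .nil)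
noncomputable def n1498 : Strat := .move 836 n1219 (.cons 798 n1497 .nil)
noncomputable def n1499 : Strat := .move 841 n1239 (.cons 797 n750 .nil)
noncomputable def n1500 : Strat := .move 796 n1240 (.cons 795 n1499 .nil)
noncomputable def n1501 : Strat := .move 837 n1238 (.cons 878 n1498 (.cons 836 n1500 .nil))
noncomputable def n1502 : Strat := .win 880 0 836
noncomputable def n1503 : Strat := .move 881 n1187 (.cons 882 n1502 .nil)
noncomputable def n1504 : Strat := .move 836 n1219 (.cons 798 n1503 .nil)
noncomputable def n1505 : Strat := .move 836 n1502 (.cons 880 n1497 .nil)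
noncomputable def n1506 : Strat := .move 881 n1187 (.cons 882 n1505 .nil)
noncomputable def n1507 : Strat := .win 920 6 755
noncomputable def n1508 : Strat := .win 714 6 714
noncomputable def n1509 : Strat := .move 879 n1507 (.cons 920 n1508 .nil)
noncomputable def n1510 : Strat := .win 919 3 755
noncomputable def n1511 : Strat := .win 715 1 714
noncomputable def n1512 : Strat := .move 756 n1510 (.cons 919 n1511 .nil)
noncomputable def n1513 : Strat := .win 960 3 796
noncomputable def n1514 : Strat := .win 756 3 755
noncomputable def n1515 : Strat := .move 919 n1513 (.cons 960 n1514 .nil)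
noncomputable def n1516 : Strat := .win 798 2 754
noncomputable def n1517 : Strat := .win 713 7 713
noncomputable def n1518 : Strat := .move 754 n1516 (.cons 798 n1517 .nil)
noncomputable def n1519 : Strat := .move 797 n1512 (.cons 715 n1515 (.cons 919 n1518 .nil))
noncomputable def n1520 : Strat := .move 755 n1509 (.cons 714 n1519 .nil)
noncomputable def n1521 : Strat := .move 878 n748 (.cons 877 n1520 .nil)
noncomputable def n1522 : Strat := .move 796 n1240 (.cons 795 n1521 .nil)
noncomputable def n1523 : Strat := .move 837 n1238 (.cons 877 n1504 (.cons 798 n1506 (.cons 836 n1522 .nil)))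
noncomputable def n1524 : Strat := .win 883 0 838
noncomputable def n1525 : Strat := .win 881 0 837
noncomputable def n1526 : Strat := .move 837 n1525 (.cons 881 n750 .nil)
noncomputable def n1527 : Strat := .move 882 n1524 (.cons 883 n1526 .nil)
noncomputable def n1528 : Strat := .move 923 n540 (.cons 924 n1411 .nil)
noncomputable def n1529 : Strat := .move 880 n1192 (.cons 842 n1528 .nil)
noncomputable def n1530 : Strat := .move 879 n613 (.cons 878 n1529 .nil)
noncomputable def n1531 : Strat := .move 881 n461 (.cons 837 n1530 .nil)
noncomputable def n1532 : Strat := .move 882 n1524 (.cons 883 n1531 .nil)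
noncomputable def n1533 : Strat := .move 880 n1192 (.cons 842 n1232 .nil)
noncomputable def n1534 : Strat := .move 879 n613 (.cons 878 n1533 .nil)
noncomputable def n1535 : Strat := .move 796 n1240 (.cons 795 n1239 .nil)
noncomputable def n1536 : Strat := .move 837 n1525 (.cons 881 n1535 .nil)
noncomputable def n1537 : Strat := .move 882 n1524 (.cons 883 n1536 .nil)
noncomputable def n1538 : Strat := .move 841 n1527 (.cons 877 n1532 (.cons 883 n1534 (.cons 879 n1537 .nil)))
noncomputable def n1539 : Strat := .move 757 n245 (.cons 922 n1339 .nil)
noncomputable def n1540 : Strat := .move 881 n1187 (.cons 882 n1539 .nil)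
noncomputable def n1541 : Strat := .move 796 n1240 (.cons 795 n1540 .nil)
noncomputable def n1542 : Strat := .move 798 n751 (.cons 836 n1541 .nil)
noncomputable def n1543 : Strat := .move 882 n1524 (.cons 883 n1525 .nil)
noncomputable def n1544 : Strat := .move 841 n749 (.cons 879 n1543 .nil)
noncomputable def n1545 : Strat := .move 878 n748 (.cons 877 n1544 .nil)
noncomputable def n1546 : Strat := .win 880 1 756
noncomputable def n1547 : Strat := .move 757 n1546 (.cons 880 n1328 .nil)
noncomputable def n1548 : Strat := .move 920 n1331 (.cons 961 n1547 .nil)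
noncomputable def n1549 : Strat := .move 879 n1321 (.cons 841 n1548 .nil)
noncomputable def n1550 : Strat := .move 878 n748 (.cons 877 n1549 .nil)
noncomputable def n1551 : Strat := .move 798 n1541 (.cons 757 n1545 (.cons 881 n1550 .nil))
noncomputable def n1552 : Strat := .move 755 n1507 (.cons 920 n1508 .nil)
noncomputable def n1553 : Strat := .move 796 n1240 (.cons 795 n1552 .nil)
noncomputable def n1554 : Strat := .move 879 n1321 (.cons 841 n1553 .nil)
noncomputable def n1555 : Strat := .move 878 n748 (.cons 877 n1554 .nil)
noncomputable def n1556 : Strat := .move 837 n1542 (.cons 836 n1551 (.cons 881 n1238 (.cons 798 n1555 .nil)))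
noncomputable def n1557 : Strat := .win 841 2 796
noncomputable def n1558 : Strat := .move 797 n1557 (.cons 841 n1512 .nil)
noncomputable def n1559 : Strat := .move 878 n748 (.cons 877 n1558 .nil)
noncomputable def n1560 : Strat := .move 796 n1240 (.cons 795 n1559 .nil)
noncomputable def n1561 : Strat := .move 837 n1498 (.cons 796 n1238 (.cons 798 n1560 .nil))
noncomputable def n1562 : Strat := .move 757 n1339 (.cons 716 n245 .nil)
noncomputable def n1563 : Strat := .move 881 n1187 (.cons 882 n1562 .nil)
noncomputable def n1564 : Strat := .move 798 n751 (.cons 836 n1563 .nil)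
noncomputable def n1565 : Strat := .move 882 n1525 (.cons 881 n1524 .nil)
noncomputable def n1566 : Strat := .move 841 n749 (.cons 879 n1565 .nil)
noncomputable def n1567 : Strat := .move 878 n748 (.cons 877 n1566 .nil)
noncomputable def n1568 : Strat := .move 837 n1564 (.cons 881 n1238 (.cons 836 n1567 .nil))
noncomputable def n1569 : Strat := .move 841 n1239 (.cons 797 n1565 .nil)
noncomputable def n1570 : Strat := .move 796 n1240 (.cons 795 n1569 .nil)
noncomputable def n1571 : Strat := .move 837 n1498 (.cons 798 n1506 (.cons 795 n1504 (.cons 836 n1570 .nil)))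
noncomputable def n1572 : Strat := .win 880 4 838
noncomputable def n1573 : Strat := .move 879 n613 (.cons 878 n1572 .nil)
noncomputable def n1574 : Strat := .move 842 n708 (.cons 798 n1573 .nil)
noncomputable def n1575 : Strat := .move 797 n709 (.cons 796 n1574 .nil)
noncomputable def n1576 : Strat := .move 883 n1194 (.cons 882 n633 .nil)
noncomputable def n1577 : Strat := .move 842 n1572 (.cons 880 n1576 .nil)
noncomputable def n1578 : Strat := .move 879 n613 (.cons 878 n1577 .nil)
noncomputable def n1579 : Strat := .move 842 n708 (.cons 798 n1576 .nil)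
noncomputable def n1580 : Strat := .move 797 n709 (.cons 796 n1579 .nil)
noncomputable def n1581 : Strat := .move 880 n1230 (.cons 921 n1225 .nil)
noncomputable def n1582 : Strat := .win 798 3 756
noncomputable def n1583 : Strat := .win 716 3 715
noncomputable def n1584 : Strat := .move 757 n1582 (.cons 798 n1583 .nil)
noncomputable def n1585 : Strat := .win 757 3 756
noncomputable def n1586 : Strat := .move 798 n1331 (.cons 961 n1585 .nil)
noncomputable def n1587 : Strat := .win 962 6 797
noncomputable def n1588 : Strat := .win 880 6 756
noncomputable def n1589 : Strat := .move 921 n1587 (.cons 962 n1588 .nil)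
noncomputable def n1590 : Strat := .move 920 n1584 (.cons 716 n1586 (.cons 798 n1589 .nil))
noncomputable def n1591 : Strat := .win 880 6 715
noncomputable def n1592 : Strat := .win 675 3 674
noncomputable def n1593 : Strat := .win 757 3 715
noncomputable def n1594 : Strat := .move 716 n1592 (.cons 675 n1593 .nil)
noncomputable def n1595 : Strat := .move 715 n1591 (.cons 880 n1594 .nil)
noncomputable def n1596 : Strat := .win 673 7 673
noncomputable def n1597 : Strat := .win 755 7 714
noncomputable def n1598 : Strat := .move 714 n1596 (.cons 673 n1597 .nil)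
noncomputable def n1599 : Strat := .move 715 n1594 (.cons 757 n1598 .nil)
noncomputable def n1600 : Strat := .move 756 n1581 (.cons 715 n1590 (.cons 921 n1595 (.cons 880 n1599 .nil)))
noncomputable def n1601 : Strat := .move 879 n613 (.cons 878 n1600 .nil)
noncomputable def n1602 : Strat := .move 797 n709 (.cons 796 n1601 .nil)
noncomputable def n1603 : Strat := .move 841 n1575 (.cons 797 n1578 (.cons 879 n1580 (.cons 842 n1602 .nil)))
noncomputable def n1604 : Strat := .move 838 n1501 (.cons 841 n1523 (.cons 798 n1538 (.cons 797 n1556 (.cons 879 n1561 (.cons 796 n1568 (.cons 878 n1571 (.cons 837 n1603 .nil)))))))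
noncomputable def n1605 : Strat := .move 841 n1239 (.cons 797 n749 .nil)
noncomputable def n1606 : Strat := .move 796 n1240 (.cons 795 n1605 .nil)
noncomputable def n1607 : Strat := .move 878 n748 (.cons 877 n1606 .nil)
noncomputable def n1608 : Strat := .move 837 n1200 (.cons 800 n1607 .nil)
noncomputable def n1609 : Strat := .move 837 n1200 (.cons 800 n1506 .nil)
noncomputable def n1610 : Strat := .win 756 1 755
noncomputable def n1611 : Strat := .move 797 n1610 (.cons 756 n1513 .nil)
noncomputable def n1612 : Strat := .move 880 n212 (.cons 918 n1186 .nil)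
noncomputable def n1613 : Strat := .move 919 n1611 (.cons 960 n1612 .nil)
noncomputable def n1614 : Strat := .move 879 n1321 (.cons 841 n1613 .nil)
noncomputable def n1615 : Strat := .move 881 n1187 (.cons 882 n1614 .nil)
noncomputable def n1616 : Strat := .move 878 n748 (.cons 877 n1615 .nil)
noncomputable def n1617 : Strat := .move 837 n1200 (.cons 800 n1616 .nil)
noncomputable def n1618 : Strat := .move 879 n1572 (.cons 880 n613 .nil)
noncomputable def n1619 : Strat := .move 842 n633 (.cons 884 n1618 .nil)
noncomputable def n1620 : Strat := .move 883 n1194 (.cons 882 n1619 .nil)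
noncomputable def n1621 : Strat := .move 800 n235 (.cons 801 n1620 .nil)
noncomputable def n1622 : Strat := .move 843 n704 (.cons 844 n703 .nil)
noncomputable def n1623 : Strat := .move 842 n1572 (.cons 880 n1622 .nil)
noncomputable def n1624 : Strat := .move 879 n613 (.cons 878 n1623 .nil)
noncomputable def n1625 : Strat := .move 881 n1106 (.cons 922 n1421 .nil)
noncomputable def n1626 : Strat := .win 760 3 718
noncomputable def n1627 : Strat := .move 719 n1059 (.cons 678 n1626 .nil)
noncomputable def n1628 : Strat := .move 718 n1405 (.cons 677 n1627 .nil)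
noncomputable def n1629 : Strat := .win 881 1 758
noncomputable def n1630 : Strat := .move 922 n1629 (.cons 881 n1412 .nil)
noncomputable def n1631 : Strat := .move 759 n1406 (.cons 677 n1625 (.cons 881 n1628 (.cons 718 n1630 .nil)))
noncomputable def n1632 : Strat := .move 882 n1524 (.cons 883 n1631 .nil)
noncomputable def n1633 : Strat := .move 800 n1620 (.cons 882 n1624 (.cons 883 n1534 (.cons 880 n1632 .nil)))
noncomputable def n1634 : Strat := .move 800 n235 (.cons 801 n1632 .nil)
noncomputable def n1635 : Strat := .move 800 n235 (.cons 801 n1624 .nil)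
noncomputable def n1636 : Strat := .move 800 n235 (.cons 801 n1534 .nil)
noncomputable def n1637 : Strat := .move 880 n1192 (.cons 842 n1231 .nil)
noncomputable def n1638 : Strat := .move 879 n613 (.cons 878 n1637 .nil)
noncomputable def n1639 : Strat := .move 797 n709 (.cons 796 n1638 .nil)
noncomputable def n1640 : Strat := .move 841 n1621 (.cons 801 n1633 (.cons 880 n1634 (.cons 882 n1635 (.cons 883 n1636 (.cons 800 n1639 .nil)))))
noncomputable def n1641 : Strat := .move 838 n1608 (.cons 800 n1538 (.cons 841 n1609 (.cons 796 n1617 (.cons 837 n1640 .nil))))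
noncomputable def n1642 : Strat := .move 837 n1200 (.cons 800 n1238 .nil)
noncomputable def n1643 : Strat := .win 920 3 756
noncomputable def n1644 : Strat := .move 757 n1643 (.cons 920 n1328 .nil)
noncomputable def n1645 : Strat := .move 879 n613 (.cons 878 n1644 .nil)
noncomputable def n1646 : Strat := .move 798 n370 (.cons 842 n1645 .nil)
noncomputable def n1647 : Strat := .move 797 n709 (.cons 796 n1646 .nil)
noncomputable def n1648 : Strat := .move 800 n235 (.cons 801 n1647 .nil)
noncomputable def n1649 : Strat := .move 842 n700 (.cons 802 n1576 .nil)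
noncomputable def n1650 : Strat := .move 801 n755 (.cons 800 n1649 .nil)
noncomputable def n1651 : Strat := .win 714 7 714
noncomputable def n1652 : Strat := .win 798 2 755
noncomputable def n1653 : Strat := .move 755 n1651 (.cons 714 n1652 .nil)
noncomputable def n1654 : Strat := .move 756 n1581 (.cons 715 n1653 .nil)
noncomputable def n1655 : Strat := .move 879 n613 (.cons 878 n1654 .nil)
noncomputable def n1656 : Strat := .move 797 n709 (.cons 796 n1655 .nil)
noncomputable def n1657 : Strat := .move 800 n235 (.cons 801 n1656 .nil)
noncomputable def n1658 : Strat := .move 841 n1575 (.cons 880 n1648 (.cons 797 n1650 (.cons 842 n1657 .nil)))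
noncomputable def n1659 : Strat := .move 837 n1240 (.cons 795 n750 .nil)
noncomputable def n1660 : Strat := .move 796 n1239 (.cons 797 n1659 .nil)
noncomputable def n1661 : Strat := .move 841 n1575 (.cons 797 n1578 (.cons 879 n1580 (.cons 842 n1660 .nil)))
noncomputable def n1662 : Strat := .move 838 n1642 (.cons 837 n1658 (.cons 878 n1224 (.cons 800 n1661 (.cons 798 n1608 .nil))))
noncomputable def n1663 : Strat := .move 838 n236 (.cons 837 n1223 .nil)
noncomputable def n1664 : Strat := .move 756 n572 (.cons 755 n1375 .nil)
noncomputable def n1665 : Strat := .move 797 n869 (.cons 841 n1664 .nil)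
noncomputable def n1666 : Strat := .move 842 n774 (.cons 843 n1665 .nil)
noncomputable def n1667 : Strat := .move 798 n493 (.cons 838 n1666 .nil)
noncomputable def n1668 : Strat := .move 801 n123 (.cons 802 n1667 .nil)
noncomputable def n1669 : Strat := .win 756 2 756
noncomputable def n1670 : Strat := .move 757 n1669 (.cons 756 n1340 .nil)
noncomputable def n1671 : Strat := .move 797 n869 (.cons 841 n1425 .nil)
noncomputable def n1672 : Strat := .move 842 n774 (.cons 843 n1671 .nil)
noncomputable def n1673 : Strat := .move 798 n1666 (.cons 797 n1670 (.cons 757 n1672 .nil))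
noncomputable def n1674 : Strat := .move 801 n123 (.cons 802 n1673 .nil)
noncomputable def n1675 : Strat := .move 798 n370 (.cons 842 n1407 .nil)
noncomputable def n1676 : Strat := .move 797 n709 (.cons 796 n1675 .nil)
noncomputable def n1677 : Strat := .move 841 n1676 (.cons 881 n1647 (.cons 798 n1632 .nil))
noncomputable def n1678 : Strat := .move 838 n236 (.cons 837 n1677 .nil)
noncomputable def n1679 : Strat := .move 841 n235 (.cons 801 n1632 .nil)
noncomputable def n1680 : Strat := .move 838 n236 (.cons 837 n1679 .nil)
noncomputable def n1681 : Strat := .move 800 n1663 (.cons 837 n1668 (.cons 838 n1674 (.cons 801 n1678 (.cons 798 n1680 .nil))))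
noncomputable def n1682 : Strat := .move 715 n1367 (.cons 674 n1591 .nil)
noncomputable def n1683 : Strat := .move 756 n572 (.cons 755 n1682 .nil)
noncomputable def n1684 : Strat := .move 798 n370 (.cons 842 n1683 .nil)
noncomputable def n1685 : Strat := .move 797 n709 (.cons 796 n1684 .nil)
noncomputable def n1686 : Strat := .move 800 n235 (.cons 801 n1685 .nil)
noncomputable def n1687 : Strat := .win 798 5 756
noncomputable def n1688 : Strat := .move 760 n969 (.cons 719 n1687 .nil)
noncomputable def n1689 : Strat := .move 759 n1406 (.cons 677 n1625 (.cons 881 n1688 .nil))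
noncomputable def n1690 : Strat := .move 882 n1524 (.cons 883 n1689 .nil)
noncomputable def n1691 : Strat := .move 797 n709 (.cons 796 n1690 .nil)
noncomputable def n1692 : Strat := .move 800 n1685 (.cons 798 n1620 (.cons 842 n1691 .nil))
noncomputable def n1693 : Strat := .move 800 n235 (.cons 801 n1691 .nil)
noncomputable def n1694 : Strat := .move 798 n338 (.cons 797 n339 .nil)
noncomputable def n1695 : Strat := .move 843 n1146 (.cons 798 n704 .nil)
noncomputable def n1696 : Strat := .move 842 n1694 (.cons 797 n1695 (.cons 798 n1576 .nil))
noncomputable def n1697 : Strat := .move 800 n235 (.cons 801 n1696 .nil)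
noncomputable def n1698 : Strat := .move 843 n704 (.cons 844 n1146 .nil)
noncomputable def n1699 : Strat := .move 842 n1618 (.cons 878 n1698 .nil)
noncomputable def n1700 : Strat := .move 923 n1411 (.cons 964 n1699 .nil)
noncomputable def n1701 : Strat := .move 882 n1524 (.cons 883 n1700 .nil)
noncomputable def n1702 : Strat := .move 800 n235 (.cons 801 n1701 .nil)
noncomputable def n1703 : Strat := .move 838 n1686 (.cons 801 n1692 (.cons 842 n1693 (.cons 796 n1697 (.cons 797 n1702 (.cons 798 n1621 (.cons 800 n1575 .nil))))))
noncomputable def n1704 : Strat := .move 759 n1472 (.cons 924 n1460 .nil)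
noncomputable def n1705 : Strat := .move 883 n633 (.cons 884 n1704 .nil)
noncomputable def n1706 : Strat := .win 881 4 839
noncomputable def n1707 : Strat := .move 880 n1706 (.cons 881 n1190 .nil)
noncomputable def n1708 : Strat := .move 843 n704 (.cons 844 n1707 .nil)
noncomputable def n1709 : Strat := .move 800 n1705 (.cons 924 n1622 (.cons 883 n1708 .nil))
noncomputable def n1710 : Strat := .move 801 n700 (.cons 802 n1709 .nil)
noncomputable def n1711 : Strat := .move 881 n1034 (.cons 922 n1339 .nil)
noncomputable def n1712 : Strat := .win 800 2 756
noncomputable def n1713 : Strat := .move 756 n894 (.cons 715 n1712 .nil)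
noncomputable def n1714 : Strat := .move 757 n1314 (.cons 675 n1711 (.cons 881 n1713 .nil))
noncomputable def n1715 : Strat := .move 880 n1190 (.cons 879 n1714 .nil)
noncomputable def n1716 : Strat := .move 801 n700 (.cons 802 n1715 .nil)
noncomputable def n1717 : Strat := .move 798 n636 (.cons 797 n1716 .nil)
noncomputable def n1718 : Strat := .move 842 n637 (.cons 798 n1710 (.cons 843 n1717 .nil))
noncomputable def n1719 : Strat := .move 800 n1691 (.cons 882 n1656 (.cons 798 n1632 .nil))
noncomputable def n1720 : Strat := .move 800 n1676 (.cons 881 n1647 (.cons 798 n1632 .nil))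
noncomputable def n1721 : Strat := .win 757 0 754
noncomputable def n1722 : Strat := .win 753 0 753
noncomputable def n1723 : Strat := .move 754 n1721 (.cons 757 n1722 .nil)
noncomputable def n1724 : Strat := .move 755 n1366 (.cons 800 n1723 .nil)
noncomputable def n1725 : Strat := .move 756 n1682 (.cons 880 n1724 .nil)
noncomputable def n1726 : Strat := .move 798 n265 (.cons 842 n1725 .nil)
noncomputable def n1727 : Strat := .move 797 n709 (.cons 796 n1726 .nil)
noncomputable def n1728 : Strat := .move 838 n1692 (.cons 798 n1633 (.cons 842 n1719 (.cons 880 n1720 (.cons 881 n1575 (.cons 797 n1578 (.cons 879 n1727 .nil))))))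
noncomputable def n1729 : Strat := .win 801 5 798
noncomputable def n1730 : Strat := .win 803 5 799
noncomputable def n1731 : Strat := .move 802 n1729 (.cons 801 n1730 .nil)
noncomputable def n1732 : Strat := .move 843 n1146 (.cons 798 n1731 .nil)
noncomputable def n1733 : Strat := .move 880 n1190 (.cons 879 n1706 .nil)
noncomputable def n1734 : Strat := .move 843 n1146 (.cons 798 n1733 .nil)
noncomputable def n1735 : Strat := .move 800 n124 (.cons 838 n1704 .nil)
noncomputable def n1736 : Strat := .move 883 n633 (.cons 884 n1735 .nil)
noncomputable def n1737 : Strat := .move 801 n700 (.cons 802 n1736 .nil)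
noncomputable def n1738 : Strat := .move 842 n1732 (.cons 801 n1734 (.cons 798 n1737 .nil))
noncomputable def n1739 : Strat := .move 842 n637 (.cons 798 n1737 .nil)
noncomputable def n1740 : Strat := .move 715 n1591 (.cons 880 n1367 .nil)
noncomputable def n1741 : Strat := .move 756 n572 (.cons 755 n1740 .nil)
noncomputable def n1742 : Strat := .move 838 n443 (.cons 801 n1741 .nil)
noncomputable def n1743 : Strat := .move 800 n1742 (.cons 674 n494 (.cons 801 n1407 .nil))
noncomputable def n1744 : Strat := .move 797 n264 (.cons 796 n1743 .nil)
noncomputable def n1745 : Strat := .move 757 n1669 (.cons 756 n1314 .nil)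
noncomputable def n1746 : Strat := .move 800 n493 (.cons 838 n1745 .nil)
noncomputable def n1747 : Strat := .move 801 n700 (.cons 802 n1746 .nil)
noncomputable def n1748 : Strat := .move 842 n339 (.cons 843 n1747 .nil)
noncomputable def n1749 : Strat := .move 798 n266 (.cons 796 n1051 (.cons 842 n1744 (.cons 797 n1748 .nil)))
noncomputable def n1750 : Strat := .move 838 n1194 (.cons 882 n755 .nil)
noncomputable def n1751 : Strat := .move 883 n633 (.cons 884 n1750 .nil)
noncomputable def n1752 : Strat := .move 801 n700 (.cons 802 n1751 .nil)
noncomputable def n1753 : Strat := .move 842 n637 (.cons 797 n1732 (.cons 798 n1752 .nil))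
noncomputable def n1754 : Strat := .move 800 n124 (.cons 838 n1708 .nil)
noncomputable def n1755 : Strat := .move 801 n700 (.cons 802 n1754 .nil)
noncomputable def n1756 : Strat := .move 884 n702 (.cons 883 n701 .nil)
noncomputable def n1757 : Strat := .move 843 n1706 (.cons 881 n1756 .nil)
noncomputable def n1758 : Strat := .move 880 n1190 (.cons 879 n1757 .nil)
noncomputable def n1759 : Strat := .move 842 n1737 (.cons 838 n1710 (.cons 759 n1752 (.cons 883 n1755 (.cons 800 n1758 .nil))))
noncomputable def n1760 : Strat := .move 883 n633 (.cons 884 n1194 .nil)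
noncomputable def n1761 : Strat := .move 838 n613 (.cons 878 n1760 .nil)
noncomputable def n1762 : Strat := .move 879 n1572 (.cons 880 n1761 .nil)
noncomputable def n1763 : Strat := .move 798 n636 (.cons 797 n1762 .nil)
noncomputable def n1764 : Strat := .move 842 n637 (.cons 798 n1758 (.cons 843 n1763 .nil))
noncomputable def n1765 : Strat := .move 838 n235 (.cons 801 n1691 .nil)
noncomputable def n1766 : Strat := .move 838 n1691 (.cons 882 n1656 (.cons 798 n1632 .nil))
noncomputable def n1767 : Strat := .move 838 n235 (.cons 801 n1656 .nil)
noncomputable def n1768 : Strat := .move 797 n1383 (.cons 759 n264 .nil)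
noncomputable def n1769 : Strat := .move 760 n549 (.cons 761 n1768 .nil)
noncomputable def n1770 : Strat := .move 798 n1745 (.cons 675 n1769 .nil)
noncomputable def n1771 : Strat := .move 801 n123 (.cons 802 n1770 .nil)
noncomputable def n1772 : Strat := .move 800 n1765 (.cons 801 n1766 (.cons 881 n1767 (.cons 798 n125 (.cons 838 n1771 .nil))))
noncomputable def n1773 : Strat := .move 841 n1703 (.cons 838 n1718 (.cons 801 n1728 (.cons 797 n1738 (.cons 880 n1739 (.cons 884 n1749 (.cons 759 n1753 (.cons 798 n1759 (.cons 800 n1764 (.cons 842 n1772 .nil)))))))))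
noncomputable def n1774 : Strat := .move 837 n1200 (.cons 800 n1542 .nil)
noncomputable def n1775 : Strat := .win 841 5 797
noncomputable def n1776 : Strat := .move 801 n123 (.cons 802 n1775 .nil)
noncomputable def n1777 : Strat := .move 800 n236 (.cons 837 n1776 .nil)
noncomputable def n1778 : Strat := .move 842 n1572 (.cons 880 n1698 .nil)
noncomputable def n1779 : Strat := .move 879 n613 (.cons 878 n1778 .nil)
noncomputable def n1780 : Strat := .move 800 n235 (.cons 801 n1779 .nil)
noncomputable def n1781 : Strat := .move 842 n633 (.cons 884 n1698 .nil)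
noncomputable def n1782 : Strat := .move 883 n1194 (.cons 882 n1781 .nil)
noncomputable def n1783 : Strat := .move 800 n235 (.cons 801 n1782 .nil)
noncomputable def n1784 : Strat := .move 841 n1702 (.cons 800 n1578 (.cons 882 n1780 (.cons 878 n1783 (.cons 842 n1634 .nil))))
noncomputable def n1785 : Strat := .move 838 n1774 (.cons 800 n1556 (.cons 798 n1777 (.cons 837 n1784 .nil)))
noncomputable def n1786 : Strat := .move 838 n1222 (.cons 798 n1775 .nil)
noncomputable def n1787 : Strat := .move 801 n123 (.cons 802 n1786 .nil)
noncomputable def n1788 : Strat := .move 801 n1222 (.cons 798 n1775 .nil)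
noncomputable def n1789 : Strat := .move 838 n236 (.cons 837 n1788 .nil)
noncomputable def n1790 : Strat := .move 838 n236 (.cons 837 n1776 .nil)
noncomputable def n1791 : Strat := .win 841 1 717
noncomputable def n1792 : Strat := .move 718 n1791 (.cons 841 n1405 .nil)
noncomputable def n1793 : Strat := .move 881 n155 (.cons 922 n1792 .nil)
noncomputable def n1794 : Strat := .move 759 n1486 (.cons 797 n1793 .nil)
noncomputable def n1795 : Strat := .move 760 n549 (.cons 761 n1794 .nil)
noncomputable def n1796 : Strat := .move 797 n1273 (.cons 795 n1425 .nil)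
noncomputable def n1797 : Strat := .move 716 n1313 (.cons 675 n1796 .nil)
noncomputable def n1798 : Strat := .move 757 n1669 (.cons 756 n1797 .nil)
noncomputable def n1799 : Strat := .move 798 n1670 (.cons 756 n1795 (.cons 881 n1798 .nil))
noncomputable def n1800 : Strat := .move 801 n123 (.cons 802 n1799 .nil)
noncomputable def n1801 : Strat := .move 841 n1691 (.cons 882 n1656 (.cons 798 n1632 .nil))
noncomputable def n1802 : Strat := .move 838 n236 (.cons 837 n1801 .nil)
noncomputable def n1803 : Strat := .move 800 n1663 (.cons 837 n1787 (.cons 802 n1789 (.cons 798 n1790 (.cons 838 n1800 (.cons 801 n1802 .nil)))))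
noncomputable def n1804 : Strat := .move 841 n235 (.cons 801 n1696 .nil)
noncomputable def n1805 : Strat := .move 800 n236 (.cons 837 n1804 .nil)
noncomputable def n1806 : Strat := .move 842 n1694 (.cons 797 n1695 (.cons 798 n1573 .nil))
noncomputable def n1807 : Strat := .move 800 n235 (.cons 801 n1806 .nil)
noncomputable def n1808 : Strat := .move 842 n1572 (.cons 880 n637 .nil)
noncomputable def n1809 : Strat := .move 879 n613 (.cons 878 n1808 .nil)
noncomputable def n1810 : Strat := .move 841 n1697 (.cons 842 n1634 (.cons 882 n1807 (.cons 801 n1809 .nil)))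
noncomputable def n1811 : Strat := .move 838 n1805 (.cons 800 n1568 (.cons 798 n1617 (.cons 841 n1642 (.cons 837 n1810 .nil))))
noncomputable def n1812 : Strat := .move 838 n236 (.cons 837 n1222 .nil)
noncomputable def n1813 : Strat := .move 801 n123 (.cons 802 n1812 .nil)
noncomputable def n1814 : Strat := .move 838 n236 (.cons 837 n1775 .nil)
noncomputable def n1815 : Strat := .move 801 n123 (.cons 802 n1814 .nil)
noncomputable def n1816 : Strat := .move 841 n1685 (.cons 797 n1779 (.cons 842 n1656 (.cons 798 n1624 (.cons 880 n1676 .nil))))
noncomputable def n1817 : Strat := .move 838 n236 (.cons 837 n1816 .nil)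
noncomputable def n1818 : Strat := .move 797 n264 (.cons 796 n1664 .nil)
noncomputable def n1819 : Strat := .move 881 n1210 (.cons 757 n318 .nil)
noncomputable def n1820 : Strat := .move 757 n1443 (.cons 881 n1669 .nil)
noncomputable def n1821 : Strat := .move 881 n336 (.cons 963 n318 .nil)
noncomputable def n1822 : Strat := .move 921 n851 (.cons 963 n1207 .nil)
noncomputable def n1823 : Strat := .move 922 n1819 (.cons 759 n1820 (.cons 757 n1821 (.cons 881 n1822 .nil)))
noncomputable def n1824 : Strat := .move 797 n264 (.cons 796 n1425 .nil)
noncomputable def n1825 : Strat := .move 880 n1818 (.cons 797 n1823 (.cons 757 n1824 .nil))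
noncomputable def n1826 : Strat := .move 841 n1745 (.cons 716 n1825 (.cons 757 n1824 .nil))
noncomputable def n1827 : Strat := .move 798 n1666 (.cons 842 n1826 (.cons 797 n1670 (.cons 757 n1672 .nil)))
noncomputable def n1828 : Strat := .move 801 n123 (.cons 802 n1827 .nil)
noncomputable def n1829 : Strat := .move 800 n1813 (.cons 798 n1815 (.cons 802 n1789 (.cons 837 n1787 (.cons 801 n1817 (.cons 838 n1828 .nil)))))
noncomputable def n1830 : Strat := .move 837 n1200 (.cons 800 n1498 .nil)
noncomputable def n1831 : Strat := .move 841 n235 (.cons 801 n1685 .nil)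
noncomputable def n1832 : Strat := .win 798 7 798
noncomputable def n1833 : Strat := .move 963 n319 (.cons 841 n1832 .nil)
noncomputable def n1834 : Strat := .move 922 n318 (.cons 759 n1833 .nil)
noncomputable def n1835 : Strat := .move 963 n319 (.cons 841 n146 .nil)
noncomputable def n1836 : Strat := .move 922 n318 (.cons 759 n1835 .nil)
noncomputable def n1837 : Strat := .win 798 0 797
noncomputable def n1838 : Strat := .move 797 n1837 (.cons 798 n709 .nil)
noncomputable def n1839 : Strat := .move 798 n339 (.cons 843 n338 .nil)
noncomputable def n1840 : Strat := .win 880 4 839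
noncomputable def n1841 : Strat := .move 843 n1840 (.cons 880 n704 .nil)
noncomputable def n1842 : Strat := .move 842 n1838 (.cons 796 n1839 (.cons 798 n1841 .nil))
noncomputable def n1843 : Strat := .move 882 n1524 (.cons 883 n1842 .nil)
noncomputable def n1844 : Strat := .move 759 n1298 (.cons 760 n1421 .nil)
noncomputable def n1845 : Strat := .move 798 n370 (.cons 842 n1844 .nil)
noncomputable def n1846 : Strat := .move 797 n709 (.cons 796 n1845 .nil)
noncomputable def n1847 : Strat := .move 882 n969 (.cons 719 n1524 .nil)
noncomputable def n1848 : Strat := .move 797 n1687 (.cons 798 n709 .nil)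
noncomputable def n1849 : Strat := .move 760 n1847 (.cons 883 n1848 .nil)
noncomputable def n1850 : Strat := .move 759 n1421 (.cons 718 n1849 .nil)
noncomputable def n1851 : Strat := .move 842 n633 (.cons 884 n1841 .nil)
noncomputable def n1852 : Strat := .move 883 n1194 (.cons 882 n1851 .nil)
noncomputable def n1853 : Strat := .move 841 n1843 (.cons 883 n1846 (.cons 797 n1782 (.cons 842 n1850 (.cons 798 n1852 .nil))))
noncomputable def n1854 : Strat := .move 798 n337 (.cons 757 n442 .nil)
noncomputable def n1855 : Strat := .move 922 n318 (.cons 759 n1854 .nil)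
noncomputable def n1856 : Strat := .move 922 n337 (.cons 757 n442 .nil)
noncomputable def n1857 : Strat := .move 797 n855 (.cons 841 n1741 .nil)
noncomputable def n1858 : Strat := .move 798 n1856 (.cons 963 n1562 (.cons 922 n1857 .nil))
noncomputable def n1859 : Strat := .move 881 n1834 (.cons 798 n1836 (.cons 922 n1853 (.cons 841 n1855 (.cons 759 n1858 .nil))))
noncomputable def n1860 : Strat := .move 800 n1831 (.cons 880 n1223 (.cons 798 n1776 (.cons 801 n1859 .nil)))
noncomputable def n1861 : Strat := .move 837 n1200 (.cons 800 n1560 .nil)
noncomputable def n1862 : Strat := .move 838 n1830 (.cons 800 n1561 (.cons 795 n1224 (.cons 837 n1860 (.cons 798 n1861 .nil))))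
noncomputable def n1863 : Strat := .move 841 n338 (.cons 797 n1745 .nil)
noncomputable def n1864 : Strat := .move 842 n774 (.cons 843 n1863 .nil)
noncomputable def n1865 : Strat := .move 798 n1864 (.cons 842 n1670 (.cons 757 n1453 .nil))
noncomputable def n1866 : Strat := .move 801 n123 (.cons 802 n1865 .nil)
noncomputable def n1867 : Strat := .move 838 n236 (.cons 837 n1831 .nil)
noncomputable def n1868 : Strat := .move 881 n1421 (.cons 718 n1106 .nil)
noncomputable def n1869 : Strat := .move 759 n1406 (.cons 677 n1868 (.cons 881 n1688 .nil))
noncomputable def n1870 : Strat := .move 882 n1524 (.cons 883 n1869 .nil)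
noncomputable def n1871 : Strat := .move 797 n709 (.cons 796 n1870 .nil)
noncomputable def n1872 : Strat := .move 759 n1406 (.cons 677 n1868 (.cons 881 n1628 (.cons 718 n1630 .nil)))
noncomputable def n1873 : Strat := .move 882 n1524 (.cons 883 n1872 .nil)
noncomputable def n1874 : Strat := .move 841 n1685 (.cons 842 n1871 (.cons 796 n1696 (.cons 797 n1782 (.cons 798 n1873 .nil))))
noncomputable def n1875 : Strat := .move 838 n236 (.cons 837 n1874 .nil)
noncomputable def n1876 : Strat := .move 800 n1813 (.cons 838 n1866 (.cons 798 n1815 (.cons 802 n1867 (.cons 801 n1875 .nil))))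
noncomputable def n1877 : Strat := .move 798 n1670 (.cons 757 n1672 .nil)
noncomputable def n1878 : Strat := .move 801 n123 (.cons 802 n1877 .nil)
noncomputable def n1879 : Strat := .move 841 n1685 (.cons 797 n1779 (.cons 798 n1534 (.cons 842 n1656 (.cons 880 n1676 .nil))))
noncomputable def n1880 : Strat := .move 838 n236 (.cons 837 n1879 .nil)
noncomputable def n1881 : Strat := .move 800 n1663 (.cons 798 n1790 (.cons 802 n1789 (.cons 837 n1787 (.cons 838 n1878 (.cons 801 n1880 .nil)))))
noncomputable def n1882 : Strat := .move 838 n236 (.cons 837 n443 .nil)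
noncomputable def n1883 : Strat := .move 842 n774 (.cons 843 n1745 .nil)
noncomputable def n1884 : Strat := .move 801 n123 (.cons 802 n1883 .nil)
noncomputable def n1885 : Strat := .move 796 n853 (.cons 795 n1369 .nil)
noncomputable def n1886 : Strat := .move 880 n1379 (.cons 757 n1378 .nil)
noncomputable def n1887 : Strat := .move 715 n1367 (.cons 674 n1886 .nil)
noncomputable def n1888 : Strat := .move 756 n572 (.cons 755 n1887 .nil)
noncomputable def n1889 : Strat := .move 797 n1885 (.cons 836 n1888 .nil)
noncomputable def n1890 : Strat := .move 837 n1260 (.cons 838 n1889 .nil)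
noncomputable def n1891 : Strat := .move 800 n1882 (.cons 838 n1884 (.cons 801 n1890 .nil))
noncomputable def n1892 : Strat := .move 838 n584 (.cons 837 n1741 .nil)
noncomputable def n1893 : Strat := .move 880 n1225 (.cons 715 n1378 .nil)
noncomputable def n1894 : Strat := .move 756 n572 (.cons 755 n1893 .nil)
noncomputable def n1895 : Strat := .move 838 n584 (.cons 837 n1894 .nil)
noncomputable def n1896 : Strat := .move 755 n865 (.cons 756 n864 .nil)
noncomputable def n1897 : Strat := .move 796 n853 (.cons 795 n1896 .nil)
noncomputable def n1898 : Strat := .win 838 4 796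
noncomputable def n1899 : Strat := .move 837 n1898 (.cons 838 n1885 .nil)
noncomputable def n1900 : Strat := .move 797 n1892 (.cons 674 n1895 (.cons 838 n1897 (.cons 755 n1899 .nil)))
noncomputable def n1901 : Strat := .move 800 n1882 (.cons 838 n1492 (.cons 801 n1900 .nil))
noncomputable def n1902 : Strat := .move 757 n1443 (.cons 881 n1351 .nil)
noncomputable def n1903 : Strat := .move 922 n851 (.cons 963 n1902 .nil)
noncomputable def n1904 : Strat := .move 921 n1207 (.cons 962 n1903 .nil)
noncomputable def n1905 : Strat := .move 921 n1207 (.cons 962 n1312 .nil)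
noncomputable def n1906 : Strat := .move 757 n1294 (.cons 879 n1353 .nil)
noncomputable def n1907 : Strat := .move 920 n1277 (.cons 961 n1906 .nil)
noncomputable def n1908 : Strat := .move 921 n1207 (.cons 962 n1907 .nil)
noncomputable def n1909 : Strat := .move 922 n1443 (.cons 881 n1351 .nil)
noncomputable def n1910 : Strat := .move 756 n894 (.cons 715 n1293 .nil)
noncomputable def n1911 : Strat := .move 757 n1909 (.cons 881 n1910 .nil)
noncomputable def n1912 : Strat := .move 757 n1314 (.cons 675 n1351 .nil)
noncomputable def n1913 : Strat := .move 796 n853 (.cons 795 n1912 .nil)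
noncomputable def n1914 : Strat := .move 797 n852 (.cons 756 n1913 .nil)
noncomputable def n1915 : Strat := .move 757 n1443 (.cons 881 n1353 .nil)
noncomputable def n1916 : Strat := .move 922 n851 (.cons 963 n1915 .nil)
noncomputable def n1917 : Strat := .move 921 n1903 (.cons 963 n1911 (.cons 922 n1914 (.cons 757 n1312 (.cons 920 n1916 (.cons 881 n1907 .nil)))))
noncomputable def n1918 : Strat := .move 921 n1207 (.cons 962 n1916 .nil)
noncomputable def n1919 : Strat := .move 757 n1339 (.cons 716 n1034 .nil)
noncomputable def n1920 : Strat := .win 882 0 879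
noncomputable def n1921 : Strat := .move 924 n1920 (.cons 882 n386 .nil)
noncomputable def n1922 : Strat := .move 879 n539 (.cons 878 n1921 .nil)
noncomputable def n1923 : Strat := .move 923 n48 (.cons 964 n1922 .nil)
noncomputable def n1924 : Strat := .move 922 n442 (.cons 963 n1923 .nil)
noncomputable def n1925 : Strat := .win 923 0 879
noncomputable def n1926 : Strat := .move 879 n1925 (.cons 923 n1329 .nil)
noncomputable def n1927 : Strat := .move 883 n507 (.cons 925 n200 .nil)
noncomputable def n1928 : Strat := .move 924 n1926 (.cons 920 n1927 .nil)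
noncomputable def n1929 : Strat := .move 757 n1339 (.cons 716 n1928 .nil)
noncomputable def n1930 : Strat := .win 838 0 837
noncomputable def n1931 : Strat := .move 757 n1329 (.cons 920 n1339 .nil)
noncomputable def n1932 : Strat := .move 920 n516 (.cons 919 n1285 .nil)
noncomputable def n1933 : Strat := .move 878 n208 (.cons 836 n667 .nil)
noncomputable def n1934 : Strat := .move 879 n1931 (.cons 716 n1932 (.cons 920 n1933 .nil))
noncomputable def n1935 : Strat := .move 837 n1930 (.cons 838 n1934 .nil)
noncomputable def n1936 : Strat := .move 882 n463 (.cons 837 n514 (.cons 838 n1929 (.cons 883 n1935 .nil)))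
noncomputable def n1937 : Strat := .move 881 n1919 (.cons 757 n1924 (.cons 922 n1936 .nil))
noncomputable def n1938 : Strat := .move 880 n1904 (.cons 757 n1905 (.cons 881 n1908 (.cons 962 n1917 (.cons 920 n1918 (.cons 921 n1937 .nil)))))
noncomputable def n1939 : Strat := .move 881 n245 (.cons 922 n1339 .nil)
noncomputable def n1940 : Strat := .move 715 n1341 (.cons 880 n1367 .nil)
noncomputable def n1941 : Strat := .move 757 n1314 (.cons 675 n1939 (.cons 881 n1940 .nil))
noncomputable def n1942 : Strat := .move 756 n572 (.cons 755 n1941 .nil)
noncomputable def n1943 : Strat := .move 797 n1885 (.cons 836 n1942 .nil)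
noncomputable def n1944 : Strat := .move 837 n1260 (.cons 838 n1943 .nil)
noncomputable def n1945 : Strat := .move 801 n123 (.cons 802 n1670 .nil)
noncomputable def n1946 : Strat := .move 800 n494 (.cons 801 n1944 (.cons 838 n1945 .nil))
noncomputable def n1947 : Strat := .move 800 n318 (.cons 759 n1882 .nil)
noncomputable def n1948 : Strat := .move 922 n442 (.cons 963 n1947 .nil)
noncomputable def n1949 : Strat := .move 838 n1200 (.cons 800 n751 .nil)
noncomputable def n1950 : Strat := .move 878 n667 (.cons 877 n208 .nil)
noncomputable def n1951 : Strat := .move 879 n1329 (.cons 920 n1950 .nil)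
noncomputable def n1952 : Strat := .move 796 n1369 (.cons 836 n853 .nil)
noncomputable def n1953 : Strat := .move 921 n852 (.cons 756 n1207 .nil)
noncomputable def n1954 : Strat := .move 797 n1952 (.cons 795 n1953 .nil)
noncomputable def n1955 : Strat := .move 880 n1352 (.cons 921 n1951 (.cons 879 n1954 .nil))
noncomputable def n1956 : Strat := .move 838 n1200 (.cons 800 n1187 .nil)
noncomputable def n1957 : Strat := .move 837 n1949 (.cons 838 n1955 (.cons 836 n1956 .nil))
noncomputable def n1958 : Strat := .move 757 n1339 (.cons 716 n1957 .nil)
noncomputable def n1959 : Strat := .move 881 n1856 (.cons 963 n1562 (.cons 757 n1948 (.cons 922 n1958 .nil)))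
noncomputable def n1960 : Strat := .move 716 n1313 (.cons 675 n1153 .nil)
noncomputable def n1961 : Strat := .win 879 1 715
noncomputable def n1962 : Strat := .move 800 n236 (.cons 837 n443 .nil)
noncomputable def n1963 : Strat := .move 838 n1961 (.cons 879 n1962 .nil)
noncomputable def n1964 : Strat := .move 716 n1313 (.cons 675 n1963 .nil)
noncomputable def n1965 : Strat := .move 838 n1186 (.cons 836 n1200 .nil)
noncomputable def n1966 : Strat := .move 838 n1187 (.cons 882 n1186 .nil)
noncomputable def n1967 : Strat := .move 837 n1965 (.cons 800 n1966 (.cons 836 n1254 (.cons 838 n1933 .nil)))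
noncomputable def n1968 : Strat := .move 879 n1329 (.cons 920 n1967 .nil)
noncomputable def n1969 : Strat := .move 881 n1034 (.cons 922 n1968 .nil)
noncomputable def n1970 : Strat := .move 756 n894 (.cons 715 n1351 .nil)
noncomputable def n1971 : Strat := .move 921 n1207 (.cons 962 n1970 .nil)
noncomputable def n1972 : Strat := .move 880 n1969 (.cons 881 n1971 (.cons 920 n1445 .nil))
noncomputable def n1973 : Strat := .move 757 n1960 (.cons 881 n1964 (.cons 675 n1340 (.cons 716 n1972 .nil)))
noncomputable def n1974 : Strat := .win 675 1 674
noncomputable def n1975 : Strat := .move 757 n1153 (.cons 881 n1974 .nil)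
noncomputable def n1976 : Strat := .move 757 n1961 (.cons 879 n1153 .nil)
noncomputable def n1977 : Strat := .move 757 n1961 (.cons 879 n1974 .nil)
noncomputable def n1978 : Strat := .move 715 n1592 (.cons 675 n1367 .nil)
noncomputable def n1979 : Strat := .move 716 n1975 (.cons 675 n1976 (.cons 881 n1977 (.cons 757 n1978 .nil)))
noncomputable def n1980 : Strat := .move 756 n572 (.cons 755 n1979 .nil)
noncomputable def n1981 : Strat := .move 838 n584 (.cons 837 n1980 .nil)
noncomputable def n1982 : Strat := .move 759 n1298 (.cons 760 n866 .nil)
noncomputable def n1983 : Strat := .move 796 n853 (.cons 795 n1982 .nil)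
noncomputable def n1984 : Strat := .move 797 n1981 (.cons 838 n1983 (.cons 755 n1899 .nil))
noncomputable def n1985 : Strat := .move 800 n494 (.cons 838 n1945 (.cons 802 n1882 (.cons 801 n1984 .nil)))
noncomputable def n1986 : Strat := .move 800 n443 (.cons 801 n236 .nil)
noncomputable def n1987 : Strat := .move 838 n1961 (.cons 879 n1986 .nil)
noncomputable def n1988 : Strat := .move 717 n1431 (.cons 676 n1987 .nil)
noncomputable def n1989 : Strat := .move 716 n1313 (.cons 675 n1988 .nil)
noncomputable def n1990 : Strat := .move 921 n1277 (.cons 961 n1207 .nil)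
noncomputable def n1991 : Strat := .move 920 n1294 (.cons 879 n1990 .nil)
noncomputable def n1992 : Strat := .move 838 n1986 (.cons 837 n1991 .nil)
noncomputable def n1993 : Strat := .move 881 n1034 (.cons 922 n1992 .nil)
noncomputable def n1994 : Strat := .move 880 n1993 (.cons 881 n1442 (.cons 961 n1969 (.cons 879 n1445 .nil)))
noncomputable def n1995 : Strat := .move 757 n1960 (.cons 675 n1340 (.cons 881 n1989 (.cons 716 n1994 .nil)))
noncomputable def n1996 : Strat := .move 798 n1891 (.cons 757 n1901 (.cons 800 n1938 (.cons 838 n1365 (.cons 921 n1946 (.cons 715 n1959 (.cons 797 n1973 (.cons 880 n1985 (.cons 756 n1995 .nil))))))))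
noncomputable def n1997 : Strat := .move 839 n1338 (.cons 838 n1494 (.cons 800 n1604 (.cons 798 n1641 (.cons 881 n1662 (.cons 880 n1681 (.cons 837 n1773 (.cons 797 n1785 (.cons 842 n1803 (.cons 796 n1811 (.cons 882 n1829 (.cons 879 n1862 (.cons 878 n1876 (.cons 883 n1881 (.cons 841 n1996 .nil))))))))))))))
noncomputable def n1998 : Strat := .win 883 6 718
noncomputable def n1999 : Strat := .move 842 n1998 (.cons 883 n1694 .nil)
noncomputable def n2000 : Strat := .win 676 7 676
noncomputable def n2001 : Strat := .move 715 n104 (.cons 714 n103 .nil)
noncomputable def n2002 : Strat := .move 716 n0 (.cons 675 n2001 .nil)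
noncomputable def n2003 : Strat := .move 758 n7 (.cons 882 n2002 .nil)
noncomputable def n2004 : Strat := .move 717 n2000 (.cons 676 n2003 .nil)
noncomputable def n2005 : Strat := .move 841 n1999 (.cons 842 n2004 .nil)
noncomputable def n2006 : Strat := .move 718 n1405 (.cons 677 n2005 .nil)
noncomputable def n2007 : Strat := .win 757 2 757
noncomputable def n2008 : Strat := .win 803 2 758
noncomputable def n2009 : Strat := .move 758 n2007 (.cons 757 n2008 .nil)
noncomputable def n2010 : Strat := .move 802 n794 (.cons 839 n2009 .nil)
noncomputable def n2011 : Strat := .win 758 2 758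
noncomputable def n2012 : Strat := .win 841 4 799
noncomputable def n2013 : Strat := .move 803 n2011 (.cons 758 n2012 .nil)
noncomputable def n2014 : Strat := .move 802 n794 (.cons 839 n2013 .nil)
noncomputable def n2015 : Strat := .move 839 n123 (.cons 802 n1812 .nil)
noncomputable def n2016 : Strat := .move 760 n1486 (.cons 797 n549 .nil)
noncomputable def n2017 : Strat := .move 839 n493 (.cons 838 n1666 .nil)
noncomputable def n2018 : Strat := .move 883 n1471 (.cons 718 n1472 .nil)
noncomputable def n2019 : Strat := .move 842 n774 (.cons 843 n2018 .nil)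
noncomputable def n2020 : Strat := .move 760 n549 (.cons 761 n2019 .nil)
noncomputable def n2021 : Strat := .move 798 n2016 (.cons 760 n2017 (.cons 797 n2020 .nil))
noncomputable def n2022 : Strat := .win 761 5 758
noncomputable def n2023 : Strat := .win 763 5 759
noncomputable def n2024 : Strat := .move 762 n2022 (.cons 761 n2023 .nil)
noncomputable def n2025 : Strat := .move 803 n2012 (.cons 841 n2024 .nil)
noncomputable def n2026 : Strat := .win 760 4 757
noncomputable def n2027 : Strat := .move 798 n2026 (.cons 760 n993 .nil)
noncomputable def n2028 : Strat := .move 761 n804 (.cons 762 n2027 .nil)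
noncomputable def n2029 : Strat := .move 758 n2007 (.cons 757 n2028 .nil)
noncomputable def n2030 : Strat := .move 802 n2009 (.cons 757 n2013 (.cons 758 n2025 (.cons 803 n2029 .nil)))
noncomputable def n2031 : Strat := .move 801 n2010 (.cons 757 n2014 (.cons 803 n2015 (.cons 802 n2021 (.cons 839 n2030 .nil))))
noncomputable def n2032 : Strat := .win 758 4 757
noncomputable def n2033 : Strat := .move 798 n1486 (.cons 797 n2032 .nil)
noncomputable def n2034 : Strat := .move 761 n824 (.cons 762 n2033 .nil)
noncomputable def n2035 : Strat := .win 801 5 757
noncomputable def n2036 : Strat := .move 798 n1486 (.cons 797 n2035 .nil)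
noncomputable def n2037 : Strat := .move 761 n824 (.cons 762 n2036 .nil)
noncomputable def n2038 : Strat := .move 842 n774 (.cons 843 n1487 .nil)
noncomputable def n2039 : Strat := .move 801 n2038 (.cons 883 n548 .nil)
noncomputable def n2040 : Strat := .move 798 n1486 (.cons 797 n2039 .nil)
noncomputable def n2041 : Strat := .win 757 0 757
noncomputable def n2042 : Strat := .move 801 n2041 (.cons 757 n794 .nil)
noncomputable def n2043 : Strat := .move 802 n357 (.cons 803 n2042 .nil)
noncomputable def n2044 : Strat := .win 717 2 716
noncomputable def n2045 : Strat := .move 716 n608 (.cons 715 n2044 .nil)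
noncomputable def n2046 : Strat := .move 757 n188 (.cons 755 n2045 .nil)
noncomputable def n2047 : Strat := .win 801 4 798
noncomputable def n2048 : Strat := .move 802 n357 (.cons 803 n2047 .nil)
noncomputable def n2049 : Strat := .win 716 2 716
noncomputable def n2050 : Strat := .move 717 n9 (.cons 880 n2049 .nil)
noncomputable def n2051 : Strat := .move 839 n2048 (.cons 801 n2050 .nil)
noncomputable def n2052 : Strat := .move 756 n628 (.cons 719 n84 .nil)
noncomputable def n2053 : Strat := .move 757 n2045 (.cons 717 n2052 .nil)
noncomputable def n2054 : Strat := .move 758 n2043 (.cons 802 n2046 (.cons 757 n2051 (.cons 801 n2053 .nil)))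
noncomputable def n2055 : Strat := .move 761 n824 (.cons 762 n2054 .nil)
noncomputable def n2056 : Strat := .move 760 n2034 (.cons 758 n2037 (.cons 761 n2040 (.cons 798 n2055 .nil)))
noncomputable def n2057 : Strat := .move 718 n1405 (.cons 677 n2056 .nil)
noncomputable def n2058 : Strat := .win 882 3 718
noncomputable def n2059 : Strat := .win 716 0 716
noncomputable def n2060 : Strat := .move 717 n2059 (.cons 716 n2000 .nil)
noncomputable def n2061 : Strat := .move 761 n824 (.cons 762 n2060 .nil)
noncomputable def n2062 : Strat := .move 760 n2058 (.cons 882 n2061 .nil)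
noncomputable def n2063 : Strat := .move 719 n1059 (.cons 678 n2062 .nil)
noncomputable def n2064 : Strat := .move 841 n1999 (.cons 842 n2063 .nil)
noncomputable def n2065 : Strat := .move 718 n1405 (.cons 677 n2064 .nil)
noncomputable def n2066 : Strat := .win 842 6 718
noncomputable def n2067 : Strat := .win 924 6 759
noncomputable def n2068 : Strat := .move 719 n1626 (.cons 760 n1059 .nil)
noncomputable def n2069 : Strat := .move 882 n2067 (.cons 924 n2068 .nil)
noncomputable def n2070 : Strat := .move 883 n2066 (.cons 842 n2069 .nil)
noncomputable def n2071 : Strat := .win 758 1 716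
noncomputable def n2072 : Strat := .move 880 n1190 (.cons 879 n2071 .nil)
noncomputable def n2073 : Strat := .move 839 n237 (.cons 837 n647 (.cons 801 n2072 .nil))
noncomputable def n2074 : Strat := .move 842 n1998 (.cons 883 n2073 .nil)
noncomputable def n2075 : Strat := .move 717 n2000 (.cons 676 n2074 .nil)
noncomputable def n2076 : Strat := .move 841 n2004 (.cons 758 n2070 (.cons 882 n2075 .nil))
noncomputable def n2077 : Strat := .move 718 n1405 (.cons 677 n2076 .nil)
noncomputable def n2078 : Strat := .move 760 n168 (.cons 761 n688 .nil)
noncomputable def n2079 : Strat := .win 674 2 674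
noncomputable def n2080 : Strat := .win 758 7 675
noncomputable def n2081 : Strat := .move 675 n2079 (.cons 674 n2080 .nil)
noncomputable def n2082 : Strat := .move 716 n2078 (.cons 715 n2081 .nil)
noncomputable def n2083 : Strat := .move 719 n1059 (.cons 678 n2082 .nil)
noncomputable def n2084 : Strat := .move 717 n2000 (.cons 676 n2083 .nil)
noncomputable def n2085 : Strat := .win 758 7 758
noncomputable def n2086 : Strat := .move 923 n1411 (.cons 964 n2085 .nil)
noncomputable def n2087 : Strat := .move 882 n1626 (.cons 760 n2086 .nil)
noncomputable def n2088 : Strat := .move 719 n1059 (.cons 678 n2087 .nil)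
noncomputable def n2089 : Strat := .move 758 n7 (.cons 882 n1062 .nil)
noncomputable def n2090 : Strat := .move 717 n2000 (.cons 676 n2089 .nil)
noncomputable def n2091 : Strat := .move 841 n2004 (.cons 758 n2063 (.cons 882 n2084 (.cons 717 n2088 (.cons 760 n2090 .nil))))
noncomputable def n2092 : Strat := .move 718 n1405 (.cons 677 n2091 .nil)
noncomputable def n2093 : Strat := .move 797 n1298 (.cons 760 n862 .nil)
noncomputable def n2094 : Strat := .win 758 5 755
noncomputable def n2095 : Strat := .move 796 n854 (.cons 841 n2094 .nil)
noncomputable def n2096 : Strat := .move 801 n809 (.cons 839 n1376 .nil)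
noncomputable def n2097 : Strat := .move 838 n584 (.cons 837 n2096 .nil)
noncomputable def n2098 : Strat := .move 841 n370 (.cons 842 n2097 .nil)
noncomputable def n2099 : Strat := .move 837 n1898 (.cons 838 n1369 .nil)
noncomputable def n2100 : Strat := .move 796 n2094 (.cons 758 n2099 .nil)
noncomputable def n2101 : Strat := .move 797 n862 (.cons 842 n2095 (.cons 796 n2098 (.cons 841 n2100 .nil)))
noncomputable def n2102 : Strat := .move 797 n1298 (.cons 760 n2095 .nil)
noncomputable def n2103 : Strat := .move 761 n824 (.cons 762 n2032 .nil)
noncomputable def n2104 : Strat := .move 760 n1486 (.cons 797 n2103 .nil)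
noncomputable def n2105 : Strat := .win 923 7 758
noncomputable def n2106 : Strat := .move 758 n2105 (.cons 923 n303 .nil)
noncomputable def n2107 : Strat := .move 882 n1524 (.cons 883 n2106 .nil)
noncomputable def n2108 : Strat := .move 842 n339 (.cons 843 n1618 .nil)
noncomputable def n2109 : Strat := .move 841 n2107 (.cons 882 n2108 .nil)
noncomputable def n2110 : Strat := .move 838 n236 (.cons 837 n2109 .nil)
noncomputable def n2111 : Strat := .move 717 n263 (.cons 676 n9 .nil)
noncomputable def n2112 : Strat := .win 921 3 757
noncomputable def n2113 : Strat := .move 880 n460 (.cons 717 n2112 .nil)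
noncomputable def n2114 : Strat := .move 756 n84 (.cons 755 n83 .nil)
noncomputable def n2115 : Strat := .move 716 n608 (.cons 715 n1313 .nil)
noncomputable def n2116 : Strat := .move 757 n524 (.cons 802 n2114 (.cons 756 n2115 .nil))
noncomputable def n2117 : Strat := .move 760 n89 (.cons 761 n2116 .nil)
noncomputable def n2118 : Strat := .move 758 n2111 (.cons 676 n2113 (.cons 717 n2117 .nil))
noncomputable def n2119 : Strat := .move 839 n494 (.cons 802 n1882 (.cons 801 n2110 (.cons 838 n2118 .nil)))
noncomputable def n2120 : Strat := .move 798 n2093 (.cons 760 n2101 (.cons 842 n2102 (.cons 796 n2104 (.cons 797 n2119 .nil))))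
noncomputable def n2121 : Strat := .move 841 n1999 (.cons 797 n2090 .nil)
noncomputable def n2122 : Strat := .move 718 n1405 (.cons 677 n2121 .nil)
noncomputable def n2123 : Strat := .move 759 n2006 (.cons 677 n2031 (.cons 841 n2057 (.cons 758 n2065 (.cons 798 n2077 (.cons 842 n2092 (.cons 718 n2120 (.cons 760 n2122 .nil)))))))
noncomputable def n2124 : Strat := .move 758 n303 (.cons 717 n2105 .nil)
noncomputable def n2125 : Strat := .win 965 6 800
noncomputable def n2126 : Strat := .win 759 6 759
noncomputable def n2127 : Strat := .win 842 0 839
noncomputable def n2128 : Strat := .win 838 0 838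
noncomputable def n2129 : Strat := .move 839 n2127 (.cons 842 n2128 .nil)
noncomputable def n2130 : Strat := .move 884 n224 (.cons 885 n2129 .nil)
noncomputable def n2131 : Strat := .move 883 n2126 (.cons 759 n2130 .nil)
noncomputable def n2132 : Strat := .move 924 n2125 (.cons 965 n2131 .nil)
noncomputable def n2133 : Strat := .move 923 n1411 (.cons 964 n2132 .nil)
noncomputable def n2134 : Strat := .move 883 n2066 (.cons 842 n2067 .nil)
noncomputable def n2135 : Strat := .move 718 n1405 (.cons 677 n2134 .nil)
noncomputable def n2136 : Strat := .move 759 n971 (.cons 762 n1628 (.cons 760 n2135 .nil))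
noncomputable def n2137 : Strat := .move 758 n303 (.cons 717 n2136 .nil)
noncomputable def n2138 : Strat := .move 882 n2124 (.cons 758 n2133 (.cons 923 n2137 .nil))
noncomputable def n2139 : Strat := .move 718 n2066 (.cons 842 n1405 .nil)
noncomputable def n2140 : Strat := .move 883 n2067 (.cons 924 n2139 .nil)
noncomputable def n2141 : Strat := .move 884 n2127 (.cons 842 n224 .nil)
noncomputable def n2142 : Strat := .move 839 n2128 (.cons 838 n2141 .nil)
noncomputable def n2143 : Strat := .move 883 n2067 (.cons 924 n2142 .nil)
noncomputable def n2144 : Strat := .move 759 n1628 (.cons 678 n2140 (.cons 718 n2143 .nil))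
noncomputable def n2145 : Strat := .move 758 n303 (.cons 717 n2144 .nil)
noncomputable def n2146 : Strat := .move 882 n2124 (.cons 758 n2133 (.cons 923 n2145 .nil))
noncomputable def n2147 : Strat := .win 839 0 839
noncomputable def n2148 : Strat := .win 761 1 760
noncomputable def n2149 : Strat := .move 802 n2148 (.cons 761 n1730 .nil)
noncomputable def n2150 : Strat := .move 924 n1462 (.cons 965 n2149 .nil)
noncomputable def n2151 : Strat := .move 883 n2147 (.cons 839 n2150 .nil)
noncomputable def n2152 : Strat := .move 884 n701 (.cons 885 n2151 .nil)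
noncomputable def n2153 : Strat := .move 843 n704 (.cons 844 n2152 .nil)
noncomputable def n2154 : Strat := .move 838 n236 (.cons 837 n1576 .nil)
noncomputable def n2155 : Strat := .move 838 n236 (.cons 837 n1573 .nil)
noncomputable def n2156 : Strat := .move 839 n2154 (.cons 838 n1465 (.cons 884 n2155 .nil))
noncomputable def n2157 : Strat := .move 798 n338 (.cons 797 n2156 .nil)
noncomputable def n2158 : Strat := .move 842 n1694 (.cons 798 n2153 (.cons 843 n2157 .nil))
noncomputable def n2159 : Strat := .win 883 6 759
noncomputable def n2160 : Strat := .move 759 n2159 (.cons 883 n1628 .nil)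
noncomputable def n2161 : Strat := .move 924 n2125 (.cons 965 n2160 .nil)
noncomputable def n2162 : Strat := .move 923 n1411 (.cons 964 n2161 .nil)
noncomputable def n2163 : Strat := .move 798 n370 (.cons 842 n264 .nil)
noncomputable def n2164 : Strat := .move 798 n86 (.cons 760 n370 .nil)
noncomputable def n2165 : Strat := .move 798 n86 (.cons 760 n264 .nil)
noncomputable def n2166 : Strat := .move 756 n87 (.cons 796 n84 .nil)
noncomputable def n2167 : Strat := .move 797 n2163 (.cons 796 n2164 (.cons 842 n2165 (.cons 798 n2166 .nil)))
noncomputable def n2168 : Strat := .move 757 n1628 (.cons 718 n2167 (.cons 760 n2135 .nil))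
noncomputable def n2169 : Strat := .move 759 n971 (.cons 761 n2168 (.cons 760 n2135 .nil))
noncomputable def n2170 : Strat := .move 758 n303 (.cons 717 n2169 .nil)
noncomputable def n2171 : Strat := .move 882 n2124 (.cons 758 n2162 (.cons 923 n2170 .nil))
noncomputable def n2172 : Strat := .move 839 n702 (.cons 883 n2155 .nil)
noncomputable def n2173 : Strat := .move 884 n701 (.cons 885 n2172 .nil)
noncomputable def n2174 : Strat := .move 843 n704 (.cons 844 n2173 .nil)
noncomputable def n2175 : Strat := .move 758 n2112 (.cons 921 n460 .nil)
noncomputable def n2176 : Strat := .move 880 n1190 (.cons 879 n2175 .nil)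
noncomputable def n2177 : Strat := .move 758 n7 (.cons 882 n263 .nil)
noncomputable def n2178 : Strat := .move 758 n9 (.cons 880 n7 .nil)
noncomputable def n2179 : Strat := .move 758 n9 (.cons 880 n263 .nil)
noncomputable def n2180 : Strat := .move 716 n1431 (.cons 676 n1313 .nil)
noncomputable def n2181 : Strat := .move 717 n2177 (.cons 676 n2178 (.cons 882 n2179 (.cons 758 n2180 .nil)))
noncomputable def n2182 : Strat := .move 838 n1961 (.cons 879 n236 .nil)
noncomputable def n2183 : Strat := .move 716 n1313 (.cons 675 n2182 .nil)
noncomputable def n2184 : Strat := .move 757 n2154 (.cons 838 n2181 (.cons 882 n2183 .nil))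
noncomputable def n2185 : Strat := .move 839 n2176 (.cons 921 n2184 (.cons 880 n2154 .nil))
noncomputable def n2186 : Strat := .move 798 n338 (.cons 797 n2185 .nil)
noncomputable def n2187 : Strat := .move 842 n1694 (.cons 798 n2174 (.cons 843 n2186 .nil))
noncomputable def n2188 : Strat := .win 924 1 760
noncomputable def n2189 : Strat := .win 720 1 719
noncomputable def n2190 : Strat := .move 761 n2188 (.cons 924 n2189 .nil)
noncomputable def n2191 : Strat := .move 802 n1730 (.cons 803 n2190 .nil)
noncomputable def n2192 : Strat := .move 883 n2147 (.cons 839 n2191 .nil)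
noncomputable def n2193 : Strat := .move 884 n701 (.cons 885 n2192 .nil)
noncomputable def n2194 : Strat := .move 843 n704 (.cons 844 n2193 .nil)
noncomputable def n2195 : Strat := .win 758 3 757
noncomputable def n2196 : Strat := .move 921 n2195 (.cons 758 n1207 .nil)
noncomputable def n2197 : Strat := .move 880 n1190 (.cons 879 n2196 .nil)
noncomputable def n2198 : Strat := .move 798 n338 (.cons 797 n2197 .nil)
noncomputable def n2199 : Strat := .move 798 n338 (.cons 797 n2176 .nil)
noncomputable def n2200 : Strat := .move 838 n236 (.cons 837 n1618 .nil)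
noncomputable def n2201 : Strat := .move 838 n236 (.cons 837 n709 .nil)
noncomputable def n2202 : Strat := .move 797 n1837 (.cons 798 n2201 .nil)
noncomputable def n2203 : Strat := .move 839 n2198 (.cons 962 n2199 (.cons 798 n2200 (.cons 879 n2202 .nil)))
noncomputable def n2204 : Strat := .move 842 n1694 (.cons 798 n2194 (.cons 843 n2203 .nil))
noncomputable def n2205 : Strat := .win 921 5 880
noncomputable def n2206 : Strat := .move 922 n2205 (.cons 921 n791 .nil)
noncomputable def n2207 : Strat := .move 884 n224 (.cons 885 n2206 .nil)
noncomputable def n2208 : Strat := .move 883 n2126 (.cons 759 n2207 .nil)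
noncomputable def n2209 : Strat := .move 924 n2125 (.cons 965 n2208 .nil)
noncomputable def n2210 : Strat := .move 923 n1411 (.cons 964 n2209 .nil)
noncomputable def n2211 : Strat := .move 761 n356 (.cons 798 n824 .nil)
noncomputable def n2212 : Strat := .move 760 n969 (.cons 719 n2211 .nil)
noncomputable def n2213 : Strat := .move 758 n303 (.cons 717 n2212 .nil)
noncomputable def n2214 : Strat := .move 798 n89 (.cons 761 n1486 .nil)
noncomputable def n2215 : Strat := .move 760 n969 (.cons 719 n2214 .nil)
noncomputable def n2216 : Strat := .move 758 n303 (.cons 717 n2215 .nil)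
noncomputable def n2217 : Strat := .move 718 n1405 (.cons 677 n2068 .nil)
noncomputable def n2218 : Strat := .win 758 6 717
noncomputable def n2219 : Strat := .move 718 n1405 (.cons 677 n2000 .nil)
noncomputable def n2220 : Strat := .move 717 n2218 (.cons 758 n2219 .nil)
noncomputable def n2221 : Strat := .move 759 n2213 (.cons 762 n2216 (.cons 758 n2217 (.cons 719 n2220 .nil)))
noncomputable def n2222 : Strat := .move 882 n2124 (.cons 758 n2210 (.cons 923 n2221 .nil))
noncomputable def n2223 : Strat := .move 838 n236 (.cons 837 n1685 .nil)
noncomputable def n2224 : Strat := .move 717 n263 (.cons 676 n7 .nil)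
noncomputable def n2225 : Strat := .move 842 n1190 (.cons 879 n339 .nil)
noncomputable def n2226 : Strat := .move 880 n2112 (.cons 921 n2225 .nil)
noncomputable def n2227 : Strat := .move 758 n2224 (.cons 882 n2111 (.cons 717 n2226 .nil))
noncomputable def n2228 : Strat := .move 797 n264 (.cons 796 n1382 .nil)
noncomputable def n2229 : Strat := .move 798 n1455 (.cons 796 n340 (.cons 797 n2227 (.cons 842 n2228 .nil)))
noncomputable def n2230 : Strat := .move 838 n236 (.cons 837 n1656 .nil)
noncomputable def n2231 : Strat := .move 842 n1572 (.cons 880 n1839 .nil)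
noncomputable def n2232 : Strat := .move 879 n613 (.cons 878 n2231 .nil)
noncomputable def n2233 : Strat := .move 838 n236 (.cons 837 n2232 .nil)
noncomputable def n2234 : Strat := .move 838 n236 (.cons 837 n1534 .nil)
noncomputable def n2235 : Strat := .win 798 3 757
noncomputable def n2236 : Strat := .move 921 n2235 (.cons 798 n1207 .nil)
noncomputable def n2237 : Strat := .move 758 n460 (.cons 717 n2236 .nil)
noncomputable def n2238 : Strat := .move 880 n1192 (.cons 842 n2237 .nil)
noncomputable def n2239 : Strat := .move 879 n613 (.cons 878 n2238 .nil)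
noncomputable def n2240 : Strat := .move 838 n236 (.cons 837 n2239 .nil)
noncomputable def n2241 : Strat := .move 838 n236 (.cons 837 n1647 .nil)
noncomputable def n2242 : Strat := .move 839 n2223 (.cons 838 n2229 (.cons 842 n2230 (.cons 796 n2233 (.cons 798 n2234 (.cons 797 n2240 (.cons 880 n2241 .nil))))))
noncomputable def n2243 : Strat := .move 841 n2138 (.cons 798 n2146 (.cons 758 n2158 (.cons 839 n2171 (.cons 759 n2187 (.cons 882 n2204 (.cons 842 n2222 (.cons 883 n2242 .nil)))))))
noncomputable def n2244 : Strat := .win 843 0 799
noncomputable def n2245 : Strat := .win 845 0 800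
noncomputable def n2246 : Strat := .move 844 n2244 (.cons 843 n2245 .nil)
noncomputable def n2247 : Strat := .move 803 n2012 (.cons 841 n2246 .nil)
noncomputable def n2248 : Strat := .move 761 n805 (.cons 760 n804 .nil)
noncomputable def n2249 : Strat := .move 798 n992 (.cons 842 n2248 .nil)
noncomputable def n2250 : Strat := .move 843 n991 (.cons 844 n2249 .nil)
noncomputable def n2251 : Strat := .move 802 n2025 (.cons 761 n2247 (.cons 803 n2250 .nil))
noncomputable def n2252 : Strat := .win 759 2 758
noncomputable def n2253 : Strat := .move 758 n2007 (.cons 757 n2252 .nil)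
noncomputable def n2254 : Strat := .move 803 n2012 (.cons 841 n2253 .nil)
noncomputable def n2255 : Strat := .move 803 n2252 (.cons 759 n2246 .nil)
noncomputable def n2256 : Strat := .move 758 n2007 (.cons 757 n2255 .nil)
noncomputable def n2257 : Strat := .win 719 7 719
noncomputable def n2258 : Strat := .win 925 7 760
noncomputable def n2259 : Strat := .move 760 n2257 (.cons 719 n2258 .nil)
noncomputable def n2260 : Strat := .win 883 1 719
noncomputable def n2261 : Strat := .win 679 1 678
noncomputable def n2262 : Strat := .move 720 n2260 (.cons 883 n2261 .nil)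
noncomputable def n2263 : Strat := .move 883 n2188 (.cons 924 n2189 .nil)
noncomputable def n2264 : Strat := .win 841 0 840
noncomputable def n2265 : Strat := .win 926 6 761
noncomputable def n2266 : Strat := .move 885 n2264 (.cons 841 n2265 .nil)
noncomputable def n2267 : Strat := .move 842 n2262 (.cons 679 n2263 (.cons 883 n2266 .nil))
noncomputable def n2268 : Strat := .move 884 n2259 (.cons 925 n2267 .nil)
noncomputable def n2269 : Strat := .move 761 n804 (.cons 762 n2268 .nil)
noncomputable def n2270 : Strat := .move 843 n991 (.cons 844 n2269 .nil)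
noncomputable def n2271 : Strat := .move 802 n2025 (.cons 762 n2254 (.cons 841 n2256 (.cons 803 n2270 .nil)))
noncomputable def n2272 : Strat := .win 758 2 757
noncomputable def n2273 : Strat := .move 802 n2272 (.cons 758 n2248 .nil)
noncomputable def n2274 : Strat := .move 757 n1669 (.cons 756 n2273 .nil)
noncomputable def n2275 : Strat := .move 759 n90 (.cons 797 n2115 .nil)
noncomputable def n2276 : Strat := .move 760 n549 (.cons 761 n2275 .nil)
noncomputable def n2277 : Strat := .move 758 n157 (.cons 802 n2276 .nil)
noncomputable def n2278 : Strat := .move 757 n1669 (.cons 756 n2277 .nil)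
noncomputable def n2279 : Strat := .move 718 n1487 (.cons 883 n1405 .nil)
noncomputable def n2280 : Strat := .move 842 n774 (.cons 843 n2279 .nil)
noncomputable def n2281 : Strat := .move 759 n1486 (.cons 797 n2280 .nil)
noncomputable def n2282 : Strat := .move 760 n549 (.cons 761 n2281 .nil)
noncomputable def n2283 : Strat := .move 843 n992 (.cons 842 n991 .nil)
noncomputable def n2284 : Strat := .move 802 n2272 (.cons 758 n2283 .nil)
noncomputable def n2285 : Strat := .move 757 n1669 (.cons 756 n2284 .nil)
noncomputable def n2286 : Strat := .move 798 n2274 (.cons 762 n2278 (.cons 756 n2282 (.cons 760 n2285 .nil)))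
noncomputable def n2287 : Strat := .move 717 n7 (.cons 882 n122 .nil)
noncomputable def n2288 : Strat := .move 758 n2007 (.cons 757 n2287 .nil)
noncomputable def n2289 : Strat := .move 843 n991 (.cons 844 n2288 .nil)
noncomputable def n2290 : Strat := .move 841 n793 (.cons 803 n2289 .nil)
noncomputable def n2291 : Strat := .move 757 n2272 (.cons 758 n1669 .nil)
noncomputable def n2292 : Strat := .move 798 n805 (.cons 760 n2291 .nil)
noncomputable def n2293 : Strat := .move 761 n804 (.cons 762 n2292 .nil)
noncomputable def n2294 : Strat := .win 798 5 757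
noncomputable def n2295 : Strat := .win 759 3 718
noncomputable def n2296 : Strat := .win 923 3 759
noncomputable def n2297 : Strat := .move 882 n2295 (.cons 759 n2296 .nil)
noncomputable def n2298 : Strat := .move 719 n1449 (.cons 678 n2297 .nil)
noncomputable def n2299 : Strat := .move 760 n2294 (.cons 798 n2298 .nil)
noncomputable def n2300 : Strat := .move 761 n804 (.cons 762 n2299 .nil)
noncomputable def n2301 : Strat := .move 841 n2289 (.cons 882 n2293 (.cons 758 n2300 .nil))
noncomputable def n2302 : Strat := .win 884 7 719
noncomputable def n2303 : Strat := .win 678 6 678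
noncomputable def n2304 : Strat := .move 719 n2302 (.cons 884 n2303 .nil)
noncomputable def n2305 : Strat := .move 843 n991 (.cons 844 n2304 .nil)
noncomputable def n2306 : Strat := .move 760 n2294 (.cons 798 n2305 .nil)
noncomputable def n2307 : Strat := .move 761 n804 (.cons 762 n2306 .nil)
noncomputable def n2308 : Strat := .move 802 n2290 (.cons 803 n2301 (.cons 758 n2025 (.cons 841 n2307 .nil)))
noncomputable def n2309 : Strat := .win 798 0 798
noncomputable def n2310 : Strat := .move 842 n2309 (.cons 798 n2262 .nil)
noncomputable def n2311 : Strat := .move 761 n804 (.cons 762 n2310 .nil)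
noncomputable def n2312 : Strat := .move 843 n991 (.cons 844 n2311 .nil)
noncomputable def n2313 : Strat := .move 802 n2247 (.cons 843 n2025 (.cons 841 n2312 .nil))
noncomputable def n2314 : Strat := .move 882 n303 (.cons 717 n2105 .nil)
noncomputable def n2315 : Strat := .move 758 n2007 (.cons 757 n2314 .nil)
noncomputable def n2316 : Strat := .move 841 n793 (.cons 803 n2315 .nil)
noncomputable def n2317 : Strat := .move 757 n1669 (.cons 756 n2272 .nil)
noncomputable def n2318 : Strat := .move 798 n805 (.cons 760 n2317 .nil)
noncomputable def n2319 : Strat := .move 761 n804 (.cons 762 n2318 .nil)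
noncomputable def n2320 : Strat := .move 802 n2316 (.cons 758 n2025 (.cons 803 n2319 .nil))
noncomputable def n2321 : Strat := .move 798 n992 (.cons 842 n2317 .nil)
noncomputable def n2322 : Strat := .move 843 n991 (.cons 844 n2321 .nil)
noncomputable def n2323 : Strat := .move 802 n2247 (.cons 841 n2256 (.cons 844 n2254 (.cons 803 n2322 .nil)))
noncomputable def n2324 : Strat := .move 797 n869 (.cons 841 n1384 .nil)
noncomputable def n2325 : Strat := .move 842 n774 (.cons 843 n2324 .nil)
noncomputable def n2326 : Strat := .move 797 n1383 (.cons 759 n1376 .nil)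
noncomputable def n2327 : Strat := .move 760 n549 (.cons 761 n2326 .nil)
noncomputable def n2328 : Strat := .move 797 n869 (.cons 841 n1376 .nil)
noncomputable def n2329 : Strat := .move 842 n774 (.cons 843 n2328 .nil)
noncomputable def n2330 : Strat := .move 841 n1448 (.cons 882 n1449 .nil)
noncomputable def n2331 : Strat := .win 923 1 759
noncomputable def n2332 : Strat := .win 841 1 718
noncomputable def n2333 : Strat := .move 882 n2331 (.cons 923 n2332 .nil)
noncomputable def n2334 : Strat := .win 759 7 718
noncomputable def n2335 : Strat := .win 677 7 677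
noncomputable def n2336 : Strat := .move 718 n2334 (.cons 759 n2335 .nil)
noncomputable def n2337 : Strat := .move 719 n2330 (.cons 678 n2333 (.cons 882 n2336 .nil))
noncomputable def n2338 : Strat := .win 759 7 759
noncomputable def n2339 : Strat := .win 964 1 800
noncomputable def n2340 : Strat := .win 882 1 759
noncomputable def n2341 : Strat := .move 923 n2339 (.cons 964 n2340 .nil)
noncomputable def n2342 : Strat := .move 924 n2338 (.cons 759 n2341 .nil)
noncomputable def n2343 : Strat := .win 966 6 801
noncomputable def n2344 : Strat := .win 884 6 760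
noncomputable def n2345 : Strat := .move 925 n2343 (.cons 966 n2344 .nil)
noncomputable def n2346 : Strat := .move 924 n2341 (.cons 882 n2345 .nil)
noncomputable def n2347 : Strat := .move 883 n1473 (.cons 924 n2337 (.cons 718 n2342 (.cons 759 n2346 .nil)))
noncomputable def n2348 : Strat := .move 760 n549 (.cons 761 n2347 .nil)
noncomputable def n2349 : Strat := .move 842 n774 (.cons 843 n2348 .nil)
noncomputable def n2350 : Strat := .move 798 n2325 (.cons 842 n2327 (.cons 760 n2329 (.cons 797 n2349 .nil)))
noncomputable def n2351 : Strat := .move 801 n2251 (.cons 798 n2271 (.cons 841 n2286 (.cons 842 n2308 (.cons 760 n2313 (.cons 843 n2320 (.cons 761 n2323 (.cons 802 n2350 .nil)))))))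
noncomputable def n2352 : Strat := .move 798 n992 (.cons 842 n805 .nil)
noncomputable def n2353 : Strat := .move 843 n991 (.cons 844 n2352 .nil)
noncomputable def n2354 : Strat := .move 761 n804 (.cons 762 n2353 .nil)
noncomputable def n2355 : Strat := .move 802 n794 (.cons 839 n2354 .nil)
noncomputable def n2356 : Strat := .move 802 n794 (.cons 839 n2256 .nil)
noncomputable def n2357 : Strat := .win 638 1 637
noncomputable def n2358 : Strat := .win 842 1 678
noncomputable def n2359 : Strat := .move 679 n2357 (.cons 638 n2358 .nil)
noncomputable def n2360 : Strat := .move 759 n361 (.cons 721 n357 .nil)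
noncomputable def n2361 : Strat := .move 720 n2359 (.cons 842 n2360 .nil)
noncomputable def n2362 : Strat := .move 760 n2294 (.cons 798 n2361 .nil)
noncomputable def n2363 : Strat := .move 758 n2007 (.cons 757 n2362 .nil)
noncomputable def n2364 : Strat := .move 761 n804 (.cons 762 n2363 .nil)
noncomputable def n2365 : Strat := .move 802 n794 (.cons 839 n2364 .nil)
noncomputable def n2366 : Strat := .move 797 n572 (.cons 755 n1425 .nil)
noncomputable def n2367 : Strat := .move 756 n1375 (.cons 757 n2366 .nil)
noncomputable def n2368 : Strat := .move 839 n493 (.cons 838 n2367 .nil)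
noncomputable def n2369 : Strat := .move 796 n853 (.cons 795 n866 .nil)
noncomputable def n2370 : Strat := .move 797 n1383 (.cons 759 n2369 .nil)
noncomputable def n2371 : Strat := .move 760 n549 (.cons 761 n2370 .nil)
noncomputable def n2372 : Strat := .move 921 n1207 (.cons 962 n2195 .nil)
noncomputable def n2373 : Strat := .move 717 n2071 (.cons 758 n2180 .nil)
noncomputable def n2374 : Strat := .move 880 n2175 (.cons 717 n2372 (.cons 921 n2373 (.cons 758 n1352 .nil)))
noncomputable def n2375 : Strat := .move 757 n1669 (.cons 756 n2374 .nil)
noncomputable def n2376 : Strat := .move 839 n2367 (.cons 757 n2371 (.cons 756 n1491 (.cons 759 n2375 .nil)))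
noncomputable def n2377 : Strat := .move 839 n493 (.cons 838 n2375 .nil)
noncomputable def n2378 : Strat := .move 839 n493 (.cons 838 n2371 .nil)
noncomputable def n2379 : Strat := .move 839 n493 (.cons 838 n1491 .nil)
noncomputable def n2380 : Strat := .move 759 n1486 (.cons 797 n2018 .nil)
noncomputable def n2381 : Strat := .move 760 n549 (.cons 761 n2380 .nil)
noncomputable def n2382 : Strat := .move 842 n774 (.cons 843 n2381 .nil)
noncomputable def n2383 : Strat := .move 798 n2368 (.cons 838 n2376 (.cons 759 n2377 (.cons 757 n2378 (.cons 756 n2379 (.cons 839 n2382 .nil)))))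
noncomputable def n2384 : Strat := .move 801 n2355 (.cons 839 n2286 (.cons 798 n2356 (.cons 843 n2365 (.cons 802 n2383 .nil))))
noncomputable def n2385 : Strat := .move 802 n794 (.cons 839 n2025 .nil)
noncomputable def n2386 : Strat := .move 839 n493 (.cons 838 n1453 .nil)
noncomputable def n2387 : Strat := .move 797 n584 (.cons 837 n1376 .nil)
noncomputable def n2388 : Strat := .move 838 n809 (.cons 839 n2387 .nil)
noncomputable def n2389 : Strat := .move 839 n493 (.cons 838 n1476 .nil)
noncomputable def n2390 : Strat := .move 798 n2325 (.cons 759 n2386 (.cons 842 n2388 (.cons 797 n2389 .nil)))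
noncomputable def n2391 : Strat := .move 802 n991 (.cons 844 n2248 .nil)
noncomputable def n2392 : Strat := .move 843 n992 (.cons 842 n2391 .nil)
noncomputable def n2393 : Strat := .move 798 n2325 (.cons 842 n2327 (.cons 760 n2329 (.cons 797 n2392 .nil)))
noncomputable def n2394 : Strat := .move 801 n2385 (.cons 802 n2390 (.cons 761 n2015 (.cons 839 n2393 .nil)))
noncomputable def n2395 : Strat := .move 842 n1837 (.cons 798 n1760 .nil)
noncomputable def n2396 : Strat := .move 797 n709 (.cons 796 n2395 .nil)
noncomputable def n2397 : Strat := .move 841 n235 (.cons 801 n2396 .nil)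
noncomputable def n2398 : Strat := .move 838 n236 (.cons 837 n2397 .nil)
noncomputable def n2399 : Strat := .move 882 n1524 (.cons 883 n2124 .nil)
noncomputable def n2400 : Strat := .move 842 n1837 (.cons 798 n1618 .nil)
noncomputable def n2401 : Strat := .move 797 n709 (.cons 796 n2400 .nil)
noncomputable def n2402 : Strat := .move 841 n2396 (.cons 842 n2399 (.cons 882 n2401 .nil))
noncomputable def n2403 : Strat := .move 838 n236 (.cons 837 n2402 .nil)
noncomputable def n2404 : Strat := .move 798 n1453 (.cons 841 n2375 .nil)
noncomputable def n2405 : Strat := .move 801 n123 (.cons 802 n2404 .nil)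
noncomputable def n2406 : Strat := .move 838 n236 (.cons 837 n235 .nil)
noncomputable def n2407 : Strat := .move 838 n236 (.cons 837 n2399 .nil)
noncomputable def n2408 : Strat := .win 964 3 800
noncomputable def n2409 : Strat := .move 882 n2408 (.cons 964 n2085 .nil)
noncomputable def n2410 : Strat := .win 760 1 759
noncomputable def n2411 : Strat := .move 882 n2410 (.cons 760 n2408 .nil)
noncomputable def n2412 : Strat := .move 882 n2410 (.cons 760 n2085 .nil)
noncomputable def n2413 : Strat := .move 924 n2339 (.cons 964 n1462 .nil)
noncomputable def n2414 : Strat := .move 923 n2409 (.cons 758 n2411 (.cons 964 n2412 (.cons 882 n2413 .nil)))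
noncomputable def n2415 : Strat := .move 883 n633 (.cons 884 n2414 .nil)
noncomputable def n2416 : Strat := .move 801 n123 (.cons 802 n2415 .nil)
noncomputable def n2417 : Strat := .move 880 n1190 (.cons 879 n703 .nil)
noncomputable def n2418 : Strat := .move 843 n704 (.cons 844 n2417 .nil)
noncomputable def n2419 : Strat := .move 843 n704 (.cons 844 n1730 .nil)
noncomputable def n2420 : Strat := .move 802 n2047 (.cons 801 n2419 .nil)
noncomputable def n2421 : Strat := .move 842 n2416 (.cons 801 n2418 (.cons 884 n2420 .nil))
noncomputable def n2422 : Strat := .move 841 n2406 (.cons 801 n2407 (.cons 837 n125 (.cons 838 n2421 .nil)))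
noncomputable def n2423 : Strat := .move 839 n1813 (.cons 802 n2398 (.cons 801 n2403 (.cons 838 n2405 (.cons 798 n2422 .nil))))
noncomputable def n2424 : Strat := .win 841 4 838
noncomputable def n2425 : Strat := .move 879 n1329 (.cons 920 n2424 .nil)
noncomputable def n2426 : Strat := .move 880 n2175 (.cons 717 n2372 (.cons 921 n2425 .nil))
noncomputable def n2427 : Strat := .move 757 n1669 (.cons 756 n2426 .nil)
noncomputable def n2428 : Strat := .move 842 n774 (.cons 843 n2427 .nil)
noncomputable def n2429 : Strat := .move 839 n1453 (.cons 841 n2367 (.cons 797 n2428 .nil))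
noncomputable def n2430 : Strat := .move 839 n493 (.cons 838 n2428 .nil)
noncomputable def n2431 : Strat := .move 797 n862 (.cons 842 n1273 (.cons 841 n1664 .nil))
noncomputable def n2432 : Strat := .move 839 n493 (.cons 838 n2431 .nil)
noncomputable def n2433 : Strat := .move 797 n1384 (.cons 759 n855 .nil)
noncomputable def n2434 : Strat := .move 716 n1313 (.cons 675 n2433 .nil)
noncomputable def n2435 : Strat := .move 757 n1669 (.cons 756 n2434 .nil)
noncomputable def n2436 : Strat := .move 839 n493 (.cons 838 n2435 .nil)
noncomputable def n2437 : Strat := .move 801 n2386 (.cons 838 n2429 (.cons 797 n2430 (.cons 843 n2432 (.cons 842 n2436 (.cons 841 n2368 (.cons 839 n2325 .nil))))))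
noncomputable def n2438 : Strat := .move 759 n2094 (.cons 758 n1298 .nil)
noncomputable def n2439 : Strat := .move 796 n853 (.cons 795 n2438 .nil)
noncomputable def n2440 : Strat := .move 839 n1741 (.cons 715 n2369 (.cons 756 n2439 .nil))
noncomputable def n2441 : Strat := .move 838 n584 (.cons 837 n2440 .nil)
noncomputable def n2442 : Strat := .win 839 0 838
noncomputable def n2443 : Strat := .move 883 n2067 (.cons 924 n2442 .nil)
noncomputable def n2444 : Strat := .move 882 n2106 (.cons 717 n2086 (.cons 923 n2443 .nil))
noncomputable def n2445 : Strat := .move 759 n1298 (.cons 760 n2444 .nil)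
noncomputable def n2446 : Strat := .move 838 n584 (.cons 837 n2445 .nil)
noncomputable def n2447 : Strat := .move 841 n370 (.cons 842 n2446 .nil)
noncomputable def n2448 : Strat := .move 797 n862 (.cons 841 n2441 (.cons 796 n2447 .nil))
noncomputable def n2449 : Strat := .move 839 n2428 (.cons 757 n1476 (.cons 841 n2375 .nil))
noncomputable def n2450 : Strat := .move 839 n1453 (.cons 841 n2375 .nil)
noncomputable def n2451 : Strat := .move 797 n1383 (.cons 759 n1664 .nil)
noncomputable def n2452 : Strat := .move 760 n549 (.cons 761 n2451 .nil)
noncomputable def n2453 : Strat := .win 886 2 841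
noncomputable def n2454 : Strat := .win 882 2 840
noncomputable def n2455 : Strat := .move 885 n2453 (.cons 886 n2454 .nil)
noncomputable def n2456 : Strat := .move 884 n2147 (.cons 839 n2455 .nil)
noncomputable def n2457 : Strat := .move 883 n1478 (.cons 924 n2456 .nil)
noncomputable def n2458 : Strat := .move 841 n338 (.cons 797 n2457 .nil)
noncomputable def n2459 : Strat := .move 842 n774 (.cons 843 n2458 .nil)
noncomputable def n2460 : Strat := .move 801 n2429 (.cons 841 n2376 (.cons 797 n2449 (.cons 759 n2450 (.cons 758 n1672 (.cons 842 n2452 (.cons 760 n2459 .nil))))))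
noncomputable def n2461 : Strat := .move 796 n854 (.cons 841 n2099 .nil)
noncomputable def n2462 : Strat := .move 759 n1298 (.cons 760 n2094 .nil)
noncomputable def n2463 : Strat := .move 796 n854 (.cons 841 n2462 .nil)
noncomputable def n2464 : Strat := .move 839 n443 (.cons 801 n1740 .nil)
noncomputable def n2465 : Strat := .move 756 n572 (.cons 755 n2464 .nil)
noncomputable def n2466 : Strat := .move 838 n584 (.cons 837 n2465 .nil)
noncomputable def n2467 : Strat := .move 797 n2461 (.cons 838 n2463 (.cons 841 n2466 .nil))
noncomputable def n2468 : Strat := .move 797 n862 (.cons 841 n2466 .nil)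
noncomputable def n2469 : Strat := .move 801 n493 (.cons 838 n1451 .nil)
noncomputable def n2470 : Strat := .move 839 n2469 (.cons 838 n2176 .nil)
noncomputable def n2471 : Strat := .move 842 n339 (.cons 843 n2470 .nil)
noncomputable def n2472 : Strat := .move 757 n1328 (.cons 716 n1643 .nil)
noncomputable def n2473 : Strat := .move 879 n613 (.cons 878 n2472 .nil)
noncomputable def n2474 : Strat := .move 839 n443 (.cons 801 n2473 .nil)
noncomputable def n2475 : Strat := .move 838 n584 (.cons 837 n2474 .nil)
noncomputable def n2476 : Strat := .move 797 n264 (.cons 796 n2475 .nil)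
noncomputable def n2477 : Strat := .move 841 n340 (.cons 843 n1455 (.cons 797 n2471 (.cons 842 n2476 .nil)))
noncomputable def n2478 : Strat := .move 801 n1375 (.cons 757 n809 .nil)
noncomputable def n2479 : Strat := .move 756 n572 (.cons 755 n2478 .nil)
noncomputable def n2480 : Strat := .move 838 n584 (.cons 837 n2479 .nil)
noncomputable def n2481 : Strat := .move 797 n862 (.cons 842 n2461 (.cons 841 n2480 .nil))
noncomputable def n2482 : Strat := .move 839 n443 (.cons 801 n2439 .nil)
noncomputable def n2483 : Strat := .move 838 n584 (.cons 837 n2482 .nil)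
noncomputable def n2484 : Strat := .move 796 n2094 (.cons 758 n1896 .nil)
noncomputable def n2485 : Strat := .move 759 n1298 (.cons 760 n2484 .nil)
noncomputable def n2486 : Strat := .move 797 n2466 (.cons 801 n2441 (.cons 880 n2480 (.cons 756 n2483 (.cons 839 n2485 .nil))))
noncomputable def n2487 : Strat := .move 801 n549 (.cons 761 n1376 .nil)
noncomputable def n2488 : Strat := .move 760 n1383 (.cons 759 n2487 .nil)
noncomputable def n2489 : Strat := .move 841 n370 (.cons 842 n2488 .nil)
noncomputable def n2490 : Strat := .move 797 n862 (.cons 841 n2485 (.cons 796 n2489 .nil))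
noncomputable def n2491 : Strat := .move 801 n493 (.cons 838 n2428 .nil)
noncomputable def n2492 : Strat := .move 801 n2428 (.cons 757 n1476 (.cons 841 n2375 .nil))
noncomputable def n2493 : Strat := .move 801 n493 (.cons 838 n1476 .nil)
noncomputable def n2494 : Strat := .move 839 n2491 (.cons 838 n2492 (.cons 758 n2493 (.cons 841 n1882 (.cons 801 n2110 .nil))))
noncomputable def n2495 : Strat := .move 798 n2437 (.cons 801 n2448 (.cons 838 n2460 (.cons 842 n2467 (.cons 759 n2468 (.cons 755 n2477 (.cons 880 n2481 (.cons 841 n2486 (.cons 839 n2490 (.cons 797 n2494 .nil)))))))))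
noncomputable def n2496 : Strat := .move 802 n794 (.cons 839 n2290 .nil)
noncomputable def n2497 : Strat := .move 797 n1383 (.cons 759 n855 .nil)
noncomputable def n2498 : Strat := .move 760 n549 (.cons 761 n2497 .nil)
noncomputable def n2499 : Strat := .move 839 n493 (.cons 838 n2498 .nil)
noncomputable def n2500 : Strat := .move 797 n572 (.cons 755 n855 .nil)
noncomputable def n2501 : Strat := .move 756 n1375 (.cons 757 n2500 .nil)
noncomputable def n2502 : Strat := .move 839 n493 (.cons 838 n2501 .nil)
noncomputable def n2503 : Strat := .move 798 n2436 (.cons 839 n2327 (.cons 757 n2499 (.cons 761 n2502 (.cons 797 n2377 .nil))))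
noncomputable def n2504 : Strat := .move 801 n2496 (.cons 839 n2308 (.cons 841 n2015 (.cons 802 n2503 .nil)))
noncomputable def n2505 : Strat := .move 842 n1698 (.cons 798 n1618 .nil)
noncomputable def n2506 : Strat := .move 923 n1411 (.cons 964 n2505 .nil)
noncomputable def n2507 : Strat := .move 882 n1524 (.cons 883 n2506 .nil)
noncomputable def n2508 : Strat := .move 841 n2399 (.cons 883 n2239 (.cons 758 n2507 .nil))
noncomputable def n2509 : Strat := .move 838 n236 (.cons 837 n2508 .nil)
noncomputable def n2510 : Strat := .move 798 n2428 (.cons 757 n1476 (.cons 841 n2375 .nil))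
noncomputable def n2511 : Strat := .move 801 n123 (.cons 802 n2510 .nil)
noncomputable def n2512 : Strat := .move 839 n1813 (.cons 802 n1789 (.cons 837 n1787 (.cons 801 n2509 (.cons 838 n2511 (.cons 798 n1815 .nil)))))
noncomputable def n2513 : Strat := .move 798 n493 (.cons 838 n2431 .nil)
noncomputable def n2514 : Strat := .move 839 n123 (.cons 802 n2513 .nil)
noncomputable def n2515 : Strat := .move 797 n862 (.cons 842 n1273 (.cons 841 n1384 .nil))
noncomputable def n2516 : Strat := .move 839 n493 (.cons 838 n2515 .nil)
noncomputable def n2517 : Strat := .move 797 n1383 (.cons 759 n862 .nil)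
noncomputable def n2518 : Strat := .move 760 n549 (.cons 761 n2517 .nil)
noncomputable def n2519 : Strat := .move 798 n2432 (.cons 797 n2377 (.cons 757 n2516 (.cons 838 n2518 .nil)))
noncomputable def n2520 : Strat := .move 801 n2514 (.cons 839 n2320 (.cons 841 n2365 (.cons 798 n2385 (.cons 802 n2519 .nil))))
noncomputable def n2521 : Strat := .move 841 n338 (.cons 797 n2197 .nil)
noncomputable def n2522 : Strat := .move 842 n774 (.cons 843 n2521 .nil)
noncomputable def n2523 : Strat := .move 798 n1453 (.cons 842 n2498 (.cons 797 n1476 (.cons 841 n2371 (.cons 760 n2522 .nil))))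
noncomputable def n2524 : Strat := .move 801 n123 (.cons 802 n2523 .nil)
noncomputable def n2525 : Strat := .move 842 n339 (.cons 843 n1760 .nil)
noncomputable def n2526 : Strat := .move 758 n263 (.cons 676 n9 .nil)
noncomputable def n2527 : Strat := .move 758 n7 (.cons 882 n9 .nil)
noncomputable def n2528 : Strat := .move 718 n2000 (.cons 676 n1405 .nil)
noncomputable def n2529 : Strat := .move 717 n2526 (.cons 880 n2177 (.cons 676 n2527 (.cons 758 n2528 .nil)))
noncomputable def n2530 : Strat := .move 759 n2525 (.cons 842 n2529 (.cons 882 n2108 .nil))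
noncomputable def n2531 : Strat := .move 798 n2107 (.cons 923 n2530 (.cons 882 n2108 .nil))
noncomputable def n2532 : Strat := .move 841 n2396 (.cons 797 n2531 (.cons 842 n2399 (.cons 882 n2401 .nil)))
noncomputable def n2533 : Strat := .move 838 n236 (.cons 837 n2532 .nil)
noncomputable def n2534 : Strat := .move 841 n235 (.cons 801 n2399 .nil)
noncomputable def n2535 : Strat := .move 838 n236 (.cons 837 n2534 .nil)
noncomputable def n2536 : Strat := .move 839 n1663 (.cons 837 n1787 (.cons 802 n1789 (.cons 838 n2524 (.cons 801 n2533 (.cons 798 n2535 .nil)))))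
noncomputable def n2537 : Strat := .move 802 n794 (.cons 839 n2247 .nil)
noncomputable def n2538 : Strat := .move 798 n493 (.cons 838 n2522 .nil)
noncomputable def n2539 : Strat := .move 676 n10 (.cons 798 n1172 .nil)
noncomputable def n2540 : Strat := .move 717 n9 (.cons 880 n2539 .nil)
noncomputable def n2541 : Strat := .move 717 n9 (.cons 880 n1076 .nil)
noncomputable def n2542 : Strat := .win 759 5 755
noncomputable def n2543 : Strat := .move 796 n2542 (.cons 759 n853 .nil)
noncomputable def n2544 : Strat := .move 842 n869 (.cons 841 n774 .nil)
noncomputable def n2545 : Strat := .move 797 n1273 (.cons 795 n571 (.cons 841 n2543 (.cons 796 n2544 .nil)))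
noncomputable def n2546 : Strat := .move 757 n1669 (.cons 756 n2545 .nil)
noncomputable def n2547 : Strat := .move 880 n1190 (.cons 879 n2112 .nil)
noncomputable def n2548 : Strat := .move 841 n338 (.cons 797 n2547 .nil)
noncomputable def n2549 : Strat := .move 842 n774 (.cons 843 n2548 .nil)
noncomputable def n2550 : Strat := .move 797 n572 (.cons 755 n1273 .nil)
noncomputable def n2551 : Strat := .move 756 n1375 (.cons 757 n2550 .nil)
noncomputable def n2552 : Strat := .move 757 n1329 (.cons 920 n1669 .nil)
noncomputable def n2553 : Strat := .move 842 n2424 (.cons 841 n774 .nil)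
noncomputable def n2554 : Strat := .move 879 n2552 (.cons 756 n2553 .nil)
noncomputable def n2555 : Strat := .move 880 n2112 (.cons 921 n2554 .nil)
noncomputable def n2556 : Strat := .move 797 n572 (.cons 755 n2543 .nil)
noncomputable def n2557 : Strat := .move 756 n1375 (.cons 757 n2556 .nil)
noncomputable def n2558 : Strat := .move 798 n2546 (.cons 756 n2549 (.cons 842 n2551 (.cons 797 n2555 (.cons 841 n2557 .nil))))
noncomputable def n2559 : Strat := .move 841 n122 (.cons 676 n7 .nil)
noncomputable def n2560 : Strat := .move 717 n9 (.cons 880 n2559 .nil)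
noncomputable def n2561 : Strat := .move 717 n122 (.cons 676 n7 .nil)
noncomputable def n2562 : Strat := .move 798 n338 (.cons 797 n774 .nil)
noncomputable def n2563 : Strat := .move 842 n2562 (.cons 843 n1705 .nil)
noncomputable def n2564 : Strat := .move 841 n2561 (.cons 676 n2314 (.cons 717 n2563 .nil))
noncomputable def n2565 : Strat := .move 758 n2540 (.cons 841 n2541 (.cons 717 n2558 (.cons 798 n2560 (.cons 880 n2564 .nil))))
noncomputable def n2566 : Strat := .move 839 n2538 (.cons 841 n1812 (.cons 838 n2565 (.cons 798 n1814 .nil)))
noncomputable def n2567 : Strat := .move 801 n2537 (.cons 839 n2313 (.cons 844 n2015 (.cons 802 n2566 .nil)))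
noncomputable def n2568 : Strat := .move 841 n1685 (.cons 797 n2399 .nil)
noncomputable def n2569 : Strat := .move 838 n236 (.cons 837 n2568 .nil)
noncomputable def n2570 : Strat := .move 801 n123 (.cons 802 n2538 .nil)
noncomputable def n2571 : Strat := .move 880 n2196 (.cons 962 n2175 (.cons 758 n2425 .nil))
noncomputable def n2572 : Strat := .move 757 n1669 (.cons 756 n2571 .nil)
noncomputable def n2573 : Strat := .move 842 n774 (.cons 843 n2572 .nil)
noncomputable def n2574 : Strat := .move 797 n862 (.cons 842 n855 (.cons 841 n1376 .nil))
noncomputable def n2575 : Strat := .move 880 n2196 (.cons 962 n2175 (.cons 758 n1352 (.cons 921 n2373 .nil)))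
noncomputable def n2576 : Strat := .move 757 n1669 (.cons 756 n2575 .nil)
noncomputable def n2577 : Strat := .move 798 n2522 (.cons 962 n1481 (.cons 797 n2573 (.cons 843 n2574 (.cons 842 n2501 (.cons 841 n2576 .nil)))))
noncomputable def n2578 : Strat := .move 801 n123 (.cons 802 n2577 .nil)
noncomputable def n2579 : Strat := .move 839 n1663 (.cons 801 n2569 (.cons 837 n2570 (.cons 838 n2578 (.cons 798 n1815 .nil))))
noncomputable def n2580 : Strat := .move 841 n2399 (.cons 882 n2401 .nil)
noncomputable def n2581 : Strat := .move 838 n236 (.cons 837 n2580 .nil)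
noncomputable def n2582 : Strat := .move 798 n1453 (.cons 842 n1484 (.cons 841 n1491 (.cons 797 n1476 (.cons 760 n2522 .nil))))
noncomputable def n2583 : Strat := .move 801 n123 (.cons 802 n2582 .nil)
noncomputable def n2584 : Strat := .move 839 n1813 (.cons 837 n1787 (.cons 802 n1789 (.cons 801 n2581 (.cons 838 n2583 (.cons 798 n1815 .nil)))))
noncomputable def n2585 : Strat := .move 797 n709 (.cons 796 n2107 .nil)
noncomputable def n2586 : Strat := .move 838 n236 (.cons 837 n2585 .nil)
noncomputable def n2587 : Strat := .move 842 n2419 (.cons 803 n1465 .nil)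
noncomputable def n2588 : Strat := .move 802 n2047 (.cons 801 n2587 .nil)
noncomputable def n2589 : Strat := .move 839 n125 (.cons 801 n2586 (.cons 838 n2588 .nil))
noncomputable def n2590 : Strat := .move 924 n2338 (.cons 759 n1462 .nil)
noncomputable def n2591 : Strat := .move 883 n633 (.cons 884 n2590 .nil)
noncomputable def n2592 : Strat := .move 801 n123 (.cons 802 n2591 .nil)
noncomputable def n2593 : Strat := .move 801 n123 (.cons 802 n1705 .nil)
noncomputable def n2594 : Strat := .move 843 n704 (.cons 844 n1756 .nil)
noncomputable def n2595 : Strat := .move 842 n2592 (.cons 965 n2593 (.cons 801 n2594 (.cons 884 n2420 .nil)))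
noncomputable def n2596 : Strat := .move 839 n125 (.cons 801 n2234 (.cons 838 n2595 .nil))
noncomputable def n2597 : Strat := .move 882 n2218 (.cons 758 n2068 .nil)
noncomputable def n2598 : Strat := .move 717 n2000 (.cons 676 n2597 .nil)
noncomputable def n2599 : Strat := .move 718 n1405 (.cons 677 n2598 .nil)
noncomputable def n2600 : Strat := .move 718 n1405 (.cons 677 n2084 .nil)
noncomputable def n2601 : Strat := .move 883 n2067 (.cons 924 n2066 .nil)
noncomputable def n2602 : Strat := .move 882 n1626 (.cons 760 n2601 .nil)
noncomputable def n2603 : Strat := .move 719 n1059 (.cons 678 n2602 .nil)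
noncomputable def n2604 : Strat := .move 718 n1405 (.cons 677 n2603 .nil)
noncomputable def n2605 : Strat := .move 717 n2218 (.cons 758 n2068 .nil)
noncomputable def n2606 : Strat := .move 882 n2605 (.cons 758 n2134 .nil)
noncomputable def n2607 : Strat := .move 882 n2086 (.cons 758 n2068 .nil)
noncomputable def n2608 : Strat := .move 843 n704 (.cons 844 n2607 .nil)
noncomputable def n2609 : Strat := .move 842 n1998 (.cons 883 n2608 .nil)
noncomputable def n2610 : Strat := .move 882 n2218 (.cons 758 n2601 .nil)
noncomputable def n2611 : Strat := .move 717 n2000 (.cons 676 n2610 .nil)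
noncomputable def n2612 : Strat := .move 718 n2598 (.cons 676 n2606 (.cons 717 n2609 (.cons 882 n2084 (.cons 719 n2611 (.cons 758 n2603 .nil)))))
noncomputable def n2613 : Strat := .move 718 n1405 (.cons 677 n2611 .nil)
noncomputable def n2614 : Strat := .win 757 2 715
noncomputable def n2615 : Strat := .move 715 n2614 (.cons 757 n104 .nil)
noncomputable def n2616 : Strat := .move 760 n607 (.cons 761 n2615 .nil)
noncomputable def n2617 : Strat := .move 716 n0 (.cons 675 n2616 .nil)
noncomputable def n2618 : Strat := .move 717 n122 (.cons 676 n2617 .nil)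
noncomputable def n2619 : Strat := .move 756 n93 (.cons 714 n84 .nil)
noncomputable def n2620 : Strat := .win 716 2 715
noncomputable def n2621 : Strat := .move 760 n2620 (.cons 716 n969 .nil)
noncomputable def n2622 : Strat := .move 715 n2619 (.cons 755 n2621 .nil)
noncomputable def n2623 : Strat := .move 882 n2105 (.cons 923 n2622 .nil)
noncomputable def n2624 : Strat := .win 801 2 757
noncomputable def n2625 : Strat := .move 882 n969 (.cons 719 n2105 .nil)
noncomputable def n2626 : Strat := .move 719 n526 (.cons 720 n2058 .nil)
noncomputable def n2627 : Strat := .move 761 n357 (.cons 803 n824 .nil)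
noncomputable def n2628 : Strat := .move 760 n2625 (.cons 923 n2626 (.cons 719 n2627 .nil))
noncomputable def n2629 : Strat := .move 802 n2624 (.cons 801 n2628 .nil)
noncomputable def n2630 : Strat := .move 757 n158 (.cons 802 n2114 (.cons 801 n2623 (.cons 756 n2629 .nil)))
noncomputable def n2631 : Strat := .move 758 n2314 (.cons 882 n2618 (.cons 717 n2630 .nil))
noncomputable def n2632 : Strat := .move 759 n2599 (.cons 882 n2600 (.cons 758 n2604 (.cons 677 n2612 (.cons 719 n2613 (.cons 718 n2631 .nil)))))
noncomputable def n2633 : Strat := .move 924 n2126 (.cons 759 n1462 .nil)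
noncomputable def n2634 : Strat := .move 882 n2106 (.cons 717 n2086 (.cons 923 n2633 .nil))
noncomputable def n2635 : Strat := .move 883 n633 (.cons 884 n2634 .nil)
noncomputable def n2636 : Strat := .move 842 n2419 (.cons 803 n2635 .nil)
noncomputable def n2637 : Strat := .move 802 n2047 (.cons 801 n2636 .nil)
noncomputable def n2638 : Strat := .move 839 n2406 (.cons 838 n2637 (.cons 801 n2407 .nil))
noncomputable def n2639 : Strat := .move 717 n122 (.cons 676 n126 .nil)
noncomputable def n2640 : Strat := .move 801 n794 (.cons 839 n793 .nil)
noncomputable def n2641 : Strat := .move 761 n824 (.cons 762 n357 .nil)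
noncomputable def n2642 : Strat := .move 760 n969 (.cons 719 n2641 .nil)
noncomputable def n2643 : Strat := .move 843 n1730 (.cons 803 n704 .nil)
noncomputable def n2644 : Strat := .move 718 n1998 (.cons 883 n1405 .nil)
noncomputable def n2645 : Strat := .move 842 n2643 (.cons 844 n2644 .nil)
noncomputable def n2646 : Strat := .move 759 n1628 (.cons 718 n2642 (.cons 760 n2645 .nil))
noncomputable def n2647 : Strat := .move 801 n794 (.cons 839 n2007 .nil)
noncomputable def n2648 : Strat := .move 802 n2640 (.cons 801 n2646 (.cons 803 n2647 .nil))
noncomputable def n2649 : Strat := .move 882 n2105 (.cons 923 n2648 .nil)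
noncomputable def n2650 : Strat := .move 758 n2561 (.cons 676 n2314 (.cons 882 n2639 (.cons 717 n2649 .nil)))
noncomputable def n2651 : Strat := .move 923 n2085 (.cons 758 n1411 .nil)
noncomputable def n2652 : Strat := .move 839 n123 (.cons 802 n124 .nil)
noncomputable def n2653 : Strat := .move 801 n792 (.cons 760 n2652 .nil)
noncomputable def n2654 : Strat := .move 923 n1411 (.cons 964 n2653 .nil)
noncomputable def n2655 : Strat := .move 801 n2008 (.cons 803 n794 .nil)
noncomputable def n2656 : Strat := .move 801 n2041 (.cons 757 n2008 .nil)
noncomputable def n2657 : Strat := .move 802 n2655 (.cons 839 n2656 (.cons 803 n2042 (.cons 801 n2627 .nil)))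
noncomputable def n2658 : Strat := .move 760 n969 (.cons 719 n2657 .nil)
noncomputable def n2659 : Strat := .move 758 n303 (.cons 717 n2658 .nil)
noncomputable def n2660 : Strat := .move 883 n2067 (.cons 924 n1627 .nil)
noncomputable def n2661 : Strat := .move 718 n1405 (.cons 677 n2660 .nil)
noncomputable def n2662 : Strat := .move 759 n2659 (.cons 758 n2661 (.cons 719 n2220 .nil))
noncomputable def n2663 : Strat := .move 882 n2651 (.cons 758 n2654 (.cons 964 n2124 (.cons 923 n2662 .nil)))
noncomputable def n2664 : Strat := .move 839 n2406 (.cons 801 n2407 (.cons 837 n125 (.cons 838 n2421 .nil)))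
noncomputable def n2665 : Strat := .move 922 n791 (.cons 963 n796 .nil)
noncomputable def n2666 : Strat := .move 923 n1411 (.cons 964 n2665 .nil)
noncomputable def n2667 : Strat := .move 802 n2008 (.cons 803 n794 .nil)
noncomputable def n2668 : Strat := .move 802 n2007 (.cons 757 n2008 .nil)
noncomputable def n2669 : Strat := .move 839 n124 (.cons 838 n123 .nil)
noncomputable def n2670 : Strat := .move 801 n2667 (.cons 839 n2668 (.cons 803 n2669 (.cons 802 n1628 .nil)))
noncomputable def n2671 : Strat := .move 758 n303 (.cons 717 n2670 .nil)
noncomputable def n2672 : Strat := .move 759 n2671 (.cons 758 n2217 (.cons 678 n2659 (.cons 760 n2220 .nil)))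
noncomputable def n2673 : Strat := .move 882 n2651 (.cons 964 n2124 (.cons 758 n2666 (.cons 923 n2672 .nil)))
noncomputable def n2674 : Strat := .move 841 n2589 (.cons 882 n2596 (.cons 839 n2632 (.cons 801 n2146 (.cons 718 n2638 (.cons 924 n2650 (.cons 842 n2663 (.cons 759 n2664 (.cons 883 n2673 .nil))))))))
noncomputable def n2675 : Strat := .move 800 n2123 (.cons 801 n2243 (.cons 839 n2351 (.cons 841 n2384 (.cons 758 n2394 (.cons 759 n2423 (.cons 802 n2495 (.cons 842 n2504 (.cons 797 n2512 (.cons 843 n2520 (.cons 757 n2536 (.cons 760 n2567 (.cons 761 n2579 (.cons 756 n2584 (.cons 798 n2674 .nil))))))))))))))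
noncomputable def n2676 : Strat := .move 799 n121 (.cons 798 n244 (.cons 800 n298 (.cons 839 n431 (.cons 841 n501 (.cons 717 n600 (.cons 922 n665 (.cons 757 n724 (.cons 759 n768 (.cons 880 n822 (.cons 882 n879 (.cons 716 n954 (.cons 718 n1015 (.cons 921 n1091 (.cons 923 n1206 (.cons 758 n1997 (.cons 881 n2675 .nil))))))))))))))))

end Vale.Agent.Snaky.Pass
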