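import Vale.Agent.Snaky.Assemble

namespace Vale.Agent.Snaky.R1_1

open Vale.Agent.Snaky

noncomputable def n0 : Strat := .win 757 7 757
noncomputable def n1 : Strat := .win 839 7 798
noncomputable def n2 : Strat := .win 759 3 758
noncomputable def n3 : Strat := .win 841 3 799
noncomputable def n4 : Strat := .move 800 n2 (.cons 759 n3 .nil)
noncomputable def n5 : Strat := .move 963 n1 (.cons 839 n4 .nil)
noncomputable def n6 : Strat := .move 798 n0 (.cons 757 n5 .nil)
noncomputable def n7 : Strat := .win 962 1 798
noncomputable def n8 : Strat := .win 880 1 757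
noncomputable def n9 : Strat := .win 718 3 717
noncomputable def n10 : Strat := .win 800 3 758
noncomputable def n11 : Strat := .move 759 n9 (.cons 718 n10 .nil)
noncomputable def n12 : Strat := .move 758 n8 (.cons 880 n11 .nil)
noncomputable def n13 : Strat := .move 921 n7 (.cons 962 n12 .nil)
noncomputable def n14 : Strat := .win 921 1 798
noncomputable def n15 : Strat := .win 1003 1 839
noncomputable def n16 : Strat := .move 962 n14 (.cons 921 n15 .nil)
noncomputable def n17 : Strat := .move 963 n1 (.cons 839 n16 .nil)
noncomputable def n18 : Strat := .move 798 n0 (.cons 757 n17 .nil)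
noncomputable def n19 : Strat := .move 922 n6 (.cons 798 n13 (.cons 759 n18 .nil))
noncomputable def n20 : Strat := .win 923 6 799
noncomputable def n21 : Strat := .win 1005 6 840
noncomputable def n22 : Strat := .move 964 n20 (.cons 923 n21 .nil)
noncomputable def n23 : Strat := .move 963 n1 (.cons 839 n22 .nil)
noncomputable def n24 : Strat := .move 798 n0 (.cons 757 n23 .nil)
noncomputable def n25 : Strat := .win 964 6 799
noncomputable def n26 : Strat := .win 758 1 757
noncomputable def n27 : Strat := .win 878 0 878
noncomputable def n28 : Strat := .win 924 2 879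
noncomputable def n29 : Strat := .move 879 n27 (.cons 878 n28 .nil)
noncomputable def n30 : Strat := .move 880 n26 (.cons 758 n29 .nil)
noncomputable def n31 : Strat := .move 923 n25 (.cons 964 n30 .nil)
noncomputable def n32 : Strat := .move 921 n7 (.cons 962 n31 .nil)
noncomputable def n33 : Strat := .move 922 n18 (.cons 921 n24 (.cons 839 n32 .nil))
noncomputable def n34 : Strat := .win 921 1 757
noncomputable def n35 : Strat := .win 839 1 716
noncomputable def n36 : Strat := .win 759 3 717
noncomputable def n37 : Strat := .win 677 3 676
noncomputable def n38 : Strat := .move 718 n36 (.cons 759 n37 .nil)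
noncomputable def n39 : Strat := .move 717 n35 (.cons 839 n38 .nil)
noncomputable def n40 : Strat := .move 880 n34 (.cons 921 n39 .nil)
noncomputable def n41 : Strat := .win 757 7 716
noncomputable def n42 : Strat := .win 675 7 675
noncomputable def n43 : Strat := .move 716 n41 (.cons 757 n42 .nil)
noncomputable def n44 : Strat := .move 717 n35 (.cons 839 n43 .nil)
noncomputable def n45 : Strat := .move 880 n34 (.cons 921 n44 .nil)
noncomputable def n46 : Strat := .win 716 7 716
noncomputable def n47 : Strat := .win 755 0 755
noncomputable def n48 : Strat := .win 801 0 756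
noncomputable def n49 : Strat := .move 800 n47 (.cons 755 n48 .nil)
noncomputable def n50 : Strat := .win 800 0 755
noncomputable def n51 : Strat := .win 797 4 755
noncomputable def n52 : Strat := .win 795 4 754
noncomputable def n53 : Strat := .move 796 n51 (.cons 797 n52 .nil)
noncomputable def n54 : Strat := .move 755 n50 (.cons 800 n53 .nil)
noncomputable def n55 : Strat := .win 796 4 755
noncomputable def n56 : Strat := .win 798 4 756
noncomputable def n57 : Strat := .win 715 2 714
noncomputable def n58 : Strat := .win 803 0 758
noncomputable def n59 : Strat := .win 801 0 757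
noncomputable def n60 : Strat := .move 802 n58 (.cons 803 n59 .nil)
noncomputable def n61 : Strat := .win 721 5 717
noncomputable def n62 : Strat := .win 719 5 716
noncomputable def n63 : Strat := .move 720 n61 (.cons 721 n62 .nil)
noncomputable def n64 : Strat := .move 761 n60 (.cons 801 n63 .nil)
noncomputable def n65 : Strat := .move 714 n57 (.cons 715 n64 .nil)
noncomputable def n66 : Strat := .move 760 n56 (.cons 798 n65 .nil)
noncomputable def n67 : Strat := .move 797 n55 (.cons 796 n66 .nil)
noncomputable def n68 : Strat := .move 756 n49 (.cons 801 n54 (.cons 800 n67 .nil))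
noncomputable def n69 : Strat := .move 757 n46 (.cons 716 n68 .nil)
noncomputable def n70 : Strat := .move 759 n9 (.cons 718 n69 .nil)
noncomputable def n71 : Strat := .move 758 n40 (.cons 759 n45 (.cons 839 n70 .nil))
noncomputable def n72 : Strat := .move 963 n3 (.cons 841 n16 .nil)
noncomputable def n73 : Strat := .move 800 n2 (.cons 759 n72 .nil)
noncomputable def n74 : Strat := .win 796 0 796
noncomputable def n75 : Strat := .win 842 0 797
noncomputable def n76 : Strat := .move 841 n74 (.cons 796 n75 .nil)
noncomputable def n77 : Strat := .win 841 0 796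
noncomputable def n78 : Strat := .win 754 2 754
noncomputable def n79 : Strat := .win 756 2 755
noncomputable def n80 : Strat := .move 755 n78 (.cons 754 n79 .nil)
noncomputable def n81 : Strat := .move 796 n77 (.cons 841 n80 .nil)
noncomputable def n82 : Strat := .win 837 4 796
noncomputable def n83 : Strat := .win 801 4 797
noncomputable def n84 : Strat := .win 880 7 756
noncomputable def n85 : Strat := .win 755 2 755
noncomputable def n86 : Strat := .move 756 n84 (.cons 880 n85 .nil)
noncomputable def n87 : Strat := .move 839 n83 (.cons 801 n86 .nil)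
noncomputable def n88 : Strat := .move 838 n82 (.cons 837 n87 .nil)
noncomputable def n89 : Strat := .move 797 n76 (.cons 842 n81 (.cons 841 n88 .nil))
noncomputable def n90 : Strat := .move 923 n25 (.cons 964 n89 .nil)
noncomputable def n91 : Strat := .move 921 n7 (.cons 962 n90 .nil)
noncomputable def n92 : Strat := .move 800 n2 (.cons 759 n91 .nil)
noncomputable def n93 : Strat := .move 798 n0 (.cons 757 n92 .nil)
noncomputable def n94 : Strat := .move 922 n6 (.cons 798 n73 (.cons 841 n18 (.cons 963 n93 .nil)))
noncomputable def n95 : Strat := .move 921 n8 (.cons 880 n7 .nil)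
noncomputable def n96 : Strat := .move 922 n10 (.cons 800 n95 .nil)
noncomputable def n97 : Strat := .move 759 n9 (.cons 718 n96 .nil)
noncomputable def n98 : Strat := .win 922 3 758
noncomputable def n99 : Strat := .win 756 0 756
noncomputable def n100 : Strat := .win 802 2 757
noncomputable def n101 : Strat := .move 801 n99 (.cons 756 n100 .nil)
noncomputable def n102 : Strat := .move 757 n46 (.cons 716 n101 .nil)
noncomputable def n103 : Strat := .move 800 n98 (.cons 922 n102 .nil)
noncomputable def n104 : Strat := .move 759 n9 (.cons 718 n103 .nil)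
noncomputable def n105 : Strat := .move 758 n97 (.cons 921 n104 (.cons 922 n40 (.cons 718 n45 .nil)))
noncomputable def n106 : Strat := .move 963 n3 (.cons 841 n22 .nil)
noncomputable def n107 : Strat := .move 800 n2 (.cons 759 n106 .nil)
noncomputable def n108 : Strat := .move 923 n25 (.cons 964 n29 .nil)
noncomputable def n109 : Strat := .move 880 n26 (.cons 758 n108 .nil)
noncomputable def n110 : Strat := .move 921 n7 (.cons 962 n109 .nil)
noncomputable def n111 : Strat := .move 922 n73 (.cons 1003 n107 (.cons 759 n110 .nil))
noncomputable def n112 : Strat := .move 963 n3 (.cons 841 n1 .nil)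
noncomputable def n113 : Strat := .move 800 n2 (.cons 759 n112 .nil)
noncomputable def n114 : Strat := .move 798 n0 (.cons 757 n113 .nil)
noncomputable def n115 : Strat := .win 838 4 797
noncomputable def n116 : Strat := .win 802 4 798
noncomputable def n117 : Strat := .move 839 n115 (.cons 838 n116 .nil)
noncomputable def n118 : Strat := .win 839 4 798
noncomputable def n119 : Strat := .win 842 0 798
noncomputable def n120 : Strat := .win 844 0 799
noncomputable def n121 : Strat := .move 843 n119 (.cons 842 n120 .nil)
noncomputable def n122 : Strat := .move 802 n118 (.cons 839 n121 .nil)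
noncomputable def n123 : Strat := .win 843 0 798
noncomputable def n124 : Strat := .win 841 0 797
noncomputable def n125 : Strat := .win 760 5 757
noncomputable def n126 : Strat := .win 836 4 795
noncomputable def n127 : Strat := .win 838 4 796
noncomputable def n128 : Strat := .move 837 n126 (.cons 836 n127 .nil)
noncomputable def n129 : Strat := .move 796 n80 (.cons 756 n128 .nil)
noncomputable def n130 : Strat := .move 761 n125 (.cons 760 n129 .nil)
noncomputable def n131 : Strat := .move 797 n124 (.cons 841 n130 .nil)
noncomputable def n132 : Strat := .move 842 n123 (.cons 843 n131 .nil)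
noncomputable def n133 : Strat := .move 801 n117 (.cons 838 n122 (.cons 839 n132 .nil))
noncomputable def n134 : Strat := .move 800 n2 (.cons 759 n133 .nil)
noncomputable def n135 : Strat := .move 798 n0 (.cons 757 n134 .nil)
noncomputable def n136 : Strat := .move 922 n114 (.cons 759 n24 (.cons 839 n107 (.cons 963 n135 .nil)))
noncomputable def n137 : Strat := .move 881 n19 (.cons 759 n33 (.cons 922 n71 (.cons 758 n94 (.cons 798 n105 (.cons 757 n111 (.cons 921 n136 .nil))))))
noncomputable def n138 : Strat := .win 881 7 716
noncomputable def n139 : Strat := .win 719 4 715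
noncomputable def n140 : Strat := .win 755 5 714
noncomputable def n141 : Strat := .move 756 n139 (.cons 719 n140 .nil)
noncomputable def n142 : Strat := .move 718 n37 (.cons 677 n141 .nil)
noncomputable def n143 : Strat := .move 757 n138 (.cons 881 n142 .nil)
noncomputable def n144 : Strat := .move 716 n42 (.cons 675 n143 .nil)
noncomputable def n145 : Strat := .win 880 1 716
noncomputable def n146 : Strat := .win 798 1 675
noncomputable def n147 : Strat := .win 718 3 676
noncomputable def n148 : Strat := .win 636 3 635
noncomputable def n149 : Strat := .move 677 n147 (.cons 718 n148 .nil)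
noncomputable def n150 : Strat := .move 676 n146 (.cons 798 n149 .nil)
noncomputable def n151 : Strat := .move 839 n145 (.cons 880 n150 .nil)
noncomputable def n152 : Strat := .win 676 1 675
noncomputable def n153 : Strat := .win 674 7 674
noncomputable def n154 : Strat := .win 714 0 714
noncomputable def n155 : Strat := .win 760 2 715
noncomputable def n156 : Strat := .move 759 n154 (.cons 714 n155 .nil)
noncomputable def n157 : Strat := .move 715 n153 (.cons 674 n156 .nil)
noncomputable def n158 : Strat := .move 798 n152 (.cons 676 n157 .nil)
noncomputable def n159 : Strat := .move 839 n145 (.cons 880 n158 .nil)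
noncomputable def n160 : Strat := .move 757 n138 (.cons 881 n159 .nil)
noncomputable def n161 : Strat := .move 716 n42 (.cons 675 n160 .nil)
noncomputable def n162 : Strat := .move 717 n144 (.cons 881 n151 (.cons 718 n161 .nil))
noncomputable def n163 : Strat := .win 798 7 757
noncomputable def n164 : Strat := .move 922 n163 (.cons 798 n11 .nil)
noncomputable def n165 : Strat := .move 757 n46 (.cons 716 n164 .nil)
noncomputable def n166 : Strat := .move 922 n163 (.cons 798 n95 .nil)
noncomputable def n167 : Strat := .move 757 n46 (.cons 716 n166 .nil)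
noncomputable def n168 : Strat := .win 760 4 756
noncomputable def n169 : Strat := .win 714 2 714
noncomputable def n170 : Strat := .win 839 6 674
noncomputable def n171 : Strat := .win 633 6 633
noncomputable def n172 : Strat := .move 674 n170 (.cons 839 n171 .nil)
noncomputable def n173 : Strat := .move 715 n169 (.cons 714 n172 .nil)
noncomputable def n174 : Strat := .move 798 n168 (.cons 760 n173 .nil)
noncomputable def n175 : Strat := .move 797 n55 (.cons 796 n174 .nil)
noncomputable def n176 : Strat := .move 756 n49 (.cons 801 n54 (.cons 800 n175 .nil))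
noncomputable def n177 : Strat := .move 759 n9 (.cons 718 n176 .nil)
noncomputable def n178 : Strat := .move 757 n46 (.cons 716 n177 .nil)
noncomputable def n179 : Strat := .move 881 n165 (.cons 757 n97 (.cons 800 n167 (.cons 922 n178 .nil)))
noncomputable def n180 : Strat := .win 716 7 675
noncomputable def n181 : Strat := .win 634 7 634
noncomputable def n182 : Strat := .move 675 n180 (.cons 716 n181 .nil)
noncomputable def n183 : Strat := .move 676 n146 (.cons 798 n182 .nil)
noncomputable def n184 : Strat := .move 839 n145 (.cons 880 n183 .nil)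
noncomputable def n185 : Strat := .win 760 0 715
noncomputable def n186 : Strat := .move 759 n154 (.cons 714 n185 .nil)
noncomputable def n187 : Strat := .win 759 0 714
noncomputable def n188 : Strat := .win 756 4 714
noncomputable def n189 : Strat := .win 754 4 713
noncomputable def n190 : Strat := .move 755 n188 (.cons 756 n189 .nil)
noncomputable def n191 : Strat := .move 714 n187 (.cons 759 n190 .nil)
noncomputable def n192 : Strat := .win 755 4 714
noncomputable def n193 : Strat := .win 757 4 715
noncomputable def n194 : Strat := .win 674 2 673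
noncomputable def n195 : Strat := .win 762 0 717
noncomputable def n196 : Strat := .win 760 0 716
noncomputable def n197 : Strat := .move 761 n195 (.cons 762 n196 .nil)
noncomputable def n198 : Strat := .win 680 5 676
noncomputable def n199 : Strat := .win 678 5 675
noncomputable def n200 : Strat := .move 679 n198 (.cons 680 n199 .nil)
noncomputable def n201 : Strat := .move 720 n197 (.cons 760 n200 .nil)
noncomputable def n202 : Strat := .move 673 n194 (.cons 674 n201 .nil)
noncomputable def n203 : Strat := .move 719 n193 (.cons 757 n202 .nil)
noncomputable def n204 : Strat := .move 756 n192 (.cons 755 n203 .nil)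
noncomputable def n205 : Strat := .move 715 n186 (.cons 760 n191 (.cons 759 n204 .nil))
noncomputable def n206 : Strat := .move 716 n42 (.cons 675 n205 .nil)
noncomputable def n207 : Strat := .move 718 n37 (.cons 677 n206 .nil)
noncomputable def n208 : Strat := .move 717 n151 (.cons 718 n184 (.cons 798 n207 .nil))
noncomputable def n209 : Strat := .win 881 3 717
noncomputable def n210 : Strat := .win 715 0 715
noncomputable def n211 : Strat := .win 761 2 716
noncomputable def n212 : Strat := .move 760 n210 (.cons 715 n211 .nil)
noncomputable def n213 : Strat := .move 716 n42 (.cons 675 n212 .nil)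
noncomputable def n214 : Strat := .move 759 n209 (.cons 881 n213 .nil)
noncomputable def n215 : Strat := .move 718 n37 (.cons 677 n214 .nil)
noncomputable def n216 : Strat := .move 717 n215 (.cons 718 n184 (.cons 716 n151 .nil))
noncomputable def n217 : Strat := .move 717 n184 (.cons 716 n151 (.cons 839 n144 .nil))
noncomputable def n218 : Strat := .move 922 n10 (.cons 800 n163 .nil)
noncomputable def n219 : Strat := .move 759 n9 (.cons 718 n218 .nil)
noncomputable def n220 : Strat := .move 757 n46 (.cons 716 n219 .nil)
noncomputable def n221 : Strat := .move 759 n9 (.cons 718 n68 .nil)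
noncomputable def n222 : Strat := .move 757 n46 (.cons 716 n221 .nil)
noncomputable def n223 : Strat := .move 881 n220 (.cons 757 n97 (.cons 800 n167 (.cons 922 n222 .nil)))
noncomputable def n224 : Strat := .win 717 1 716
noncomputable def n225 : Strat := .win 757 6 757
noncomputable def n226 : Strat := .win 963 7 798
noncomputable def n227 : Strat := .move 798 n225 (.cons 757 n226 .nil)
noncomputable def n228 : Strat := .win 798 7 798
noncomputable def n229 : Strat := .win 1004 7 839
noncomputable def n230 : Strat := .move 963 n228 (.cons 798 n229 .nil)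
noncomputable def n231 : Strat := .move 963 n229 (.cons 1004 n22 .nil)
noncomputable def n232 : Strat := .win 837 5 796
noncomputable def n233 : Strat := .move 838 n232 (.cons 837 n83 .nil)
noncomputable def n234 : Strat := .move 800 n2 (.cons 759 n233 .nil)
noncomputable def n235 : Strat := .move 798 n225 (.cons 757 n234 .nil)
noncomputable def n236 : Strat := .move 922 n227 (.cons 757 n230 (.cons 798 n231 (.cons 963 n235 .nil)))
noncomputable def n237 : Strat := .move 839 n224 (.cons 717 n236 .nil)
noncomputable def n238 : Strat := .move 880 n34 (.cons 921 n237 .nil)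
noncomputable def n239 : Strat := .move 716 n42 (.cons 675 n41 .nil)
noncomputable def n240 : Strat := .move 717 n35 (.cons 839 n239 .nil)
noncomputable def n241 : Strat := .move 880 n34 (.cons 921 n240 .nil)
noncomputable def n242 : Strat := .move 759 n10 (.cons 800 n230 .nil)
noncomputable def n243 : Strat := .win 798 4 797
noncomputable def n244 : Strat := .move 801 n116 (.cons 802 n243 .nil)
noncomputable def n245 : Strat := .move 838 n232 (.cons 837 n244 .nil)
noncomputable def n246 : Strat := .move 800 n2 (.cons 759 n245 .nil)
noncomputable def n247 : Strat := .move 922 n242 (.cons 800 n230 (.cons 798 n231 (.cons 963 n246 .nil)))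
noncomputable def n248 : Strat := .move 839 n224 (.cons 717 n247 .nil)
noncomputable def n249 : Strat := .move 880 n34 (.cons 921 n248 .nil)
noncomputable def n250 : Strat := .move 962 n15 (.cons 1003 n14 .nil)
noncomputable def n251 : Strat := .move 963 n21 (.cons 1005 n250 .nil)
noncomputable def n252 : Strat := .move 964 n20 (.cons 923 n251 .nil)
noncomputable def n253 : Strat := .move 801 n100 (.cons 802 n252 .nil)
noncomputable def n254 : Strat := .move 800 n2 (.cons 759 n253 .nil)
noncomputable def n255 : Strat := .move 922 n163 (.cons 798 n254 .nil)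
noncomputable def n256 : Strat := .move 757 n46 (.cons 716 n255 .nil)
noncomputable def n257 : Strat := .win 922 7 757
noncomputable def n258 : Strat := .win 756 2 756
noncomputable def n259 : Strat := .move 801 n100 (.cons 802 n258 .nil)
noncomputable def n260 : Strat := .win 801 2 756
noncomputable def n261 : Strat := .move 756 n47 (.cons 755 n260 .nil)
noncomputable def n262 : Strat := .move 759 n168 (.cons 760 n55 .nil)
noncomputable def n263 : Strat := .win 795 5 754
noncomputable def n264 : Strat := .win 759 4 755
noncomputable def n265 : Strat := .move 796 n263 (.cons 795 n264 .nil)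
noncomputable def n266 : Strat := .move 796 n263 (.cons 795 n128 .nil)
noncomputable def n267 : Strat := .move 759 n168 (.cons 760 n173 .nil)
noncomputable def n268 : Strat := .move 797 n262 (.cons 760 n265 (.cons 759 n266 (.cons 796 n267 .nil)))
noncomputable def n269 : Strat := .move 756 n47 (.cons 755 n268 .nil)
noncomputable def n270 : Strat := .move 717 n145 (.cons 880 n152 .nil)
noncomputable def n271 : Strat := .move 839 n115 (.cons 838 n270 .nil)
noncomputable def n272 : Strat := .move 801 n100 (.cons 802 n271 .nil)
noncomputable def n273 : Strat := .move 800 n259 (.cons 802 n261 (.cons 801 n269 (.cons 756 n272 .nil)))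
noncomputable def n274 : Strat := .move 798 n257 (.cons 922 n273 .nil)
noncomputable def n275 : Strat := .move 757 n46 (.cons 716 n274 .nil)
noncomputable def n276 : Strat := .move 881 n167 (.cons 716 n238 (.cons 798 n241 (.cons 757 n249 (.cons 880 n256 (.cons 921 n275 .nil)))))
noncomputable def n277 : Strat := .win 717 7 675
noncomputable def n278 : Strat := .win 634 6 634
noncomputable def n279 : Strat := .move 675 n277 (.cons 717 n278 .nil)
noncomputable def n280 : Strat := .move 716 n138 (.cons 881 n279 .nil)
noncomputable def n281 : Strat := .win 798 6 675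
noncomputable def n282 : Strat := .move 675 n278 (.cons 634 n281 .nil)
noncomputable def n283 : Strat := .move 675 n277 (.cons 717 n281 .nil)
noncomputable def n284 : Strat := .win 715 2 715
noncomputable def n285 : Strat := .win 717 2 716
noncomputable def n286 : Strat := .win 798 4 757
noncomputable def n287 : Strat := .move 761 n285 (.cons 717 n286 .nil)
noncomputable def n288 : Strat := .move 760 n284 (.cons 715 n287 .nil)
noncomputable def n289 : Strat := .win 719 5 715
noncomputable def n290 : Strat := .move 717 n37 (.cons 677 n140 .nil)
noncomputable def n291 : Strat := .move 718 n289 (.cons 719 n290 .nil)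
noncomputable def n292 : Strat := .win 717 3 676
noncomputable def n293 : Strat := .win 636 1 635
noncomputable def n294 : Strat := .move 677 n292 (.cons 717 n293 .nil)
noncomputable def n295 : Strat := .move 718 n289 (.cons 719 n294 .nil)
noncomputable def n296 : Strat := .move 756 n49 (.cons 800 n291 (.cons 755 n295 .nil))
noncomputable def n297 : Strat := .win 797 4 756
noncomputable def n298 : Strat := .win 761 4 757
noncomputable def n299 : Strat := .move 798 n297 (.cons 797 n298 .nil)
noncomputable def n300 : Strat := .move 760 n284 (.cons 715 n299 .nil)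
noncomputable def n301 : Strat := .move 759 n288 (.cons 760 n296 (.cons 717 n300 .nil))
noncomputable def n302 : Strat := .move 716 n279 (.cons 717 n282 (.cons 634 n283 (.cons 675 n301 .nil)))
noncomputable def n303 : Strat := .move 716 n138 (.cons 881 n282 .nil)
noncomputable def n304 : Strat := .move 922 n163 (.cons 798 n10 .nil)
noncomputable def n305 : Strat := .move 759 n9 (.cons 718 n304 .nil)
noncomputable def n306 : Strat := .move 881 n46 (.cons 716 n305 .nil)
noncomputable def n307 : Strat := .move 718 n209 (.cons 881 n294 .nil)
noncomputable def n308 : Strat := .win 677 1 676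
noncomputable def n309 : Strat := .move 718 n308 (.cons 677 n289 .nil)
noncomputable def n310 : Strat := .move 800 n48 (.cons 801 n309 .nil)
noncomputable def n311 : Strat := .move 756 n49 (.cons 755 n310 (.cons 800 n291 .nil))
noncomputable def n312 : Strat := .move 881 n9 (.cons 718 n304 .nil)
noncomputable def n313 : Strat := .win 796 5 755
noncomputable def n314 : Strat := .move 797 n168 (.cons 760 n313 .nil)
noncomputable def n315 : Strat := .move 760 n297 (.cons 797 n298 .nil)
noncomputable def n316 : Strat := .move 756 n47 (.cons 755 n48 .nil)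
noncomputable def n317 : Strat := .move 801 n100 (.cons 802 n99 .nil)
noncomputable def n318 : Strat := .move 881 n98 (.cons 922 n173 .nil)
noncomputable def n319 : Strat := .move 756 n47 (.cons 755 n318 .nil)
noncomputable def n320 : Strat := .win 839 4 797
noncomputable def n321 : Strat := .move 838 n82 (.cons 837 n320 .nil)
noncomputable def n322 : Strat := .move 801 n100 (.cons 802 n321 .nil)
noncomputable def n323 : Strat := .move 800 n316 (.cons 755 n317 (.cons 801 n319 (.cons 756 n322 .nil)))
noncomputable def n324 : Strat := .move 797 n313 (.cons 796 n323 .nil)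
noncomputable def n325 : Strat := .win 802 0 757
noncomputable def n326 : Strat := .win 800 0 756
noncomputable def n327 : Strat := .win 754 0 754
noncomputable def n328 : Strat := .win 713 2 713
noncomputable def n329 : Strat := .move 714 n328 (.cons 713 n57 .nil)
noncomputable def n330 : Strat := .move 755 n327 (.cons 754 n329 .nil)
noncomputable def n331 : Strat := .move 756 n326 (.cons 800 n330 .nil)
noncomputable def n332 : Strat := .move 801 n325 (.cons 802 n331 .nil)
noncomputable def n333 : Strat := .move 760 n298 (.cons 761 n332 .nil)
noncomputable def n334 : Strat := .move 798 n314 (.cons 796 n315 (.cons 760 n324 (.cons 797 n333 .nil)))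
noncomputable def n335 : Strat := .move 759 n307 (.cons 881 n311 (.cons 677 n312 (.cons 718 n334 .nil)))
noncomputable def n336 : Strat := .move 757 n280 (.cons 881 n302 (.cons 717 n303 (.cons 675 n306 (.cons 716 n335 .nil))))
noncomputable def n337 : Strat := .move 880 n224 (.cons 717 n34 .nil)
noncomputable def n338 : Strat := .move 757 n46 (.cons 716 n317 .nil)
noncomputable def n339 : Strat := .move 800 n98 (.cons 922 n338 .nil)
noncomputable def n340 : Strat := .move 759 n9 (.cons 718 n339 .nil)
noncomputable def n341 : Strat := .move 839 n337 (.cons 880 n340 .nil)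
noncomputable def n342 : Strat := .move 800 n98 (.cons 922 n101 .nil)
noncomputable def n343 : Strat := .move 757 n46 (.cons 716 n342 .nil)
noncomputable def n344 : Strat := .move 759 n9 (.cons 718 n343 .nil)
noncomputable def n345 : Strat := .move 881 n341 (.cons 718 n241 (.cons 716 n97 (.cons 921 n344 .nil)))
noncomputable def n346 : Strat := .move 922 n10 (.cons 800 n18 .nil)
noncomputable def n347 : Strat := .move 759 n9 (.cons 718 n346 .nil)
noncomputable def n348 : Strat := .move 839 n226 (.cons 963 n270 .nil)
noncomputable def n349 : Strat := .move 798 n0 (.cons 757 n348 .nil)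
noncomputable def n350 : Strat := .move 922 n10 (.cons 800 n349 .nil)
noncomputable def n351 : Strat := .move 759 n9 (.cons 718 n350 .nil)
noncomputable def n352 : Strat := .move 718 n37 (.cons 677 n36 .nil)
noncomputable def n353 : Strat := .move 717 n35 (.cons 839 n352 .nil)
noncomputable def n354 : Strat := .move 880 n34 (.cons 921 n353 .nil)
noncomputable def n355 : Strat := .move 798 n0 (.cons 757 n1 .nil)
noncomputable def n356 : Strat := .move 963 n21 (.cons 1005 n355 .nil)
noncomputable def n357 : Strat := .move 964 n20 (.cons 923 n356 .nil)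
noncomputable def n358 : Strat := .move 922 n7 (.cons 962 n357 .nil)
noncomputable def n359 : Strat := .move 921 n8 (.cons 880 n358 .nil)
noncomputable def n360 : Strat := .move 881 n97 (.cons 880 n347 (.cons 921 n351 (.cons 718 n238 (.cons 922 n354 (.cons 759 n359 .nil)))))
noncomputable def n361 : Strat := .move 758 n162 (.cons 717 n179 (.cons 881 n208 (.cons 757 n216 (.cons 759 n217 (.cons 839 n223 (.cons 718 n276 (.cons 880 n336 (.cons 798 n345 (.cons 716 n360 .nil)))))))))
noncomputable def n362 : Strat := .move 922 n6 (.cons 798 n110 .nil)
noncomputable def n363 : Strat := .move 963 n3 (.cons 841 n355 .nil)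
noncomputable def n364 : Strat := .move 800 n2 (.cons 759 n363 .nil)
noncomputable def n365 : Strat := .move 839 n116 (.cons 802 n115 .nil)
noncomputable def n366 : Strat := .move 801 n365 (.cons 838 n122 (.cons 839 n132 .nil))
noncomputable def n367 : Strat := .move 798 n0 (.cons 757 n366 .nil)
noncomputable def n368 : Strat := .move 800 n2 (.cons 759 n367 .nil)
noncomputable def n369 : Strat := .move 922 n364 (.cons 800 n24 (.cons 839 n107 (.cons 963 n368 .nil)))
noncomputable def n370 : Strat := .win 715 7 715
noncomputable def n371 : Strat := .move 800 n48 (.cons 801 n47 .nil)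
noncomputable def n372 : Strat := .move 756 n370 (.cons 715 n371 .nil)
noncomputable def n373 : Strat := .move 798 n314 (.cons 797 n372 .nil)
noncomputable def n374 : Strat := .move 759 n9 (.cons 718 n373 .nil)
noncomputable def n375 : Strat := .move 757 n46 (.cons 716 n374 .nil)
noncomputable def n376 : Strat := .move 839 n224 (.cons 717 n375 .nil)
noncomputable def n377 : Strat := .move 880 n34 (.cons 921 n376 .nil)
noncomputable def n378 : Strat := .move 717 n35 (.cons 839 n37 .nil)
noncomputable def n379 : Strat := .move 718 n36 (.cons 759 n378 .nil)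
noncomputable def n380 : Strat := .move 880 n34 (.cons 921 n379 .nil)
noncomputable def n381 : Strat := .move 759 n314 (.cons 797 n372 .nil)
noncomputable def n382 : Strat := .win 920 1 756
noncomputable def n383 : Strat := .win 842 4 838
noncomputable def n384 : Strat := .win 878 5 837
noncomputable def n385 : Strat := .move 841 n383 (.cons 842 n384 .nil)
noncomputable def n386 : Strat := .move 879 n382 (.cons 920 n385 .nil)
noncomputable def n387 : Strat := .move 759 n314 (.cons 797 n386 .nil)
noncomputable def n388 : Strat := .move 841 n384 (.cons 878 n383 .nil)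
noncomputable def n389 : Strat := .move 879 n382 (.cons 920 n388 .nil)
noncomputable def n390 : Strat := .move 798 n381 (.cons 801 n387 (.cons 759 n389 .nil))
noncomputable def n391 : Strat := .move 757 n46 (.cons 716 n390 .nil)
noncomputable def n392 : Strat := .move 839 n224 (.cons 717 n391 .nil)
noncomputable def n393 : Strat := .move 880 n34 (.cons 921 n392 .nil)
noncomputable def n394 : Strat := .move 839 n314 (.cons 797 n372 .nil)
noncomputable def n395 : Strat := .win 839 7 715
noncomputable def n396 : Strat := .move 715 n395 (.cons 839 n169 .nil)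
noncomputable def n397 : Strat := .move 756 n326 (.cons 800 n396 .nil)
noncomputable def n398 : Strat := .move 801 n325 (.cons 802 n397 .nil)
noncomputable def n399 : Strat := .move 760 n298 (.cons 761 n398 .nil)
noncomputable def n400 : Strat := .move 839 n314 (.cons 797 n386 .nil)
noncomputable def n401 : Strat := .move 797 n313 (.cons 796 n168 .nil)
noncomputable def n402 : Strat := .move 756 n371 (.cons 755 n396 .nil)
noncomputable def n403 : Strat := .move 797 n313 (.cons 796 n402 .nil)
noncomputable def n404 : Strat := .move 798 n394 (.cons 797 n399 (.cons 801 n400 (.cons 839 n401 (.cons 760 n403 .nil))))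
noncomputable def n405 : Strat := .move 880 n34 (.cons 921 n404 .nil)
noncomputable def n406 : Strat := .move 757 n46 (.cons 716 n405 .nil)
noncomputable def n407 : Strat := .move 759 n9 (.cons 718 n406 .nil)
noncomputable def n408 : Strat := .move 760 n298 (.cons 761 n297 .nil)
noncomputable def n409 : Strat := .win 720 5 716
noncomputable def n410 : Strat := .win 841 1 677
noncomputable def n411 : Strat := .win 637 1 636
noncomputable def n412 : Strat := .move 678 n410 (.cons 841 n411 .nil)
noncomputable def n413 : Strat := .move 719 n409 (.cons 720 n412 .nil)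
noncomputable def n414 : Strat := .move 800 n99 (.cons 756 n413 .nil)
noncomputable def n415 : Strat := .move 801 n325 (.cons 802 n414 .nil)
noncomputable def n416 : Strat := .move 760 n298 (.cons 761 n415 .nil)
noncomputable def n417 : Strat := .move 842 n123 (.cons 843 n124 .nil)
noncomputable def n418 : Strat := .move 801 n100 (.cons 802 n417 .nil)
noncomputable def n419 : Strat := .move 756 n47 (.cons 755 n173 .nil)
noncomputable def n420 : Strat := .move 800 n316 (.cons 755 n101 (.cons 756 n418 (.cons 801 n419 .nil)))
noncomputable def n421 : Strat := .move 797 n313 (.cons 796 n420 .nil)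
noncomputable def n422 : Strat := .move 798 n401 (.cons 796 n408 (.cons 797 n416 (.cons 760 n421 .nil)))
noncomputable def n423 : Strat := .move 757 n46 (.cons 716 n422 .nil)
noncomputable def n424 : Strat := .move 759 n9 (.cons 718 n423 .nil)
noncomputable def n425 : Strat := .move 798 n382 (.cons 920 n388 .nil)
noncomputable def n426 : Strat := .win 841 5 837
noncomputable def n427 : Strat := .win 877 5 836
noncomputable def n428 : Strat := .move 878 n426 (.cons 841 n427 .nil)
noncomputable def n429 : Strat := .move 755 n327 (.cons 754 n50 .nil)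
noncomputable def n430 : Strat := .move 756 n370 (.cons 715 n429 .nil)
noncomputable def n431 : Strat := .move 841 n383 (.cons 842 n430 .nil)
noncomputable def n432 : Strat := .move 798 n382 (.cons 920 n431 .nil)
noncomputable def n433 : Strat := .move 798 n382 (.cons 920 n430 .nil)
noncomputable def n434 : Strat := .move 879 n425 (.cons 842 n428 (.cons 878 n432 (.cons 841 n433 .nil)))
noncomputable def n435 : Strat := .move 757 n46 (.cons 716 n434 .nil)
noncomputable def n436 : Strat := .move 839 n224 (.cons 717 n435 .nil)
noncomputable def n437 : Strat := .move 880 n34 (.cons 921 n436 .nil)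
noncomputable def n438 : Strat := .move 758 n377 (.cons 798 n380 (.cons 718 n393 (.cons 717 n407 (.cons 880 n424 (.cons 759 n437 (.cons 839 n70 .nil))))))
noncomputable def n439 : Strat := .move 757 n46 (.cons 716 n163 .nil)
noncomputable def n440 : Strat := .move 922 n10 (.cons 800 n439 .nil)
noncomputable def n441 : Strat := .move 759 n9 (.cons 718 n440 .nil)
noncomputable def n442 : Strat := .move 758 n441 (.cons 922 n70 (.cons 716 n97 (.cons 800 n167 .nil)))
noncomputable def n443 : Strat := .move 922 n110 (.cons 924 n73 (.cons 921 n107 .nil))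
noncomputable def n444 : Strat := .move 881 n362 (.cons 880 n369 (.cons 922 n438 (.cons 839 n442 (.cons 798 n443 (.cons 759 n33 .nil)))))
noncomputable def n445 : Strat := .move 922 n18 (.cons 798 n110 (.cons 921 n6 .nil))
noncomputable def n446 : Strat := .move 922 n18 (.cons 1003 n114 (.cons 798 n73 (.cons 963 n93 .nil)))
noncomputable def n447 : Strat := .move 922 n110 (.cons 924 n13 (.cons 921 n107 .nil))
noncomputable def n448 : Strat := .move 837 n127 (.cons 838 n126 .nil)
noncomputable def n449 : Strat := .move 796 n77 (.cons 841 n448 .nil)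
noncomputable def n450 : Strat := .move 843 n120 (.cons 844 n119 .nil)
noncomputable def n451 : Strat := .win 762 5 758
noncomputable def n452 : Strat := .move 761 n451 (.cons 762 n125 .nil)
noncomputable def n453 : Strat := .move 802 n450 (.cons 842 n452 .nil)
noncomputable def n454 : Strat := .move 755 n79 (.cons 756 n453 .nil)
noncomputable def n455 : Strat := .move 801 n320 (.cons 839 n454 .nil)
noncomputable def n456 : Strat := .move 838 n82 (.cons 837 n455 .nil)
noncomputable def n457 : Strat := .move 797 n76 (.cons 842 n449 (.cons 841 n456 .nil))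
noncomputable def n458 : Strat := .move 800 n2 (.cons 759 n457 .nil)
noncomputable def n459 : Strat := .move 798 n0 (.cons 757 n458 .nil)
noncomputable def n460 : Strat := .move 922 n6 (.cons 798 n73 (.cons 841 n18 (.cons 963 n459 .nil)))
noncomputable def n461 : Strat := .move 922 n6 (.cons 798 n107 (.cons 800 n24 (.cons 963 n459 .nil)))
noncomputable def n462 : Strat := .move 758 n8 (.cons 880 n439 .nil)
noncomputable def n463 : Strat := .move 921 n7 (.cons 962 n462 .nil)
noncomputable def n464 : Strat := .move 922 n463 (.cons 921 n459 (.cons 798 n13 .nil))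
noncomputable def n465 : Strat := .move 756 n47 (.cons 755 n175 .nil)
noncomputable def n466 : Strat := .move 842 n124 (.cons 841 n123 .nil)
noncomputable def n467 : Strat := .move 797 n313 (.cons 796 n466 .nil)
noncomputable def n468 : Strat := .move 760 n298 (.cons 761 n413 .nil)
noncomputable def n469 : Strat := .move 798 n315 (.cons 761 n314 (.cons 760 n467 (.cons 797 n468 .nil)))
noncomputable def n470 : Strat := .move 801 n100 (.cons 802 n469 .nil)
noncomputable def n471 : Strat := .move 800 n317 (.cons 802 n316 (.cons 801 n465 (.cons 756 n470 .nil)))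
noncomputable def n472 : Strat := .move 759 n9 (.cons 718 n471 .nil)
noncomputable def n473 : Strat := .move 757 n46 (.cons 716 n472 .nil)
noncomputable def n474 : Strat := .win 843 4 839
noncomputable def n475 : Strat := .win 879 4 838
noncomputable def n476 : Strat := .move 842 n474 (.cons 843 n475 .nil)
noncomputable def n477 : Strat := .win 757 4 756
noncomputable def n478 : Strat := .move 760 n477 (.cons 757 n298 .nil)
noncomputable def n479 : Strat := .move 797 n74 (.cons 796 n478 .nil)
noncomputable def n480 : Strat := .win 800 5 796
noncomputable def n481 : Strat := .win 836 0 836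
noncomputable def n482 : Strat := .move 837 n480 (.cons 800 n481 .nil)
noncomputable def n483 : Strat := .move 800 n83 (.cons 801 n232 .nil)
noncomputable def n484 : Strat := .win 961 3 797
noncomputable def n485 : Strat := .win 757 1 756
noncomputable def n486 : Strat := .move 920 n484 (.cons 961 n485 .nil)
noncomputable def n487 : Strat := .move 838 n482 (.cons 836 n483 (.cons 800 n486 .nil))
noncomputable def n488 : Strat := .win 800 5 756
noncomputable def n489 : Strat := .move 760 n488 (.cons 800 n298 .nil)
noncomputable def n490 : Strat := .move 797 n74 (.cons 796 n489 .nil)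
noncomputable def n491 : Strat := .move 798 n479 (.cons 797 n487 (.cons 757 n490 .nil))
noncomputable def n492 : Strat := .move 879 n384 (.cons 878 n491 .nil)
noncomputable def n493 : Strat := .win 798 2 797
noncomputable def n494 : Strat := .win 796 2 796
noncomputable def n495 : Strat := .move 838 n494 (.cons 796 n482 .nil)
noncomputable def n496 : Strat := .move 797 n493 (.cons 798 n495 .nil)
noncomputable def n497 : Strat := .move 842 n474 (.cons 843 n496 .nil)
noncomputable def n498 : Strat := .move 841 n476 (.cons 842 n492 (.cons 879 n497 .nil))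
noncomputable def n499 : Strat := .move 759 n9 (.cons 718 n498 .nil)
noncomputable def n500 : Strat := .move 839 n224 (.cons 717 n499 .nil)
noncomputable def n501 : Strat := .move 880 n34 (.cons 921 n500 .nil)
noncomputable def n502 : Strat := .win 841 6 676
noncomputable def n503 : Strat := .win 635 6 635
noncomputable def n504 : Strat := .move 800 n502 (.cons 841 n503 .nil)
noncomputable def n505 : Strat := .move 676 n181 (.cons 634 n504 .nil)
noncomputable def n506 : Strat := .move 675 n180 (.cons 716 n505 .nil)
noncomputable def n507 : Strat := .move 759 n9 (.cons 718 n506 .nil)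
noncomputable def n508 : Strat := .move 717 n35 (.cons 839 n507 .nil)
noncomputable def n509 : Strat := .move 880 n34 (.cons 921 n508 .nil)
noncomputable def n510 : Strat := .move 758 n377 (.cons 880 n473 (.cons 716 n501 (.cons 839 n222 (.cons 798 n45 (.cons 757 n509 .nil)))))
noncomputable def n511 : Strat := .move 881 n445 (.cons 758 n446 (.cons 798 n447 (.cons 880 n460 (.cons 921 n461 (.cons 759 n33 (.cons 963 n464 (.cons 922 n510 .nil)))))))
noncomputable def n512 : Strat := .win 963 3 799
noncomputable def n513 : Strat := .win 797 0 797
noncomputable def n514 : Strat := .win 843 2 798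
noncomputable def n515 : Strat := .move 842 n513 (.cons 797 n514 .nil)
noncomputable def n516 : Strat := .move 798 n0 (.cons 757 n515 .nil)
noncomputable def n517 : Strat := .move 841 n512 (.cons 963 n516 .nil)
noncomputable def n518 : Strat := .move 800 n2 (.cons 759 n517 .nil)
noncomputable def n519 : Strat := .move 922 n364 (.cons 839 n518 (.cons 841 n463 (.cons 798 n13 .nil)))
noncomputable def n520 : Strat := .move 802 n118 (.cons 839 n450 .nil)
noncomputable def n521 : Strat := .win 803 4 799
noncomputable def n522 : Strat := .move 841 n521 (.cons 803 n513 .nil)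
noncomputable def n523 : Strat := .move 802 n522 (.cons 797 n452 .nil)
noncomputable def n524 : Strat := .move 842 n123 (.cons 843 n523 .nil)
noncomputable def n525 : Strat := .move 797 n82 (.cons 837 n417 .nil)
noncomputable def n526 : Strat := .move 838 n320 (.cons 839 n525 .nil)
noncomputable def n527 : Strat := .move 801 n117 (.cons 838 n520 (.cons 839 n524 (.cons 802 n526 .nil)))
noncomputable def n528 : Strat := .move 923 n25 (.cons 964 n527 .nil)
noncomputable def n529 : Strat := .move 921 n7 (.cons 962 n528 .nil)
noncomputable def n530 : Strat := .move 800 n2 (.cons 759 n529 .nil)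
noncomputable def n531 : Strat := .move 798 n0 (.cons 757 n530 .nil)
noncomputable def n532 : Strat := .move 922 n364 (.cons 798 n73 (.cons 841 n18 (.cons 963 n531 .nil)))
noncomputable def n533 : Strat := .move 717 n37 (.cons 677 n43 .nil)
noncomputable def n534 : Strat := .move 718 n36 (.cons 759 n533 .nil)
noncomputable def n535 : Strat := .move 758 n441 (.cons 718 n167 (.cons 716 n97 (.cons 922 n534 .nil)))
noncomputable def n536 : Strat := .move 758 n97 (.cons 759 n45 (.cons 921 n104 .nil))
noncomputable def n537 : Strat := .move 922 n73 (.cons 1003 n107 (.cons 841 n110 .nil))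
noncomputable def n538 : Strat := .move 758 n46 (.cons 716 n11 .nil)
noncomputable def n539 : Strat := .move 757 n163 (.cons 798 n538 .nil)
noncomputable def n540 : Strat := .move 922 n364 (.cons 759 n24 (.cons 963 n539 (.cons 798 n107 .nil)))
noncomputable def n541 : Strat := .win 762 4 758
noncomputable def n542 : Strat := .move 761 n541 (.cons 762 n286 .nil)
noncomputable def n543 : Strat := .move 800 n99 (.cons 756 n542 .nil)
noncomputable def n544 : Strat := .move 801 n325 (.cons 802 n543 .nil)
noncomputable def n545 : Strat := .move 760 n299 (.cons 797 n544 (.cons 798 n415 .nil))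
noncomputable def n546 : Strat := .move 880 n34 (.cons 921 n545 .nil)
noncomputable def n547 : Strat := .move 759 n9 (.cons 718 n546 .nil)
noncomputable def n548 : Strat := .move 757 n46 (.cons 716 n547 .nil)
noncomputable def n549 : Strat := .move 758 n40 (.cons 759 n45 (.cons 839 n534 (.cons 717 n548 .nil)))
noncomputable def n550 : Strat := .move 881 n519 (.cons 758 n532 (.cons 839 n535 (.cons 798 n536 (.cons 757 n537 (.cons 759 n33 (.cons 921 n540 (.cons 922 n549 .nil)))))))
noncomputable def n551 : Strat := .move 922 n18 (.cons 921 n6 (.cons 839 n13 .nil))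
noncomputable def n552 : Strat := .win 880 6 715
noncomputable def n553 : Strat := .win 674 6 674
noncomputable def n554 : Strat := .move 715 n552 (.cons 880 n553 .nil)
noncomputable def n555 : Strat := .move 756 n85 (.cons 755 n554 .nil)
noncomputable def n556 : Strat := .move 839 n83 (.cons 801 n555 .nil)
noncomputable def n557 : Strat := .move 838 n82 (.cons 837 n556 .nil)
noncomputable def n558 : Strat := .move 797 n76 (.cons 841 n557 .nil)
noncomputable def n559 : Strat := .move 800 n2 (.cons 759 n558 .nil)
noncomputable def n560 : Strat := .move 798 n0 (.cons 757 n559 .nil)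
noncomputable def n561 : Strat := .move 922 n6 (.cons 841 n24 (.cons 798 n107 (.cons 963 n560 .nil)))
noncomputable def n562 : Strat := .move 798 n168 (.cons 760 n330 .nil)
noncomputable def n563 : Strat := .move 797 n55 (.cons 796 n562 .nil)
noncomputable def n564 : Strat := .move 761 n61 (.cons 721 n541 .nil)
noncomputable def n565 : Strat := .move 720 n62 (.cons 719 n564 .nil)
noncomputable def n566 : Strat := .move 800 n48 (.cons 801 n565 .nil)
noncomputable def n567 : Strat := .move 760 n56 (.cons 798 n566 .nil)
noncomputable def n568 : Strat := .move 797 n55 (.cons 796 n567 .nil)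
noncomputable def n569 : Strat := .move 756 n49 (.cons 800 n563 (.cons 755 n568 .nil))
noncomputable def n570 : Strat := .move 757 n46 (.cons 716 n569 .nil)
noncomputable def n571 : Strat := .move 759 n9 (.cons 718 n570 .nil)
noncomputable def n572 : Strat := .move 758 n441 (.cons 759 n167 (.cons 716 n97 (.cons 922 n571 .nil)))
noncomputable def n573 : Strat := .move 759 n9 (.cons 718 n314 .nil)
noncomputable def n574 : Strat := .move 798 n257 (.cons 922 n573 .nil)
noncomputable def n575 : Strat := .move 757 n46 (.cons 716 n574 .nil)
noncomputable def n576 : Strat := .move 758 n45 (.cons 757 n40 (.cons 717 n167 (.cons 921 n575 .nil)))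
noncomputable def n577 : Strat := .move 758 n40 (.cons 839 n571 (.cons 718 n45 .nil))
noncomputable def n578 : Strat := .move 922 n13 (.cons 921 n107 (.cons 759 n110 .nil))
noncomputable def n579 : Strat := .win 795 0 795
noncomputable def n580 : Strat := .move 839 n579 (.cons 795 n83 .nil)
noncomputable def n581 : Strat := .move 796 n78 (.cons 754 n580 .nil)
noncomputable def n582 : Strat := .move 755 n79 (.cons 756 n581 .nil)
noncomputable def n583 : Strat := .move 838 n82 (.cons 837 n582 .nil)
noncomputable def n584 : Strat := .move 801 n123 (.cons 843 n320 .nil)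
noncomputable def n585 : Strat := .move 838 n82 (.cons 837 n584 .nil)
noncomputable def n586 : Strat := .move 842 n124 (.cons 841 n585 .nil)
noncomputable def n587 : Strat := .move 797 n76 (.cons 842 n449 (.cons 841 n583 (.cons 796 n586 .nil)))
noncomputable def n588 : Strat := .move 800 n2 (.cons 759 n587 .nil)
noncomputable def n589 : Strat := .move 798 n0 (.cons 757 n588 .nil)
noncomputable def n590 : Strat := .move 922 n6 (.cons 800 n18 (.cons 839 n73 (.cons 963 n589 .nil)))
noncomputable def n591 : Strat := .move 881 n551 (.cons 921 n561 (.cons 839 n572 (.cons 800 n576 (.cons 922 n577 (.cons 759 n33 (.cons 798 n578 (.cons 880 n590 .nil)))))))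
noncomputable def n592 : Strat := .move 922 n18 (.cons 798 n13 (.cons 962 n114 .nil))
noncomputable def n593 : Strat := .move 922 n163 (.cons 798 n73 .nil)
noncomputable def n594 : Strat := .move 757 n46 (.cons 716 n593 .nil)
noncomputable def n595 : Strat := .move 759 n98 (.cons 922 n503 .nil)
noncomputable def n596 : Strat := .move 800 n502 (.cons 841 n595 .nil)
noncomputable def n597 : Strat := .move 676 n181 (.cons 634 n596 .nil)
noncomputable def n598 : Strat := .move 675 n180 (.cons 716 n597 .nil)
noncomputable def n599 : Strat := .move 717 n35 (.cons 839 n598 .nil)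
noncomputable def n600 : Strat := .move 880 n34 (.cons 921 n599 .nil)
noncomputable def n601 : Strat := .move 963 n229 (.cons 1004 n4 .nil)
noncomputable def n602 : Strat := .move 801 n116 (.cons 802 n115 .nil)
noncomputable def n603 : Strat := .move 800 n2 (.cons 759 n602 .nil)
noncomputable def n604 : Strat := .move 798 n225 (.cons 757 n603 .nil)
noncomputable def n605 : Strat := .move 922 n227 (.cons 798 n601 (.cons 963 n604 .nil))
noncomputable def n606 : Strat := .move 839 n224 (.cons 717 n605 .nil)
noncomputable def n607 : Strat := .move 880 n34 (.cons 921 n606 .nil)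
noncomputable def n608 : Strat := .move 796 n77 (.cons 841 n263 .nil)
noncomputable def n609 : Strat := .move 759 n168 (.cons 760 n313 .nil)
noncomputable def n610 : Strat := .win 759 4 756
noncomputable def n611 : Strat := .win 761 5 757
noncomputable def n612 : Strat := .move 801 n100 (.cons 802 n611 .nil)
noncomputable def n613 : Strat := .move 760 n610 (.cons 759 n612 .nil)
noncomputable def n614 : Strat := .move 756 n47 (.cons 755 n267 .nil)
noncomputable def n615 : Strat := .move 800 n261 (.cons 755 n259 (.cons 756 n613 (.cons 801 n614 .nil)))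
noncomputable def n616 : Strat := .move 797 n608 (.cons 795 n609 (.cons 796 n615 .nil))
noncomputable def n617 : Strat := .move 798 n257 (.cons 922 n616 .nil)
noncomputable def n618 : Strat := .move 757 n46 (.cons 716 n617 .nil)
noncomputable def n619 : Strat := .move 758 n167 (.cons 880 n594 (.cons 798 n45 (.cons 757 n600 (.cons 716 n607 (.cons 921 n618 .nil)))))
noncomputable def n620 : Strat := .move 798 n257 (.cons 922 n314 .nil)
noncomputable def n621 : Strat := .move 759 n9 (.cons 718 n620 .nil)
noncomputable def n622 : Strat := .move 757 n46 (.cons 716 n621 .nil)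
noncomputable def n623 : Strat := .move 800 n47 (.cons 755 n260 .nil)
noncomputable def n624 : Strat := .move 756 n370 (.cons 715 n623 .nil)
noncomputable def n625 : Strat := .move 839 n224 (.cons 717 n624 .nil)
noncomputable def n626 : Strat := .move 880 n34 (.cons 921 n625 .nil)
noncomputable def n627 : Strat := .move 798 n257 (.cons 922 n626 .nil)
noncomputable def n628 : Strat := .move 757 n46 (.cons 716 n627 .nil)
noncomputable def n629 : Strat := .move 758 n622 (.cons 796 n220 (.cons 716 n97 (.cons 922 n40 (.cons 759 n628 .nil))))
noncomputable def n630 : Strat := .move 922 n18 (.cons 798 n110 (.cons 921 n24 .nil))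
noncomputable def n631 : Strat := .move 802 n521 (.cons 803 n452 .nil)
noncomputable def n632 : Strat := .move 841 n513 (.cons 797 n631 .nil)
noncomputable def n633 : Strat := .move 842 n123 (.cons 843 n632 .nil)
noncomputable def n634 : Strat := .move 758 n224 (.cons 717 n34 .nil)
noncomputable def n635 : Strat := .move 880 n475 (.cons 879 n634 .nil)
noncomputable def n636 : Strat := .move 839 n115 (.cons 838 n635 .nil)
noncomputable def n637 : Strat := .move 841 n513 (.cons 797 n636 .nil)
noncomputable def n638 : Strat := .move 842 n123 (.cons 843 n637 .nil)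
noncomputable def n639 : Strat := .move 801 n117 (.cons 838 n122 (.cons 839 n633 (.cons 802 n638 .nil)))
noncomputable def n640 : Strat := .move 800 n2 (.cons 759 n639 .nil)
noncomputable def n641 : Strat := .move 798 n0 (.cons 757 n640 .nil)
noncomputable def n642 : Strat := .move 922 n114 (.cons 798 n107 (.cons 759 n24 (.cons 963 n641 .nil)))
noncomputable def n643 : Strat := .move 759 n9 (.cons 718 n338 .nil)
noncomputable def n644 : Strat := .move 676 n502 (.cons 841 n503 .nil)
noncomputable def n645 : Strat := .move 717 n35 (.cons 839 n644 .nil)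
noncomputable def n646 : Strat := .move 880 n34 (.cons 921 n645 .nil)
noncomputable def n647 : Strat := .move 759 n9 (.cons 718 n646 .nil)
noncomputable def n648 : Strat := .move 880 n34 (.cons 921 n224 .nil)
noncomputable def n649 : Strat := .move 839 n115 (.cons 838 n648 .nil)
noncomputable def n650 : Strat := .move 798 n258 (.cons 756 n649 .nil)
noncomputable def n651 : Strat := .move 801 n100 (.cons 802 n650 .nil)
noncomputable def n652 : Strat := .move 757 n46 (.cons 716 n651 .nil)
noncomputable def n653 : Strat := .move 800 n643 (.cons 757 n647 (.cons 759 n652 .nil))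
noncomputable def n654 : Strat := .move 798 n401 (.cons 796 n408 (.cons 760 n421 (.cons 797 n416 .nil)))
noncomputable def n655 : Strat := .move 757 n46 (.cons 716 n654 .nil)
noncomputable def n656 : Strat := .move 759 n9 (.cons 718 n655 .nil)
noncomputable def n657 : Strat := .move 758 n653 (.cons 880 n656 (.cons 759 n45 (.cons 716 n40 (.cons 839 n70 .nil))))
noncomputable def n658 : Strat := .move 841 n75 (.cons 842 n74 .nil)
noncomputable def n659 : Strat := .move 796 n579 (.cons 795 n77 .nil)
noncomputable def n660 : Strat := .move 797 n658 (.cons 796 n417 (.cons 842 n659 (.cons 841 n86 .nil)))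
noncomputable def n661 : Strat := .move 839 n115 (.cons 838 n660 .nil)
noncomputable def n662 : Strat := .move 801 n117 (.cons 838 n520 (.cons 839 n524 (.cons 802 n661 .nil)))
noncomputable def n663 : Strat := .move 923 n25 (.cons 964 n662 .nil)
noncomputable def n664 : Strat := .move 921 n7 (.cons 962 n663 .nil)
noncomputable def n665 : Strat := .move 800 n2 (.cons 759 n664 .nil)
noncomputable def n666 : Strat := .move 798 n0 (.cons 757 n665 .nil)
noncomputable def n667 : Strat := .move 922 n18 (.cons 962 n114 (.cons 839 n73 (.cons 963 n666 .nil)))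
noncomputable def n668 : Strat := .move 796 n78 (.cons 754 n579 .nil)
noncomputable def n669 : Strat := .move 755 n79 (.cons 756 n668 .nil)
noncomputable def n670 : Strat := .move 839 n115 (.cons 838 n669 .nil)
noncomputable def n671 : Strat := .move 797 n124 (.cons 841 n670 .nil)
noncomputable def n672 : Strat := .move 842 n123 (.cons 843 n671 .nil)
noncomputable def n673 : Strat := .move 801 n117 (.cons 839 n633 (.cons 802 n672 .nil))
noncomputable def n674 : Strat := .move 800 n2 (.cons 759 n673 .nil)
noncomputable def n675 : Strat := .move 798 n0 (.cons 757 n674 .nil)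
noncomputable def n676 : Strat := .move 922 n6 (.cons 798 n107 (.cons 759 n24 (.cons 963 n675 .nil)))
noncomputable def n677 : Strat := .move 881 n592 (.cons 798 n578 (.cons 718 n619 (.cons 963 n629 (.cons 759 n630 (.cons 962 n642 (.cons 922 n657 (.cons 758 n667 (.cons 921 n676 .nil))))))))
noncomputable def n678 : Strat := .move 758 n9 (.cons 718 n95 .nil)
noncomputable def n679 : Strat := .move 759 n10 (.cons 800 n678 .nil)
noncomputable def n680 : Strat := .move 922 n18 (.cons 839 n679 (.cons 921 n6 .nil))
noncomputable def n681 : Strat := .move 758 n40 (.cons 759 n45 (.cons 717 n97 (.cons 921 n104 .nil)))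
noncomputable def n682 : Strat := .move 922 n163 (.cons 798 n107 .nil)
noncomputable def n683 : Strat := .move 757 n46 (.cons 716 n682 .nil)
noncomputable def n684 : Strat := .move 963 n21 (.cons 1005 n16 .nil)
noncomputable def n685 : Strat := .move 964 n20 (.cons 923 n684 .nil)
noncomputable def n686 : Strat := .move 922 n10 (.cons 800 n685 .nil)
noncomputable def n687 : Strat := .move 759 n9 (.cons 718 n686 .nil)
noncomputable def n688 : Strat := .move 922 n163 (.cons 798 n685 .nil)
noncomputable def n689 : Strat := .move 757 n46 (.cons 716 n688 .nil)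
noncomputable def n690 : Strat := .move 758 n165 (.cons 718 n683 (.cons 922 n534 (.cons 757 n687 (.cons 759 n689 .nil))))
noncomputable def n691 : Strat := .move 758 n628 (.cons 757 n40 (.cons 880 n220 .nil))
noncomputable def n692 : Strat := .move 922 n18 (.cons 798 n73 (.cons 1003 n114 (.cons 963 n93 .nil)))
noncomputable def n693 : Strat := .move 922 n6 (.cons 798 n107 (.cons 800 n24 (.cons 963 n560 .nil)))
noncomputable def n694 : Strat := .win 838 6 715
noncomputable def n695 : Strat := .win 798 7 715
noncomputable def n696 : Strat := .move 839 n694 (.cons 838 n695 .nil)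
noncomputable def n697 : Strat := .move 715 n169 (.cons 714 n696 .nil)
noncomputable def n698 : Strat := .move 797 n55 (.cons 796 n697 .nil)
noncomputable def n699 : Strat := .move 800 n48 (.cons 801 n698 .nil)
noncomputable def n700 : Strat := .move 755 n52 (.cons 795 n329 .nil)
noncomputable def n701 : Strat := .move 796 n51 (.cons 797 n700 .nil)
noncomputable def n702 : Strat := .move 756 n49 (.cons 755 n699 (.cons 800 n701 .nil))
noncomputable def n703 : Strat := .move 880 n34 (.cons 921 n702 .nil)
noncomputable def n704 : Strat := .move 759 n9 (.cons 718 n703 .nil)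
noncomputable def n705 : Strat := .move 757 n46 (.cons 716 n704 .nil)
noncomputable def n706 : Strat := .move 758 n40 (.cons 880 n534 (.cons 717 n705 (.cons 759 n45 .nil)))
noncomputable def n707 : Strat := .move 881 n680 (.cons 798 n681 (.cons 880 n690 (.cons 759 n33 (.cons 757 n443 (.cons 962 n691 (.cons 758 n692 (.cons 921 n693 (.cons 922 n706 .nil))))))))
noncomputable def n708 : Strat := .move 757 n138 (.cons 881 n141 .nil)
noncomputable def n709 : Strat := .move 718 n37 (.cons 677 n708 .nil)
noncomputable def n710 : Strat := .move 716 n42 (.cons 675 n709 .nil)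
noncomputable def n711 : Strat := .move 717 n710 (.cons 719 n151 (.cons 718 n184 .nil))
noncomputable def n712 : Strat := .move 715 n154 (.cons 714 n185 .nil)
noncomputable def n713 : Strat := .move 676 n503 (.cons 635 n502 .nil)
noncomputable def n714 : Strat := .move 800 n48 (.cons 801 n713 .nil)
noncomputable def n715 : Strat := .move 757 n139 (.cons 719 n714 .nil)
noncomputable def n716 : Strat := .move 756 n192 (.cons 755 n715 .nil)
noncomputable def n717 : Strat := .move 715 n154 (.cons 714 n716 .nil)
noncomputable def n718 : Strat := .win 720 4 716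
noncomputable def n719 : Strat := .win 756 4 715
noncomputable def n720 : Strat := .move 719 n718 (.cons 720 n719 .nil)
noncomputable def n721 : Strat := .move 756 n140 (.cons 755 n139 .nil)
noncomputable def n722 : Strat := .win 635 1 634
noncomputable def n723 : Strat := .win 839 1 675
noncomputable def n724 : Strat := .move 676 n722 (.cons 635 n723 .nil)
noncomputable def n725 : Strat := .move 798 n297 (.cons 797 n724 .nil)
noncomputable def n726 : Strat := .move 757 n720 (.cons 720 n721 (.cons 719 n725 .nil))
noncomputable def n727 : Strat := .move 760 n211 (.cons 761 n726 .nil)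
noncomputable def n728 : Strat := .move 759 n212 (.cons 761 n712 (.cons 760 n717 (.cons 715 n727 .nil)))
noncomputable def n729 : Strat := .move 716 n42 (.cons 675 n728 .nil)
noncomputable def n730 : Strat := .move 718 n37 (.cons 677 n729 .nil)
noncomputable def n731 : Strat := .win 761 0 716
noncomputable def n732 : Strat := .win 759 0 715
noncomputable def n733 : Strat := .win 798 7 674
noncomputable def n734 : Strat := .win 673 2 673
noncomputable def n735 : Strat := .move 674 n733 (.cons 798 n734 .nil)
noncomputable def n736 : Strat := .move 715 n732 (.cons 759 n735 .nil)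
noncomputable def n737 : Strat := .move 760 n731 (.cons 761 n736 .nil)
noncomputable def n738 : Strat := .move 719 n718 (.cons 720 n737 .nil)
noncomputable def n739 : Strat := .move 715 n185 (.cons 760 n154 .nil)
noncomputable def n740 : Strat := .move 715 n154 (.cons 714 n735 .nil)
noncomputable def n741 : Strat := .move 801 n325 (.cons 802 n326 .nil)
noncomputable def n742 : Strat := .move 760 n211 (.cons 761 n741 .nil)
noncomputable def n743 : Strat := .move 759 n739 (.cons 714 n212 (.cons 760 n740 (.cons 715 n742 .nil)))
noncomputable def n744 : Strat := .move 756 n140 (.cons 755 n743 .nil)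
noncomputable def n745 : Strat := .move 757 n141 (.cons 756 n738 (.cons 719 n744 .nil))
noncomputable def n746 : Strat := .move 839 n145 (.cons 880 n745 .nil)
noncomputable def n747 : Strat := .move 718 n37 (.cons 677 n746 .nil)
noncomputable def n748 : Strat := .move 716 n42 (.cons 675 n747 .nil)
noncomputable def n749 : Strat := .move 801 n326 (.cons 800 n325 .nil)
noncomputable def n750 : Strat := .move 756 n140 (.cons 755 n749 .nil)
noncomputable def n751 : Strat := .win 679 5 675
noncomputable def n752 : Strat := .win 800 1 636
noncomputable def n753 : Strat := .win 596 1 595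
noncomputable def n754 : Strat := .move 637 n752 (.cons 800 n753 .nil)
noncomputable def n755 : Strat := .move 678 n751 (.cons 679 n754 .nil)
noncomputable def n756 : Strat := .move 719 n718 (.cons 720 n755 .nil)
noncomputable def n757 : Strat := .move 757 n720 (.cons 720 n721 (.cons 719 n750 (.cons 756 n756 .nil)))
noncomputable def n758 : Strat := .move 760 n211 (.cons 761 n757 .nil)
noncomputable def n759 : Strat := .move 759 n212 (.cons 761 n712 (.cons 760 n717 (.cons 715 n758 .nil)))
noncomputable def n760 : Strat := .move 716 n42 (.cons 675 n759 .nil)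
noncomputable def n761 : Strat := .move 718 n37 (.cons 677 n760 .nil)
noncomputable def n762 : Strat := .move 717 n151 (.cons 880 n730 (.cons 718 n184 (.cons 676 n748 (.cons 839 n761 .nil))))
noncomputable def n763 : Strat := .move 717 n151 (.cons 636 n184 (.cons 798 n215 .nil))
noncomputable def n764 : Strat := .move 759 n209 (.cons 881 n212 .nil)
noncomputable def n765 : Strat := .move 716 n42 (.cons 675 n764 .nil)
noncomputable def n766 : Strat := .move 718 n37 (.cons 677 n765 .nil)
noncomputable def n767 : Strat := .win 594 6 594
noncomputable def n768 : Strat := .win 800 6 635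
noncomputable def n769 : Strat := .move 635 n767 (.cons 594 n768 .nil)
noncomputable def n770 : Strat := .move 676 n504 (.cons 841 n769 (.cons 800 n182 .nil))
noncomputable def n771 : Strat := .move 759 n209 (.cons 881 n770 .nil)
noncomputable def n772 : Strat := .move 718 n37 (.cons 677 n771 .nil)
noncomputable def n773 : Strat := .move 798 n723 (.cons 839 n722 .nil)
noncomputable def n774 : Strat := .win 594 1 593
noncomputable def n775 : Strat := .win 798 1 634
noncomputable def n776 : Strat := .move 635 n774 (.cons 594 n775 .nil)
noncomputable def n777 : Strat := .win 759 6 635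
noncomputable def n778 : Strat := .move 635 n774 (.cons 594 n777 .nil)
noncomputable def n779 : Strat := .move 800 n502 (.cons 841 n778 .nil)
noncomputable def n780 : Strat := .move 800 n502 (.cons 841 n261 .nil)
noncomputable def n781 : Strat := .move 798 n723 (.cons 839 n780 .nil)
noncomputable def n782 : Strat := .move 676 n773 (.cons 839 n776 (.cons 798 n779 (.cons 635 n781 .nil)))
noncomputable def n783 : Strat := .move 757 n138 (.cons 881 n782 .nil)
noncomputable def n784 : Strat := .move 716 n42 (.cons 675 n783 .nil)
noncomputable def n785 : Strat := .win 757 1 634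
noncomputable def n786 : Strat := .move 635 n767 (.cons 594 n785 .nil)
noncomputable def n787 : Strat := .move 798 n723 (.cons 839 n786 .nil)
noncomputable def n788 : Strat := .win 797 5 756
noncomputable def n789 : Strat := .move 760 n298 (.cons 761 n788 .nil)
noncomputable def n790 : Strat := .move 798 n723 (.cons 839 n789 .nil)
noncomputable def n791 : Strat := .move 800 n502 (.cons 841 n790 .nil)
noncomputable def n792 : Strat := .move 676 n504 (.cons 841 n769 (.cons 800 n787 (.cons 635 n791 .nil)))
noncomputable def n793 : Strat := .move 759 n209 (.cons 881 n792 .nil)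
noncomputable def n794 : Strat := .move 718 n37 (.cons 677 n793 .nil)
noncomputable def n795 : Strat := .move 717 n766 (.cons 715 n772 (.cons 718 n784 (.cons 716 n794 (.cons 759 n144 (.cons 881 n730 .nil)))))
noncomputable def n796 : Strat := .move 881 n220 (.cons 757 n97 (.cons 759 n167 (.cons 922 n377 .nil)))
noncomputable def n797 : Strat := .move 800 n316 (.cons 755 n317 (.cons 756 n418 (.cons 801 n419 .nil)))
noncomputable def n798 : Strat := .move 797 n313 (.cons 796 n797 .nil)
noncomputable def n799 : Strat := .move 798 n314 (.cons 796 n315 (.cons 760 n798 (.cons 797 n416 .nil)))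
noncomputable def n800 : Strat := .move 759 n9 (.cons 718 n799 .nil)
noncomputable def n801 : Strat := .move 757 n46 (.cons 716 n800 .nil)
noncomputable def n802 : Strat := .move 881 n220 (.cons 757 n97 (.cons 759 n167 (.cons 922 n801 .nil)))
noncomputable def n803 : Strat := .move 881 n104 (.cons 756 n97 (.cons 759 n241 .nil))
noncomputable def n804 : Strat := .move 757 n46 (.cons 716 n218 .nil)
noncomputable def n805 : Strat := .move 759 n9 (.cons 718 n804 .nil)
noncomputable def n806 : Strat := .move 881 n805 (.cons 759 n167 (.cons 798 n97 (.cons 922 n70 .nil)))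
noncomputable def n807 : Strat := .move 760 n211 (.cons 761 n284 .nil)
noncomputable def n808 : Strat := .move 715 n154 (.cons 714 n155 .nil)
noncomputable def n809 : Strat := .win 754 5 713
noncomputable def n810 : Strat := .move 755 n50 (.cons 800 n809 .nil)
noncomputable def n811 : Strat := .move 796 n52 (.cons 795 n51 .nil)
noncomputable def n812 : Strat := .move 755 n809 (.cons 754 n811 .nil)
noncomputable def n813 : Strat := .move 756 n49 (.cons 801 n810 (.cons 800 n812 (.cons 755 n714 .nil)))
noncomputable def n814 : Strat := .move 715 n154 (.cons 714 n813 .nil)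
noncomputable def n815 : Strat := .move 756 n48 (.cons 801 n47 .nil)
noncomputable def n816 : Strat := .move 800 n502 (.cons 841 n815 .nil)
noncomputable def n817 : Strat := .move 676 n722 (.cons 635 n816 .nil)
noncomputable def n818 : Strat := .move 798 n297 (.cons 797 n817 .nil)
noncomputable def n819 : Strat := .move 760 n211 (.cons 761 n818 .nil)
noncomputable def n820 : Strat := .move 759 n807 (.cons 761 n808 (.cons 760 n814 (.cons 715 n819 .nil)))
noncomputable def n821 : Strat := .move 757 n138 (.cons 881 n820 .nil)
noncomputable def n822 : Strat := .move 716 n42 (.cons 675 n821 .nil)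
noncomputable def n823 : Strat := .win 842 2 797
noncomputable def n824 : Strat := .move 797 n74 (.cons 796 n823 .nil)
noncomputable def n825 : Strat := .win 879 1 715
noncomputable def n826 : Strat := .move 838 n825 (.cons 879 n483 .nil)
noncomputable def n827 : Strat := .move 841 n824 (.cons 797 n826 .nil)
noncomputable def n828 : Strat := .win 713 0 713
noncomputable def n829 : Strat := .move 714 n828 (.cons 713 n187 .nil)
noncomputable def n830 : Strat := .move 715 n153 (.cons 674 n829 .nil)
noncomputable def n831 : Strat := .move 841 n824 (.cons 797 n830 .nil)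
noncomputable def n832 : Strat := .move 798 n827 (.cons 801 n831 (.cons 841 n157 .nil))
noncomputable def n833 : Strat := .move 839 n145 (.cons 880 n832 .nil)
noncomputable def n834 : Strat := .move 757 n138 (.cons 881 n833 .nil)
noncomputable def n835 : Strat := .move 716 n42 (.cons 675 n834 .nil)
noncomputable def n836 : Strat := .win 759 0 756
noncomputable def n837 : Strat := .move 756 n47 (.cons 755 n836 .nil)
noncomputable def n838 : Strat := .move 801 n100 (.cons 802 n837 .nil)
noncomputable def n839 : Strat := .move 676 n502 (.cons 841 n778 .nil)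
noncomputable def n840 : Strat := .win 841 5 797
noncomputable def n841 : Strat := .move 838 n232 (.cons 837 n840 .nil)
noncomputable def n842 : Strat := .move 801 n100 (.cons 802 n841 .nil)
noncomputable def n843 : Strat := .move 800 n838 (.cons 801 n839 (.cons 759 n842 .nil))
noncomputable def n844 : Strat := .move 839 n145 (.cons 880 n843 .nil)
noncomputable def n845 : Strat := .move 757 n138 (.cons 881 n844 .nil)
noncomputable def n846 : Strat := .move 716 n42 (.cons 675 n845 .nil)
noncomputable def n847 : Strat := .win 675 7 634
noncomputable def n848 : Strat := .win 593 7 593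
noncomputable def n849 : Strat := .move 634 n847 (.cons 675 n848 .nil)
noncomputable def n850 : Strat := .move 635 n777 (.cons 759 n849 .nil)
noncomputable def n851 : Strat := .move 800 n502 (.cons 841 n850 .nil)
noncomputable def n852 : Strat := .move 676 n146 (.cons 798 n851 .nil)
noncomputable def n853 : Strat := .move 839 n145 (.cons 880 n852 .nil)
noncomputable def n854 : Strat := .win 759 5 755
noncomputable def n855 : Strat := .move 796 n579 (.cons 795 n854 .nil)
noncomputable def n856 : Strat := .move 841 n74 (.cons 796 n823 .nil)
noncomputable def n857 : Strat := .move 838 n82 (.cons 837 n83 .nil)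
noncomputable def n858 : Strat := .move 801 n116 (.cons 802 n123 .nil)
noncomputable def n859 : Strat := .move 842 n124 (.cons 841 n858 .nil)
noncomputable def n860 : Strat := .win 716 6 716
noncomputable def n861 : Strat := .move 881 n257 (.cons 922 n860 .nil)
noncomputable def n862 : Strat := .win 878 4 837
noncomputable def n863 : Strat := .win 920 3 756
noncomputable def n864 : Strat := .move 879 n862 (.cons 878 n863 .nil)
noncomputable def n865 : Strat := .move 757 n861 (.cons 716 n864 .nil)
noncomputable def n866 : Strat := .move 841 n75 (.cons 842 n865 .nil)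
noncomputable def n867 : Strat := .move 838 n82 (.cons 837 n866 .nil)
noncomputable def n868 : Strat := .move 800 n857 (.cons 837 n602 (.cons 838 n859 (.cons 801 n867 .nil)))
noncomputable def n869 : Strat := .move 797 n659 (.cons 841 n855 (.cons 795 n856 (.cons 796 n868 .nil)))
noncomputable def n870 : Strat := .move 798 n152 (.cons 676 n869 .nil)
noncomputable def n871 : Strat := .move 839 n145 (.cons 880 n870 .nil)
noncomputable def n872 : Strat := .move 717 n184 (.cons 839 n822 (.cons 676 n835 (.cons 798 n846 (.cons 716 n853 (.cons 675 n871 .nil)))))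
noncomputable def n873 : Strat := .move 797 n313 (.cons 796 n23 .nil)
noncomputable def n874 : Strat := .move 798 n0 (.cons 757 n873 .nil)
noncomputable def n875 : Strat := .move 922 n10 (.cons 800 n874 .nil)
noncomputable def n876 : Strat := .move 759 n9 (.cons 718 n875 .nil)
noncomputable def n877 : Strat := .win 838 5 797
noncomputable def n878 : Strat := .move 801 n116 (.cons 802 n877 .nil)
noncomputable def n879 : Strat := .move 841 n512 (.cons 963 n878 .nil)
noncomputable def n880 : Strat := .move 800 n2 (.cons 759 n879 .nil)
noncomputable def n881 : Strat := .move 922 n227 (.cons 963 n235 (.cons 757 n230 (.cons 798 n880 .nil)))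
noncomputable def n882 : Strat := .move 839 n224 (.cons 717 n881 .nil)
noncomputable def n883 : Strat := .move 880 n34 (.cons 921 n882 .nil)
noncomputable def n884 : Strat := .move 922 n225 (.cons 757 n226 .nil)
noncomputable def n885 : Strat := .move 842 n514 (.cons 843 n475 .nil)
noncomputable def n886 : Strat := .move 837 n481 (.cons 836 n480 .nil)
noncomputable def n887 : Strat := .move 800 n232 (.cons 837 n83 .nil)
noncomputable def n888 : Strat := .win 715 6 715
noncomputable def n889 : Strat := .move 756 n85 (.cons 755 n888 .nil)
noncomputable def n890 : Strat := .move 800 n83 (.cons 801 n889 .nil)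
noncomputable def n891 : Strat := .move 797 n74 (.cons 796 n890 .nil)
noncomputable def n892 : Strat := .win 795 2 795
noncomputable def n893 : Strat := .win 797 0 796
noncomputable def n894 : Strat := .move 796 n892 (.cons 795 n893 .nil)
noncomputable def n895 : Strat := .move 837 n481 (.cons 836 n894 .nil)
noncomputable def n896 : Strat := .move 838 n886 (.cons 836 n887 (.cons 837 n891 (.cons 800 n895 .nil)))
noncomputable def n897 : Strat := .move 841 n885 (.cons 843 n824 (.cons 842 n896 .nil))
noncomputable def n898 : Strat := .move 798 n884 (.cons 757 n897 .nil)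
noncomputable def n899 : Strat := .move 839 n224 (.cons 717 n898 .nil)
noncomputable def n900 : Strat := .move 880 n34 (.cons 921 n899 .nil)
noncomputable def n901 : Strat := .move 881 n97 (.cons 880 n876 (.cons 718 n883 (.cons 922 n354 (.cons 759 n900 .nil))))
noncomputable def n902 : Strat := .move 758 n711 (.cons 881 n762 (.cons 757 n763 (.cons 880 n795 (.cons 676 n796 (.cons 717 n802 (.cons 798 n803 (.cons 839 n806 (.cons 718 n872 (.cons 716 n901 .nil)))))))))
noncomputable def n903 : Strat := .move 798 n314 (.cons 797 n399 (.cons 760 n403 .nil))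
noncomputable def n904 : Strat := .move 880 n34 (.cons 921 n903 .nil)
noncomputable def n905 : Strat := .move 759 n9 (.cons 718 n904 .nil)
noncomputable def n906 : Strat := .move 757 n46 (.cons 716 n905 .nil)
noncomputable def n907 : Strat := .move 881 n220 (.cons 757 n97 (.cons 759 n167 (.cons 922 n906 .nil)))
noncomputable def n908 : Strat := .move 717 n151 (.cons 839 n761 (.cons 718 n184 (.cons 676 n748 .nil)))
noncomputable def n909 : Strat := .move 881 n104 (.cons 756 n354 (.cons 759 n241 .nil))
noncomputable def n910 : Strat := .move 881 n805 (.cons 798 n97 (.cons 759 n167 (.cons 922 n70 .nil)))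
noncomputable def n911 : Strat := .move 838 n825 (.cons 879 n887 .nil)
noncomputable def n912 : Strat := .move 798 n911 (.cons 801 n831 .nil)
noncomputable def n913 : Strat := .move 839 n145 (.cons 880 n912 .nil)
noncomputable def n914 : Strat := .move 757 n138 (.cons 881 n913 .nil)
noncomputable def n915 : Strat := .move 716 n42 (.cons 675 n914 .nil)
noncomputable def n916 : Strat := .move 800 n857 (.cons 837 n602 (.cons 801 n867 (.cons 838 n859 .nil)))
noncomputable def n917 : Strat := .move 797 n659 (.cons 841 n855 (.cons 795 n856 (.cons 796 n916 .nil)))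
noncomputable def n918 : Strat := .move 798 n152 (.cons 676 n917 .nil)
noncomputable def n919 : Strat := .move 839 n145 (.cons 880 n918 .nil)
noncomputable def n920 : Strat := .move 717 n184 (.cons 839 n822 (.cons 676 n915 (.cons 716 n853 (.cons 675 n919 (.cons 798 n846 .nil)))))
noncomputable def n921 : Strat := .move 676 n773 (.cons 839 n776 (.cons 798 n149 .nil))
noncomputable def n922 : Strat := .move 757 n138 (.cons 881 n921 .nil)
noncomputable def n923 : Strat := .move 716 n42 (.cons 675 n922 .nil)
noncomputable def n924 : Strat := .move 719 n719 (.cons 756 n718 .nil)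
noncomputable def n925 : Strat := .move 759 n210 (.cons 715 n725 .nil)
noncomputable def n926 : Strat := .move 760 n731 (.cons 761 n925 .nil)
noncomputable def n927 : Strat := .move 719 n718 (.cons 720 n926 .nil)
noncomputable def n928 : Strat := .move 760 n211 (.cons 761 n210 .nil)
noncomputable def n929 : Strat := .move 759 n712 (.cons 714 n928 (.cons 715 n714 .nil))
noncomputable def n930 : Strat := .move 756 n140 (.cons 755 n929 .nil)
noncomputable def n931 : Strat := .move 757 n141 (.cons 755 n924 (.cons 756 n927 (.cons 719 n930 .nil)))
noncomputable def n932 : Strat := .move 718 n37 (.cons 677 n931 .nil)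
noncomputable def n933 : Strat := .move 716 n42 (.cons 675 n932 .nil)
noncomputable def n934 : Strat := .move 717 n710 (.cons 719 n923 (.cons 716 n794 (.cons 718 n784 (.cons 757 n215 (.cons 881 n933 .nil)))))
noncomputable def n935 : Strat := .win 800 3 799
noncomputable def n936 : Strat := .move 879 n384 (.cons 878 n383 .nil)
noncomputable def n937 : Strat := .move 841 n935 (.cons 800 n936 .nil)
noncomputable def n938 : Strat := .move 963 n229 (.cons 1004 n937 .nil)
noncomputable def n939 : Strat := .move 796 n77 (.cons 841 n579 .nil)
noncomputable def n940 : Strat := .move 797 n939 (.cons 795 n658 (.cons 841 n889 .nil))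
noncomputable def n941 : Strat := .move 800 n83 (.cons 801 n940 .nil)
noncomputable def n942 : Strat := .move 842 n475 (.cons 879 n514 .nil)
noncomputable def n943 : Strat := .move 879 n383 (.cons 842 n862 .nil)
noncomputable def n944 : Strat := .win 797 2 797
noncomputable def n945 : Strat := .move 842 n944 (.cons 797 n514 .nil)
noncomputable def n946 : Strat := .move 841 n942 (.cons 843 n943 (.cons 879 n945 (.cons 842 n894 .nil)))
noncomputable def n947 : Strat := .move 837 n481 (.cons 836 n946 .nil)
noncomputable def n948 : Strat := .move 838 n886 (.cons 836 n887 (.cons 837 n941 (.cons 800 n947 .nil)))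
noncomputable def n949 : Strat := .move 798 n225 (.cons 757 n948 .nil)
noncomputable def n950 : Strat := .move 922 n227 (.cons 757 n230 (.cons 798 n938 (.cons 963 n949 .nil)))
noncomputable def n951 : Strat := .move 839 n224 (.cons 717 n950 .nil)
noncomputable def n952 : Strat := .move 880 n34 (.cons 921 n951 .nil)
noncomputable def n953 : Strat := .win 757 2 757
noncomputable def n954 : Strat := .win 803 2 758
noncomputable def n955 : Strat := .move 802 n953 (.cons 757 n954 .nil)
noncomputable def n956 : Strat := .move 757 n99 (.cons 756 n100 .nil)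
noncomputable def n957 : Strat := .move 802 n954 (.cons 803 n118 .nil)
noncomputable def n958 : Strat := .win 760 5 756
noncomputable def n959 : Strat := .move 797 n313 (.cons 796 n958 .nil)
noncomputable def n960 : Strat := .move 717 n152 (.cons 676 n145 .nil)
noncomputable def n961 : Strat := .move 839 n115 (.cons 838 n960 .nil)
noncomputable def n962 : Strat := .move 757 n99 (.cons 756 n961 .nil)
noncomputable def n963 : Strat := .move 760 n298 (.cons 761 n962 .nil)
noncomputable def n964 : Strat := .win 757 0 756
noncomputable def n965 : Strat := .move 797 n313 (.cons 796 n85 .nil)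
noncomputable def n966 : Strat := .move 756 n964 (.cons 757 n965 .nil)
noncomputable def n967 : Strat := .move 798 n789 (.cons 761 n959 (.cons 797 n963 (.cons 760 n966 .nil)))
noncomputable def n968 : Strat := .move 801 n955 (.cons 803 n956 (.cons 757 n957 (.cons 802 n967 .nil)))
noncomputable def n969 : Strat := .move 800 n98 (.cons 922 n968 .nil)
noncomputable def n970 : Strat := .move 759 n9 (.cons 718 n969 .nil)
noncomputable def n971 : Strat := .move 797 n313 (.cons 796 n17 .nil)
noncomputable def n972 : Strat := .move 798 n0 (.cons 757 n971 .nil)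
noncomputable def n973 : Strat := .move 922 n10 (.cons 800 n972 .nil)
noncomputable def n974 : Strat := .move 759 n9 (.cons 718 n973 .nil)
noncomputable def n975 : Strat := .move 881 n97 (.cons 759 n952 (.cons 921 n970 (.cons 922 n354 (.cons 880 n974 .nil))))
noncomputable def n976 : Strat := .move 758 n711 (.cons 717 n907 (.cons 881 n908 (.cons 757 n763 (.cons 798 n909 (.cons 839 n910 (.cons 718 n920 (.cons 880 n934 (.cons 716 n975 .nil))))))))
noncomputable def n977 : Strat := .move 802 n954 (.cons 803 n450 .nil)
noncomputable def n978 : Strat := .move 801 n365 (.cons 838 n957 (.cons 839 n977 (.cons 802 n961 .nil)))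
noncomputable def n979 : Strat := .move 760 n298 (.cons 761 n978 .nil)
noncomputable def n980 : Strat := .win 676 6 676
noncomputable def n981 : Strat := .move 801 n115 (.cons 838 n116 .nil)
noncomputable def n982 : Strat := .move 839 n145 (.cons 880 n981 .nil)
noncomputable def n983 : Strat := .move 717 n980 (.cons 676 n982 .nil)
noncomputable def n984 : Strat := .move 841 n75 (.cons 842 n983 .nil)
noncomputable def n985 : Strat := .move 797 n313 (.cons 796 n984 .nil)
noncomputable def n986 : Strat := .move 798 n959 (.cons 796 n789 (.cons 797 n979 (.cons 760 n985 .nil)))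
noncomputable def n987 : Strat := .move 800 n98 (.cons 922 n986 .nil)
noncomputable def n988 : Strat := .move 759 n9 (.cons 718 n987 .nil)
noncomputable def n989 : Strat := .move 838 n83 (.cons 801 n232 .nil)
noncomputable def n990 : Strat := .win 880 7 715
noncomputable def n991 : Strat := .move 715 n553 (.cons 674 n990 .nil)
noncomputable def n992 : Strat := .move 756 n47 (.cons 755 n991 .nil)
noncomputable def n993 : Strat := .move 797 n939 (.cons 795 n76 (.cons 796 n992 .nil))
noncomputable def n994 : Strat := .move 800 n259 (.cons 802 n989 (.cons 801 n993 .nil))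
noncomputable def n995 : Strat := .move 841 n75 (.cons 842 n864 .nil)
noncomputable def n996 : Strat := .move 838 n82 (.cons 837 n995 .nil)
noncomputable def n997 : Strat := .move 796 n579 (.cons 795 n128 .nil)
noncomputable def n998 : Strat := .move 756 n47 (.cons 755 n997 .nil)
noncomputable def n999 : Strat := .move 797 n939 (.cons 795 n76 (.cons 796 n996 (.cons 841 n998 .nil)))
noncomputable def n1000 : Strat := .move 800 n259 (.cons 802 n989 (.cons 801 n999 .nil))
noncomputable def n1001 : Strat := .move 839 n270 (.cons 717 n994 (.cons 880 n1000 .nil))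
noncomputable def n1002 : Strat := .move 798 n257 (.cons 922 n1001 .nil)
noncomputable def n1003 : Strat := .move 757 n46 (.cons 716 n1002 .nil)
noncomputable def n1004 : Strat := .move 800 n99 (.cons 756 n961 .nil)
noncomputable def n1005 : Strat := .move 801 n325 (.cons 802 n1004 .nil)
noncomputable def n1006 : Strat := .move 760 n298 (.cons 761 n1005 .nil)
noncomputable def n1007 : Strat := .move 798 n314 (.cons 796 n315 (.cons 760 n798 (.cons 797 n1006 .nil)))
noncomputable def n1008 : Strat := .move 759 n9 (.cons 718 n1007 .nil)
noncomputable def n1009 : Strat := .move 757 n46 (.cons 716 n1008 .nil)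
noncomputable def n1010 : Strat := .move 881 n622 (.cons 757 n988 (.cons 759 n1003 (.cons 922 n1009 (.cons 798 n104 .nil))))
noncomputable def n1011 : Strat := .win 800 1 676
noncomputable def n1012 : Strat := .move 677 n293 (.cons 636 n1011 .nil)
noncomputable def n1013 : Strat := .move 718 n209 (.cons 881 n1012 .nil)
noncomputable def n1014 : Strat := .move 798 n257 (.cons 922 n401 .nil)
noncomputable def n1015 : Strat := .move 757 n46 (.cons 716 n1014 .nil)
noncomputable def n1016 : Strat := .move 881 n9 (.cons 718 n1015 .nil)
noncomputable def n1017 : Strat := .move 760 n298 (.cons 761 n477 .nil)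
noncomputable def n1018 : Strat := .move 797 n313 (.cons 796 n1017 .nil)
noncomputable def n1019 : Strat := .win 675 6 675
noncomputable def n1020 : Strat := .move 716 n1019 (.cons 675 n284 .nil)
noncomputable def n1021 : Strat := .move 757 n297 (.cons 797 n1020 .nil)
noncomputable def n1022 : Strat := .move 760 n298 (.cons 761 n1021 .nil)
noncomputable def n1023 : Strat := .move 801 n123 (.cons 843 n957 .nil)
noncomputable def n1024 : Strat := .move 842 n124 (.cons 841 n1023 .nil)
noncomputable def n1025 : Strat := .move 800 n958 (.cons 760 n1024 .nil)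
noncomputable def n1026 : Strat := .move 797 n313 (.cons 796 n1025 .nil)
noncomputable def n1027 : Strat := .win 883 7 718
noncomputable def n1028 : Strat := .move 718 n1027 (.cons 883 n308 .nil)
noncomputable def n1029 : Strat := .move 842 n123 (.cons 843 n1028 .nil)
noncomputable def n1030 : Strat := .move 800 n99 (.cons 756 n1029 .nil)
noncomputable def n1031 : Strat := .move 801 n325 (.cons 802 n1030 .nil)
noncomputable def n1032 : Strat := .move 757 n1020 (.cons 675 n1031 .nil)
noncomputable def n1033 : Strat := .move 760 n298 (.cons 761 n1032 .nil)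
noncomputable def n1034 : Strat := .move 801 n964 (.cons 757 n466 .nil)
noncomputable def n1035 : Strat := .move 756 n85 (.cons 755 n1034 .nil)
noncomputable def n1036 : Strat := .move 757 n48 (.cons 801 n309 .nil)
noncomputable def n1037 : Strat := .move 756 n85 (.cons 755 n1036 .nil)
noncomputable def n1038 : Strat := .win 879 3 715
noncomputable def n1039 : Strat := .win 675 1 674
noncomputable def n1040 : Strat := .move 716 n1038 (.cons 879 n1039 .nil)
noncomputable def n1041 : Strat := .move 757 n289 (.cons 719 n1040 .nil)
noncomputable def n1042 : Strat := .move 718 n308 (.cons 677 n1041 .nil)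
noncomputable def n1043 : Strat := .move 838 n82 (.cons 837 n1042 .nil)
noncomputable def n1044 : Strat := .move 756 n85 (.cons 755 n1043 .nil)
noncomputable def n1045 : Strat := .move 800 n1035 (.cons 757 n1024 (.cons 843 n1037 (.cons 801 n1044 .nil)))
noncomputable def n1046 : Strat := .move 797 n313 (.cons 796 n1045 .nil)
noncomputable def n1047 : Strat := .move 798 n1018 (.cons 796 n1022 (.cons 757 n1026 (.cons 797 n1033 (.cons 760 n1046 .nil))))
noncomputable def n1048 : Strat := .move 716 n138 (.cons 881 n1019 .nil)
noncomputable def n1049 : Strat := .move 757 n297 (.cons 797 n1048 .nil)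
noncomputable def n1050 : Strat := .move 760 n298 (.cons 761 n1049 .nil)
noncomputable def n1051 : Strat := .move 757 n168 (.cons 760 n1048 .nil)
noncomputable def n1052 : Strat := .move 797 n313 (.cons 796 n1051 .nil)
noncomputable def n1053 : Strat := .move 760 n298 (.cons 761 n1020 .nil)
noncomputable def n1054 : Strat := .move 881 n46 (.cons 716 n257 .nil)
noncomputable def n1055 : Strat := .move 881 n98 (.cons 922 n413 .nil)
noncomputable def n1056 : Strat := .move 800 n99 (.cons 756 n1055 .nil)
noncomputable def n1057 : Strat := .move 801 n325 (.cons 802 n1056 .nil)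
noncomputable def n1058 : Strat := .move 760 n298 (.cons 761 n1057 .nil)
noncomputable def n1059 : Strat := .move 757 n1048 (.cons 881 n1053 (.cons 675 n1054 (.cons 716 n1058 .nil)))
noncomputable def n1060 : Strat := .move 881 n46 (.cons 716 n98 .nil)
noncomputable def n1061 : Strat := .move 757 n316 (.cons 755 n101 (.cons 756 n1060 .nil))
noncomputable def n1062 : Strat := .move 801 n956 (.cons 757 n466 .nil)
noncomputable def n1063 : Strat := .move 757 n46 (.cons 716 n419 .nil)
noncomputable def n1064 : Strat := .move 881 n98 (.cons 922 n1063 .nil)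
noncomputable def n1065 : Strat := .move 800 n1061 (.cons 755 n1062 (.cons 757 n1024 (.cons 801 n1064 .nil)))
noncomputable def n1066 : Strat := .move 797 n313 (.cons 796 n1065 .nil)
noncomputable def n1067 : Strat := .move 798 n1018 (.cons 796 n1050 (.cons 761 n1052 (.cons 797 n1059 (.cons 760 n1066 (.cons 757 n1026 .nil)))))
noncomputable def n1068 : Strat := .move 759 n1013 (.cons 800 n1016 (.cons 881 n1047 (.cons 718 n1067 .nil)))
noncomputable def n1069 : Strat := .win 881 6 716
noncomputable def n1070 : Strat := .move 757 n1069 (.cons 881 n911 .nil)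
noncomputable def n1071 : Strat := .move 716 n42 (.cons 675 n1070 .nil)
noncomputable def n1072 : Strat := .move 798 n152 (.cons 676 n1071 .nil)
noncomputable def n1073 : Strat := .move 839 n145 (.cons 880 n1072 .nil)
noncomputable def n1074 : Strat := .win 802 5 798
noncomputable def n1075 : Strat := .win 800 4 797
noncomputable def n1076 : Strat := .win 836 5 795
noncomputable def n1077 : Strat := .win 877 4 836
noncomputable def n1078 : Strat := .win 879 4 837
noncomputable def n1079 : Strat := .move 878 n1077 (.cons 877 n1078 .nil)
noncomputable def n1080 : Strat := .move 837 n1076 (.cons 836 n1079 .nil)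
noncomputable def n1081 : Strat := .move 838 n1075 (.cons 800 n1080 .nil)
noncomputable def n1082 : Strat := .move 801 n1074 (.cons 802 n1081 .nil)
noncomputable def n1083 : Strat := .move 842 n514 (.cons 843 n1082 .nil)
noncomputable def n1084 : Strat := .move 800 n82 (.cons 837 n83 .nil)
noncomputable def n1085 : Strat := .win 800 4 796
noncomputable def n1086 : Strat := .move 837 n1085 (.cons 800 n1076 .nil)
noncomputable def n1087 : Strat := .win 716 1 715
noncomputable def n1088 : Strat := .move 757 n863 (.cons 920 n1087 .nil)
noncomputable def n1089 : Strat := .move 879 n862 (.cons 878 n1088 .nil)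
noncomputable def n1090 : Strat := .move 838 n1084 (.cons 801 n1086 (.cons 800 n1089 .nil))
noncomputable def n1091 : Strat := .move 797 n74 (.cons 796 n1090 .nil)
noncomputable def n1092 : Strat := .move 841 n824 (.cons 796 n945 (.cons 797 n1083 (.cons 842 n1091 .nil)))
noncomputable def n1093 : Strat := .move 798 n152 (.cons 676 n1092 .nil)
noncomputable def n1094 : Strat := .move 839 n145 (.cons 880 n1093 .nil)
noncomputable def n1095 : Strat := .move 717 n1073 (.cons 675 n1094 (.cons 798 n710 (.cons 757 n184 (.cons 716 n151 .nil))))
noncomputable def n1096 : Strat := .win 798 6 633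
noncomputable def n1097 : Strat := .win 592 6 592
noncomputable def n1098 : Strat := .move 633 n1096 (.cons 798 n1097 .nil)
noncomputable def n1099 : Strat := .move 674 n734 (.cons 673 n1098 .nil)
noncomputable def n1100 : Strat := .move 715 n154 (.cons 714 n1099 .nil)
noncomputable def n1101 : Strat := .move 759 n712 (.cons 714 n928 (.cons 715 n742 (.cons 760 n1100 .nil)))
noncomputable def n1102 : Strat := .move 756 n140 (.cons 755 n1101 .nil)
noncomputable def n1103 : Strat := .move 759 n210 (.cons 715 n755 .nil)
noncomputable def n1104 : Strat := .move 760 n731 (.cons 761 n1103 .nil)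
noncomputable def n1105 : Strat := .move 719 n718 (.cons 720 n1104 .nil)
noncomputable def n1106 : Strat := .move 757 n141 (.cons 755 n924 (.cons 719 n1102 (.cons 756 n1105 .nil)))
noncomputable def n1107 : Strat := .move 718 n37 (.cons 677 n1106 .nil)
noncomputable def n1108 : Strat := .move 716 n42 (.cons 675 n1107 .nil)
noncomputable def n1109 : Strat := .move 757 n718 (.cons 720 n719 .nil)
noncomputable def n1110 : Strat := .win 757 4 716
noncomputable def n1111 : Strat := .win 721 4 717
noncomputable def n1112 : Strat := .move 720 n1110 (.cons 757 n1111 .nil)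
noncomputable def n1113 : Strat := .move 719 n1109 (.cons 756 n1112 (.cons 757 n755 .nil))
noncomputable def n1114 : Strat := .move 760 n211 (.cons 761 n1113 .nil)
noncomputable def n1115 : Strat := .move 720 n1111 (.cons 721 n200 .nil)
noncomputable def n1116 : Strat := .move 719 n193 (.cons 757 n1115 .nil)
noncomputable def n1117 : Strat := .move 756 n192 (.cons 755 n1116 .nil)
noncomputable def n1118 : Strat := .move 715 n154 (.cons 714 n1117 .nil)
noncomputable def n1119 : Strat := .move 759 n212 (.cons 761 n712 (.cons 715 n1114 (.cons 760 n1118 .nil)))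
noncomputable def n1120 : Strat := .move 716 n42 (.cons 675 n1119 .nil)
noncomputable def n1121 : Strat := .move 718 n37 (.cons 677 n1120 .nil)
noncomputable def n1122 : Strat := .move 717 n151 (.cons 718 n184 (.cons 676 n1108 (.cons 798 n1121 .nil)))
noncomputable def n1123 : Strat := .move 716 n212 (.cons 761 n712 (.cons 715 n1114 (.cons 760 n1118 .nil)))
noncomputable def n1124 : Strat := .move 759 n209 (.cons 881 n1123 .nil)
noncomputable def n1125 : Strat := .move 718 n37 (.cons 677 n1124 .nil)
noncomputable def n1126 : Strat := .move 676 n148 (.cons 636 n851 .nil)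
noncomputable def n1127 : Strat := .move 677 n147 (.cons 718 n1126 .nil)
noncomputable def n1128 : Strat := .move 717 n766 (.cons 718 n846 (.cons 675 n1125 (.cons 759 n710 (.cons 881 n1121 (.cons 716 n1127 .nil)))))
noncomputable def n1129 : Strat := .move 798 n152 (.cons 676 n1018 .nil)
noncomputable def n1130 : Strat := .move 839 n145 (.cons 880 n1129 .nil)
noncomputable def n1131 : Strat := .move 759 n209 (.cons 881 n1130 .nil)
noncomputable def n1132 : Strat := .move 718 n37 (.cons 677 n1131 .nil)
noncomputable def n1133 : Strat := .move 759 n185 (.cons 760 n154 .nil)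
noncomputable def n1134 : Strat := .move 715 n153 (.cons 674 n1133 .nil)
noncomputable def n1135 : Strat := .move 757 n141 (.cons 755 n924 (.cons 756 n1134 .nil))
noncomputable def n1136 : Strat := .move 798 n152 (.cons 676 n1135 .nil)
noncomputable def n1137 : Strat := .move 839 n145 (.cons 880 n1136 .nil)
noncomputable def n1138 : Strat := .move 718 n37 (.cons 677 n1137 .nil)
noncomputable def n1139 : Strat := .move 716 n42 (.cons 675 n1138 .nil)
noncomputable def n1140 : Strat := .move 717 n710 (.cons 716 n1132 (.cons 757 n766 (.cons 718 n161 (.cons 881 n1139 .nil))))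
noncomputable def n1141 : Strat := .move 839 n145 (.cons 880 n146 .nil)
noncomputable def n1142 : Strat := .move 676 n504 (.cons 841 n769 (.cons 800 n1141 .nil))
noncomputable def n1143 : Strat := .move 759 n209 (.cons 881 n1142 .nil)
noncomputable def n1144 : Strat := .move 718 n37 (.cons 677 n1143 .nil)
noncomputable def n1145 : Strat := .move 756 n140 (.cons 755 n289 .nil)
noncomputable def n1146 : Strat := .move 838 n243 (.cons 798 n232 .nil)
noncomputable def n1147 : Strat := .move 801 n100 (.cons 802 n1146 .nil)
noncomputable def n1148 : Strat := .win 841 3 677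
noncomputable def n1149 : Strat := .win 760 1 636
noncomputable def n1150 : Strat := .move 637 n1149 (.cons 760 n753 .nil)
noncomputable def n1151 : Strat := .move 678 n1148 (.cons 841 n1150 .nil)
noncomputable def n1152 : Strat := .move 800 n1147 (.cons 801 n1151 .nil)
noncomputable def n1153 : Strat := .move 719 n718 (.cons 720 n1152 .nil)
noncomputable def n1154 : Strat := .win 762 2 717
noncomputable def n1155 : Strat := .move 761 n286 (.cons 798 n1154 .nil)
noncomputable def n1156 : Strat := .move 760 n325 (.cons 802 n1155 .nil)
noncomputable def n1157 : Strat := .move 801 n326 (.cons 800 n1156 .nil)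
noncomputable def n1158 : Strat := .move 756 n140 (.cons 755 n1157 .nil)
noncomputable def n1159 : Strat := .move 757 n1145 (.cons 756 n1153 (.cons 719 n1158 .nil))
noncomputable def n1160 : Strat := .move 839 n145 (.cons 880 n1159 .nil)
noncomputable def n1161 : Strat := .move 759 n209 (.cons 881 n1160 .nil)
noncomputable def n1162 : Strat := .move 718 n37 (.cons 677 n1161 .nil)
noncomputable def n1163 : Strat := .move 717 n1144 (.cons 718 n853 (.cons 676 n1162 (.cons 800 n1132 (.cons 798 n1127 (.cons 759 n151 .nil)))))
noncomputable def n1164 : Strat := .move 798 n152 (.cons 676 n827 .nil)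
noncomputable def n1165 : Strat := .move 839 n145 (.cons 880 n1164 .nil)
noncomputable def n1166 : Strat := .move 757 n138 (.cons 881 n1165 .nil)
noncomputable def n1167 : Strat := .move 716 n42 (.cons 675 n1166 .nil)
noncomputable def n1168 : Strat := .move 756 n49 (.cons 800 n812 (.cons 755 n714 .nil))
noncomputable def n1169 : Strat := .move 715 n154 (.cons 714 n1168 .nil)
noncomputable def n1170 : Strat := .move 759 n807 (.cons 715 n819 (.cons 761 n808 (.cons 760 n1169 .nil)))
noncomputable def n1171 : Strat := .move 757 n138 (.cons 881 n1170 .nil)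
noncomputable def n1172 : Strat := .move 716 n42 (.cons 675 n1171 .nil)
noncomputable def n1173 : Strat := .move 757 n258 (.cons 756 n861 .nil)
noncomputable def n1174 : Strat := .move 800 n115 (.cons 838 n1173 .nil)
noncomputable def n1175 : Strat := .move 801 n1074 (.cons 802 n1174 .nil)
noncomputable def n1176 : Strat := .move 842 n514 (.cons 843 n1175 .nil)
noncomputable def n1177 : Strat := .win 757 2 756
noncomputable def n1178 : Strat := .move 756 n1177 (.cons 757 n85 .nil)
noncomputable def n1179 : Strat := .move 801 n116 (.cons 802 n1178 .nil)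
noncomputable def n1180 : Strat := .move 879 n863 (.cons 920 n862 .nil)
noncomputable def n1181 : Strat := .move 757 n861 (.cons 716 n1180 .nil)
noncomputable def n1182 : Strat := .move 838 n82 (.cons 837 n1181 .nil)
noncomputable def n1183 : Strat := .move 800 n857 (.cons 837 n602 (.cons 838 n1179 (.cons 801 n1182 .nil)))
noncomputable def n1184 : Strat := .move 797 n74 (.cons 796 n1183 .nil)
noncomputable def n1185 : Strat := .move 841 n824 (.cons 796 n945 (.cons 797 n1176 (.cons 842 n1184 .nil)))
noncomputable def n1186 : Strat := .move 798 n152 (.cons 676 n1185 .nil)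
noncomputable def n1187 : Strat := .move 839 n145 (.cons 880 n1186 .nil)
noncomputable def n1188 : Strat := .move 717 n1167 (.cons 716 n853 (.cons 839 n1172 (.cons 676 n835 (.cons 798 n846 (.cons 800 n161 (.cons 675 n1187 .nil))))))
noncomputable def n1189 : Strat := .move 677 n292 (.cons 717 n1011 .nil)
noncomputable def n1190 : Strat := .win 717 5 714
noncomputable def n1191 : Strat := .move 755 n50 (.cons 800 n1190 .nil)
noncomputable def n1192 : Strat := .move 756 n289 (.cons 719 n1191 .nil)
noncomputable def n1193 : Strat := .move 756 n289 (.cons 719 n49 .nil)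
noncomputable def n1194 : Strat := .win 756 5 715
noncomputable def n1195 : Strat := .win 717 4 716
noncomputable def n1196 : Strat := .move 720 n1111 (.cons 721 n1195 .nil)
noncomputable def n1197 : Strat := .move 719 n1194 (.cons 756 n1196 .nil)
noncomputable def n1198 : Strat := .move 798 n298 (.cons 761 n297 .nil)
noncomputable def n1199 : Strat := .move 717 n42 (.cons 675 n211 .nil)
noncomputable def n1200 : Strat := .move 716 n284 (.cons 715 n1199 .nil)
noncomputable def n1201 : Strat := .move 716 n284 (.cons 715 n279 .nil)
noncomputable def n1202 : Strat := .move 760 n1198 (.cons 798 n1200 (.cons 761 n1201 .nil))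
noncomputable def n1203 : Strat := .move 757 n1192 (.cons 717 n1193 (.cons 755 n1197 (.cons 756 n1202 .nil)))
noncomputable def n1204 : Strat := .move 718 n294 (.cons 717 n1012 (.cons 636 n1189 (.cons 677 n1203 .nil)))
noncomputable def n1205 : Strat := .move 881 n9 (.cons 718 n804 .nil)
noncomputable def n1206 : Strat := .move 716 n284 (.cons 715 n1019 .nil)
noncomputable def n1207 : Strat := .move 798 n297 (.cons 797 n1206 .nil)
noncomputable def n1208 : Strat := .move 760 n1198 (.cons 798 n1200 (.cons 761 n1207 .nil))
noncomputable def n1209 : Strat := .move 716 n138 (.cons 881 n284 .nil)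
noncomputable def n1210 : Strat := .move 760 n1198 (.cons 797 n1209 .nil)
noncomputable def n1211 : Strat := .move 760 n298 (.cons 761 n1055 .nil)
noncomputable def n1212 : Strat := .move 797 n313 (.cons 796 n417 .nil)
noncomputable def n1213 : Strat := .move 798 n408 (.cons 761 n401 (.cons 797 n1211 (.cons 760 n1212 .nil)))
noncomputable def n1214 : Strat := .move 801 n100 (.cons 802 n1213 .nil)
noncomputable def n1215 : Strat := .move 761 n541 (.cons 762 n63 .nil)
noncomputable def n1216 : Strat := .move 760 n56 (.cons 798 n1215 .nil)
noncomputable def n1217 : Strat := .move 797 n55 (.cons 796 n1216 .nil)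
noncomputable def n1218 : Strat := .move 756 n47 (.cons 755 n1217 .nil)
noncomputable def n1219 : Strat := .move 800 n101 (.cons 802 n316 (.cons 756 n1214 (.cons 801 n1218 .nil)))
noncomputable def n1220 : Strat := .move 757 n280 (.cons 881 n1208 (.cons 675 n1210 (.cons 716 n1219 .nil)))
noncomputable def n1221 : Strat := .move 759 n307 (.cons 881 n1204 (.cons 717 n1013 (.cons 677 n1205 (.cons 718 n1220 .nil))))
noncomputable def n1222 : Strat := .move 760 n298 (.cons 761 n488 .nil)
noncomputable def n1223 : Strat := .move 797 n313 (.cons 796 n1222 .nil)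
noncomputable def n1224 : Strat := .move 759 n209 (.cons 881 n1223 .nil)
noncomputable def n1225 : Strat := .move 718 n37 (.cons 677 n1224 .nil)
noncomputable def n1226 : Strat := .move 798 n152 (.cons 676 n1225 .nil)
noncomputable def n1227 : Strat := .move 839 n145 (.cons 880 n1226 .nil)
noncomputable def n1228 : Strat := .move 716 n42 (.cons 675 n712 .nil)
noncomputable def n1229 : Strat := .move 759 n209 (.cons 881 n1228 .nil)
noncomputable def n1230 : Strat := .move 718 n37 (.cons 677 n1229 .nil)
noncomputable def n1231 : Strat := .move 839 n145 (.cons 880 n1230 .nil)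
noncomputable def n1232 : Strat := .move 717 n1227 (.cons 676 n1231 (.cons 759 n184 (.cons 839 n215 .nil)))
noncomputable def n1233 : Strat := .move 758 n1010 (.cons 717 n1068 (.cons 759 n1095 (.cons 881 n1122 (.cons 798 n1128 (.cons 800 n1140 (.cons 716 n1163 (.cons 718 n1188 (.cons 839 n1221 (.cons 757 n1232 .nil)))))))))
noncomputable def n1234 : Strat := .move 922 n0 (.cons 757 n17 .nil)
noncomputable def n1235 : Strat := .move 842 n514 (.cons 843 n513 .nil)
noncomputable def n1236 : Strat := .move 841 n512 (.cons 963 n1235 .nil)
noncomputable def n1237 : Strat := .move 800 n2 (.cons 759 n1236 .nil)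
noncomputable def n1238 : Strat := .move 922 n0 (.cons 757 n1237 .nil)
noncomputable def n1239 : Strat := .win 758 7 716
noncomputable def n1240 : Strat := .move 716 n1239 (.cons 758 n1019 .nil)
noncomputable def n1241 : Strat := .move 757 n257 (.cons 922 n1240 .nil)
noncomputable def n1242 : Strat := .move 759 n9 (.cons 718 n401 .nil)
noncomputable def n1243 : Strat := .move 757 n46 (.cons 716 n1242 .nil)
noncomputable def n1244 : Strat := .move 759 n9 (.cons 718 n1223 .nil)
noncomputable def n1245 : Strat := .move 839 n224 (.cons 717 n430 .nil)
noncomputable def n1246 : Strat := .move 880 n34 (.cons 921 n1245 .nil)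
noncomputable def n1247 : Strat := .move 757 n46 (.cons 716 n1246 .nil)
noncomputable def n1248 : Strat := .move 758 n1243 (.cons 757 n1244 (.cons 759 n1247 .nil))
noncomputable def n1249 : Strat := .move 922 n17 (.cons 921 n5 (.cons 839 n1237 (.cons 963 n110 .nil)))
noncomputable def n1250 : Strat := .move 798 n1234 (.cons 839 n1238 (.cons 963 n1241 (.cons 922 n1248 (.cons 757 n1249 .nil))))
noncomputable def n1251 : Strat := .win 839 6 798
noncomputable def n1252 : Strat := .move 963 n1251 (.cons 839 n22 .nil)
noncomputable def n1253 : Strat := .move 798 n0 (.cons 757 n1252 .nil)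
noncomputable def n1254 : Strat := .move 921 n7 (.cons 962 n1253 .nil)
noncomputable def n1255 : Strat := .move 921 n7 (.cons 962 n108 .nil)
noncomputable def n1256 : Strat := .move 880 n1254 (.cons 839 n1255 (.cons 921 n6 .nil))
noncomputable def n1257 : Strat := .win 879 2 879
noncomputable def n1258 : Strat := .win 925 2 880
noncomputable def n1259 : Strat := .move 924 n1257 (.cons 879 n1258 .nil)
noncomputable def n1260 : Strat := .win 839 7 756
noncomputable def n1261 : Strat := .move 756 n1260 (.cons 839 n85 .nil)
noncomputable def n1262 : Strat := .move 797 n658 (.cons 796 n1261 .nil)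
noncomputable def n1263 : Strat := .move 924 n1258 (.cons 925 n1262 .nil)
noncomputable def n1264 : Strat := .win 879 0 878
noncomputable def n1265 : Strat := .move 878 n1264 (.cons 879 n1262 .nil)
noncomputable def n1266 : Strat := .move 880 n29 (.cons 878 n1259 (.cons 879 n1263 (.cons 924 n1265 .nil)))
noncomputable def n1267 : Strat := .move 923 n25 (.cons 964 n1266 .nil)
noncomputable def n1268 : Strat := .move 921 n7 (.cons 962 n1267 .nil)
noncomputable def n1269 : Strat := .move 800 n2 (.cons 759 n1268 .nil)
noncomputable def n1270 : Strat := .move 798 n0 (.cons 757 n1269 .nil)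
noncomputable def n1271 : Strat := .move 922 n1256 (.cons 798 n73 (.cons 800 n18 (.cons 962 n6 (.cons 963 n1270 .nil))))
noncomputable def n1272 : Strat := .move 922 n463 (.cons 921 n24 (.cons 798 n13 .nil))
noncomputable def n1273 : Strat := .move 755 n50 (.cons 800 n327 .nil)
noncomputable def n1274 : Strat := .move 756 n370 (.cons 715 n1273 .nil)
noncomputable def n1275 : Strat := .move 839 n224 (.cons 717 n1274 .nil)
noncomputable def n1276 : Strat := .move 880 n34 (.cons 921 n1275 .nil)
noncomputable def n1277 : Strat := .move 798 n257 (.cons 922 n1276 .nil)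
noncomputable def n1278 : Strat := .move 757 n46 (.cons 716 n1277 .nil)
noncomputable def n1279 : Strat := .move 758 n622 (.cons 716 n97 (.cons 922 n40 (.cons 759 n1278 .nil)))
noncomputable def n1280 : Strat := .move 798 n0 (.cons 757 n1237 .nil)
noncomputable def n1281 : Strat := .move 922 n1280 (.cons 841 n463 (.cons 798 n13 .nil))
noncomputable def n1282 : Strat := .move 798 n1243 (.cons 757 n1244 (.cons 759 n1247 .nil))
noncomputable def n1283 : Strat := .move 798 n314 (.cons 796 n315 (.cons 760 n798 (.cons 797 n333 .nil)))
noncomputable def n1284 : Strat := .move 759 n9 (.cons 718 n1283 .nil)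
noncomputable def n1285 : Strat := .move 757 n46 (.cons 716 n1284 .nil)
noncomputable def n1286 : Strat := .move 758 n1282 (.cons 880 n1285 (.cons 757 n40 (.cons 718 n45 (.cons 839 n70 .nil))))
noncomputable def n1287 : Strat := .move 922 n18 (.cons 921 n24 (.cons 963 n463 (.cons 757 n110 .nil)))
noncomputable def n1288 : Strat := .move 798 n17 (.cons 921 n5 (.cons 839 n1237 (.cons 963 n110 .nil)))
noncomputable def n1289 : Strat := .move 922 n1288 (.cons 800 n110 (.cons 921 n107 (.cons 923 n73 .nil)))
noncomputable def n1290 : Strat := .win 758 3 717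
noncomputable def n1291 : Strat := .move 718 n1290 (.cons 758 n308 .nil)
noncomputable def n1292 : Strat := .move 800 n98 (.cons 922 n1291 .nil)
noncomputable def n1293 : Strat := .move 758 n9 (.cons 718 n1015 .nil)
noncomputable def n1294 : Strat := .win 841 1 717
noncomputable def n1295 : Strat := .move 718 n308 (.cons 677 n1294 .nil)
noncomputable def n1296 : Strat := .move 800 n98 (.cons 922 n1295 .nil)
noncomputable def n1297 : Strat := .move 922 n10 (.cons 800 n24 .nil)
noncomputable def n1298 : Strat := .move 756 n49 (.cons 801 n1273 (.cons 800 n173 .nil))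
noncomputable def n1299 : Strat := .move 797 n313 (.cons 796 n1298 .nil)
noncomputable def n1300 : Strat := .move 798 n401 (.cons 796 n408 (.cons 797 n333 (.cons 760 n1299 .nil)))
noncomputable def n1301 : Strat := .move 757 n46 (.cons 716 n1300 .nil)
noncomputable def n1302 : Strat := .move 758 n9 (.cons 718 n1301 .nil)
noncomputable def n1303 : Strat := .move 759 n1292 (.cons 800 n1293 (.cons 758 n1296 (.cons 718 n1297 (.cons 922 n1302 .nil))))
noncomputable def n1304 : Strat := .move 881 n1250 (.cons 758 n1271 (.cons 841 n1272 (.cons 964 n1279 (.cons 839 n1281 (.cons 922 n1286 (.cons 800 n1287 (.cons 798 n536 (.cons 757 n1289 (.cons 921 n1303 .nil)))))))))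
noncomputable def n1305 : Strat := .move 881 n9 (.cons 718 n440 .nil)
noncomputable def n1306 : Strat := .move 716 n42 (.cons 675 n928 .nil)
noncomputable def n1307 : Strat := .move 718 n37 (.cons 677 n1306 .nil)
noncomputable def n1308 : Strat := .win 757 2 715
noncomputable def n1309 : Strat := .move 715 n154 (.cons 714 n1308 .nil)
noncomputable def n1310 : Strat := .move 760 n211 (.cons 761 n1309 .nil)
noncomputable def n1311 : Strat := .move 716 n42 (.cons 675 n1310 .nil)
noncomputable def n1312 : Strat := .win 800 6 676
noncomputable def n1313 : Strat := .move 841 n1312 (.cons 800 n787 .nil)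
noncomputable def n1314 : Strat := .move 635 n767 (.cons 594 n849 .nil)
noncomputable def n1315 : Strat := .move 841 n1312 (.cons 800 n1314 .nil)
noncomputable def n1316 : Strat := .move 676 n1313 (.cons 798 n1315 (.cons 800 n1141 .nil))
noncomputable def n1317 : Strat := .move 718 n37 (.cons 677 n1316 .nil)
noncomputable def n1318 : Strat := .move 800 n503 (.cons 635 n502 .nil)
noncomputable def n1319 : Strat := .move 676 n146 (.cons 798 n1318 .nil)
noncomputable def n1320 : Strat := .move 839 n145 (.cons 880 n1319 .nil)
noncomputable def n1321 : Strat := .move 718 n37 (.cons 677 n1320 .nil)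
noncomputable def n1322 : Strat := .move 717 n1307 (.cons 718 n1311 (.cons 716 n1317 (.cons 675 n1321 .nil)))
noncomputable def n1323 : Strat := .move 760 n298 (.cons 761 n284 .nil)
noncomputable def n1324 : Strat := .move 716 n1019 (.cons 675 n1323 .nil)
noncomputable def n1325 : Strat := .move 839 n224 (.cons 717 n386 .nil)
noncomputable def n1326 : Strat := .move 880 n34 (.cons 921 n1325 .nil)
noncomputable def n1327 : Strat := .move 881 n257 (.cons 922 n1326 .nil)
noncomputable def n1328 : Strat := .move 757 n1048 (.cons 881 n1324 (.cons 675 n1054 (.cons 716 n1327 .nil)))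
noncomputable def n1329 : Strat := .win 921 3 757
noncomputable def n1330 : Strat := .move 880 n224 (.cons 717 n1329 .nil)
noncomputable def n1331 : Strat := .win 922 6 757
noncomputable def n1332 : Strat := .move 881 n860 (.cons 716 n1331 .nil)
noncomputable def n1333 : Strat := .move 716 n1069 (.cons 881 n1019 .nil)
noncomputable def n1334 : Strat := .move 757 n1332 (.cons 922 n1333 (.cons 881 n430 .nil))
noncomputable def n1335 : Strat := .move 880 n1329 (.cons 921 n1334 .nil)
noncomputable def n1336 : Strat := .move 715 n153 (.cons 674 n154 .nil)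
noncomputable def n1337 : Strat := .move 757 n1069 (.cons 881 n1336 .nil)
noncomputable def n1338 : Strat := .move 716 n42 (.cons 675 n1337 .nil)
noncomputable def n1339 : Strat := .move 717 n152 (.cons 676 n1338 .nil)
noncomputable def n1340 : Strat := .move 841 n823 (.cons 842 n1339 .nil)
noncomputable def n1341 : Strat := .move 839 n1330 (.cons 921 n270 (.cons 717 n1335 (.cons 880 n1340 .nil)))
noncomputable def n1342 : Strat := .move 797 n313 (.cons 796 n1341 .nil)
noncomputable def n1343 : Strat := .move 798 n1018 (.cons 796 n1050 (.cons 761 n1052 (.cons 797 n1328 (.cons 760 n1342 (.cons 757 n1223 .nil)))))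
noncomputable def n1344 : Strat := .move 759 n307 (.cons 717 n1305 (.cons 881 n1322 (.cons 718 n1343 .nil)))
noncomputable def n1345 : Strat := .move 839 n401 (.cons 797 n386 .nil)
noncomputable def n1346 : Strat := .move 756 n429 (.cons 800 n396 .nil)
noncomputable def n1347 : Strat := .move 760 n298 (.cons 761 n1346 .nil)
noncomputable def n1348 : Strat := .move 797 n313 (.cons 796 n1346 .nil)
noncomputable def n1349 : Strat := .move 798 n1345 (.cons 796 n408 (.cons 797 n1347 (.cons 760 n1348 .nil)))
noncomputable def n1350 : Strat := .move 880 n34 (.cons 921 n1349 .nil)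
noncomputable def n1351 : Strat := .move 757 n46 (.cons 716 n1350 .nil)
noncomputable def n1352 : Strat := .move 759 n9 (.cons 718 n1351 .nil)
noncomputable def n1353 : Strat := .move 881 n441 (.cons 759 n167 (.cons 757 n97 (.cons 922 n1352 .nil)))
noncomputable def n1354 : Strat := .move 759 n1307 (.cons 718 n1311 (.cons 716 n1317 (.cons 675 n1321 .nil)))
noncomputable def n1355 : Strat := .move 676 n1312 (.cons 800 n1141 .nil)
noncomputable def n1356 : Strat := .move 798 n514 (.cons 843 n944 .nil)
noncomputable def n1357 : Strat := .win 759 6 718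
noncomputable def n1358 : Strat := .win 884 0 839
noncomputable def n1359 : Strat := .move 883 n1357 (.cons 759 n1358 .nil)
noncomputable def n1360 : Strat := .move 800 n232 (.cons 837 n1359 .nil)
noncomputable def n1361 : Strat := .move 838 n494 (.cons 796 n1360 .nil)
noncomputable def n1362 : Strat := .move 797 n493 (.cons 798 n1361 .nil)
noncomputable def n1363 : Strat := .win 883 0 839
noncomputable def n1364 : Strat := .win 885 0 840
noncomputable def n1365 : Strat := .win 802 5 799
noncomputable def n1366 : Strat := .win 804 5 800
noncomputable def n1367 : Strat := .win 800 2 799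
noncomputable def n1368 : Strat := .move 844 n1366 (.cons 804 n1367 .nil)
noncomputable def n1369 : Strat := .move 803 n1365 (.cons 802 n1368 .nil)
noncomputable def n1370 : Strat := .move 843 n1364 (.cons 885 n1369 .nil)
noncomputable def n1371 : Strat := .move 884 n1363 (.cons 883 n1370 .nil)
noncomputable def n1372 : Strat := .move 842 n1356 (.cons 843 n1362 (.cons 798 n1371 .nil))
noncomputable def n1373 : Strat := .move 718 n37 (.cons 677 n1372 .nil)
noncomputable def n1374 : Strat := .move 839 n145 (.cons 880 n1373 .nil)
noncomputable def n1375 : Strat := .move 676 n1312 (.cons 800 n149 .nil)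
noncomputable def n1376 : Strat := .move 798 n152 (.cons 676 n824 .nil)
noncomputable def n1377 : Strat := .move 839 n145 (.cons 880 n1376 .nil)
noncomputable def n1378 : Strat := .move 841 n1355 (.cons 676 n1374 (.cons 798 n1375 (.cons 800 n1377 .nil)))
noncomputable def n1379 : Strat := .move 841 n1312 (.cons 800 n182 .nil)
noncomputable def n1380 : Strat := .move 676 n146 (.cons 798 n1379 .nil)
noncomputable def n1381 : Strat := .move 839 n145 (.cons 880 n1380 .nil)
noncomputable def n1382 : Strat := .move 757 n719 (.cons 756 n718 .nil)
noncomputable def n1383 : Strat := .move 719 n1382 (.cons 756 n1112 (.cons 757 n755 .nil))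
noncomputable def n1384 : Strat := .move 760 n211 (.cons 761 n1383 .nil)
noncomputable def n1385 : Strat := .move 759 n928 (.cons 761 n712 (.cons 760 n1118 (.cons 715 n1384 .nil)))
noncomputable def n1386 : Strat := .move 718 n37 (.cons 677 n1385 .nil)
noncomputable def n1387 : Strat := .move 716 n42 (.cons 675 n1386 .nil)
noncomputable def n1388 : Strat := .move 717 n1354 (.cons 716 n1378 (.cons 677 n1381 (.cons 800 n184 (.cons 839 n1387 .nil))))
noncomputable def n1389 : Strat := .move 676 n1312 (.cons 800 n182 .nil)
noncomputable def n1390 : Strat := .move 839 n145 (.cons 880 n144 .nil)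
noncomputable def n1391 : Strat := .move 841 n1355 (.cons 839 n1389 (.cons 800 n1377 (.cons 676 n1390 .nil)))
noncomputable def n1392 : Strat := .move 717 n1391 (.cons 839 n144 (.cons 675 n151 (.cons 718 n184 .nil)))
noncomputable def n1393 : Strat := .move 841 n1375 (.cons 718 n1355 (.cons 800 n1377 (.cons 676 n215 .nil)))
noncomputable def n1394 : Strat := .move 717 n1393 (.cons 839 n215 (.cons 718 n184 (.cons 716 n151 .nil)))
noncomputable def n1395 : Strat := .move 757 n138 (.cons 881 n279 .nil)
noncomputable def n1396 : Strat := .move 881 n36 (.cons 759 n41 .nil)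
noncomputable def n1397 : Strat := .move 718 n37 (.cons 677 n1396 .nil)
noncomputable def n1398 : Strat := .move 717 n42 (.cons 675 n1397 .nil)
noncomputable def n1399 : Strat := .move 881 n41 (.cons 757 n97 .nil)
noncomputable def n1400 : Strat := .move 759 n209 (.cons 881 n928 .nil)
noncomputable def n1401 : Strat := .move 718 n37 (.cons 677 n1400 .nil)
noncomputable def n1402 : Strat := .move 717 n42 (.cons 675 n1401 .nil)
noncomputable def n1403 : Strat := .move 761 n196 (.cons 760 n195 .nil)
noncomputable def n1404 : Strat := .move 720 n1110 (.cons 757 n1403 .nil)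
noncomputable def n1405 : Strat := .move 719 n1382 (.cons 756 n1404 (.cons 757 n1104 .nil))
noncomputable def n1406 : Strat := .move 718 n37 (.cons 677 n1405 .nil)
noncomputable def n1407 : Strat := .move 717 n42 (.cons 675 n1406 .nil)
noncomputable def n1408 : Strat := .move 716 n1395 (.cons 634 n1398 (.cons 717 n1399 (.cons 757 n1402 (.cons 881 n1407 .nil))))
noncomputable def n1409 : Strat := .move 759 n209 (.cons 881 n1316 .nil)
noncomputable def n1410 : Strat := .move 718 n37 (.cons 677 n1409 .nil)
noncomputable def n1411 : Strat := .win 677 3 635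
noncomputable def n1412 : Strat := .win 595 3 594
noncomputable def n1413 : Strat := .move 636 n1411 (.cons 677 n1412 .nil)
noncomputable def n1414 : Strat := .move 635 n777 (.cons 759 n1413 .nil)
noncomputable def n1415 : Strat := .move 800 n502 (.cons 841 n1414 .nil)
noncomputable def n1416 : Strat := .move 676 n146 (.cons 798 n1415 .nil)
noncomputable def n1417 : Strat := .move 839 n145 (.cons 880 n1416 .nil)
noncomputable def n1418 : Strat := .move 676 n1313 (.cons 635 n791 (.cons 841 n769 (.cons 800 n787 .nil)))
noncomputable def n1419 : Strat := .move 759 n209 (.cons 881 n1418 .nil)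
noncomputable def n1420 : Strat := .move 718 n37 (.cons 677 n1419 .nil)
noncomputable def n1421 : Strat := .move 880 n35 (.cons 839 n34 .nil)
noncomputable def n1422 : Strat := .move 881 n36 (.cons 759 n1421 .nil)
noncomputable def n1423 : Strat := .move 718 n37 (.cons 677 n1422 .nil)
noncomputable def n1424 : Strat := .move 800 n502 (.cons 841 n777 .nil)
noncomputable def n1425 : Strat := .move 635 n848 (.cons 593 n1424 .nil)
noncomputable def n1426 : Strat := .move 634 n847 (.cons 675 n1425 .nil)
noncomputable def n1427 : Strat := .move 676 n148 (.cons 636 n1426 .nil)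
noncomputable def n1428 : Strat := .move 677 n147 (.cons 718 n1427 .nil)
noncomputable def n1429 : Strat := .move 717 n1410 (.cons 718 n1417 (.cons 880 n1420 (.cons 677 n853 (.cons 676 n1423 (.cons 759 n151 (.cons 839 n1428 .nil))))))
noncomputable def n1430 : Strat := .move 757 n1069 (.cons 881 n831 .nil)
noncomputable def n1431 : Strat := .move 798 n152 (.cons 676 n1430 .nil)
noncomputable def n1432 : Strat := .move 839 n145 (.cons 880 n1431 .nil)
noncomputable def n1433 : Strat := .move 716 n42 (.cons 675 n1432 .nil)
noncomputable def n1434 : Strat := .move 635 n774 (.cons 594 n1424 .nil)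
noncomputable def n1435 : Strat := .win 756 3 715
noncomputable def n1436 : Strat := .move 879 n863 (.cons 920 n1435 .nil)
noncomputable def n1437 : Strat := .move 800 n82 (.cons 837 n502 .nil)
noncomputable def n1438 : Strat := .move 838 n1436 (.cons 756 n1437 .nil)
noncomputable def n1439 : Strat := .move 797 n313 (.cons 796 n1438 .nil)
noncomputable def n1440 : Strat := .move 759 n807 (.cons 761 n314 (.cons 760 n1439 .nil))
noncomputable def n1441 : Strat := .move 798 n723 (.cons 839 n1440 .nil)
noncomputable def n1442 : Strat := .move 676 n773 (.cons 798 n1434 (.cons 635 n1441 .nil))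
noncomputable def n1443 : Strat := .move 757 n138 (.cons 881 n1442 .nil)
noncomputable def n1444 : Strat := .move 716 n42 (.cons 675 n1443 .nil)
noncomputable def n1445 : Strat := .move 881 n41 (.cons 757 n1421 .nil)
noncomputable def n1446 : Strat := .move 716 n42 (.cons 675 n1445 .nil)
noncomputable def n1447 : Strat := .move 635 n1412 (.cons 595 n1424 .nil)
noncomputable def n1448 : Strat := .move 636 n1411 (.cons 677 n1447 .nil)
noncomputable def n1449 : Strat := .move 676 n181 (.cons 634 n1448 .nil)
noncomputable def n1450 : Strat := .move 675 n180 (.cons 716 n1449 .nil)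
noncomputable def n1451 : Strat := .move 717 n1433 (.cons 716 n1417 (.cons 880 n1444 (.cons 798 n1446 (.cons 839 n1450 .nil))))
noncomputable def n1452 : Strat := .move 759 n212 (.cons 761 n712 (.cons 760 n1118 (.cons 715 n727 .nil)))
noncomputable def n1453 : Strat := .move 716 n42 (.cons 675 n1452 .nil)
noncomputable def n1454 : Strat := .move 718 n37 (.cons 677 n1453 .nil)
noncomputable def n1455 : Strat := .move 717 n766 (.cons 716 n1420 (.cons 759 n144 (.cons 718 n1444 (.cons 881 n1454 .nil))))
noncomputable def n1456 : Strat := .move 759 n9 (.cons 718 n1015 .nil)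
noncomputable def n1457 : Strat := .move 881 n1456 (.cons 798 n354 (.cons 759 n241 .nil))
noncomputable def n1458 : Strat := .move 758 n1344 (.cons 717 n1353 (.cons 881 n1388 (.cons 759 n1392 (.cons 757 n1394 (.cons 798 n1408 (.cons 716 n1429 (.cons 718 n1451 (.cons 880 n1455 (.cons 800 n1457 .nil)))))))))
noncomputable def n1459 : Strat := .move 676 n504 (.cons 800 n787 (.cons 635 n791 .nil))
noncomputable def n1460 : Strat := .move 759 n209 (.cons 881 n1459 .nil)
noncomputable def n1461 : Strat := .move 718 n37 (.cons 677 n1460 .nil)
noncomputable def n1462 : Strat := .move 676 n773 (.cons 798 n779 (.cons 635 n781 .nil))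
noncomputable def n1463 : Strat := .move 757 n138 (.cons 881 n1462 .nil)
noncomputable def n1464 : Strat := .move 716 n42 (.cons 675 n1463 .nil)
noncomputable def n1465 : Strat := .move 757 n141 (.cons 755 n924 (.cons 719 n930 (.cons 756 n927 .nil)))
noncomputable def n1466 : Strat := .move 718 n37 (.cons 677 n1465 .nil)
noncomputable def n1467 : Strat := .move 716 n42 (.cons 675 n1466 .nil)
noncomputable def n1468 : Strat := .move 717 n710 (.cons 716 n1461 (.cons 718 n1464 (.cons 757 n215 (.cons 881 n1467 .nil))))
noncomputable def n1469 : Strat := .move 676 n148 (.cons 636 n182 .nil)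
noncomputable def n1470 : Strat := .move 677 n147 (.cons 718 n1469 .nil)
noncomputable def n1471 : Strat := .move 839 n146 (.cons 798 n1414 .nil)
noncomputable def n1472 : Strat := .move 800 n502 (.cons 841 n1471 .nil)
noncomputable def n1473 : Strat := .move 676 n181 (.cons 634 n1472 .nil)
noncomputable def n1474 : Strat := .move 675 n180 (.cons 716 n1473 .nil)
noncomputable def n1475 : Strat := .move 881 n9 (.cons 718 n98 .nil)
noncomputable def n1476 : Strat := .move 759 n503 (.cons 635 n1475 .nil)
noncomputable def n1477 : Strat := .move 800 n502 (.cons 841 n1476 .nil)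
noncomputable def n1478 : Strat := .move 676 n181 (.cons 634 n1477 .nil)
noncomputable def n1479 : Strat := .move 675 n180 (.cons 716 n1478 .nil)
noncomputable def n1480 : Strat := .move 716 n210 (.cons 715 n211 .nil)
noncomputable def n1481 : Strat := .move 761 n1154 (.cons 762 n286 .nil)
noncomputable def n1482 : Strat := .move 676 n723 (.cons 839 n503 .nil)
noncomputable def n1483 : Strat := .move 798 n788 (.cons 797 n1482 .nil)
noncomputable def n1484 : Strat := .move 802 n118 (.cons 839 n954 .nil)
noncomputable def n1485 : Strat := .move 842 n123 (.cons 843 n1027 .nil)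
noncomputable def n1486 : Strat := .move 801 n1484 (.cons 803 n1485 .nil)
noncomputable def n1487 : Strat := .move 798 n788 (.cons 797 n1486 .nil)
noncomputable def n1488 : Strat := .move 800 n644 (.cons 841 n1483 (.cons 676 n1487 .nil))
noncomputable def n1489 : Strat := .move 760 n1480 (.cons 716 n1481 (.cons 761 n1488 .nil))
noncomputable def n1490 : Strat := .move 759 n209 (.cons 881 n1489 .nil)
noncomputable def n1491 : Strat := .move 718 n37 (.cons 677 n1490 .nil)
noncomputable def n1492 : Strat := .move 676 n504 (.cons 841 n769 (.cons 800 n1314 (.cons 635 n791 .nil)))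
noncomputable def n1493 : Strat := .move 759 n209 (.cons 881 n1492 .nil)
noncomputable def n1494 : Strat := .move 718 n37 (.cons 677 n1493 .nil)
noncomputable def n1495 : Strat := .move 717 n215 (.cons 881 n1470 (.cons 718 n1474 (.cons 677 n1479 (.cons 675 n1491 (.cons 716 n1494 .nil)))))
noncomputable def n1496 : Strat := .move 676 n181 (.cons 634 n149 .nil)
noncomputable def n1497 : Strat := .move 675 n180 (.cons 716 n1496 .nil)
noncomputable def n1498 : Strat := .move 635 n785 (.cons 757 n849 .nil)
noncomputable def n1499 : Strat := .move 841 n1312 (.cons 800 n1498 .nil)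
noncomputable def n1500 : Strat := .move 798 n723 (.cons 839 n1499 .nil)
noncomputable def n1501 : Strat := .move 676 n148 (.cons 636 n1500 .nil)
noncomputable def n1502 : Strat := .move 677 n147 (.cons 718 n1501 .nil)
noncomputable def n1503 : Strat := .move 757 n722 (.cons 635 n1054 .nil)
noncomputable def n1504 : Strat := .move 798 n723 (.cons 839 n1503 .nil)
noncomputable def n1505 : Strat := .move 676 n148 (.cons 636 n1504 .nil)
noncomputable def n1506 : Strat := .move 677 n147 (.cons 718 n1505 .nil)
noncomputable def n1507 : Strat := .move 718 n139 (.cons 719 n140 .nil)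
noncomputable def n1508 : Strat := .move 676 n723 (.cons 839 n722 .nil)
noncomputable def n1509 : Strat := .move 676 n502 (.cons 841 n722 .nil)
noncomputable def n1510 : Strat := .move 800 n260 (.cons 801 n1509 .nil)
noncomputable def n1511 : Strat := .move 796 n263 (.cons 795 n77 .nil)
noncomputable def n1512 : Strat := .move 838 n82 (.cons 837 n1038 .nil)
noncomputable def n1513 : Strat := .move 797 n1511 (.cons 841 n1512 .nil)
noncomputable def n1514 : Strat := .move 800 n260 (.cons 801 n1513 .nil)
noncomputable def n1515 : Strat := .move 798 n1508 (.cons 839 n1510 (.cons 676 n1514 .nil))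
noncomputable def n1516 : Strat := .move 756 n1507 (.cons 718 n810 (.cons 755 n1515 .nil))
noncomputable def n1517 : Strat := .move 757 n138 (.cons 881 n1516 .nil)
noncomputable def n1518 : Strat := .move 716 n42 (.cons 675 n1517 .nil)
noncomputable def n1519 : Strat := .move 635 n774 (.cons 594 n1413 .nil)
noncomputable def n1520 : Strat := .move 676 n773 (.cons 839 n776 (.cons 798 n1519 (.cons 635 n781 .nil)))
noncomputable def n1521 : Strat := .move 757 n138 (.cons 881 n1520 .nil)
noncomputable def n1522 : Strat := .move 716 n42 (.cons 675 n1521 .nil)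
noncomputable def n1523 : Strat := .move 717 n144 (.cons 881 n1497 (.cons 716 n1502 (.cons 675 n1506 (.cons 677 n1518 (.cons 718 n1522 .nil)))))
noncomputable def n1524 : Strat := .move 759 n212 (.cons 761 n712 (.cons 760 n717 (.cons 715 n1114 .nil)))
noncomputable def n1525 : Strat := .move 716 n42 (.cons 675 n1524 .nil)
noncomputable def n1526 : Strat := .move 718 n37 (.cons 677 n1525 .nil)
noncomputable def n1527 : Strat := .move 714 n187 (.cons 759 n828 .nil)
noncomputable def n1528 : Strat := .move 715 n186 (.cons 760 n1527 (.cons 759 n1099 .nil))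
noncomputable def n1529 : Strat := .move 756 n140 (.cons 755 n1528 .nil)
noncomputable def n1530 : Strat := .move 757 n141 (.cons 755 n924 (.cons 756 n927 (.cons 719 n1529 .nil)))
noncomputable def n1531 : Strat := .move 718 n37 (.cons 677 n1530 .nil)
noncomputable def n1532 : Strat := .move 716 n42 (.cons 675 n1531 .nil)
noncomputable def n1533 : Strat := .move 635 n785 (.cons 757 n777 .nil)
noncomputable def n1534 : Strat := .move 800 n502 (.cons 841 n1533 .nil)
noncomputable def n1535 : Strat := .move 798 n723 (.cons 839 n1534 .nil)
noncomputable def n1536 : Strat := .move 676 n148 (.cons 636 n1535 .nil)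
noncomputable def n1537 : Strat := .move 677 n147 (.cons 718 n1536 .nil)
noncomputable def n1538 : Strat := .move 798 n723 (.cons 839 n1533 .nil)
noncomputable def n1539 : Strat := .move 800 n502 (.cons 841 n1538 .nil)
noncomputable def n1540 : Strat := .move 676 n181 (.cons 634 n1539 .nil)
noncomputable def n1541 : Strat := .move 675 n180 (.cons 716 n1540 .nil)
noncomputable def n1542 : Strat := .move 839 n829 (.cons 759 n735 .nil)
noncomputable def n1543 : Strat := .move 757 n139 (.cons 719 n1542 .nil)
noncomputable def n1544 : Strat := .move 756 n192 (.cons 755 n1543 .nil)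
noncomputable def n1545 : Strat := .move 757 n139 (.cons 719 n1099 .nil)
noncomputable def n1546 : Strat := .move 756 n192 (.cons 755 n1545 .nil)
noncomputable def n1547 : Strat := .move 715 n186 (.cons 760 n1544 (.cons 759 n1546 .nil))
noncomputable def n1548 : Strat := .move 718 n37 (.cons 677 n1547 .nil)
noncomputable def n1549 : Strat := .move 716 n42 (.cons 675 n1548 .nil)
noncomputable def n1550 : Strat := .move 717 n1467 (.cons 798 n1526 (.cons 800 n1532 (.cons 757 n1470 (.cons 716 n1537 (.cons 718 n1541 (.cons 676 n1549 .nil))))))
noncomputable def n1551 : Strat := .move 800 n99 (.cons 756 n713 .nil)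
noncomputable def n1552 : Strat := .move 801 n325 (.cons 802 n1551 .nil)
noncomputable def n1553 : Strat := .move 760 n211 (.cons 761 n1552 .nil)
noncomputable def n1554 : Strat := .move 800 n317 (.cons 802 n316 (.cons 801 n644 .nil))
noncomputable def n1555 : Strat := .move 715 n154 (.cons 714 n1554 .nil)
noncomputable def n1556 : Strat := .move 759 n808 (.cons 714 n807 (.cons 715 n1553 (.cons 760 n1555 .nil)))
noncomputable def n1557 : Strat := .move 757 n138 (.cons 881 n1556 .nil)
noncomputable def n1558 : Strat := .move 716 n42 (.cons 675 n1557 .nil)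
noncomputable def n1559 : Strat := .move 716 n212 (.cons 761 n712 (.cons 760 n717 (.cons 715 n1114 .nil)))
noncomputable def n1560 : Strat := .move 759 n209 (.cons 881 n1559 .nil)
noncomputable def n1561 : Strat := .move 718 n37 (.cons 677 n1560 .nil)
noncomputable def n1562 : Strat := .move 717 n766 (.cons 718 n1558 (.cons 675 n1561 (.cons 759 n710 (.cons 881 n1526 (.cons 716 n1127 .nil)))))
noncomputable def n1563 : Strat := .move 719 n718 (.cons 720 n1194 .nil)
noncomputable def n1564 : Strat := .move 798 n168 (.cons 760 n724 .nil)
noncomputable def n1565 : Strat := .move 797 n55 (.cons 796 n1564 .nil)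
noncomputable def n1566 : Strat := .move 756 n140 (.cons 755 n1565 .nil)
noncomputable def n1567 : Strat := .move 798 n401 (.cons 796 n408 (.cons 797 n1508 .nil))
noncomputable def n1568 : Strat := .move 719 n718 (.cons 720 n1567 .nil)
noncomputable def n1569 : Strat := .move 757 n1563 (.cons 720 n1145 (.cons 719 n1566 (.cons 756 n1568 .nil)))
noncomputable def n1570 : Strat := .move 759 n209 (.cons 881 n1569 .nil)
noncomputable def n1571 : Strat := .move 718 n37 (.cons 677 n1570 .nil)
noncomputable def n1572 : Strat := .move 718 n141 (.cons 755 n924 (.cons 756 n927 (.cons 719 n1529 .nil)))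
noncomputable def n1573 : Strat := .move 757 n138 (.cons 881 n1572 .nil)
noncomputable def n1574 : Strat := .move 716 n42 (.cons 675 n1573 .nil)
noncomputable def n1575 : Strat := .move 635 n785 (.cons 757 n1413 .nil)
noncomputable def n1576 : Strat := .move 798 n723 (.cons 839 n1575 .nil)
noncomputable def n1577 : Strat := .move 676 n181 (.cons 634 n1576 .nil)
noncomputable def n1578 : Strat := .move 675 n180 (.cons 716 n1577 .nil)
noncomputable def n1579 : Strat := .move 717 n710 (.cons 716 n1571 (.cons 677 n1574 (.cons 757 n766 (.cons 881 n1532 (.cons 718 n1578 .nil)))))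
noncomputable def n1580 : Strat := .move 963 n15 (.cons 1003 n22 .nil)
noncomputable def n1581 : Strat := .move 962 n14 (.cons 921 n1580 .nil)
noncomputable def n1582 : Strat := .move 922 n163 (.cons 798 n1581 .nil)
noncomputable def n1583 : Strat := .move 757 n46 (.cons 716 n1582 .nil)
noncomputable def n1584 : Strat := .move 881 n220 (.cons 759 n1583 (.cons 757 n687 (.cons 922 n424 .nil)))
noncomputable def n1585 : Strat := .move 839 n146 (.cons 798 n851 .nil)
noncomputable def n1586 : Strat := .move 677 n148 (.cons 636 n851 .nil)
noncomputable def n1587 : Strat := .move 675 n181 (.cons 634 n1576 .nil)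
noncomputable def n1588 : Strat := .move 759 n313 (.cons 796 n958 .nil)
noncomputable def n1589 : Strat := .move 757 n260 (.cons 801 n266 .nil)
noncomputable def n1590 : Strat := .move 756 n85 (.cons 755 n1589 .nil)
noncomputable def n1591 : Strat := .win 759 5 756
noncomputable def n1592 : Strat := .move 801 n611 (.cons 761 n1178 .nil)
noncomputable def n1593 : Strat := .move 760 n1591 (.cons 759 n1592 .nil)
noncomputable def n1594 : Strat := .move 797 n1588 (.cons 759 n1590 (.cons 796 n1593 .nil))
noncomputable def n1595 : Strat := .move 800 n502 (.cons 841 n1594 .nil)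
noncomputable def n1596 : Strat := .move 798 n723 (.cons 839 n1595 .nil)
noncomputable def n1597 : Strat := .move 676 n1585 (.cons 798 n1586 (.cons 800 n1587 (.cons 634 n1535 (.cons 635 n1596 .nil))))
noncomputable def n1598 : Strat := .move 839 n146 (.cons 798 n1477 .nil)
noncomputable def n1599 : Strat := .move 798 n723 (.cons 839 n1498 .nil)
noncomputable def n1600 : Strat := .move 841 n1312 (.cons 800 n1599 .nil)
noncomputable def n1601 : Strat := .move 759 n789 (.cons 760 n1475 .nil)
noncomputable def n1602 : Strat := .move 798 n723 (.cons 839 n1601 .nil)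
noncomputable def n1603 : Strat := .move 800 n502 (.cons 841 n1602 .nil)
noncomputable def n1604 : Strat := .move 676 n1598 (.cons 798 n1477 (.cons 759 n1600 (.cons 841 n1599 (.cons 635 n1603 .nil))))
noncomputable def n1605 : Strat := .win 883 6 718
noncomputable def n1606 : Strat := .move 798 n513 (.cons 797 n514 .nil)
noncomputable def n1607 : Strat := .move 842 n1605 (.cons 883 n1606 .nil)
noncomputable def n1608 : Strat := .move 841 n980 (.cons 676 n1607 .nil)
noncomputable def n1609 : Strat := .move 756 n47 (.cons 755 n289 .nil)
noncomputable def n1610 : Strat := .win 719 4 716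
noncomputable def n1611 : Strat := .move 761 n61 (.cons 721 n1154 .nil)
noncomputable def n1612 : Strat := .move 720 n1610 (.cons 719 n1611 .nil)
noncomputable def n1613 : Strat := .move 839 n115 (.cons 838 n152 .nil)
noncomputable def n1614 : Strat := .move 798 n297 (.cons 797 n1613 .nil)
noncomputable def n1615 : Strat := .move 760 n1155 (.cons 762 n299 (.cons 798 n1612 (.cons 761 n1614 .nil)))
noncomputable def n1616 : Strat := .move 801 n100 (.cons 802 n1615 .nil)
noncomputable def n1617 : Strat := .move 757 n1609 (.cons 755 n101 (.cons 756 n1616 .nil))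
noncomputable def n1618 : Strat := .move 678 n411 (.cons 637 n410 .nil)
noncomputable def n1619 : Strat := .move 719 n718 (.cons 720 n1618 .nil)
noncomputable def n1620 : Strat := .move 760 n1155 (.cons 762 n299 (.cons 798 n1619 .nil))
noncomputable def n1621 : Strat := .move 801 n100 (.cons 802 n1620 .nil)
noncomputable def n1622 : Strat := .move 757 n1609 (.cons 756 n1621 (.cons 719 n316 .nil))
noncomputable def n1623 : Strat := .move 798 n123 (.cons 843 n723 .nil)
noncomputable def n1624 : Strat := .win 924 7 759
noncomputable def n1625 : Strat := .win 760 7 718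
noncomputable def n1626 : Strat := .move 883 n1624 (.cons 924 n1625 .nil)
noncomputable def n1627 : Strat := .move 842 n1623 (.cons 839 n1626 .nil)
noncomputable def n1628 : Strat := .move 801 n100 (.cons 802 n1627 .nil)
noncomputable def n1629 : Strat := .move 757 n1609 (.cons 755 n101 (.cons 756 n1628 .nil))
noncomputable def n1630 : Strat := .move 676 n502 (.cons 841 n1629 .nil)
noncomputable def n1631 : Strat := .win 678 3 677
noncomputable def n1632 : Strat := .move 757 n718 (.cons 720 n1194 .nil)
noncomputable def n1633 : Strat := .move 719 n1631 (.cons 678 n1632 .nil)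
noncomputable def n1634 : Strat := .move 841 n980 (.cons 676 n1633 .nil)
noncomputable def n1635 : Strat := .move 800 n1608 (.cons 841 n1617 (.cons 676 n1622 (.cons 797 n1630 (.cons 798 n1634 .nil))))
noncomputable def n1636 : Strat := .move 759 n209 (.cons 881 n1635 .nil)
noncomputable def n1637 : Strat := .move 718 n37 (.cons 677 n1636 .nil)
noncomputable def n1638 : Strat := .move 761 n1154 (.cons 762 n60 .nil)
noncomputable def n1639 : Strat := .move 719 n718 (.cons 720 n1638 .nil)
noncomputable def n1640 : Strat := .win 841 2 798
noncomputable def n1641 : Strat := .win 800 0 798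
noncomputable def n1642 : Strat := .move 843 n1640 (.cons 841 n1641 .nil)
noncomputable def n1643 : Strat := .move 842 n1027 (.cons 883 n1642 .nil)
noncomputable def n1644 : Strat := .move 798 n297 (.cons 797 n1643 .nil)
noncomputable def n1645 : Strat := .move 801 n325 (.cons 802 n1644 .nil)
noncomputable def n1646 : Strat := .move 760 n1481 (.cons 798 n1639 (.cons 762 n1198 (.cons 761 n1645 .nil)))
noncomputable def n1647 : Strat := .move 757 n1145 (.cons 719 n1158 (.cons 755 n1563 (.cons 756 n1646 .nil)))
noncomputable def n1648 : Strat := .move 759 n209 (.cons 881 n1647 .nil)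
noncomputable def n1649 : Strat := .move 718 n37 (.cons 677 n1648 .nil)
noncomputable def n1650 : Strat := .move 717 n1461 (.cons 718 n1597 (.cons 677 n1604 (.cons 800 n1571 (.cons 759 n1502 (.cons 798 n1127 (.cons 635 n1637 (.cons 676 n1649 .nil)))))))
noncomputable def n1651 : Strat := .move 841 n1312 (.cons 800 n1504 .nil)
noncomputable def n1652 : Strat := .move 839 n146 (.cons 798 n1415 .nil)
noncomputable def n1653 : Strat := .move 757 n261 (.cons 756 n1054 .nil)
noncomputable def n1654 : Strat := .move 800 n502 (.cons 841 n1653 .nil)
noncomputable def n1655 : Strat := .move 798 n723 (.cons 839 n1654 .nil)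
noncomputable def n1656 : Strat := .move 676 n1651 (.cons 800 n1504 (.cons 757 n1652 (.cons 839 n1415 (.cons 635 n1655 .nil))))
noncomputable def n1657 : Strat := .move 839 n152 (.cons 676 n826 .nil)
noncomputable def n1658 : Strat := .win 715 0 714
noncomputable def n1659 : Strat := .move 755 n328 (.cons 713 n327 .nil)
noncomputable def n1660 : Strat := .move 714 n1658 (.cons 715 n1659 .nil)
noncomputable def n1661 : Strat := .move 841 n75 (.cons 842 n980 .nil)
noncomputable def n1662 : Strat := .move 800 n48 (.cons 801 n1661 .nil)
noncomputable def n1663 : Strat := .move 756 n429 (.cons 800 n1660 (.cons 754 n371 (.cons 755 n1662 .nil)))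
noncomputable def n1664 : Strat := .move 797 n313 (.cons 796 n1663 .nil)
noncomputable def n1665 : Strat := .move 759 n807 (.cons 761 n314 (.cons 760 n1664 .nil))
noncomputable def n1666 : Strat := .move 674 n171 (.cons 633 n170 .nil)
noncomputable def n1667 : Strat := .move 715 n154 (.cons 714 n1666 .nil)
noncomputable def n1668 : Strat := .move 756 n429 (.cons 800 n1667 .nil)
noncomputable def n1669 : Strat := .move 797 n313 (.cons 796 n1668 .nil)
noncomputable def n1670 : Strat := .move 760 n211 (.cons 761 n297 .nil)
noncomputable def n1671 : Strat := .move 759 n807 (.cons 760 n1669 (.cons 715 n1670 .nil))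
noncomputable def n1672 : Strat := .move 839 n152 (.cons 676 n157 .nil)
noncomputable def n1673 : Strat := .move 798 n1657 (.cons 839 n1665 (.cons 676 n1671 (.cons 800 n1672 .nil)))
noncomputable def n1674 : Strat := .move 757 n138 (.cons 881 n1673 .nil)
noncomputable def n1675 : Strat := .move 716 n42 (.cons 675 n1674 .nil)
noncomputable def n1676 : Strat := .move 755 n809 (.cons 754 n50 .nil)
noncomputable def n1677 : Strat := .move 756 n55 (.cons 796 n1676 .nil)
noncomputable def n1678 : Strat := .move 797 n56 (.cons 798 n1677 .nil)
noncomputable def n1679 : Strat := .move 760 n211 (.cons 761 n1678 .nil)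
noncomputable def n1680 : Strat := .move 715 n154 (.cons 714 n812 .nil)
noncomputable def n1681 : Strat := .win 839 5 796
noncomputable def n1682 : Strat := .win 798 4 796
noncomputable def n1683 : Strat := .move 837 n1681 (.cons 839 n1682 .nil)
noncomputable def n1684 : Strat := .move 838 n1038 (.cons 879 n1683 .nil)
noncomputable def n1685 : Strat := .move 800 n48 (.cons 801 n1684 .nil)
noncomputable def n1686 : Strat := .move 797 n55 (.cons 796 n1685 .nil)
noncomputable def n1687 : Strat := .move 756 n810 (.cons 800 n1680 (.cons 754 n49 (.cons 755 n1686 .nil)))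
noncomputable def n1688 : Strat := .move 759 n807 (.cons 715 n1679 (.cons 761 n808 (.cons 760 n1687 .nil)))
noncomputable def n1689 : Strat := .move 757 n138 (.cons 881 n1688 .nil)
noncomputable def n1690 : Strat := .move 716 n42 (.cons 675 n1689 .nil)
noncomputable def n1691 : Strat := .move 717 n1464 (.cons 716 n1597 (.cons 675 n1656 (.cons 798 n1558 (.cons 757 n1474 (.cons 800 n1578 (.cons 635 n1675 (.cons 676 n1690 .nil)))))))
noncomputable def n1692 : Strat := .move 758 n1468 (.cons 757 n1495 (.cons 759 n1523 (.cons 881 n1550 (.cons 798 n1562 (.cons 800 n1579 (.cons 675 n1584 (.cons 716 n1650 (.cons 718 n1691 .nil))))))))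
noncomputable def n1693 : Strat := .move 716 n42 (.cons 675 n1397 .nil)
noncomputable def n1694 : Strat := .move 717 n1693 (.cons 759 n184 (.cons 716 n1144 .nil))
noncomputable def n1695 : Strat := .move 798 n395 (.cons 839 n298 .nil)
noncomputable def n1696 : Strat := .move 715 n169 (.cons 714 n1695 .nil)
noncomputable def n1697 : Strat := .move 760 n325 (.cons 802 n1696 .nil)
noncomputable def n1698 : Strat := .move 801 n326 (.cons 800 n1697 .nil)
noncomputable def n1699 : Strat := .win 798 0 754
noncomputable def n1700 : Strat := .win 794 4 753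
noncomputable def n1701 : Strat := .win 796 4 754
noncomputable def n1702 : Strat := .move 795 n1700 (.cons 794 n1701 .nil)
noncomputable def n1703 : Strat := .move 754 n1699 (.cons 798 n1702 .nil)
noncomputable def n1704 : Strat := .move 755 n328 (.cons 713 n1703 .nil)
noncomputable def n1705 : Strat := .move 714 n57 (.cons 715 n1704 .nil)
noncomputable def n1706 : Strat := .move 756 n49 (.cons 755 n1698 (.cons 800 n1705 .nil))
noncomputable def n1707 : Strat := .move 880 n34 (.cons 921 n1706 .nil)
noncomputable def n1708 : Strat := .move 759 n9 (.cons 718 n1707 .nil)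
noncomputable def n1709 : Strat := .move 800 n98 (.cons 922 n317 .nil)
noncomputable def n1710 : Strat := .move 759 n9 (.cons 718 n1709 .nil)
noncomputable def n1711 : Strat := .move 881 n164 (.cons 922 n1708 (.cons 800 n166 (.cons 798 n1710 .nil)))
noncomputable def n1712 : Strat := .move 881 n46 (.cons 716 n1710 .nil)
noncomputable def n1713 : Strat := .win 798 2 756
noncomputable def n1714 : Strat := .move 801 n836 (.cons 759 n1713 .nil)
noncomputable def n1715 : Strat := .move 756 n47 (.cons 755 n1714 .nil)
noncomputable def n1716 : Strat := .move 756 n836 (.cons 759 n1713 .nil)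
noncomputable def n1717 : Strat := .move 801 n100 (.cons 802 n1716 .nil)
noncomputable def n1718 : Strat := .win 841 4 838
noncomputable def n1719 : Strat := .move 879 n1718 (.cons 841 n382 .nil)
noncomputable def n1720 : Strat := .move 880 n1329 (.cons 921 n1719 .nil)
noncomputable def n1721 : Strat := .move 842 n123 (.cons 843 n1720 .nil)
noncomputable def n1722 : Strat := .move 839 n115 (.cons 838 n1721 .nil)
noncomputable def n1723 : Strat := .win 759 2 715
noncomputable def n1724 : Strat := .move 715 n1723 (.cons 759 n153 .nil)
noncomputable def n1725 : Strat := .move 716 n1019 (.cons 675 n1724 .nil)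
noncomputable def n1726 : Strat := .move 760 n611 (.cons 761 n1725 .nil)
noncomputable def n1727 : Strat := .move 842 n123 (.cons 843 n1726 .nil)
noncomputable def n1728 : Strat := .move 839 n115 (.cons 838 n1727 .nil)
noncomputable def n1729 : Strat := .move 759 n1206 (.cons 675 n1028 .nil)
noncomputable def n1730 : Strat := .move 842 n123 (.cons 843 n1729 .nil)
noncomputable def n1731 : Strat := .move 760 n611 (.cons 761 n1730 .nil)
noncomputable def n1732 : Strat := .move 760 n611 (.cons 761 n1724 .nil)
noncomputable def n1733 : Strat := .move 716 n1019 (.cons 675 n1732 .nil)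
noncomputable def n1734 : Strat := .move 839 n115 (.cons 838 n1733 .nil)
noncomputable def n1735 : Strat := .move 798 n1722 (.cons 920 n1728 (.cons 839 n1731 (.cons 842 n1734 .nil)))
noncomputable def n1736 : Strat := .move 801 n100 (.cons 802 n1735 .nil)
noncomputable def n1737 : Strat := .move 842 n123 (.cons 843 n1719 .nil)
noncomputable def n1738 : Strat := .move 716 n1019 (.cons 675 n1737 .nil)
noncomputable def n1739 : Strat := .move 880 n1329 (.cons 921 n1738 .nil)
noncomputable def n1740 : Strat := .move 839 n115 (.cons 838 n1739 .nil)
noncomputable def n1741 : Strat := .move 798 n258 (.cons 756 n1740 .nil)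
noncomputable def n1742 : Strat := .move 801 n100 (.cons 802 n1741 .nil)
noncomputable def n1743 : Strat := .win 716 2 715
noncomputable def n1744 : Strat := .move 761 n286 (.cons 798 n541 .nil)
noncomputable def n1745 : Strat := .move 760 n1743 (.cons 716 n1744 .nil)
noncomputable def n1746 : Strat := .move 715 n169 (.cons 714 n1745 .nil)
noncomputable def n1747 : Strat := .move 759 n309 (.cons 718 n1746 .nil)
noncomputable def n1748 : Strat := .move 756 n47 (.cons 755 n1747 .nil)
noncomputable def n1749 : Strat := .move 800 n838 (.cons 802 n1715 (.cons 755 n1717 (.cons 756 n1736 (.cons 759 n1742 (.cons 801 n1748 .nil)))))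
noncomputable def n1750 : Strat := .move 757 n303 (.cons 716 n1711 (.cons 798 n1712 (.cons 881 n1749 .nil)))
noncomputable def n1751 : Strat := .move 759 n503 (.cons 635 n739 .nil)
noncomputable def n1752 : Strat := .move 800 n502 (.cons 841 n1751 .nil)
noncomputable def n1753 : Strat := .move 676 n146 (.cons 798 n1752 .nil)
noncomputable def n1754 : Strat := .move 839 n145 (.cons 880 n1753 .nil)
noncomputable def n1755 : Strat := .move 716 n42 (.cons 675 n1754 .nil)
noncomputable def n1756 : Strat := .move 718 n37 (.cons 677 n1755 .nil)
noncomputable def n1757 : Strat := .move 756 n193 (.cons 757 n192 .nil)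
noncomputable def n1758 : Strat := .move 719 n731 (.cons 761 n1757 .nil)
noncomputable def n1759 : Strat := .move 760 n732 (.cons 759 n1758 .nil)
noncomputable def n1760 : Strat := .move 757 n139 (.cons 719 n735 .nil)
noncomputable def n1761 : Strat := .move 756 n192 (.cons 755 n1760 .nil)
noncomputable def n1762 : Strat := .move 715 n186 (.cons 714 n1759 (.cons 759 n1761 .nil))
noncomputable def n1763 : Strat := .move 839 n145 (.cons 880 n1762 .nil)
noncomputable def n1764 : Strat := .move 718 n37 (.cons 677 n1763 .nil)
noncomputable def n1765 : Strat := .move 716 n42 (.cons 675 n1764 .nil)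
noncomputable def n1766 : Strat := .move 719 n1109 (.cons 757 n755 .nil)
noncomputable def n1767 : Strat := .move 760 n211 (.cons 761 n1766 .nil)
noncomputable def n1768 : Strat := .move 759 n212 (.cons 761 n712 (.cons 715 n1767 (.cons 760 n1118 .nil)))
noncomputable def n1769 : Strat := .move 716 n42 (.cons 675 n1768 .nil)
noncomputable def n1770 : Strat := .move 718 n37 (.cons 677 n1769 .nil)
noncomputable def n1771 : Strat := .move 717 n1756 (.cons 718 n184 (.cons 716 n151 (.cons 676 n1765 (.cons 798 n1770 .nil))))
noncomputable def n1772 : Strat := .move 717 n215 (.cons 759 n184 (.cons 716 n151 .nil))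
noncomputable def n1773 : Strat := .move 717 n37 (.cons 677 n239 .nil)
noncomputable def n1774 : Strat := .move 718 n36 (.cons 759 n1773 .nil)
noncomputable def n1775 : Strat := .move 881 n165 (.cons 759 n167 (.cons 922 n1774 (.cons 757 n97 .nil)))
noncomputable def n1776 : Strat := .move 717 n184 (.cons 716 n151 (.cons 798 n710 .nil))
noncomputable def n1777 : Strat := .move 839 n146 (.cons 798 n779 .nil)
noncomputable def n1778 : Strat := .move 676 n1777 (.cons 635 n781 (.cons 839 n776 (.cons 798 n779 .nil)))
noncomputable def n1779 : Strat := .move 757 n138 (.cons 881 n1778 .nil)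
noncomputable def n1780 : Strat := .move 716 n42 (.cons 675 n1779 .nil)
noncomputable def n1781 : Strat := .move 798 n722 (.cons 635 n780 .nil)
noncomputable def n1782 : Strat := .move 801 n100 (.cons 802 n836 .nil)
noncomputable def n1783 : Strat := .move 756 n47 (.cons 755 n1782 .nil)
noncomputable def n1784 : Strat := .move 800 n502 (.cons 841 n1783 .nil)
noncomputable def n1785 : Strat := .move 676 n1781 (.cons 800 n776 (.cons 798 n1434 (.cons 635 n1784 .nil)))
noncomputable def n1786 : Strat := .move 757 n138 (.cons 881 n1785 .nil)
noncomputable def n1787 : Strat := .move 716 n42 (.cons 675 n1786 .nil)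
noncomputable def n1788 : Strat := .move 717 n184 (.cons 716 n853 (.cons 880 n1780 (.cons 675 n1417 (.cons 798 n1446 (.cons 839 n1787 .nil)))))
noncomputable def n1789 : Strat := .move 798 n723 (.cons 839 n785 .nil)
noncomputable def n1790 : Strat := .move 635 n767 (.cons 594 n1789 .nil)
noncomputable def n1791 : Strat := .move 800 n502 (.cons 841 n1629 .nil)
noncomputable def n1792 : Strat := .move 676 n504 (.cons 800 n1790 (.cons 635 n1791 .nil))
noncomputable def n1793 : Strat := .move 759 n209 (.cons 881 n1792 .nil)
noncomputable def n1794 : Strat := .move 718 n37 (.cons 677 n1793 .nil)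
noncomputable def n1795 : Strat := .win 672 2 672
noncomputable def n1796 : Strat := .move 673 n1795 (.cons 672 n194 .nil)
noncomputable def n1797 : Strat := .move 714 n828 (.cons 713 n1796 .nil)
noncomputable def n1798 : Strat := .move 715 n732 (.cons 759 n1797 .nil)
noncomputable def n1799 : Strat := .move 760 n731 (.cons 761 n1798 .nil)
noncomputable def n1800 : Strat := .move 719 n718 (.cons 720 n1799 .nil)
noncomputable def n1801 : Strat := .move 757 n141 (.cons 755 n924 (.cons 756 n1800 (.cons 719 n930 .nil)))
noncomputable def n1802 : Strat := .move 718 n37 (.cons 677 n1801 .nil)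
noncomputable def n1803 : Strat := .move 716 n42 (.cons 675 n1802 .nil)
noncomputable def n1804 : Strat := .move 717 n710 (.cons 718 n1780 (.cons 757 n215 (.cons 716 n1794 (.cons 881 n1803 .nil))))
noncomputable def n1805 : Strat := .move 881 n97 (.cons 759 n241 (.cons 921 n104 .nil))
noncomputable def n1806 : Strat := .win 798 6 757
noncomputable def n1807 : Strat := .move 963 n229 (.cons 1004 n3 .nil)
noncomputable def n1808 : Strat := .move 800 n2 (.cons 759 n1807 .nil)
noncomputable def n1809 : Strat := .move 922 n1806 (.cons 798 n1808 .nil)
noncomputable def n1810 : Strat := .move 757 n46 (.cons 716 n1809 .nil)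
noncomputable def n1811 : Strat := .move 839 n224 (.cons 717 n1810 .nil)
noncomputable def n1812 : Strat := .move 880 n34 (.cons 921 n1811 .nil)
noncomputable def n1813 : Strat := .move 922 n1806 (.cons 798 n231 .nil)
noncomputable def n1814 : Strat := .move 757 n46 (.cons 716 n1813 .nil)
noncomputable def n1815 : Strat := .move 839 n224 (.cons 717 n1814 .nil)
noncomputable def n1816 : Strat := .move 880 n34 (.cons 921 n1815 .nil)
noncomputable def n1817 : Strat := .move 715 n169 (.cons 714 n695 .nil)
noncomputable def n1818 : Strat := .move 756 n47 (.cons 755 n1817 .nil)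
noncomputable def n1819 : Strat := .move 800 n317 (.cons 802 n316 (.cons 801 n1818 (.cons 756 n1147 .nil)))
noncomputable def n1820 : Strat := .move 759 n9 (.cons 718 n1819 .nil)
noncomputable def n1821 : Strat := .move 757 n46 (.cons 716 n1820 .nil)
noncomputable def n1822 : Strat := .move 839 n224 (.cons 717 n1821 .nil)
noncomputable def n1823 : Strat := .move 880 n34 (.cons 921 n1822 .nil)
noncomputable def n1824 : Strat := .move 881 n1812 (.cons 880 n441 (.cons 800 n1816 (.cons 798 n97 (.cons 922 n1823 .nil))))
noncomputable def n1825 : Strat := .move 757 n1806 (.cons 798 n1808 .nil)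
noncomputable def n1826 : Strat := .move 757 n1806 (.cons 798 n231 .nil)
noncomputable def n1827 : Strat := .move 922 n1825 (.cons 800 n1826 (.cons 798 n11 .nil))
noncomputable def n1828 : Strat := .move 839 n224 (.cons 717 n1827 .nil)
noncomputable def n1829 : Strat := .move 880 n34 (.cons 921 n1828 .nil)
noncomputable def n1830 : Strat := .move 922 n1825 (.cons 963 n235 (.cons 757 n230 (.cons 798 n1808 .nil)))
noncomputable def n1831 : Strat := .move 839 n224 (.cons 717 n1830 .nil)
noncomputable def n1832 : Strat := .move 880 n34 (.cons 921 n1831 .nil)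
noncomputable def n1833 : Strat := .move 759 n9 (.cons 718 n1297 .nil)
noncomputable def n1834 : Strat := .move 881 n1829 (.cons 880 n347 (.cons 718 n1832 (.cons 921 n1833 (.cons 922 n354 (.cons 839 n97 (.cons 759 n359 .nil))))))
noncomputable def n1835 : Strat := .move 758 n1694 (.cons 717 n1750 (.cons 881 n1771 (.cons 757 n1772 (.cons 839 n1775 (.cons 759 n1776 (.cons 718 n1788 (.cons 880 n1804 (.cons 798 n1805 (.cons 675 n1824 (.cons 716 n1834 .nil))))))))))
noncomputable def n1836 : Strat := .move 881 n40 (.cons 759 n45 (.cons 839 n70 .nil))
noncomputable def n1837 : Strat := .move 759 n212 (.cons 761 n712 (.cons 760 n1118 (.cons 715 n1114 .nil)))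
noncomputable def n1838 : Strat := .move 716 n42 (.cons 675 n1837 .nil)
noncomputable def n1839 : Strat := .move 718 n37 (.cons 677 n1838 .nil)
noncomputable def n1840 : Strat := .move 717 n151 (.cons 718 n184 (.cons 798 n1839 .nil))
noncomputable def n1841 : Strat := .move 839 n145 (.cons 880 n215 .nil)
noncomputable def n1842 : Strat := .move 841 n1355 (.cons 880 n1375 (.cons 676 n1841 .nil))
noncomputable def n1843 : Strat := .move 717 n1842 (.cons 677 n184 (.cons 716 n151 (.cons 676 n215 .nil)))
noncomputable def n1844 : Strat := .move 881 n46 (.cons 716 n221 .nil)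
noncomputable def n1845 : Strat := .move 881 n9 (.cons 718 n68 .nil)
noncomputable def n1846 : Strat := .move 756 n49 (.cons 800 n291 (.cons 755 n310 .nil))
noncomputable def n1847 : Strat := .move 802 n59 (.cons 801 n58 .nil)
noncomputable def n1848 : Strat := .move 761 n286 (.cons 798 n1847 .nil)
noncomputable def n1849 : Strat := .move 755 n329 (.cons 715 n811 .nil)
noncomputable def n1850 : Strat := .move 761 n61 (.cons 721 n1849 .nil)
noncomputable def n1851 : Strat := .move 720 n62 (.cons 719 n1850 .nil)
noncomputable def n1852 : Strat := .move 756 n326 (.cons 800 n1851 .nil)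
noncomputable def n1853 : Strat := .move 801 n325 (.cons 802 n1852 .nil)
noncomputable def n1854 : Strat := .move 798 n297 (.cons 797 n332 .nil)
noncomputable def n1855 : Strat := .move 760 n299 (.cons 797 n1848 (.cons 798 n1853 (.cons 761 n1854 .nil)))
noncomputable def n1856 : Strat := .move 759 n307 (.cons 677 n1845 (.cons 881 n1846 (.cons 718 n1855 .nil)))
noncomputable def n1857 : Strat := .move 797 n55 (.cons 796 n330 .nil)
noncomputable def n1858 : Strat := .move 718 n289 (.cons 719 n308 .nil)
noncomputable def n1859 : Strat := .move 800 n48 (.cons 801 n1858 .nil)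
noncomputable def n1860 : Strat := .move 797 n55 (.cons 796 n1859 .nil)
noncomputable def n1861 : Strat := .move 798 n49 (.cons 801 n1273 (.cons 800 n1857 (.cons 755 n1860 .nil)))
noncomputable def n1862 : Strat := .move 756 n1861 (.cons 800 n291 (.cons 755 n295 (.cons 718 n49 .nil)))
noncomputable def n1863 : Strat := .move 761 n285 (.cons 717 n1847 .nil)
noncomputable def n1864 : Strat := .move 760 n284 (.cons 715 n1863 .nil)
noncomputable def n1865 : Strat := .move 756 n55 (.cons 796 n49 .nil)
noncomputable def n1866 : Strat := .move 797 n56 (.cons 798 n1865 .nil)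
noncomputable def n1867 : Strat := .move 760 n287 (.cons 798 n1863 (.cons 717 n299 (.cons 761 n1866 .nil)))
noncomputable def n1868 : Strat := .move 759 n288 (.cons 760 n1862 (.cons 717 n300 (.cons 798 n1864 (.cons 715 n1867 .nil))))
noncomputable def n1869 : Strat := .move 716 n279 (.cons 717 n282 (.cons 634 n283 (.cons 675 n1868 .nil)))
noncomputable def n1870 : Strat := .move 757 n280 (.cons 675 n1844 (.cons 716 n1856 (.cons 881 n1869 .nil)))
noncomputable def n1871 : Strat := .move 759 n209 (.cons 881 n644 .nil)
noncomputable def n1872 : Strat := .move 718 n37 (.cons 677 n1871 .nil)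
noncomputable def n1873 : Strat := .move 676 n502 (.cons 841 n182 .nil)
noncomputable def n1874 : Strat := .move 800 n1872 (.cons 759 n1873 (.cons 676 n215 .nil))
noncomputable def n1875 : Strat := .move 716 n212 (.cons 761 n712 (.cons 760 n1118 (.cons 715 n1114 .nil)))
noncomputable def n1876 : Strat := .move 759 n209 (.cons 881 n1875 .nil)
noncomputable def n1877 : Strat := .move 718 n37 (.cons 677 n1876 .nil)
noncomputable def n1878 : Strat := .win 881 1 717
noncomputable def n1879 : Strat := .move 759 n1878 (.cons 881 n1633 .nil)
noncomputable def n1880 : Strat := .move 718 n37 (.cons 677 n1879 .nil)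
noncomputable def n1881 : Strat := .move 800 n980 (.cons 676 n1880 .nil)
noncomputable def n1882 : Strat := .move 881 n34 (.cons 921 n36 .nil)
noncomputable def n1883 : Strat := .move 880 n35 (.cons 839 n1882 .nil)
noncomputable def n1884 : Strat := .move 718 n37 (.cons 677 n1883 .nil)
noncomputable def n1885 : Strat := .move 839 n145 (.cons 880 n878 .nil)
noncomputable def n1886 : Strat := .move 800 n980 (.cons 676 n1885 .nil)
noncomputable def n1887 : Strat := .move 841 n1881 (.cons 759 n1375 (.cons 800 n1884 (.cons 677 n1886 .nil)))
noncomputable def n1888 : Strat := .move 717 n1874 (.cons 718 n846 (.cons 675 n1877 (.cons 759 n710 (.cons 881 n1839 (.cons 716 n1887 .nil)))))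
noncomputable def n1889 : Strat := .move 717 n145 (.cons 880 n150 .nil)
noncomputable def n1890 : Strat := .win 881 1 757
noncomputable def n1891 : Strat := .win 962 3 798
noncomputable def n1892 : Strat := .move 921 n1890 (.cons 881 n1891 .nil)
noncomputable def n1893 : Strat := .move 880 n224 (.cons 717 n1892 .nil)
noncomputable def n1894 : Strat := .move 838 n232 (.cons 837 n243 .nil)
noncomputable def n1895 : Strat := .move 801 n116 (.cons 802 n1894 .nil)
noncomputable def n1896 : Strat := .move 801 n243 (.cons 798 n840 .nil)
noncomputable def n1897 : Strat := .move 838 n232 (.cons 837 n1896 .nil)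
noncomputable def n1898 : Strat := .move 801 n116 (.cons 802 n841 .nil)
noncomputable def n1899 : Strat := .move 838 n243 (.cons 798 n840 .nil)
noncomputable def n1900 : Strat := .move 801 n116 (.cons 802 n1899 .nil)
noncomputable def n1901 : Strat := .move 718 n1878 (.cons 881 n308 .nil)
noncomputable def n1902 : Strat := .move 759 n958 (.cons 760 n1901 .nil)
noncomputable def n1903 : Strat := .move 717 n152 (.cons 676 n1902 .nil)
noncomputable def n1904 : Strat := .move 798 n75 (.cons 842 n1903 .nil)
noncomputable def n1905 : Strat := .move 797 n494 (.cons 796 n1904 .nil)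
noncomputable def n1906 : Strat := .win 798 0 797
noncomputable def n1907 : Strat := .win 844 2 799
noncomputable def n1908 : Strat := .move 884 n1364 (.cons 885 n1363 .nil)
noncomputable def n1909 : Strat := .move 843 n1907 (.cons 844 n1908 .nil)
noncomputable def n1910 : Strat := .move 842 n1906 (.cons 798 n1909 .nil)
noncomputable def n1911 : Strat := .move 797 n494 (.cons 796 n1910 .nil)
noncomputable def n1912 : Strat := .move 720 n1111 (.cons 721 n1110 .nil)
noncomputable def n1913 : Strat := .move 719 n1631 (.cons 678 n1912 .nil)
noncomputable def n1914 : Strat := .move 759 n1878 (.cons 881 n1913 .nil)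
noncomputable def n1915 : Strat := .move 718 n37 (.cons 677 n1914 .nil)
noncomputable def n1916 : Strat := .move 717 n980 (.cons 676 n1915 .nil)
noncomputable def n1917 : Strat := .move 841 n1905 (.cons 760 n1911 (.cons 797 n1916 .nil))
noncomputable def n1918 : Strat := .move 838 n232 (.cons 837 n1917 .nil)
noncomputable def n1919 : Strat := .move 797 n124 (.cons 841 n1588 .nil)
noncomputable def n1920 : Strat := .move 842 n123 (.cons 843 n1919 .nil)
noncomputable def n1921 : Strat := .move 718 n209 (.cons 881 n308 .nil)
noncomputable def n1922 : Strat := .move 759 n789 (.cons 761 n959 (.cons 760 n1921 .nil))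
noncomputable def n1923 : Strat := .move 759 n1605 (.cons 883 n1878 .nil)
noncomputable def n1924 : Strat := .move 718 n37 (.cons 677 n1923 .nil)
noncomputable def n1925 : Strat := .move 717 n152 (.cons 676 n1924 .nil)
noncomputable def n1926 : Strat := .move 841 n513 (.cons 797 n1925 .nil)
noncomputable def n1927 : Strat := .move 842 n123 (.cons 843 n1926 .nil)
noncomputable def n1928 : Strat := .move 797 n124 (.cons 841 n1178 .nil)
noncomputable def n1929 : Strat := .move 842 n123 (.cons 843 n1928 .nil)
noncomputable def n1930 : Strat := .move 842 n1027 (.cons 883 n123 .nil)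
noncomputable def n1931 : Strat := .move 760 n298 (.cons 761 n1930 .nil)
noncomputable def n1932 : Strat := .move 759 n209 (.cons 881 n1931 .nil)
noncomputable def n1933 : Strat := .move 718 n37 (.cons 677 n1932 .nil)
noncomputable def n1934 : Strat := .move 717 n152 (.cons 676 n1933 .nil)
noncomputable def n1935 : Strat := .move 798 n1920 (.cons 843 n1922 (.cons 796 n1927 (.cons 759 n1929 (.cons 797 n1934 .nil))))
noncomputable def n1936 : Strat := .move 801 n116 (.cons 802 n1935 .nil)
noncomputable def n1937 : Strat := .move 800 n1895 (.cons 802 n1897 (.cons 798 n1898 (.cons 837 n1900 (.cons 801 n1918 (.cons 838 n1936 .nil)))))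
noncomputable def n1938 : Strat := .win 798 3 757
noncomputable def n1939 : Strat := .move 921 n1890 (.cons 881 n1938 .nil)
noncomputable def n1940 : Strat := .move 921 n1938 (.cons 798 n1891 .nil)
noncomputable def n1941 : Strat := .win 801 5 797
noncomputable def n1942 : Strat := .move 841 n1941 (.cons 801 n943 .nil)
noncomputable def n1943 : Strat := .move 838 n232 (.cons 837 n1942 .nil)
noncomputable def n1944 : Strat := .move 841 n475 (.cons 879 n513 .nil)
noncomputable def n1945 : Strat := .move 842 n123 (.cons 843 n1944 .nil)
noncomputable def n1946 : Strat := .move 798 n115 (.cons 838 n1945 .nil)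
noncomputable def n1947 : Strat := .move 801 n116 (.cons 802 n1946 .nil)
noncomputable def n1948 : Strat := .win 881 4 839
noncomputable def n1949 : Strat := .move 843 n1948 (.cons 881 n1907 .nil)
noncomputable def n1950 : Strat := .move 842 n1906 (.cons 798 n1949 .nil)
noncomputable def n1951 : Strat := .move 797 n494 (.cons 796 n1950 .nil)
noncomputable def n1952 : Strat := .win 798 2 755
noncomputable def n1953 : Strat := .win 757 0 755
noncomputable def n1954 : Strat := .move 755 n1952 (.cons 798 n1953 .nil)
noncomputable def n1955 : Strat := .move 756 n888 (.cons 715 n1954 .nil)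
noncomputable def n1956 : Strat := .move 879 n862 (.cons 878 n1955 .nil)
noncomputable def n1957 : Strat := .move 797 n494 (.cons 796 n1956 .nil)
noncomputable def n1958 : Strat := .move 841 n943 (.cons 879 n1951 (.cons 842 n1957 .nil))
noncomputable def n1959 : Strat := .move 838 n232 (.cons 837 n1958 .nil)
noncomputable def n1960 : Strat := .move 796 n854 (.cons 759 n579 .nil)
noncomputable def n1961 : Strat := .move 760 n610 (.cons 759 n611 .nil)
noncomputable def n1962 : Strat := .move 797 n939 (.cons 795 n658 (.cons 841 n1960 (.cons 796 n1961 .nil)))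
noncomputable def n1963 : Strat := .move 757 n258 (.cons 756 n1962 .nil)
noncomputable def n1964 : Strat := .move 718 n308 (.cons 677 n209 .nil)
noncomputable def n1965 : Strat := .move 759 n297 (.cons 797 n1964 .nil)
noncomputable def n1966 : Strat := .move 760 n611 (.cons 761 n1965 .nil)
noncomputable def n1967 : Strat := .move 757 n258 (.cons 756 n1966 .nil)
noncomputable def n1968 : Strat := .move 879 n382 (.cons 920 n1718 .nil)
noncomputable def n1969 : Strat := .move 842 n123 (.cons 843 n1968 .nil)
noncomputable def n1970 : Strat := .move 757 n258 (.cons 756 n1969 .nil)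
noncomputable def n1971 : Strat := .move 798 n1945 (.cons 843 n1963 (.cons 842 n1967 (.cons 797 n1970 .nil)))
noncomputable def n1972 : Strat := .move 801 n116 (.cons 802 n1971 .nil)
noncomputable def n1973 : Strat := .move 800 n1895 (.cons 798 n1898 (.cons 802 n1943 (.cons 837 n1947 (.cons 801 n1959 (.cons 838 n1972 .nil)))))
noncomputable def n1974 : Strat := .move 880 n1939 (.cons 798 n1892 (.cons 881 n1940 (.cons 921 n1973 .nil)))
noncomputable def n1975 : Strat := .move 839 n1889 (.cons 798 n1893 (.cons 880 n1937 (.cons 717 n1974 .nil)))
noncomputable def n1976 : Strat := .move 841 n75 (.cons 842 n1089 .nil)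
noncomputable def n1977 : Strat := .move 838 n82 (.cons 837 n1976 .nil)
noncomputable def n1978 : Strat := .move 800 n857 (.cons 837 n602 (.cons 801 n1977 (.cons 838 n859 .nil)))
noncomputable def n1979 : Strat := .move 797 n659 (.cons 841 n855 (.cons 795 n856 (.cons 796 n1978 .nil)))
noncomputable def n1980 : Strat := .move 798 n152 (.cons 676 n1979 .nil)
noncomputable def n1981 : Strat := .move 839 n145 (.cons 880 n1980 .nil)
noncomputable def n1982 : Strat := .move 717 n184 (.cons 839 n822 (.cons 676 n915 (.cons 798 n846 (.cons 716 n853 (.cons 675 n1981 .nil)))))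
noncomputable def n1983 : Strat := .move 798 n401 (.cons 760 n403 (.cons 796 n408 (.cons 797 n399 .nil)))
noncomputable def n1984 : Strat := .move 880 n34 (.cons 921 n1983 .nil)
noncomputable def n1985 : Strat := .move 757 n46 (.cons 716 n1984 .nil)
noncomputable def n1986 : Strat := .move 881 n9 (.cons 718 n1985 .nil)
noncomputable def n1987 : Strat := .move 801 n964 (.cons 757 n117 .nil)
noncomputable def n1988 : Strat := .move 756 n85 (.cons 755 n1987 .nil)
noncomputable def n1989 : Strat := .move 800 n958 (.cons 760 n1988 .nil)
noncomputable def n1990 : Strat := .move 797 n313 (.cons 796 n1989 .nil)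
noncomputable def n1991 : Strat := .move 757 n1020 (.cons 716 n1031 .nil)
noncomputable def n1992 : Strat := .move 760 n298 (.cons 761 n1991 .nil)
noncomputable def n1993 : Strat := .move 756 n964 (.cons 757 n117 .nil)
noncomputable def n1994 : Strat := .move 757 n100 (.cons 802 n321 .nil)
noncomputable def n1995 : Strat := .move 801 n1993 (.cons 839 n956 (.cons 756 n1994 (.cons 802 n466 .nil)))
noncomputable def n1996 : Strat := .move 801 n123 (.cons 843 n955 .nil)
noncomputable def n1997 : Strat := .move 842 n124 (.cons 841 n1996 .nil)
noncomputable def n1998 : Strat := .move 801 n123 (.cons 843 n117 .nil)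
noncomputable def n1999 : Strat := .move 842 n124 (.cons 841 n1998 .nil)
noncomputable def n2000 : Strat := .move 800 n1988 (.cons 839 n1037 (.cons 755 n1995 (.cons 756 n1997 (.cons 801 n1044 (.cons 757 n1999 .nil)))))
noncomputable def n2001 : Strat := .move 797 n313 (.cons 796 n2000 .nil)
noncomputable def n2002 : Strat := .move 800 n958 (.cons 760 n1999 .nil)
noncomputable def n2003 : Strat := .move 797 n313 (.cons 796 n2002 .nil)
noncomputable def n2004 : Strat := .move 798 n1018 (.cons 796 n1022 (.cons 761 n1990 (.cons 797 n1992 (.cons 760 n2001 (.cons 757 n2003 .nil)))))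
noncomputable def n2005 : Strat := .move 839 n115 (.cons 838 n413 .nil)
noncomputable def n2006 : Strat := .move 800 n99 (.cons 756 n2005 .nil)
noncomputable def n2007 : Strat := .move 801 n325 (.cons 802 n2006 .nil)
noncomputable def n2008 : Strat := .move 757 n1048 (.cons 716 n2007 .nil)
noncomputable def n2009 : Strat := .move 760 n298 (.cons 761 n2008 .nil)
noncomputable def n2010 : Strat := .move 801 n1993 (.cons 756 n955 (.cons 802 n466 .nil))
noncomputable def n2011 : Strat := .move 757 n48 (.cons 801 n1048 .nil)
noncomputable def n2012 : Strat := .move 756 n85 (.cons 755 n2011 .nil)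
noncomputable def n2013 : Strat := .move 716 n1039 (.cons 675 n138 .nil)
noncomputable def n2014 : Strat := .move 716 n1038 (.cons 879 n138 .nil)
noncomputable def n2015 : Strat := .move 839 n552 (.cons 880 n553 .nil)
noncomputable def n2016 : Strat := .move 715 n169 (.cons 714 n2015 .nil)
noncomputable def n2017 : Strat := .move 757 n2013 (.cons 881 n1040 (.cons 675 n2014 (.cons 716 n2016 .nil)))
noncomputable def n2018 : Strat := .move 838 n82 (.cons 837 n2017 .nil)
noncomputable def n2019 : Strat := .move 756 n85 (.cons 755 n2018 .nil)
noncomputable def n2020 : Strat := .move 800 n1988 (.cons 755 n2010 (.cons 802 n2012 (.cons 756 n1997 (.cons 801 n2019 (.cons 757 n1999 .nil)))))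
noncomputable def n2021 : Strat := .move 797 n313 (.cons 796 n2020 .nil)
noncomputable def n2022 : Strat := .move 798 n1018 (.cons 797 n2009 (.cons 757 n1223 (.cons 761 n1052 (.cons 760 n2021 .nil))))
noncomputable def n2023 : Strat := .win 677 1 635
noncomputable def n2024 : Strat := .move 756 n289 (.cons 719 n175 .nil)
noncomputable def n2025 : Strat := .move 756 n289 (.cons 719 n701 .nil)
noncomputable def n2026 : Strat := .win 760 5 716
noncomputable def n2027 : Strat := .move 720 n1111 (.cons 721 n2026 .nil)
noncomputable def n2028 : Strat := .move 719 n1194 (.cons 756 n2027 .nil)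
noncomputable def n2029 : Strat := .move 761 n61 (.cons 721 n60 .nil)
noncomputable def n2030 : Strat := .move 720 n62 (.cons 719 n2029 .nil)
noncomputable def n2031 : Strat := .move 760 n1198 (.cons 798 n2030 (.cons 761 n1207 .nil))
noncomputable def n2032 : Strat := .win 756 2 714
noncomputable def n2033 : Strat := .move 714 n828 (.cons 713 n2032 .nil)
noncomputable def n2034 : Strat := .move 715 n153 (.cons 674 n2033 .nil)
noncomputable def n2035 : Strat := .win 838 1 715
noncomputable def n2036 : Strat := .move 879 n382 (.cons 920 n2035 .nil)
noncomputable def n2037 : Strat := .move 880 n1329 (.cons 921 n2036 .nil)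
noncomputable def n2038 : Strat := .move 839 n2034 (.cons 715 n2037 .nil)
noncomputable def n2039 : Strat := .move 716 n1019 (.cons 675 n2038 .nil)
noncomputable def n2040 : Strat := .move 798 n401 (.cons 797 n1324 (.cons 760 n2039 .nil))
noncomputable def n2041 : Strat := .move 757 n2024 (.cons 760 n2025 (.cons 797 n2028 (.cons 756 n2031 (.cons 719 n2040 .nil))))
noncomputable def n2042 : Strat := .move 636 n2023 (.cons 677 n2041 .nil)
noncomputable def n2043 : Strat := .move 718 n209 (.cons 881 n2042 .nil)
noncomputable def n2044 : Strat := .move 759 n1013 (.cons 636 n1986 (.cons 881 n2004 (.cons 718 n2022 (.cons 800 n2043 .nil))))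
noncomputable def n2045 : Strat := .move 758 n1836 (.cons 881 n1840 (.cons 757 n1843 (.cons 839 n1870 (.cons 759 n217 (.cons 798 n1888 (.cons 716 n1975 (.cons 718 n1982 (.cons 717 n2044 .nil))))))))
noncomputable def n2046 : Strat := .win 839 0 795
noncomputable def n2047 : Strat := .win 755 2 754
noncomputable def n2048 : Strat := .win 753 2 753
noncomputable def n2049 : Strat := .move 754 n2047 (.cons 755 n2048 .nil)
noncomputable def n2050 : Strat := .move 795 n2046 (.cons 839 n2049 .nil)
noncomputable def n2051 : Strat := .move 796 n77 (.cons 841 n2050 .nil)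
noncomputable def n2052 : Strat := .move 801 n320 (.cons 839 n466 .nil)
noncomputable def n2053 : Strat := .move 838 n82 (.cons 837 n2052 .nil)
noncomputable def n2054 : Strat := .move 760 n1591 (.cons 759 n611 .nil)
noncomputable def n2055 : Strat := .move 801 n123 (.cons 843 n2054 .nil)
noncomputable def n2056 : Strat := .move 842 n124 (.cons 841 n2055 .nil)
noncomputable def n2057 : Strat := .move 756 n85 (.cons 755 n1177 .nil)
noncomputable def n2058 : Strat := .move 801 n320 (.cons 839 n2057 .nil)
noncomputable def n2059 : Strat := .move 838 n82 (.cons 837 n2058 .nil)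
noncomputable def n2060 : Strat := .win 716 3 715
noncomputable def n2061 : Strat := .move 879 n2060 (.cons 716 n863 .nil)
noncomputable def n2062 : Strat := .win 758 5 715
noncomputable def n2063 : Strat := .move 719 n2062 (.cons 758 n1631 .nil)
noncomputable def n2064 : Strat := .move 757 n2061 (.cons 920 n1040 (.cons 716 n2063 .nil))
noncomputable def n2065 : Strat := .move 718 n308 (.cons 677 n2064 .nil)
noncomputable def n2066 : Strat := .move 759 n958 (.cons 760 n2065 .nil)
noncomputable def n2067 : Strat := .move 756 n85 (.cons 755 n2066 .nil)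
noncomputable def n2068 : Strat := .move 838 n82 (.cons 837 n2067 .nil)
noncomputable def n2069 : Strat := .move 841 n75 (.cons 842 n2068 .nil)
noncomputable def n2070 : Strat := .move 800 n2053 (.cons 838 n2056 (.cons 842 n2059 (.cons 801 n2069 .nil)))
noncomputable def n2071 : Strat := .win 837 4 795
noncomputable def n2072 : Strat := .win 835 4 794
noncomputable def n2073 : Strat := .move 836 n2071 (.cons 837 n2072 .nil)
noncomputable def n2074 : Strat := .move 795 n2046 (.cons 839 n2073 .nil)
noncomputable def n2075 : Strat := .move 796 n77 (.cons 841 n2074 .nil)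
noncomputable def n2076 : Strat := .move 800 n79 (.cons 756 n127 .nil)
noncomputable def n2077 : Strat := .move 837 n126 (.cons 836 n2076 .nil)
noncomputable def n2078 : Strat := .move 755 n78 (.cons 754 n2077 .nil)
noncomputable def n2079 : Strat := .move 796 n77 (.cons 841 n2078 .nil)
noncomputable def n2080 : Strat := .move 796 n2050 (.cons 839 n2078 (.cons 755 n2074 .nil))
noncomputable def n2081 : Strat := .move 797 n2051 (.cons 796 n2070 (.cons 755 n2075 (.cons 839 n2079 (.cons 841 n2080 .nil))))
noncomputable def n2082 : Strat := .win 676 3 675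
noncomputable def n2083 : Strat := .win 758 1 716
noncomputable def n2084 : Strat := .move 880 n2083 (.cons 758 n1737 .nil)
noncomputable def n2085 : Strat := .move 717 n2082 (.cons 676 n2084 .nil)
noncomputable def n2086 : Strat := .move 716 n1019 (.cons 675 n2085 .nil)
noncomputable def n2087 : Strat := .move 757 n258 (.cons 756 n2086 .nil)
noncomputable def n2088 : Strat := .move 839 n115 (.cons 838 n2087 .nil)
noncomputable def n2089 : Strat := .win 758 2 757
noncomputable def n2090 : Strat := .move 802 n2089 (.cons 758 n121 .nil)
noncomputable def n2091 : Strat := .move 757 n258 (.cons 756 n2090 .nil)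
noncomputable def n2092 : Strat := .move 801 n117 (.cons 802 n2088 (.cons 838 n122 (.cons 839 n2091 .nil)))
noncomputable def n2093 : Strat := .move 759 n308 (.cons 677 n1027 .nil)
noncomputable def n2094 : Strat := .win 638 3 637
noncomputable def n2095 : Strat := .win 720 3 678
noncomputable def n2096 : Strat := .move 679 n2094 (.cons 638 n2095 .nil)
noncomputable def n2097 : Strat := .move 678 n411 (.cons 637 n2096 .nil)
noncomputable def n2098 : Strat := .move 678 n410 (.cons 841 n2096 .nil)
noncomputable def n2099 : Strat := .win 679 3 678
noncomputable def n2100 : Strat := .win 722 4 718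
noncomputable def n2101 : Strat := .win 758 4 717
noncomputable def n2102 : Strat := .move 721 n2100 (.cons 722 n2101 .nil)
noncomputable def n2103 : Strat := .move 720 n2099 (.cons 679 n2102 .nil)
noncomputable def n2104 : Strat := .move 719 n1618 (.cons 841 n2097 (.cons 637 n2098 (.cons 678 n2103 .nil)))
noncomputable def n2105 : Strat := .move 759 n308 (.cons 677 n2104 .nil)
noncomputable def n2106 : Strat := .move 759 n1027 (.cons 883 n2104 .nil)
noncomputable def n2107 : Strat := .win 677 7 677
noncomputable def n2108 : Strat := .move 719 n2107 (.cons 677 n2098 .nil)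
noncomputable def n2109 : Strat := .move 718 n2093 (.cons 883 n2105 (.cons 677 n2106 (.cons 759 n2108 .nil)))
noncomputable def n2110 : Strat := .move 760 n611 (.cons 761 n2109 .nil)
noncomputable def n2111 : Strat := .move 842 n123 (.cons 843 n2110 .nil)
noncomputable def n2112 : Strat := .move 761 n125 (.cons 760 n451 .nil)
noncomputable def n2113 : Strat := .move 802 n2089 (.cons 758 n2112 .nil)
noncomputable def n2114 : Strat := .move 757 n258 (.cons 756 n2113 .nil)
noncomputable def n2115 : Strat := .move 802 n120 (.cons 844 n2112 .nil)
noncomputable def n2116 : Strat := .move 843 n119 (.cons 842 n2115 .nil)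
noncomputable def n2117 : Strat := .move 801 n2091 (.cons 757 n2111 (.cons 842 n2114 (.cons 758 n2116 .nil)))
noncomputable def n2118 : Strat := .win 718 6 718
noncomputable def n2119 : Strat := .move 759 n2118 (.cons 718 n1624 .nil)
noncomputable def n2120 : Strat := .move 841 n1358 (.cons 884 n2119 .nil)
noncomputable def n2121 : Strat := .win 925 6 760
noncomputable def n2122 : Strat := .win 841 0 839
noncomputable def n2123 : Strat := .move 884 n2121 (.cons 925 n2122 .nil)
noncomputable def n2124 : Strat := .move 759 n1624 (.cons 924 n2123 .nil)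
noncomputable def n2125 : Strat := .win 759 7 718
noncomputable def n2126 : Strat := .move 718 n2125 (.cons 759 n2123 .nil)
noncomputable def n2127 : Strat := .move 884 n2122 (.cons 841 n2121 .nil)
noncomputable def n2128 : Strat := .win 718 7 718
noncomputable def n2129 : Strat := .move 759 n1624 (.cons 924 n2128 .nil)
noncomputable def n2130 : Strat := .move 883 n2120 (.cons 718 n2124 (.cons 924 n2126 (.cons 759 n2127 (.cons 841 n2129 .nil))))
noncomputable def n2131 : Strat := .move 760 n611 (.cons 761 n2130 .nil)
noncomputable def n2132 : Strat := .move 842 n123 (.cons 843 n2131 .nil)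
noncomputable def n2133 : Strat := .move 839 n115 (.cons 838 n2132 .nil)
noncomputable def n2134 : Strat := .move 801 n117 (.cons 802 n2133 (.cons 838 n122 (.cons 839 n2111 .nil)))
noncomputable def n2135 : Strat := .win 961 1 797
noncomputable def n2136 : Strat := .win 879 1 756
noncomputable def n2137 : Strat := .move 920 n2135 (.cons 961 n2136 .nil)
noncomputable def n2138 : Strat := .move 921 n1891 (.cons 962 n2137 .nil)
noncomputable def n2139 : Strat := .move 880 n2083 (.cons 758 n2138 .nil)
noncomputable def n2140 : Strat := .move 717 n2082 (.cons 676 n2139 .nil)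
noncomputable def n2141 : Strat := .move 716 n1019 (.cons 675 n2140 .nil)
noncomputable def n2142 : Strat := .move 757 n258 (.cons 756 n2141 .nil)
noncomputable def n2143 : Strat := .move 839 n115 (.cons 838 n2142 .nil)
noncomputable def n2144 : Strat := .move 801 n117 (.cons 839 n2114 (.cons 802 n2143 .nil))
noncomputable def n2145 : Strat := .move 759 n2128 (.cons 718 n1624 .nil)
noncomputable def n2146 : Strat := .move 883 n2123 (.cons 841 n2145 .nil)
noncomputable def n2147 : Strat := .move 760 n611 (.cons 761 n2146 .nil)
noncomputable def n2148 : Strat := .move 716 n1019 (.cons 675 n2147 .nil)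
noncomputable def n2149 : Strat := .move 757 n258 (.cons 756 n2148 .nil)
noncomputable def n2150 : Strat := .move 842 n123 (.cons 843 n2149 .nil)
noncomputable def n2151 : Strat := .move 839 n115 (.cons 838 n2150 .nil)
noncomputable def n2152 : Strat := .move 801 n117 (.cons 802 n2151 (.cons 838 n122 (.cons 839 n2116 .nil)))
noncomputable def n2153 : Strat := .move 801 n115 (.cons 838 n2087 .nil)
noncomputable def n2154 : Strat := .move 758 n224 (.cons 717 n1329 .nil)
noncomputable def n2155 : Strat := .win 758 3 757
noncomputable def n2156 : Strat := .move 921 n2155 (.cons 758 n1891 .nil)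
noncomputable def n2157 : Strat := .move 757 n1087 (.cons 716 n382 .nil)
noncomputable def n2158 : Strat := .win 841 4 837
noncomputable def n2159 : Strat := .move 878 n2158 (.cons 841 n427 .nil)
noncomputable def n2160 : Strat := .move 879 n486 (.cons 961 n2157 (.cons 920 n2159 .nil))
noncomputable def n2161 : Strat := .move 880 n2154 (.cons 717 n2156 (.cons 758 n2160 .nil))
noncomputable def n2162 : Strat := .move 838 n232 (.cons 837 n2161 .nil)
noncomputable def n2163 : Strat := .move 801 n115 (.cons 838 n2150 .nil)
noncomputable def n2164 : Strat := .move 801 n115 (.cons 838 n2132 .nil)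
noncomputable def n2165 : Strat := .move 801 n2087 (.cons 757 n2132 (.cons 842 n2142 .nil))
noncomputable def n2166 : Strat := .move 839 n2153 (.cons 801 n2162 (.cons 758 n2163 (.cons 757 n2164 (.cons 841 n989 (.cons 838 n2165 .nil)))))
noncomputable def n2167 : Strat := .move 838 n232 (.cons 837 n825 .nil)
noncomputable def n2168 : Strat := .move 756 n139 (.cons 719 n47 .nil)
noncomputable def n2169 : Strat := .move 718 n37 (.cons 677 n2168 .nil)
noncomputable def n2170 : Strat := .move 758 n145 (.cons 880 n2169 .nil)
noncomputable def n2171 : Strat := .move 717 n2082 (.cons 676 n2170 .nil)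
noncomputable def n2172 : Strat := .move 839 n2167 (.cons 837 n2171 .nil)
noncomputable def n2173 : Strat := .move 757 n1019 (.cons 675 n2172 .nil)
noncomputable def n2174 : Strat := .move 676 n723 (.cons 839 n502 .nil)
noncomputable def n2175 : Strat := .move 758 n42 (.cons 675 n2174 .nil)
noncomputable def n2176 : Strat := .win 676 7 676
noncomputable def n2177 : Strat := .move 842 n514 (.cons 843 n1605 .nil)
noncomputable def n2178 : Strat := .move 841 n2176 (.cons 676 n2177 .nil)
noncomputable def n2179 : Strat := .move 759 n308 (.cons 677 n2178 .nil)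
noncomputable def n2180 : Strat := .win 719 0 716
noncomputable def n2181 : Strat := .move 761 n2180 (.cons 719 n1154 .nil)
noncomputable def n2182 : Strat := .move 760 n210 (.cons 715 n2181 .nil)
noncomputable def n2183 : Strat := .move 759 n308 (.cons 677 n2182 .nil)
noncomputable def n2184 : Strat := .move 841 n1631 (.cons 678 n2176 .nil)
noncomputable def n2185 : Strat := .move 759 n210 (.cons 715 n2184 .nil)
noncomputable def n2186 : Strat := .move 760 n731 (.cons 761 n2185 .nil)
noncomputable def n2187 : Strat := .win 675 2 674
noncomputable def n2188 : Strat := .move 674 n2187 (.cons 675 n734 .nil)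
noncomputable def n2189 : Strat := .move 715 n732 (.cons 759 n2188 .nil)
noncomputable def n2190 : Strat := .move 760 n731 (.cons 761 n2189 .nil)
noncomputable def n2191 : Strat := .win 674 2 674
noncomputable def n2192 : Strat := .win 676 2 675
noncomputable def n2193 : Strat := .move 720 n2192 (.cons 676 n200 .nil)
noncomputable def n2194 : Strat := .move 675 n2191 (.cons 674 n2193 .nil)
noncomputable def n2195 : Strat := .move 719 n2186 (.cons 841 n2190 (.cons 760 n2194 .nil))
noncomputable def n2196 : Strat := .win 677 5 674
noncomputable def n2197 : Strat := .move 678 n751 (.cons 679 n2196 .nil)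
noncomputable def n2198 : Strat := .move 719 n2187 (.cons 675 n2197 .nil)
noncomputable def n2199 : Strat := .move 674 n734 (.cons 673 n2198 .nil)
noncomputable def n2200 : Strat := .win 678 5 674
noncomputable def n2201 : Strat := .win 676 5 673
noncomputable def n2202 : Strat := .move 755 n189 (.cons 754 n188 .nil)
noncomputable def n2203 : Strat := .move 714 n2201 (.cons 676 n2202 .nil)
noncomputable def n2204 : Strat := .move 677 n2200 (.cons 678 n2203 .nil)
noncomputable def n2205 : Strat := .move 719 n2187 (.cons 675 n201 .nil)
noncomputable def n2206 : Strat := .move 674 n734 (.cons 673 n2205 .nil)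
noncomputable def n2207 : Strat := .win 719 2 674
noncomputable def n2208 : Strat := .win 676 5 672
noncomputable def n2209 : Strat := .win 712 5 671
noncomputable def n2210 : Strat := .move 713 n2208 (.cons 676 n2209 .nil)
noncomputable def n2211 : Strat := .move 714 n2202 (.cons 756 n2210 .nil)
noncomputable def n2212 : Strat := .move 675 n2207 (.cons 719 n2211 .nil)
noncomputable def n2213 : Strat := .move 674 n734 (.cons 673 n2212 .nil)
noncomputable def n2214 : Strat := .move 715 n2199 (.cons 674 n2204 (.cons 677 n2206 (.cons 678 n2213 .nil)))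
noncomputable def n2215 : Strat := .move 718 n2179 (.cons 883 n2183 (.cons 677 n2195 (.cons 759 n2214 .nil)))
noncomputable def n2216 : Strat := .win 758 7 675
noncomputable def n2217 : Strat := .move 760 n731 (.cons 761 n210 .nil)
noncomputable def n2218 : Strat := .move 759 n308 (.cons 677 n2217 .nil)
noncomputable def n2219 : Strat := .move 719 n2191 (.cons 674 n2218 .nil)
noncomputable def n2220 : Strat := .win 672 0 672
noncomputable def n2221 : Strat := .win 715 2 673
noncomputable def n2222 : Strat := .move 673 n2220 (.cons 672 n2221 .nil)
noncomputable def n2223 : Strat := .move 674 n2207 (.cons 719 n2222 .nil)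
noncomputable def n2224 : Strat := .move 714 n1796 (.cons 674 n2202 .nil)
noncomputable def n2225 : Strat := .move 715 n185 (.cons 760 n2224 .nil)
noncomputable def n2226 : Strat := .move 759 n308 (.cons 677 n2225 .nil)
noncomputable def n2227 : Strat := .move 761 n1154 (.cons 762 n2180 .nil)
noncomputable def n2228 : Strat := .move 760 n210 (.cons 715 n2227 .nil)
noncomputable def n2229 : Strat := .move 759 n308 (.cons 677 n2228 .nil)
noncomputable def n2230 : Strat := .move 678 n1148 (.cons 841 n751 .nil)
noncomputable def n2231 : Strat := .move 759 n308 (.cons 677 n2230 .nil)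
noncomputable def n2232 : Strat := .move 719 n2191 (.cons 674 n2231 .nil)
noncomputable def n2233 : Strat := .move 718 n2219 (.cons 760 n2223 (.cons 719 n2226 (.cons 674 n2229 (.cons 715 n2232 .nil))))
noncomputable def n2234 : Strat := .move 675 n2216 (.cons 758 n2233 .nil)
noncomputable def n2235 : Strat := .move 839 n152 (.cons 676 n145 .nil)
noncomputable def n2236 : Strat := .move 758 n42 (.cons 675 n2235 .nil)
noncomputable def n2237 : Strat := .win 759 1 676
noncomputable def n2238 : Strat := .win 758 3 676
noncomputable def n2239 : Strat := .move 677 n2237 (.cons 759 n2238 .nil)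
noncomputable def n2240 : Strat := .move 758 n37 (.cons 677 n2235 .nil)
noncomputable def n2241 : Strat := .win 758 2 716
noncomputable def n2242 : Strat := .move 761 n2180 (.cons 719 n2241 .nil)
noncomputable def n2243 : Strat := .move 760 n210 (.cons 715 n2242 .nil)
noncomputable def n2244 : Strat := .move 759 n2243 (.cons 758 n2178 .nil)
noncomputable def n2245 : Strat := .move 718 n2239 (.cons 759 n2240 (.cons 758 n2179 (.cons 677 n2244 .nil)))
noncomputable def n2246 : Strat := .move 717 n2175 (.cons 758 n2215 (.cons 676 n2234 (.cons 841 n2236 (.cons 675 n2245 .nil))))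
noncomputable def n2247 : Strat := .move 757 n825 (.cons 879 n2168 .nil)
noncomputable def n2248 : Strat := .move 838 n232 (.cons 837 n2247 .nil)
noncomputable def n2249 : Strat := .move 718 n37 (.cons 677 n2248 .nil)
noncomputable def n2250 : Strat := .move 839 n145 (.cons 880 n2249 .nil)
noncomputable def n2251 : Strat := .move 676 n502 (.cons 841 n149 .nil)
noncomputable def n2252 : Strat := .move 758 n2174 (.cons 841 n2235 (.cons 676 n2250 (.cons 839 n2251 .nil)))
noncomputable def n2253 : Strat := .move 839 n2082 (.cons 676 n2170 .nil)
noncomputable def n2254 : Strat := .move 839 n2082 (.cons 676 n2139 .nil)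
noncomputable def n2255 : Strat := .move 756 n47 (.cons 755 n139 .nil)
noncomputable def n2256 : Strat := .move 718 n37 (.cons 677 n2255 .nil)
noncomputable def n2257 : Strat := .move 758 n1509 (.cons 841 n2256 .nil)
noncomputable def n2258 : Strat := .move 839 n145 (.cons 880 n2169 .nil)
noncomputable def n2259 : Strat := .move 715 n153 (.cons 674 n1527 .nil)
noncomputable def n2260 : Strat := .move 718 n2168 (.cons 755 n720 (.cons 719 n2259 .nil))
noncomputable def n2261 : Strat := .move 839 n145 (.cons 880 n2260 .nil)
noncomputable def n2262 : Strat := .move 839 n145 (.cons 880 n2259 .nil)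
noncomputable def n2263 : Strat := .move 758 n2258 (.cons 677 n2261 (.cons 719 n2262 (.cons 839 n2256 .nil)))
noncomputable def n2264 : Strat := .win 839 3 675
noncomputable def n2265 : Strat := .win 841 7 676
noncomputable def n2266 : Strat := .move 759 n308 (.cons 677 n2265 .nil)
noncomputable def n2267 : Strat := .win 714 5 673
noncomputable def n2268 : Strat := .move 715 n2200 (.cons 678 n2267 .nil)
noncomputable def n2269 : Strat := .move 677 n2237 (.cons 759 n2268 .nil)
noncomputable def n2270 : Strat := .win 715 4 714
noncomputable def n2271 : Strat := .move 755 n2270 (.cons 715 n327 .nil)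
noncomputable def n2272 : Strat := .move 756 n139 (.cons 719 n2271 .nil)
noncomputable def n2273 : Strat := .move 718 n2266 (.cons 841 n2269 (.cons 677 n2272 .nil))
noncomputable def n2274 : Strat := .move 676 n2264 (.cons 839 n2273 .nil)
noncomputable def n2275 : Strat := .move 757 n2253 (.cons 756 n2254 (.cons 839 n2257 (.cons 676 n2263 (.cons 758 n2274 .nil))))
noncomputable def n2276 : Strat := .move 757 n2168 (.cons 755 n720 (.cons 719 n1134 .nil))
noncomputable def n2277 : Strat := .move 839 n145 (.cons 880 n2276 .nil)
noncomputable def n2278 : Strat := .move 718 n37 (.cons 677 n2277 .nil)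
noncomputable def n2279 : Strat := .move 758 n2174 (.cons 839 n2251 (.cons 841 n2235 (.cons 676 n2278 .nil)))
noncomputable def n2280 : Strat := .move 757 n825 (.cons 879 n720 .nil)
noncomputable def n2281 : Strat := .move 838 n232 (.cons 837 n2280 .nil)
noncomputable def n2282 : Strat := .move 718 n37 (.cons 677 n2281 .nil)
noncomputable def n2283 : Strat := .move 839 n145 (.cons 880 n2282 .nil)
noncomputable def n2284 : Strat := .move 758 n2174 (.cons 676 n2283 (.cons 839 n2251 .nil))
noncomputable def n2285 : Strat := .move 761 n2241 (.cons 758 n1154 .nil)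
noncomputable def n2286 : Strat := .move 760 n210 (.cons 715 n2285 .nil)
noncomputable def n2287 : Strat := .move 759 n2243 (.cons 719 n2286 (.cons 760 n2178 .nil))
noncomputable def n2288 : Strat := .win 715 5 674
noncomputable def n2289 : Strat := .win 719 5 675
noncomputable def n2290 : Strat := .win 676 4 675
noncomputable def n2291 : Strat := .move 679 n2289 (.cons 719 n2290 .nil)
noncomputable def n2292 : Strat := .move 678 n2288 (.cons 715 n2291 .nil)
noncomputable def n2293 : Strat := .move 677 n2238 (.cons 758 n2292 .nil)
noncomputable def n2294 : Strat := .move 718 n2239 (.cons 677 n2287 (.cons 759 n2293 (.cons 758 n2183 .nil)))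
noncomputable def n2295 : Strat := .move 757 n825 (.cons 879 n830 .nil)
noncomputable def n2296 : Strat := .move 838 n232 (.cons 837 n2295 .nil)
noncomputable def n2297 : Strat := .move 839 n145 (.cons 880 n2296 .nil)
noncomputable def n2298 : Strat := .move 758 n2174 (.cons 841 n2235 (.cons 839 n2251 (.cons 676 n2297 .nil)))
noncomputable def n2299 : Strat := .move 758 n152 (.cons 676 n145 .nil)
noncomputable def n2300 : Strat := .move 757 n2082 (.cons 676 n2167 .nil)
noncomputable def n2301 : Strat := .win 757 1 715
noncomputable def n2302 : Strat := .move 841 n862 (.cons 878 n383 .nil)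
noncomputable def n2303 : Strat := .move 879 n2301 (.cons 757 n2302 .nil)
noncomputable def n2304 : Strat := .move 838 n232 (.cons 837 n2303 .nil)
noncomputable def n2305 : Strat := .move 880 n2083 (.cons 758 n2304 .nil)
noncomputable def n2306 : Strat := .move 839 n2299 (.cons 758 n2300 (.cons 676 n2305 .nil))
noncomputable def n2307 : Strat := .win 756 7 715
noncomputable def n2308 : Strat := .move 715 n2307 (.cons 756 n153 .nil)
noncomputable def n2309 : Strat := .move 757 n825 (.cons 879 n2308 .nil)
noncomputable def n2310 : Strat := .move 838 n232 (.cons 837 n2309 .nil)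
noncomputable def n2311 : Strat := .move 880 n2083 (.cons 758 n2310 .nil)
noncomputable def n2312 : Strat := .move 839 n2299 (.cons 758 n2300 (.cons 676 n2311 .nil))
noncomputable def n2313 : Strat := .win 839 7 674
noncomputable def n2314 : Strat := .move 674 n2313 (.cons 839 n734 .nil)
noncomputable def n2315 : Strat := .move 757 n139 (.cons 719 n2314 .nil)
noncomputable def n2316 : Strat := .move 756 n192 (.cons 755 n2315 .nil)
noncomputable def n2317 : Strat := .win 758 0 714
noncomputable def n2318 : Strat := .move 714 n2317 (.cons 758 n1796 .nil)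
noncomputable def n2319 : Strat := .move 759 n185 (.cons 760 n2318 .nil)
noncomputable def n2320 : Strat := .move 719 n1757 (.cons 755 n2230 .nil)
noncomputable def n2321 : Strat := .move 758 n154 (.cons 714 n2320 .nil)
noncomputable def n2322 : Strat := .move 759 n185 (.cons 760 n2321 .nil)
noncomputable def n2323 : Strat := .move 715 n2316 (.cons 839 n2319 (.cons 674 n2322 .nil))
noncomputable def n2324 : Strat := .move 757 n825 (.cons 879 n2255 .nil)
noncomputable def n2325 : Strat := .move 838 n232 (.cons 837 n2324 .nil)
noncomputable def n2326 : Strat := .move 839 n145 (.cons 880 n2325 .nil)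
noncomputable def n2327 : Strat := .move 758 n37 (.cons 677 n2326 .nil)
noncomputable def n2328 : Strat := .move 718 n2239 (.cons 677 n2323 (.cons 758 n2183 (.cons 759 n2327 .nil)))
noncomputable def n2329 : Strat := .move 839 n153 (.cons 674 n2082 .nil)
noncomputable def n2330 : Strat := .move 757 n139 (.cons 719 n2329 .nil)
noncomputable def n2331 : Strat := .move 756 n192 (.cons 755 n2330 .nil)
noncomputable def n2332 : Strat := .move 714 n2201 (.cons 676 n1796 .nil)
noncomputable def n2333 : Strat := .move 677 n2200 (.cons 678 n2332 .nil)
noncomputable def n2334 : Strat := .move 839 n990 (.cons 880 n2082 .nil)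
noncomputable def n2335 : Strat := .move 757 n139 (.cons 719 n2334 .nil)
noncomputable def n2336 : Strat := .move 756 n192 (.cons 755 n2335 .nil)
noncomputable def n2337 : Strat := .move 715 n2331 (.cons 757 n2333 (.cons 674 n2336 (.cons 676 n2316 .nil)))
noncomputable def n2338 : Strat := .win 756 6 633
noncomputable def n2339 : Strat := .move 633 n2338 (.cons 756 n1097 .nil)
noncomputable def n2340 : Strat := .move 757 n2313 (.cons 839 n2339 .nil)
noncomputable def n2341 : Strat := .move 674 n734 (.cons 673 n2340 .nil)
noncomputable def n2342 : Strat := .move 842 n1605 (.cons 883 n514 .nil)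
noncomputable def n2343 : Strat := .move 841 n2176 (.cons 676 n2342 .nil)
noncomputable def n2344 : Strat := .move 759 n185 (.cons 760 n2343 .nil)
noncomputable def n2345 : Strat := .move 715 n2331 (.cons 719 n2341 (.cons 756 n2344 .nil))
noncomputable def n2346 : Strat := .move 718 n2179 (.cons 676 n2183 (.cons 759 n2337 (.cons 677 n2345 .nil)))
noncomputable def n2347 : Strat := .move 717 n2252 (.cons 838 n2275 (.cons 879 n2279 (.cons 755 n2284 (.cons 839 n2294 (.cons 719 n2298 (.cons 718 n2306 (.cons 841 n2312 (.cons 676 n2328 (.cons 758 n2346 .nil)))))))))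
noncomputable def n2348 : Strat := .win 758 0 755
noncomputable def n2349 : Strat := .move 755 n327 (.cons 754 n2348 .nil)
noncomputable def n2350 : Strat := .move 756 n990 (.cons 880 n2349 .nil)
noncomputable def n2351 : Strat := .move 715 n153 (.cons 674 n2350 .nil)
noncomputable def n2352 : Strat := .move 839 n2167 (.cons 879 n2351 .nil)
noncomputable def n2353 : Strat := .move 757 n1019 (.cons 675 n2352 .nil)
noncomputable def n2354 : Strat := .win 718 4 714
noncomputable def n2355 : Strat := .move 755 n2354 (.cons 718 n327 .nil)
noncomputable def n2356 : Strat := .move 756 n990 (.cons 880 n2355 .nil)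
noncomputable def n2357 : Strat := .move 717 n2082 (.cons 676 n2356 .nil)
noncomputable def n2358 : Strat := .move 715 n153 (.cons 674 n2357 .nil)
noncomputable def n2359 : Strat := .move 839 n2167 (.cons 879 n2358 .nil)
noncomputable def n2360 : Strat := .move 757 n1019 (.cons 675 n2359 .nil)
noncomputable def n2361 : Strat := .move 677 n2238 (.cons 758 n2237 .nil)
noncomputable def n2362 : Strat := .move 756 n192 (.cons 755 n139 .nil)
noncomputable def n2363 : Strat := .move 718 n2361 (.cons 759 n2362 .nil)
noncomputable def n2364 : Strat := .move 715 n153 (.cons 674 n2363 .nil)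
noncomputable def n2365 : Strat := .move 717 n2082 (.cons 676 n2364 .nil)
noncomputable def n2366 : Strat := .move 839 n2167 (.cons 837 n2365 .nil)
noncomputable def n2367 : Strat := .move 757 n1019 (.cons 675 n2366 .nil)
noncomputable def n2368 : Strat := .move 879 n2035 (.cons 838 n382 .nil)
noncomputable def n2369 : Strat := .move 880 n2083 (.cons 758 n2368 .nil)
noncomputable def n2370 : Strat := .move 717 n2082 (.cons 676 n2369 .nil)
noncomputable def n2371 : Strat := .move 758 n145 (.cons 880 n2259 .nil)
noncomputable def n2372 : Strat := .move 717 n2082 (.cons 676 n2371 .nil)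
noncomputable def n2373 : Strat := .move 839 n2167 (.cons 837 n2370 (.cons 838 n2140 (.cons 879 n2372 .nil)))
noncomputable def n2374 : Strat := .move 757 n1019 (.cons 675 n2373 .nil)
noncomputable def n2375 : Strat := .win 757 6 675
noncomputable def n2376 : Strat := .move 715 n185 (.cons 760 n2343 .nil)
noncomputable def n2377 : Strat := .move 759 n308 (.cons 677 n2376 .nil)
noncomputable def n2378 : Strat := .win 676 0 673
noncomputable def n2379 : Strat := .move 673 n2220 (.cons 672 n2378 .nil)
noncomputable def n2380 : Strat := .move 674 n2207 (.cons 719 n2379 .nil)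
noncomputable def n2381 : Strat := .move 718 n2219 (.cons 719 n2377 (.cons 760 n2380 .nil))
noncomputable def n2382 : Strat := .move 717 n2216 (.cons 758 n2381 .nil)
noncomputable def n2383 : Strat := .move 675 n2375 (.cons 757 n2382 .nil)
noncomputable def n2384 : Strat := .move 716 n2173 (.cons 757 n2246 (.cons 675 n2347 (.cons 717 n2353 (.cons 758 n2360 (.cons 880 n2367 (.cons 756 n2374 (.cons 839 n2383 .nil)))))))
noncomputable def n2385 : Strat := .move 800 n2092 (.cons 839 n2117 (.cons 757 n2134 (.cons 842 n2144 (.cons 758 n2152 (.cons 802 n2166 (.cons 801 n2384 .nil))))))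
noncomputable def n2386 : Strat := .win 758 5 755
noncomputable def n2387 : Strat := .move 759 n2386 (.cons 758 n958 .nil)
noncomputable def n2388 : Strat := .move 800 n127 (.cons 838 n2387 .nil)
noncomputable def n2389 : Strat := .move 837 n126 (.cons 836 n2388 .nil)
noncomputable def n2390 : Strat := .move 796 n77 (.cons 841 n2389 .nil)
noncomputable def n2391 : Strat := .win 757 5 754
noncomputable def n2392 : Strat := .move 795 n2391 (.cons 757 n2049 .nil)
noncomputable def n2393 : Strat := .move 758 n854 (.cons 759 n2392 .nil)
noncomputable def n2394 : Strat := .move 796 n2078 (.cons 754 n2389 (.cons 800 n2393 .nil))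
noncomputable def n2395 : Strat := .win 800 2 755
noncomputable def n2396 : Strat := .win 632 6 632
noncomputable def n2397 : Strat := .win 838 6 673
noncomputable def n2398 : Strat := .move 673 n2396 (.cons 632 n2397 .nil)
noncomputable def n2399 : Strat := .move 714 n328 (.cons 713 n2398 .nil)
noncomputable def n2400 : Strat := .move 716 n1019 (.cons 675 n2399 .nil)
noncomputable def n2401 : Strat := .move 757 n52 (.cons 795 n2400 .nil)
noncomputable def n2402 : Strat := .move 758 n854 (.cons 759 n2401 .nil)
noncomputable def n2403 : Strat := .move 756 n2395 (.cons 800 n2402 .nil)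
noncomputable def n2404 : Strat := .move 755 n78 (.cons 754 n2403 .nil)
noncomputable def n2405 : Strat := .move 796 n77 (.cons 841 n2404 .nil)
noncomputable def n2406 : Strat := .move 796 n77 (.cons 841 n2393 .nil)
noncomputable def n2407 : Strat := .move 716 n1019 (.cons 675 n1512 .nil)
noncomputable def n2408 : Strat := .move 757 n260 (.cons 801 n2407 .nil)
noncomputable def n2409 : Strat := .move 756 n85 (.cons 755 n2408 .nil)
noncomputable def n2410 : Strat := .win 716 4 715
noncomputable def n2411 : Strat := .move 757 n2062 (.cons 758 n2410 .nil)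
noncomputable def n2412 : Strat := .move 756 n85 (.cons 755 n2411 .nil)
noncomputable def n2413 : Strat := .move 719 n1631 (.cons 678 n2412 .nil)
noncomputable def n2414 : Strat := .move 717 n2176 (.cons 676 n2413 .nil)
noncomputable def n2415 : Strat := .move 718 n308 (.cons 677 n2414 .nil)
noncomputable def n2416 : Strat := .move 841 n75 (.cons 842 n2415 .nil)
noncomputable def n2417 : Strat := .move 759 n958 (.cons 760 n2416 .nil)
noncomputable def n2418 : Strat := .move 800 n2056 (.cons 843 n2409 (.cons 801 n2417 .nil))
noncomputable def n2419 : Strat := .move 797 n2079 (.cons 754 n2390 (.cons 841 n2394 (.cons 836 n2405 (.cons 800 n2406 (.cons 796 n2418 .nil)))))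
noncomputable def n2420 : Strat := .move 797 n77 (.cons 841 n2050 .nil)
noncomputable def n2421 : Strat := .win 674 1 673
noncomputable def n2422 : Strat := .win 878 3 714
noncomputable def n2423 : Strat := .move 715 n2421 (.cons 674 n2422 .nil)
noncomputable def n2424 : Strat := .win 715 3 714
noncomputable def n2425 : Strat := .win 919 3 755
noncomputable def n2426 : Strat := .move 878 n2424 (.cons 715 n2425 .nil)
noncomputable def n2427 : Strat := .win 879 6 714
noncomputable def n2428 : Strat := .win 673 6 673
noncomputable def n2429 : Strat := .move 838 n2427 (.cons 879 n2428 .nil)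
noncomputable def n2430 : Strat := .win 920 6 755
noncomputable def n2431 : Strat := .win 838 6 714
noncomputable def n2432 : Strat := .move 879 n2430 (.cons 920 n2431 .nil)
noncomputable def n2433 : Strat := .win 757 2 713
noncomputable def n2434 : Strat := .win 672 7 672
noncomputable def n2435 : Strat := .move 713 n2433 (.cons 757 n2434 .nil)
noncomputable def n2436 : Strat := .move 714 n2429 (.cons 673 n2432 (.cons 879 n2435 .nil))
noncomputable def n2437 : Strat := .move 878 n2425 (.cons 919 n2436 .nil)
noncomputable def n2438 : Strat := .move 714 n2429 (.cons 673 n2435 .nil)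
noncomputable def n2439 : Strat := .move 715 n2421 (.cons 674 n2438 .nil)
noncomputable def n2440 : Strat := .move 756 n2423 (.cons 674 n2426 (.cons 715 n2437 (.cons 878 n2439 .nil)))
noncomputable def n2441 : Strat := .move 837 n126 (.cons 836 n2440 .nil)
noncomputable def n2442 : Strat := .move 755 n78 (.cons 754 n2441 .nil)
noncomputable def n2443 : Strat := .move 758 n854 (.cons 759 n2442 .nil)
noncomputable def n2444 : Strat := .move 797 n2050 (.cons 795 n2443 (.cons 755 n2074 .nil))
noncomputable def n2445 : Strat := .move 797 n77 (.cons 841 n2393 .nil)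
noncomputable def n2446 : Strat := .move 797 n77 (.cons 841 n2443 .nil)
noncomputable def n2447 : Strat := .move 758 n854 (.cons 759 n2391 .nil)
noncomputable def n2448 : Strat := .move 795 n2046 (.cons 839 n2447 .nil)
noncomputable def n2449 : Strat := .move 797 n77 (.cons 841 n2448 .nil)
noncomputable def n2450 : Strat := .move 837 n892 (.cons 795 n1076 .nil)
noncomputable def n2451 : Strat := .move 838 n825 (.cons 879 n2450 .nil)
noncomputable def n2452 : Strat := .move 839 n2370 (.cons 717 n2451 (.cons 879 n2372 .nil))
noncomputable def n2453 : Strat := .move 716 n1019 (.cons 675 n2452 .nil)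
noncomputable def n2454 : Strat := .win 838 4 837
noncomputable def n2455 : Strat := .move 841 n383 (.cons 842 n2454 .nil)
noncomputable def n2456 : Strat := .move 878 n427 (.cons 877 n2455 .nil)
noncomputable def n2457 : Strat := .move 879 n382 (.cons 920 n2456 .nil)
noncomputable def n2458 : Strat := .move 880 n2154 (.cons 717 n2156 (.cons 758 n2457 .nil))
noncomputable def n2459 : Strat := .move 880 n2156 (.cons 758 n2457 .nil)
noncomputable def n2460 : Strat := .move 880 n2154 (.cons 717 n2457 .nil)
noncomputable def n2461 : Strat := .move 920 n2136 (.cons 879 n2135 .nil)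
noncomputable def n2462 : Strat := .move 921 n1891 (.cons 962 n2461 .nil)
noncomputable def n2463 : Strat := .move 755 n327 (.cons 754 n52 .nil)
noncomputable def n2464 : Strat := .move 756 n370 (.cons 715 n2463 .nil)
noncomputable def n2465 : Strat := .move 758 n224 (.cons 717 n2464 .nil)
noncomputable def n2466 : Strat := .move 880 n2154 (.cons 758 n2462 (.cons 921 n2465 .nil))
noncomputable def n2467 : Strat := .win 759 5 715
noncomputable def n2468 : Strat := .move 719 n2467 (.cons 759 n718 .nil)
noncomputable def n2469 : Strat := .move 756 n140 (.cons 755 n2468 .nil)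
noncomputable def n2470 : Strat := .move 718 n37 (.cons 677 n2469 .nil)
noncomputable def n2471 : Strat := .move 717 n152 (.cons 676 n2470 .nil)
noncomputable def n2472 : Strat := .win 759 2 714
noncomputable def n2473 : Strat := .move 714 n2472 (.cons 759 n328 .nil)
noncomputable def n2474 : Strat := .move 755 n327 (.cons 754 n2473 .nil)
noncomputable def n2475 : Strat := .move 715 n990 (.cons 880 n2474 .nil)
noncomputable def n2476 : Strat := .win 718 5 715
noncomputable def n2477 : Strat := .move 719 n409 (.cons 720 n2476 .nil)
noncomputable def n2478 : Strat := .move 760 n298 (.cons 761 n2477 .nil)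
noncomputable def n2479 : Strat := .move 759 n169 (.cons 714 n2478 .nil)
noncomputable def n2480 : Strat := .move 715 n990 (.cons 880 n2479 .nil)
noncomputable def n2481 : Strat := .move 756 n2463 (.cons 795 n2475 (.cons 755 n2480 .nil))
noncomputable def n2482 : Strat := .move 758 n960 (.cons 880 n2471 (.cons 717 n2481 .nil))
noncomputable def n2483 : Strat := .move 838 n892 (.cons 795 n1076 .nil)
noncomputable def n2484 : Strat := .win 718 5 714
noncomputable def n2485 : Strat := .move 717 n2484 (.cons 718 n152 .nil)
noncomputable def n2486 : Strat := .move 758 n52 (.cons 795 n2485 .nil)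
noncomputable def n2487 : Strat := .move 756 n327 (.cons 754 n2486 .nil)
noncomputable def n2488 : Strat := .win 633 1 632
noncomputable def n2489 : Strat := .win 714 3 673
noncomputable def n2490 : Strat := .move 674 n2488 (.cons 633 n2489 .nil)
noncomputable def n2491 : Strat := .move 715 n2422 (.cons 878 n2490 .nil)
noncomputable def n2492 : Strat := .move 756 n327 (.cons 754 n2491 .nil)
noncomputable def n2493 : Strat := .win 713 7 672
noncomputable def n2494 : Strat := .win 631 7 631
noncomputable def n2495 : Strat := .win 795 1 672
noncomputable def n2496 : Strat := .win 877 1 713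
noncomputable def n2497 : Strat := .move 836 n2495 (.cons 795 n2496 .nil)
noncomputable def n2498 : Strat := .move 673 n2494 (.cons 631 n2497 .nil)
noncomputable def n2499 : Strat := .move 672 n2493 (.cons 713 n2498 .nil)
noncomputable def n2500 : Strat := .win 633 3 632
noncomputable def n2501 : Strat := .win 715 3 673
noncomputable def n2502 : Strat := .move 674 n2500 (.cons 633 n2501 .nil)
noncomputable def n2503 : Strat := .move 673 n2495 (.cons 795 n2502 .nil)
noncomputable def n2504 : Strat := .move 836 n2496 (.cons 877 n2503 .nil)
noncomputable def n2505 : Strat := .move 673 n2494 (.cons 631 n2502 .nil)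
noncomputable def n2506 : Strat := .move 672 n2493 (.cons 713 n2505 .nil)
noncomputable def n2507 : Strat := .win 754 7 713
noncomputable def n2508 : Strat := .win 918 1 754
noncomputable def n2509 : Strat := .win 836 1 713
noncomputable def n2510 : Strat := .move 877 n2508 (.cons 918 n2509 .nil)
noncomputable def n2511 : Strat := .move 878 n2507 (.cons 754 n2510 .nil)
noncomputable def n2512 : Strat := .move 713 n2434 (.cons 672 n2511 .nil)
noncomputable def n2513 : Strat := .move 714 n2499 (.cons 631 n2504 (.cons 836 n2506 (.cons 673 n2512 .nil)))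
noncomputable def n2514 : Strat := .win 674 3 673
noncomputable def n2515 : Strat := .move 758 n328 (.cons 713 n52 .nil)
noncomputable def n2516 : Strat := .move 756 n2422 (.cons 878 n2515 .nil)
noncomputable def n2517 : Strat := .move 715 n2514 (.cons 674 n2516 .nil)
noncomputable def n2518 : Strat := .win 758 2 713
noncomputable def n2519 : Strat := .move 713 n2518 (.cons 758 n2434 .nil)
noncomputable def n2520 : Strat := .move 756 n2422 (.cons 878 n2519 .nil)
noncomputable def n2521 : Strat := .move 715 n2514 (.cons 674 n2520 .nil)
noncomputable def n2522 : Strat := .move 672 n2494 (.cons 631 n2493 .nil)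
noncomputable def n2523 : Strat := .move 673 n2495 (.cons 795 n2522 .nil)
noncomputable def n2524 : Strat := .move 836 n2496 (.cons 877 n2523 .nil)
noncomputable def n2525 : Strat := .move 758 n2472 (.cons 759 n52 .nil)
noncomputable def n2526 : Strat := .move 756 n2422 (.cons 878 n2525 .nil)
noncomputable def n2527 : Strat := .move 715 n2514 (.cons 674 n2526 .nil)
noncomputable def n2528 : Strat := .move 714 n2517 (.cons 795 n2521 (.cons 715 n2524 (.cons 713 n2527 .nil)))
noncomputable def n2529 : Strat := .move 755 n2487 (.cons 676 n2492 (.cons 756 n2513 (.cons 754 n2528 .nil)))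
noncomputable def n2530 : Strat := .win 714 6 714
noncomputable def n2531 : Strat := .move 755 n2430 (.cons 920 n2530 .nil)
noncomputable def n2532 : Strat := .move 879 n2158 (.cons 841 n2531 .nil)
noncomputable def n2533 : Strat := .move 878 n1077 (.cons 877 n2532 .nil)
noncomputable def n2534 : Strat := .move 838 n1076 (.cons 836 n2533 .nil)
noncomputable def n2535 : Strat := .move 838 n892 (.cons 795 n2533 .nil)
noncomputable def n2536 : Strat := .move 837 n2483 (.cons 838 n2529 (.cons 795 n2534 (.cons 836 n2535 .nil)))
noncomputable def n2537 : Strat := .win 880 1 756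
noncomputable def n2538 : Strat := .move 920 n484 (.cons 961 n2537 .nil)
noncomputable def n2539 : Strat := .move 879 n2158 (.cons 841 n2538 .nil)
noncomputable def n2540 : Strat := .move 878 n1077 (.cons 877 n2539 .nil)
noncomputable def n2541 : Strat := .move 838 n1076 (.cons 836 n2540 .nil)
noncomputable def n2542 : Strat := .move 838 n892 (.cons 795 n2540 .nil)
noncomputable def n2543 : Strat := .move 715 n990 (.cons 880 n2422 .nil)
noncomputable def n2544 : Strat := .move 756 n327 (.cons 754 n2543 .nil)
noncomputable def n2545 : Strat := .win 880 5 836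
noncomputable def n2546 : Strat := .move 879 n2545 (.cons 880 n2430 .nil)
noncomputable def n2547 : Strat := .move 877 n2508 (.cons 918 n2546 .nil)
noncomputable def n2548 : Strat := .move 714 n2434 (.cons 672 n2510 .nil)
noncomputable def n2549 : Strat := .move 713 n2507 (.cons 754 n2548 .nil)
noncomputable def n2550 : Strat := .win 879 6 755
noncomputable def n2551 : Strat := .win 961 6 796
noncomputable def n2552 : Strat := .win 795 7 754
noncomputable def n2553 : Strat := .win 713 7 713
noncomputable def n2554 : Strat := .move 754 n2552 (.cons 795 n2553 .nil)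
noncomputable def n2555 : Strat := .move 919 n2551 (.cons 961 n2554 .nil)
noncomputable def n2556 : Strat := .move 920 n2550 (.cons 879 n2555 .nil)
noncomputable def n2557 : Strat := .move 878 n2547 (.cons 880 n2549 (.cons 877 n2556 .nil))
noncomputable def n2558 : Strat := .move 715 n990 (.cons 880 n2490 .nil)
noncomputable def n2559 : Strat := .move 756 n327 (.cons 754 n2558 .nil)
noncomputable def n2560 : Strat := .win 756 0 754
noncomputable def n2561 : Strat := .win 959 1 795
noncomputable def n2562 : Strat := .win 877 1 754
noncomputable def n2563 : Strat := .move 918 n2561 (.cons 959 n2562 .nil)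
noncomputable def n2564 : Strat := .move 919 n2552 (.cons 795 n2563 .nil)
noncomputable def n2565 : Strat := .move 878 n2553 (.cons 713 n2564 .nil)
noncomputable def n2566 : Strat := .move 754 n2560 (.cons 756 n2565 .nil)
noncomputable def n2567 : Strat := .move 756 n2422 (.cons 878 n990 .nil)
noncomputable def n2568 : Strat := .move 715 n2514 (.cons 674 n2567 .nil)
noncomputable def n2569 : Strat := .move 878 n2508 (.cons 918 n2546 .nil)
noncomputable def n2570 : Strat := .move 877 n2509 (.cons 836 n2569 .nil)
noncomputable def n2571 : Strat := .win 756 3 714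
noncomputable def n2572 : Strat := .move 878 n2571 (.cons 756 n2510 .nil)
noncomputable def n2573 : Strat := .move 715 n2514 (.cons 674 n2572 .nil)
noncomputable def n2574 : Strat := .win 712 0 712
noncomputable def n2575 : Strat := .move 756 n2574 (.cons 712 n990 .nil)
noncomputable def n2576 : Strat := .move 713 n2434 (.cons 672 n2575 .nil)
noncomputable def n2577 : Strat := .move 715 n2514 (.cons 674 n2576 .nil)
noncomputable def n2578 : Strat := .move 714 n2568 (.cons 756 n2570 (.cons 880 n2573 (.cons 878 n2577 .nil)))
noncomputable def n2579 : Strat := .move 755 n2544 (.cons 756 n2557 (.cons 878 n2559 (.cons 880 n2566 (.cons 754 n2578 .nil))))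
noncomputable def n2580 : Strat := .move 837 n2483 (.cons 795 n2541 (.cons 836 n2542 (.cons 838 n2579 .nil)))
noncomputable def n2581 : Strat := .move 839 n2458 (.cons 717 n2459 (.cons 962 n2460 (.cons 838 n2466 (.cons 921 n2482 (.cons 880 n2536 (.cons 758 n2580 .nil))))))
noncomputable def n2582 : Strat := .move 880 n2307 (.cons 756 n2368 .nil)
noncomputable def n2583 : Strat := .move 715 n153 (.cons 674 n2582 .nil)
noncomputable def n2584 : Strat := .move 880 n2307 (.cons 756 n2138 .nil)
noncomputable def n2585 : Strat := .move 715 n153 (.cons 674 n2584 .nil)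
noncomputable def n2586 : Strat := .move 717 n2354 (.cons 718 n2082 .nil)
noncomputable def n2587 : Strat := .move 755 n327 (.cons 754 n2586 .nil)
noncomputable def n2588 : Strat := .move 756 n990 (.cons 880 n2587 .nil)
noncomputable def n2589 : Strat := .move 715 n153 (.cons 674 n2588 .nil)
noncomputable def n2590 : Strat := .move 839 n2451 (.cons 795 n2583 (.cons 838 n2585 (.cons 879 n2589 .nil)))
noncomputable def n2591 : Strat := .move 716 n1019 (.cons 675 n2590 .nil)
noncomputable def n2592 : Strat := .move 759 n169 (.cons 714 n155 .nil)
noncomputable def n2593 : Strat := .move 758 n52 (.cons 795 n2592 .nil)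
noncomputable def n2594 : Strat := .move 755 n327 (.cons 754 n2593 .nil)
noncomputable def n2595 : Strat := .move 756 n990 (.cons 880 n2594 .nil)
noncomputable def n2596 : Strat := .move 715 n153 (.cons 674 n2595 .nil)
noncomputable def n2597 : Strat := .move 839 n2451 (.cons 836 n2583 (.cons 879 n2596 .nil))
noncomputable def n2598 : Strat := .move 716 n1019 (.cons 675 n2597 .nil)
noncomputable def n2599 : Strat := .move 837 n1076 (.cons 836 n892 .nil)
noncomputable def n2600 : Strat := .move 838 n825 (.cons 879 n2599 .nil)
noncomputable def n2601 : Strat := .move 715 n153 (.cons 674 n2600 .nil)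
noncomputable def n2602 : Strat := .move 717 n2082 (.cons 676 n2601 .nil)
noncomputable def n2603 : Strat := .move 677 n2200 (.cons 678 n2238 .nil)
noncomputable def n2604 : Strat := .move 718 n2362 (.cons 719 n2603 .nil)
noncomputable def n2605 : Strat := .move 715 n153 (.cons 674 n2604 .nil)
noncomputable def n2606 : Strat := .move 717 n2082 (.cons 676 n2605 .nil)
noncomputable def n2607 : Strat := .move 839 n2602 (.cons 838 n2606 (.cons 715 n2451 .nil))
noncomputable def n2608 : Strat := .move 716 n1019 (.cons 675 n2607 .nil)
noncomputable def n2609 : Strat := .move 718 n37 (.cons 677 n720 .nil)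
noncomputable def n2610 : Strat := .move 758 n145 (.cons 880 n2609 .nil)
noncomputable def n2611 : Strat := .move 717 n2082 (.cons 676 n2610 .nil)
noncomputable def n2612 : Strat := .move 839 n2370 (.cons 880 n2451 (.cons 838 n2140 (.cons 879 n2611 .nil)))
noncomputable def n2613 : Strat := .move 716 n1019 (.cons 675 n2612 .nil)
noncomputable def n2614 : Strat := .move 715 n153 (.cons 674 n2307 .nil)
noncomputable def n2615 : Strat := .move 880 n2083 (.cons 758 n2614 .nil)
noncomputable def n2616 : Strat := .move 717 n2082 (.cons 676 n2615 .nil)
noncomputable def n2617 : Strat := .move 839 n2616 (.cons 758 n2585 (.cons 756 n2140 (.cons 880 n2606 .nil)))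
noncomputable def n2618 : Strat := .move 716 n1019 (.cons 675 n2617 .nil)
noncomputable def n2619 : Strat := .move 839 n2372 (.cons 717 n2596 (.cons 758 n2589 (.cons 674 n2611 (.cons 880 n2606 .nil))))
noncomputable def n2620 : Strat := .move 716 n1019 (.cons 675 n2619 .nil)
noncomputable def n2621 : Strat := .win 716 6 675
noncomputable def n2622 : Strat := .move 676 n181 (.cons 634 n722 .nil)
noncomputable def n2623 : Strat := .move 675 n2621 (.cons 716 n2622 .nil)
noncomputable def n2624 : Strat := .move 717 n2484 (.cons 718 n2623 .nil)
noncomputable def n2625 : Strat := .move 758 n52 (.cons 795 n2624 .nil)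
noncomputable def n2626 : Strat := .move 756 n327 (.cons 754 n2625 .nil)
noncomputable def n2627 : Strat := .move 758 n187 (.cons 759 n828 .nil)
noncomputable def n2628 : Strat := .move 717 n189 (.cons 754 n2627 .nil)
noncomputable def n2629 : Strat := .win 758 0 713
noncomputable def n2630 : Strat := .move 837 n2434 (.cons 672 n2514 .nil)
noncomputable def n2631 : Strat := .move 713 n2629 (.cons 758 n2630 .nil)
noncomputable def n2632 : Strat := .win 837 3 673
noncomputable def n2633 : Strat := .move 674 n2632 (.cons 837 n2500 .nil)
noncomputable def n2634 : Strat := .move 673 n1795 (.cons 672 n2633 .nil)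
noncomputable def n2635 : Strat := .move 717 n189 (.cons 754 n2634 .nil)
noncomputable def n2636 : Strat := .move 715 n2628 (.cons 759 n2631 (.cons 713 n2635 .nil))
noncomputable def n2637 : Strat := .win 673 2 672
noncomputable def n2638 : Strat := .move 717 n2637 (.cons 673 n189 .nil)
noncomputable def n2639 : Strat := .move 672 n2493 (.cons 713 n2638 .nil)
noncomputable def n2640 : Strat := .move 715 n2514 (.cons 674 n2639 .nil)
noncomputable def n2641 : Strat := .win 717 4 713
noncomputable def n2642 : Strat := .win 753 4 712
noncomputable def n2643 : Strat := .win 878 7 713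
noncomputable def n2644 : Strat := .move 713 n2642 (.cons 753 n2643 .nil)
noncomputable def n2645 : Strat := .move 754 n2641 (.cons 717 n2644 .nil)
noncomputable def n2646 : Strat := .move 715 n2514 (.cons 674 n2645 .nil)
noncomputable def n2647 : Strat := .move 836 n2496 (.cons 877 n2495 .nil)
noncomputable def n2648 : Strat := .move 673 n2494 (.cons 631 n2647 .nil)
noncomputable def n2649 : Strat := .move 672 n2493 (.cons 713 n2648 .nil)
noncomputable def n2650 : Strat := .move 717 n1795 (.cons 672 n189 .nil)
noncomputable def n2651 : Strat := .move 673 n2647 (.cons 795 n2650 .nil)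
noncomputable def n2652 : Strat := .move 715 n2514 (.cons 674 n2651 .nil)
noncomputable def n2653 : Strat := .move 837 n2640 (.cons 672 n2646 (.cons 715 n2649 (.cons 713 n2652 .nil)))
noncomputable def n2654 : Strat := .win 672 7 631
noncomputable def n2655 : Strat := .win 590 7 590
noncomputable def n2656 : Strat := .win 754 1 631
noncomputable def n2657 : Strat := .win 836 1 672
noncomputable def n2658 : Strat := .move 795 n2656 (.cons 754 n2657 .nil)
noncomputable def n2659 : Strat := .move 632 n2655 (.cons 590 n2658 .nil)
noncomputable def n2660 : Strat := .move 631 n2654 (.cons 672 n2659 .nil)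
noncomputable def n2661 : Strat := .win 592 3 591
noncomputable def n2662 : Strat := .win 674 3 632
noncomputable def n2663 : Strat := .move 633 n2661 (.cons 592 n2662 .nil)
noncomputable def n2664 : Strat := .move 632 n2656 (.cons 754 n2663 .nil)
noncomputable def n2665 : Strat := .move 795 n2657 (.cons 836 n2664 .nil)
noncomputable def n2666 : Strat := .move 632 n2655 (.cons 590 n2663 .nil)
noncomputable def n2667 : Strat := .move 631 n2654 (.cons 672 n2666 .nil)
noncomputable def n2668 : Strat := .move 837 n2493 (.cons 713 n2647 .nil)
noncomputable def n2669 : Strat := .move 672 n2494 (.cons 631 n2668 .nil)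
noncomputable def n2670 : Strat := .move 673 n2660 (.cons 590 n2665 (.cons 795 n2667 (.cons 632 n2669 .nil)))
noncomputable def n2671 : Strat := .win 718 2 673
noncomputable def n2672 : Strat := .move 674 n2671 (.cons 718 n2500 .nil)
noncomputable def n2673 : Strat := .move 673 n1795 (.cons 672 n2672 .nil)
noncomputable def n2674 : Strat := .move 717 n189 (.cons 754 n2673 .nil)
noncomputable def n2675 : Strat := .win 671 2 671
noncomputable def n2676 : Strat := .win 590 6 590
noncomputable def n2677 : Strat := .win 673 7 631
noncomputable def n2678 : Strat := .move 631 n2676 (.cons 590 n2677 .nil)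
noncomputable def n2679 : Strat := .move 672 n2675 (.cons 671 n2678 .nil)
noncomputable def n2680 : Strat := .move 713 n2629 (.cons 758 n2679 .nil)
noncomputable def n2681 : Strat := .move 715 n2628 (.cons 759 n2674 (.cons 717 n2680 .nil))
noncomputable def n2682 : Strat := .win 677 5 673
noncomputable def n2683 : Strat := .move 676 n722 (.cons 635 n2682 .nil)
noncomputable def n2684 : Strat := .move 758 n187 (.cons 759 n2683 .nil)
noncomputable def n2685 : Strat := .move 717 n189 (.cons 754 n2684 .nil)
noncomputable def n2686 : Strat := .move 754 n2642 (.cons 753 n2641 .nil)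
noncomputable def n2687 : Strat := .move 713 n2434 (.cons 672 n2686 .nil)
noncomputable def n2688 : Strat := .move 837 n2514 (.cons 674 n2687 .nil)
noncomputable def n2689 : Strat := .move 715 n2631 (.cons 672 n2628 (.cons 713 n2685 (.cons 758 n2688 .nil)))
noncomputable def n2690 : Strat := .move 713 n2434 (.cons 672 n2629 .nil)
noncomputable def n2691 : Strat := .move 715 n2514 (.cons 674 n2690 .nil)
noncomputable def n2692 : Strat := .win 717 0 714
noncomputable def n2693 : Strat := .move 759 n155 (.cons 760 n2692 .nil)
noncomputable def n2694 : Strat := .move 758 n828 (.cons 713 n2693 .nil)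
noncomputable def n2695 : Strat := .move 715 n2514 (.cons 674 n2694 .nil)
noncomputable def n2696 : Strat := .move 673 n2500 (.cons 633 n2647 .nil)
noncomputable def n2697 : Strat := .move 674 n2501 (.cons 715 n2696 .nil)
noncomputable def n2698 : Strat := .move 837 n2691 (.cons 674 n2649 (.cons 672 n2695 (.cons 713 n2697 .nil)))
noncomputable def n2699 : Strat := .move 754 n2643 (.cons 878 n2641 .nil)
noncomputable def n2700 : Strat := .move 715 n2629 (.cons 758 n2699 .nil)
noncomputable def n2701 : Strat := .move 713 n2434 (.cons 672 n2700 .nil)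
noncomputable def n2702 : Strat := .move 878 n2508 (.cons 918 n2432 .nil)
noncomputable def n2703 : Strat := .move 877 n2509 (.cons 836 n2702 .nil)
noncomputable def n2704 : Strat := .move 837 n2701 (.cons 754 n2649 (.cons 713 n2703 .nil))
noncomputable def n2705 : Strat := .move 713 n2642 (.cons 753 n2629 .nil)
noncomputable def n2706 : Strat := .move 754 n2641 (.cons 717 n2705 .nil)
noncomputable def n2707 : Strat := .move 837 n2514 (.cons 674 n2706 .nil)
noncomputable def n2708 : Strat := .win 592 1 591
noncomputable def n2709 : Strat := .win 673 3 632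
noncomputable def n2710 : Strat := .move 633 n2708 (.cons 592 n2709 .nil)
noncomputable def n2711 : Strat := .move 674 n2632 (.cons 837 n2710 .nil)
noncomputable def n2712 : Strat := .move 715 n2707 (.cons 717 n2711 (.cons 674 n2628 .nil))
noncomputable def n2713 : Strat := .move 715 n2632 (.cons 837 n2650 .nil)
noncomputable def n2714 : Strat := .move 674 n2500 (.cons 633 n2713 .nil)
noncomputable def n2715 : Strat := .win 717 2 672
noncomputable def n2716 : Strat := .win 674 0 671
noncomputable def n2717 : Strat := .win 670 0 670
noncomputable def n2718 : Strat := .move 671 n2716 (.cons 674 n2717 .nil)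
noncomputable def n2719 : Strat := .move 715 n2715 (.cons 717 n2718 .nil)
noncomputable def n2720 : Strat := .move 672 n2494 (.cons 631 n2719 .nil)
noncomputable def n2721 : Strat := .move 717 n2671 (.cons 718 n189 .nil)
noncomputable def n2722 : Strat := .move 715 n2632 (.cons 837 n2721 .nil)
noncomputable def n2723 : Strat := .move 674 n2500 (.cons 633 n2722 .nil)
noncomputable def n2724 : Strat := .move 631 n2655 (.cons 590 n2654 .nil)
noncomputable def n2725 : Strat := .move 632 n2656 (.cons 754 n2724 .nil)
noncomputable def n2726 : Strat := .move 795 n2657 (.cons 836 n2725 .nil)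
noncomputable def n2727 : Strat := .move 673 n2714 (.cons 633 n2720 (.cons 672 n2723 (.cons 674 n2726 .nil)))
noncomputable def n2728 : Strat := .move 714 n2636 (.cons 758 n2653 (.cons 715 n2670 (.cons 837 n2681 (.cons 673 n2689 (.cons 754 n2698 (.cons 674 n2704 (.cons 672 n2712 (.cons 713 n2727 .nil))))))))
noncomputable def n2729 : Strat := .move 716 n1019 (.cons 675 n2728 .nil)
noncomputable def n2730 : Strat := .move 837 n2514 (.cons 674 n2422 .nil)
noncomputable def n2731 : Strat := .move 715 n2472 (.cons 759 n2730 .nil)
noncomputable def n2732 : Strat := .move 714 n328 (.cons 713 n2731 .nil)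
noncomputable def n2733 : Strat := .move 758 n52 (.cons 795 n2732 .nil)
noncomputable def n2734 : Strat := .move 756 n327 (.cons 754 n2733 .nil)
noncomputable def n2735 : Strat := .win 752 5 711
noncomputable def n2736 : Strat := .win 713 4 712
noncomputable def n2737 : Strat := .move 753 n2735 (.cons 752 n2736 .nil)
noncomputable def n2738 : Strat := .move 715 n2641 (.cons 717 n2737 .nil)
noncomputable def n2739 : Strat := .move 837 n2514 (.cons 674 n2643 .nil)
noncomputable def n2740 : Strat := .move 713 n2642 (.cons 753 n2739 .nil)
noncomputable def n2741 : Strat := .move 715 n2641 (.cons 717 n2740 .nil)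
noncomputable def n2742 : Strat := .win 632 1 631
noncomputable def n2743 : Strat := .move 795 n2657 (.cons 836 n2742 .nil)
noncomputable def n2744 : Strat := .move 713 n2434 (.cons 672 n2643 .nil)
noncomputable def n2745 : Strat := .move 837 n2647 (.cons 795 n2744 .nil)
noncomputable def n2746 : Strat := .win 795 1 631
noncomputable def n2747 : Strat := .move 632 n2746 (.cons 795 n2663 .nil)
noncomputable def n2748 : Strat := .move 632 n2663 (.cons 674 n2724 .nil)
noncomputable def n2749 : Strat := .move 673 n2743 (.cons 632 n2745 (.cons 836 n2747 (.cons 795 n2748 .nil)))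
noncomputable def n2750 : Strat := .move 715 n2641 (.cons 717 n2711 .nil)
noncomputable def n2751 : Strat := .move 714 n2738 (.cons 752 n2741 (.cons 715 n2749 (.cons 713 n2750 .nil)))
noncomputable def n2752 : Strat := .move 716 n1019 (.cons 675 n2751 .nil)
noncomputable def n2753 : Strat := .move 754 n2560 (.cons 756 n2752 .nil)
noncomputable def n2754 : Strat := .move 717 n2484 (.cons 718 n2622 .nil)
noncomputable def n2755 : Strat := .move 758 n2754 (.cons 676 n2732 .nil)
noncomputable def n2756 : Strat := .move 675 n2621 (.cons 716 n2755 .nil)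
noncomputable def n2757 : Strat := .move 756 n327 (.cons 754 n2756 .nil)
noncomputable def n2758 : Strat := .move 756 n52 (.cons 795 n2624 .nil)
noncomputable def n2759 : Strat := .move 756 n52 (.cons 795 n2732 .nil)
noncomputable def n2760 : Strat := .move 756 n2754 (.cons 676 n2732 .nil)
noncomputable def n2761 : Strat := .move 675 n2621 (.cons 716 n2760 .nil)
noncomputable def n2762 : Strat := .move 715 n828 (.cons 713 n2693 .nil)
noncomputable def n2763 : Strat := .move 716 n1019 (.cons 675 n2762 .nil)
noncomputable def n2764 : Strat := .move 715 n828 (.cons 713 n2711 .nil)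
noncomputable def n2765 : Strat := .move 716 n1019 (.cons 675 n2764 .nil)
noncomputable def n2766 : Strat := .move 674 n2501 (.cons 715 n2500 .nil)
noncomputable def n2767 : Strat := .move 673 n2495 (.cons 795 n2766 .nil)
noncomputable def n2768 : Strat := .move 836 n2496 (.cons 877 n2767 .nil)
noncomputable def n2769 : Strat := .move 673 n2494 (.cons 631 n2766 .nil)
noncomputable def n2770 : Strat := .move 672 n2493 (.cons 713 n2769 .nil)
noncomputable def n2771 : Strat := .move 673 n2494 (.cons 631 n2495 .nil)
noncomputable def n2772 : Strat := .move 672 n2493 (.cons 713 n2771 .nil)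
noncomputable def n2773 : Strat := .move 836 n2496 (.cons 877 n2772 .nil)
noncomputable def n2774 : Strat := .move 837 n2768 (.cons 795 n2770 (.cons 674 n2773 (.cons 673 n2703 .nil)))
noncomputable def n2775 : Strat := .move 717 n181 (.cons 634 n722 .nil)
noncomputable def n2776 : Strat := .win 713 4 672
noncomputable def n2777 : Strat := .move 674 n2776 (.cons 713 n2500 .nil)
noncomputable def n2778 : Strat := .move 676 n2775 (.cons 635 n2777 .nil)
noncomputable def n2779 : Strat := .move 672 n2493 (.cons 713 n2494 .nil)
noncomputable def n2780 : Strat := .move 837 n2647 (.cons 795 n2779 .nil)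
noncomputable def n2781 : Strat := .move 673 n2778 (.cons 676 n2780 (.cons 713 n2748 .nil))
noncomputable def n2782 : Strat := .move 675 n2621 (.cons 716 n2781 .nil)
noncomputable def n2783 : Strat := .move 715 n2693 (.cons 717 n2711 .nil)
noncomputable def n2784 : Strat := .move 716 n1019 (.cons 675 n2783 .nil)
noncomputable def n2785 : Strat := .move 714 n2763 (.cons 759 n2765 (.cons 716 n2774 (.cons 715 n2782 (.cons 713 n2784 .nil))))
noncomputable def n2786 : Strat := .move 758 n2758 (.cons 716 n2759 (.cons 795 n2761 (.cons 756 n2785 .nil)))
noncomputable def n2787 : Strat := .move 755 n2626 (.cons 756 n2729 (.cons 675 n2734 (.cons 758 n2753 (.cons 795 n2757 (.cons 754 n2786 .nil)))))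
noncomputable def n2788 : Strat := .move 757 n2453 (.cons 716 n2581 (.cons 758 n2591 (.cons 717 n2598 (.cons 880 n2608 (.cons 715 n2613 (.cons 838 n2618 (.cons 879 n2620 (.cons 839 n2787 .nil))))))))
noncomputable def n2789 : Strat := .move 796 n2420 (.cons 841 n2444 (.cons 839 n2445 (.cons 795 n2446 (.cons 754 n2449 (.cons 797 n2788 .nil)))))
noncomputable def n2790 : Strat := .win 921 7 756
noncomputable def n2791 : Strat := .move 880 n888 (.cons 715 n2790 .nil)
noncomputable def n2792 : Strat := .move 756 n85 (.cons 755 n2791 .nil)
noncomputable def n2793 : Strat := .move 839 n83 (.cons 801 n2792 .nil)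
noncomputable def n2794 : Strat := .move 838 n82 (.cons 837 n2793 .nil)
noncomputable def n2795 : Strat := .move 801 n320 (.cons 839 n2054 .nil)
noncomputable def n2796 : Strat := .move 838 n82 (.cons 837 n2795 .nil)
noncomputable def n2797 : Strat := .move 801 n1177 (.cons 757 n2054 .nil)
noncomputable def n2798 : Strat := .move 756 n85 (.cons 755 n2797 .nil)
noncomputable def n2799 : Strat := .move 716 n1039 (.cons 675 n1038 .nil)
noncomputable def n2800 : Strat := .move 879 n863 (.cons 920 n2060 .nil)
noncomputable def n2801 : Strat := .win 921 6 756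
noncomputable def n2802 : Strat := .win 839 6 715
noncomputable def n2803 : Strat := .move 880 n2801 (.cons 921 n2802 .nil)
noncomputable def n2804 : Strat := .win 758 2 714
noncomputable def n2805 : Strat := .win 673 7 673
noncomputable def n2806 : Strat := .move 714 n2804 (.cons 758 n2805 .nil)
noncomputable def n2807 : Strat := .move 715 n2015 (.cons 674 n2803 (.cons 880 n2806 .nil))
noncomputable def n2808 : Strat := .move 879 n863 (.cons 920 n2807 .nil)
noncomputable def n2809 : Strat := .move 715 n2015 (.cons 674 n2806 .nil)
noncomputable def n2810 : Strat := .move 716 n1039 (.cons 675 n2809 .nil)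
noncomputable def n2811 : Strat := .move 757 n2799 (.cons 675 n2800 (.cons 716 n2808 (.cons 879 n2810 .nil)))
noncomputable def n2812 : Strat := .move 759 n958 (.cons 760 n2811 .nil)
noncomputable def n2813 : Strat := .move 756 n85 (.cons 755 n2812 .nil)
noncomputable def n2814 : Strat := .move 838 n82 (.cons 837 n2813 .nil)
noncomputable def n2815 : Strat := .move 800 n2794 (.cons 756 n2796 (.cons 838 n2798 (.cons 801 n2814 .nil)))
noncomputable def n2816 : Strat := .move 796 n2050 (.cons 795 n2443 (.cons 755 n2074 .nil))
noncomputable def n2817 : Strat := .move 837 n126 (.cons 836 n2423 .nil)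
noncomputable def n2818 : Strat := .move 756 n2395 (.cons 800 n2817 .nil)
noncomputable def n2819 : Strat := .move 755 n78 (.cons 754 n2818 .nil)
noncomputable def n2820 : Strat := .move 796 n2050 (.cons 755 n2448 (.cons 795 n2819 .nil))
noncomputable def n2821 : Strat := .win 920 7 755
noncomputable def n2822 : Strat := .move 879 n2530 (.cons 714 n2821 .nil)
noncomputable def n2823 : Strat := .move 838 n1085 (.cons 800 n2822 .nil)
noncomputable def n2824 : Strat := .move 755 n78 (.cons 754 n2823 .nil)
noncomputable def n2825 : Strat := .move 837 n126 (.cons 836 n2824 .nil)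
noncomputable def n2826 : Strat := .move 796 n2074 (.cons 837 n2050 (.cons 839 n2825 .nil))
noncomputable def n2827 : Strat := .move 795 n2046 (.cons 839 n2391 .nil)
noncomputable def n2828 : Strat := .move 758 n854 (.cons 759 n2827 .nil)
noncomputable def n2829 : Strat := .move 800 n79 (.cons 756 n2387 .nil)
noncomputable def n2830 : Strat := .move 755 n78 (.cons 754 n2829 .nil)
noncomputable def n2831 : Strat := .move 796 n2050 (.cons 753 n2828 (.cons 795 n2830 .nil))
noncomputable def n2832 : Strat := .move 796 n2074 (.cons 837 n2448 (.cons 795 n2389 .nil))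
noncomputable def n2833 : Strat := .move 797 n2080 (.cons 796 n2815 (.cons 800 n2816 (.cons 839 n2394 (.cons 838 n2820 (.cons 756 n2826 (.cons 837 n2831 (.cons 755 n2832 .nil)))))))
noncomputable def n2834 : Strat := .win 800 0 797
noncomputable def n2835 : Strat := .move 842 n514 (.cons 843 n2834 .nil)
noncomputable def n2836 : Strat := .move 797 n74 (.cons 796 n2835 .nil)
noncomputable def n2837 : Strat := .move 880 n475 (.cons 879 n2154 .nil)
noncomputable def n2838 : Strat := .move 800 n115 (.cons 838 n2837 .nil)
noncomputable def n2839 : Strat := .move 801 n1074 (.cons 802 n2838 .nil)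
noncomputable def n2840 : Strat := .move 839 n944 (.cons 797 n2839 .nil)
noncomputable def n2841 : Strat := .move 842 n514 (.cons 843 n2840 .nil)
noncomputable def n2842 : Strat := .move 800 n75 (.cons 842 n2796 .nil)
noncomputable def n2843 : Strat := .move 797 n74 (.cons 796 n2842 .nil)
noncomputable def n2844 : Strat := .win 839 2 797
noncomputable def n2845 : Strat := .move 842 n514 (.cons 843 n2844 .nil)
noncomputable def n2846 : Strat := .move 797 n74 (.cons 796 n2845 .nil)
noncomputable def n2847 : Strat := .move 757 n260 (.cons 801 n2063 .nil)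
noncomputable def n2848 : Strat := .move 756 n85 (.cons 755 n2847 .nil)
noncomputable def n2849 : Strat := .move 718 n308 (.cons 677 n2848 .nil)
noncomputable def n2850 : Strat := .move 759 n958 (.cons 760 n2849 .nil)
noncomputable def n2851 : Strat := .move 880 n2790 (.cons 921 n888 .nil)
noncomputable def n2852 : Strat := .win 757 3 756
noncomputable def n2853 : Strat := .move 920 n484 (.cons 961 n2852 .nil)
noncomputable def n2854 : Strat := .move 879 n862 (.cons 878 n2853 .nil)
noncomputable def n2855 : Strat := .move 839 n554 (.cons 674 n2851 (.cons 880 n2854 .nil))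
noncomputable def n2856 : Strat := .move 759 n958 (.cons 760 n2855 .nil)
noncomputable def n2857 : Strat := .move 756 n85 (.cons 755 n2856 .nil)
noncomputable def n2858 : Strat := .move 838 n82 (.cons 837 n2857 .nil)
noncomputable def n2859 : Strat := .move 800 n2796 (.cons 759 n2059 (.cons 839 n2850 (.cons 801 n2858 .nil)))
noncomputable def n2860 : Strat := .move 797 n74 (.cons 796 n2859 .nil)
noncomputable def n2861 : Strat := .move 883 n1358 (.cons 884 n2119 .nil)
noncomputable def n2862 : Strat := .move 800 n115 (.cons 838 n2861 .nil)
noncomputable def n2863 : Strat := .move 801 n1074 (.cons 802 n2862 .nil)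
noncomputable def n2864 : Strat := .move 839 n2839 (.cons 801 n2837 (.cons 717 n2863 .nil))
noncomputable def n2865 : Strat := .move 842 n514 (.cons 843 n2864 .nil)
noncomputable def n2866 : Strat := .move 841 n2836 (.cons 796 n2841 (.cons 843 n2843 (.cons 800 n2846 (.cons 842 n2860 (.cons 797 n2865 .nil)))))
noncomputable def n2867 : Strat := .move 841 n74 (.cons 796 n2835 .nil)
noncomputable def n2868 : Strat := .move 801 n123 (.cons 843 n2057 .nil)
noncomputable def n2869 : Strat := .move 842 n124 (.cons 841 n2868 .nil)
noncomputable def n2870 : Strat := .move 759 n958 (.cons 760 n2415 .nil)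
noncomputable def n2871 : Strat := .move 841 n75 (.cons 842 n2870 .nil)
noncomputable def n2872 : Strat := .move 800 n2056 (.cons 842 n2798 (.cons 759 n2869 (.cons 801 n2871 .nil)))
noncomputable def n2873 : Strat := .move 797 n2051 (.cons 795 n2867 (.cons 841 n2820 (.cons 796 n2872 .nil)))
noncomputable def n2874 : Strat := .move 756 n2395 (.cons 800 n2423 .nil)
noncomputable def n2875 : Strat := .move 837 n126 (.cons 836 n2874 .nil)
noncomputable def n2876 : Strat := .move 755 n78 (.cons 754 n2875 .nil)
noncomputable def n2877 : Strat := .move 796 n2050 (.cons 755 n2074 (.cons 839 n2876 .nil))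
noncomputable def n2878 : Strat := .move 841 n75 (.cons 842 n2792 .nil)
noncomputable def n2879 : Strat := .move 839 n83 (.cons 801 n2878 .nil)
noncomputable def n2880 : Strat := .move 838 n82 (.cons 837 n2879 .nil)
noncomputable def n2881 : Strat := .move 715 n553 (.cons 674 n552 .nil)
noncomputable def n2882 : Strat := .move 757 n1087 (.cons 716 n863 .nil)
noncomputable def n2883 : Strat := .move 879 n862 (.cons 878 n2882 .nil)
noncomputable def n2884 : Strat := .move 839 n2791 (.cons 921 n2881 (.cons 880 n2883 .nil))
noncomputable def n2885 : Strat := .move 841 n75 (.cons 842 n2884 .nil)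
noncomputable def n2886 : Strat := .move 756 n85 (.cons 755 n2885 .nil)
noncomputable def n2887 : Strat := .move 838 n82 (.cons 837 n2886 .nil)
noncomputable def n2888 : Strat := .move 920 n2852 (.cons 757 n484 .nil)
noncomputable def n2889 : Strat := .move 879 n862 (.cons 878 n2888 .nil)
noncomputable def n2890 : Strat := .move 841 n75 (.cons 842 n2889 .nil)
noncomputable def n2891 : Strat := .move 839 n83 (.cons 801 n2890 .nil)
noncomputable def n2892 : Strat := .move 838 n82 (.cons 837 n2891 .nil)
noncomputable def n2893 : Strat := .move 800 n2880 (.cons 838 n2869 (.cons 841 n2059 (.cons 801 n2887 (.cons 756 n2892 .nil))))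
noncomputable def n2894 : Strat := .move 797 n2051 (.cons 755 n2867 (.cons 841 n2877 (.cons 796 n2893 .nil)))
noncomputable def n2895 : Strat := .move 801 n1177 (.cons 757 n117 .nil)
noncomputable def n2896 : Strat := .move 756 n85 (.cons 755 n2895 .nil)
noncomputable def n2897 : Strat := .move 800 n2056 (.cons 842 n2896 (.cons 801 n2871 .nil))
noncomputable def n2898 : Strat := .move 797 n2051 (.cons 841 n2831 (.cons 754 n2867 (.cons 796 n2897 .nil)))
noncomputable def n2899 : Strat := .move 841 n514 (.cons 843 n2834 .nil)
noncomputable def n2900 : Strat := .move 841 n514 (.cons 843 n2844 .nil)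
noncomputable def n2901 : Strat := .move 841 n2834 (.cons 800 n2844 .nil)
noncomputable def n2902 : Strat := .move 800 n123 (.cons 843 n117 .nil)
noncomputable def n2903 : Strat := .move 800 n117 (.cons 839 n2054 .nil)
noncomputable def n2904 : Strat := .move 800 n123 (.cons 843 n2054 .nil)
noncomputable def n2905 : Strat := .move 758 n477 (.cons 757 n298 .nil)
noncomputable def n2906 : Strat := .win 758 4 756
noncomputable def n2907 : Strat := .win 636 6 636
noncomputable def n2908 : Strat := .win 719 7 677
noncomputable def n2909 : Strat := .move 677 n2907 (.cons 636 n2908 .nil)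
noncomputable def n2910 : Strat := .move 718 n1027 (.cons 883 n2909 .nil)
noncomputable def n2911 : Strat := .move 716 n1019 (.cons 675 n2910 .nil)
noncomputable def n2912 : Strat := .move 757 n2906 (.cons 758 n2911 .nil)
noncomputable def n2913 : Strat := .win 720 3 719
noncomputable def n2914 : Strat := .win 802 3 760
noncomputable def n2915 : Strat := .win 966 6 801
noncomputable def n2916 : Strat := .win 884 6 760
noncomputable def n2917 : Strat := .move 925 n2915 (.cons 966 n2916 .nil)
noncomputable def n2918 : Strat := .move 924 n2914 (.cons 802 n2917 .nil)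
noncomputable def n2919 : Strat := .move 761 n2913 (.cons 720 n2918 .nil)
noncomputable def n2920 : Strat := .move 883 n2128 (.cons 718 n2919 .nil)
noncomputable def n2921 : Strat := .move 759 n2905 (.cons 761 n2912 (.cons 758 n2920 .nil))
noncomputable def n2922 : Strat := .move 677 n2908 (.cons 719 n2907 .nil)
noncomputable def n2923 : Strat := .move 718 n1027 (.cons 883 n2922 .nil)
noncomputable def n2924 : Strat := .move 759 n2905 (.cons 758 n2923 .nil)
noncomputable def n2925 : Strat := .win 761 3 719
noncomputable def n2926 : Strat := .move 883 n2125 (.cons 759 n2925 .nil)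
noncomputable def n2927 : Strat := .move 718 n2107 (.cons 677 n2926 .nil)
noncomputable def n2928 : Strat := .move 720 n2099 (.cons 679 n2927 .nil)
noncomputable def n2929 : Strat := .win 802 6 678
noncomputable def n2930 : Strat := .win 884 6 719
noncomputable def n2931 : Strat := .move 843 n2929 (.cons 802 n2930 .nil)
noncomputable def n2932 : Strat := .move 678 n2094 (.cons 638 n2931 .nil)
noncomputable def n2933 : Strat := .move 679 n2095 (.cons 720 n2932 .nil)
noncomputable def n2934 : Strat := .move 718 n2107 (.cons 677 n2933 .nil)
noncomputable def n2935 : Strat := .win 843 6 719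
noncomputable def n2936 : Strat := .move 884 n2121 (.cons 925 n2935 .nil)
noncomputable def n2937 : Strat := .move 883 n2125 (.cons 759 n2936 .nil)
noncomputable def n2938 : Strat := .move 718 n2107 (.cons 677 n2937 .nil)
noncomputable def n2939 : Strat := .move 883 n2925 (.cons 761 n2936 .nil)
noncomputable def n2940 : Strat := .move 720 n2099 (.cons 679 n2939 .nil)
noncomputable def n2941 : Strat := .move 719 n2928 (.cons 761 n2934 (.cons 720 n2938 (.cons 677 n2940 .nil)))
noncomputable def n2942 : Strat := .win 718 7 677
noncomputable def n2943 : Strat := .win 636 7 636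
noncomputable def n2944 : Strat := .move 678 n2943 (.cons 636 n2931 .nil)
noncomputable def n2945 : Strat := .move 677 n2942 (.cons 718 n2944 .nil)
noncomputable def n2946 : Strat := .move 720 n2099 (.cons 679 n2945 .nil)
noncomputable def n2947 : Strat := .move 677 n2943 (.cons 636 n2942 .nil)
noncomputable def n2948 : Strat := .move 678 n2929 (.cons 802 n2947 .nil)
noncomputable def n2949 : Strat := .move 843 n2930 (.cons 884 n2948 .nil)
noncomputable def n2950 : Strat := .move 678 n2929 (.cons 802 n2096 .nil)
noncomputable def n2951 : Strat := .move 843 n2930 (.cons 884 n2950 .nil)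
noncomputable def n2952 : Strat := .move 759 n298 (.cons 761 n477 .nil)
noncomputable def n2953 : Strat := .win 718 4 717
noncomputable def n2954 : Strat := .move 721 n2953 (.cons 718 n2100 .nil)
noncomputable def n2955 : Strat := .move 759 n298 (.cons 761 n2954 .nil)
noncomputable def n2956 : Strat := .move 718 n1195 (.cons 717 n2107 .nil)
noncomputable def n2957 : Strat := .move 757 n610 (.cons 759 n2956 .nil)
noncomputable def n2958 : Strat := .move 839 n145 (.cons 880 n152 .nil)
noncomputable def n2959 : Strat := .move 718 n1110 (.cons 757 n37 .nil)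
noncomputable def n2960 : Strat := .move 717 n2958 (.cons 676 n2959 .nil)
noncomputable def n2961 : Strat := .move 758 n2952 (.cons 757 n2955 (.cons 761 n2957 (.cons 759 n2960 .nil)))
noncomputable def n2962 : Strat := .move 720 n2099 (.cons 679 n2961 .nil)
noncomputable def n2963 : Strat := .move 719 n2946 (.cons 720 n2949 (.cons 718 n2951 (.cons 678 n2962 .nil)))
noncomputable def n2964 : Strat := .win 883 3 719
noncomputable def n2965 : Strat := .win 716 0 716
noncomputable def n2966 : Strat := .move 717 n195 (.cons 762 n2965 .nil)
noncomputable def n2967 : Strat := .move 718 n2107 (.cons 677 n2966 .nil)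
noncomputable def n2968 : Strat := .move 761 n2964 (.cons 883 n2967 .nil)
noncomputable def n2969 : Strat := .move 720 n2099 (.cons 679 n2968 .nil)
noncomputable def n2970 : Strat := .move 719 n2969 (.cons 720 n2949 (.cons 677 n2951 .nil))
noncomputable def n2971 : Strat := .move 718 n1027 (.cons 883 n294 .nil)
noncomputable def n2972 : Strat := .move 758 n477 (.cons 757 n2971 .nil)
noncomputable def n2973 : Strat := .move 759 n2905 (.cons 758 n2920 (.cons 761 n2972 .nil))
noncomputable def n2974 : Strat := .move 758 n1111 (.cons 721 n477 .nil)
noncomputable def n2975 : Strat := .move 720 n2099 (.cons 679 n2974 .nil)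
noncomputable def n2976 : Strat := .move 759 n1027 (.cons 883 n2975 .nil)
noncomputable def n2977 : Strat := .move 718 n2107 (.cons 677 n2976 .nil)
noncomputable def n2978 : Strat := .move 719 n2977 (.cons 718 n2951 (.cons 679 n2945 .nil))
noncomputable def n2979 : Strat := .move 716 n210 (.cons 715 n42 .nil)
noncomputable def n2980 : Strat := .move 717 n2958 (.cons 676 n2979 .nil)
noncomputable def n2981 : Strat := .move 718 n1027 (.cons 883 n2980 .nil)
noncomputable def n2982 : Strat := .move 758 n477 (.cons 757 n2981 .nil)
noncomputable def n2983 : Strat := .move 759 n2905 (.cons 758 n2920 (.cons 761 n2982 .nil))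
noncomputable def n2984 : Strat := .move 720 n2925 (.cons 761 n2099 .nil)
noncomputable def n2985 : Strat := .move 719 n2935 (.cons 843 n2984 .nil)
noncomputable def n2986 : Strat := .move 884 n2121 (.cons 925 n2985 .nil)
noncomputable def n2987 : Strat := .win 1005 1 841
noncomputable def n2988 : Strat := .win 923 1 800
noncomputable def n2989 : Strat := .move 964 n2987 (.cons 1005 n2988 .nil)
noncomputable def n2990 : Strat := .win 1007 6 842
noncomputable def n2991 : Strat := .win 925 6 801
noncomputable def n2992 : Strat := .move 966 n2990 (.cons 1007 n2991 .nil)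
noncomputable def n2993 : Strat := .move 965 n2989 (.cons 923 n2992 .nil)
noncomputable def n2994 : Strat := .move 924 n2914 (.cons 802 n2993 .nil)
noncomputable def n2995 : Strat := .move 761 n2913 (.cons 720 n2994 .nil)
noncomputable def n2996 : Strat := .win 843 3 801
noncomputable def n2997 : Strat := .win 761 3 760
noncomputable def n2998 : Strat := .move 802 n2996 (.cons 843 n2997 .nil)
noncomputable def n2999 : Strat := .move 965 n2989 (.cons 923 n2998 .nil)
noncomputable def n3000 : Strat := .move 924 n2915 (.cons 966 n2999 .nil)
noncomputable def n3001 : Strat := .move 925 n2916 (.cons 884 n3000 .nil)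
noncomputable def n3002 : Strat := .move 925 n2916 (.cons 884 n2915 .nil)
noncomputable def n3003 : Strat := .win 719 6 719
noncomputable def n3004 : Strat := .win 1006 3 842
noncomputable def n3005 : Strat := .win 802 3 801
noncomputable def n3006 : Strat := .move 965 n3004 (.cons 1006 n3005 .nil)
noncomputable def n3007 : Strat := .move 843 n3003 (.cons 719 n3006 .nil)
noncomputable def n3008 : Strat := .move 884 n2121 (.cons 925 n3007 .nil)
noncomputable def n3009 : Strat := .move 884 n3004 (.cons 1006 n3003 .nil)
noncomputable def n3010 : Strat := .move 843 n3005 (.cons 802 n3009 .nil)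
noncomputable def n3011 : Strat := .move 965 n2989 (.cons 923 n3010 .nil)
noncomputable def n3012 : Strat := .move 965 n2987 (.cons 1005 n2992 .nil)
noncomputable def n3013 : Strat := .move 964 n2988 (.cons 923 n3012 .nil)
noncomputable def n3014 : Strat := .move 924 n3002 (.cons 966 n3008 (.cons 925 n3011 (.cons 884 n3013 .nil)))
noncomputable def n3015 : Strat := .move 720 n2099 (.cons 679 n2925 .nil)
noncomputable def n3016 : Strat := .win 924 3 760
noncomputable def n3017 : Strat := .win 678 6 678
noncomputable def n3018 : Strat := .move 843 n3017 (.cons 678 n2930 .nil)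
noncomputable def n3019 : Strat := .move 802 n3016 (.cons 924 n3018 .nil)
noncomputable def n3020 : Strat := .move 761 n2913 (.cons 720 n3019 .nil)
noncomputable def n3021 : Strat := .win 965 3 801
noncomputable def n3022 : Strat := .move 924 n3021 (.cons 965 n2997 .nil)
noncomputable def n3023 : Strat := .move 802 n3017 (.cons 678 n3022 .nil)
noncomputable def n3024 : Strat := .move 843 n2930 (.cons 884 n3023 .nil)
noncomputable def n3025 : Strat := .move 719 n3015 (.cons 679 n3020 (.cons 761 n2933 (.cons 720 n3024 .nil)))
noncomputable def n3026 : Strat := .move 883 n2919 (.cons 802 n2986 (.cons 884 n2995 (.cons 720 n3001 (.cons 761 n3014 (.cons 925 n3025 .nil)))))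
noncomputable def n3027 : Strat := .move 760 n2921 (.cons 966 n2924 (.cons 758 n2941 (.cons 883 n2963 (.cons 759 n2970 (.cons 719 n2973 (.cons 761 n2978 (.cons 677 n2983 (.cons 718 n3026 .nil))))))))
noncomputable def n3028 : Strat := .move 801 n2902 (.cons 843 n2903 (.cons 839 n2904 (.cons 800 n3027 .nil)))
noncomputable def n3029 : Strat := .move 842 n2899 (.cons 800 n2900 (.cons 843 n2901 (.cons 841 n3028 .nil)))
noncomputable def n3030 : Strat := .move 797 n2075 (.cons 841 n2826 (.cons 795 n2867 (.cons 796 n3029 .nil)))
noncomputable def n3031 : Strat := .move 797 n74 (.cons 796 n2834 .nil)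
noncomputable def n3032 : Strat := .move 842 n514 (.cons 843 n3031 .nil)
noncomputable def n3033 : Strat := .move 842 n2834 (.cons 800 n2844 .nil)
noncomputable def n3034 : Strat := .move 797 n74 (.cons 796 n3033 .nil)
noncomputable def n3035 : Strat := .move 800 n82 (.cons 837 n2795 .nil)
noncomputable def n3036 : Strat := .move 802 n2089 (.cons 758 n521 .nil)
noncomputable def n3037 : Strat := .move 757 n258 (.cons 756 n3036 .nil)
noncomputable def n3038 : Strat := .move 801 n611 (.cons 761 n3037 .nil)
noncomputable def n3039 : Strat := .move 760 n1591 (.cons 759 n3038 .nil)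
noncomputable def n3040 : Strat := .move 800 n82 (.cons 837 n3039 .nil)
noncomputable def n3041 : Strat := .move 800 n83 (.cons 801 n1089 .nil)
noncomputable def n3042 : Strat := .move 718 n2176 (.cons 676 n308 .nil)
noncomputable def n3043 : Strat := .move 759 n958 (.cons 760 n3042 .nil)
noncomputable def n3044 : Strat := .move 717 n2083 (.cons 758 n3043 .nil)
noncomputable def n3045 : Strat := .win 756 7 756
noncomputable def n3046 : Strat := .move 921 n1891 (.cons 962 n3045 .nil)
noncomputable def n3047 : Strat := .move 880 n2156 (.cons 962 n2154 (.cons 921 n3044 (.cons 758 n3046 .nil)))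
noncomputable def n3048 : Strat := .move 800 n83 (.cons 801 n3047 .nil)
noncomputable def n3049 : Strat := .move 839 n3041 (.cons 878 n3048 (.cons 800 n1089 .nil))
noncomputable def n3050 : Strat := .win 835 5 794
noncomputable def n3051 : Strat := .win 839 5 795
noncomputable def n3052 : Strat := .move 836 n3050 (.cons 835 n3051 .nil)
noncomputable def n3053 : Strat := .move 837 n1085 (.cons 800 n3052 .nil)
noncomputable def n3054 : Strat := .move 839 n862 (.cons 878 n1088 .nil)
noncomputable def n3055 : Strat := .move 839 n862 (.cons 878 n2888 .nil)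
noncomputable def n3056 : Strat := .win 839 1 715
noncomputable def n3057 : Strat := .move 716 n1039 (.cons 675 n3056 .nil)
noncomputable def n3058 : Strat := .move 757 n863 (.cons 920 n3057 .nil)
noncomputable def n3059 : Strat := .move 716 n1039 (.cons 675 n1435 .nil)
noncomputable def n3060 : Strat := .move 757 n863 (.cons 920 n3059 .nil)
noncomputable def n3061 : Strat := .win 962 6 797
noncomputable def n3062 : Strat := .win 756 6 756
noncomputable def n3063 : Strat := .move 880 n2155 (.cons 758 n3062 .nil)
noncomputable def n3064 : Strat := .move 921 n3061 (.cons 962 n3063 .nil)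
noncomputable def n3065 : Strat := .move 920 n484 (.cons 961 n3064 .nil)
noncomputable def n3066 : Strat := .move 839 n862 (.cons 878 n3065 .nil)
noncomputable def n3067 : Strat := .win 839 4 837
noncomputable def n3068 : Strat := .win 919 1 755
noncomputable def n3069 : Strat := .win 757 3 715
noncomputable def n3070 : Strat := .win 675 3 674
noncomputable def n3071 : Strat := .win 837 1 714
noncomputable def n3072 : Strat := .move 715 n3070 (.cons 675 n3071 .nil)
noncomputable def n3073 : Strat := .move 716 n3069 (.cons 757 n3072 .nil)
noncomputable def n3074 : Strat := .move 756 n3068 (.cons 919 n3073 .nil)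
noncomputable def n3075 : Strat := .move 878 n3067 (.cons 839 n3074 .nil)
noncomputable def n3076 : Strat := .move 879 n3054 (.cons 716 n3055 (.cons 878 n3058 (.cons 839 n3060 (.cons 757 n3066 (.cons 920 n3075 .nil)))))
noncomputable def n3077 : Strat := .move 838 n3035 (.cons 839 n3040 (.cons 837 n3049 (.cons 801 n3053 (.cons 800 n3076 .nil))))
noncomputable def n3078 : Strat := .move 797 n74 (.cons 796 n3077 .nil)
noncomputable def n3079 : Strat := .move 841 n3032 (.cons 797 n2865 (.cons 843 n3034 (.cons 800 n2846 (.cons 842 n3078 .nil))))
noncomputable def n3080 : Strat := .win 715 1 714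
noncomputable def n3081 : Strat := .move 756 n2425 (.cons 919 n3080 .nil)
noncomputable def n3082 : Strat := .move 878 n1077 (.cons 877 n3081 .nil)
noncomputable def n3083 : Strat := .move 839 n579 (.cons 795 n3082 .nil)
noncomputable def n3084 : Strat := .move 838 n1085 (.cons 800 n3083 .nil)
noncomputable def n3085 : Strat := .move 837 n126 (.cons 836 n3084 .nil)
noncomputable def n3086 : Strat := .move 796 n77 (.cons 841 n3085 .nil)
noncomputable def n3087 : Strat := .move 800 n127 (.cons 838 n80 .nil)
noncomputable def n3088 : Strat := .move 837 n126 (.cons 836 n3087 .nil)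
noncomputable def n3089 : Strat := .move 796 n3085 (.cons 837 n2050 (.cons 795 n3088 .nil))
noncomputable def n3090 : Strat := .move 839 n862 (.cons 878 n554 .nil)
noncomputable def n3091 : Strat := .move 880 n2801 (.cons 921 n888 .nil)
noncomputable def n3092 : Strat := .move 839 n862 (.cons 878 n3091 .nil)
noncomputable def n3093 : Strat := .win 960 1 796
noncomputable def n3094 : Strat := .win 878 1 755
noncomputable def n3095 : Strat := .move 919 n3093 (.cons 960 n3094 .nil)
noncomputable def n3096 : Strat := .win 880 6 756
noncomputable def n3097 : Strat := .move 921 n3061 (.cons 962 n3096 .nil)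
noncomputable def n3098 : Strat := .move 920 n3095 (.cons 878 n3097 .nil)
noncomputable def n3099 : Strat := .move 759 n958 (.cons 760 n3098 .nil)
noncomputable def n3100 : Strat := .move 878 n3067 (.cons 839 n3068 .nil)
noncomputable def n3101 : Strat := .win 634 3 633
noncomputable def n3102 : Strat := .win 716 3 674
noncomputable def n3103 : Strat := .move 675 n3101 (.cons 634 n3102 .nil)
noncomputable def n3104 : Strat := .move 674 n170 (.cons 839 n3103 .nil)
noncomputable def n3105 : Strat := .win 632 7 632
noncomputable def n3106 : Strat := .win 714 7 673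
noncomputable def n3107 : Strat := .move 673 n3105 (.cons 632 n3106 .nil)
noncomputable def n3108 : Strat := .move 674 n3103 (.cons 716 n3107 .nil)
noncomputable def n3109 : Strat := .move 715 n2015 (.cons 674 n2803 (.cons 880 n3104 (.cons 839 n3108 .nil)))
noncomputable def n3110 : Strat := .move 879 n3090 (.cons 674 n3092 (.cons 839 n3099 (.cons 880 n3100 (.cons 878 n3109 .nil))))
noncomputable def n3111 : Strat := .move 756 n85 (.cons 755 n3110 .nil)
noncomputable def n3112 : Strat := .move 838 n82 (.cons 837 n3111 .nil)
noncomputable def n3113 : Strat := .move 841 n75 (.cons 842 n3112 .nil)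
noncomputable def n3114 : Strat := .move 800 n1999 (.cons 841 n2796 (.cons 838 n2056 (.cons 801 n3113 .nil)))
noncomputable def n3115 : Strat := .move 797 n3086 (.cons 841 n3089 (.cons 800 n2051 (.cons 795 n2867 (.cons 796 n3114 .nil))))
noncomputable def n3116 : Strat := .move 798 n2081 (.cons 797 n2385 (.cons 839 n2419 (.cons 800 n2789 (.cons 841 n2833 (.cons 716 n2866 (.cons 838 n2873 (.cons 759 n2894 (.cons 837 n2898 (.cons 756 n3030 (.cons 755 n3079 (.cons 757 n3115 .nil)))))))))))
noncomputable def n3117 : Strat := .move 798 n314 (.cons 796 n315 (.cons 760 n403 (.cons 797 n399 .nil)))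
noncomputable def n3118 : Strat := .move 880 n34 (.cons 921 n3117 .nil)
noncomputable def n3119 : Strat := .move 759 n9 (.cons 718 n3118 .nil)
noncomputable def n3120 : Strat := .move 757 n46 (.cons 716 n3119 .nil)
noncomputable def n3121 : Strat := .move 758 n165 (.cons 759 n167 (.cons 922 n3120 (.cons 716 n97 .nil)))
noncomputable def n3122 : Strat := .move 759 n10 (.cons 800 n18 .nil)
noncomputable def n3123 : Strat := .move 922 n3122 (.cons 798 n73 (.cons 800 n18 (.cons 962 n114 (.cons 963 n93 .nil))))
noncomputable def n3124 : Strat := .move 839 n108 (.cons 879 n231 (.cons 923 n601 .nil))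
noncomputable def n3125 : Strat := .move 880 n26 (.cons 758 n3124 .nil)
noncomputable def n3126 : Strat := .move 921 n7 (.cons 962 n3125 .nil)
noncomputable def n3127 : Strat := .move 922 n3126 (.cons 921 n107 (.cons 759 n110 (.cons 923 n73 .nil)))
noncomputable def n3128 : Strat := .move 922 n18 (.cons 962 n24 (.cons 963 n110 .nil))
noncomputable def n3129 : Strat := .move 922 n114 (.cons 798 n107 (.cons 759 n24 (.cons 963 n459 .nil)))
noncomputable def n3130 : Strat := .move 720 n62 (.cons 719 n1849 .nil)
noncomputable def n3131 : Strat := .move 756 n326 (.cons 800 n3130 .nil)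
noncomputable def n3132 : Strat := .move 801 n325 (.cons 802 n3131 .nil)
noncomputable def n3133 : Strat := .move 760 n1198 (.cons 797 n1848 (.cons 798 n3132 .nil))
noncomputable def n3134 : Strat := .move 757 n46 (.cons 716 n3133 .nil)
noncomputable def n3135 : Strat := .move 759 n9 (.cons 718 n3134 .nil)
noncomputable def n3136 : Strat := .move 758 n805 (.cons 718 n167 (.cons 716 n97 (.cons 922 n3135 .nil)))
noncomputable def n3137 : Strat := .move 759 n9 (.cons 718 n3117 .nil)
noncomputable def n3138 : Strat := .move 757 n46 (.cons 716 n3137 .nil)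
noncomputable def n3139 : Strat := .move 758 n34 (.cons 921 n3138 .nil)
noncomputable def n3140 : Strat := .move 760 n56 (.cons 798 n741 .nil)
noncomputable def n3141 : Strat := .move 797 n55 (.cons 796 n3140 .nil)
noncomputable def n3142 : Strat := .move 760 n56 (.cons 798 n64 .nil)
noncomputable def n3143 : Strat := .move 797 n55 (.cons 796 n3142 .nil)
noncomputable def n3144 : Strat := .move 756 n49 (.cons 755 n3141 (.cons 800 n3143 (.cons 801 n54 .nil)))
noncomputable def n3145 : Strat := .move 757 n46 (.cons 716 n3144 .nil)
noncomputable def n3146 : Strat := .move 759 n9 (.cons 718 n3145 .nil)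
noncomputable def n3147 : Strat := .move 758 n34 (.cons 921 n3146 .nil)
noncomputable def n3148 : Strat := .win 839 3 798
noncomputable def n3149 : Strat := .win 1003 3 839
noncomputable def n3150 : Strat := .move 962 n3148 (.cons 839 n3149 .nil)
noncomputable def n3151 : Strat := .move 921 n26 (.cons 758 n3150 .nil)
noncomputable def n3152 : Strat := .win 839 5 836
noncomputable def n3153 : Strat := .win 837 2 836
noncomputable def n3154 : Strat := .win 835 2 835
noncomputable def n3155 : Strat := .move 836 n3153 (.cons 837 n3154 .nil)
noncomputable def n3156 : Strat := .move 877 n3152 (.cons 839 n3155 .nil)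
noncomputable def n3157 : Strat := .move 878 n426 (.cons 841 n3156 .nil)
noncomputable def n3158 : Strat := .win 919 4 877
noncomputable def n3159 : Strat := .win 917 4 876
noncomputable def n3160 : Strat := .move 918 n3158 (.cons 919 n3159 .nil)
noncomputable def n3161 : Strat := .move 877 n3152 (.cons 839 n3160 .nil)
noncomputable def n3162 : Strat := .win 836 2 836
noncomputable def n3163 : Strat := .win 918 4 877
noncomputable def n3164 : Strat := .win 755 6 755
noncomputable def n3165 : Strat := .move 920 n3164 (.cons 755 n2551 .nil)
noncomputable def n3166 : Strat := .win 797 3 755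
noncomputable def n3167 : Strat := .move 756 n2424 (.cons 715 n3166 .nil)
noncomputable def n3168 : Strat := .move 755 n2430 (.cons 920 n3167 .nil)
noncomputable def n3169 : Strat := .win 756 3 755
noncomputable def n3170 : Strat := .win 798 2 754
noncomputable def n3171 : Strat := .move 755 n3170 (.cons 798 n2553 .nil)
noncomputable def n3172 : Strat := .move 754 n2552 (.cons 795 n3171 .nil)
noncomputable def n3173 : Strat := .move 797 n3169 (.cons 756 n3172 .nil)
noncomputable def n3174 : Strat := .win 838 3 796
noncomputable def n3175 : Strat := .win 1002 6 837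
noncomputable def n3176 : Strat := .win 920 6 796
noncomputable def n3177 : Strat := .move 961 n3175 (.cons 1002 n3176 .nil)
noncomputable def n3178 : Strat := .move 960 n3174 (.cons 838 n3177 .nil)
noncomputable def n3179 : Strat := .move 797 n3169 (.cons 756 n3178 .nil)
noncomputable def n3180 : Strat := .move 796 n3165 (.cons 961 n3168 (.cons 920 n3173 (.cons 755 n3179 .nil)))
noncomputable def n3181 : Strat := .move 919 n3163 (.cons 918 n3180 .nil)
noncomputable def n3182 : Strat := .move 837 n3162 (.cons 836 n3181 .nil)
noncomputable def n3183 : Strat := .move 878 n3156 (.cons 837 n3161 (.cons 839 n3182 .nil))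
noncomputable def n3184 : Strat := .move 878 n426 (.cons 841 n3182 .nil)
noncomputable def n3185 : Strat := .win 839 4 838
noncomputable def n3186 : Strat := .move 842 n474 (.cons 843 n3185 .nil)
noncomputable def n3187 : Strat := .move 841 n384 (.cons 878 n3186 .nil)
noncomputable def n3188 : Strat := .move 757 n382 (.cons 920 n860 .nil)
noncomputable def n3189 : Strat := .move 800 n85 (.cons 755 n260 .nil)
noncomputable def n3190 : Strat := .move 756 n370 (.cons 715 n3189 .nil)
noncomputable def n3191 : Strat := .move 797 n74 (.cons 796 n3190 .nil)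
noncomputable def n3192 : Strat := .move 757 n860 (.cons 716 n3191 .nil)
noncomputable def n3193 : Strat := .move 841 n383 (.cons 842 n3192 .nil)
noncomputable def n3194 : Strat := .move 837 n892 (.cons 795 n481 .nil)
noncomputable def n3195 : Strat := .move 796 n893 (.cons 797 n3194 .nil)
noncomputable def n3196 : Strat := .move 838 n886 (.cons 836 n483 (.cons 837 n891 (.cons 800 n3195 .nil)))
noncomputable def n3197 : Strat := .move 841 n383 (.cons 842 n3196 .nil)
noncomputable def n3198 : Strat := .move 839 n3188 (.cons 920 n3193 (.cons 757 n3197 .nil))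
noncomputable def n3199 : Strat := .move 839 n383 (.cons 842 n3196 .nil)
noncomputable def n3200 : Strat := .win 718 1 717
noncomputable def n3201 : Strat := .move 759 n3200 (.cons 718 n958 .nil)
noncomputable def n3202 : Strat := .move 756 n888 (.cons 715 n85 .nil)
noncomputable def n3203 : Strat := .move 839 n83 (.cons 801 n3202 .nil)
noncomputable def n3204 : Strat := .move 838 n82 (.cons 837 n3203 .nil)
noncomputable def n3205 : Strat := .move 800 n3201 (.cons 760 n3204 .nil)
noncomputable def n3206 : Strat := .move 797 n74 (.cons 796 n3205 .nil)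
noncomputable def n3207 : Strat := .move 842 n514 (.cons 843 n3185 .nil)
noncomputable def n3208 : Strat := .move 841 n3199 (.cons 842 n3206 (.cons 796 n3207 (.cons 839 n3032 .nil)))
noncomputable def n3209 : Strat := .move 796 n579 (.cons 795 n80 .nil)
noncomputable def n3210 : Strat := .move 718 n308 (.cons 677 n1290 .nil)
noncomputable def n3211 : Strat := .move 759 n958 (.cons 760 n3210 .nil)
noncomputable def n3212 : Strat := .move 797 n889 (.cons 715 n3209 (.cons 755 n3211 .nil))
noncomputable def n3213 : Strat := .move 800 n83 (.cons 801 n3212 .nil)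
noncomputable def n3214 : Strat := .win 797 7 755
noncomputable def n3215 : Strat := .move 755 n3214 (.cons 797 n2530 .nil)
noncomputable def n3216 : Strat := .move 920 n484 (.cons 961 n3215 .nil)
noncomputable def n3217 : Strat := .move 796 n892 (.cons 795 n3216 .nil)
noncomputable def n3218 : Strat := .move 837 n481 (.cons 836 n3217 .nil)
noncomputable def n3219 : Strat := .move 838 n886 (.cons 836 n483 (.cons 837 n3213 (.cons 800 n3218 .nil)))
noncomputable def n3220 : Strat := .move 755 n2348 (.cons 758 n327 .nil)
noncomputable def n3221 : Strat := .move 800 n260 (.cons 801 n3220 .nil)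
noncomputable def n3222 : Strat := .move 756 n370 (.cons 715 n3221 .nil)
noncomputable def n3223 : Strat := .move 757 n860 (.cons 716 n3222 .nil)
noncomputable def n3224 : Strat := .move 839 n3188 (.cons 757 n3219 (.cons 920 n3223 .nil))
noncomputable def n3225 : Strat := .move 839 n382 (.cons 920 n860 .nil)
noncomputable def n3226 : Strat := .win 839 1 756
noncomputable def n3227 : Strat := .win 838 3 756
noncomputable def n3228 : Strat := .move 758 n854 (.cons 759 n263 .nil)
noncomputable def n3229 : Strat := .move 796 n77 (.cons 841 n3228 .nil)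
noncomputable def n3230 : Strat := .move 797 n3227 (.cons 838 n3229 .nil)
noncomputable def n3231 : Strat := .move 920 n3226 (.cons 839 n3230 .nil)
noncomputable def n3232 : Strat := .move 757 n3225 (.cons 920 n1240 (.cons 716 n3231 .nil))
noncomputable def n3233 : Strat := .move 841 n383 (.cons 842 n3222 .nil)
noncomputable def n3234 : Strat := .move 839 n382 (.cons 920 n3233 .nil)
noncomputable def n3235 : Strat := .move 757 n1240 (.cons 675 n3225 (.cons 716 n3234 .nil))
noncomputable def n3236 : Strat := .move 800 n82 (.cons 837 n79 .nil)
noncomputable def n3237 : Strat := .move 838 n2821 (.cons 920 n3236 .nil)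
noncomputable def n3238 : Strat := .move 755 n78 (.cons 754 n3237 .nil)
noncomputable def n3239 : Strat := .move 796 n77 (.cons 841 n3238 .nil)
noncomputable def n3240 : Strat := .move 759 n958 (.cons 760 n1291 .nil)
noncomputable def n3241 : Strat := .move 716 n1039 (.cons 675 n1239 .nil)
noncomputable def n3242 : Strat := .move 757 n863 (.cons 920 n3241 .nil)
noncomputable def n3243 : Strat := .move 838 n82 (.cons 837 n3242 .nil)
noncomputable def n3244 : Strat := .move 841 n75 (.cons 842 n3243 .nil)
noncomputable def n3245 : Strat := .move 759 n958 (.cons 760 n3200 .nil)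
noncomputable def n3246 : Strat := .move 841 n75 (.cons 842 n3245 .nil)
noncomputable def n3247 : Strat := .move 800 n3240 (.cons 760 n3244 (.cons 758 n3246 .nil))
noncomputable def n3248 : Strat := .move 756 n260 (.cons 801 n85 .nil)
noncomputable def n3249 : Strat := .move 800 n82 (.cons 837 n3248 .nil)
noncomputable def n3250 : Strat := .move 838 n863 (.cons 920 n3249 .nil)
noncomputable def n3251 : Strat := .move 757 n1240 (.cons 716 n3250 .nil)
noncomputable def n3252 : Strat := .move 757 n46 (.cons 716 n263 .nil)
noncomputable def n3253 : Strat := .move 758 n854 (.cons 759 n3252 .nil)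
noncomputable def n3254 : Strat := .move 796 n77 (.cons 841 n3253 .nil)
noncomputable def n3255 : Strat := .move 797 n3239 (.cons 796 n3247 (.cons 841 n3251 (.cons 837 n2867 (.cons 800 n3254 .nil))))
noncomputable def n3256 : Strat := .move 798 n3198 (.cons 757 n3208 (.cons 841 n3224 (.cons 800 n3232 (.cons 838 n3235 (.cons 839 n3255 .nil)))))
noncomputable def n3257 : Strat := .move 879 n3157 (.cons 841 n3183 (.cons 839 n3184 (.cons 836 n3187 (.cons 878 n3256 .nil))))
noncomputable def n3258 : Strat := .move 797 n3045 (.cons 756 n856 .nil)
noncomputable def n3259 : Strat := .win 797 7 756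
noncomputable def n3260 : Strat := .move 756 n3259 (.cons 797 n370 .nil)
noncomputable def n3261 : Strat := .move 757 n860 (.cons 716 n3260 .nil)
noncomputable def n3262 : Strat := .move 757 n860 (.cons 716 n2137 .nil)
noncomputable def n3263 : Strat := .move 798 n3258 (.cons 796 n3261 (.cons 797 n3262 .nil))
noncomputable def n3264 : Strat := .move 921 n1891 (.cons 962 n3263 .nil)
noncomputable def n3265 : Strat := .move 757 n258 (.cons 756 n860 .nil)
noncomputable def n3266 : Strat := .move 800 n115 (.cons 838 n3265 .nil)
noncomputable def n3267 : Strat := .move 801 n1074 (.cons 802 n3266 .nil)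
noncomputable def n3268 : Strat := .move 798 n944 (.cons 797 n3267 .nil)
noncomputable def n3269 : Strat := .move 842 n474 (.cons 843 n3268 .nil)
noncomputable def n3270 : Strat := .win 797 2 796
noncomputable def n3271 : Strat := .move 796 n3270 (.cons 797 n892 .nil)
noncomputable def n3272 : Strat := .move 837 n481 (.cons 836 n3271 .nil)
noncomputable def n3273 : Strat := .move 800 n232 (.cons 837 n1941 .nil)
noncomputable def n3274 : Strat := .win 714 7 714
noncomputable def n3275 : Strat := .move 755 n1952 (.cons 798 n3274 .nil)
noncomputable def n3276 : Strat := .move 756 n888 (.cons 715 n3275 .nil)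
noncomputable def n3277 : Strat := .move 800 n1941 (.cons 801 n3276 .nil)
noncomputable def n3278 : Strat := .move 797 n494 (.cons 796 n3277 .nil)
noncomputable def n3279 : Strat := .move 838 n886 (.cons 800 n3272 (.cons 836 n3273 (.cons 837 n3278 .nil)))
noncomputable def n3280 : Strat := .move 879 n384 (.cons 878 n3279 .nil)
noncomputable def n3281 : Strat := .move 841 n476 (.cons 843 n936 (.cons 879 n3269 (.cons 842 n3280 .nil)))
noncomputable def n3282 : Strat := .move 837 n481 (.cons 836 n1085 .nil)
noncomputable def n3283 : Strat := .win 879 7 755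
noncomputable def n3284 : Strat := .move 755 n3283 (.cons 879 n78 .nil)
noncomputable def n3285 : Strat := .move 920 n2135 (.cons 961 n3284 .nil)
noncomputable def n3286 : Strat := .move 796 n579 (.cons 795 n3285 .nil)
noncomputable def n3287 : Strat := .move 838 n3282 (.cons 836 n1084 (.cons 837 n3286 .nil))
noncomputable def n3288 : Strat := .move 797 n3045 (.cons 756 n3287 .nil)
noncomputable def n3289 : Strat := .move 798 n3261 (.cons 757 n3288 (.cons 797 n3262 .nil))
noncomputable def n3290 : Strat := .move 921 n1891 (.cons 962 n3289 .nil)
noncomputable def n3291 : Strat := .win 841 2 796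
noncomputable def n3292 : Strat := .win 798 7 756
noncomputable def n3293 : Strat := .move 756 n888 (.cons 715 n3292 .nil)
noncomputable def n3294 : Strat := .move 797 n3291 (.cons 841 n3293 .nil)
noncomputable def n3295 : Strat := .move 796 n892 (.cons 795 n3294 .nil)
noncomputable def n3296 : Strat := .move 837 n481 (.cons 836 n3295 .nil)
noncomputable def n3297 : Strat := .move 800 n232 (.cons 837 n244 .nil)
noncomputable def n3298 : Strat := .move 797 n494 (.cons 796 n493 .nil)
noncomputable def n3299 : Strat := .move 842 n474 (.cons 843 n3298 .nil)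
noncomputable def n3300 : Strat := .win 800 5 797
noncomputable def n3301 : Strat := .move 801 n3300 (.cons 800 n1074 .nil)
noncomputable def n3302 : Strat := .move 842 n474 (.cons 843 n3301 .nil)
noncomputable def n3303 : Strat := .move 797 n494 (.cons 796 n3293 .nil)
noncomputable def n3304 : Strat := .move 800 n1941 (.cons 801 n3303 .nil)
noncomputable def n3305 : Strat := .move 841 n3299 (.cons 796 n3302 (.cons 842 n3304 .nil))
noncomputable def n3306 : Strat := .move 838 n886 (.cons 800 n3296 (.cons 836 n3297 (.cons 837 n3305 .nil)))
noncomputable def n3307 : Strat := .move 921 n1891 (.cons 962 n3306 .nil)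
noncomputable def n3308 : Strat := .move 796 n892 (.cons 795 n3270 .nil)
noncomputable def n3309 : Strat := .move 837 n481 (.cons 836 n3308 .nil)
noncomputable def n3310 : Strat := .move 838 n3300 (.cons 800 n3309 .nil)
noncomputable def n3311 : Strat := .move 801 n1074 (.cons 802 n3310 .nil)
noncomputable def n3312 : Strat := .move 842 n474 (.cons 843 n3311 .nil)
noncomputable def n3313 : Strat := .move 797 n494 (.cons 796 n3062 .nil)
noncomputable def n3314 : Strat := .move 838 n886 (.cons 837 n3313 .nil)
noncomputable def n3315 : Strat := .move 879 n384 (.cons 878 n3314 .nil)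
noncomputable def n3316 : Strat := .move 841 n936 (.cons 879 n3312 (.cons 842 n3315 .nil))
noncomputable def n3317 : Strat := .move 921 n1891 (.cons 962 n3316 .nil)
noncomputable def n3318 : Strat := .move 838 n83 (.cons 801 n82 .nil)
noncomputable def n3319 : Strat := .move 800 n981 (.cons 802 n3318 (.cons 838 n3201 .nil))
noncomputable def n3320 : Strat := .move 841 n823 (.cons 842 n3319 .nil)
noncomputable def n3321 : Strat := .move 797 n3045 (.cons 756 n3320 .nil)
noncomputable def n3322 : Strat := .move 798 n3261 (.cons 797 n3262 (.cons 757 n3321 .nil))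
noncomputable def n3323 : Strat := .move 921 n1891 (.cons 962 n3322 .nil)
noncomputable def n3324 : Strat := .move 920 n2135 (.cons 961 n485 .nil)
noncomputable def n3325 : Strat := .move 757 n860 (.cons 716 n382 .nil)
noncomputable def n3326 : Strat := .move 800 n3318 (.cons 837 n981 (.cons 801 n3245 .nil))
noncomputable def n3327 : Strat := .move 797 n74 (.cons 796 n3326 .nil)
noncomputable def n3328 : Strat := .move 798 n3324 (.cons 961 n3325 (.cons 920 n3327 .nil))
noncomputable def n3329 : Strat := .move 879 n384 (.cons 878 n3328 .nil)
noncomputable def n3330 : Strat := .move 883 n1624 (.cons 924 n1358 .nil)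
noncomputable def n3331 : Strat := .move 759 n3200 (.cons 718 n3330 .nil)
noncomputable def n3332 : Strat := .move 800 n877 (.cons 838 n3331 .nil)
noncomputable def n3333 : Strat := .move 801 n1074 (.cons 802 n3332 .nil)
noncomputable def n3334 : Strat := .move 842 n474 (.cons 843 n3333 .nil)
noncomputable def n3335 : Strat := .move 841 n476 (.cons 842 n3329 (.cons 879 n3334 .nil))
noncomputable def n3336 : Strat := .move 921 n1891 (.cons 962 n3335 .nil)
noncomputable def n3337 : Strat := .move 879 n426 (.cons 841 n427 .nil)
noncomputable def n3338 : Strat := .move 798 n485 (.cons 757 n2135 .nil)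
noncomputable def n3339 : Strat := .move 838 n892 (.cons 795 n480 .nil)
noncomputable def n3340 : Strat := .move 796 n3164 (.cons 755 n3339 .nil)
noncomputable def n3341 : Strat := .move 920 n3338 (.cons 961 n3340 .nil)
noncomputable def n3342 : Strat := .move 837 n3162 (.cons 836 n3341 .nil)
noncomputable def n3343 : Strat := .move 879 n427 (.cons 877 n3342 .nil)
noncomputable def n3344 : Strat := .move 879 n426 (.cons 841 n3342 .nil)
noncomputable def n3345 : Strat := .move 838 n481 (.cons 836 n480 .nil)
noncomputable def n3346 : Strat := .move 838 n481 (.cons 836 n1077 .nil)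
noncomputable def n3347 : Strat := .move 838 n480 (.cons 800 n1077 .nil)
noncomputable def n3348 : Strat := .win 918 5 877
noncomputable def n3349 : Strat := .win 796 6 796
noncomputable def n3350 : Strat := .win 798 1 797
noncomputable def n3351 : Strat := .move 961 n3349 (.cons 796 n3350 .nil)
noncomputable def n3352 : Strat := .move 920 n3348 (.cons 918 n3351 .nil)
noncomputable def n3353 : Strat := .win 920 5 877
noncomputable def n3354 : Strat := .win 796 1 795
noncomputable def n3355 : Strat := .win 877 3 836
noncomputable def n3356 : Strat := .win 960 1 836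
noncomputable def n3357 : Strat := .move 1000 n3355 (.cons 877 n3356 .nil)
noncomputable def n3358 : Strat := .move 959 n3354 (.cons 796 n3357 .nil)
noncomputable def n3359 : Strat := .move 918 n3353 (.cons 920 n3358 .nil)
noncomputable def n3360 : Strat := .win 1041 1 877
noncomputable def n3361 : Strat := .win 959 1 836
noncomputable def n3362 : Strat := .move 1000 n3360 (.cons 1041 n3361 .nil)
noncomputable def n3363 : Strat := .win 1043 6 878
noncomputable def n3364 : Strat := .win 961 6 837
noncomputable def n3365 : Strat := .move 1002 n3363 (.cons 1043 n3364 .nil)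
noncomputable def n3366 : Strat := .move 1001 n3362 (.cons 959 n3365 .nil)
noncomputable def n3367 : Strat := .win 1000 1 836
noncomputable def n3368 : Strat := .win 918 1 795
noncomputable def n3369 : Strat := .move 959 n3367 (.cons 1000 n3368 .nil)
noncomputable def n3370 : Strat := .win 836 7 795
noncomputable def n3371 : Strat := .win 754 7 754
noncomputable def n3372 : Strat := .move 795 n3370 (.cons 836 n3371 .nil)
noncomputable def n3373 : Strat := .move 796 n3369 (.cons 918 n3372 .nil)
noncomputable def n3374 : Strat := .win 877 7 836
noncomputable def n3375 : Strat := .win 795 7 795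
noncomputable def n3376 : Strat := .move 836 n3374 (.cons 877 n3375 .nil)
noncomputable def n3377 : Strat := .move 1001 n3365 (.cons 961 n3376 .nil)
noncomputable def n3378 : Strat := .move 960 n3366 (.cons 1001 n3373 (.cons 959 n3377 .nil))
noncomputable def n3379 : Strat := .move 920 n3349 (.cons 796 n3350 .nil)
noncomputable def n3380 : Strat := .move 961 n3175 (.cons 1002 n3379 .nil)
noncomputable def n3381 : Strat := .move 1001 n3362 (.cons 959 n3376 .nil)
noncomputable def n3382 : Strat := .move 960 n3380 (.cons 961 n3381 .nil)
noncomputable def n3383 : Strat := .win 1043 3 879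
noncomputable def n3384 : Strat := .win 960 6 837
noncomputable def n3385 : Strat := .move 1002 n3383 (.cons 1043 n3384 .nil)
noncomputable def n3386 : Strat := .move 961 n3350 (.cons 798 n3385 .nil)
noncomputable def n3387 : Strat := .move 920 n3348 (.cons 918 n3386 .nil)
noncomputable def n3388 : Strat := .move 919 n3352 (.cons 798 n3359 (.cons 920 n3378 (.cons 918 n3382 (.cons 796 n3387 .nil))))
noncomputable def n3389 : Strat := .move 837 n3345 (.cons 800 n3346 (.cons 836 n3347 (.cons 838 n3388 .nil)))
noncomputable def n3390 : Strat := .move 878 n3337 (.cons 841 n3343 (.cons 877 n3344 (.cons 879 n3389 .nil)))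
noncomputable def n3391 : Strat := .move 921 n1891 (.cons 962 n3390 .nil)
noncomputable def n3392 : Strat := .move 839 n3264 (.cons 921 n3281 (.cons 841 n3290 (.cons 879 n3307 (.cons 798 n3317 (.cons 796 n3323 (.cons 756 n3336 (.cons 797 n3391 .nil)))))))
noncomputable def n3393 : Strat := .move 880 n3139 (.cons 839 n3147 (.cons 798 n3151 (.cons 921 n3257 (.cons 758 n3392 .nil))))
noncomputable def n3394 : Strat := .move 881 n3121 (.cons 758 n3123 (.cons 798 n3127 (.cons 800 n3128 (.cons 921 n3129 (.cons 839 n3136 (.cons 922 n3393 .nil))))))
noncomputable def n3395 : Strat := .win 839 6 716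
noncomputable def n3396 : Strat := .move 881 n257 (.cons 922 n3395 .nil)
noncomputable def n3397 : Strat := .move 716 n1019 (.cons 675 n3396 .nil)
noncomputable def n3398 : Strat := .move 881 n257 (.cons 922 n1239 .nil)
noncomputable def n3399 : Strat := .move 716 n1019 (.cons 675 n3398 .nil)
noncomputable def n3400 : Strat := .move 716 n3395 (.cons 839 n1239 .nil)
noncomputable def n3401 : Strat := .move 881 n257 (.cons 922 n3400 .nil)
noncomputable def n3402 : Strat := .move 881 n3395 (.cons 839 n1239 .nil)
noncomputable def n3403 : Strat := .move 716 n1019 (.cons 675 n3402 .nil)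
noncomputable def n3404 : Strat := .move 921 n1891 (.cons 962 n3259 .nil)
noncomputable def n3405 : Strat := .move 756 n370 (.cons 715 n3404 .nil)
noncomputable def n3406 : Strat := .move 880 n2083 (.cons 758 n3405 .nil)
noncomputable def n3407 : Strat := .move 717 n2082 (.cons 676 n3406 .nil)
noncomputable def n3408 : Strat := .move 839 n826 (.cons 800 n2370 (.cons 838 n3407 .nil))
noncomputable def n3409 : Strat := .move 716 n1019 (.cons 675 n3408 .nil)
noncomputable def n3410 : Strat := .move 801 n258 (.cons 756 n117 .nil)
noncomputable def n3411 : Strat := .move 841 n513 (.cons 797 n635 .nil)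
noncomputable def n3412 : Strat := .move 842 n123 (.cons 843 n3411 .nil)
noncomputable def n3413 : Strat := .move 839 n115 (.cons 838 n3412 .nil)
noncomputable def n3414 : Strat := .move 801 n117 (.cons 839 n2090 (.cons 802 n3413 .nil))
noncomputable def n3415 : Strat := .move 802 n2089 (.cons 758 n118 .nil)
noncomputable def n3416 : Strat := .move 801 n258 (.cons 756 n3415 .nil)
noncomputable def n3417 : Strat := .move 756 n260 (.cons 801 n2349 .nil)
noncomputable def n3418 : Strat := .move 878 n426 (.cons 841 n3068 .nil)
noncomputable def n3419 : Strat := .move 880 n2801 (.cons 921 n3418 .nil)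
noncomputable def n3420 : Strat := .move 879 n863 (.cons 920 n3419 .nil)
noncomputable def n3421 : Strat := .move 838 n82 (.cons 837 n3420 .nil)
noncomputable def n3422 : Strat := .move 756 n85 (.cons 755 n3421 .nil)
noncomputable def n3423 : Strat := .win 758 5 754
noncomputable def n3424 : Strat := .move 795 n3423 (.cons 758 n2046 .nil)
noncomputable def n3425 : Strat := .move 796 n126 (.cons 836 n3424 .nil)
noncomputable def n3426 : Strat := .move 837 n127 (.cons 838 n3425 .nil)
noncomputable def n3427 : Strat := .move 756 n85 (.cons 755 n3426 .nil)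
noncomputable def n3428 : Strat := .move 797 n76 (.cons 796 n3422 (.cons 841 n3427 .nil))
noncomputable def n3429 : Strat := .move 800 n3410 (.cons 756 n3414 (.cons 838 n3416 (.cons 802 n3417 (.cons 801 n3428 .nil))))
noncomputable def n3430 : Strat := .move 881 n257 (.cons 922 n3429 .nil)
noncomputable def n3431 : Strat := .move 757 n3397 (.cons 839 n3399 (.cons 675 n3401 (.cons 922 n3403 (.cons 881 n3409 (.cons 716 n3430 .nil)))))
noncomputable def n3432 : Strat := .move 756 n50 (.cons 800 n2399 .nil)
noncomputable def n3433 : Strat := .move 755 n78 (.cons 754 n3432 .nil)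
noncomputable def n3434 : Strat := .move 758 n263 (.cons 795 n3433 .nil)
noncomputable def n3435 : Strat := .move 796 n77 (.cons 841 n3434 .nil)
noncomputable def n3436 : Strat := .win 880 5 837
noncomputable def n3437 : Strat := .move 878 n3436 (.cons 880 n3068 .nil)
noncomputable def n3438 : Strat := .move 841 n75 (.cons 842 n3437 .nil)
noncomputable def n3439 : Strat := .move 879 n863 (.cons 920 n3438 .nil)
noncomputable def n3440 : Strat := .move 838 n82 (.cons 837 n3439 .nil)
noncomputable def n3441 : Strat := .move 756 n85 (.cons 755 n3440 .nil)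
noncomputable def n3442 : Strat := .move 801 n258 (.cons 756 n466 .nil)
noncomputable def n3443 : Strat := .move 802 n451 (.cons 762 n2089 .nil)
noncomputable def n3444 : Strat := .move 761 n125 (.cons 760 n3443 .nil)
noncomputable def n3445 : Strat := .move 801 n123 (.cons 843 n3444 .nil)
noncomputable def n3446 : Strat := .move 842 n124 (.cons 841 n3445 .nil)
noncomputable def n3447 : Strat := .move 800 n3248 (.cons 801 n3441 (.cons 755 n3442 (.cons 756 n3446 .nil)))
noncomputable def n3448 : Strat := .move 755 n327 (.cons 754 n2395 .nil)
noncomputable def n3449 : Strat := .win 794 5 753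
noncomputable def n3450 : Strat := .move 795 n3449 (.cons 794 n3423 .nil)
noncomputable def n3451 : Strat := .move 796 n126 (.cons 836 n3450 .nil)
noncomputable def n3452 : Strat := .move 837 n127 (.cons 838 n3451 .nil)
noncomputable def n3453 : Strat := .move 800 n260 (.cons 801 n3452 .nil)
noncomputable def n3454 : Strat := .win 758 4 754
noncomputable def n3455 : Strat := .move 795 n3454 (.cons 758 n3449 .nil)
noncomputable def n3456 : Strat := .move 715 n2422 (.cons 878 n2421 .nil)
noncomputable def n3457 : Strat := .move 837 n126 (.cons 836 n3456 .nil)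
noncomputable def n3458 : Strat := .move 796 n3455 (.cons 795 n3457 .nil)
noncomputable def n3459 : Strat := .move 755 n327 (.cons 754 n3458 .nil)
noncomputable def n3460 : Strat := .move 756 n3448 (.cons 755 n3453 (.cons 800 n3459 .nil))
noncomputable def n3461 : Strat := .move 795 n3423 (.cons 758 n2049 .nil)
noncomputable def n3462 : Strat := .move 796 n77 (.cons 841 n3461 .nil)
noncomputable def n3463 : Strat := .move 797 n3435 (.cons 795 n2867 (.cons 796 n3447 (.cons 841 n3460 (.cons 800 n3462 .nil))))
noncomputable def n3464 : Strat := .move 881 n257 (.cons 922 n3463 .nil)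
noncomputable def n3465 : Strat := .move 838 n2428 (.cons 673 n1038 .nil)
noncomputable def n3466 : Strat := .move 714 n328 (.cons 713 n3465 .nil)
noncomputable def n3467 : Strat := .move 758 n52 (.cons 795 n3466 .nil)
noncomputable def n3468 : Strat := .move 756 n2395 (.cons 800 n3467 .nil)
noncomputable def n3469 : Strat := .move 755 n78 (.cons 754 n3468 .nil)
noncomputable def n3470 : Strat := .move 796 n77 (.cons 841 n3469 .nil)
noncomputable def n3471 : Strat := .move 800 n260 (.cons 801 n82 .nil)
noncomputable def n3472 : Strat := .move 838 n1038 (.cons 879 n3471 .nil)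
noncomputable def n3473 : Strat := .move 795 n3449 (.cons 794 n3454 .nil)
noncomputable def n3474 : Strat := .win 878 1 714
noncomputable def n3475 : Strat := .move 715 n2421 (.cons 674 n3474 .nil)
noncomputable def n3476 : Strat := .move 837 n126 (.cons 836 n3475 .nil)
noncomputable def n3477 : Strat := .move 796 n3473 (.cons 758 n3476 .nil)
noncomputable def n3478 : Strat := .move 838 n1038 (.cons 879 n3477 .nil)
noncomputable def n3479 : Strat := .move 755 n327 (.cons 754 n3478 .nil)
noncomputable def n3480 : Strat := .move 756 n3448 (.cons 755 n3472 (.cons 800 n3479 .nil))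
noncomputable def n3481 : Strat := .move 795 n3423 (.cons 758 n2073 .nil)
noncomputable def n3482 : Strat := .move 796 n77 (.cons 841 n3481 .nil)
noncomputable def n3483 : Strat := .move 838 n1038 (.cons 879 n3476 .nil)
noncomputable def n3484 : Strat := .move 756 n2395 (.cons 800 n3483 .nil)
noncomputable def n3485 : Strat := .move 755 n78 (.cons 754 n3484 .nil)
noncomputable def n3486 : Strat := .move 796 n77 (.cons 841 n3485 .nil)
noncomputable def n3487 : Strat := .move 838 n1038 (.cons 879 n82 .nil)
noncomputable def n3488 : Strat := .move 756 n85 (.cons 755 n3487 .nil)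
noncomputable def n3489 : Strat := .move 800 n3248 (.cons 801 n3488 (.cons 755 n3442 (.cons 756 n3446 .nil)))
noncomputable def n3490 : Strat := .move 797 n3470 (.cons 841 n3480 (.cons 800 n3462 (.cons 755 n3482 (.cons 758 n3486 (.cons 796 n3489 .nil)))))
noncomputable def n3491 : Strat := .move 716 n1019 (.cons 675 n3490 .nil)
noncomputable def n3492 : Strat := .win 881 7 757
noncomputable def n3493 : Strat := .move 756 n2395 (.cons 800 n3457 .nil)
noncomputable def n3494 : Strat := .move 755 n78 (.cons 754 n3493 .nil)
noncomputable def n3495 : Strat := .move 796 n77 (.cons 841 n3494 .nil)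
noncomputable def n3496 : Strat := .win 716 1 674
noncomputable def n3497 : Strat := .move 714 n2427 (.cons 879 n2428 .nil)
noncomputable def n3498 : Strat := .move 755 n78 (.cons 754 n3497 .nil)
noncomputable def n3499 : Strat := .move 675 n3496 (.cons 716 n3498 .nil)
noncomputable def n3500 : Strat := .move 838 n1085 (.cons 800 n3499 .nil)
noncomputable def n3501 : Strat := .move 837 n126 (.cons 836 n3500 .nil)
noncomputable def n3502 : Strat := .move 796 n77 (.cons 841 n3501 .nil)
noncomputable def n3503 : Strat := .move 716 n1019 (.cons 675 n2867 .nil)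
noncomputable def n3504 : Strat := .move 795 n2048 (.cons 753 n2073 .nil)
noncomputable def n3505 : Strat := .move 754 n2047 (.cons 755 n3504 .nil)
noncomputable def n3506 : Strat := .move 796 n77 (.cons 841 n3505 .nil)
noncomputable def n3507 : Strat := .move 756 n327 (.cons 754 n2395 .nil)
noncomputable def n3508 : Strat := .move 838 n1085 (.cons 800 n3497 .nil)
noncomputable def n3509 : Strat := .move 837 n126 (.cons 836 n3508 .nil)
noncomputable def n3510 : Strat := .move 796 n78 (.cons 754 n3509 .nil)
noncomputable def n3511 : Strat := .win 796 2 754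
noncomputable def n3512 : Strat := .move 754 n2560 (.cons 756 n3511 .nil)
noncomputable def n3513 : Strat := .move 800 n79 (.cons 756 n82 .nil)
noncomputable def n3514 : Strat := .win 756 7 714
noncomputable def n3515 : Strat := .win 837 6 714
noncomputable def n3516 : Strat := .move 796 n3515 (.cons 837 n2428 .nil)
noncomputable def n3517 : Strat := .move 714 n3514 (.cons 756 n3516 .nil)
noncomputable def n3518 : Strat := .move 879 n863 (.cons 920 n3517 .nil)
noncomputable def n3519 : Strat := .move 879 n3274 (.cons 714 n863 .nil)
noncomputable def n3520 : Strat := .move 756 n2395 (.cons 800 n3519 .nil)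
noncomputable def n3521 : Strat := .win 796 4 795
noncomputable def n3522 : Strat := .move 836 n3050 (.cons 835 n3521 .nil)
noncomputable def n3523 : Strat := .move 837 n1085 (.cons 800 n3522 .nil)
noncomputable def n3524 : Strat := .move 838 n3513 (.cons 800 n3518 (.cons 837 n3520 (.cons 756 n3523 .nil)))
noncomputable def n3525 : Strat := .move 755 n3507 (.cons 756 n3510 (.cons 800 n3512 (.cons 754 n3524 .nil)))
noncomputable def n3526 : Strat := .move 675 n2621 (.cons 716 n3525 .nil)
noncomputable def n3527 : Strat := .move 800 n260 (.cons 801 n85 .nil)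
noncomputable def n3528 : Strat := .move 716 n1019 (.cons 675 n3472 .nil)
noncomputable def n3529 : Strat := .win 755 0 754
noncomputable def n3530 : Strat := .move 838 n2805 (.cons 673 n1038 .nil)
noncomputable def n3531 : Strat := .move 713 n2642 (.cons 753 n2574 .nil)
noncomputable def n3532 : Strat := .move 714 n3530 (.cons 879 n3531 .nil)
noncomputable def n3533 : Strat := .move 716 n1019 (.cons 675 n3532 .nil)
noncomputable def n3534 : Strat := .move 674 n3105 (.cons 632 n171 .nil)
noncomputable def n3535 : Strat := .move 838 n3106 (.cons 714 n1038 .nil)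
noncomputable def n3536 : Strat := .move 673 n3534 (.cons 633 n3535 .nil)
noncomputable def n3537 : Strat := .move 716 n1019 (.cons 675 n3536 .nil)
noncomputable def n3538 : Strat := .move 673 n3106 (.cons 714 n3105 .nil)
noncomputable def n3539 : Strat := .move 838 n2061 (.cons 920 n3538 .nil)
noncomputable def n3540 : Strat := .move 674 n171 (.cons 633 n3539 .nil)
noncomputable def n3541 : Strat := .move 674 n171 (.cons 633 n3538 .nil)
noncomputable def n3542 : Strat := .move 878 n3068 (.cons 919 n3071 .nil)
noncomputable def n3543 : Strat := .move 879 n863 (.cons 920 n3542 .nil)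
noncomputable def n3544 : Strat := .move 838 n3541 (.cons 674 n3543 .nil)
noncomputable def n3545 : Strat := .move 674 n3101 (.cons 634 n171 .nil)
noncomputable def n3546 : Strat := .move 675 n2621 (.cons 716 n3545 .nil)
noncomputable def n3547 : Strat := .move 715 n3533 (.cons 712 n3537 (.cons 675 n3540 (.cons 716 n3544 (.cons 879 n3546 .nil))))
noncomputable def n3548 : Strat := .move 754 n3529 (.cons 755 n3547 .nil)
noncomputable def n3549 : Strat := .move 756 n3527 (.cons 755 n3528 (.cons 801 n3448 (.cons 800 n3548 .nil)))
noncomputable def n3550 : Strat := .move 797 n3495 (.cons 756 n3502 (.cons 755 n3503 (.cons 800 n3506 (.cons 841 n3526 (.cons 796 n3549 .nil)))))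
noncomputable def n3551 : Strat := .move 922 n3492 (.cons 881 n3550 .nil)
noncomputable def n3552 : Strat := .move 757 n3399 (.cons 716 n3464 (.cons 881 n3491 (.cons 758 n3551 .nil)))
noncomputable def n3553 : Strat := .move 838 n1085 (.cons 800 n3082 .nil)
noncomputable def n3554 : Strat := .move 837 n126 (.cons 836 n3553 .nil)
noncomputable def n3555 : Strat := .move 839 n579 (.cons 795 n3554 .nil)
noncomputable def n3556 : Strat := .move 796 n77 (.cons 841 n3555 .nil)
noncomputable def n3557 : Strat := .move 796 n579 (.cons 795 n3554 .nil)
noncomputable def n3558 : Strat := .move 796 n579 (.cons 795 n2819 .nil)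
noncomputable def n3559 : Strat := .win 838 4 836
noncomputable def n3560 : Strat := .move 877 n2508 (.cons 918 n3559 .nil)
noncomputable def n3561 : Strat := .move 878 n2425 (.cons 919 n3560 .nil)
noncomputable def n3562 : Strat := .move 880 n2790 (.cons 921 n3561 .nil)
noncomputable def n3563 : Strat := .move 880 n694 (.cons 838 n2790 .nil)
noncomputable def n3564 : Strat := .move 715 n2421 (.cons 674 n3563 .nil)
noncomputable def n3565 : Strat := .move 756 n2423 (.cons 715 n3562 (.cons 878 n3564 .nil))
noncomputable def n3566 : Strat := .move 755 n78 (.cons 754 n3565 .nil)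
noncomputable def n3567 : Strat := .move 837 n126 (.cons 836 n3566 .nil)
noncomputable def n3568 : Strat := .move 796 n579 (.cons 795 n3567 .nil)
noncomputable def n3569 : Strat := .move 715 n553 (.cons 674 n694 .nil)
noncomputable def n3570 : Strat := .move 880 n2790 (.cons 921 n3569 .nil)
noncomputable def n3571 : Strat := .move 756 n2395 (.cons 800 n3570 .nil)
noncomputable def n3572 : Strat := .move 755 n78 (.cons 754 n3571 .nil)
noncomputable def n3573 : Strat := .move 796 n579 (.cons 795 n3572 .nil)
noncomputable def n3574 : Strat := .move 755 n78 (.cons 754 n2822 .nil)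
noncomputable def n3575 : Strat := .move 838 n1085 (.cons 800 n3574 .nil)
noncomputable def n3576 : Strat := .move 837 n126 (.cons 836 n3575 .nil)
noncomputable def n3577 : Strat := .move 800 n79 (.cons 756 n857 .nil)
noncomputable def n3578 : Strat := .move 755 n78 (.cons 754 n3577 .nil)
noncomputable def n3579 : Strat := .move 796 n3554 (.cons 756 n3576 (.cons 836 n3578 (.cons 837 n3572 (.cons 838 n2819 (.cons 800 n3567 .nil)))))
noncomputable def n3580 : Strat := .move 796 n579 (.cons 795 n3576 .nil)
noncomputable def n3581 : Strat := .move 756 n2790 (.cons 921 n888 .nil)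
noncomputable def n3582 : Strat := .move 800 n85 (.cons 755 n83 .nil)
noncomputable def n3583 : Strat := .move 756 n888 (.cons 715 n3582 .nil)
noncomputable def n3584 : Strat := .move 880 n2156 (.cons 962 n3581 (.cons 921 n3583 .nil))
noncomputable def n3585 : Strat := .move 921 n2155 (.cons 758 n3045 .nil)
noncomputable def n3586 : Strat := .win 879 1 755
noncomputable def n3587 : Strat := .win 960 3 796
noncomputable def n3588 : Strat := .move 919 n3586 (.cons 879 n3587 .nil)
noncomputable def n3589 : Strat := .move 756 n3080 (.cons 715 n3588 .nil)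
noncomputable def n3590 : Strat := .move 878 n1077 (.cons 877 n3589 .nil)
noncomputable def n3591 : Strat := .move 837 n1076 (.cons 836 n3590 .nil)
noncomputable def n3592 : Strat := .move 880 n2156 (.cons 758 n3046 (.cons 962 n3585 (.cons 921 n3591 .nil)))
noncomputable def n3593 : Strat := .move 838 n1086 (.cons 836 n1084 (.cons 837 n3584 (.cons 800 n3592 .nil)))
noncomputable def n3594 : Strat := .move 839 n3557 (.cons 838 n3558 (.cons 800 n3568 (.cons 837 n3573 (.cons 795 n3579 (.cons 756 n3580 (.cons 796 n3593 .nil))))))
noncomputable def n3595 : Strat := .move 839 n579 (.cons 795 n3567 .nil)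
noncomputable def n3596 : Strat := .move 796 n77 (.cons 841 n3595 .nil)
noncomputable def n3597 : Strat := .move 839 n579 (.cons 795 n2819 .nil)
noncomputable def n3598 : Strat := .move 796 n77 (.cons 841 n3597 .nil)
noncomputable def n3599 : Strat := .move 841 n75 (.cons 842 n2794 .nil)
noncomputable def n3600 : Strat := .move 802 n451 (.cons 762 n450 .nil)
noncomputable def n3601 : Strat := .move 761 n125 (.cons 760 n3600 .nil)
noncomputable def n3602 : Strat := .move 756 n85 (.cons 755 n3601 .nil)
noncomputable def n3603 : Strat := .move 801 n320 (.cons 839 n3602 .nil)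
noncomputable def n3604 : Strat := .move 838 n82 (.cons 837 n3603 .nil)
noncomputable def n3605 : Strat := .move 802 n118 (.cons 839 n2112 .nil)
noncomputable def n3606 : Strat := .move 801 n123 (.cons 843 n3605 .nil)
noncomputable def n3607 : Strat := .move 842 n124 (.cons 841 n3606 .nil)
noncomputable def n3608 : Strat := .move 839 n888 (.cons 715 n2790 .nil)
noncomputable def n3609 : Strat := .win 879 6 756
noncomputable def n3610 : Strat := .move 921 n3609 (.cons 879 n1260 .nil)
noncomputable def n3611 : Strat := .win 881 5 837
noncomputable def n3612 : Strat := .move 878 n3611 (.cons 881 n3068 .nil)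
noncomputable def n3613 : Strat := .move 879 n2801 (.cons 921 n3612 .nil)
noncomputable def n3614 : Strat := .move 715 n2802 (.cons 839 n3108 .nil)
noncomputable def n3615 : Strat := .move 880 n3608 (.cons 715 n3610 (.cons 839 n3613 (.cons 921 n3614 .nil)))
noncomputable def n3616 : Strat := .move 756 n85 (.cons 755 n3615 .nil)
noncomputable def n3617 : Strat := .move 838 n82 (.cons 837 n3616 .nil)
noncomputable def n3618 : Strat := .move 841 n75 (.cons 842 n3617 .nil)
noncomputable def n3619 : Strat := .move 841 n75 (.cons 842 n631 .nil)
noncomputable def n3620 : Strat := .win 841 4 799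
noncomputable def n3621 : Strat := .win 845 0 800
noncomputable def n3622 : Strat := .win 843 0 799
noncomputable def n3623 : Strat := .move 844 n3621 (.cons 845 n3622 .nil)
noncomputable def n3624 : Strat := .move 803 n3620 (.cons 841 n3623 .nil)
noncomputable def n3625 : Strat := .move 802 n451 (.cons 762 n3624 .nil)
noncomputable def n3626 : Strat := .move 761 n125 (.cons 760 n3625 .nil)
noncomputable def n3627 : Strat := .move 801 n466 (.cons 841 n3601 (.cons 843 n3619 (.cons 842 n3626 .nil)))
noncomputable def n3628 : Strat := .move 838 n82 (.cons 837 n3627 .nil)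
noncomputable def n3629 : Strat := .move 756 n85 (.cons 755 n3628 .nil)
noncomputable def n3630 : Strat := .move 800 n3599 (.cons 841 n3604 (.cons 842 n2794 (.cons 838 n3607 (.cons 801 n3618 (.cons 839 n3629 .nil)))))
noncomputable def n3631 : Strat := .move 797 n3556 (.cons 841 n3594 (.cons 800 n3596 (.cons 838 n3598 (.cons 836 n2867 (.cons 796 n3630 .nil)))))
noncomputable def n3632 : Strat := .move 757 n257 (.cons 922 n860 .nil)
noncomputable def n3633 : Strat := .move 758 n34 (.cons 921 n224 .nil)
noncomputable def n3634 : Strat := .move 878 n427 (.cons 877 n426 .nil)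
noncomputable def n3635 : Strat := .move 879 n382 (.cons 920 n3634 .nil)
noncomputable def n3636 : Strat := .move 758 n224 (.cons 717 n3635 .nil)
noncomputable def n3637 : Strat := .move 921 n26 (.cons 758 n1891 .nil)
noncomputable def n3638 : Strat := .move 880 n3633 (.cons 921 n3636 (.cons 717 n3637 (.cons 758 n3635 .nil)))
noncomputable def n3639 : Strat := .move 757 n860 (.cons 716 n3638 .nil)
noncomputable def n3640 : Strat := .move 922 n0 (.cons 757 n226 .nil)
noncomputable def n3641 : Strat := .move 922 n226 (.cons 963 n110 .nil)
noncomputable def n3642 : Strat := .move 839 n3632 (.cons 922 n3639 (.cons 716 n3640 (.cons 757 n3641 .nil)))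
noncomputable def n3643 : Strat := .move 839 n226 (.cons 963 n110 .nil)
noncomputable def n3644 : Strat := .move 922 n3643 (.cons 921 n23 (.cons 839 n32 (.cons 964 n17 .nil)))
noncomputable def n3645 : Strat := .move 716 n1019 (.cons 675 n1239 .nil)
noncomputable def n3646 : Strat := .move 757 n257 (.cons 922 n3645 .nil)
noncomputable def n3647 : Strat := .move 716 n1019 (.cons 675 n3395 .nil)
noncomputable def n3648 : Strat := .move 757 n257 (.cons 922 n3647 .nil)
noncomputable def n3649 : Strat := .move 839 n224 (.cons 717 n3635 .nil)
noncomputable def n3650 : Strat := .move 880 n34 (.cons 921 n3649 .nil)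
noncomputable def n3651 : Strat := .move 757 n46 (.cons 716 n3650 .nil)
noncomputable def n3652 : Strat := .move 717 n35 (.cons 839 n1497 .nil)
noncomputable def n3653 : Strat := .move 880 n34 (.cons 921 n3652 .nil)
noncomputable def n3654 : Strat := .move 676 n723 (.cons 839 n149 .nil)
noncomputable def n3655 : Strat := .move 717 n42 (.cons 675 n3654 .nil)
noncomputable def n3656 : Strat := .move 716 n41 (.cons 757 n3655 .nil)
noncomputable def n3657 : Strat := .move 757 n382 (.cons 920 n3634 .nil)
noncomputable def n3658 : Strat := .move 757 n382 (.cons 920 n1274 .nil)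
noncomputable def n3659 : Strat := .move 841 n383 (.cons 842 n3658 .nil)
noncomputable def n3660 : Strat := .move 838 n484 (.cons 961 n480 .nil)
noncomputable def n3661 : Strat := .move 920 n485 (.cons 757 n3660 .nil)
noncomputable def n3662 : Strat := .move 837 n3162 (.cons 836 n3661 .nil)
noncomputable def n3663 : Strat := .move 878 n427 (.cons 877 n3662 .nil)
noncomputable def n3664 : Strat := .move 879 n3657 (.cons 877 n388 (.cons 878 n3659 (.cons 841 n3663 .nil)))
noncomputable def n3665 : Strat := .move 839 n224 (.cons 717 n3664 .nil)
noncomputable def n3666 : Strat := .move 880 n34 (.cons 921 n3665 .nil)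
noncomputable def n3667 : Strat := .move 800 n260 (.cons 801 n386 .nil)
noncomputable def n3668 : Strat := .move 839 n370 (.cons 715 n3667 .nil)
noncomputable def n3669 : Strat := .move 839 n370 (.cons 715 n386 .nil)
noncomputable def n3670 : Strat := .move 755 n327 (.cons 754 n3669 .nil)
noncomputable def n3671 : Strat := .move 756 n429 (.cons 754 n623 (.cons 755 n3668 (.cons 800 n3670 .nil)))
noncomputable def n3672 : Strat := .move 880 n34 (.cons 921 n3671 .nil)
noncomputable def n3673 : Strat := .move 757 n46 (.cons 716 n3672 .nil)
noncomputable def n3674 : Strat := .move 676 n722 (.cons 635 n149 .nil)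
noncomputable def n3675 : Strat := .move 757 n46 (.cons 716 n3674 .nil)
noncomputable def n3676 : Strat := .move 635 n848 (.cons 593 n785 .nil)
noncomputable def n3677 : Strat := .move 634 n847 (.cons 675 n3676 .nil)
noncomputable def n3678 : Strat := .move 841 n1312 (.cons 800 n3677 .nil)
noncomputable def n3679 : Strat := .move 676 n148 (.cons 636 n3678 .nil)
noncomputable def n3680 : Strat := .move 677 n147 (.cons 718 n3679 .nil)
noncomputable def n3681 : Strat := .move 717 n43 (.cons 757 n1497 (.cons 675 n3675 (.cons 716 n3680 .nil)))
noncomputable def n3682 : Strat := .move 880 n34 (.cons 921 n3681 .nil)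
noncomputable def n3683 : Strat := .move 758 n3651 (.cons 757 n3653 (.cons 880 n3656 (.cons 716 n3666 (.cons 717 n3673 (.cons 839 n3682 .nil)))))
noncomputable def n3684 : Strat := .move 881 n3642 (.cons 757 n3644 (.cons 839 n3646 (.cons 758 n3648 (.cons 922 n3683 .nil))))
noncomputable def n3685 : Strat := .move 881 n257 (.cons 922 n3647 .nil)
noncomputable def n3686 : Strat := .move 717 n2083 (.cons 758 n2368 .nil)
noncomputable def n3687 : Strat := .move 717 n2083 (.cons 758 n2614 .nil)
noncomputable def n3688 : Strat := .move 880 n3686 (.cons 920 n3687 (.cons 758 n2368 .nil))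
noncomputable def n3689 : Strat := .move 756 n3474 (.cons 878 n552 .nil)
noncomputable def n3690 : Strat := .move 715 n153 (.cons 674 n3689 .nil)
noncomputable def n3691 : Strat := .move 797 n77 (.cons 841 n3690 .nil)
noncomputable def n3692 : Strat := .move 796 n892 (.cons 795 n3691 .nil)
noncomputable def n3693 : Strat := .move 837 n1076 (.cons 836 n3692 .nil)
noncomputable def n3694 : Strat := .move 838 n825 (.cons 879 n3693 .nil)
noncomputable def n3695 : Strat := .win 756 1 714
noncomputable def n3696 : Strat := .move 878 n3695 (.cons 756 n1077 .nil)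
noncomputable def n3697 : Strat := .move 715 n153 (.cons 674 n3696 .nil)
noncomputable def n3698 : Strat := .move 797 n77 (.cons 841 n3697 .nil)
noncomputable def n3699 : Strat := .move 796 n892 (.cons 795 n3698 .nil)
noncomputable def n3700 : Strat := .move 837 n1076 (.cons 836 n3699 .nil)
noncomputable def n3701 : Strat := .move 838 n825 (.cons 879 n3700 .nil)
noncomputable def n3702 : Strat := .move 839 n2370 (.cons 676 n3688 (.cons 758 n3694 (.cons 838 n2616 (.cons 880 n3701 .nil))))
noncomputable def n3703 : Strat := .move 716 n1019 (.cons 675 n3702 .nil)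
noncomputable def n3704 : Strat := .move 795 n2046 (.cons 839 n3423 .nil)
noncomputable def n3705 : Strat := .move 797 n77 (.cons 841 n3704 .nil)
noncomputable def n3706 : Strat := .move 878 n2425 (.cons 919 n2424 .nil)
noncomputable def n3707 : Strat := .move 714 n2429 (.cons 673 n2519 .nil)
noncomputable def n3708 : Strat := .move 756 n3456 (.cons 674 n3706 (.cons 878 n3707 .nil))
noncomputable def n3709 : Strat := .move 837 n126 (.cons 836 n3708 .nil)
noncomputable def n3710 : Strat := .move 755 n78 (.cons 754 n3709 .nil)
noncomputable def n3711 : Strat := .move 797 n3704 (.cons 758 n2050 (.cons 795 n3710 .nil))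
noncomputable def n3712 : Strat := .move 797 n77 (.cons 841 n3461 .nil)
noncomputable def n3713 : Strat := .move 797 n77 (.cons 841 n3710 .nil)
noncomputable def n3714 : Strat := .win 963 6 798
noncomputable def n3715 : Strat := .move 921 n1891 (.cons 962 n3714 .nil)
noncomputable def n3716 : Strat := .move 755 n52 (.cons 795 n327 .nil)
noncomputable def n3717 : Strat := .move 756 n370 (.cons 715 n3716 .nil)
noncomputable def n3718 : Strat := .move 879 n382 (.cons 920 n3717 .nil)
noncomputable def n3719 : Strat := .move 758 n224 (.cons 717 n3718 .nil)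
noncomputable def n3720 : Strat := .move 880 n2156 (.cons 962 n2154 (.cons 758 n3715 (.cons 921 n3719 .nil)))
noncomputable def n3721 : Strat := .move 673 n2497 (.cons 877 n2502 .nil)
noncomputable def n3722 : Strat := .move 713 n2507 (.cons 754 n2434 .nil)
noncomputable def n3723 : Strat := .move 878 n2510 (.cons 836 n3722 .nil)
noncomputable def n3724 : Strat := .move 673 n2502 (.cons 715 n2522 .nil)
noncomputable def n3725 : Strat := .move 714 n3721 (.cons 673 n3723 (.cons 877 n3724 .nil))
noncomputable def n3726 : Strat := .move 715 n2422 (.cons 878 n2514 .nil)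
noncomputable def n3727 : Strat := .move 756 n3726 (.cons 674 n2515 .nil)
noncomputable def n3728 : Strat := .move 673 n2497 (.cons 877 n2522 .nil)
noncomputable def n3729 : Strat := .move 715 n2571 (.cons 756 n2514 .nil)
noncomputable def n3730 : Strat := .move 878 n2510 (.cons 836 n3729 .nil)
noncomputable def n3731 : Strat := .move 714 n3721 (.cons 673 n3727 (.cons 715 n3728 (.cons 795 n3730 .nil)))
noncomputable def n3732 : Strat := .move 755 n2492 (.cons 633 n2487 (.cons 756 n3725 (.cons 754 n3731 .nil)))
noncomputable def n3733 : Strat := .move 837 n2483 (.cons 838 n3732 (.cons 795 n2534 (.cons 836 n2535 .nil)))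
noncomputable def n3734 : Strat := .move 841 n2454 (.cons 838 n383 .nil)
noncomputable def n3735 : Strat := .move 878 n427 (.cons 877 n3734 .nil)
noncomputable def n3736 : Strat := .move 879 n382 (.cons 920 n3735 .nil)
noncomputable def n3737 : Strat := .move 880 n3715 (.cons 962 n3736 .nil)
noncomputable def n3738 : Strat := .move 758 n224 (.cons 717 n3717 .nil)
noncomputable def n3739 : Strat := .move 880 n2156 (.cons 921 n3738 (.cons 758 n3715 .nil))
noncomputable def n3740 : Strat := .move 839 n3720 (.cons 880 n3733 (.cons 758 n3737 (.cons 879 n3739 .nil)))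
noncomputable def n3741 : Strat := .move 796 n3705 (.cons 841 n3711 (.cons 839 n3712 (.cons 795 n3713 (.cons 758 n2420 (.cons 797 n3740 .nil)))))
noncomputable def n3742 : Strat := .move 922 n3492 (.cons 881 n3741 .nil)
noncomputable def n3743 : Strat := .move 757 n3685 (.cons 881 n3703 (.cons 839 n3399 (.cons 716 n3742 .nil)))
noncomputable def n3744 : Strat := .move 755 n78 (.cons 754 n2076 .nil)
noncomputable def n3745 : Strat := .move 837 n126 (.cons 836 n3744 .nil)
noncomputable def n3746 : Strat := .move 796 n2050 (.cons 755 n2074 (.cons 795 n3745 .nil))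
noncomputable def n3747 : Strat := .move 802 n521 (.cons 803 n2089 .nil)
noncomputable def n3748 : Strat := .move 757 n258 (.cons 756 n3747 .nil)
noncomputable def n3749 : Strat := .move 801 n320 (.cons 839 n3748 .nil)
noncomputable def n3750 : Strat := .move 838 n82 (.cons 837 n3749 .nil)
noncomputable def n3751 : Strat := .move 841 n75 (.cons 842 n3750 .nil)
noncomputable def n3752 : Strat := .move 802 n118 (.cons 839 n521 .nil)
noncomputable def n3753 : Strat := .move 801 n1177 (.cons 757 n3752 .nil)
noncomputable def n3754 : Strat := .move 756 n85 (.cons 755 n3753 .nil)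
noncomputable def n3755 : Strat := .move 839 n2791 (.cons 921 n2881 (.cons 880 n2854 .nil))
noncomputable def n3756 : Strat := .move 756 n85 (.cons 755 n3755 .nil)
noncomputable def n3757 : Strat := .move 838 n82 (.cons 837 n3756 .nil)
noncomputable def n3758 : Strat := .move 802 n521 (.cons 803 n2112 .nil)
noncomputable def n3759 : Strat := .move 801 n320 (.cons 839 n3758 .nil)
noncomputable def n3760 : Strat := .move 838 n82 (.cons 837 n3759 .nil)
noncomputable def n3761 : Strat := .move 801 n1177 (.cons 757 n3758 .nil)
noncomputable def n3762 : Strat := .move 756 n85 (.cons 755 n3761 .nil)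
noncomputable def n3763 : Strat := .move 841 n3750 (.cons 838 n3754 (.cons 801 n3757 (.cons 756 n3760 (.cons 839 n3762 .nil))))
noncomputable def n3764 : Strat := .move 841 n75 (.cons 842 n3757 .nil)
noncomputable def n3765 : Strat := .move 841 n75 (.cons 842 n3760 .nil)
noncomputable def n3766 : Strat := .move 800 n3751 (.cons 838 n2869 (.cons 842 n3763 (.cons 801 n3764 (.cons 756 n3765 (.cons 841 n2059 .nil)))))
noncomputable def n3767 : Strat := .move 797 n2051 (.cons 754 n2867 (.cons 841 n3746 (.cons 796 n3766 .nil)))
noncomputable def n3768 : Strat := .move 881 n257 (.cons 922 n3645 .nil)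
noncomputable def n3769 : Strat := .move 800 n260 (.cons 801 n2348 .nil)
noncomputable def n3770 : Strat := .move 755 n327 (.cons 754 n3769 .nil)
noncomputable def n3771 : Strat := .move 717 n2484 (.cons 718 n2235 .nil)
noncomputable def n3772 : Strat := .move 673 n2397 (.cons 838 n2396 .nil)
noncomputable def n3773 : Strat := .move 714 n328 (.cons 713 n3772 .nil)
noncomputable def n3774 : Strat := .move 797 n77 (.cons 841 n3773 .nil)
noncomputable def n3775 : Strat := .move 796 n52 (.cons 795 n3774 .nil)
noncomputable def n3776 : Strat := .move 758 n3771 (.cons 718 n3775 .nil)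
noncomputable def n3777 : Strat := .move 755 n327 (.cons 754 n3776 .nil)
noncomputable def n3778 : Strat := .win 797 2 755
noncomputable def n3779 : Strat := .move 755 n2348 (.cons 758 n3778 .nil)
noncomputable def n3780 : Strat := .move 800 n260 (.cons 801 n3779 .nil)
noncomputable def n3781 : Strat := .move 800 n260 (.cons 801 n3778 .nil)
noncomputable def n3782 : Strat := .move 755 n327 (.cons 754 n3781 .nil)
noncomputable def n3783 : Strat := .move 795 n2046 (.cons 839 n3449 .nil)
noncomputable def n3784 : Strat := .move 796 n77 (.cons 841 n3783 .nil)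
noncomputable def n3785 : Strat := .move 880 n370 (.cons 715 n2790 .nil)
noncomputable def n3786 : Strat := .move 796 n126 (.cons 836 n579 .nil)
noncomputable def n3787 : Strat := .move 837 n127 (.cons 838 n3786 .nil)
noncomputable def n3788 : Strat := .move 839 n3785 (.cons 880 n3787 .nil)
noncomputable def n3789 : Strat := .move 758 n263 (.cons 795 n128 .nil)
noncomputable def n3790 : Strat := .move 796 n77 (.cons 841 n3789 .nil)
noncomputable def n3791 : Strat := .move 878 n2158 (.cons 841 n3068 .nil)
noncomputable def n3792 : Strat := .move 839 n2881 (.cons 880 n3791 .nil)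
noncomputable def n3793 : Strat := .move 879 n863 (.cons 920 n3792 .nil)
noncomputable def n3794 : Strat := .move 838 n82 (.cons 837 n3793 .nil)
noncomputable def n3795 : Strat := .move 797 n3784 (.cons 841 n3788 (.cons 839 n3790 (.cons 796 n3794 .nil)))
noncomputable def n3796 : Strat := .move 800 n260 (.cons 801 n3795 .nil)
noncomputable def n3797 : Strat := .move 756 n3770 (.cons 800 n3777 (.cons 754 n3780 (.cons 758 n3782 (.cons 755 n3796 .nil))))
noncomputable def n3798 : Strat := .move 922 n3492 (.cons 881 n3797 .nil)
noncomputable def n3799 : Strat := .move 757 n3397 (.cons 881 n3409 (.cons 839 n3768 (.cons 675 n3401 (.cons 716 n3798 .nil))))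
noncomputable def n3800 : Strat := .move 757 n258 (.cons 756 n466 .nil)
noncomputable def n3801 : Strat := .move 801 n320 (.cons 839 n3800 .nil)
noncomputable def n3802 : Strat := .move 838 n82 (.cons 837 n3801 .nil)
noncomputable def n3803 : Strat := .move 838 n320 (.cons 839 n3748 .nil)
noncomputable def n3804 : Strat := .move 801 n3803 (.cons 839 n2057 (.cons 756 n117 .nil))
noncomputable def n3805 : Strat := .move 841 n75 (.cons 842 n3804 .nil)
noncomputable def n3806 : Strat := .move 758 n100 (.cons 802 n138 .nil)
noncomputable def n3807 : Strat := .move 716 n1039 (.cons 675 n3806 .nil)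
noncomputable def n3808 : Strat := .move 757 n258 (.cons 756 n3807 .nil)
noncomputable def n3809 : Strat := .move 801 n320 (.cons 839 n3808 .nil)
noncomputable def n3810 : Strat := .move 838 n82 (.cons 837 n3809 .nil)
noncomputable def n3811 : Strat := .move 878 n3068 (.cons 919 n3067 .nil)
noncomputable def n3812 : Strat := .move 879 n863 (.cons 920 n3811 .nil)
noncomputable def n3813 : Strat := .move 881 n3395 (.cons 839 n257 .nil)
noncomputable def n3814 : Strat := .move 716 n1039 (.cons 675 n3813 .nil)
noncomputable def n3815 : Strat := .move 757 n2799 (.cons 675 n2800 (.cons 716 n3812 (.cons 879 n3814 .nil)))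
noncomputable def n3816 : Strat := .move 756 n85 (.cons 755 n3815 .nil)
noncomputable def n3817 : Strat := .move 838 n82 (.cons 837 n3816 .nil)
noncomputable def n3818 : Strat := .move 841 n75 (.cons 842 n3817 .nil)
noncomputable def n3819 : Strat := .move 800 n3802 (.cons 837 n3805 (.cons 757 n3765 (.cons 838 n2869 (.cons 842 n3810 (.cons 801 n3818 .nil)))))
noncomputable def n3820 : Strat := .move 755 n2395 (.cons 800 n327 .nil)
noncomputable def n3821 : Strat := .move 800 n82 (.cons 837 n260 .nil)
noncomputable def n3822 : Strat := .move 838 n1038 (.cons 879 n3821 .nil)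
noncomputable def n3823 : Strat := .move 795 n3454 (.cons 758 n2046 .nil)
noncomputable def n3824 : Strat := .move 795 n3449 (.cons 794 n2046 .nil)
noncomputable def n3825 : Strat := .move 796 n3823 (.cons 839 n3473 (.cons 758 n3824 (.cons 795 n3476 .nil)))
noncomputable def n3826 : Strat := .move 838 n1038 (.cons 879 n3825 .nil)
noncomputable def n3827 : Strat := .move 755 n327 (.cons 754 n3826 .nil)
noncomputable def n3828 : Strat := .move 756 n3820 (.cons 755 n3822 (.cons 800 n3827 .nil))
noncomputable def n3829 : Strat := .move 716 n1019 (.cons 675 n3828 .nil)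
noncomputable def n3830 : Strat := .move 756 n2395 (.cons 800 n3455 .nil)
noncomputable def n3831 : Strat := .move 755 n78 (.cons 754 n3830 .nil)
noncomputable def n3832 : Strat := .move 796 n3704 (.cons 839 n3831 (.cons 758 n2050 (.cons 795 n2819 .nil)))
noncomputable def n3833 : Strat := .move 757 n3397 (.cons 675 n3401 (.cons 922 n3403 (.cons 839 n3399 (.cons 881 n3829 (.cons 716 n3832 .nil)))))
noncomputable def n3834 : Strat := .move 797 n2051 (.cons 839 n2867 (.cons 796 n3819 (.cons 841 n3833 .nil)))
noncomputable def n3835 : Strat := .move 796 n2050 (.cons 755 n2074 (.cons 795 n2819 .nil))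
noncomputable def n3836 : Strat := .move 881 n1331 (.cons 922 n860 .nil)
noncomputable def n3837 : Strat := .move 716 n1019 (.cons 675 n1069 .nil)
noncomputable def n3838 : Strat := .move 716 n1019 (.cons 675 n2082 .nil)
noncomputable def n3839 : Strat := .move 717 n2083 (.cons 758 n3838 .nil)
noncomputable def n3840 : Strat := .move 879 n384 (.cons 878 n382 .nil)
noncomputable def n3841 : Strat := .move 758 n224 (.cons 717 n3840 .nil)
noncomputable def n3842 : Strat := .move 881 n1331 (.cons 922 n3841 .nil)
noncomputable def n3843 : Strat := .move 757 n3836 (.cons 922 n3837 (.cons 881 n3839 (.cons 716 n3842 .nil)))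
noncomputable def n3844 : Strat := .move 880 n2156 (.cons 962 n2154 (.cons 758 n3046 (.cons 921 n3843 .nil)))
noncomputable def n3845 : Strat := .move 839 n823 (.cons 842 n3844 .nil)
noncomputable def n3846 : Strat := .move 963 n935 (.cons 800 n1 .nil)
noncomputable def n3847 : Strat := .move 922 n0 (.cons 757 n3846 .nil)
noncomputable def n3848 : Strat := .move 879 n28 (.cons 924 n27 .nil)
noncomputable def n3849 : Strat := .move 923 n25 (.cons 964 n3848 .nil)
noncomputable def n3850 : Strat := .move 880 n26 (.cons 758 n3849 .nil)
noncomputable def n3851 : Strat := .move 921 n7 (.cons 962 n3850 .nil)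
noncomputable def n3852 : Strat := .move 922 n3846 (.cons 963 n3851 .nil)
noncomputable def n3853 : Strat := .move 963 n935 (.cons 800 n16 .nil)
noncomputable def n3854 : Strat := .move 922 n0 (.cons 757 n3853 .nil)
noncomputable def n3855 : Strat := .move 676 n722 (.cons 635 n1312 .nil)
noncomputable def n3856 : Strat := .move 717 n35 (.cons 839 n3855 .nil)
noncomputable def n3857 : Strat := .move 880 n34 (.cons 921 n3856 .nil)
noncomputable def n3858 : Strat := .move 757 n46 (.cons 716 n3857 .nil)
noncomputable def n3859 : Strat := .move 677 n148 (.cons 636 n147 .nil)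
noncomputable def n3860 : Strat := .move 676 n1312 (.cons 800 n3859 .nil)
noncomputable def n3861 : Strat := .move 717 n35 (.cons 839 n3860 .nil)
noncomputable def n3862 : Strat := .move 880 n34 (.cons 921 n3861 .nil)
noncomputable def n3863 : Strat := .move 879 n382 (.cons 920 n384 .nil)
noncomputable def n3864 : Strat := .move 839 n370 (.cons 715 n3863 .nil)
noncomputable def n3865 : Strat := .move 756 n429 (.cons 800 n3864 .nil)
noncomputable def n3866 : Strat := .move 880 n34 (.cons 921 n3865 .nil)
noncomputable def n3867 : Strat := .move 757 n46 (.cons 716 n3866 .nil)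
noncomputable def n3868 : Strat := .move 717 n42 (.cons 675 n3860 .nil)
noncomputable def n3869 : Strat := .move 716 n41 (.cons 757 n3868 .nil)
noncomputable def n3870 : Strat := .move 758 n3858 (.cons 635 n45 (.cons 757 n3862 (.cons 717 n3867 (.cons 839 n3869 .nil))))
noncomputable def n3871 : Strat := .move 881 n3847 (.cons 757 n3852 (.cons 963 n3648 (.cons 839 n3854 (.cons 922 n3870 .nil))))
noncomputable def n3872 : Strat := .move 841 n3845 (.cons 839 n2835 (.cons 842 n3871 .nil))
noncomputable def n3873 : Strat := .move 797 n2051 (.cons 841 n3835 (.cons 755 n2075 (.cons 795 n2867 (.cons 796 n3872 .nil))))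
noncomputable def n3874 : Strat := .move 922 n17 (.cons 921 n23 (.cons 963 n110 .nil))
noncomputable def n3875 : Strat := .move 800 n260 (.cons 801 n47 .nil)
noncomputable def n3876 : Strat := .move 756 n370 (.cons 715 n3875 .nil)
noncomputable def n3877 : Strat := .move 839 n224 (.cons 717 n3876 .nil)
noncomputable def n3878 : Strat := .move 880 n34 (.cons 921 n3877 .nil)
noncomputable def n3879 : Strat := .move 758 n46 (.cons 716 n3878 .nil)
noncomputable def n3880 : Strat := .move 839 n370 (.cons 715 n2790 .nil)
noncomputable def n3881 : Strat := .move 921 n26 (.cons 758 n1260 .nil)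
noncomputable def n3882 : Strat := .move 838 n2801 (.cons 921 n863 .nil)
noncomputable def n3883 : Strat := .move 879 n384 (.cons 878 n3882 .nil)
noncomputable def n3884 : Strat := .move 880 n3880 (.cons 715 n3881 (.cons 839 n3883 (.cons 921 n3864 .nil)))
noncomputable def n3885 : Strat := .move 756 n3448 (.cons 754 n3527 (.cons 755 n3884 .nil))
noncomputable def n3886 : Strat := .move 797 n74 (.cons 796 n3885 .nil)
noncomputable def n3887 : Strat := .move 880 n475 (.cons 879 n3633 .nil)
noncomputable def n3888 : Strat := .move 839 n944 (.cons 797 n3887 .nil)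
noncomputable def n3889 : Strat := .move 842 n514 (.cons 843 n3888 .nil)
noncomputable def n3890 : Strat := .move 800 n258 (.cons 756 n115 .nil)
noncomputable def n3891 : Strat := .move 801 n1074 (.cons 802 n3890 .nil)
noncomputable def n3892 : Strat := .move 839 n3887 (.cons 880 n3891 .nil)
noncomputable def n3893 : Strat := .move 842 n514 (.cons 843 n3892 .nil)
noncomputable def n3894 : Strat := .move 841 n3032 (.cons 842 n3886 (.cons 796 n3889 (.cons 797 n3893 .nil)))
noncomputable def n3895 : Strat := .move 757 n3879 (.cons 758 n3647 (.cons 839 n3645 (.cons 716 n3894 .nil)))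
noncomputable def n3896 : Strat := .move 881 n1234 (.cons 757 n3874 (.cons 839 n3646 (.cons 922 n3895 .nil)))
noncomputable def n3897 : Strat := .move 796 n2074 (.cons 837 n2050 (.cons 795 n3576 .nil))
noncomputable def n3898 : Strat := .move 839 n83 (.cons 801 n1089 .nil)
noncomputable def n3899 : Strat := .move 838 n82 (.cons 837 n3898 .nil)
noncomputable def n3900 : Strat := .move 841 n75 (.cons 842 n3899 .nil)
noncomputable def n3901 : Strat := .move 802 n451 (.cons 762 n121 .nil)
noncomputable def n3902 : Strat := .move 761 n125 (.cons 760 n3901 .nil)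
noncomputable def n3903 : Strat := .move 801 n320 (.cons 839 n3902 .nil)
noncomputable def n3904 : Strat := .move 838 n82 (.cons 837 n3903 .nil)
noncomputable def n3905 : Strat := .move 716 n1039 (.cons 675 n825 .nil)
noncomputable def n3906 : Strat := .move 879 n863 (.cons 920 n1087 .nil)
noncomputable def n3907 : Strat := .move 878 n427 (.cons 877 n2158 .nil)
noncomputable def n3908 : Strat := .move 879 n382 (.cons 920 n3907 .nil)
noncomputable def n3909 : Strat := .move 880 n2156 (.cons 962 n2154 (.cons 921 n3908 .nil))
noncomputable def n3910 : Strat := .move 716 n1039 (.cons 675 n1069 .nil)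
noncomputable def n3911 : Strat := .move 757 n3905 (.cons 675 n3906 (.cons 716 n3909 (.cons 879 n3910 .nil)))
noncomputable def n3912 : Strat := .move 839 n83 (.cons 801 n3911 .nil)
noncomputable def n3913 : Strat := .move 838 n82 (.cons 837 n3912 .nil)
noncomputable def n3914 : Strat := .move 716 n1039 (.cons 675 n3396 .nil)
noncomputable def n3915 : Strat := .move 716 n1039 (.cons 675 n3398 .nil)
noncomputable def n3916 : Strat := .move 878 n3436 (.cons 880 n3067 .nil)
noncomputable def n3917 : Strat := .move 879 n863 (.cons 920 n3916 .nil)
noncomputable def n3918 : Strat := .move 881 n257 (.cons 922 n3917 .nil)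
noncomputable def n3919 : Strat := .move 879 n863 (.cons 920 n3056 .nil)
noncomputable def n3920 : Strat := .move 716 n1039 (.cons 675 n3919 .nil)
noncomputable def n3921 : Strat := .move 757 n3914 (.cons 839 n3915 (.cons 716 n3918 (.cons 881 n3920 .nil)))
noncomputable def n3922 : Strat := .move 838 n82 (.cons 837 n3921 .nil)
noncomputable def n3923 : Strat := .move 841 n75 (.cons 842 n3922 .nil)
noncomputable def n3924 : Strat := .move 841 n75 (.cons 842 n3758 .nil)
noncomputable def n3925 : Strat := .move 757 n2089 (.cons 758 n3624 .nil)
noncomputable def n3926 : Strat := .move 802 n451 (.cons 762 n3925 .nil)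
noncomputable def n3927 : Strat := .move 761 n125 (.cons 760 n3926 .nil)
noncomputable def n3928 : Strat := .move 801 n466 (.cons 841 n3902 (.cons 843 n3924 (.cons 842 n3927 .nil)))
noncomputable def n3929 : Strat := .move 838 n82 (.cons 837 n3928 .nil)
noncomputable def n3930 : Strat := .move 800 n3900 (.cons 841 n3904 (.cons 838 n3607 (.cons 842 n3913 (.cons 801 n3923 (.cons 839 n3929 .nil)))))
noncomputable def n3931 : Strat := .move 797 n2075 (.cons 841 n3897 (.cons 839 n2867 (.cons 796 n3930 .nil)))
noncomputable def n3932 : Strat := .win 880 4 838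
noncomputable def n3933 : Strat := .move 879 n3932 (.cons 880 n862 .nil)
noncomputable def n3934 : Strat := .move 838 n1075 (.cons 800 n3933 .nil)
noncomputable def n3935 : Strat := .move 801 n1074 (.cons 802 n3934 .nil)
noncomputable def n3936 : Strat := .move 839 n2837 (.cons 921 n3935 (.cons 879 n1175 .nil))
noncomputable def n3937 : Strat := .move 842 n514 (.cons 843 n3936 .nil)
noncomputable def n3938 : Strat := .move 838 n1084 (.cons 801 n1086 (.cons 800 n2883 .nil))
noncomputable def n3939 : Strat := .move 839 n823 (.cons 842 n3938 .nil)
noncomputable def n3940 : Strat := .move 797 n74 (.cons 796 n3939 .nil)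
noncomputable def n3941 : Strat := .move 880 n475 (.cons 879 n2156 .nil)
noncomputable def n3942 : Strat := .move 839 n944 (.cons 797 n3941 .nil)
noncomputable def n3943 : Strat := .move 842 n514 (.cons 843 n3942 .nil)
noncomputable def n3944 : Strat := .move 838 n825 (.cons 879 n1084 .nil)
noncomputable def n3945 : Strat := .move 717 n2083 (.cons 758 n2082 .nil)
noncomputable def n3946 : Strat := .move 758 n1329 (.cons 921 n224 .nil)
noncomputable def n3947 : Strat := .win 756 6 715
noncomputable def n3948 : Strat := .move 715 n3947 (.cons 756 n153 .nil)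
noncomputable def n3949 : Strat := .move 880 n3945 (.cons 676 n3946 (.cons 758 n3948 .nil))
noncomputable def n3950 : Strat := .move 838 n825 (.cons 879 n3949 .nil)
noncomputable def n3951 : Strat := .move 880 n2083 (.cons 758 n2308 .nil)
noncomputable def n3952 : Strat := .move 717 n2082 (.cons 676 n3951 .nil)
noncomputable def n3953 : Strat := .move 839 n3944 (.cons 800 n3950 (.cons 879 n3952 .nil))
noncomputable def n3954 : Strat := .move 716 n1019 (.cons 675 n3953 .nil)
noncomputable def n3955 : Strat := .move 801 n258 (.cons 756 n320 .nil)
noncomputable def n3956 : Strat := .move 800 n82 (.cons 837 n3955 .nil)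
noncomputable def n3957 : Strat := .move 921 n3062 (.cons 756 n26 .nil)
noncomputable def n3958 : Strat := .move 880 n384 (.cons 878 n3957 .nil)
noncomputable def n3959 : Strat := .move 879 n863 (.cons 920 n3958 .nil)
noncomputable def n3960 : Strat := .move 838 n3956 (.cons 801 n3053 (.cons 800 n3917 (.cons 839 n3959 .nil)))
noncomputable def n3961 : Strat := .move 881 n257 (.cons 922 n3960 .nil)
noncomputable def n3962 : Strat := .move 757 n3397 (.cons 839 n3399 (.cons 675 n3401 (.cons 922 n3403 (.cons 881 n3954 (.cons 716 n3961 .nil)))))
noncomputable def n3963 : Strat := .move 797 n74 (.cons 796 n3962 .nil)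
noncomputable def n3964 : Strat := .move 841 n3032 (.cons 797 n3937 (.cons 843 n3940 (.cons 800 n3943 (.cons 842 n3963 .nil))))
noncomputable def n3965 : Strat := .move 795 n2046 (.cons 839 n3454 .nil)
noncomputable def n3966 : Strat := .move 796 n3965 (.cons 839 n3455 (.cons 758 n3783 (.cons 795 n2817 .nil)))
noncomputable def n3967 : Strat := .move 755 n327 (.cons 754 n3966 .nil)
noncomputable def n3968 : Strat := .move 796 n579 (.cons 795 n126 .nil)
noncomputable def n3969 : Strat := .move 837 n127 (.cons 838 n3968 .nil)
noncomputable def n3970 : Strat := .move 800 n260 (.cons 801 n3969 .nil)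
noncomputable def n3971 : Strat := .move 839 n3785 (.cons 921 n991 (.cons 880 n3970 .nil))
noncomputable def n3972 : Strat := .move 756 n3820 (.cons 754 n3189 (.cons 800 n3967 (.cons 755 n3971 .nil)))
noncomputable def n3973 : Strat := .move 757 n3397 (.cons 839 n3399 (.cons 716 n3972 .nil))
noncomputable def n3974 : Strat := .move 756 n85 (.cons 755 n2851 .nil)
noncomputable def n3975 : Strat := .move 838 n82 (.cons 837 n3974 .nil)
noncomputable def n3976 : Strat := .move 801 n1177 (.cons 757 n116 .nil)
noncomputable def n3977 : Strat := .move 756 n85 (.cons 755 n3976 .nil)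
noncomputable def n3978 : Strat := .move 839 n857 (.cons 801 n3975 (.cons 837 n981 (.cons 838 n3977 .nil)))
noncomputable def n3979 : Strat := .move 841 n75 (.cons 842 n3978 .nil)
noncomputable def n3980 : Strat := .move 757 n1039 (.cons 675 n3813 .nil)
noncomputable def n3981 : Strat := .move 881 n1239 (.cons 758 n257 .nil)
noncomputable def n3982 : Strat := .move 757 n1039 (.cons 675 n3981 .nil)
noncomputable def n3983 : Strat := .win 757 1 674
noncomputable def n3984 : Strat := .win 715 3 674
noncomputable def n3985 : Strat := .move 675 n3983 (.cons 757 n3984 .nil)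
noncomputable def n3986 : Strat := .move 922 n512 (.cons 963 n0 .nil)
noncomputable def n3987 : Strat := .move 880 n26 (.cons 758 n1260 .nil)
noncomputable def n3988 : Strat := .move 922 n7 (.cons 962 n512 .nil)
noncomputable def n3989 : Strat := .move 921 n3987 (.cons 839 n3988 .nil)
noncomputable def n3990 : Strat := .move 757 n3395 (.cons 839 n257 .nil)
noncomputable def n3991 : Strat := .move 757 n1239 (.cons 758 n3395 .nil)
noncomputable def n3992 : Strat := .move 881 n3986 (.cons 757 n3989 (.cons 963 n3990 (.cons 922 n3991 .nil)))
noncomputable def n3993 : Strat := .move 715 n3070 (.cons 675 n2015 .nil)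
noncomputable def n3994 : Strat := .move 716 n3980 (.cons 839 n3982 (.cons 922 n3985 (.cons 675 n3992 (.cons 757 n3993 .nil))))
noncomputable def n3995 : Strat := .move 756 n85 (.cons 755 n3994 .nil)
noncomputable def n3996 : Strat := .move 838 n82 (.cons 837 n3995 .nil)
noncomputable def n3997 : Strat := .move 841 n75 (.cons 842 n3996 .nil)
noncomputable def n3998 : Strat := .move 800 n3979 (.cons 841 n2059 (.cons 838 n2869 (.cons 756 n3765 (.cons 801 n3997 .nil))))
noncomputable def n3999 : Strat := .move 797 n2051 (.cons 841 n3973 (.cons 754 n2867 (.cons 796 n3998 .nil)))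
noncomputable def n4000 : Strat := .move 839 n2837 (.cons 879 n1175 .nil)
noncomputable def n4001 : Strat := .move 842 n514 (.cons 843 n4000 .nil)
noncomputable def n4002 : Strat := .move 839 n857 (.cons 837 n981 (.cons 838 n3977 (.cons 801 n3975 .nil)))
noncomputable def n4003 : Strat := .move 757 n260 (.cons 801 n3397 .nil)
noncomputable def n4004 : Strat := .move 756 n85 (.cons 755 n4003 .nil)
noncomputable def n4005 : Strat := .move 757 n1039 (.cons 675 n1038 .nil)
noncomputable def n4006 : Strat := .move 757 n1038 (.cons 879 n3813 .nil)
noncomputable def n4007 : Strat := .move 716 n4005 (.cons 879 n3980 (.cons 757 n3993 (.cons 675 n4006 .nil)))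
noncomputable def n4008 : Strat := .move 756 n85 (.cons 755 n4007 .nil)
noncomputable def n4009 : Strat := .move 838 n82 (.cons 837 n4008 .nil)
noncomputable def n4010 : Strat := .move 800 n4002 (.cons 838 n4004 (.cons 756 n3760 (.cons 839 n2409 (.cons 801 n4009 .nil))))
noncomputable def n4011 : Strat := .move 797 n74 (.cons 796 n4010 .nil)
noncomputable def n4012 : Strat := .move 841 n3032 (.cons 797 n4001 (.cons 843 n3034 (.cons 800 n3943 (.cons 842 n4011 .nil))))
noncomputable def n4013 : Strat := .move 879 n382 (.cons 920 n1274 .nil)
noncomputable def n4014 : Strat := .move 758 n224 (.cons 717 n4013 .nil)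
noncomputable def n4015 : Strat := .move 880 n3633 (.cons 921 n4014 (.cons 717 n3637 (.cons 758 n3405 .nil)))
noncomputable def n4016 : Strat := .move 757 n860 (.cons 716 n4015 .nil)
noncomputable def n4017 : Strat := .move 839 n3632 (.cons 757 n3641 (.cons 922 n4016 .nil))
noncomputable def n4018 : Strat := .move 922 n3643 (.cons 921 n23 (.cons 923 n17 (.cons 839 n32 .nil)))
noncomputable def n4019 : Strat := .move 839 n224 (.cons 717 n4013 .nil)
noncomputable def n4020 : Strat := .move 880 n34 (.cons 921 n4019 .nil)
noncomputable def n4021 : Strat := .move 757 n46 (.cons 716 n4020 .nil)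
noncomputable def n4022 : Strat := .move 676 n148 (.cons 636 n3677 .nil)
noncomputable def n4023 : Strat := .move 677 n147 (.cons 718 n4022 .nil)
noncomputable def n4024 : Strat := .move 717 n35 (.cons 839 n4023 .nil)
noncomputable def n4025 : Strat := .move 880 n34 (.cons 921 n4024 .nil)
noncomputable def n4026 : Strat := .move 717 n43 (.cons 716 n4023 (.cons 757 n1497 (.cons 675 n3675 .nil)))
noncomputable def n4027 : Strat := .move 880 n34 (.cons 921 n4026 .nil)
noncomputable def n4028 : Strat := .move 880 n395 (.cons 839 n34 .nil)
noncomputable def n4029 : Strat := .move 715 n4028 (.cons 921 n2730 .nil)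
noncomputable def n4030 : Strat := .move 714 n328 (.cons 713 n4029 .nil)
noncomputable def n4031 : Strat := .move 796 n52 (.cons 795 n4030 .nil)
noncomputable def n4032 : Strat := .move 755 n327 (.cons 754 n4031 .nil)
noncomputable def n4033 : Strat := .move 838 n480 (.cons 800 n481 .nil)
noncomputable def n4034 : Strat := .win 838 5 796
noncomputable def n4035 : Strat := .move 800 n4034 (.cons 838 n260 .nil)
noncomputable def n4036 : Strat := .move 878 n3162 (.cons 836 n427 .nil)
noncomputable def n4037 : Strat := .move 837 n4033 (.cons 836 n4035 (.cons 800 n4036 .nil))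
noncomputable def n4038 : Strat := .move 879 n382 (.cons 920 n4037 .nil)
noncomputable def n4039 : Strat := .move 839 n370 (.cons 715 n4038 .nil)
noncomputable def n4040 : Strat := .move 880 n34 (.cons 921 n4039 .nil)
noncomputable def n4041 : Strat := .move 756 n429 (.cons 754 n623 (.cons 800 n4032 (.cons 755 n4040 .nil)))
noncomputable def n4042 : Strat := .move 757 n46 (.cons 716 n4041 .nil)
noncomputable def n4043 : Strat := .move 758 n4021 (.cons 757 n3653 (.cons 716 n4025 (.cons 880 n3656 (.cons 839 n4027 (.cons 717 n4042 .nil)))))
noncomputable def n4044 : Strat := .move 881 n4017 (.cons 757 n4018 (.cons 839 n3646 (.cons 758 n3648 (.cons 922 n4043 .nil))))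
noncomputable def n4045 : Strat := .move 798 n3431 (.cons 839 n3552 (.cons 757 n3631 (.cons 797 n3684 (.cons 881 n2894 (.cons 800 n3743 (.cons 716 n3767 (.cons 842 n3799 (.cons 880 n3834 (.cons 838 n3873 (.cons 837 n3896 (.cons 756 n3931 (.cons 755 n3964 (.cons 879 n3999 (.cons 878 n4012 (.cons 841 n4044 .nil)))))))))))))))
noncomputable def n4046 : Strat := .move 798 n115 (.cons 838 n1929 .nil)
noncomputable def n4047 : Strat := .move 801 n116 (.cons 802 n4046 .nil)
noncomputable def n4048 : Strat := .move 759 n9 (.cons 718 n315 .nil)
noncomputable def n4049 : Strat := .move 758 n337 (.cons 921 n270 (.cons 880 n4048 .nil))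
noncomputable def n4050 : Strat := .move 881 n257 (.cons 922 n4049 .nil)
noncomputable def n4051 : Strat := .move 757 n258 (.cons 756 n4050 .nil)
noncomputable def n4052 : Strat := .move 880 n3637 (.cons 962 n3633 (.cons 758 n1968 .nil))
noncomputable def n4053 : Strat := .move 881 n257 (.cons 922 n4052 .nil)
noncomputable def n4054 : Strat := .move 757 n258 (.cons 756 n4053 .nil)
noncomputable def n4055 : Strat := .move 842 n123 (.cons 843 n4054 .nil)
noncomputable def n4056 : Strat := .move 841 n513 (.cons 797 n2837 .nil)
noncomputable def n4057 : Strat := .move 842 n123 (.cons 843 n4056 .nil)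
noncomputable def n4058 : Strat := .move 798 n1929 (.cons 842 n4051 (.cons 797 n4055 (.cons 756 n4057 .nil)))
noncomputable def n4059 : Strat := .move 801 n116 (.cons 802 n4058 .nil)
noncomputable def n4060 : Strat := .move 798 n115 (.cons 838 n4051 .nil)
noncomputable def n4061 : Strat := .move 801 n116 (.cons 802 n4060 .nil)
noncomputable def n4062 : Strat := .move 798 n75 (.cons 842 n2792 .nil)
noncomputable def n4063 : Strat := .move 797 n494 (.cons 796 n4062 .nil)
noncomputable def n4064 : Strat := .win 798 2 798
noncomputable def n4065 : Strat := .move 843 n4064 (.cons 798 n1907 .nil)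
noncomputable def n4066 : Strat := .move 842 n3932 (.cons 880 n4065 .nil)
noncomputable def n4067 : Strat := .move 879 n862 (.cons 878 n4066 .nil)
noncomputable def n4068 : Strat := .move 881 n98 (.cons 922 n3200 .nil)
noncomputable def n4069 : Strat := .move 759 n958 (.cons 760 n4068 .nil)
noncomputable def n4070 : Strat := .move 798 n75 (.cons 842 n4069 .nil)
noncomputable def n4071 : Strat := .move 797 n494 (.cons 796 n4070 .nil)
noncomputable def n4072 : Strat := .move 921 n1891 (.cons 962 n3062 .nil)
noncomputable def n4073 : Strat := .move 756 n888 (.cons 715 n2801 .nil)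
noncomputable def n4074 : Strat := .move 755 n3274 (.cons 714 n1952 .nil)
noncomputable def n4075 : Strat := .move 756 n888 (.cons 715 n4074 .nil)
noncomputable def n4076 : Strat := .move 758 n1890 (.cons 881 n224 .nil)
noncomputable def n4077 : Strat := .move 921 n1891 (.cons 962 n4076 .nil)
noncomputable def n4078 : Strat := .move 880 n4072 (.cons 962 n4073 (.cons 921 n4075 (.cons 756 n4077 .nil)))
noncomputable def n4079 : Strat := .move 879 n862 (.cons 878 n4078 .nil)
noncomputable def n4080 : Strat := .move 797 n494 (.cons 796 n4079 .nil)
noncomputable def n4081 : Strat := .move 921 n1891 (.cons 962 n3313 .nil)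
noncomputable def n4082 : Strat := .move 880 n383 (.cons 842 n4081 .nil)
noncomputable def n4083 : Strat := .move 879 n862 (.cons 878 n4082 .nil)
noncomputable def n4084 : Strat := .move 841 n4063 (.cons 797 n4067 (.cons 880 n4071 (.cons 842 n4080 (.cons 798 n4083 .nil))))
noncomputable def n4085 : Strat := .move 838 n232 (.cons 837 n4084 .nil)
noncomputable def n4086 : Strat := .move 800 n4047 (.cons 838 n4059 (.cons 798 n1898 (.cons 802 n1897 (.cons 841 n4061 (.cons 801 n4085 .nil)))))
noncomputable def n4087 : Strat := .move 841 n1941 (.cons 801 n4071 .nil)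
noncomputable def n4088 : Strat := .move 800 n232 (.cons 837 n4087 .nil)
noncomputable def n4089 : Strat := .move 798 n126 (.cons 836 n3574 .nil)
noncomputable def n4090 : Strat := .move 797 n3291 (.cons 841 n4089 .nil)
noncomputable def n4091 : Strat := .move 796 n892 (.cons 795 n4090 .nil)
noncomputable def n4092 : Strat := .move 841 n1078 (.cons 879 n945 .nil)
noncomputable def n4093 : Strat := .move 878 n1077 (.cons 877 n4092 .nil)
noncomputable def n4094 : Strat := .move 798 n1076 (.cons 836 n4093 .nil)
noncomputable def n4095 : Strat := .move 756 n3080 (.cons 715 n2425 .nil)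
noncomputable def n4096 : Strat := .move 919 n3169 (.cons 756 n3587 .nil)
noncomputable def n4097 : Strat := .move 879 n2430 (.cons 920 n2530 .nil)
noncomputable def n4098 : Strat := .move 755 n78 (.cons 754 n4097 .nil)
noncomputable def n4099 : Strat := .move 798 n4095 (.cons 715 n4096 (.cons 756 n4098 .nil))
noncomputable def n4100 : Strat := .move 797 n3291 (.cons 841 n4099 .nil)
noncomputable def n4101 : Strat := .move 878 n1077 (.cons 877 n4100 .nil)
noncomputable def n4102 : Strat := .move 796 n892 (.cons 795 n4101 .nil)
noncomputable def n4103 : Strat := .win 798 5 795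
noncomputable def n4104 : Strat := .win 878 4 836
noncomputable def n4105 : Strat := .win 876 4 835
noncomputable def n4106 : Strat := .move 877 n4104 (.cons 878 n4105 .nil)
noncomputable def n4107 : Strat := .move 836 n4103 (.cons 798 n4106 .nil)
noncomputable def n4108 : Strat := .win 961 7 796
noncomputable def n4109 : Strat := .move 920 n4108 (.cons 961 n3164 .nil)
noncomputable def n4110 : Strat := .move 879 n2158 (.cons 841 n4109 .nil)
noncomputable def n4111 : Strat := .move 878 n1077 (.cons 877 n4110 .nil)
noncomputable def n4112 : Strat := .move 796 n892 (.cons 795 n4111 .nil)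
noncomputable def n4113 : Strat := .move 837 n4091 (.cons 796 n4094 (.cons 836 n4102 (.cons 797 n4107 (.cons 798 n4112 .nil))))
noncomputable def n4114 : Strat := .move 801 n116 (.cons 802 n840 .nil)
noncomputable def n4115 : Strat := .move 800 n232 (.cons 837 n4114 .nil)
noncomputable def n4116 : Strat := .win 796 2 795
noncomputable def n4117 : Strat := .win 794 2 794
noncomputable def n4118 : Strat := .move 795 n4116 (.cons 796 n4117 .nil)
noncomputable def n4119 : Strat := .move 836 n4103 (.cons 798 n4118 .nil)
noncomputable def n4120 : Strat := .move 837 n480 (.cons 800 n4119 .nil)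
noncomputable def n4121 : Strat := .move 800 n1941 (.cons 801 n4071 .nil)
noncomputable def n4122 : Strat := .move 798 n823 (.cons 842 n2889 .nil)
noncomputable def n4123 : Strat := .move 797 n494 (.cons 796 n4122 .nil)
noncomputable def n4124 : Strat := .move 884 n1363 (.cons 883 n1364 .nil)
noncomputable def n4125 : Strat := .move 843 n4064 (.cons 798 n4124 .nil)
noncomputable def n4126 : Strat := .move 842 n1074 (.cons 802 n4125 .nil)
noncomputable def n4127 : Strat := .move 801 n3300 (.cons 800 n4126 .nil)
noncomputable def n4128 : Strat := .move 718 n308 (.cons 677 n1878 .nil)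
noncomputable def n4129 : Strat := .move 881 n3200 (.cons 718 n98 .nil)
noncomputable def n4130 : Strat := .move 798 n958 (.cons 760 n2853 .nil)
noncomputable def n4131 : Strat := .move 759 n4128 (.cons 677 n4129 (.cons 881 n4130 .nil))
noncomputable def n4132 : Strat := .move 879 n862 (.cons 878 n4131 .nil)
noncomputable def n4133 : Strat := .move 797 n494 (.cons 796 n4132 .nil)
noncomputable def n4134 : Strat := .move 800 n1941 (.cons 801 n4133 .nil)
noncomputable def n4135 : Strat := .move 800 n1941 (.cons 801 n1909 .nil)
noncomputable def n4136 : Strat := .win 801 5 798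
noncomputable def n4137 : Strat := .win 803 5 799
noncomputable def n4138 : Strat := .move 843 n4137 (.cons 803 n1908 .nil)
noncomputable def n4139 : Strat := .move 802 n4136 (.cons 801 n4138 .nil)
noncomputable def n4140 : Strat := .move 842 n3301 (.cons 802 n4135 (.cons 800 n4139 (.cons 801 n1371 .nil)))
noncomputable def n4141 : Strat := .move 797 n494 (.cons 796 n4140 .nil)
noncomputable def n4142 : Strat := .move 879 n862 (.cons 878 n4141 .nil)
noncomputable def n4143 : Strat := .move 841 n4121 (.cons 800 n4123 (.cons 797 n4127 (.cons 842 n4134 (.cons 798 n4142 .nil))))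
noncomputable def n4144 : Strat := .move 838 n4088 (.cons 800 n4113 (.cons 798 n4115 (.cons 841 n4120 (.cons 837 n4143 .nil))))
noncomputable def n4145 : Strat := .move 920 n3164 (.cons 755 n4108 .nil)
noncomputable def n4146 : Strat := .move 879 n2158 (.cons 841 n4145 .nil)
noncomputable def n4147 : Strat := .move 796 n892 (.cons 795 n4146 .nil)
noncomputable def n4148 : Strat := .move 878 n1077 (.cons 877 n4147 .nil)
noncomputable def n4149 : Strat := .move 837 n480 (.cons 800 n4148 .nil)
noncomputable def n4150 : Strat := .move 796 n892 (.cons 795 n2531 .nil)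
noncomputable def n4151 : Strat := .move 879 n2158 (.cons 841 n4150 .nil)
noncomputable def n4152 : Strat := .move 878 n1077 (.cons 877 n4151 .nil)
noncomputable def n4153 : Strat := .move 837 n481 (.cons 836 n4152 .nil)
noncomputable def n4154 : Strat := .move 881 n34 (.cons 921 n4153 .nil)
noncomputable def n4155 : Strat := .move 758 n224 (.cons 717 n4154 .nil)
noncomputable def n4156 : Strat := .win 879 4 877
noncomputable def n4157 : Strat := .move 918 n2561 (.cons 959 n4156 .nil)
noncomputable def n4158 : Strat := .move 797 n3169 (.cons 756 n3587 .nil)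
noncomputable def n4159 : Strat := .move 919 n4157 (.cons 879 n4158 .nil)
noncomputable def n4160 : Strat := .move 796 n892 (.cons 795 n4159 .nil)
noncomputable def n4161 : Strat := .move 878 n1077 (.cons 877 n4160 .nil)
noncomputable def n4162 : Strat := .move 837 n481 (.cons 836 n4161 .nil)
noncomputable def n4163 : Strat := .move 881 n34 (.cons 921 n4162 .nil)
noncomputable def n4164 : Strat := .move 758 n224 (.cons 717 n4163 .nil)
noncomputable def n4165 : Strat := .move 758 n224 (.cons 717 n1890 .nil)
noncomputable def n4166 : Strat := .move 921 n1891 (.cons 962 n4165 .nil)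
noncomputable def n4167 : Strat := .move 841 n494 (.cons 796 n383 .nil)
noncomputable def n4168 : Strat := .move 797 n3062 (.cons 756 n4167 .nil)
noncomputable def n4169 : Strat := .win 755 7 755
noncomputable def n4170 : Strat := .win 794 0 794
noncomputable def n4171 : Strat := .win 837 2 795
noncomputable def n4172 : Strat := .move 795 n4170 (.cons 794 n4171 .nil)
noncomputable def n4173 : Strat := .move 796 n4169 (.cons 755 n4172 .nil)
noncomputable def n4174 : Strat := .win 919 1 796
noncomputable def n4175 : Strat := .win 1001 1 837
noncomputable def n4176 : Strat := .win 1002 3 838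
noncomputable def n4177 : Strat := .move 961 n4175 (.cons 1001 n4176 .nil)
noncomputable def n4178 : Strat := .move 960 n4174 (.cons 919 n4177 .nil)
noncomputable def n4179 : Strat := .move 920 n4173 (.cons 796 n4178 .nil)
noncomputable def n4180 : Strat := .move 797 n3062 (.cons 756 n4179 .nil)
noncomputable def n4181 : Strat := .move 878 n427 (.cons 877 n4180 .nil)
noncomputable def n4182 : Strat := .move 879 n2159 (.cons 877 n2302 (.cons 878 n4168 (.cons 841 n4181 .nil)))
noncomputable def n4183 : Strat := .move 921 n1891 (.cons 962 n4182 .nil)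
noncomputable def n4184 : Strat := .win 881 0 836
noncomputable def n4185 : Strat := .win 835 0 835
noncomputable def n4186 : Strat := .move 836 n4184 (.cons 881 n4185 .nil)
noncomputable def n4187 : Strat := .move 796 n892 (.cons 795 n4145 .nil)
noncomputable def n4188 : Strat := .move 837 n4186 (.cons 881 n4187 .nil)
noncomputable def n4189 : Strat := .move 878 n427 (.cons 877 n4188 .nil)
noncomputable def n4190 : Strat := .move 837 n892 (.cons 795 n4186 .nil)
noncomputable def n4191 : Strat := .move 796 n3270 (.cons 797 n4190 .nil)
noncomputable def n4192 : Strat := .move 841 n383 (.cons 842 n4191 .nil)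
noncomputable def n4193 : Strat := .move 879 n2159 (.cons 877 n2302 (.cons 841 n4189 (.cons 878 n4192 .nil)))
noncomputable def n4194 : Strat := .move 880 n4155 (.cons 841 n4164 (.cons 879 n4166 (.cons 881 n4183 (.cons 921 n4193 .nil))))
noncomputable def n4195 : Strat := .move 755 n2530 (.cons 714 n2430 .nil)
noncomputable def n4196 : Strat := .move 836 n4185 (.cons 835 n4184 .nil)
noncomputable def n4197 : Strat := .move 797 n2801 (.cons 921 n3068 .nil)
noncomputable def n4198 : Strat := .move 880 n4196 (.cons 881 n4197 .nil)
noncomputable def n4199 : Strat := .move 756 n2424 (.cons 715 n4198 .nil)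
noncomputable def n4200 : Strat := .move 755 n2530 (.cons 714 n4199 .nil)
noncomputable def n4201 : Strat := .win 756 1 755
noncomputable def n4202 : Strat := .move 797 n4201 (.cons 756 n3093 .nil)
noncomputable def n4203 : Strat := .win 917 5 876
noncomputable def n4204 : Strat := .move 918 n4203 (.cons 917 n2561 .nil)
noncomputable def n4205 : Strat := .move 880 n4196 (.cons 881 n4204 .nil)
noncomputable def n4206 : Strat := .move 919 n4202 (.cons 960 n4205 .nil)
noncomputable def n4207 : Strat := .move 920 n4108 (.cons 961 n4206 .nil)
noncomputable def n4208 : Strat := .move 879 n4145 (.cons 961 n4195 (.cons 920 n4200 (.cons 755 n4207 .nil)))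
noncomputable def n4209 : Strat := .move 796 n892 (.cons 795 n4208 .nil)
noncomputable def n4210 : Strat := .move 878 n1077 (.cons 877 n4209 .nil)
noncomputable def n4211 : Strat := .move 837 n480 (.cons 800 n4210 .nil)
noncomputable def n4212 : Strat := .move 879 n862 (.cons 878 n383 .nil)
noncomputable def n4213 : Strat := .move 755 n3274 (.cons 714 n1953 .nil)
noncomputable def n4214 : Strat := .move 756 n888 (.cons 715 n4213 .nil)
noncomputable def n4215 : Strat := .move 797 n494 (.cons 796 n4214 .nil)
noncomputable def n4216 : Strat := .move 800 n1941 (.cons 801 n4215 .nil)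
noncomputable def n4217 : Strat := .move 879 n862 (.cons 878 n4216 .nil)
noncomputable def n4218 : Strat := .move 842 n475 (.cons 879 n3301 .nil)
noncomputable def n4219 : Strat := .move 843 n1948 (.cons 881 n1908 .nil)
noncomputable def n4220 : Strat := .move 842 n1074 (.cons 802 n4219 .nil)
noncomputable def n4221 : Strat := .move 801 n3300 (.cons 800 n4220 .nil)
noncomputable def n4222 : Strat := .move 841 n4212 (.cons 842 n4217 (.cons 878 n4218 (.cons 879 n4221 .nil)))
noncomputable def n4223 : Strat := .move 758 n224 (.cons 717 n4222 .nil)
noncomputable def n4224 : Strat := .move 879 n862 (.cons 878 n3313 .nil)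
noncomputable def n4225 : Strat := .move 843 n1364 (.cons 885 n1948 .nil)
noncomputable def n4226 : Strat := .move 884 n1363 (.cons 883 n4225 .nil)
noncomputable def n4227 : Strat := .move 842 n1074 (.cons 802 n4226 .nil)
noncomputable def n4228 : Strat := .move 801 n3300 (.cons 800 n4227 .nil)
noncomputable def n4229 : Strat := .move 841 n4212 (.cons 842 n4224 (.cons 878 n4218 (.cons 879 n4228 .nil)))
noncomputable def n4230 : Strat := .move 921 n1891 (.cons 962 n4229 .nil)
noncomputable def n4231 : Strat := .move 756 n888 (.cons 715 n3609 .nil)
noncomputable def n4232 : Strat := .move 755 n52 (.cons 795 n50 .nil)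
noncomputable def n4233 : Strat := .move 757 n264 (.cons 759 n4232 .nil)
noncomputable def n4234 : Strat := .move 756 n888 (.cons 715 n4233 .nil)
noncomputable def n4235 : Strat := .move 796 n3291 (.cons 841 n4234 .nil)
noncomputable def n4236 : Strat := .move 841 n494 (.cons 796 n4212 .nil)
noncomputable def n4237 : Strat := .move 797 n4231 (.cons 879 n4235 (.cons 756 n4236 .nil))
noncomputable def n4238 : Strat := .move 758 n224 (.cons 717 n4237 .nil)
noncomputable def n4239 : Strat := .move 921 n1891 (.cons 962 n4238 .nil)
noncomputable def n4240 : Strat := .move 880 n4166 (.cons 921 n4223 (.cons 758 n4230 (.cons 881 n4239 .nil)))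
noncomputable def n4241 : Strat := .move 838 n4149 (.cons 800 n4194 (.cons 841 n4211 (.cons 878 n4115 (.cons 837 n4240 .nil))))
noncomputable def n4242 : Strat := .move 921 n1891 (.cons 962 n1890 .nil)
noncomputable def n4243 : Strat := .move 758 n224 (.cons 717 n4242 .nil)
noncomputable def n4244 : Strat := .move 881 n225 (.cons 757 n3258 .nil)
noncomputable def n4245 : Strat := .move 922 n3714 (.cons 963 n4244 .nil)
noncomputable def n4246 : Strat := .move 881 n225 (.cons 757 n3849 .nil)
noncomputable def n4247 : Strat := .move 922 n3714 (.cons 963 n4246 .nil)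
noncomputable def n4248 : Strat := .move 798 n4245 (.cons 797 n4247 (.cons 757 n3258 .nil))
noncomputable def n4249 : Strat := .move 921 n1891 (.cons 962 n4248 .nil)
noncomputable def n4250 : Strat := .move 921 n1891 (.cons 962 n1938 .nil)
noncomputable def n4251 : Strat := .move 758 n224 (.cons 717 n4250 .nil)
noncomputable def n4252 : Strat := .move 922 n10 (.cons 800 n227 .nil)
noncomputable def n4253 : Strat := .move 881 n9 (.cons 718 n4252 .nil)
noncomputable def n4254 : Strat := .win 841 2 797
noncomputable def n4255 : Strat := .move 801 n123 (.cons 843 n116 .nil)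
noncomputable def n4256 : Strat := .win 757 7 715
noncomputable def n4257 : Strat := .move 715 n553 (.cons 674 n4256 .nil)
noncomputable def n4258 : Strat := .move 756 n85 (.cons 755 n4257 .nil)
noncomputable def n4259 : Strat := .move 800 n4255 (.cons 802 n4258 .nil)
noncomputable def n4260 : Strat := .move 842 n4254 (.cons 841 n4259 .nil)
noncomputable def n4261 : Strat := .move 797 n313 (.cons 796 n4260 .nil)
noncomputable def n4262 : Strat := .move 757 n297 (.cons 797 n1274 .nil)
noncomputable def n4263 : Strat := .move 760 n298 (.cons 761 n4262 .nil)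
noncomputable def n4264 : Strat := .move 842 n124 (.cons 841 n4255 .nil)
noncomputable def n4265 : Strat := .move 800 n958 (.cons 760 n4264 .nil)
noncomputable def n4266 : Strat := .move 797 n313 (.cons 796 n4265 .nil)
noncomputable def n4267 : Strat := .win 800 4 798
noncomputable def n4268 : Strat := .win 757 0 757
noncomputable def n4269 : Strat := .move 802 n4267 (.cons 800 n4268 .nil)
noncomputable def n4270 : Strat := .move 800 n116 (.cons 802 n1029 .nil)
noncomputable def n4271 : Strat := .move 841 n514 (.cons 843 n475 .nil)
noncomputable def n4272 : Strat := .move 843 n1641 (.cons 800 n1640 .nil)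
noncomputable def n4273 : Strat := .move 677 n1011 (.cons 800 n293 .nil)
noncomputable def n4274 : Strat := .move 718 n1027 (.cons 883 n4273 .nil)
noncomputable def n4275 : Strat := .move 842 n4271 (.cons 879 n4272 (.cons 843 n4274 .nil))
noncomputable def n4276 : Strat := .move 719 n2476 (.cons 718 n409 .nil)
noncomputable def n4277 : Strat := .move 756 n370 (.cons 715 n4276 .nil)
noncomputable def n4278 : Strat := .move 757 n325 (.cons 802 n4277 .nil)
noncomputable def n4279 : Strat := .move 801 n4269 (.cons 757 n4270 (.cons 802 n4275 (.cons 800 n4278 .nil)))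
noncomputable def n4280 : Strat := .move 760 n298 (.cons 761 n4279 .nil)
noncomputable def n4281 : Strat := .move 798 n1018 (.cons 760 n4261 (.cons 796 n4263 (.cons 757 n4266 (.cons 797 n4280 .nil))))
noncomputable def n4282 : Strat := .move 881 n1331 (.cons 922 n1274 .nil)
noncomputable def n4283 : Strat := .move 879 n382 (.cons 920 n428 .nil)
noncomputable def n4284 : Strat := .move 881 n1331 (.cons 922 n4283 .nil)
noncomputable def n4285 : Strat := .move 756 n370 (.cons 715 n49 .nil)
noncomputable def n4286 : Strat := .move 757 n4282 (.cons 756 n4284 (.cons 881 n4285 .nil))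
noncomputable def n4287 : Strat := .move 798 n1018 (.cons 797 n4286 (.cons 757 n4266 .nil))
noncomputable def n4288 : Strat := .move 922 n10 (.cons 800 n231 .nil)
noncomputable def n4289 : Strat := .move 881 n9 (.cons 718 n4288 .nil)
noncomputable def n4290 : Strat := .move 881 n9 (.cons 718 n1331 .nil)
noncomputable def n4291 : Strat := .move 757 n168 (.cons 760 n4290 .nil)
noncomputable def n4292 : Strat := .move 797 n313 (.cons 796 n4291 .nil)
noncomputable def n4293 : Strat := .move 881 n9 (.cons 718 n1018 .nil)
noncomputable def n4294 : Strat := .move 881 n9 (.cons 718 n884 .nil)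
noncomputable def n4295 : Strat := .move 841 n944 (.cons 797 n475 .nil)
noncomputable def n4296 : Strat := .move 797 n4254 (.cons 841 n313 .nil)
noncomputable def n4297 : Strat := .move 801 n2908 (.cons 719 n1027 .nil)
noncomputable def n4298 : Strat := .move 842 n4295 (.cons 879 n4296 (.cons 797 n4271 (.cons 841 n4297 .nil)))
noncomputable def n4299 : Strat := .move 677 n293 (.cons 636 n4298 .nil)
noncomputable def n4300 : Strat := .move 760 n298 (.cons 761 n4299 .nil)
noncomputable def n4301 : Strat := .move 718 n209 (.cons 881 n4300 .nil)
noncomputable def n4302 : Strat := .move 798 n4292 (.cons 922 n4293 (.cons 797 n4294 (.cons 881 n1018 (.cons 757 n4301 .nil))))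
noncomputable def n4303 : Strat := .move 759 n4253 (.cons 881 n4281 (.cons 718 n4287 (.cons 798 n4289 (.cons 800 n4302 .nil))))
noncomputable def n4304 : Strat := .move 758 n224 (.cons 717 n4303 .nil)
noncomputable def n4305 : Strat := .move 880 n4243 (.cons 758 n4249 (.cons 881 n4251 (.cons 921 n4304 .nil)))
noncomputable def n4306 : Strat := .move 921 n1891 (.cons 962 n2155 .nil)
noncomputable def n4307 : Strat := .win 881 6 757
noncomputable def n4308 : Strat := .move 922 n4307 (.cons 881 n3715 .nil)
noncomputable def n4309 : Strat := .move 756 n370 (.cons 715 n47 .nil)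
noncomputable def n4310 : Strat := .move 758 n224 (.cons 717 n4309 .nil)
noncomputable def n4311 : Strat := .move 757 n2154 (.cons 717 n4306 (.cons 758 n4308 (.cons 921 n4310 .nil)))
noncomputable def n4312 : Strat := .win 881 3 758
noncomputable def n4313 : Strat := .move 759 n958 (.cons 760 n4312 .nil)
noncomputable def n4314 : Strat := .move 922 n3714 (.cons 963 n4313 .nil)
noncomputable def n4315 : Strat := .move 797 n3045 (.cons 756 n4314 .nil)
noncomputable def n4316 : Strat := .move 921 n1891 (.cons 962 n4315 .nil)
noncomputable def n4317 : Strat := .move 797 n958 (.cons 760 n313 .nil)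
noncomputable def n4318 : Strat := .move 881 n98 (.cons 922 n9 .nil)
noncomputable def n4319 : Strat := .move 759 n4317 (.cons 796 n4318 .nil)
noncomputable def n4320 : Strat := .move 758 n224 (.cons 717 n4319 .nil)
noncomputable def n4321 : Strat := .move 880 n4311 (.cons 881 n4306 (.cons 962 n2154 (.cons 758 n4316 (.cons 921 n4320 .nil))))
noncomputable def n4322 : Strat := .move 798 n83 (.cons 801 n4321 .nil)
noncomputable def n4323 : Strat := .move 800 n232 (.cons 837 n4322 .nil)
noncomputable def n4324 : Strat := .move 797 n4095 (.cons 715 n4096 (.cons 756 n4098 .nil))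
noncomputable def n4325 : Strat := .move 878 n1077 (.cons 877 n4324 .nil)
noncomputable def n4326 : Strat := .move 796 n892 (.cons 795 n4325 .nil)
noncomputable def n4327 : Strat := .move 798 n1076 (.cons 836 n4326 .nil)
noncomputable def n4328 : Strat := .move 879 n2530 (.cons 714 n2430 .nil)
noncomputable def n4329 : Strat := .move 754 n3170 (.cons 798 n2553 .nil)
noncomputable def n4330 : Strat := .move 797 n2425 (.cons 919 n4329 .nil)
noncomputable def n4331 : Strat := .move 756 n2424 (.cons 715 n4330 .nil)
noncomputable def n4332 : Strat := .move 755 n4328 (.cons 879 n4331 .nil)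
noncomputable def n4333 : Strat := .move 878 n1077 (.cons 877 n4332 .nil)
noncomputable def n4334 : Strat := .move 796 n892 (.cons 795 n4333 .nil)
noncomputable def n4335 : Strat := .move 837 n4327 (.cons 796 n4107 (.cons 878 n4119 (.cons 836 n4334 (.cons 798 n4210 .nil))))
noncomputable def n4336 : Strat := .move 837 n480 (.cons 800 n4107 .nil)
noncomputable def n4337 : Strat := .move 800 n83 (.cons 801 n2 .nil)
noncomputable def n4338 : Strat := .move 881 n225 (.cons 757 n4337 .nil)
noncomputable def n4339 : Strat := .move 922 n3714 (.cons 963 n4338 .nil)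
noncomputable def n4340 : Strat := .move 759 n4312 (.cons 881 n958 .nil)
noncomputable def n4341 : Strat := .move 800 n83 (.cons 801 n4340 .nil)
noncomputable def n4342 : Strat := .move 922 n3714 (.cons 963 n4341 .nil)
noncomputable def n4343 : Strat := .move 797 n3045 (.cons 756 n4342 .nil)
noncomputable def n4344 : Strat := .move 757 n4307 (.cons 881 n3260 .nil)
noncomputable def n4345 : Strat := .move 922 n3714 (.cons 963 n4344 .nil)
noncomputable def n4346 : Strat := .move 796 n4169 (.cons 755 n579 .nil)
noncomputable def n4347 : Strat := .move 879 n485 (.cons 757 n4346 .nil)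
noncomputable def n4348 : Strat := .move 920 n2135 (.cons 961 n4347 .nil)
noncomputable def n4349 : Strat := .move 797 n3045 (.cons 756 n4348 .nil)
noncomputable def n4350 : Strat := .move 798 n4339 (.cons 757 n4343 (.cons 759 n4345 (.cons 922 n4349 .nil)))
noncomputable def n4351 : Strat := .move 921 n1891 (.cons 962 n4350 .nil)
noncomputable def n4352 : Strat := .move 758 n224 (.cons 717 n1939 .nil)
noncomputable def n4353 : Strat := .move 798 n2155 (.cons 758 n4349 .nil)
noncomputable def n4354 : Strat := .move 921 n1891 (.cons 962 n4353 .nil)
noncomputable def n4355 : Strat := .move 797 n313 (.cons 796 n3583 .nil)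
noncomputable def n4356 : Strat := .move 800 n83 (.cons 801 n789 .nil)
noncomputable def n4357 : Strat := .move 801 n325 (.cons 802 n1075 .nil)
noncomputable def n4358 : Strat := .move 757 n4357 (.cons 800 n4277 .nil)
noncomputable def n4359 : Strat := .move 760 n298 (.cons 761 n4358 .nil)
noncomputable def n4360 : Strat := .move 798 n1018 (.cons 760 n4355 (.cons 796 n4356 (.cons 797 n4359 .nil)))
noncomputable def n4361 : Strat := .move 798 n313 (.cons 796 n1017 .nil)
noncomputable def n4362 : Strat := .move 798 n313 (.cons 796 n3583 .nil)
noncomputable def n4363 : Strat := .move 801 n243 (.cons 798 n116 .nil)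
noncomputable def n4364 : Strat := .move 798 n958 (.cons 760 n83 .nil)
noncomputable def n4365 : Strat := .move 757 n48 (.cons 801 n47 .nil)
noncomputable def n4366 : Strat := .move 798 n85 (.cons 755 n958 .nil)
noncomputable def n4367 : Strat := .move 800 n4363 (.cons 802 n4364 (.cons 798 n4365 (.cons 801 n4366 .nil)))
noncomputable def n4368 : Strat := .move 756 n888 (.cons 715 n4367 .nil)
noncomputable def n4369 : Strat := .move 757 n55 (.cons 796 n371 .nil)
noncomputable def n4370 : Strat := .move 756 n888 (.cons 715 n4369 .nil)
noncomputable def n4371 : Strat := .move 797 n4361 (.cons 760 n4362 (.cons 796 n4368 (.cons 798 n4370 .nil)))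
noncomputable def n4372 : Strat := .move 881 n1331 (.cons 922 n9 .nil)
noncomputable def n4373 : Strat := .move 757 n168 (.cons 760 n4372 .nil)
noncomputable def n4374 : Strat := .move 798 n313 (.cons 796 n4373 .nil)
noncomputable def n4375 : Strat := .move 757 n289 (.cons 719 n55 .nil)
noncomputable def n4376 : Strat := .move 718 n209 (.cons 881 n4375 .nil)
noncomputable def n4377 : Strat := .move 756 n888 (.cons 715 n4376 .nil)
noncomputable def n4378 : Strat := .move 878 n3068 (.cons 919 n427 .nil)
noncomputable def n4379 : Strat := .move 798 n484 (.cons 961 n485 .nil)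
noncomputable def n4380 : Strat := .move 920 n3095 (.cons 878 n4379 .nil)
noncomputable def n4381 : Strat := .move 718 n289 (.cons 719 n209 .nil)
noncomputable def n4382 : Strat := .move 798 n382 (.cons 920 n168 .nil)
noncomputable def n4383 : Strat := .move 757 n4381 (.cons 881 n4382 .nil)
noncomputable def n4384 : Strat := .move 879 n4378 (.cons 877 n4380 (.cons 919 n4383 .nil))
noncomputable def n4385 : Strat := .move 756 n888 (.cons 715 n4384 .nil)
noncomputable def n4386 : Strat := .win 798 5 755
noncomputable def n4387 : Strat := .move 755 n3274 (.cons 714 n2821 .nil)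
noncomputable def n4388 : Strat := .move 879 n4378 (.cons 877 n4387 .nil)
noncomputable def n4389 : Strat := .move 756 n888 (.cons 715 n4388 .nil)
noncomputable def n4390 : Strat := .move 796 n4386 (.cons 798 n4389 .nil)
noncomputable def n4391 : Strat := .move 797 n4374 (.cons 881 n4361 (.cons 798 n4377 (.cons 796 n4385 (.cons 757 n4390 .nil))))
noncomputable def n4392 : Strat := .move 759 n1013 (.cons 636 n4253 (.cons 881 n4360 (.cons 718 n4371 (.cons 800 n4391 .nil))))
noncomputable def n4393 : Strat := .move 758 n224 (.cons 717 n4392 .nil)
noncomputable def n4394 : Strat := .move 880 n4166 (.cons 758 n4351 (.cons 962 n4352 (.cons 881 n4354 (.cons 921 n4393 .nil))))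
noncomputable def n4395 : Strat := .move 838 n4323 (.cons 800 n4335 (.cons 798 n4211 (.cons 880 n4120 (.cons 796 n4336 (.cons 837 n4394 .nil)))))
noncomputable def n4396 : Strat := .move 797 n85 (.cons 755 n659 .nil)
noncomputable def n4397 : Strat := .move 756 n1177 (.cons 757 n4396 .nil)
noncomputable def n4398 : Strat := .move 880 n2156 (.cons 962 n3946 (.cons 758 n1968 .nil))
noncomputable def n4399 : Strat := .move 757 n258 (.cons 756 n4398 .nil)
noncomputable def n4400 : Strat := .move 760 n611 (.cons 761 n4399 .nil)
noncomputable def n4401 : Strat := .move 842 n123 (.cons 843 n4400 .nil)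
noncomputable def n4402 : Strat := .move 760 n611 (.cons 761 n1591 .nil)
noncomputable def n4403 : Strat := .move 797 n85 (.cons 755 n4402 .nil)
noncomputable def n4404 : Strat := .move 756 n1177 (.cons 757 n4403 .nil)
noncomputable def n4405 : Strat := .move 797 n124 (.cons 841 n4402 .nil)
noncomputable def n4406 : Strat := .move 842 n123 (.cons 843 n4405 .nil)
noncomputable def n4407 : Strat := .move 798 n1929 (.cons 842 n4397 (.cons 797 n4401 (.cons 841 n4404 (.cons 757 n4406 .nil))))
noncomputable def n4408 : Strat := .move 801 n116 (.cons 802 n4407 .nil)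
noncomputable def n4409 : Strat := .move 758 n1938 (.cons 798 n224 .nil)
noncomputable def n4410 : Strat := .move 921 n1891 (.cons 962 n4409 .nil)
noncomputable def n4411 : Strat := .move 880 n4072 (.cons 921 n4075 (.cons 756 n4410 .nil))
noncomputable def n4412 : Strat := .move 879 n862 (.cons 878 n4411 .nil)
noncomputable def n4413 : Strat := .move 797 n494 (.cons 796 n4412 .nil)
noncomputable def n4414 : Strat := .move 797 n494 (.cons 796 n4072 .nil)
noncomputable def n4415 : Strat := .move 880 n383 (.cons 842 n4414 .nil)
noncomputable def n4416 : Strat := .move 879 n862 (.cons 878 n4415 .nil)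
noncomputable def n4417 : Strat := .move 798 n75 (.cons 842 n2889 .nil)
noncomputable def n4418 : Strat := .move 797 n494 (.cons 796 n4417 .nil)
noncomputable def n4419 : Strat := .move 841 n4063 (.cons 797 n4067 (.cons 842 n4413 (.cons 798 n4416 (.cons 880 n4418 .nil))))
noncomputable def n4420 : Strat := .move 838 n232 (.cons 837 n4419 .nil)
noncomputable def n4421 : Strat := .move 800 n1895 (.cons 802 n1897 (.cons 837 n1900 (.cons 798 n1898 (.cons 838 n4408 (.cons 801 n4420 .nil)))))
noncomputable def n4422 : Strat := .move 800 n2 (.cons 759 n108 .nil)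
noncomputable def n4423 : Strat := .move 881 n225 (.cons 757 n4422 .nil)
noncomputable def n4424 : Strat := .move 922 n3714 (.cons 963 n4423 .nil)
noncomputable def n4425 : Strat := .move 798 n3258 (.cons 797 n4424 .nil)
noncomputable def n4426 : Strat := .move 921 n1891 (.cons 962 n4425 .nil)
noncomputable def n4427 : Strat := .move 841 n2454 (.cons 838 n3611 .nil)
noncomputable def n4428 : Strat := .move 878 n427 (.cons 877 n4427 .nil)
noncomputable def n4429 : Strat := .move 878 n2454 (.cons 838 n3611 .nil)
noncomputable def n4430 : Strat := .move 841 n383 (.cons 842 n4429 .nil)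
noncomputable def n4431 : Strat := .move 878 n427 (.cons 877 n3611 .nil)
noncomputable def n4432 : Strat := .move 841 n383 (.cons 842 n4431 .nil)
noncomputable def n4433 : Strat := .move 756 n370 (.cons 715 n3448 .nil)
noncomputable def n4434 : Strat := .move 757 n382 (.cons 920 n4433 .nil)
noncomputable def n4435 : Strat := .move 797 n74 (.cons 796 n4434 .nil)
noncomputable def n4436 : Strat := .win 838 3 797
noncomputable def n4437 : Strat := .move 961 n4436 (.cons 838 n4176 .nil)
noncomputable def n4438 : Strat := .move 920 n485 (.cons 757 n4437 .nil)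
noncomputable def n4439 : Strat := .move 797 n74 (.cons 796 n4438 .nil)
noncomputable def n4440 : Strat := .move 838 n82 (.cons 837 n3202 .nil)
noncomputable def n4441 : Strat := .move 800 n4440 (.cons 838 n1902 .nil)
noncomputable def n4442 : Strat := .move 797 n74 (.cons 796 n4441 .nil)
noncomputable def n4443 : Strat := .move 961 n4176 (.cons 1002 n4436 .nil)
noncomputable def n4444 : Strat := .move 920 n485 (.cons 757 n4443 .nil)
noncomputable def n4445 : Strat := .move 798 n4435 (.cons 800 n4439 (.cons 920 n4442 (.cons 796 n4444 .nil)))
noncomputable def n4446 : Strat := .move 841 n383 (.cons 842 n4445 .nil)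
noncomputable def n4447 : Strat := .win 923 0 878
noncomputable def n4448 : Strat := .move 922 n4447 (.cons 923 n227 .nil)
noncomputable def n4449 : Strat := .move 922 n4447 (.cons 923 n230 .nil)
noncomputable def n4450 : Strat := .move 796 n892 (.cons 795 n4195 .nil)
noncomputable def n4451 : Strat := .move 838 n480 (.cons 800 n4450 .nil)
noncomputable def n4452 : Strat := .move 837 n3162 (.cons 836 n4451 .nil)
noncomputable def n4453 : Strat := .move 881 n4448 (.cons 757 n4449 (.cons 922 n4452 .nil))
noncomputable def n4454 : Strat := .move 878 n427 (.cons 877 n4453 .nil)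
noncomputable def n4455 : Strat := .move 879 n2456 (.cons 842 n4428 (.cons 877 n4430 (.cons 838 n4432 (.cons 878 n4446 (.cons 841 n4454 .nil)))))
noncomputable def n4456 : Strat := .move 717 n2083 (.cons 758 n4455 .nil)
noncomputable def n4457 : Strat := .move 880 n4243 (.cons 758 n4426 (.cons 962 n4352 (.cons 881 n4251 (.cons 921 n4456 .nil))))
noncomputable def n4458 : Strat := .move 879 n2158 (.cons 841 n4187 .nil)
noncomputable def n4459 : Strat := .move 878 n1077 (.cons 877 n4458 .nil)
noncomputable def n4460 : Strat := .move 837 n4107 (.cons 878 n4119 (.cons 798 n4459 .nil))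
noncomputable def n4461 : Strat := .move 837 n480 (.cons 800 n4459 .nil)
noncomputable def n4462 : Strat := .move 800 n116 (.cons 802 n243 .nil)
noncomputable def n4463 : Strat := .move 800 n243 (.cons 798 n840 .nil)
noncomputable def n4464 : Strat := .move 800 n116 (.cons 802 n840 .nil)
noncomputable def n4465 : Strat := .move 879 n862 (.cons 878 n3932 .nil)
noncomputable def n4466 : Strat := .move 841 n1074 (.cons 802 n4465 .nil)
noncomputable def n4467 : Strat := .move 841 n1074 (.cons 802 n4125 .nil)
noncomputable def n4468 : Strat := .move 843 n4064 (.cons 798 n1948 .nil)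
noncomputable def n4469 : Strat := .move 841 n475 (.cons 879 n4468 .nil)
noncomputable def n4470 : Strat := .move 758 n224 (.cons 717 n1938 .nil)
noncomputable def n4471 : Strat := .move 921 n1891 (.cons 962 n4470 .nil)
noncomputable def n4472 : Strat := .move 879 n1718 (.cons 841 n4471 .nil)
noncomputable def n4473 : Strat := .move 880 n4469 (.cons 841 n4166 (.cons 881 n4472 .nil))
noncomputable def n4474 : Strat := .move 880 n224 (.cons 717 n4242 .nil)
noncomputable def n4475 : Strat := .move 718 n1027 (.cons 883 n209 .nil)
noncomputable def n4476 : Strat := .move 677 n293 (.cons 636 n2908 .nil)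
noncomputable def n4477 : Strat := .move 718 n1027 (.cons 883 n4476 .nil)
noncomputable def n4478 : Strat := .move 718 n209 (.cons 881 n4476 .nil)
noncomputable def n4479 : Strat := .move 802 n58 (.cons 803 n4268 .nil)
noncomputable def n4480 : Strat := .move 761 n286 (.cons 798 n4479 .nil)
noncomputable def n4481 : Strat := .move 759 n4475 (.cons 881 n4477 (.cons 883 n4478 (.cons 718 n4480 .nil)))
noncomputable def n4482 : Strat := .move 720 n61 (.cons 721 n2964 .nil)
noncomputable def n4483 : Strat := .move 761 n286 (.cons 798 n4482 .nil)
noncomputable def n4484 : Strat := .move 759 n4475 (.cons 881 n4477 (.cons 883 n4478 (.cons 718 n4483 .nil)))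
noncomputable def n4485 : Strat := .move 678 n2096 (.cons 720 n2931 .nil)
noncomputable def n4486 : Strat := .move 883 n2984 (.cons 679 n2936 .nil)
noncomputable def n4487 : Strat := .move 678 n2096 (.cons 720 n2947 .nil)
noncomputable def n4488 : Strat := .move 678 n2931 (.cons 884 n2947 .nil)
noncomputable def n4489 : Strat := .move 719 n4485 (.cons 678 n4486 (.cons 884 n4487 (.cons 720 n4488 .nil)))
noncomputable def n4490 : Strat := .move 883 n2128 (.cons 718 n2913 .nil)
noncomputable def n4491 : Strat := .move 761 n286 (.cons 798 n4490 .nil)
noncomputable def n4492 : Strat := .move 759 n4475 (.cons 881 n4491 (.cons 883 n4480 .nil))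
noncomputable def n4493 : Strat := .move 759 n4478 (.cons 718 n4480 .nil)
noncomputable def n4494 : Strat := .win 638 1 637
noncomputable def n4495 : Strat := .win 719 3 678
noncomputable def n4496 : Strat := .move 679 n4494 (.cons 638 n4495 .nil)
noncomputable def n4497 : Strat := .move 720 n2964 (.cons 883 n4496 .nil)
noncomputable def n4498 : Strat := .move 759 n286 (.cons 798 n4479 .nil)
noncomputable def n4499 : Strat := .move 761 n4497 (.cons 720 n4498 .nil)
noncomputable def n4500 : Strat := .move 759 n1027 (.cons 883 n209 .nil)
noncomputable def n4501 : Strat := .move 718 n2107 (.cons 677 n4500 .nil)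
noncomputable def n4502 : Strat := .move 719 n4501 (.cons 718 n4485 .nil)
noncomputable def n4503 : Strat := .move 760 n4481 (.cons 803 n4484 (.cons 759 n4489 (.cons 719 n4492 (.cons 883 n4493 (.cons 718 n4499 (.cons 761 n4502 .nil))))))
noncomputable def n4504 : Strat := .move 880 n4242 (.cons 921 n4503 (.cons 881 n4250 .nil))
noncomputable def n4505 : Strat := .move 880 n224 (.cons 717 n4503 .nil)
noncomputable def n4506 : Strat := .move 718 n209 (.cons 881 n1027 .nil)
noncomputable def n4507 : Strat := .move 677 n2908 (.cons 719 n292 .nil)
noncomputable def n4508 : Strat := .move 718 n1027 (.cons 883 n4507 .nil)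
noncomputable def n4509 : Strat := .move 759 n4506 (.cons 881 n4508 (.cons 718 n4480 .nil))
noncomputable def n4510 : Strat := .move 759 n209 (.cons 881 n1027 .nil)
noncomputable def n4511 : Strat := .move 677 n292 (.cons 717 n2908 .nil)
noncomputable def n4512 : Strat := .move 718 n4510 (.cons 881 n4511 .nil)
noncomputable def n4513 : Strat := .move 678 n2943 (.cons 636 n2096 .nil)
noncomputable def n4514 : Strat := .move 677 n2942 (.cons 718 n4513 .nil)
noncomputable def n4515 : Strat := .move 719 n4514 (.cons 638 n2945 (.cons 677 n2940 .nil))
noncomputable def n4516 : Strat := .move 761 n4498 (.cons 759 n4497 .nil)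
noncomputable def n4517 : Strat := .move 677 n293 (.cons 636 n292 .nil)
noncomputable def n4518 : Strat := .move 718 n209 (.cons 881 n4517 .nil)
noncomputable def n4519 : Strat := .move 759 n4506 (.cons 883 n4518 (.cons 718 n4480 .nil))
noncomputable def n4520 : Strat := .move 718 n209 (.cons 881 n4507 .nil)
noncomputable def n4521 : Strat := .move 759 n4520 (.cons 719 n4518 (.cons 717 n4478 (.cons 718 n4480 .nil)))
noncomputable def n4522 : Strat := .move 760 n4509 (.cons 757 n4512 (.cons 759 n4515 (.cons 718 n4516 (.cons 719 n4519 (.cons 883 n4521 .nil)))))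
noncomputable def n4523 : Strat := .move 758 n4474 (.cons 717 n4504 (.cons 921 n4505 (.cons 881 n1889 (.cons 880 n4522 .nil))))
noncomputable def n4524 : Strat := .move 842 n4466 (.cons 879 n4467 (.cons 802 n4473 (.cons 841 n4523 .nil)))
noncomputable def n4525 : Strat := .move 801 n4462 (.cons 802 n4463 (.cons 798 n4464 (.cons 800 n4524 .nil)))
noncomputable def n4526 : Strat := .move 838 n3297 (.cons 800 n4460 (.cons 798 n4461 (.cons 837 n4525 .nil)))
noncomputable def n4527 : Strat := .move 759 n1624 (.cons 924 n2118 .nil)
noncomputable def n4528 : Strat := .move 883 n1358 (.cons 884 n4527 .nil)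
noncomputable def n4529 : Strat := .move 841 n513 (.cons 797 n4528 .nil)
noncomputable def n4530 : Strat := .move 842 n123 (.cons 843 n4529 .nil)
noncomputable def n4531 : Strat := .move 798 n4057 (.cons 880 n4530 (.cons 797 n4055 (.cons 841 n4051 .nil)))
noncomputable def n4532 : Strat := .move 801 n116 (.cons 802 n4531 .nil)
noncomputable def n4533 : Strat := .move 838 n232 (.cons 837 n4114 .nil)
noncomputable def n4534 : Strat := .move 756 n47 (.cons 755 n370 .nil)
noncomputable def n4535 : Strat := .move 881 n1331 (.cons 922 n4534 .nil)
noncomputable def n4536 : Strat := .move 758 n224 (.cons 717 n4535 .nil)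
noncomputable def n4537 : Strat := .move 757 n2154 (.cons 717 n4306 (.cons 921 n4536 (.cons 758 n4308 .nil)))
noncomputable def n4538 : Strat := .move 879 n862 (.cons 878 n3324 .nil)
noncomputable def n4539 : Strat := .move 841 n75 (.cons 842 n4538 .nil)
noncomputable def n4540 : Strat := .move 797 n3045 (.cons 756 n4539 .nil)
noncomputable def n4541 : Strat := .move 921 n1891 (.cons 962 n4540 .nil)
noncomputable def n4542 : Strat := .move 797 n75 (.cons 842 n889 .nil)
noncomputable def n4543 : Strat := .move 879 n862 (.cons 878 n486 .nil)
noncomputable def n4544 : Strat := .move 841 n4542 (.cons 842 n4543 .nil)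
noncomputable def n4545 : Strat := .move 758 n224 (.cons 717 n4544 .nil)
noncomputable def n4546 : Strat := .move 798 n4537 (.cons 717 n4306 (.cons 962 n2154 (.cons 758 n4541 (.cons 921 n4545 .nil))))
noncomputable def n4547 : Strat := .move 920 n485 (.cons 757 n2135 .nil)
noncomputable def n4548 : Strat := .move 922 n4307 (.cons 881 n3714 .nil)
noncomputable def n4549 : Strat := .move 757 n382 (.cons 920 n4548 .nil)
noncomputable def n4550 : Strat := .move 798 n4547 (.cons 961 n4549 (.cons 757 n4314 .nil))
noncomputable def n4551 : Strat := .move 797 n3062 (.cons 756 n4550 .nil)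
noncomputable def n4552 : Strat := .move 879 n2159 (.cons 877 n2302 (.cons 878 n4551 .nil))
noncomputable def n4553 : Strat := .move 921 n1891 (.cons 962 n4552 .nil)
noncomputable def n4554 : Strat := .move 879 n862 (.cons 878 n4547 .nil)
noncomputable def n4555 : Strat := .move 841 n75 (.cons 842 n4554 .nil)
noncomputable def n4556 : Strat := .move 797 n3045 (.cons 756 n4555 .nil)
noncomputable def n4557 : Strat := .move 798 n2155 (.cons 758 n4556 .nil)
noncomputable def n4558 : Strat := .move 921 n1891 (.cons 962 n4557 .nil)
noncomputable def n4559 : Strat := .move 678 n411 (.cons 637 n1148 .nil)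
noncomputable def n4560 : Strat := .move 757 n409 (.cons 720 n1194 .nil)
noncomputable def n4561 : Strat := .move 719 n4559 (.cons 841 n4560 .nil)
noncomputable def n4562 : Strat := .move 760 n542 (.cons 798 n4561 .nil)
noncomputable def n4563 : Strat := .move 718 n308 (.cons 677 n4562 .nil)
noncomputable def n4564 : Strat := .move 841 n383 (.cons 842 n862 .nil)
noncomputable def n4565 : Strat := .move 760 n788 (.cons 797 n298 .nil)
noncomputable def n4566 : Strat := .move 798 n4565 (.cons 761 n486 .nil)
noncomputable def n4567 : Strat := .move 879 n4564 (.cons 878 n4566 .nil)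
noncomputable def n4568 : Strat := .move 881 n98 (.cons 922 n4567 .nil)
noncomputable def n4569 : Strat := .move 759 n1964 (.cons 677 n4318 (.cons 881 n4563 (.cons 718 n4568 .nil)))
noncomputable def n4570 : Strat := .move 758 n224 (.cons 717 n4569 .nil)
noncomputable def n4571 : Strat := .move 880 n4546 (.cons 758 n4553 (.cons 962 n4352 (.cons 881 n4558 (.cons 798 n4166 (.cons 921 n4570 .nil)))))
noncomputable def n4572 : Strat := .move 838 n232 (.cons 837 n4571 .nil)
noncomputable def n4573 : Strat := .move 800 n1895 (.cons 838 n4532 (.cons 802 n1897 (.cons 798 n4533 (.cons 801 n4572 .nil))))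
noncomputable def n4574 : Strat := .move 798 n3258 (.cons 797 n4247 .nil)
noncomputable def n4575 : Strat := .move 921 n1891 (.cons 962 n4574 .nil)
noncomputable def n4576 : Strat := .move 798 n944 (.cons 797 n514 .nil)
noncomputable def n4577 : Strat := .move 842 n475 (.cons 879 n4576 .nil)
noncomputable def n4578 : Strat := .move 836 n4184 (.cons 881 n4103 .nil)
noncomputable def n4579 : Strat := .move 837 n480 (.cons 800 n4578 .nil)
noncomputable def n4580 : Strat := .move 755 n1953 (.cons 757 n3274 .nil)
noncomputable def n4581 : Strat := .move 756 n888 (.cons 715 n4580 .nil)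
noncomputable def n4582 : Strat := .move 800 n1941 (.cons 801 n4581 .nil)
noncomputable def n4583 : Strat := .move 797 n494 (.cons 796 n4582 .nil)
noncomputable def n4584 : Strat := .move 879 n862 (.cons 878 n4583 .nil)
noncomputable def n4585 : Strat := .move 836 n4103 (.cons 798 n4184 .nil)
noncomputable def n4586 : Strat := .move 837 n892 (.cons 795 n4585 .nil)
noncomputable def n4587 : Strat := .move 796 n3270 (.cons 797 n4586 .nil)
noncomputable def n4588 : Strat := .move 879 n862 (.cons 878 n4587 .nil)
noncomputable def n4589 : Strat := .move 838 n3273 (.cons 801 n4579 (.cons 837 n4584 (.cons 800 n4588 .nil)))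
noncomputable def n4590 : Strat := .move 842 n475 (.cons 879 n4468 .nil)
noncomputable def n4591 : Strat := .move 802 n4136 (.cons 801 n4137 .nil)
noncomputable def n4592 : Strat := .move 843 n1948 (.cons 881 n4591 .nil)
noncomputable def n4593 : Strat := .move 842 n475 (.cons 879 n4592 .nil)
noncomputable def n4594 : Strat := .move 838 n494 (.cons 796 n3273 .nil)
noncomputable def n4595 : Strat := .move 797 n493 (.cons 798 n4594 .nil)
noncomputable def n4596 : Strat := .move 842 n4576 (.cons 798 n4592 (.cons 843 n4595 .nil))
noncomputable def n4597 : Strat := .move 841 n4577 (.cons 842 n4589 (.cons 797 n4590 (.cons 798 n4593 (.cons 879 n4596 .nil))))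
noncomputable def n4598 : Strat := .move 758 n224 (.cons 717 n4597 .nil)
noncomputable def n4599 : Strat := .move 880 n4166 (.cons 881 n4251 (.cons 962 n4352 (.cons 758 n4575 (.cons 921 n4598 .nil))))
noncomputable def n4600 : Strat := .move 878 n1077 (.cons 877 n4095 .nil)
noncomputable def n4601 : Strat := .move 797 n3291 (.cons 841 n4600 .nil)
noncomputable def n4602 : Strat := .move 796 n892 (.cons 795 n4601 .nil)
noncomputable def n4603 : Strat := .move 837 n4119 (.cons 796 n4107 (.cons 836 n4602 .nil))
noncomputable def n4604 : Strat := .move 798 n313 (.cons 796 n958 .nil)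
noncomputable def n4605 : Strat := .move 796 n3291 (.cons 841 n4386 .nil)
noncomputable def n4606 : Strat := .move 757 n55 (.cons 796 n47 .nil)
noncomputable def n4607 : Strat := .move 756 n888 (.cons 715 n4606 .nil)
noncomputable def n4608 : Strat := .move 798 n958 (.cons 760 n889 .nil)
noncomputable def n4609 : Strat := .move 797 n4604 (.cons 760 n4605 (.cons 798 n4607 (.cons 796 n4608 .nil)))
noncomputable def n4610 : Strat := .move 759 n1964 (.cons 677 n4318 (.cons 718 n4609 .nil))
noncomputable def n4611 : Strat := .move 758 n224 (.cons 717 n4610 .nil)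
noncomputable def n4612 : Strat := .move 797 n3045 (.cons 756 n76 .nil)
noncomputable def n4613 : Strat := .move 798 n2155 (.cons 758 n4612 .nil)
noncomputable def n4614 : Strat := .move 921 n1891 (.cons 962 n4613 .nil)
noncomputable def n4615 : Strat := .move 881 n2 (.cons 759 n225 .nil)
noncomputable def n4616 : Strat := .move 922 n3714 (.cons 963 n4615 .nil)
noncomputable def n4617 : Strat := .move 798 n4612 (.cons 797 n4616 .nil)
noncomputable def n4618 : Strat := .move 921 n1891 (.cons 962 n4617 .nil)
noncomputable def n4619 : Strat := .move 880 n4166 (.cons 921 n4611 (.cons 717 n4614 (.cons 758 n4618 .nil)))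
noncomputable def n4620 : Strat := .move 800 n4087 (.cons 841 n244 (.cons 798 n4114 (.cons 801 n4619 .nil)))
noncomputable def n4621 : Strat := .move 838 n4120 (.cons 800 n4603 (.cons 798 n4115 (.cons 837 n4620 .nil)))
noncomputable def n4622 : Strat := .move 758 n1890 (.cons 881 n1938 .nil)
noncomputable def n4623 : Strat := .move 921 n1891 (.cons 962 n4622 .nil)
noncomputable def n4624 : Strat := .move 880 n4166 (.cons 962 n4352 (.cons 717 n4623 (.cons 921 n4611 (.cons 758 n4618 (.cons 881 n4614 .nil)))))
noncomputable def n4625 : Strat := .move 838 n232 (.cons 837 n4624 .nil)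
noncomputable def n4626 : Strat := .move 842 n124 (.cons 841 n1178 .nil)
noncomputable def n4627 : Strat := .move 797 n4626 (.cons 841 n1178 (.cons 756 n76 .nil))
noncomputable def n4628 : Strat := .move 758 n337 (.cons 880 n4048 .nil)
noncomputable def n4629 : Strat := .move 881 n257 (.cons 922 n4628 .nil)
noncomputable def n4630 : Strat := .move 757 n258 (.cons 756 n4629 .nil)
noncomputable def n4631 : Strat := .move 798 n1929 (.cons 797 n4055 (.cons 756 n4057 (.cons 843 n4627 (.cons 841 n4630 .nil))))
noncomputable def n4632 : Strat := .move 801 n116 (.cons 802 n4631 .nil)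
noncomputable def n4633 : Strat := .move 800 n245 (.cons 798 n4533 (.cons 801 n4625 (.cons 838 n4632 .nil)))
noncomputable def n4634 : Strat := .move 921 n1891 (.cons 962 n1949 .nil)
noncomputable def n4635 : Strat := .move 880 n475 (.cons 879 n4634 .nil)
noncomputable def n4636 : Strat := .move 842 n1906 (.cons 798 n4635 .nil)
noncomputable def n4637 : Strat := .move 797 n494 (.cons 796 n4636 .nil)
noncomputable def n4638 : Strat := .move 841 n1941 (.cons 801 n4637 .nil)
noncomputable def n4639 : Strat := .move 838 n232 (.cons 837 n4638 .nil)
noncomputable def n4640 : Strat := .move 796 n579 (.cons 795 n2386 .nil)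
noncomputable def n4641 : Strat := .move 759 n958 (.cons 760 n4640 .nil)
noncomputable def n4642 : Strat := .move 797 n124 (.cons 841 n4641 .nil)
noncomputable def n4643 : Strat := .move 842 n123 (.cons 843 n4642 .nil)
noncomputable def n4644 : Strat := .move 718 n308 (.cons 677 n1027 .nil)
noncomputable def n4645 : Strat := .move 883 n1624 (.cons 924 n2128 .nil)
noncomputable def n4646 : Strat := .move 883 n1624 (.cons 924 n2123 .nil)
noncomputable def n4647 : Strat := .move 881 n1294 (.cons 841 n98 .nil)
noncomputable def n4648 : Strat := .move 718 n308 (.cons 677 n4647 .nil)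
noncomputable def n4649 : Strat := .move 759 n4644 (.cons 677 n4645 (.cons 718 n4646 (.cons 883 n4648 .nil)))
noncomputable def n4650 : Strat := .move 760 n611 (.cons 761 n4649 .nil)
noncomputable def n4651 : Strat := .move 842 n123 (.cons 843 n4650 .nil)
noncomputable def n4652 : Strat := .move 842 n124 (.cons 841 n4641 .nil)
noncomputable def n4653 : Strat := .move 797 n4652 (.cons 841 n4402 (.cons 760 n76 .nil))
noncomputable def n4654 : Strat := .move 797 n1591 (.cons 759 n659 .nil)
noncomputable def n4655 : Strat := .move 760 n611 (.cons 761 n4654 .nil)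
noncomputable def n4656 : Strat := .move 718 n308 (.cons 677 n1485 .nil)
noncomputable def n4657 : Strat := .move 759 n788 (.cons 797 n4656 .nil)
noncomputable def n4658 : Strat := .move 760 n611 (.cons 761 n4657 .nil)
noncomputable def n4659 : Strat := .move 880 n475 (.cons 879 n4306 .nil)
noncomputable def n4660 : Strat := .move 841 n513 (.cons 797 n4659 .nil)
noncomputable def n4661 : Strat := .move 842 n123 (.cons 843 n4660 .nil)
noncomputable def n4662 : Strat := .move 798 n4643 (.cons 797 n4651 (.cons 843 n4653 (.cons 842 n4655 (.cons 841 n4658 (.cons 760 n4661 .nil)))))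
noncomputable def n4663 : Strat := .move 801 n116 (.cons 802 n4662 .nil)
noncomputable def n4664 : Strat := .move 843 n1907 (.cons 844 n1948 .nil)
noncomputable def n4665 : Strat := .move 880 n475 (.cons 879 n4664 .nil)
noncomputable def n4666 : Strat := .move 842 n1906 (.cons 798 n4665 .nil)
noncomputable def n4667 : Strat := .move 797 n494 (.cons 796 n4666 .nil)
noncomputable def n4668 : Strat := .move 797 n1906 (.cons 798 n4665 .nil)
noncomputable def n4669 : Strat := .move 842 n4668 (.cons 798 n4465 (.cons 879 n1606 .nil))
noncomputable def n4670 : Strat := .move 759 n958 (.cons 760 n4128 .nil)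
noncomputable def n4671 : Strat := .move 798 n75 (.cons 842 n4670 .nil)
noncomputable def n4672 : Strat := .move 797 n494 (.cons 796 n4671 .nil)
noncomputable def n4673 : Strat := .move 841 n4667 (.cons 796 n4669 (.cons 797 n4067 (.cons 843 n4672 (.cons 842 n4080 (.cons 798 n4083 .nil)))))
noncomputable def n4674 : Strat := .move 838 n232 (.cons 837 n4673 .nil)
noncomputable def n4675 : Strat := .move 800 n1895 (.cons 798 n1898 (.cons 802 n4639 (.cons 838 n4663 (.cons 801 n4674 .nil))))
noncomputable def n4676 : Strat := .move 921 n1891 (.cons 962 n3258 .nil)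
noncomputable def n4677 : Strat := .move 838 n1084 (.cons 801 n1086 (.cons 800 n4543 .nil))
noncomputable def n4678 : Strat := .move 841 n823 (.cons 842 n4677 .nil)
noncomputable def n4679 : Strat := .move 797 n659 (.cons 841 n855 (.cons 795 n856 (.cons 796 n4678 .nil)))
noncomputable def n4680 : Strat := .move 758 n224 (.cons 717 n4679 .nil)
noncomputable def n4681 : Strat := .move 798 n4306 (.cons 962 n2154 (.cons 758 n4676 (.cons 921 n4680 .nil)))
noncomputable def n4682 : Strat := .move 757 n99 (.cons 756 n314 .nil)
noncomputable def n4683 : Strat := .move 757 n99 (.cons 756 n467 .nil)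
noncomputable def n4684 : Strat := .move 757 n99 (.cons 756 n1969 .nil)
noncomputable def n4685 : Strat := .move 798 n789 (.cons 761 n4682 (.cons 760 n4683 (.cons 797 n4684 .nil)))
noncomputable def n4686 : Strat := .move 759 n1921 (.cons 677 n1475 (.cons 718 n4685 .nil))
noncomputable def n4687 : Strat := .move 801 n116 (.cons 802 n4686 .nil)
noncomputable def n4688 : Strat := .move 797 n888 (.cons 715 n494 .nil)
noncomputable def n4689 : Strat := .win 757 5 715
noncomputable def n4690 : Strat := .move 719 n4689 (.cons 757 n1631 .nil)
noncomputable def n4691 : Strat := .move 756 n4688 (.cons 796 n4690 .nil)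
noncomputable def n4692 : Strat := .move 841 n4212 (.cons 842 n4691 .nil)
noncomputable def n4693 : Strat := .move 718 n308 (.cons 677 n4692 .nil)
noncomputable def n4694 : Strat := .move 879 n2302 (.cons 842 n2159 (.cons 878 n486 .nil))
noncomputable def n4695 : Strat := .move 881 n98 (.cons 922 n4694 .nil)
noncomputable def n4696 : Strat := .move 798 n959 (.cons 796 n789 (.cons 797 n4695 .nil))
noncomputable def n4697 : Strat := .move 759 n1921 (.cons 677 n1475 (.cons 881 n4693 (.cons 718 n4696 .nil)))
noncomputable def n4698 : Strat := .move 838 n232 (.cons 837 n4697 .nil)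
noncomputable def n4699 : Strat := .move 800 n1895 (.cons 802 n1943 (.cons 838 n4687 (.cons 801 n4698 .nil)))
noncomputable def n4700 : Strat := .move 758 n224 (.cons 717 n4699 .nil)
noncomputable def n4701 : Strat := .move 880 n4681 (.cons 798 n4243 (.cons 962 n4352 (.cons 758 n4575 (.cons 921 n4700 .nil))))
noncomputable def n4702 : Strat := .move 797 n3045 (.cons 756 n659 .nil)
noncomputable def n4703 : Strat := .move 798 n4245 (.cons 797 n4247 (.cons 922 n4702 .nil))
noncomputable def n4704 : Strat := .move 921 n1891 (.cons 962 n4703 .nil)
noncomputable def n4705 : Strat := .move 759 n168 (.cons 760 n9 .nil)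
noncomputable def n4706 : Strat := .move 881 n1331 (.cons 922 n4705 .nil)
noncomputable def n4707 : Strat := .move 881 n1331 (.cons 922 n3840 .nil)
noncomputable def n4708 : Strat := .move 878 n2454 (.cons 838 n427 .nil)
noncomputable def n4709 : Strat := .move 879 n382 (.cons 920 n4708 .nil)
noncomputable def n4710 : Strat := .move 756 n370 (.cons 715 n4709 .nil)
noncomputable def n4711 : Strat := .move 757 n4706 (.cons 718 n4707 (.cons 881 n4710 .nil))
noncomputable def n4712 : Strat := .move 841 n823 (.cons 842 n4711 .nil)
noncomputable def n4713 : Strat := .move 797 n659 (.cons 795 n856 (.cons 796 n4712 (.cons 841 n855 .nil)))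
noncomputable def n4714 : Strat := .move 757 n382 (.cons 920 n1331 .nil)
noncomputable def n4715 : Strat := .move 881 n384 (.cons 878 n4714 .nil)
noncomputable def n4716 : Strat := .move 841 n383 (.cons 842 n4715 .nil)
noncomputable def n4717 : Strat := .move 881 n426 (.cons 841 n884 .nil)
noncomputable def n4718 : Strat := .move 878 n427 (.cons 877 n4717 .nil)
noncomputable def n4719 : Strat := .move 879 n2456 (.cons 877 n4716 (.cons 842 n4718 (.cons 841 n4438 .nil)))
noncomputable def n4720 : Strat := .move 842 n475 (.cons 879 n944 .nil)
noncomputable def n4721 : Strat := .move 878 n427 (.cons 877 n2454 .nil)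
noncomputable def n4722 : Strat := .move 757 n382 (.cons 920 n3717 .nil)
noncomputable def n4723 : Strat := .move 879 n4721 (.cons 838 n4722 .nil)
noncomputable def n4724 : Strat := .move 796 n893 (.cons 797 n4723 .nil)
noncomputable def n4725 : Strat := .move 841 n4720 (.cons 797 n942 (.cons 842 n4724 (.cons 879 n824 .nil)))
noncomputable def n4726 : Strat := .move 797 n579 (.cons 795 n77 .nil)
noncomputable def n4727 : Strat := .move 797 n579 (.cons 795 n854 .nil)
noncomputable def n4728 : Strat := .move 797 n77 (.cons 841 n854 .nil)
noncomputable def n4729 : Strat := .move 838 n1076 (.cons 836 n892 .nil)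
noncomputable def n4730 : Strat := .move 881 n426 (.cons 841 n3162 .nil)
noncomputable def n4731 : Strat := .move 879 n427 (.cons 877 n4730 .nil)
noncomputable def n4732 : Strat := .move 841 n3611 (.cons 881 n383 .nil)
noncomputable def n4733 : Strat := .move 879 n427 (.cons 877 n4732 .nil)
noncomputable def n4734 : Strat := .move 755 n2563 (.cons 877 n2554 .nil)
noncomputable def n4735 : Strat := .move 960 n3369 (.cons 918 n3177 .nil)
noncomputable def n4736 : Strat := .move 960 n3177 (.cons 920 n3372 .nil)
noncomputable def n4737 : Strat := .move 919 n4734 (.cons 755 n4735 (.cons 959 n4736 .nil))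
noncomputable def n4738 : Strat := .move 922 n4447 (.cons 923 n226 .nil)
noncomputable def n4739 : Strat := .move 881 n3162 (.cons 836 n4738 .nil)
noncomputable def n4740 : Strat := .win 919 6 796
noncomputable def n4741 : Strat := .move 961 n4176 (.cons 1002 n4740 .nil)
noncomputable def n4742 : Strat := .move 920 n3164 (.cons 755 n4741 .nil)
noncomputable def n4743 : Strat := .move 879 n4730 (.cons 836 n4732 (.cons 841 n4739 (.cons 881 n4742 .nil)))
noncomputable def n4744 : Strat := .move 878 n4731 (.cons 836 n4733 (.cons 879 n4737 (.cons 877 n4743 .nil)))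
noncomputable def n4745 : Strat := .move 837 n4729 (.cons 838 n4744 (.cons 836 n2535 (.cons 795 n2534 .nil)))
noncomputable def n4746 : Strat := .move 796 n4726 (.cons 841 n4727 (.cons 795 n4728 (.cons 797 n4745 .nil)))
noncomputable def n4747 : Strat := .move 881 n1331 (.cons 922 n1242 .nil)
noncomputable def n4748 : Strat := .win 838 7 714
noncomputable def n4749 : Strat := .move 714 n4748 (.cons 838 n328 .nil)
noncomputable def n4750 : Strat := .move 755 n327 (.cons 754 n4749 .nil)
noncomputable def n4751 : Strat := .move 879 n382 (.cons 920 n4750 .nil)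
noncomputable def n4752 : Strat := .move 797 n659 (.cons 796 n4751 .nil)
noncomputable def n4753 : Strat := .move 756 n370 (.cons 715 n4752 .nil)
noncomputable def n4754 : Strat := .move 881 n1331 (.cons 922 n3635 .nil)
noncomputable def n4755 : Strat := .move 757 n4747 (.cons 881 n4753 (.cons 797 n4754 .nil))
noncomputable def n4756 : Strat := .move 879 n383 (.cons 842 n4715 .nil)
noncomputable def n4757 : Strat := .move 881 n1331 (.cons 922 n3717 .nil)
noncomputable def n4758 : Strat := .move 757 n4707 (.cons 878 n3718 (.cons 879 n4757 .nil))
noncomputable def n4759 : Strat := .move 796 n893 (.cons 797 n4758 .nil)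
noncomputable def n4760 : Strat := .move 841 n4720 (.cons 797 n4756 (.cons 879 n824 (.cons 842 n4759 .nil)))
noncomputable def n4761 : Strat := .win 879 5 836
noncomputable def n4762 : Strat := .move 877 n3559 (.cons 838 n4761 .nil)
noncomputable def n4763 : Strat := .move 877 n2508 (.cons 918 n4761 .nil)
noncomputable def n4764 : Strat := .move 756 n2424 (.cons 715 n2425 .nil)
noncomputable def n4765 : Strat := .move 878 n4762 (.cons 879 n3560 (.cons 838 n4763 (.cons 877 n4764 .nil)))
noncomputable def n4766 : Strat := .move 755 n78 (.cons 754 n4765 .nil)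
noncomputable def n4767 : Strat := .move 837 n126 (.cons 836 n4766 .nil)
noncomputable def n4768 : Strat := .move 796 n579 (.cons 795 n4767 .nil)
noncomputable def n4769 : Strat := .move 759 n313 (.cons 796 n4291 .nil)
noncomputable def n4770 : Strat := .move 759 n9 (.cons 718 n168 .nil)
noncomputable def n4771 : Strat := .move 881 n1331 (.cons 922 n4770 .nil)
noncomputable def n4772 : Strat := .move 879 n382 (.cons 920 n4749 .nil)
noncomputable def n4773 : Strat := .move 755 n327 (.cons 754 n4772 .nil)
noncomputable def n4774 : Strat := .move 756 n370 (.cons 715 n4773 .nil)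
noncomputable def n4775 : Strat := .move 757 n4771 (.cons 881 n4774 .nil)
noncomputable def n4776 : Strat := .move 797 n855 (.cons 759 n4768 (.cons 795 n4769 (.cons 796 n4775 .nil)))
noncomputable def n4777 : Strat := .move 797 n74 (.cons 796 n1080 .nil)
noncomputable def n4778 : Strat := .win 757 0 754
noncomputable def n4779 : Strat := .win 753 0 753
noncomputable def n4780 : Strat := .move 754 n4778 (.cons 757 n4779 .nil)
noncomputable def n4781 : Strat := .move 879 n3274 (.cons 714 n862 .nil)
noncomputable def n4782 : Strat := .move 755 n4780 (.cons 753 n4781 .nil)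
noncomputable def n4783 : Strat := .move 756 n888 (.cons 715 n4782 .nil)
noncomputable def n4784 : Strat := .move 797 n74 (.cons 796 n4783 .nil)
noncomputable def n4785 : Strat := .move 878 n1078 (.cons 879 n1077 .nil)
noncomputable def n4786 : Strat := .move 837 n1076 (.cons 836 n4785 .nil)
noncomputable def n4787 : Strat := .move 796 n893 (.cons 797 n2599 .nil)
noncomputable def n4788 : Strat := .move 838 n4777 (.cons 837 n4784 (.cons 797 n4786 (.cons 879 n4787 .nil)))
noncomputable def n4789 : Strat := .move 841 n4720 (.cons 797 n942 (.cons 879 n824 (.cons 842 n4788 .nil)))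
noncomputable def n4790 : Strat := .move 797 n659 (.cons 841 n855 (.cons 795 n856 (.cons 796 n4775 .nil)))
noncomputable def n4791 : Strat := .move 797 n313 (.cons 796 n4294 .nil)
noncomputable def n4792 : Strat := .move 841 n514 (.cons 843 n944 .nil)
noncomputable def n4793 : Strat := .move 842 n4792 (.cons 797 n4297 .nil)
noncomputable def n4794 : Strat := .move 677 n293 (.cons 636 n4793 .nil)
noncomputable def n4795 : Strat := .move 760 n298 (.cons 761 n4794 .nil)
noncomputable def n4796 : Strat := .move 718 n209 (.cons 881 n4795 .nil)
noncomputable def n4797 : Strat := .move 759 n1018 (.cons 760 n4791 (.cons 797 n4294 (.cons 757 n4796 .nil)))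
noncomputable def n4798 : Strat := .move 798 n4713 (.cons 797 n4719 (.cons 881 n4725 (.cons 757 n4746 (.cons 842 n4755 (.cons 877 n4760 (.cons 841 n4776 (.cons 920 n4789 (.cons 878 n4790 (.cons 879 n4797 .nil)))))))))
noncomputable def n4799 : Strat := .move 758 n224 (.cons 717 n4798 .nil)
noncomputable def n4800 : Strat := .move 880 n4166 (.cons 758 n4704 (.cons 962 n4352 (.cons 881 n4251 (.cons 921 n4799 .nil))))
noncomputable def n4801 : Strat := .move 839 n4086 (.cons 880 n4144 (.cons 798 n4241 (.cons 838 n4305 (.cons 841 n4395 (.cons 881 n4421 (.cons 801 n4457 (.cons 797 n4526 (.cons 796 n4573 (.cons 759 n4599 (.cons 879 n4621 (.cons 878 n4633 (.cons 757 n4675 (.cons 755 n4701 (.cons 800 n4800 .nil))))))))))))))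
noncomputable def n4802 : Strat := .move 922 n227 (.cons 798 n1808 (.cons 963 n235 .nil))
noncomputable def n4803 : Strat := .move 839 n224 (.cons 717 n4802 .nil)
noncomputable def n4804 : Strat := .move 880 n34 (.cons 921 n4803 .nil)
noncomputable def n4805 : Strat := .move 759 n314 (.cons 796 n315 (.cons 760 n798 (.cons 797 n1006 .nil)))
noncomputable def n4806 : Strat := .move 798 n257 (.cons 922 n4805 .nil)
noncomputable def n4807 : Strat := .move 757 n46 (.cons 716 n4806 .nil)
noncomputable def n4808 : Strat := .move 922 n512 (.cons 963 n2 .nil)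
noncomputable def n4809 : Strat := .move 800 n1941 (.cons 801 n4808 .nil)
noncomputable def n4810 : Strat := .move 838 n3273 (.cons 801 n886 (.cons 800 n3309 (.cons 837 n4809 .nil)))
noncomputable def n4811 : Strat := .move 879 n384 (.cons 878 n4810 .nil)
noncomputable def n4812 : Strat := .move 800 n2 (.cons 759 n989 .nil)
noncomputable def n4813 : Strat := .move 922 n226 (.cons 963 n4812 .nil)
noncomputable def n4814 : Strat := .move 798 n944 (.cons 797 n4813 .nil)
noncomputable def n4815 : Strat := .move 842 n474 (.cons 843 n4814 .nil)
noncomputable def n4816 : Strat := .move 841 n476 (.cons 843 n936 (.cons 842 n4811 (.cons 879 n4815 .nil)))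
noncomputable def n4817 : Strat := .move 839 n224 (.cons 717 n4816 .nil)
noncomputable def n4818 : Strat := .move 880 n34 (.cons 921 n4817 .nil)
noncomputable def n4819 : Strat := .move 758 n167 (.cons 716 n4804 (.cons 921 n4807 (.cons 798 n45 (.cons 880 n594 (.cons 757 n4818 .nil)))))
noncomputable def n4820 : Strat := .win 839 7 839
noncomputable def n4821 : Strat := .win 1045 7 880
noncomputable def n4822 : Strat := .move 1004 n4820 (.cons 839 n4821 .nil)
noncomputable def n4823 : Strat := .move 963 n3 (.cons 841 n4822 .nil)
noncomputable def n4824 : Strat := .move 800 n2 (.cons 759 n4823 .nil)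
noncomputable def n4825 : Strat := .move 880 n26 (.cons 758 n4824 .nil)
noncomputable def n4826 : Strat := .move 921 n7 (.cons 962 n4825 .nil)
noncomputable def n4827 : Strat := .move 922 n110 (.cons 962 n107 (.cons 923 n4826 .nil))
noncomputable def n4828 : Strat := .move 922 n18 (.cons 1003 n114 (.cons 798 n1581 (.cons 963 n93 .nil)))
noncomputable def n4829 : Strat := .move 922 n18 (.cons 1003 n114 (.cons 798 n73 (.cons 963 n459 .nil)))
noncomputable def n4830 : Strat := .move 922 n18 (.cons 921 n24 (.cons 963 n110 .nil))
noncomputable def n4831 : Strat := .move 922 n6 (.cons 963 n135 (.cons 759 n24 (.cons 839 n107 .nil)))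
noncomputable def n4832 : Strat := .move 921 n7 (.cons 962 n30 .nil)
noncomputable def n4833 : Strat := .move 923 n25 (.cons 964 n4832 .nil)
noncomputable def n4834 : Strat := .move 798 n0 (.cons 757 n1235 .nil)
noncomputable def n4835 : Strat := .move 841 n512 (.cons 963 n4834 .nil)
noncomputable def n4836 : Strat := .move 800 n2 (.cons 759 n4835 .nil)
noncomputable def n4837 : Strat := .move 880 n26 (.cons 758 n4836 .nil)
noncomputable def n4838 : Strat := .move 921 n7 (.cons 962 n4837 .nil)
noncomputable def n4839 : Strat := .move 922 n4833 (.cons 921 n107 (.cons 964 n4838 .nil))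
noncomputable def n4840 : Strat := .move 922 n110 (.cons 921 n135 .nil)
noncomputable def n4841 : Strat := .move 759 n401 (.cons 797 n386 .nil)
noncomputable def n4842 : Strat := .move 798 n624 (.cons 801 n4841 .nil)
noncomputable def n4843 : Strat := .move 757 n46 (.cons 716 n4842 .nil)
noncomputable def n4844 : Strat := .move 758 n224 (.cons 717 n4843 .nil)
noncomputable def n4845 : Strat := .move 798 n3258 (.cons 842 n4702 (.cons 797 n3262 .nil))
noncomputable def n4846 : Strat := .move 921 n1891 (.cons 962 n4845 .nil)
noncomputable def n4847 : Strat := .move 880 n3637 (.cons 921 n4844 (.cons 758 n4846 .nil))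
noncomputable def n4848 : Strat := .move 757 n860 (.cons 716 n258 .nil)
noncomputable def n4849 : Strat := .move 798 n4848 (.cons 756 n4406 .nil)
noncomputable def n4850 : Strat := .move 801 n116 (.cons 802 n4849 .nil)
noncomputable def n4851 : Strat := .move 757 n860 (.cons 716 n3209 .nil)
noncomputable def n4852 : Strat := .move 841 n75 (.cons 842 n1180 .nil)
noncomputable def n4853 : Strat := .move 759 n958 (.cons 760 n4852 .nil)
noncomputable def n4854 : Strat := .move 757 n860 (.cons 716 n4853 .nil)
noncomputable def n4855 : Strat := .move 797 n76 (.cons 842 n939 (.cons 841 n4851 (.cons 796 n4854 .nil)))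
noncomputable def n4856 : Strat := .move 798 n83 (.cons 801 n4855 .nil)
noncomputable def n4857 : Strat := .move 838 n232 (.cons 837 n4856 .nil)
noncomputable def n4858 : Strat := .move 759 n958 (.cons 760 n939 .nil)
noncomputable def n4859 : Strat := .move 757 n860 (.cons 716 n1180 .nil)
noncomputable def n4860 : Strat := .move 841 n75 (.cons 842 n4859 .nil)
noncomputable def n4861 : Strat := .move 759 n958 (.cons 760 n4860 .nil)
noncomputable def n4862 : Strat := .move 798 n4858 (.cons 841 n4641 (.cons 796 n4861 (.cons 759 n76 .nil)))
noncomputable def n4863 : Strat := .move 841 n494 (.cons 796 n1910 .nil)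
noncomputable def n4864 : Strat := .move 757 n860 (.cons 716 n669 .nil)
noncomputable def n4865 : Strat := .move 759 n958 (.cons 760 n4864 .nil)
noncomputable def n4866 : Strat := .move 796 n78 (.cons 754 n2387 .nil)
noncomputable def n4867 : Strat := .move 755 n79 (.cons 756 n4866 .nil)
noncomputable def n4868 : Strat := .move 757 n860 (.cons 716 n4867 .nil)
noncomputable def n4869 : Strat := .win 757 6 716
noncomputable def n4870 : Strat := .move 715 n3070 (.cons 675 n553 .nil)
noncomputable def n4871 : Strat := .move 756 n85 (.cons 755 n4870 .nil)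
noncomputable def n4872 : Strat := .move 716 n4869 (.cons 757 n4871 .nil)
noncomputable def n4873 : Strat := .move 798 n4641 (.cons 758 n4865 (.cons 795 n4868 (.cons 760 n4851 (.cons 796 n4872 .nil))))
noncomputable def n4874 : Strat := .move 841 n494 (.cons 796 n862 .nil)
noncomputable def n4875 : Strat := .move 755 n2348 (.cons 758 n3274 .nil)
noncomputable def n4876 : Strat := .move 757 n2060 (.cons 716 n4875 .nil)
noncomputable def n4877 : Strat := .move 756 n3068 (.cons 919 n4876 .nil)
noncomputable def n4878 : Strat := .move 878 n2158 (.cons 841 n4877 .nil)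
noncomputable def n4879 : Strat := .win 796 7 755
noncomputable def n4880 : Strat := .move 756 n3274 (.cons 714 n3095 .nil)
noncomputable def n4881 : Strat := .move 755 n4879 (.cons 796 n4880 .nil)
noncomputable def n4882 : Strat := .win 1003 6 838
noncomputable def n4883 : Strat := .win 921 6 797
noncomputable def n4884 : Strat := .move 962 n4882 (.cons 1003 n4883 .nil)
noncomputable def n4885 : Strat := .move 961 n4175 (.cons 1001 n4884 .nil)
noncomputable def n4886 : Strat := .move 960 n4174 (.cons 919 n4885 .nil)
noncomputable def n4887 : Strat := .move 757 n2348 (.cons 758 n2060 .nil)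
noncomputable def n4888 : Strat := .move 756 n3274 (.cons 714 n4887 .nil)
noncomputable def n4889 : Strat := .move 755 n4879 (.cons 796 n4888 .nil)
noncomputable def n4890 : Strat := .move 920 n4881 (.cons 714 n4886 (.cons 919 n4889 .nil))
noncomputable def n4891 : Strat := .move 714 n2428 (.cons 673 n3514 .nil)
noncomputable def n4892 : Strat := .move 755 n2821 (.cons 920 n4891 .nil)
noncomputable def n4893 : Strat := .move 796 n3291 (.cons 841 n4892 .nil)
noncomputable def n4894 : Strat := .move 879 n4874 (.cons 796 n4878 (.cons 841 n4890 (.cons 878 n4893 .nil)))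
noncomputable def n4895 : Strat := .move 798 n860 (.cons 716 n4852 .nil)
noncomputable def n4896 : Strat := .move 841 n75 (.cons 842 n862 .nil)
noncomputable def n4897 : Strat := .move 798 n863 (.cons 920 n4896 .nil)
noncomputable def n4898 : Strat := .move 878 n3068 (.cons 919 n2158 .nil)
noncomputable def n4899 : Strat := .move 756 n85 (.cons 755 n4898 .nil)
noncomputable def n4900 : Strat := .move 798 n863 (.cons 920 n4899 .nil)
noncomputable def n4901 : Strat := .win 798 3 756
noncomputable def n4902 : Strat := .move 960 n4175 (.cons 1001 n4174 .nil)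
noncomputable def n4903 : Strat := .move 961 n4902 (.cons 919 n4884 .nil)
noncomputable def n4904 : Strat := .move 920 n4901 (.cons 798 n4903 .nil)
noncomputable def n4905 : Strat := .move 756 n3068 (.cons 919 n4875 .nil)
noncomputable def n4906 : Strat := .move 878 n2158 (.cons 841 n4905 .nil)
noncomputable def n4907 : Strat := .move 879 n4897 (.cons 842 n4900 (.cons 878 n4904 (.cons 798 n4906 .nil)))
noncomputable def n4908 : Strat := .win 798 6 716
noncomputable def n4909 : Strat := .move 716 n1239 (.cons 758 n4908 .nil)
noncomputable def n4910 : Strat := .win 634 1 633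
noncomputable def n4911 : Strat := .move 675 n3984 (.cons 715 n4910 .nil)
noncomputable def n4912 : Strat := .move 756 n1038 (.cons 879 n4911 .nil)
noncomputable def n4913 : Strat := .move 716 n1239 (.cons 758 n4912 .nil)
noncomputable def n4914 : Strat := .move 757 n4895 (.cons 716 n4907 (.cons 842 n4909 (.cons 798 n4913 .nil)))
noncomputable def n4915 : Strat := .move 797 n4862 (.cons 757 n4863 (.cons 841 n4873 (.cons 798 n4894 (.cons 796 n4914 .nil))))
noncomputable def n4916 : Strat := .move 838 n232 (.cons 837 n4915 .nil)
noncomputable def n4917 : Strat := .move 800 n245 (.cons 838 n4850 (.cons 802 n4857 (.cons 801 n4916 (.cons 798 n1898 .nil))))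
noncomputable def n4918 : Strat := .move 919 n3587 (.cons 960 n3163 .nil)
noncomputable def n4919 : Strat := .move 797 n3062 (.cons 756 n4918 .nil)
noncomputable def n4920 : Strat := .move 838 n480 (.cons 800 n4919 .nil)
noncomputable def n4921 : Strat := .move 837 n3162 (.cons 836 n4920 .nil)
noncomputable def n4922 : Strat := .move 878 n427 (.cons 877 n4921 .nil)
noncomputable def n4923 : Strat := .move 797 n3062 (.cons 756 n494 .nil)
noncomputable def n4924 : Strat := .move 838 n482 (.cons 800 n4923 .nil)
noncomputable def n4925 : Strat := .move 841 n383 (.cons 842 n4924 .nil)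
noncomputable def n4926 : Strat := .move 879 n3634 (.cons 877 n385 (.cons 841 n4922 (.cons 878 n4925 .nil)))
noncomputable def n4927 : Strat := .move 921 n1891 (.cons 962 n4926 .nil)
noncomputable def n4928 : Strat := .move 838 n840 (.cons 841 n232 .nil)
noncomputable def n4929 : Strat := .move 801 n100 (.cons 802 n4928 .nil)
noncomputable def n4930 : Strat := .win 797 6 715
noncomputable def n4931 : Strat := .move 715 n4930 (.cons 797 n169 .nil)
noncomputable def n4932 : Strat := .move 838 n232 (.cons 837 n4931 .nil)
noncomputable def n4933 : Strat := .move 756 n47 (.cons 755 n4932 .nil)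
noncomputable def n4934 : Strat := .move 759 n317 (.cons 756 n4929 (.cons 801 n4933 .nil))
noncomputable def n4935 : Strat := .move 796 n264 (.cons 759 n3291 .nil)
noncomputable def n4936 : Strat := .move 797 n888 (.cons 715 n4935 .nil)
noncomputable def n4937 : Strat := .move 756 n47 (.cons 755 n4936 .nil)
noncomputable def n4938 : Strat := .move 838 n232 (.cons 837 n4937 .nil)
noncomputable def n4939 : Strat := .move 800 n4934 (.cons 759 n842 (.cons 801 n4938 (.cons 837 n838 .nil)))
noncomputable def n4940 : Strat := .move 757 n46 (.cons 716 n4939 .nil)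
noncomputable def n4941 : Strat := .move 758 n224 (.cons 717 n4940 .nil)
noncomputable def n4942 : Strat := .move 880 n3637 (.cons 758 n4927 (.cons 962 n3633 (.cons 921 n4941 .nil)))
noncomputable def n4943 : Strat := .move 798 n3258 (.cons 796 n3262 .nil)
noncomputable def n4944 : Strat := .move 921 n1891 (.cons 962 n4943 .nil)
noncomputable def n4945 : Strat := .move 842 n475 (.cons 879 n474 .nil)
noncomputable def n4946 : Strat := .move 796 n893 (.cons 797 n3717 .nil)
noncomputable def n4947 : Strat := .move 798 n3840 (.cons 920 n4946 .nil)
noncomputable def n4948 : Strat := .move 798 n74 (.cons 796 n823 .nil)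
noncomputable def n4949 : Strat := .win 798 0 796
noncomputable def n4950 : Strat := .win 838 2 796
noncomputable def n4951 : Strat := .move 796 n4949 (.cons 798 n4950 .nil)
noncomputable def n4952 : Strat := .win 755 4 754
noncomputable def n4953 : Strat := .move 795 n3449 (.cons 794 n4952 .nil)
noncomputable def n4954 : Strat := .move 756 n264 (.cons 759 n4953 .nil)
noncomputable def n4955 : Strat := .move 796 n4950 (.cons 838 n4954 .nil)
noncomputable def n4956 : Strat := .move 842 n474 (.cons 843 n493 .nil)
noncomputable def n4957 : Strat := .move 797 n4948 (.cons 842 n4951 (.cons 798 n4955 (.cons 796 n4956 .nil)))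
noncomputable def n4958 : Strat := .move 841 n4945 (.cons 842 n4947 (.cons 879 n4957 .nil))
noncomputable def n4959 : Strat := .move 757 n46 (.cons 716 n4958 .nil)
noncomputable def n4960 : Strat := .move 758 n224 (.cons 717 n4959 .nil)
noncomputable def n4961 : Strat := .move 880 n3637 (.cons 758 n4944 (.cons 962 n3633 (.cons 921 n4960 .nil)))
noncomputable def n4962 : Strat := .move 757 n3260 (.cons 715 n2137 .nil)
noncomputable def n4963 : Strat := .move 837 n1085 (.cons 800 n481 .nil)
noncomputable def n4964 : Strat := .move 838 n4963 (.cons 836 n1084 (.cons 837 n3286 .nil))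
noncomputable def n4965 : Strat := .move 797 n3045 (.cons 756 n4964 .nil)
noncomputable def n4966 : Strat := .move 798 n3261 (.cons 716 n4962 (.cons 715 n3262 (.cons 757 n4965 .nil)))
noncomputable def n4967 : Strat := .move 921 n1891 (.cons 962 n4966 .nil)
noncomputable def n4968 : Strat := .move 878 n427 (.cons 877 n4452 .nil)
noncomputable def n4969 : Strat := .move 757 n46 (.cons 716 n433 .nil)
noncomputable def n4970 : Strat := .move 758 n224 (.cons 717 n4969 .nil)
noncomputable def n4971 : Strat := .move 797 n3587 (.cons 960 n4201 .nil)
noncomputable def n4972 : Strat := .move 919 n3163 (.cons 918 n4971 .nil)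
noncomputable def n4973 : Strat := .move 838 n480 (.cons 800 n4972 .nil)
noncomputable def n4974 : Strat := .move 837 n3162 (.cons 836 n4973 .nil)
noncomputable def n4975 : Strat := .move 878 n427 (.cons 877 n4974 .nil)
noncomputable def n4976 : Strat := .move 920 n2551 (.cons 961 n3164 .nil)
noncomputable def n4977 : Strat := .win 838 2 795
noncomputable def n4978 : Strat := .move 795 n3371 (.cons 754 n4977 .nil)
noncomputable def n4979 : Strat := .move 796 n4976 (.cons 755 n4978 .nil)
noncomputable def n4980 : Strat := .move 919 n3163 (.cons 918 n4979 .nil)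
noncomputable def n4981 : Strat := .move 837 n3162 (.cons 836 n4980 .nil)
noncomputable def n4982 : Strat := .move 878 n427 (.cons 877 n4981 .nil)
noncomputable def n4983 : Strat := .move 879 n4968 (.cons 878 n4970 (.cons 755 n4975 (.cons 800 n4982 .nil)))
noncomputable def n4984 : Strat := .move 880 n3637 (.cons 758 n4967 (.cons 962 n3633 (.cons 921 n4983 .nil)))
noncomputable def n4985 : Strat := .move 879 n383 (.cons 842 n384 .nil)
noncomputable def n4986 : Strat := .move 838 n482 (.cons 836 n3273 (.cons 837 n3278 (.cons 800 n3272 .nil)))
noncomputable def n4987 : Strat := .move 879 n384 (.cons 878 n4986 .nil)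
noncomputable def n4988 : Strat := .move 841 n4945 (.cons 843 n4985 (.cons 879 n497 (.cons 842 n4987 .nil)))
noncomputable def n4989 : Strat := .move 880 n3637 (.cons 962 n3633 (.cons 921 n4988 .nil))
noncomputable def n4990 : Strat := .win 880 0 836
noncomputable def n4991 : Strat := .move 836 n4990 (.cons 880 n4103 .nil)
noncomputable def n4992 : Strat := .move 837 n480 (.cons 800 n4991 .nil)
noncomputable def n4993 : Strat := .move 841 n3270 (.cons 797 n1078 .nil)
noncomputable def n4994 : Strat := .move 878 n1077 (.cons 877 n4993 .nil)
noncomputable def n4995 : Strat := .move 796 n892 (.cons 795 n4994 .nil)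
noncomputable def n4996 : Strat := .move 837 n4991 (.cons 836 n4995 .nil)
noncomputable def n4997 : Strat := .move 880 n475 (.cons 879 n474 .nil)
noncomputable def n4998 : Strat := .move 842 n493 (.cons 798 n4997 .nil)
noncomputable def n4999 : Strat := .move 797 n494 (.cons 796 n4998 .nil)
noncomputable def n5000 : Strat := .move 842 n1074 (.cons 802 n4997 .nil)
noncomputable def n5001 : Strat := .move 801 n3300 (.cons 800 n5000 .nil)
noncomputable def n5002 : Strat := .move 800 n83 (.cons 801 n4859 .nil)
noncomputable def n5003 : Strat := .move 798 n823 (.cons 842 n5002 .nil)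
noncomputable def n5004 : Strat := .move 797 n494 (.cons 796 n5003 .nil)
noncomputable def n5005 : Strat := .move 756 n85 (.cons 755 n2881 .nil)
noncomputable def n5006 : Strat := .move 757 n860 (.cons 716 n5005 .nil)
noncomputable def n5007 : Strat := .move 798 n75 (.cons 842 n5006 .nil)
noncomputable def n5008 : Strat := .move 797 n494 (.cons 796 n5007 .nil)
noncomputable def n5009 : Strat := .move 800 n1941 (.cons 801 n5008 .nil)
noncomputable def n5010 : Strat := .move 798 n1088 (.cons 716 n2853 (.cons 920 n5005 .nil))
noncomputable def n5011 : Strat := .move 879 n862 (.cons 878 n5010 .nil)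
noncomputable def n5012 : Strat := .move 797 n494 (.cons 796 n5011 .nil)
noncomputable def n5013 : Strat := .move 800 n1941 (.cons 801 n5012 .nil)
noncomputable def n5014 : Strat := .move 841 n4999 (.cons 797 n5001 (.cons 843 n5004 (.cons 879 n5009 (.cons 842 n5013 .nil))))
noncomputable def n5015 : Strat := .move 836 n4990 (.cons 880 n4118 .nil)
noncomputable def n5016 : Strat := .move 879 n2158 (.cons 841 n5015 .nil)
noncomputable def n5017 : Strat := .move 878 n1077 (.cons 877 n5016 .nil)
noncomputable def n5018 : Strat := .move 837 n480 (.cons 800 n5017 .nil)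
noncomputable def n5019 : Strat := .move 838 n4992 (.cons 800 n4996 (.cons 836 n3297 (.cons 837 n5014 (.cons 798 n5018 .nil))))
noncomputable def n5020 : Strat := .move 636 n1412 (.cons 595 n1411 .nil)
noncomputable def n5021 : Strat := .move 635 n777 (.cons 759 n5020 .nil)
noncomputable def n5022 : Strat := .move 800 n502 (.cons 841 n5021 .nil)
noncomputable def n5023 : Strat := .move 676 n146 (.cons 798 n5022 .nil)
noncomputable def n5024 : Strat := .move 717 n42 (.cons 675 n5023 .nil)
noncomputable def n5025 : Strat := .move 716 n41 (.cons 757 n5024 .nil)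
noncomputable def n5026 : Strat := .move 759 n317 (.cons 802 n316 (.cons 801 n1818 (.cons 756 n1147 .nil)))
noncomputable def n5027 : Strat := .move 798 n115 (.cons 838 n1969 .nil)
noncomputable def n5028 : Strat := .move 801 n100 (.cons 802 n5027 .nil)
noncomputable def n5029 : Strat := .move 798 n370 (.cons 715 n382 .nil)
noncomputable def n5030 : Strat := .move 879 n2159 (.cons 877 n2302 (.cons 841 n5029 .nil))
noncomputable def n5031 : Strat := .move 756 n47 (.cons 755 n5030 .nil)
noncomputable def n5032 : Strat := .move 838 n232 (.cons 837 n5031 .nil)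
noncomputable def n5033 : Strat := .move 800 n5026 (.cons 756 n5028 (.cons 801 n5032 (.cons 838 n838 .nil)))
noncomputable def n5034 : Strat := .move 757 n46 (.cons 716 n5033 .nil)
noncomputable def n5035 : Strat := .move 880 n34 (.cons 921 n5034 .nil)
noncomputable def n5036 : Strat := .move 758 n648 (.cons 880 n5025 (.cons 717 n5035 .nil))
noncomputable def n5037 : Strat := .move 798 n3045 (.cons 756 n823 .nil)
noncomputable def n5038 : Strat := .move 797 n494 (.cons 796 n5037 .nil)
noncomputable def n5039 : Strat := .move 756 n3292 (.cons 798 n888 .nil)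
noncomputable def n5040 : Strat := .move 797 n494 (.cons 796 n5039 .nil)
noncomputable def n5041 : Strat := .move 841 n3299 (.cons 843 n5038 (.cons 842 n5040 (.cons 797 n3302 .nil)))
noncomputable def n5042 : Strat := .move 838 n482 (.cons 800 n3296 (.cons 836 n3297 (.cons 837 n5041 .nil)))
noncomputable def n5043 : Strat := .move 921 n1891 (.cons 962 n5042 .nil)
noncomputable def n5044 : Strat := .move 715 n4930 (.cons 797 n695 .nil)
noncomputable def n5045 : Strat := .move 838 n232 (.cons 837 n5044 .nil)
noncomputable def n5046 : Strat := .move 756 n47 (.cons 755 n5045 .nil)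
noncomputable def n5047 : Strat := .move 759 n317 (.cons 801 n4933 (.cons 756 n4929 .nil))
noncomputable def n5048 : Strat := .move 759 n99 (.cons 756 n1146 .nil)
noncomputable def n5049 : Strat := .move 801 n100 (.cons 802 n5048 .nil)
noncomputable def n5050 : Strat := .move 801 n100 (.cons 802 n1894 .nil)
noncomputable def n5051 : Strat := .move 800 n5026 (.cons 801 n5046 (.cons 798 n5047 (.cons 715 n5049 (.cons 756 n5050 (.cons 838 n838 .nil)))))
noncomputable def n5052 : Strat := .move 757 n46 (.cons 716 n5051 .nil)
noncomputable def n5053 : Strat := .move 758 n224 (.cons 717 n5052 .nil)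
noncomputable def n5054 : Strat := .move 880 n3637 (.cons 758 n5043 (.cons 962 n3633 (.cons 921 n5053 .nil)))
noncomputable def n5055 : Strat := .move 880 n481 (.cons 836 n3637 .nil)
noncomputable def n5056 : Strat := .move 837 n480 (.cons 800 n5055 .nil)
noncomputable def n5057 : Strat := .move 880 n3637 (.cons 962 n3633 (.cons 758 n4153 .nil))
noncomputable def n5058 : Strat := .move 842 n1074 (.cons 802 n4576 .nil)
noncomputable def n5059 : Strat := .move 801 n3300 (.cons 800 n5058 .nil)
noncomputable def n5060 : Strat := .move 880 n383 (.cons 842 n3637 .nil)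
noncomputable def n5061 : Strat := .move 879 n862 (.cons 878 n5060 .nil)
noncomputable def n5062 : Strat := .move 798 n2852 (.cons 757 n484 .nil)
noncomputable def n5063 : Strat := .move 717 n980 (.cons 676 n145 .nil)
noncomputable def n5064 : Strat := .move 757 n4901 (.cons 798 n46 .nil)
noncomputable def n5065 : Strat := .move 758 n337 (.cons 921 n5063 (.cons 717 n5064 .nil))
noncomputable def n5066 : Strat := .win 798 3 797
noncomputable def n5067 : Strat := .move 961 n5066 (.cons 798 n4902 .nil)
noncomputable def n5068 : Strat := .move 920 n5062 (.cons 961 n5065 (.cons 757 n5067 (.cons 798 n4903 .nil)))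
noncomputable def n5069 : Strat := .move 797 n494 (.cons 796 n5068 .nil)
noncomputable def n5070 : Strat := .move 879 n862 (.cons 878 n5069 .nil)
noncomputable def n5071 : Strat := .move 800 n1941 (.cons 801 n5070 .nil)
noncomputable def n5072 : Strat := .move 841 n5001 (.cons 879 n5059 (.cons 802 n5061 (.cons 842 n5071 .nil)))
noncomputable def n5073 : Strat := .move 838 n4992 (.cons 836 n3297 (.cons 798 n5056 (.cons 800 n5057 (.cons 837 n5072 .nil))))
noncomputable def n5074 : Strat := .move 879 n2158 (.cons 841 n4972 .nil)
noncomputable def n5075 : Strat := .move 878 n1077 (.cons 877 n5074 .nil)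
noncomputable def n5076 : Strat := .move 837 n481 (.cons 836 n5075 .nil)
noncomputable def n5077 : Strat := .move 880 n3637 (.cons 962 n3633 (.cons 921 n5076 .nil))
noncomputable def n5078 : Strat := .move 757 n860 (.cons 716 n864 .nil)
noncomputable def n5079 : Strat := .move 798 n823 (.cons 842 n5078 .nil)
noncomputable def n5080 : Strat := .move 797 n494 (.cons 796 n5079 .nil)
noncomputable def n5081 : Strat := .move 880 n4212 (.cons 878 n4945 (.cons 879 n3637 .nil))
noncomputable def n5082 : Strat := .move 880 n1891 (.cons 962 n26 .nil)
noncomputable def n5083 : Strat := .move 880 n3062 (.cons 756 n1891 .nil)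
noncomputable def n5084 : Strat := .move 880 n3062 (.cons 756 n26 .nil)
noncomputable def n5085 : Strat := .move 798 n484 (.cons 961 n2852 .nil)
noncomputable def n5086 : Strat := .move 920 n3061 (.cons 962 n5085 .nil)
noncomputable def n5087 : Strat := .move 921 n5082 (.cons 758 n5083 (.cons 962 n5084 (.cons 880 n5086 .nil)))
noncomputable def n5088 : Strat := .move 879 n862 (.cons 878 n5087 .nil)
noncomputable def n5089 : Strat := .move 800 n1941 (.cons 801 n5088 .nil)
noncomputable def n5090 : Strat := .move 797 n494 (.cons 796 n5089 .nil)
noncomputable def n5091 : Strat := .move 841 n5080 (.cons 716 n5081 (.cons 879 n5059 (.cons 842 n5090 .nil)))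
noncomputable def n5092 : Strat := .move 838 n4992 (.cons 836 n3297 (.cons 798 n5056 (.cons 800 n5077 (.cons 837 n5091 .nil))))
noncomputable def n5093 : Strat := .move 839 n4847 (.cons 880 n4917 (.cons 798 n4942 (.cons 800 n4961 (.cons 841 n4984 (.cons 757 n4989 (.cons 921 n5019 (.cons 797 n5036 (.cons 879 n5054 (.cons 756 n5073 (.cons 755 n5092 .nil))))))))))
noncomputable def n5094 : Strat := .move 881 n4819 (.cons 798 n4827 (.cons 758 n4828 (.cons 880 n4829 (.cons 800 n4830 (.cons 921 n4831 (.cons 839 n4839 (.cons 963 n4840 (.cons 922 n5093 .nil))))))))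
noncomputable def n5095 : Strat := .move 717 n42 (.cons 675 n2235 .nil)
noncomputable def n5096 : Strat := .move 716 n41 (.cons 757 n5095 .nil)
noncomputable def n5097 : Strat := .move 758 n1243 (.cons 757 n1244 (.cons 797 n5096 .nil))
noncomputable def n5098 : Strat := .move 800 n2 (.cons 759 n110 .nil)
noncomputable def n5099 : Strat := .move 922 n17 (.cons 839 n1237 (.cons 963 n5098 .nil))
noncomputable def n5100 : Strat := .move 798 n1234 (.cons 922 n5097 (.cons 839 n1238 (.cons 757 n5099 .nil)))
noncomputable def n5101 : Strat := .move 797 n82 (.cons 837 n658 .nil)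
noncomputable def n5102 : Strat := .move 838 n320 (.cons 839 n5101 .nil)
noncomputable def n5103 : Strat := .move 801 n117 (.cons 838 n520 (.cons 839 n524 (.cons 802 n5102 .nil)))
noncomputable def n5104 : Strat := .move 923 n25 (.cons 964 n5103 .nil)
noncomputable def n5105 : Strat := .move 921 n7 (.cons 962 n5104 .nil)
noncomputable def n5106 : Strat := .move 800 n2 (.cons 759 n5105 .nil)
noncomputable def n5107 : Strat := .move 798 n0 (.cons 757 n5106 .nil)
noncomputable def n5108 : Strat := .move 922 n18 (.cons 962 n114 (.cons 839 n73 (.cons 963 n5107 .nil)))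
noncomputable def n5109 : Strat := .move 758 n45 (.cons 717 n167 (.cons 757 n40 (.cons 921 n575 .nil)))
noncomputable def n5110 : Strat := .move 922 n6 (.cons 798 n107 (.cons 759 n24 (.cons 963 n539 .nil)))
noncomputable def n5111 : Strat := .move 800 n3246 (.cons 718 n1999 (.cons 841 n2796 .nil))
noncomputable def n5112 : Strat := .move 796 n2074 (.cons 839 n2825 (.cons 837 n2050 .nil))
noncomputable def n5113 : Strat := .move 797 n2867 (.cons 796 n5111 (.cons 843 n2075 (.cons 841 n5112 .nil)))
noncomputable def n5114 : Strat := .move 759 n9 (.cons 718 n1018 .nil)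
noncomputable def n5115 : Strat := .move 717 n43 (.cons 757 n1470 (.cons 675 n3675 (.cons 716 n3680 .nil)))
noncomputable def n5116 : Strat := .move 880 n34 (.cons 921 n5115 .nil)
noncomputable def n5117 : Strat := .move 796 n77 (.cons 841 n854 .nil)
noncomputable def n5118 : Strat := .move 800 n5117 (.cons 759 n76 (.cons 796 n613 .nil))
noncomputable def n5119 : Strat := .move 801 n611 (.cons 761 n100 .nil)
noncomputable def n5120 : Strat := .move 801 n123 (.cons 843 n611 .nil)
noncomputable def n5121 : Strat := .move 842 n124 (.cons 841 n5120 .nil)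
noncomputable def n5122 : Strat := .move 801 n123 (.cons 843 n100 .nil)
noncomputable def n5123 : Strat := .move 842 n124 (.cons 841 n5122 .nil)
noncomputable def n5124 : Strat := .move 838 n82 (.cons 837 n863 .nil)
noncomputable def n5125 : Strat := .move 841 n384 (.cons 878 n75 .nil)
noncomputable def n5126 : Strat := .move 879 n5124 (.cons 920 n5125 .nil)
noncomputable def n5127 : Strat := .move 800 n5119 (.cons 802 n5121 (.cons 761 n5123 (.cons 801 n5126 .nil)))
noncomputable def n5128 : Strat := .move 880 n34 (.cons 921 n5127 .nil)
noncomputable def n5129 : Strat := .move 760 n610 (.cons 759 n5128 .nil)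
noncomputable def n5130 : Strat := .move 796 n854 (.cons 759 n263 .nil)
noncomputable def n5131 : Strat := .move 797 n5118 (.cons 759 n608 (.cons 796 n5129 (.cons 841 n5130 .nil)))
noncomputable def n5132 : Strat := .move 757 n46 (.cons 716 n5131 .nil)
noncomputable def n5133 : Strat := .move 758 n5114 (.cons 759 n5116 (.cons 757 n1244 (.cons 718 n5132 .nil)))
noncomputable def n5134 : Strat := .move 757 n1239 (.cons 758 n1019 .nil)
noncomputable def n5135 : Strat := .move 757 n1019 (.cons 675 n3395 .nil)
noncomputable def n5136 : Strat := .move 758 n2235 (.cons 839 n38 .nil)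
noncomputable def n5137 : Strat := .move 758 n42 (.cons 675 n38 .nil)
noncomputable def n5138 : Strat := .move 800 n308 (.cons 677 n1294 .nil)
noncomputable def n5139 : Strat := .win 800 1 717
noncomputable def n5140 : Strat := .move 842 n514 (.cons 843 n2228 .nil)
noncomputable def n5141 : Strat := .move 841 n5139 (.cons 800 n5140 .nil)
noncomputable def n5142 : Strat := .move 715 n185 (.cons 760 n2333 .nil)
noncomputable def n5143 : Strat := .move 759 n5138 (.cons 677 n5141 (.cons 800 n5142 .nil))
noncomputable def n5144 : Strat := .move 759 n5138 (.cons 800 n2182 .nil)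
noncomputable def n5145 : Strat := .move 715 n2196 (.cons 677 n732 .nil)
noncomputable def n5146 : Strat := .move 760 n731 (.cons 761 n5145 .nil)
noncomputable def n5147 : Strat := .move 678 n751 (.cons 679 n5146 .nil)
noncomputable def n5148 : Strat := .move 675 n2192 (.cons 676 n2191 .nil)
noncomputable def n5149 : Strat := .move 720 n198 (.cons 680 n5148 .nil)
noncomputable def n5150 : Strat := .move 679 n199 (.cons 678 n5149 .nil)
noncomputable def n5151 : Strat := .move 760 n731 (.cons 761 n5150 .nil)
noncomputable def n5152 : Strat := .move 715 n2196 (.cons 677 n2188 .nil)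
noncomputable def n5153 : Strat := .move 678 n751 (.cons 679 n5152 .nil)
noncomputable def n5154 : Strat := .move 719 n5147 (.cons 677 n5151 (.cons 678 n2190 (.cons 761 n5153 .nil)))
noncomputable def n5155 : Strat := .move 720 n195 (.cons 762 n5148 .nil)
noncomputable def n5156 : Strat := .move 761 n196 (.cons 760 n5155 .nil)
noncomputable def n5157 : Strat := .move 678 n751 (.cons 679 n5156 .nil)
noncomputable def n5158 : Strat := .move 720 n2192 (.cons 676 n197 .nil)
noncomputable def n5159 : Strat := .move 675 n2191 (.cons 674 n5158 .nil)
noncomputable def n5160 : Strat := .move 759 n1294 (.cons 841 n308 .nil)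
noncomputable def n5161 : Strat := .move 759 n1294 (.cons 841 n1150 .nil)
noncomputable def n5162 : Strat := .move 759 n308 (.cons 677 n1150 .nil)
noncomputable def n5163 : Strat := .move 760 n410 (.cons 841 n731 .nil)
noncomputable def n5164 : Strat := .move 801 n5163 (.cons 761 n365 .nil)
noncomputable def n5165 : Strat := .move 800 n5160 (.cons 677 n5161 (.cons 841 n5162 (.cons 759 n5164 .nil)))
noncomputable def n5166 : Strat := .move 678 n751 (.cons 679 n5165 .nil)
noncomputable def n5167 : Strat := .move 719 n5157 (.cons 678 n5159 (.cons 760 n2194 (.cons 720 n5166 .nil)))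
noncomputable def n5168 : Strat := .win 801 7 636
noncomputable def n5169 : Strat := .win 595 6 595
noncomputable def n5170 : Strat := .move 636 n5168 (.cons 801 n5169 .nil)
noncomputable def n5171 : Strat := .move 760 n731 (.cons 761 n5170 .nil)
noncomputable def n5172 : Strat := .move 677 n2288 (.cons 715 n5171 .nil)
noncomputable def n5173 : Strat := .move 678 n751 (.cons 679 n5172 .nil)
noncomputable def n5174 : Strat := .move 719 n5173 (.cons 678 n5159 (.cons 761 n2194 .nil))
noncomputable def n5175 : Strat := .win 801 5 757
noncomputable def n5176 : Strat := .move 761 n5175 (.cons 801 n1154 .nil)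
noncomputable def n5177 : Strat := .move 760 n210 (.cons 715 n5176 .nil)
noncomputable def n5178 : Strat := .move 800 n1294 (.cons 841 n5177 .nil)
noncomputable def n5179 : Strat := .move 759 n5138 (.cons 800 n5142 (.cons 677 n5178 .nil))
noncomputable def n5180 : Strat := .move 719 n1104 (.cons 760 n2194 (.cons 679 n5156 .nil))
noncomputable def n5181 : Strat := .move 801 n365 (.cons 838 n1930 .nil)
noncomputable def n5182 : Strat := .move 760 n210 (.cons 715 n5181 .nil)
noncomputable def n5183 : Strat := .move 800 n1294 (.cons 841 n5182 .nil)
noncomputable def n5184 : Strat := .move 759 n5138 (.cons 800 n5142 (.cons 677 n5183 .nil))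
noncomputable def n5185 : Strat := .move 672 n2675 (.cons 671 n2637 .nil)
noncomputable def n5186 : Strat := .win 755 4 713
noncomputable def n5187 : Strat := .move 754 n2642 (.cons 753 n5186 .nil)
noncomputable def n5188 : Strat := .move 713 n5185 (.cons 673 n5187 .nil)
noncomputable def n5189 : Strat := .move 714 n2201 (.cons 676 n5188 .nil)
noncomputable def n5190 : Strat := .move 677 n2200 (.cons 678 n5189 .nil)
noncomputable def n5191 : Strat := .win 675 5 672
noncomputable def n5192 : Strat := .move 676 n5191 (.cons 675 n2682 .nil)
noncomputable def n5193 : Strat := .move 713 n5187 (.cons 755 n5192 .nil)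
noncomputable def n5194 : Strat := .move 714 n1795 (.cons 672 n5193 .nil)
noncomputable def n5195 : Strat := .move 673 n194 (.cons 674 n5194 .nil)
noncomputable def n5196 : Strat := .move 673 n194 (.cons 674 n1795 .nil)
noncomputable def n5197 : Strat := .move 713 n2209 (.cons 712 n2208 .nil)
noncomputable def n5198 : Strat := .move 675 n2207 (.cons 719 n5197 .nil)
noncomputable def n5199 : Strat := .move 674 n734 (.cons 673 n5198 .nil)
noncomputable def n5200 : Strat := .move 674 n2209 (.cons 712 n2207 .nil)
noncomputable def n5201 : Strat := .move 675 n2208 (.cons 676 n5200 .nil)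
noncomputable def n5202 : Strat := .move 713 n5187 (.cons 755 n5201 .nil)
noncomputable def n5203 : Strat := .move 713 n2642 (.cons 753 n5185 .nil)
noncomputable def n5204 : Strat := .move 754 n5186 (.cons 755 n5203 .nil)
noncomputable def n5205 : Strat := .move 714 n5196 (.cons 672 n5199 (.cons 673 n5202 (.cons 674 n5204 .nil)))
noncomputable def n5206 : Strat := .move 678 n2196 (.cons 677 n751 .nil)
noncomputable def n5207 : Strat := .win 720 2 675
noncomputable def n5208 : Strat := .win 674 0 674
noncomputable def n5209 : Strat := .move 675 n5207 (.cons 720 n5208 .nil)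
noncomputable def n5210 : Strat := .move 676 n2267 (.cons 714 n5209 .nil)
noncomputable def n5211 : Strat := .move 677 n2200 (.cons 678 n5210 .nil)
noncomputable def n5212 : Strat := .win 713 5 672
noncomputable def n5213 : Strat := .move 714 n5212 (.cons 713 n2682 .nil)
noncomputable def n5214 : Strat := .move 676 n5207 (.cons 720 n5213 .nil)
noncomputable def n5215 : Strat := .move 675 n2191 (.cons 674 n5214 .nil)
noncomputable def n5216 : Strat := .move 719 n5206 (.cons 679 n5211 (.cons 677 n5150 (.cons 678 n5215 .nil)))
noncomputable def n5217 : Strat := .move 715 n2333 (.cons 676 n2199 (.cons 674 n5190 (.cons 678 n5195 (.cons 677 n5205 (.cons 673 n5216 .nil)))))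
noncomputable def n5218 : Strat := .move 718 n5143 (.cons 672 n5144 (.cons 800 n5154 (.cons 715 n5167 (.cons 759 n5174 (.cons 719 n5179 (.cons 677 n5180 (.cons 761 n5184 (.cons 760 n5217 .nil))))))))
noncomputable def n5219 : Strat := .move 717 n2236 (.cons 675 n5136 (.cons 839 n5137 (.cons 758 n5218 .nil)))
noncomputable def n5220 : Strat := .move 716 n5134 (.cons 758 n5135 (.cons 675 n3991 (.cons 757 n5219 .nil)))
noncomputable def n5221 : Strat := .move 839 n224 (.cons 717 n389 .nil)
noncomputable def n5222 : Strat := .move 880 n34 (.cons 921 n5221 .nil)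
noncomputable def n5223 : Strat := .move 757 n46 (.cons 716 n5222 .nil)
noncomputable def n5224 : Strat := .move 757 n46 (.cons 716 n401 .nil)
noncomputable def n5225 : Strat := .move 759 n9 (.cons 718 n5224 .nil)
noncomputable def n5226 : Strat := .move 842 n514 (.cons 843 n944 .nil)
noncomputable def n5227 : Strat := .move 797 n74 (.cons 796 n4444 .nil)
noncomputable def n5228 : Strat := .move 879 n384 (.cons 878 n5227 .nil)
noncomputable def n5229 : Strat := .move 841 n5226 (.cons 843 n936 (.cons 842 n5228 .nil))
noncomputable def n5230 : Strat := .move 839 n224 (.cons 717 n5229 .nil)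
noncomputable def n5231 : Strat := .move 880 n34 (.cons 921 n5230 .nil)
noncomputable def n5232 : Strat := .move 758 n5223 (.cons 839 n5225 (.cons 716 n5231 (.cons 757 n40 .nil)))
noncomputable def n5233 : Strat := .move 717 n35 (.cons 839 n1470 .nil)
noncomputable def n5234 : Strat := .move 880 n34 (.cons 921 n5233 .nil)
noncomputable def n5235 : Strat := .move 838 n886 (.cons 836 n483 (.cons 837 n4543 .nil))
noncomputable def n5236 : Strat := .move 841 n5226 (.cons 843 n936 (.cons 842 n5235 .nil))
noncomputable def n5237 : Strat := .move 839 n224 (.cons 717 n5236 .nil)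
noncomputable def n5238 : Strat := .move 880 n34 (.cons 921 n5237 .nil)
noncomputable def n5239 : Strat := .move 920 n3227 (.cons 838 n3226 .nil)
noncomputable def n5240 : Strat := .move 879 n384 (.cons 878 n5239 .nil)
noncomputable def n5241 : Strat := .move 797 n74 (.cons 796 n5240 .nil)
noncomputable def n5242 : Strat := .move 879 n384 (.cons 878 n3185 .nil)
noncomputable def n5243 : Strat := .move 842 n514 (.cons 843 n5242 .nil)
noncomputable def n5244 : Strat := .move 841 n3032 (.cons 842 n5241 (.cons 797 n5243 .nil))
noncomputable def n5245 : Strat := .move 880 n34 (.cons 921 n5244 .nil)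
noncomputable def n5246 : Strat := .move 757 n46 (.cons 716 n5245 .nil)
noncomputable def n5247 : Strat := .move 758 n5223 (.cons 757 n5234 (.cons 880 n3656 (.cons 716 n5238 (.cons 717 n5246 (.cons 839 n5116 .nil)))))
noncomputable def n5248 : Strat := .move 757 n46 (.cons 716 n408 .nil)
noncomputable def n5249 : Strat := .move 759 n5224 (.cons 757 n1223 (.cons 796 n5248 (.cons 797 n5096 .nil)))
noncomputable def n5250 : Strat := .move 759 n503 (.cons 635 n4317 .nil)
noncomputable def n5251 : Strat := .move 800 n502 (.cons 841 n5250 .nil)
noncomputable def n5252 : Strat := .move 676 n723 (.cons 839 n5251 .nil)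
noncomputable def n5253 : Strat := .move 717 n42 (.cons 675 n5252 .nil)
noncomputable def n5254 : Strat := .move 716 n41 (.cons 757 n5253 .nil)
noncomputable def n5255 : Strat := .move 838 n4963 (.cons 836 n1084 (.cons 800 n486 .nil))
noncomputable def n5256 : Strat := .move 879 n384 (.cons 878 n5255 .nil)
noncomputable def n5257 : Strat := .move 797 n74 (.cons 796 n5256 .nil)
noncomputable def n5258 : Strat := .move 841 n5226 (.cons 843 n824 (.cons 797 n885 (.cons 842 n5257 .nil)))
noncomputable def n5259 : Strat := .move 839 n224 (.cons 717 n5258 .nil)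
noncomputable def n5260 : Strat := .move 880 n34 (.cons 921 n5259 .nil)
noncomputable def n5261 : Strat := .move 676 n181 (.cons 634 n5251 .nil)
noncomputable def n5262 : Strat := .move 675 n180 (.cons 716 n5261 .nil)
noncomputable def n5263 : Strat := .move 717 n35 (.cons 839 n5262 .nil)
noncomputable def n5264 : Strat := .move 880 n34 (.cons 921 n5263 .nil)
noncomputable def n5265 : Strat := .move 758 n5249 (.cons 880 n5254 (.cons 839 n5132 (.cons 760 n5096 (.cons 716 n5260 (.cons 757 n5264 .nil)))))
noncomputable def n5266 : Strat := .move 798 n5097 (.cons 758 n5113 (.cons 839 n5133 (.cons 797 n5220 (.cons 800 n5232 (.cons 759 n5247 (.cons 718 n5265 .nil))))))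
noncomputable def n5267 : Strat := .move 881 n5100 (.cons 758 n5108 (.cons 798 n578 (.cons 800 n5109 (.cons 759 n630 (.cons 921 n5110 (.cons 922 n5266 .nil))))))
noncomputable def n5268 : Strat := .move 881 n98 (.cons 922 n1294 .nil)
noncomputable def n5269 : Strat := .move 718 n308 (.cons 677 n5268 .nil)
noncomputable def n5270 : Strat := .move 797 n958 (.cons 760 n74 .nil)
noncomputable def n5271 : Strat := .move 757 n2089 (.cons 758 n258 .nil)
noncomputable def n5272 : Strat := .move 802 n521 (.cons 803 n5271 .nil)
noncomputable def n5273 : Strat := .move 757 n258 (.cons 756 n3645 .nil)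
noncomputable def n5274 : Strat := .move 760 n611 (.cons 761 n5273 .nil)
noncomputable def n5275 : Strat := .move 801 n5272 (.cons 802 n5274 (.cons 756 n631 .nil))
noncomputable def n5276 : Strat := .move 842 n514 (.cons 843 n5275 .nil)
noncomputable def n5277 : Strat := .move 841 n5270 (.cons 760 n515 (.cons 797 n5276 .nil))
noncomputable def n5278 : Strat := .move 796 n77 (.cons 841 n2386 .nil)
noncomputable def n5279 : Strat := .move 757 n46 (.cons 716 n316 .nil)
noncomputable def n5280 : Strat := .move 758 n313 (.cons 796 n5279 .nil)
noncomputable def n5281 : Strat := .move 797 n5278 (.cons 758 n76 (.cons 796 n2869 (.cons 841 n5280 .nil)))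
noncomputable def n5282 : Strat := .move 797 n958 (.cons 760 n76 .nil)
noncomputable def n5283 : Strat := .win 758 4 757
noncomputable def n5284 : Strat := .move 761 n541 (.cons 762 n5283 .nil)
noncomputable def n5285 : Strat := .move 760 n788 (.cons 797 n5284 .nil)
noncomputable def n5286 : Strat := .move 758 n46 (.cons 716 n100 .nil)
noncomputable def n5287 : Strat := .move 757 n258 (.cons 756 n5286 .nil)
noncomputable def n5288 : Strat := .move 757 n258 (.cons 756 n1240 .nil)
noncomputable def n5289 : Strat := .move 801 n5287 (.cons 758 n2116 (.cons 802 n5288 .nil))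
noncomputable def n5290 : Strat := .move 798 n5277 (.cons 760 n5281 (.cons 758 n5282 (.cons 796 n5285 (.cons 797 n5289 .nil))))
noncomputable def n5291 : Strat := .move 881 n98 (.cons 922 n5290 .nil)
noncomputable def n5292 : Strat := .move 881 n98 (.cons 922 n1290 .nil)
noncomputable def n5293 : Strat := .move 718 n308 (.cons 677 n5292 .nil)
noncomputable def n5294 : Strat := .move 761 n1154 (.cons 762 n2965 .nil)
noncomputable def n5295 : Strat := .move 716 n210 (.cons 715 n731 .nil)
noncomputable def n5296 : Strat := .move 675 n2191 (.cons 674 n2216 .nil)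
noncomputable def n5297 : Strat := .move 716 n210 (.cons 715 n5296 .nil)
noncomputable def n5298 : Strat := .move 798 n5283 (.cons 758 n788 .nil)
noncomputable def n5299 : Strat := .move 761 n1154 (.cons 762 n5298 .nil)
noncomputable def n5300 : Strat := .move 760 n5294 (.cons 762 n5295 (.cons 761 n5297 (.cons 716 n5299 .nil)))
noncomputable def n5301 : Strat := .move 719 n1631 (.cons 678 n5300 .nil)
noncomputable def n5302 : Strat := .move 717 n2176 (.cons 676 n5301 .nil)
noncomputable def n5303 : Strat := .move 716 n2217 (.cons 715 n5296 .nil)
noncomputable def n5304 : Strat := .move 843 n1907 (.cons 844 n5303 .nil)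
noncomputable def n5305 : Strat := .move 842 n1605 (.cons 883 n5304 .nil)
noncomputable def n5306 : Strat := .move 719 n1631 (.cons 678 n5305 .nil)
noncomputable def n5307 : Strat := .move 717 n2176 (.cons 676 n5306 .nil)
noncomputable def n5308 : Strat := .move 841 n1607 (.cons 842 n5302 (.cons 798 n5307 .nil))
noncomputable def n5309 : Strat := .move 718 n308 (.cons 677 n5308 .nil)
noncomputable def n5310 : Strat := .move 759 n5269 (.cons 718 n5291 (.cons 841 n5293 (.cons 881 n5309 .nil)))
noncomputable def n5311 : Strat := .win 758 0 757
noncomputable def n5312 : Strat := .move 802 n5311 (.cons 758 n121 .nil)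
noncomputable def n5313 : Strat := .move 757 n258 (.cons 756 n5312 .nil)
noncomputable def n5314 : Strat := .move 801 n611 (.cons 761 n5313 .nil)
noncomputable def n5315 : Strat := .move 798 n788 (.cons 797 n5314 .nil)
noncomputable def n5316 : Strat := .move 716 n285 (.cons 717 n284 .nil)
noncomputable def n5317 : Strat := .move 757 n59 (.cons 801 n5316 .nil)
noncomputable def n5318 : Strat := .move 802 n58 (.cons 803 n5317 .nil)
noncomputable def n5319 : Strat := .win 716 2 716
noncomputable def n5320 : Strat := .move 717 n5319 (.cons 716 n713 .nil)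
noncomputable def n5321 : Strat := .win 884 7 719
noncomputable def n5322 : Strat := .move 719 n3017 (.cons 678 n5321 .nil)
noncomputable def n5323 : Strat := .move 843 n120 (.cons 844 n5322 .nil)
noncomputable def n5324 : Strat := .move 801 n4268 (.cons 757 n5323 .nil)
noncomputable def n5325 : Strat := .move 802 n58 (.cons 803 n5324 .nil)
noncomputable def n5326 : Strat := .move 758 n5318 (.cons 757 n5320 (.cons 716 n5325 .nil))
noncomputable def n5327 : Strat := .move 761 n541 (.cons 762 n5326 .nil)
noncomputable def n5328 : Strat := .move 761 n541 (.cons 762 n5175 .nil)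
noncomputable def n5329 : Strat := .move 798 n788 (.cons 797 n5328 .nil)
noncomputable def n5330 : Strat := .move 798 n788 (.cons 797 n5284 .nil)
noncomputable def n5331 : Strat := .win 804 2 759
noncomputable def n5332 : Strat := .move 803 n3620 (.cons 841 n5331 .nil)
noncomputable def n5333 : Strat := .move 843 n120 (.cons 844 n5332 .nil)
noncomputable def n5334 : Strat := .move 802 n5311 (.cons 758 n5333 .nil)
noncomputable def n5335 : Strat := .move 757 n258 (.cons 756 n5334 .nil)
noncomputable def n5336 : Strat := .move 758 n325 (.cons 802 n1020 .nil)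
noncomputable def n5337 : Strat := .move 757 n258 (.cons 756 n5336 .nil)
noncomputable def n5338 : Strat := .move 802 n120 (.cons 844 n5332 .nil)
noncomputable def n5339 : Strat := .move 843 n119 (.cons 842 n5338 .nil)
noncomputable def n5340 : Strat := .move 757 n258 (.cons 756 n5339 .nil)
noncomputable def n5341 : Strat := .move 758 n409 (.cons 720 n284 .nil)
noncomputable def n5342 : Strat := .move 719 n412 (.cons 637 n5341 .nil)
noncomputable def n5343 : Strat := .move 716 n1019 (.cons 675 n5342 .nil)
noncomputable def n5344 : Strat := .move 757 n258 (.cons 756 n5343 .nil)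
noncomputable def n5345 : Strat := .move 842 n123 (.cons 843 n5344 .nil)
noncomputable def n5346 : Strat := .win 758 2 758
noncomputable def n5347 : Strat := .move 803 n5346 (.cons 758 n5331 .nil)
noncomputable def n5348 : Strat := .move 802 n120 (.cons 844 n5347 .nil)
noncomputable def n5349 : Strat := .move 843 n119 (.cons 842 n5348 .nil)
noncomputable def n5350 : Strat := .move 801 n5313 (.cons 842 n5335 (.cons 844 n5337 (.cons 758 n5340 (.cons 802 n5345 (.cons 756 n5349 .nil)))))
noncomputable def n5351 : Strat := .move 798 n788 (.cons 797 n5350 .nil)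
noncomputable def n5352 : Strat := .move 760 n5315 (.cons 798 n5327 (.cons 758 n5329 (.cons 801 n5330 (.cons 761 n5351 .nil))))
noncomputable def n5353 : Strat := .move 841 n2176 (.cons 676 n5306 .nil)
noncomputable def n5354 : Strat := .move 716 n210 (.cons 715 n2180 .nil)
noncomputable def n5355 : Strat := .move 761 n1154 (.cons 762 n5354 .nil)
noncomputable def n5356 : Strat := .move 716 n2180 (.cons 719 n2241 .nil)
noncomputable def n5357 : Strat := .move 761 n1154 (.cons 762 n5356 .nil)
noncomputable def n5358 : Strat := .move 678 n1148 (.cons 841 n411 .nil)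
noncomputable def n5359 : Strat := .move 678 n751 (.cons 679 n1148 .nil)
noncomputable def n5360 : Strat := .move 758 n42 (.cons 675 n5359 .nil)
noncomputable def n5361 : Strat := .move 758 n42 (.cons 675 n1109 .nil)
noncomputable def n5362 : Strat := .move 719 n5358 (.cons 637 n5360 (.cons 678 n5361 .nil))
noncomputable def n5363 : Strat := .move 716 n210 (.cons 715 n5362 .nil)
noncomputable def n5364 : Strat := .move 758 n1110 (.cons 757 n1111 .nil)
noncomputable def n5365 : Strat := .win 801 1 637
noncomputable def n5366 : Strat := .win 597 1 596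
noncomputable def n5367 : Strat := .move 638 n5365 (.cons 801 n5366 .nil)
noncomputable def n5368 : Strat := .move 679 n198 (.cons 680 n5367 .nil)
noncomputable def n5369 : Strat := .move 720 n5364 (.cons 721 n5368 .nil)
noncomputable def n5370 : Strat := .move 719 n5358 (.cons 841 n5369 .nil)
noncomputable def n5371 : Strat := .move 761 n1154 (.cons 762 n5370 .nil)
noncomputable def n5372 : Strat := .move 716 n210 (.cons 715 n2241 .nil)
noncomputable def n5373 : Strat := .move 761 n1154 (.cons 762 n5372 .nil)
noncomputable def n5374 : Strat := .move 760 n5355 (.cons 715 n5357 (.cons 761 n5363 (.cons 716 n5371 (.cons 719 n5373 .nil))))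
noncomputable def n5375 : Strat := .move 716 n731 (.cons 761 n210 .nil)
noncomputable def n5376 : Strat := .move 761 n2965 (.cons 716 n1154 .nil)
noncomputable def n5377 : Strat := .win 801 6 719
noncomputable def n5378 : Strat := .move 884 n5377 (.cons 801 n1364 .nil)
noncomputable def n5379 : Strat := .move 760 n5375 (.cons 715 n5376 (.cons 761 n5378 .nil))
noncomputable def n5380 : Strat := .move 843 n1907 (.cons 844 n5379 .nil)
noncomputable def n5381 : Strat := .move 842 n1605 (.cons 883 n5380 .nil)
noncomputable def n5382 : Strat := .move 719 n1631 (.cons 678 n5381 .nil)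
noncomputable def n5383 : Strat := .move 841 n2176 (.cons 676 n5382 .nil)
noncomputable def n5384 : Strat := .move 758 n1912 (.cons 757 n1228 .nil)
noncomputable def n5385 : Strat := .move 842 n1605 (.cons 883 n5384 .nil)
noncomputable def n5386 : Strat := .move 719 n1631 (.cons 678 n5385 .nil)
noncomputable def n5387 : Strat := .move 841 n2176 (.cons 676 n5386 .nil)
noncomputable def n5388 : Strat := .win 758 6 635
noncomputable def n5389 : Strat := .move 635 n767 (.cons 594 n5388 .nil)
noncomputable def n5390 : Strat := .move 676 n2265 (.cons 841 n5389 .nil)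
noncomputable def n5391 : Strat := .move 758 n42 (.cons 675 n212 .nil)
noncomputable def n5392 : Strat := .move 758 n42 (.cons 675 n739 .nil)
noncomputable def n5393 : Strat := .move 756 n48 (.cons 801 n139 .nil)
noncomputable def n5394 : Strat := .move 678 n411 (.cons 637 n751 .nil)
noncomputable def n5395 : Strat := .move 719 n718 (.cons 720 n5394 .nil)
noncomputable def n5396 : Strat := .move 757 n2255 (.cons 719 n815 (.cons 755 n5393 (.cons 756 n5395 .nil)))
noncomputable def n5397 : Strat := .move 760 n211 (.cons 761 n5396 .nil)
noncomputable def n5398 : Strat := .move 758 n42 (.cons 675 n5397 .nil)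
noncomputable def n5399 : Strat := .move 757 n48 (.cons 801 n139 .nil)
noncomputable def n5400 : Strat := .move 756 n192 (.cons 755 n5399 .nil)
noncomputable def n5401 : Strat := .move 715 n154 (.cons 714 n5400 .nil)
noncomputable def n5402 : Strat := .move 758 n42 (.cons 675 n5401 .nil)
noncomputable def n5403 : Strat := .move 716 n5391 (.cons 761 n5392 (.cons 758 n2228 (.cons 715 n5398 (.cons 760 n5402 .nil))))
noncomputable def n5404 : Strat := .move 717 n5353 (.cons 676 n5374 (.cons 758 n5383 (.cons 761 n5387 (.cons 715 n5390 (.cons 841 n5403 .nil)))))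
noncomputable def n5405 : Strat := .move 718 n308 (.cons 677 n5404 .nil)
noncomputable def n5406 : Strat := .move 675 n2375 (.cons 757 n2191 .nil)
noncomputable def n5407 : Strat := .move 798 n788 (.cons 797 n5406 .nil)
noncomputable def n5408 : Strat := .move 716 n210 (.cons 715 n5407 .nil)
noncomputable def n5409 : Strat := .move 798 n5175 (.cons 801 n788 .nil)
noncomputable def n5410 : Strat := .move 761 n1154 (.cons 762 n5409 .nil)
noncomputable def n5411 : Strat := .move 760 n5294 (.cons 761 n5408 (.cons 716 n5410 .nil))
noncomputable def n5412 : Strat := .move 717 n2176 (.cons 676 n5411 .nil)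
noncomputable def n5413 : Strat := .move 719 n1631 (.cons 678 n5412 .nil)
noncomputable def n5414 : Strat := .move 717 n2176 (.cons 676 n5382 .nil)
noncomputable def n5415 : Strat := .move 841 n1607 (.cons 842 n5413 (.cons 798 n5414 .nil))
noncomputable def n5416 : Strat := .move 718 n308 (.cons 677 n5415 .nil)
noncomputable def n5417 : Strat := .win 798 0 798
noncomputable def n5418 : Strat := .move 843 n5417 (.cons 798 n1907 .nil)
noncomputable def n5419 : Strat := .move 842 n1605 (.cons 883 n5418 .nil)
noncomputable def n5420 : Strat := .move 716 n42 (.cons 675 n739 .nil)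
noncomputable def n5421 : Strat := .move 717 n980 (.cons 676 n5420 .nil)
noncomputable def n5422 : Strat := .move 758 n953 (.cons 757 n5421 .nil)
noncomputable def n5423 : Strat := .move 802 n521 (.cons 803 n5422 .nil)
noncomputable def n5424 : Strat := .move 801 n5419 (.cons 842 n5423 .nil)
noncomputable def n5425 : Strat := .move 758 n1632 (.cons 756 n1112 (.cons 757 n1228 .nil))
noncomputable def n5426 : Strat := .move 719 n1631 (.cons 678 n5425 .nil)
noncomputable def n5427 : Strat := .move 717 n2176 (.cons 676 n5426 .nil)
noncomputable def n5428 : Strat := .move 841 n5424 (.cons 842 n5427 (.cons 714 n1607 .nil))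
noncomputable def n5429 : Strat := .move 718 n308 (.cons 677 n5428 .nil)
noncomputable def n5430 : Strat := .move 798 n788 (.cons 797 n5283 .nil)
noncomputable def n5431 : Strat := .move 761 n541 (.cons 762 n5430 .nil)
noncomputable def n5432 : Strat := .move 761 n5283 (.cons 758 n5175 .nil)
noncomputable def n5433 : Strat := .move 798 n788 (.cons 797 n5432 .nil)
noncomputable def n5434 : Strat := .move 798 n788 (.cons 797 n5175 .nil)
noncomputable def n5435 : Strat := .move 761 n541 (.cons 762 n5434 .nil)
noncomputable def n5436 : Strat := .move 798 n5283 (.cons 758 n5175 .nil)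
noncomputable def n5437 : Strat := .move 761 n541 (.cons 762 n5436 .nil)
noncomputable def n5438 : Strat := .move 802 n5311 (.cons 758 n5332 .nil)
noncomputable def n5439 : Strat := .move 801 n258 (.cons 756 n5438 .nil)
noncomputable def n5440 : Strat := .move 758 n325 (.cons 802 n1206 .nil)
noncomputable def n5441 : Strat := .move 801 n258 (.cons 756 n5440 .nil)
noncomputable def n5442 : Strat := .move 756 n139 (.cons 719 n260 .nil)
noncomputable def n5443 : Strat := .move 717 n210 (.cons 715 n5442 .nil)
noncomputable def n5444 : Strat := .move 716 n1019 (.cons 675 n5443 .nil)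
noncomputable def n5445 : Strat := .move 719 n409 (.cons 720 n4559 .nil)
noncomputable def n5446 : Strat := .move 758 n284 (.cons 715 n5445 .nil)
noncomputable def n5447 : Strat := .move 716 n1019 (.cons 675 n5446 .nil)
noncomputable def n5448 : Strat := .move 757 n5439 (.cons 841 n5441 (.cons 758 n5444 (.cons 756 n5447 .nil)))
noncomputable def n5449 : Strat := .move 798 n788 (.cons 797 n5448 .nil)
noncomputable def n5450 : Strat := .move 717 n5319 (.cons 716 n644 .nil)
noncomputable def n5451 : Strat := .move 756 n289 (.cons 719 n47 .nil)
noncomputable def n5452 : Strat := .move 757 n59 (.cons 801 n5451 .nil)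
noncomputable def n5453 : Strat := .move 802 n58 (.cons 803 n5452 .nil)
noncomputable def n5454 : Strat := .move 758 n5450 (.cons 716 n5453 .nil)
noncomputable def n5455 : Strat := .move 761 n541 (.cons 762 n5454 .nil)
noncomputable def n5456 : Strat := .move 760 n5431 (.cons 762 n5433 (.cons 758 n5435 (.cons 797 n5437 (.cons 761 n5449 (.cons 798 n5455 .nil)))))
noncomputable def n5457 : Strat := .move 718 n308 (.cons 677 n5456 .nil)
noncomputable def n5458 : Strat := .move 757 n258 (.cons 756 n5438 .nil)
noncomputable def n5459 : Strat := .move 801 n1930 (.cons 842 n5458 .nil)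
noncomputable def n5460 : Strat := .move 798 n788 (.cons 797 n5459 .nil)
noncomputable def n5461 : Strat := .win 798 5 757
noncomputable def n5462 : Strat := .move 758 n58 (.cons 803 n4268 .nil)
noncomputable def n5463 : Strat := .win 758 0 758
noncomputable def n5464 : Strat := .move 803 n5463 (.cons 758 n5331 .nil)
noncomputable def n5465 : Strat := .move 803 n5331 (.cons 804 n3620 .nil)
noncomputable def n5466 : Strat := .win 679 1 678
noncomputable def n5467 : Strat := .move 720 n5466 (.cons 679 n61 .nil)
noncomputable def n5468 : Strat := .move 842 n1027 (.cons 883 n5467 .nil)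
noncomputable def n5469 : Strat := .move 758 n4268 (.cons 757 n5468 .nil)
noncomputable def n5470 : Strat := .move 802 n5462 (.cons 757 n5464 (.cons 758 n5465 (.cons 803 n5469 .nil)))
noncomputable def n5471 : Strat := .move 801 n5461 (.cons 798 n5470 .nil)
noncomputable def n5472 : Strat := .move 761 n541 (.cons 762 n5471 .nil)
noncomputable def n5473 : Strat := .win 885 6 720
noncomputable def n5474 : Strat := .win 801 0 799
noncomputable def n5475 : Strat := .move 844 n5473 (.cons 885 n5474 .nil)
noncomputable def n5476 : Strat := .win 678 7 678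
noncomputable def n5477 : Strat := .move 719 n5476 (.cons 678 n5321 .nil)
noncomputable def n5478 : Strat := .move 843 n5475 (.cons 801 n5477 .nil)
noncomputable def n5479 : Strat := .move 720 n61 (.cons 721 n5478 .nil)
noncomputable def n5480 : Strat := .move 802 n58 (.cons 803 n5479 .nil)
noncomputable def n5481 : Strat := .win 757 5 716
noncomputable def n5482 : Strat := .move 719 n5481 (.cons 757 n4559 .nil)
noncomputable def n5483 : Strat := .move 720 n61 (.cons 721 n5482 .nil)
noncomputable def n5484 : Strat := .move 801 n4268 (.cons 757 n5468 .nil)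
noncomputable def n5485 : Strat := .move 802 n58 (.cons 803 n5484 .nil)
noncomputable def n5486 : Strat := .move 758 n5453 (.cons 757 n5480 (.cons 802 n5483 (.cons 719 n5485 .nil)))
noncomputable def n5487 : Strat := .move 761 n541 (.cons 762 n5486 .nil)
noncomputable def n5488 : Strat := .move 760 n5431 (.cons 761 n5460 (.cons 797 n5472 (.cons 758 n5435 (.cons 798 n5487 .nil))))
noncomputable def n5489 : Strat := .move 718 n308 (.cons 677 n5488 .nil)
noncomputable def n5490 : Strat := .move 842 n1605 (.cons 883 n4065 .nil)
noncomputable def n5491 : Strat := .move 758 n718 (.cons 720 n1194 .nil)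
noncomputable def n5492 : Strat := .move 756 n2410 (.cons 716 n2062 .nil)
noncomputable def n5493 : Strat := .move 675 n281 (.cons 798 n2191 .nil)
noncomputable def n5494 : Strat := .move 716 n719 (.cons 756 n5493 .nil)
noncomputable def n5495 : Strat := .win 758 4 716
noncomputable def n5496 : Strat := .win 763 0 718
noncomputable def n5497 : Strat := .win 761 0 717
noncomputable def n5498 : Strat := .move 762 n5496 (.cons 763 n5497 .nil)
noncomputable def n5499 : Strat := .win 681 5 677
noncomputable def n5500 : Strat := .win 679 5 676
noncomputable def n5501 : Strat := .move 680 n5499 (.cons 681 n5500 .nil)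
noncomputable def n5502 : Strat := .move 721 n5498 (.cons 761 n5501 .nil)
noncomputable def n5503 : Strat := .move 720 n5495 (.cons 758 n5502 .nil)
noncomputable def n5504 : Strat := .move 757 n5491 (.cons 720 n5492 (.cons 758 n5494 (.cons 756 n5503 .nil)))
noncomputable def n5505 : Strat := .move 719 n1631 (.cons 678 n5504 .nil)
noncomputable def n5506 : Strat := .move 717 n2176 (.cons 676 n5505 .nil)
noncomputable def n5507 : Strat := .move 674 n734 (.cons 673 n2187 .nil)
noncomputable def n5508 : Strat := .move 756 n192 (.cons 755 n193 .nil)
noncomputable def n5509 : Strat := .move 715 n5507 (.cons 675 n5508 .nil)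
noncomputable def n5510 : Strat := .move 842 n1605 (.cons 883 n5509 .nil)
noncomputable def n5511 : Strat := .move 675 n2216 (.cons 758 n2191 .nil)
noncomputable def n5512 : Strat := .move 757 n5495 (.cons 758 n719 .nil)
noncomputable def n5513 : Strat := .move 758 n1111 (.cons 721 n1110 .nil)
noncomputable def n5514 : Strat := .move 720 n5512 (.cons 756 n5513 (.cons 758 n5502 .nil))
noncomputable def n5515 : Strat := .move 716 n5361 (.cons 758 n5510 (.cons 757 n5511 (.cons 675 n5514 .nil)))
noncomputable def n5516 : Strat := .move 719 n1631 (.cons 678 n5515 .nil)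
noncomputable def n5517 : Strat := .move 717 n2176 (.cons 676 n5516 .nil)
noncomputable def n5518 : Strat := .move 841 n5490 (.cons 842 n5506 (.cons 798 n5517 .nil))
noncomputable def n5519 : Strat := .move 718 n308 (.cons 677 n5518 .nil)
noncomputable def n5520 : Strat := .move 757 n258 (.cons 756 n5440 .nil)
noncomputable def n5521 : Strat := .move 801 n1930 (.cons 842 n5520 .nil)
noncomputable def n5522 : Strat := .move 798 n788 (.cons 797 n5521 .nil)
noncomputable def n5523 : Strat := .move 757 n1610 (.cons 719 n815 .nil)
noncomputable def n5524 : Strat := .move 720 n61 (.cons 721 n5523 .nil)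
noncomputable def n5525 : Strat := .move 717 n5319 (.cons 716 n5524 .nil)
noncomputable def n5526 : Strat := .move 758 n286 (.cons 798 n5525 .nil)
noncomputable def n5527 : Strat := .move 761 n541 (.cons 762 n5526 .nil)
noncomputable def n5528 : Strat := .win 675 2 675
noncomputable def n5529 : Strat := .move 676 n5528 (.cons 675 n503 .nil)
noncomputable def n5530 : Strat := .move 719 n1110 (.cons 757 n5529 .nil)
noncomputable def n5531 : Strat := .move 720 n61 (.cons 721 n5530 .nil)
noncomputable def n5532 : Strat := .move 717 n5319 (.cons 716 n5531 .nil)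
noncomputable def n5533 : Strat := .win 719 2 675
noncomputable def n5534 : Strat := .move 720 n5533 (.cons 719 n61 .nil)
noncomputable def n5535 : Strat := .move 675 n181 (.cons 634 n5534 .nil)
noncomputable def n5536 : Strat := .move 676 n503 (.cons 635 n5535 .nil)
noncomputable def n5537 : Strat := .move 717 n5319 (.cons 716 n5536 .nil)
noncomputable def n5538 : Strat := .move 758 n5525 (.cons 801 n5532 (.cons 717 n5453 (.cons 757 n5537 (.cons 719 n5485 .nil))))
noncomputable def n5539 : Strat := .move 761 n541 (.cons 762 n5538 .nil)
noncomputable def n5540 : Strat := .move 760 n5431 (.cons 761 n5522 (.cons 758 n5435 (.cons 797 n5527 (.cons 798 n5539 .nil))))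
noncomputable def n5541 : Strat := .move 718 n308 (.cons 677 n5540 .nil)
noncomputable def n5542 : Strat := .move 755 n79 (.cons 756 n78 .nil)
noncomputable def n5543 : Strat := .move 796 n2386 (.cons 758 n5542 .nil)
noncomputable def n5544 : Strat := .move 716 n1019 (.cons 675 n3487 .nil)
noncomputable def n5545 : Strat := .move 757 n260 (.cons 801 n5544 .nil)
noncomputable def n5546 : Strat := .move 756 n85 (.cons 755 n5545 .nil)
noncomputable def n5547 : Strat := .move 841 n75 (.cons 842 n5546 .nil)
noncomputable def n5548 : Strat := .move 797 n76 (.cons 841 n5543 (.cons 796 n5547 .nil))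
noncomputable def n5549 : Strat := .win 841 6 718
noncomputable def n5550 : Strat := .move 883 n5549 (.cons 841 n1625 .nil)
noncomputable def n5551 : Strat := .move 842 n123 (.cons 843 n5550 .nil)
noncomputable def n5552 : Strat := .move 883 n5549 (.cons 841 n1624 .nil)
noncomputable def n5553 : Strat := .move 842 n123 (.cons 843 n5552 .nil)
noncomputable def n5554 : Strat := .move 760 n611 (.cons 761 n1485 .nil)
noncomputable def n5555 : Strat := .move 801 n5551 (.cons 760 n5553 (.cons 841 n5554 (.cons 842 n2114 .nil)))
noncomputable def n5556 : Strat := .move 798 n5282 (.cons 841 n5285 (.cons 760 n5548 (.cons 797 n5555 .nil)))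
noncomputable def n5557 : Strat := .move 718 n308 (.cons 677 n5556 .nil)
noncomputable def n5558 : Strat := .move 759 n5309 (.cons 718 n5352 (.cons 798 n5405 (.cons 758 n5416 (.cons 761 n5429 (.cons 842 n5457 (.cons 716 n5489 (.cons 760 n5519 (.cons 841 n5541 (.cons 719 n5557 .nil)))))))))
noncomputable def n5559 : Strat := .move 841 n512 (.cons 963 n110 .nil)
noncomputable def n5560 : Strat := .move 922 n2 (.cons 759 n5559 .nil)
noncomputable def n5561 : Strat := .move 922 n5559 (.cons 963 n110 (.cons 962 n106 (.cons 923 n72 .nil)))
noncomputable def n5562 : Strat := .move 922 n2 (.cons 759 n110 .nil)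
noncomputable def n5563 : Strat := .move 922 n2 (.cons 759 n106 .nil)
noncomputable def n5564 : Strat := .move 759 n98 (.cons 922 n1295 .nil)
noncomputable def n5565 : Strat := .move 717 n42 (.cons 675 n2251 .nil)
noncomputable def n5566 : Strat := .move 716 n41 (.cons 757 n5565 .nil)
noncomputable def n5567 : Strat := .move 757 n46 (.cons 716 n838 .nil)
noncomputable def n5568 : Strat := .move 676 n502 (.cons 841 n1414 .nil)
noncomputable def n5569 : Strat := .move 759 n9 (.cons 718 n644 .nil)
noncomputable def n5570 : Strat := .move 717 n38 (.cons 718 n5568 (.cons 677 n5569 (.cons 759 n2251 .nil)))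
noncomputable def n5571 : Strat := .move 880 n34 (.cons 921 n5570 .nil)
noncomputable def n5572 : Strat := .move 758 n643 (.cons 759 n5566 (.cons 718 n5567 (.cons 716 n5571 .nil)))
noncomputable def n5573 : Strat := .move 881 n5560 (.cons 759 n5561 (.cons 963 n5562 (.cons 962 n5563 (.cons 923 n5564 (.cons 922 n5572 .nil)))))
noncomputable def n5574 : Strat := .move 797 n958 (.cons 760 n5278 .nil)
noncomputable def n5575 : Strat := .move 797 n5278 (.cons 758 n76 (.cons 841 n5280 (.cons 796 n2869 .nil)))
noncomputable def n5576 : Strat := .move 801 n258 (.cons 756 n5286 .nil)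
noncomputable def n5577 : Strat := .move 801 n258 (.cons 756 n2090 .nil)
noncomputable def n5578 : Strat := .move 802 n120 (.cons 844 n452 .nil)
noncomputable def n5579 : Strat := .move 843 n119 (.cons 842 n5578 .nil)
noncomputable def n5580 : Strat := .move 801 n258 (.cons 756 n5579 .nil)
noncomputable def n5581 : Strat := .move 757 n5576 (.cons 801 n1240 (.cons 716 n5577 (.cons 758 n5580 .nil)))
noncomputable def n5582 : Strat := .move 798 n5574 (.cons 760 n5575 (.cons 758 n5282 (.cons 796 n5285 (.cons 797 n5581 .nil))))
noncomputable def n5583 : Strat := .move 881 n98 (.cons 922 n5582 .nil)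
noncomputable def n5584 : Strat := .move 841 n521 (.cons 803 n452 .nil)
noncomputable def n5585 : Strat := .move 802 n2089 (.cons 758 n5584 .nil)
noncomputable def n5586 : Strat := .move 757 n258 (.cons 756 n5585 .nil)
noncomputable def n5587 : Strat := .move 801 n5551 (.cons 883 n2091 (.cons 842 n5586 .nil))
noncomputable def n5588 : Strat := .move 797 n76 (.cons 841 n5543 (.cons 796 n2869 .nil))
noncomputable def n5589 : Strat := .move 798 n5282 (.cons 841 n5285 (.cons 797 n5587 (.cons 760 n5588 .nil)))
noncomputable def n5590 : Strat := .move 718 n308 (.cons 677 n5589 .nil)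
noncomputable def n5591 : Strat := .move 759 n5269 (.cons 718 n5583 (.cons 841 n5293 (.cons 881 n5590 .nil)))
noncomputable def n5592 : Strat := .win 678 1 677
noncomputable def n5593 : Strat := .move 719 n409 (.cons 720 n5592 .nil)
noncomputable def n5594 : Strat := .move 757 n99 (.cons 756 n5593 .nil)
noncomputable def n5595 : Strat := .move 760 n298 (.cons 761 n5594 .nil)
noncomputable def n5596 : Strat := .win 760 4 757
noncomputable def n5597 : Strat := .move 802 n451 (.cons 762 n954 .nil)
noncomputable def n5598 : Strat := .move 761 n5596 (.cons 760 n5597 .nil)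
noncomputable def n5599 : Strat := .move 842 n123 (.cons 843 n5598 .nil)
noncomputable def n5600 : Strat := .move 801 n955 (.cons 802 n5595 (.cons 757 n5599 .nil))
noncomputable def n5601 : Strat := .move 797 n74 (.cons 796 n75 .nil)
noncomputable def n5602 : Strat := .move 841 n5270 (.cons 796 n4565 (.cons 797 n5600 (.cons 760 n5601 .nil)))
noncomputable def n5603 : Strat := .move 801 n964 (.cons 757 n417 .nil)
noncomputable def n5604 : Strat := .move 756 n85 (.cons 755 n5603 .nil)
noncomputable def n5605 : Strat := .move 797 n313 (.cons 796 n5604 .nil)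
noncomputable def n5606 : Strat := .move 757 n99 (.cons 756 n325 .nil)
noncomputable def n5607 : Strat := .move 757 n99 (.cons 756 n413 .nil)
noncomputable def n5608 : Strat := .move 801 n5606 (.cons 757 n977 (.cons 802 n5607 .nil))
noncomputable def n5609 : Strat := .move 760 n298 (.cons 761 n5608 .nil)
noncomputable def n5610 : Strat := .move 798 n5602 (.cons 760 n5605 (.cons 796 n4565 (.cons 797 n5609 .nil)))
noncomputable def n5611 : Strat := .move 881 n98 (.cons 922 n5610 .nil)
noncomputable def n5612 : Strat := .move 719 n718 (.cons 720 n4559 .nil)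
noncomputable def n5613 : Strat := .move 760 n1481 (.cons 762 n299 (.cons 761 n5612 .nil))
noncomputable def n5614 : Strat := .move 757 n316 (.cons 755 n101 (.cons 756 n5613 .nil))
noncomputable def n5615 : Strat := .move 798 n297 (.cons 797 n1485 .nil)
noncomputable def n5616 : Strat := .move 801 n325 (.cons 802 n5615 .nil)
noncomputable def n5617 : Strat := .move 760 n1481 (.cons 762 n299 (.cons 761 n5616 (.cons 798 n1639 .nil)))
noncomputable def n5618 : Strat := .move 757 n316 (.cons 755 n101 (.cons 756 n5617 (.cons 801 n1609 .nil)))
noncomputable def n5619 : Strat := .move 717 n713 (.cons 676 n5614 (.cons 841 n5618 .nil))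
noncomputable def n5620 : Strat := .move 718 n308 (.cons 677 n5619 .nil)
noncomputable def n5621 : Strat := .move 758 n1964 (.cons 718 n5611 (.cons 881 n5620 .nil))
noncomputable def n5622 : Strat := .move 758 n5602 (.cons 760 n5605 (.cons 796 n4565 (.cons 797 n5609 .nil)))
noncomputable def n5623 : Strat := .move 758 n313 (.cons 796 n5604 .nil)
noncomputable def n5624 : Strat := .move 797 n5623 (.cons 841 n5543 (.cons 758 n76 (.cons 796 n2869 .nil)))
noncomputable def n5625 : Strat := .move 760 n788 (.cons 797 n611 .nil)
noncomputable def n5626 : Strat := .move 797 n124 (.cons 841 n2057 .nil)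
noncomputable def n5627 : Strat := .move 842 n123 (.cons 843 n5626 .nil)
noncomputable def n5628 : Strat := .move 801 n5625 (.cons 760 n5627 (.cons 797 n2116 .nil))
noncomputable def n5629 : Strat := .move 797 n958 (.cons 760 n5543 .nil)
noncomputable def n5630 : Strat := .move 758 n5606 (.cons 757 n977 (.cons 802 n5607 .nil))
noncomputable def n5631 : Strat := .move 760 n611 (.cons 761 n5630 .nil)
noncomputable def n5632 : Strat := .win 763 5 759
noncomputable def n5633 : Strat := .win 761 5 758
noncomputable def n5634 : Strat := .move 762 n5632 (.cons 763 n5633 .nil)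
noncomputable def n5635 : Strat := .move 803 n3620 (.cons 841 n5634 .nil)
noncomputable def n5636 : Strat := .move 802 n2089 (.cons 758 n5635 .nil)
noncomputable def n5637 : Strat := .move 757 n258 (.cons 756 n5636 .nil)
noncomputable def n5638 : Strat := .move 842 n123 (.cons 843 n5637 .nil)
noncomputable def n5639 : Strat := .move 802 n5311 (.cons 758 n5465 .nil)
noncomputable def n5640 : Strat := .move 757 n258 (.cons 756 n5639 .nil)
noncomputable def n5641 : Strat := .move 760 n611 (.cons 761 n5640 .nil)
noncomputable def n5642 : Strat := .move 803 n3620 (.cons 841 n5346 .nil)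
noncomputable def n5643 : Strat := .move 802 n120 (.cons 844 n5642 .nil)
noncomputable def n5644 : Strat := .move 843 n119 (.cons 842 n5643 .nil)
noncomputable def n5645 : Strat := .move 760 n611 (.cons 761 n5644 .nil)
noncomputable def n5646 : Strat := .win 758 5 716
noncomputable def n5647 : Strat := .move 720 n5646 (.cons 758 n2099 .nil)
noncomputable def n5648 : Strat := .move 719 n412 (.cons 637 n5647 .nil)
noncomputable def n5649 : Strat := .move 757 n258 (.cons 756 n5648 .nil)
noncomputable def n5650 : Strat := .move 842 n123 (.cons 843 n5649 .nil)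
noncomputable def n5651 : Strat := .move 760 n611 (.cons 761 n5650 .nil)
noncomputable def n5652 : Strat := .move 758 n953 (.cons 757 n954 .nil)
noncomputable def n5653 : Strat := .move 802 n120 (.cons 844 n5652 .nil)
noncomputable def n5654 : Strat := .move 843 n119 (.cons 842 n5653 .nil)
noncomputable def n5655 : Strat := .move 801 n5631 (.cons 760 n5638 (.cons 842 n5641 (.cons 757 n5645 (.cons 802 n5651 (.cons 758 n2116 (.cons 761 n5654 .nil))))))
noncomputable def n5656 : Strat := .move 798 n5622 (.cons 760 n5624 (.cons 758 n5628 (.cons 841 n5629 (.cons 755 n5282 (.cons 797 n5655 .nil)))))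
noncomputable def n5657 : Strat := .move 881 n98 (.cons 922 n5656 .nil)
noncomputable def n5658 : Strat := .move 760 n297 (.cons 797 n1930 .nil)
noncomputable def n5659 : Strat := .move 883 n1625 (.cons 760 n5549 .nil)
noncomputable def n5660 : Strat := .move 842 n123 (.cons 843 n5659 .nil)
noncomputable def n5661 : Strat := .move 798 n314 (.cons 796 n5658 (.cons 797 n5660 (.cons 760 n467 .nil)))
noncomputable def n5662 : Strat := .move 801 n100 (.cons 802 n5661 .nil)
noncomputable def n5663 : Strat := .move 757 n316 (.cons 801 n1609 (.cons 756 n5662 .nil))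
noncomputable def n5664 : Strat := .move 758 n209 (.cons 881 n5663 .nil)
noncomputable def n5665 : Strat := .move 718 n308 (.cons 677 n5664 .nil)
noncomputable def n5666 : Strat := .move 757 n4318 (.cons 718 n101 .nil)
noncomputable def n5667 : Strat := .move 761 n541 (.cons 762 n5325 .nil)
noncomputable def n5668 : Strat := .win 843 7 678
noncomputable def n5669 : Strat := .move 678 n5668 (.cons 843 n411 .nil)
noncomputable def n5670 : Strat := .move 719 n5481 (.cons 757 n5669 .nil)
noncomputable def n5671 : Strat := .move 802 n58 (.cons 803 n5670 .nil)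
noncomputable def n5672 : Strat := .move 720 n61 (.cons 721 n5671 .nil)
noncomputable def n5673 : Strat := .move 761 n541 (.cons 762 n5672 .nil)
noncomputable def n5674 : Strat := .move 802 n4268 (.cons 757 n954 .nil)
noncomputable def n5675 : Strat := .win 842 6 719
noncomputable def n5676 : Strat := .win 925 7 760
noncomputable def n5677 : Strat := .move 884 n5675 (.cons 842 n5676 .nil)
noncomputable def n5678 : Strat := .move 719 n3017 (.cons 678 n5677 .nil)
noncomputable def n5679 : Strat := .move 843 n120 (.cons 844 n5678 .nil)
noncomputable def n5680 : Strat := .move 802 n954 (.cons 803 n5679 .nil)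
noncomputable def n5681 : Strat := .move 801 n5674 (.cons 803 n5606 (.cons 802 n5607 (.cons 757 n5680 .nil)))
noncomputable def n5682 : Strat := .move 881 n98 (.cons 922 n5681 .nil)
noncomputable def n5683 : Strat := .move 761 n541 (.cons 762 n5480 .nil)
noncomputable def n5684 : Strat := .move 757 n62 (.cons 719 n316 .nil)
noncomputable def n5685 : Strat := .move 720 n61 (.cons 721 n5684 .nil)
noncomputable def n5686 : Strat := .move 761 n541 (.cons 762 n5685 .nil)
noncomputable def n5687 : Strat := .win 842 1 678
noncomputable def n5688 : Strat := .move 679 n5687 (.cons 842 n4494 .nil)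
noncomputable def n5689 : Strat := .move 720 n61 (.cons 721 n5688 .nil)
noncomputable def n5690 : Strat := .move 801 n4268 (.cons 757 n5689 .nil)
noncomputable def n5691 : Strat := .move 802 n58 (.cons 803 n5690 .nil)
noncomputable def n5692 : Strat := .move 761 n541 (.cons 762 n5691 .nil)
noncomputable def n5693 : Strat := .move 760 n5667 (.cons 801 n5673 (.cons 761 n5682 (.cons 757 n5683 (.cons 802 n5686 (.cons 719 n5692 .nil)))))
noncomputable def n5694 : Strat := .move 760 n409 (.cons 720 n1618 .nil)
noncomputable def n5695 : Strat := .move 719 n5694 (.cons 637 n1196 (.cons 720 n1151 .nil))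
noncomputable def n5696 : Strat := .move 801 n100 (.cons 802 n5695 .nil)
noncomputable def n5697 : Strat := .move 757 n316 (.cons 755 n101 (.cons 801 n1609 (.cons 756 n5696 .nil)))
noncomputable def n5698 : Strat := .move 718 n308 (.cons 677 n5697 .nil)
noncomputable def n5699 : Strat := .move 758 n5666 (.cons 718 n5693 (.cons 881 n5698 (.cons 756 n1964 .nil)))
noncomputable def n5700 : Strat := .move 759 n5621 (.cons 718 n5657 (.cons 881 n5489 (.cons 761 n5665 (.cons 798 n5699 (.cons 802 n5269 (.cons 841 n5293 .nil))))))
noncomputable def n5701 : Strat := .move 716 n1019 (.cons 675 n138 .nil)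
noncomputable def n5702 : Strat := .move 758 n100 (.cons 802 n5701 .nil)
noncomputable def n5703 : Strat := .move 757 n258 (.cons 756 n5702 .nil)
noncomputable def n5704 : Strat := .move 757 n258 (.cons 756 n3768 .nil)
noncomputable def n5705 : Strat := .move 798 n5703 (.cons 802 n5704 (.cons 881 n2114 (.cons 757 n4658 .nil)))
noncomputable def n5706 : Strat := .move 759 n954 (.cons 803 n1964 .nil)
noncomputable def n5707 : Strat := .move 758 n953 (.cons 757 n5706 .nil)
noncomputable def n5708 : Strat := .win 883 1 719
noncomputable def n5709 : Strat := .move 842 n5466 (.cons 679 n5708 .nil)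
noncomputable def n5710 : Strat := .win 760 6 719
noncomputable def n5711 : Strat := .move 719 n5710 (.cons 760 n5476 .nil)
noncomputable def n5712 : Strat := .move 760 n5676 (.cons 925 n3003 .nil)
noncomputable def n5713 : Strat := .win 966 7 801
noncomputable def n5714 : Strat := .win 967 6 802
noncomputable def n5715 : Strat := .win 885 6 761
noncomputable def n5716 : Strat := .move 926 n5714 (.cons 967 n5715 .nil)
noncomputable def n5717 : Strat := .move 925 n5713 (.cons 966 n5716 .nil)
noncomputable def n5718 : Strat := .move 884 n5711 (.cons 678 n5712 (.cons 760 n5717 .nil))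
noncomputable def n5719 : Strat := .move 842 n5708 (.cons 883 n5718 .nil)
noncomputable def n5720 : Strat := .win 639 3 638
noncomputable def n5721 : Strat := .win 721 3 679
noncomputable def n5722 : Strat := .move 680 n5720 (.cons 639 n5721 .nil)
noncomputable def n5723 : Strat := .move 679 n4494 (.cons 638 n5722 .nil)
noncomputable def n5724 : Strat := .move 760 n5321 (.cons 884 n5723 .nil)
noncomputable def n5725 : Strat := .move 719 n5476 (.cons 678 n5724 .nil)
noncomputable def n5726 : Strat := .move 720 n5709 (.cons 679 n5719 (.cons 842 n5725 .nil))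
noncomputable def n5727 : Strat := .move 843 n120 (.cons 844 n5726 .nil)
noncomputable def n5728 : Strat := .move 761 n451 (.cons 762 n5727 .nil)
noncomputable def n5729 : Strat := .move 802 n5707 (.cons 758 n5728 .nil)
noncomputable def n5730 : Strat := .move 842 n123 (.cons 843 n5703 .nil)
noncomputable def n5731 : Strat := .move 757 n258 (.cons 756 n3399 .nil)
noncomputable def n5732 : Strat := .move 798 n5730 (.cons 757 n3902 (.cons 802 n5731 .nil))
noncomputable def n5733 : Strat := .move 798 n5704 (.cons 757 n4658 .nil)
noncomputable def n5734 : Strat := .move 798 n119 (.cons 842 n125 .nil)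
noncomputable def n5735 : Strat := .move 843 n120 (.cons 844 n5734 .nil)
noncomputable def n5736 : Strat := .move 802 n451 (.cons 762 n5735 .nil)
noncomputable def n5737 : Strat := .win 720 1 719
noncomputable def n5738 : Strat := .move 883 n3016 (.cons 924 n5737 .nil)
noncomputable def n5739 : Strat := .move 842 n5417 (.cons 798 n5738 .nil)
noncomputable def n5740 : Strat := .move 843 n120 (.cons 844 n5739 .nil)
noncomputable def n5741 : Strat := .move 802 n451 (.cons 762 n5740 .nil)
noncomputable def n5742 : Strat := .win 759 4 758
noncomputable def n5743 : Strat := .win 763 4 759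
noncomputable def n5744 : Strat := .move 762 n5742 (.cons 759 n5743 .nil)
noncomputable def n5745 : Strat := .move 760 n5461 (.cons 798 n5744 .nil)
noncomputable def n5746 : Strat := .move 802 n451 (.cons 762 n5727 .nil)
noncomputable def n5747 : Strat := .move 883 n2913 (.cons 720 n2145 .nil)
noncomputable def n5748 : Strat := .win 802 1 678
noncomputable def n5749 : Strat := .move 679 n4494 (.cons 638 n5748 .nil)
noncomputable def n5750 : Strat := .move 720 n2964 (.cons 883 n5749 .nil)
noncomputable def n5751 : Strat := .move 802 n120 (.cons 844 n3017 .nil)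
noncomputable def n5752 : Strat := .move 843 n2930 (.cons 884 n5751 .nil)
noncomputable def n5753 : Strat := .win 845 2 800
noncomputable def n5754 : Strat := .win 802 0 799
noncomputable def n5755 : Strat := .move 844 n5753 (.cons 845 n5754 .nil)
noncomputable def n5756 : Strat := .move 843 n2930 (.cons 884 n5755 .nil)
noncomputable def n5757 : Strat := .move 720 n2099 (.cons 679 n5756 .nil)
noncomputable def n5758 : Strat := .move 718 n2107 (.cons 677 n5757 .nil)
noncomputable def n5759 : Strat := .win 802 6 637
noncomputable def n5760 : Strat := .win 759 1 636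
noncomputable def n5761 : Strat := .move 637 n5759 (.cons 802 n5760 .nil)
noncomputable def n5762 : Strat := .move 678 n2094 (.cons 638 n5761 .nil)
noncomputable def n5763 : Strat := .move 679 n2095 (.cons 720 n5762 .nil)
noncomputable def n5764 : Strat := .move 718 n2107 (.cons 677 n5763 .nil)
noncomputable def n5765 : Strat := .move 719 n5752 (.cons 678 n5758 (.cons 884 n5764 (.cons 802 n4514 .nil)))
noncomputable def n5766 : Strat := .move 843 n3003 (.cons 719 n5755 .nil)
noncomputable def n5767 : Strat := .move 884 n2121 (.cons 925 n5766 .nil)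
noncomputable def n5768 : Strat := .move 759 n1624 (.cons 924 n5767 .nil)
noncomputable def n5769 : Strat := .move 759 n2128 (.cons 718 n5767 .nil)
noncomputable def n5770 : Strat := .move 924 n2914 (.cons 802 n3002 .nil)
noncomputable def n5771 : Strat := .move 883 n2145 (.cons 718 n5768 (.cons 924 n5769 (.cons 759 n5770 .nil)))
noncomputable def n5772 : Strat := .move 842 n5747 (.cons 759 n5750 (.cons 883 n5765 (.cons 720 n5771 .nil)))
noncomputable def n5773 : Strat := .move 760 n5461 (.cons 798 n5772 .nil)
noncomputable def n5774 : Strat := .move 761 n5736 (.cons 760 n5741 (.cons 802 n5745 (.cons 798 n5746 (.cons 762 n5773 .nil))))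
noncomputable def n5775 : Strat := .move 761 n451 (.cons 762 n5739 .nil)
noncomputable def n5776 : Strat := .move 843 n120 (.cons 844 n5775 .nil)
noncomputable def n5777 : Strat := .move 802 n5707 (.cons 758 n5776 .nil)
noncomputable def n5778 : Strat := .move 759 n788 (.cons 797 n5293 .nil)
noncomputable def n5779 : Strat := .move 760 n611 (.cons 761 n5778 .nil)
noncomputable def n5780 : Strat := .move 759 n788 (.cons 797 n5336 .nil)
noncomputable def n5781 : Strat := .move 760 n611 (.cons 761 n5780 .nil)
noncomputable def n5782 : Strat := .move 757 n258 (.cons 756 n5781 .nil)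
noncomputable def n5783 : Strat := .move 797 n1591 (.cons 759 n1178 .nil)
noncomputable def n5784 : Strat := .move 760 n611 (.cons 761 n5783 .nil)
noncomputable def n5785 : Strat := .move 798 n5703 (.cons 757 n5779 (.cons 881 n5782 (.cons 758 n5784 .nil)))
noncomputable def n5786 : Strat := .move 757 n100 (.cons 802 n99 .nil)
noncomputable def n5787 : Strat := .move 758 n209 (.cons 881 n5786 .nil)
noncomputable def n5788 : Strat := .move 718 n308 (.cons 677 n5787 .nil)
noncomputable def n5789 : Strat := .move 758 n9 (.cons 718 n5786 .nil)
noncomputable def n5790 : Strat := .move 881 n98 (.cons 922 n5789 .nil)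
noncomputable def n5791 : Strat := .move 798 n119 (.cons 842 n959 .nil)
noncomputable def n5792 : Strat := .move 843 n120 (.cons 844 n5791 .nil)
noncomputable def n5793 : Strat := .move 802 n954 (.cons 803 n5792 .nil)
noncomputable def n5794 : Strat := .move 757 n99 (.cons 756 n46 .nil)
noncomputable def n5795 : Strat := .move 758 n5786 (.cons 757 n5793 (.cons 802 n5794 .nil))
noncomputable def n5796 : Strat := .move 881 n98 (.cons 922 n5795 .nil)
noncomputable def n5797 : Strat := .move 798 n297 (.cons 797 n123 .nil)
noncomputable def n5798 : Strat := .move 842 n1027 (.cons 883 n5797 .nil)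
noncomputable def n5799 : Strat := .move 798 n297 (.cons 797 n1020 .nil)
noncomputable def n5800 : Strat := .move 842 n1027 (.cons 883 n5799 .nil)
noncomputable def n5801 : Strat := .move 675 n278 (.cons 634 n277 .nil)
noncomputable def n5802 : Strat := .move 716 n284 (.cons 715 n5801 .nil)
noncomputable def n5803 : Strat := .move 719 n409 (.cons 720 n5802 .nil)
noncomputable def n5804 : Strat := .move 760 n5798 (.cons 843 n5800 (.cons 798 n5803 .nil))
noncomputable def n5805 : Strat := .move 757 n99 (.cons 756 n5804 .nil)
noncomputable def n5806 : Strat := .move 883 n1625 (.cons 760 n1624 .nil)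
noncomputable def n5807 : Strat := .move 842 n5417 (.cons 798 n5806 .nil)
noncomputable def n5808 : Strat := .move 843 n120 (.cons 844 n5807 .nil)
noncomputable def n5809 : Strat := .move 802 n954 (.cons 803 n5808 .nil)
noncomputable def n5810 : Strat := .move 758 n5786 (.cons 756 n955 (.cons 802 n5805 (.cons 757 n5809 .nil)))
noncomputable def n5811 : Strat := .move 718 n308 (.cons 677 n5810 .nil)
noncomputable def n5812 : Strat := .move 798 n123 (.cons 843 n788 .nil)
noncomputable def n5813 : Strat := .move 760 n1027 (.cons 883 n5812 .nil)
noncomputable def n5814 : Strat := .move 797 n958 (.cons 760 n2057 .nil)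
noncomputable def n5815 : Strat := .move 798 n123 (.cons 843 n5814 .nil)
noncomputable def n5816 : Strat := .move 844 n5754 (.cons 802 n5753 .nil)
noncomputable def n5817 : Strat := .move 843 n5417 (.cons 798 n5816 .nil)
noncomputable def n5818 : Strat := .move 842 n5813 (.cons 883 n5815 (.cons 843 n1626 (.cons 760 n5817 .nil)))
noncomputable def n5819 : Strat := .move 881 n98 (.cons 922 n5818 .nil)
noncomputable def n5820 : Strat := .move 718 n308 (.cons 677 n5819 .nil)
noncomputable def n5821 : Strat := .move 759 n5788 (.cons 757 n5293 (.cons 677 n5790 (.cons 718 n5796 (.cons 881 n5811 (.cons 758 n5820 .nil)))))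
noncomputable def n5822 : Strat := .move 801 n5705 (.cons 798 n5729 (.cons 759 n5732 (.cons 802 n5733 (.cons 758 n5774 (.cons 760 n5777 (.cons 843 n5785 (.cons 761 n5821 .nil)))))))
noncomputable def n5823 : Strat := .move 841 n1878 (.cons 881 n1607 .nil)
noncomputable def n5824 : Strat := .move 718 n308 (.cons 677 n5823 .nil)
noncomputable def n5825 : Strat := .move 798 n788 (.cons 797 n5297 .nil)
noncomputable def n5826 : Strat := .move 760 n5294 (.cons 762 n5295 (.cons 761 n5825 (.cons 716 n5299 .nil)))
noncomputable def n5827 : Strat := .move 719 n1631 (.cons 678 n5826 .nil)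
noncomputable def n5828 : Strat := .move 717 n2176 (.cons 676 n5827 .nil)
noncomputable def n5829 : Strat := .move 841 n1607 (.cons 797 n5490 (.cons 883 n5828 (.cons 798 n5307 .nil)))
noncomputable def n5830 : Strat := .move 718 n308 (.cons 677 n5829 .nil)
noncomputable def n5831 : Strat := .move 718 n1294 (.cons 841 n1290 .nil)
noncomputable def n5832 : Strat := .move 881 n98 (.cons 922 n5831 .nil)
noncomputable def n5833 : Strat := .move 758 n313 (.cons 796 n102 .nil)
noncomputable def n5834 : Strat := .move 801 n123 (.cons 843 n5273 .nil)
noncomputable def n5835 : Strat := .move 842 n124 (.cons 841 n5834 .nil)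
noncomputable def n5836 : Strat := .move 797 n76 (.cons 841 n5833 (.cons 796 n5835 .nil))
noncomputable def n5837 : Strat := .move 760 n611 (.cons 761 n5288 .nil)
noncomputable def n5838 : Strat := .move 802 n120 (.cons 844 n5584 .nil)
noncomputable def n5839 : Strat := .move 843 n119 (.cons 842 n5838 .nil)
noncomputable def n5840 : Strat := .move 801 n5287 (.cons 757 n5645 (.cons 802 n5837 (.cons 758 n5839 .nil)))
noncomputable def n5841 : Strat := .move 798 n5282 (.cons 760 n5836 (.cons 842 n5285 (.cons 797 n5840 .nil)))
noncomputable def n5842 : Strat := .move 881 n98 (.cons 922 n5841 .nil)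
noncomputable def n5843 : Strat := .move 759 n5269 (.cons 841 n5293 (.cons 922 n5824 (.cons 881 n5830 (.cons 677 n5832 (.cons 718 n5842 .nil)))))
noncomputable def n5844 : Strat := .move 718 n5268 (.cons 881 n5308 (.cons 841 n5292 .nil))
noncomputable def n5845 : Strat := .move 718 n5308 (.cons 760 n5518 (.cons 798 n5404 (.cons 758 n5415 (.cons 719 n5556 (.cons 842 n5456 (.cons 761 n5428 (.cons 716 n5488 (.cons 841 n5540 .nil))))))))
noncomputable def n5846 : Strat := .move 841 n3200 (.cons 718 n5270 .nil)
noncomputable def n5847 : Strat := .move 838 n82 (.cons 837 n1040 .nil)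
noncomputable def n5848 : Strat := .move 757 n260 (.cons 801 n5847 .nil)
noncomputable def n5849 : Strat := .move 756 n85 (.cons 755 n5848 .nil)
noncomputable def n5850 : Strat := .move 797 n958 (.cons 760 n5849 .nil)
noncomputable def n5851 : Strat := .move 841 n3200 (.cons 718 n515 .nil)
noncomputable def n5852 : Strat := .move 718 n1294 (.cons 841 n1027 .nil)
noncomputable def n5853 : Strat := .move 760 n611 (.cons 761 n5852 .nil)
noncomputable def n5854 : Strat := .move 842 n123 (.cons 843 n5853 .nil)
noncomputable def n5855 : Strat := .move 802 n120 (.cons 844 n521 .nil)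
noncomputable def n5856 : Strat := .move 843 n119 (.cons 842 n5855 .nil)
noncomputable def n5857 : Strat := .move 841 n3200 (.cons 718 n5856 .nil)
noncomputable def n5858 : Strat := .move 842 n123 (.cons 843 n4645 .nil)
noncomputable def n5859 : Strat := .move 760 n611 (.cons 761 n5858 .nil)
noncomputable def n5860 : Strat := .move 841 n3200 (.cons 718 n521 .nil)
noncomputable def n5861 : Strat := .move 802 n451 (.cons 762 n5860 .nil)
noncomputable def n5862 : Strat := .move 761 n125 (.cons 760 n5861 .nil)
noncomputable def n5863 : Strat := .move 801 n5854 (.cons 883 n5857 (.cons 841 n5859 (.cons 842 n5862 (.cons 718 n2116 .nil))))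
noncomputable def n5864 : Strat := .move 798 n5846 (.cons 841 n5850 (.cons 760 n5851 (.cons 797 n5863 .nil)))
noncomputable def n5865 : Strat := .move 881 n98 (.cons 922 n5864 .nil)
noncomputable def n5866 : Strat := .move 801 n5272 (.cons 803 n5273 (.cons 756 n631 .nil))
noncomputable def n5867 : Strat := .move 842 n514 (.cons 843 n5866 .nil)
noncomputable def n5868 : Strat := .move 841 n5270 (.cons 796 n515 (.cons 797 n5867 .nil))
noncomputable def n5869 : Strat := .move 757 n260 (.cons 801 n3645 .nil)
noncomputable def n5870 : Strat := .move 756 n85 (.cons 755 n5869 .nil)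
noncomputable def n5871 : Strat := .move 797 n74 (.cons 796 n5870 .nil)
noncomputable def n5872 : Strat := .move 757 n258 (.cons 756 n2089 .nil)
noncomputable def n5873 : Strat := .move 802 n521 (.cons 803 n5872 .nil)
noncomputable def n5874 : Strat := .move 801 n5873 (.cons 756 n3758 (.cons 802 n5274 .nil))
noncomputable def n5875 : Strat := .move 841 n5270 (.cons 760 n5871 (.cons 796 n5285 (.cons 797 n5874 .nil)))
noncomputable def n5876 : Strat := .move 801 n5287 (.cons 757 n5645 (.cons 758 n2116 (.cons 802 n5288 .nil)))
noncomputable def n5877 : Strat := .move 760 n788 (.cons 797 n5328 .nil)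
noncomputable def n5878 : Strat := .move 798 n5868 (.cons 760 n5281 (.cons 842 n5875 (.cons 796 n5285 (.cons 797 n5876 (.cons 758 n5877 .nil)))))
noncomputable def n5879 : Strat := .move 881 n98 (.cons 922 n5878 .nil)
noncomputable def n5880 : Strat := .move 758 n9 (.cons 718 n102 .nil)
noncomputable def n5881 : Strat := .move 881 n98 (.cons 922 n5880 .nil)
noncomputable def n5882 : Strat := .move 759 n5844 (.cons 881 n5845 (.cons 758 n5865 (.cons 798 n5832 (.cons 718 n5879 (.cons 841 n5881 .nil)))))
noncomputable def n5883 : Strat := .move 922 n2 (.cons 759 n4835 .nil)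
noncomputable def n5884 : Strat := .move 922 n4835 (.cons 757 n72 (.cons 963 n32 .nil))
noncomputable def n5885 : Strat := .move 922 n2 (.cons 759 n32 .nil)
noncomputable def n5886 : Strat := .move 798 n408 (.cons 761 n401 (.cons 760 n467 (.cons 797 n468 .nil)))
noncomputable def n5887 : Strat := .move 801 n100 (.cons 802 n5886 .nil)
noncomputable def n5888 : Strat := .move 757 n46 (.cons 716 n5887 .nil)
noncomputable def n5889 : Strat := .move 759 n9 (.cons 718 n5888 .nil)
noncomputable def n5890 : Strat := .move 717 n42 (.cons 675 n5568 .nil)
noncomputable def n5891 : Strat := .move 716 n41 (.cons 757 n5890 .nil)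
noncomputable def n5892 : Strat := .move 798 n298 (.cons 761 n788 .nil)
noncomputable def n5893 : Strat := .move 720 n2099 (.cons 679 n5481 .nil)
noncomputable def n5894 : Strat := .move 719 n412 (.cons 637 n5893 .nil)
noncomputable def n5895 : Strat := .move 842 n123 (.cons 843 n5894 .nil)
noncomputable def n5896 : Strat := .move 801 n5674 (.cons 757 n977 (.cons 802 n5895 .nil))
noncomputable def n5897 : Strat := .move 798 n788 (.cons 797 n5896 .nil)
noncomputable def n5898 : Strat := .move 801 n325 (.cons 802 n63 .nil)
noncomputable def n5899 : Strat := .move 720 n62 (.cons 719 n61 .nil)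
noncomputable def n5900 : Strat := .move 757 n1847 (.cons 803 n5898 (.cons 802 n5899 .nil))
noncomputable def n5901 : Strat := .move 761 n541 (.cons 762 n5900 .nil)
noncomputable def n5902 : Strat := .move 760 n1744 (.cons 762 n5892 (.cons 761 n5897 (.cons 798 n5901 .nil)))
noncomputable def n5903 : Strat := .move 759 n9 (.cons 718 n5902 .nil)
noncomputable def n5904 : Strat := .move 717 n37 (.cons 677 n1873 .nil)
noncomputable def n5905 : Strat := .move 718 n36 (.cons 759 n5904 .nil)
noncomputable def n5906 : Strat := .move 758 n5889 (.cons 718 n5891 (.cons 716 n5903 (.cons 757 n5905 (.cons 841 n534 (.cons 759 n5566 .nil)))))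
noncomputable def n5907 : Strat := .move 881 n5883 (.cons 759 n5884 (.cons 841 n5885 (.cons 922 n5906 .nil)))
noncomputable def n5908 : Strat := .move 759 n98 (.cons 922 n9 .nil)
noncomputable def n5909 : Strat := .move 881 n46 (.cons 716 n5908 .nil)
noncomputable def n5910 : Strat := .move 759 n48 (.cons 801 n309 .nil)
noncomputable def n5911 : Strat := .move 756 n47 (.cons 755 n5910 .nil)
noncomputable def n5912 : Strat := .move 757 n5909 (.cons 718 n280 (.cons 881 n5911 .nil))
noncomputable def n5913 : Strat := .move 922 n2 (.cons 759 n439 .nil)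
noncomputable def n5914 : Strat := .move 757 n46 (.cons 716 n1715 .nil)
noncomputable def n5915 : Strat := .move 922 n2 (.cons 759 n95 .nil)
noncomputable def n5916 : Strat := .move 881 n5913 (.cons 922 n5914 (.cons 757 n5915 (.cons 759 n167 .nil)))
noncomputable def n5917 : Strat := .move 718 n37 (.cons 677 n139 .nil)
noncomputable def n5918 : Strat := .move 756 n47 (.cons 755 n5917 .nil)
noncomputable def n5919 : Strat := .move 757 n138 (.cons 881 n5918 .nil)
noncomputable def n5920 : Strat := .move 716 n42 (.cons 675 n5919 .nil)
noncomputable def n5921 : Strat := .move 717 n1873 (.cons 675 n2251 (.cons 841 n5920 .nil))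
noncomputable def n5922 : Strat := .move 717 n644 (.cons 676 n213 .nil)
noncomputable def n5923 : Strat := .move 718 n308 (.cons 677 n5922 .nil)
noncomputable def n5924 : Strat := .move 717 n42 (.cons 675 n644 .nil)
noncomputable def n5925 : Strat := .move 716 n41 (.cons 757 n5924 .nil)
noncomputable def n5926 : Strat := .move 881 n98 (.cons 922 n5925 .nil)
noncomputable def n5927 : Strat := .move 759 n1964 (.cons 677 n4318 (.cons 881 n5923 (.cons 718 n5926 .nil)))
noncomputable def n5928 : Strat := .move 719 n1631 (.cons 678 n1382 .nil)
noncomputable def n5929 : Strat := .move 841 n212 (.cons 761 n712 (.cons 760 n5928 .nil))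
noncomputable def n5930 : Strat := .move 719 n718 (.cons 720 n2230 .nil)
noncomputable def n5931 : Strat := .move 757 n2255 (.cons 755 n720 (.cons 756 n5930 (.cons 719 n316 .nil)))
noncomputable def n5932 : Strat := .move 759 n5929 (.cons 757 n212 (.cons 761 n712 (.cons 760 n5931 .nil)))
noncomputable def n5933 : Strat := .move 716 n42 (.cons 675 n5932 .nil)
noncomputable def n5934 : Strat := .move 718 n37 (.cons 677 n5933 .nil)
noncomputable def n5935 : Strat := .move 757 n924 (.cons 720 n2168 (.cons 756 n5395 (.cons 719 n815 .nil)))
noncomputable def n5936 : Strat := .move 760 n211 (.cons 761 n5935 .nil)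
noncomputable def n5937 : Strat := .move 757 n47 (.cons 755 n139 .nil)
noncomputable def n5938 : Strat := .move 757 n139 (.cons 719 n48 .nil)
noncomputable def n5939 : Strat := .move 715 n154 (.cons 714 n192 .nil)
noncomputable def n5940 : Strat := .move 756 n5937 (.cons 755 n5938 (.cons 757 n5939 .nil))
noncomputable def n5941 : Strat := .move 759 n212 (.cons 761 n712 (.cons 715 n5936 (.cons 760 n5940 .nil)))
noncomputable def n5942 : Strat := .move 716 n42 (.cons 675 n5941 .nil)
noncomputable def n5943 : Strat := .move 718 n37 (.cons 677 n5942 .nil)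
noncomputable def n5944 : Strat := .move 717 n2251 (.cons 636 n1873 (.cons 676 n5934 (.cons 841 n5943 .nil)))
noncomputable def n5945 : Strat := .move 922 n7 (.cons 962 n106 .nil)
noncomputable def n5946 : Strat := .move 921 n8 (.cons 880 n5945 .nil)
noncomputable def n5947 : Strat := .move 881 n5908 (.cons 922 n5905 (.cons 718 n5915 (.cons 759 n5946 .nil)))
noncomputable def n5948 : Strat := .move 841 n512 (.cons 963 n5601 .nil)
noncomputable def n5949 : Strat := .move 798 n0 (.cons 757 n5948 .nil)
noncomputable def n5950 : Strat := .move 922 n7 (.cons 962 n5949 .nil)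
noncomputable def n5951 : Strat := .move 921 n8 (.cons 880 n5950 .nil)
noncomputable def n5952 : Strat := .move 759 n9 (.cons 718 n316 .nil)
noncomputable def n5953 : Strat := .move 838 n863 (.cons 920 n82 .nil)
noncomputable def n5954 : Strat := .move 880 n384 (.cons 878 n34 .nil)
noncomputable def n5955 : Strat := .move 879 n5953 (.cons 837 n5954 .nil)
noncomputable def n5956 : Strat := .move 841 n75 (.cons 842 n5955 .nil)
noncomputable def n5957 : Strat := .move 797 n608 (.cons 841 n266 (.cons 795 n76 (.cons 796 n5956 .nil)))
noncomputable def n5958 : Strat := .move 798 n260 (.cons 801 n5957 .nil)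
noncomputable def n5959 : Strat := .move 756 n47 (.cons 755 n5958 .nil)
noncomputable def n5960 : Strat := .move 760 n56 (.cons 798 n565 .nil)
noncomputable def n5961 : Strat := .move 797 n55 (.cons 796 n5960 .nil)
noncomputable def n5962 : Strat := .move 756 n48 (.cons 801 n5961 .nil)
noncomputable def n5963 : Strat := .move 759 n9 (.cons 718 n5962 .nil)
noncomputable def n5964 : Strat := .move 756 n47 (.cons 755 n5961 .nil)
noncomputable def n5965 : Strat := .move 759 n9 (.cons 718 n5964 .nil)
noncomputable def n5966 : Strat := .move 634 n848 (.cons 593 n847 .nil)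
noncomputable def n5967 : Strat := .move 635 n775 (.cons 798 n5966 .nil)
noncomputable def n5968 : Strat := .move 676 n502 (.cons 841 n5967 .nil)
noncomputable def n5969 : Strat := .move 717 n37 (.cons 677 n5968 .nil)
noncomputable def n5970 : Strat := .move 718 n36 (.cons 759 n5969 .nil)
noncomputable def n5971 : Strat := .move 757 n5952 (.cons 759 n5959 (.cons 755 n5963 (.cons 801 n5965 (.cons 756 n5970 .nil))))
noncomputable def n5972 : Strat := .move 881 n5908 (.cons 759 n5951 (.cons 922 n5971 .nil))
noncomputable def n5973 : Strat := .move 758 n5912 (.cons 718 n5916 (.cons 759 n5921 (.cons 756 n5927 (.cons 881 n5944 (.cons 757 n5947 (.cons 716 n5972 .nil))))))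
noncomputable def n5974 : Strat := .move 760 n5461 (.cons 798 n5323 .nil)
noncomputable def n5975 : Strat := .move 761 n451 (.cons 762 n5974 .nil)
noncomputable def n5976 : Strat := .move 802 n5642 (.cons 803 n5975 .nil)
noncomputable def n5977 : Strat := .move 759 n5269 (.cons 718 n5976 (.cons 841 n5293 .nil))
noncomputable def n5978 : Strat := .move 762 n5633 (.cons 761 n5632 .nil)
noncomputable def n5979 : Strat := .move 803 n3620 (.cons 841 n5978 .nil)
noncomputable def n5980 : Strat := .move 842 n5417 (.cons 798 n5979 .nil)
noncomputable def n5981 : Strat := .move 843 n120 (.cons 844 n5980 .nil)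
noncomputable def n5982 : Strat := .move 798 n125 (.cons 760 n5601 .nil)
noncomputable def n5983 : Strat := .move 761 n451 (.cons 762 n5982 .nil)
noncomputable def n5984 : Strat := .move 841 n521 (.cons 803 n5983 .nil)
noncomputable def n5985 : Strat := .move 844 n3622 (.cons 843 n3621 .nil)
noncomputable def n5986 : Strat := .move 803 n3620 (.cons 841 n5985 .nil)
noncomputable def n5987 : Strat := .move 760 n5461 (.cons 798 n5322 .nil)
noncomputable def n5988 : Strat := .move 843 n120 (.cons 844 n5987 .nil)
noncomputable def n5989 : Strat := .move 761 n451 (.cons 762 n5988 .nil)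
noncomputable def n5990 : Strat := .move 802 n5981 (.cons 843 n5984 (.cons 798 n5979 (.cons 761 n5986 (.cons 841 n5989 .nil))))
noncomputable def n5991 : Strat := .move 758 n313 (.cons 796 n209 .nil)
noncomputable def n5992 : Strat := .move 718 n308 (.cons 677 n5991 .nil)
noncomputable def n5993 : Strat := .move 759 n958 (.cons 760 n5992 .nil)
noncomputable def n5994 : Strat := .move 797 n124 (.cons 841 n5993 .nil)
noncomputable def n5995 : Strat := .move 842 n123 (.cons 843 n5994 .nil)
noncomputable def n5996 : Strat := .move 796 n78 (.cons 754 n448 .nil)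
noncomputable def n5997 : Strat := .move 755 n79 (.cons 756 n5996 .nil)
noncomputable def n5998 : Strat := .move 797 n124 (.cons 841 n5997 .nil)
noncomputable def n5999 : Strat := .move 842 n123 (.cons 843 n5998 .nil)
noncomputable def n6000 : Strat := .move 796 n77 (.cons 841 n5542 .nil)
noncomputable def n6001 : Strat := .move 838 n82 (.cons 837 n6000 .nil)
noncomputable def n6002 : Strat := .move 797 n1591 (.cons 759 n6001 .nil)
noncomputable def n6003 : Strat := .move 760 n611 (.cons 761 n6002 .nil)
noncomputable def n6004 : Strat := .move 677 n2237 (.cons 759 n2908 .nil)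
noncomputable def n6005 : Strat := .move 759 n1027 (.cons 883 n5268 .nil)
noncomputable def n6006 : Strat := .move 718 n2093 (.cons 883 n6004 (.cons 759 n2108 (.cons 677 n6005 .nil)))
noncomputable def n6007 : Strat := .move 760 n611 (.cons 761 n6006 .nil)
noncomputable def n6008 : Strat := .move 842 n123 (.cons 843 n6007 .nil)
noncomputable def n6009 : Strat := .move 798 n5995 (.cons 759 n5999 (.cons 841 n4658 (.cons 842 n6003 (.cons 797 n6008 .nil))))
noncomputable def n6010 : Strat := .win 719 7 719
noncomputable def n6011 : Strat := .move 760 n5676 (.cons 925 n6010 .nil)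
noncomputable def n6012 : Strat := .win 760 7 719
noncomputable def n6013 : Strat := .move 842 n5708 (.cons 883 n5466 .nil)
noncomputable def n6014 : Strat := .move 720 n5476 (.cons 678 n6013 .nil)
noncomputable def n6015 : Strat := .move 719 n6012 (.cons 760 n6014 .nil)
noncomputable def n6016 : Strat := .win 924 1 760
noncomputable def n6017 : Strat := .win 841 0 840
noncomputable def n6018 : Strat := .win 926 6 761
noncomputable def n6019 : Strat := .move 885 n6017 (.cons 841 n6018 .nil)
noncomputable def n6020 : Strat := .move 842 n5737 (.cons 720 n6019 .nil)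
noncomputable def n6021 : Strat := .move 883 n6016 (.cons 924 n6020 .nil)
noncomputable def n6022 : Strat := .move 884 n6011 (.cons 925 n6015 (.cons 760 n6021 .nil))
noncomputable def n6023 : Strat := .move 761 n451 (.cons 762 n6022 .nil)
noncomputable def n6024 : Strat := .move 843 n120 (.cons 844 n6023 .nil)
noncomputable def n6025 : Strat := .move 884 n6010 (.cons 719 n5676 .nil)
noncomputable def n6026 : Strat := .move 803 n5331 (.cons 804 n5463 .nil)
noncomputable def n6027 : Strat := .move 842 n2128 (.cons 718 n5737 .nil)
noncomputable def n6028 : Strat := .move 759 n6026 (.cons 758 n6027 .nil)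
noncomputable def n6029 : Strat := .move 883 n6016 (.cons 924 n6028 .nil)
noncomputable def n6030 : Strat := .move 884 n5676 (.cons 925 n6029 .nil)
noncomputable def n6031 : Strat := .win 680 3 679
noncomputable def n6032 : Strat := .win 723 4 719
noncomputable def n6033 : Strat := .win 759 4 718
noncomputable def n6034 : Strat := .move 722 n6032 (.cons 723 n6033 .nil)
noncomputable def n6035 : Strat := .move 721 n6031 (.cons 680 n6034 .nil)
noncomputable def n6036 : Strat := .move 720 n6013 (.cons 679 n6035 .nil)
noncomputable def n6037 : Strat := .move 719 n3017 (.cons 678 n6036 .nil)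
noncomputable def n6038 : Strat := .move 760 n5322 (.cons 678 n6025 (.cons 719 n6030 (.cons 884 n6037 .nil)))
noncomputable def n6039 : Strat := .move 843 n120 (.cons 844 n6038 .nil)
noncomputable def n6040 : Strat := .move 761 n451 (.cons 762 n6039 .nil)
noncomputable def n6041 : Strat := .move 802 n5979 (.cons 803 n6024 (.cons 761 n5986 (.cons 841 n6040 .nil)))
noncomputable def n6042 : Strat := .move 679 n4494 (.cons 638 n5687 .nil)
noncomputable def n6043 : Strat := .move 720 n61 (.cons 721 n6042 .nil)
noncomputable def n6044 : Strat := .move 760 n286 (.cons 798 n6043 .nil)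
noncomputable def n6045 : Strat := .move 761 n451 (.cons 762 n6044 .nil)
noncomputable def n6046 : Strat := .move 802 n954 (.cons 803 n6045 .nil)
noncomputable def n6047 : Strat := .move 758 n9 (.cons 718 n6046 .nil)
noncomputable def n6048 : Strat := .move 881 n98 (.cons 922 n6047 .nil)
noncomputable def n6049 : Strat := .move 761 n5461 (.cons 798 n541 .nil)
noncomputable def n6050 : Strat := .move 798 n611 (.cons 761 n788 .nil)
noncomputable def n6051 : Strat := .move 842 n1027 (.cons 883 n5812 .nil)
noncomputable def n6052 : Strat := .move 719 n2097 (.cons 678 n5756 .nil)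
noncomputable def n6053 : Strat := .move 842 n1027 (.cons 883 n6052 .nil)
noncomputable def n6054 : Strat := .move 761 n541 (.cons 762 n6053 .nil)
noncomputable def n6055 : Strat := .move 760 n6049 (.cons 762 n6050 (.cons 761 n6051 (.cons 798 n6054 .nil)))
noncomputable def n6056 : Strat := .move 718 n308 (.cons 677 n6055 .nil)
noncomputable def n6057 : Strat := .move 802 n5464 (.cons 803 n5323 .nil)
noncomputable def n6058 : Strat := .move 761 n541 (.cons 762 n6057 .nil)
noncomputable def n6059 : Strat := .move 798 n788 (.cons 797 n5349 .nil)
noncomputable def n6060 : Strat := .move 760 n6049 (.cons 798 n6058 (.cons 762 n6050 (.cons 761 n6059 .nil)))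
noncomputable def n6061 : Strat := .move 759 n5293 (.cons 677 n6048 (.cons 758 n6056 (.cons 718 n6060 .nil)))
noncomputable def n6062 : Strat := .move 883 n5737 (.cons 720 n3016 .nil)
noncomputable def n6063 : Strat := .move 720 n5466 (.cons 679 n5708 .nil)
noncomputable def n6064 : Strat := .win 841 4 839
noncomputable def n6065 : Strat := .move 880 n34 (.cons 921 n6064 .nil)
noncomputable def n6066 : Strat := .move 759 n9 (.cons 718 n98 .nil)
noncomputable def n6067 : Strat := .move 881 n6065 (.cons 841 n6066 .nil)
noncomputable def n6068 : Strat := .move 720 n5466 (.cons 679 n6067 .nil)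
noncomputable def n6069 : Strat := .win 883 3 760
noncomputable def n6070 : Strat := .move 924 n6069 (.cons 883 n6067 .nil)
noncomputable def n6071 : Strat := .move 758 n6062 (.cons 924 n6063 (.cons 883 n6068 (.cons 720 n6070 .nil)))
noncomputable def n6072 : Strat := .move 761 n451 (.cons 762 n6071 .nil)
noncomputable def n6073 : Strat := .move 842 n5417 (.cons 798 n6072 .nil)
noncomputable def n6074 : Strat := .move 843 n120 (.cons 844 n6073 .nil)
noncomputable def n6075 : Strat := .move 842 n5417 (.cons 798 n6062 .nil)
noncomputable def n6076 : Strat := .move 761 n451 (.cons 762 n6075 .nil)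
noncomputable def n6077 : Strat := .move 843 n120 (.cons 844 n6076 .nil)
noncomputable def n6078 : Strat := .move 802 n5986 (.cons 803 n6074 (.cons 843 n5979 (.cons 841 n6077 .nil)))
noncomputable def n6079 : Strat := .move 880 n6064 (.cons 841 n34 .nil)
noncomputable def n6080 : Strat := .move 842 n5417 (.cons 798 n6079 .nil)
noncomputable def n6081 : Strat := .move 843 n120 (.cons 844 n6080 .nil)
noncomputable def n6082 : Strat := .move 758 n954 (.cons 803 n6081 .nil)
noncomputable def n6083 : Strat := .win 880 4 839
noncomputable def n6084 : Strat := .move 760 n3003 (.cons 719 n5676 .nil)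
noncomputable def n6085 : Strat := .move 884 n1364 (.cons 885 n6084 .nil)
noncomputable def n6086 : Strat := .move 841 n6083 (.cons 880 n6085 .nil)
noncomputable def n6087 : Strat := .move 842 n5417 (.cons 798 n6086 .nil)
noncomputable def n6088 : Strat := .move 843 n120 (.cons 844 n6087 .nil)
noncomputable def n6089 : Strat := .move 803 n5346 (.cons 758 n5985 .nil)
noncomputable def n6090 : Strat := .move 802 n6082 (.cons 798 n5642 (.cons 803 n6088 (.cons 841 n6089 .nil)))
noncomputable def n6091 : Strat := .move 881 n98 (.cons 922 n6090 .nil)
noncomputable def n6092 : Strat := .move 719 n1631 (.cons 678 n5296 .nil)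
noncomputable def n6093 : Strat := .move 758 n42 (.cons 675 n712 .nil)
noncomputable def n6094 : Strat := .move 719 n1631 (.cons 678 n6093 .nil)
noncomputable def n6095 : Strat := .move 758 n154 (.cons 714 n42 .nil)
noncomputable def n6096 : Strat := .move 715 n185 (.cons 760 n6095 .nil)
noncomputable def n6097 : Strat := .move 715 n185 (.cons 760 n2318 .nil)
noncomputable def n6098 : Strat := .move 715 n185 (.cons 760 n2188 .nil)
noncomputable def n6099 : Strat := .move 719 n1631 (.cons 678 n6098 .nil)
noncomputable def n6100 : Strat := .move 716 n6092 (.cons 674 n6094 (.cons 678 n6096 (.cons 675 n6097 (.cons 758 n6099 .nil))))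
noncomputable def n6101 : Strat := .move 717 n2176 (.cons 676 n6100 .nil)
noncomputable def n6102 : Strat := .move 841 n5419 (.cons 842 n6101 .nil)
noncomputable def n6103 : Strat := .move 718 n308 (.cons 677 n6102 .nil)
noncomputable def n6104 : Strat := .move 759 n5269 (.cons 718 n6091 (.cons 841 n5293 (.cons 881 n6103 .nil)))
noncomputable def n6105 : Strat := .move 760 n5461 (.cons 798 n5464 .nil)
noncomputable def n6106 : Strat := .move 761 n451 (.cons 762 n6105 .nil)
noncomputable def n6107 : Strat := .win 758 5 717
noncomputable def n6108 : Strat := .win 719 4 718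
noncomputable def n6109 : Strat := .move 722 n6032 (.cons 723 n6108 .nil)
noncomputable def n6110 : Strat := .move 721 n6107 (.cons 758 n6109 .nil)
noncomputable def n6111 : Strat := .move 720 n6042 (.cons 842 n6110 .nil)
noncomputable def n6112 : Strat := .move 760 n5461 (.cons 798 n6111 .nil)
noncomputable def n6113 : Strat := .move 761 n451 (.cons 762 n6112 .nil)
noncomputable def n6114 : Strat := .move 802 n5642 (.cons 758 n5979 (.cons 841 n6106 (.cons 803 n6113 .nil)))
noncomputable def n6115 : Strat := .move 881 n98 (.cons 922 n6114 .nil)
noncomputable def n6116 : Strat := .move 798 n788 (.cons 797 n2104 .nil)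
noncomputable def n6117 : Strat := .move 842 n1027 (.cons 883 n6116 .nil)
noncomputable def n6118 : Strat := .move 719 n1618 (.cons 841 n2103 .nil)
noncomputable def n6119 : Strat := .move 842 n1027 (.cons 883 n6118 .nil)
noncomputable def n6120 : Strat := .move 761 n541 (.cons 762 n6119 .nil)
noncomputable def n6121 : Strat := .move 760 n6049 (.cons 762 n6050 (.cons 761 n6117 (.cons 798 n6120 .nil)))
noncomputable def n6122 : Strat := .move 718 n308 (.cons 677 n6121 .nil)
noncomputable def n6123 : Strat := .move 759 n5269 (.cons 718 n6115 (.cons 881 n6122 (.cons 841 n5293 .nil)))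
noncomputable def n6124 : Strat := .move 801 n5977 (.cons 759 n5990 (.cons 802 n6009 (.cons 798 n6041 (.cons 841 n6061 (.cons 760 n6078 (.cons 761 n6104 (.cons 843 n6123 .nil)))))))
noncomputable def n6125 : Strat := .move 802 n451 (.cons 762 n521 .nil)
noncomputable def n6126 : Strat := .move 761 n125 (.cons 760 n6125 .nil)
noncomputable def n6127 : Strat := .move 883 n1624 (.cons 924 n6126 .nil)
noncomputable def n6128 : Strat := .move 759 n4128 (.cons 718 n6127 .nil)
noncomputable def n6129 : Strat := .move 841 n513 (.cons 797 n6128 .nil)
noncomputable def n6130 : Strat := .move 842 n123 (.cons 843 n6129 .nil)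
noncomputable def n6131 : Strat := .move 759 n788 (.cons 797 n5269 .nil)
noncomputable def n6132 : Strat := .move 760 n611 (.cons 761 n6131 .nil)
noncomputable def n6133 : Strat := .move 757 n258 (.cons 756 n6132 .nil)
noncomputable def n6134 : Strat := .move 759 n788 (.cons 797 n4644 .nil)
noncomputable def n6135 : Strat := .move 760 n611 (.cons 761 n6134 .nil)
noncomputable def n6136 : Strat := .move 842 n123 (.cons 843 n6135 .nil)
noncomputable def n6137 : Strat := .move 841 n513 (.cons 797 n3758 .nil)
noncomputable def n6138 : Strat := .move 842 n123 (.cons 843 n6137 .nil)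
noncomputable def n6139 : Strat := .move 841 n521 (.cons 803 n2112 .nil)
noncomputable def n6140 : Strat := .move 802 n120 (.cons 844 n6139 .nil)
noncomputable def n6141 : Strat := .move 843 n119 (.cons 842 n6140 .nil)
noncomputable def n6142 : Strat := .move 798 n6130 (.cons 843 n6133 (.cons 841 n6136 (.cons 759 n6138 (.cons 761 n1929 (.cons 797 n6141 .nil)))))
noncomputable def n6143 : Strat := .move 802 n5979 (.cons 762 n5986 (.cons 841 n5728 .nil))
noncomputable def n6144 : Strat := .move 796 n77 (.cons 841 n128 .nil)
noncomputable def n6145 : Strat := .move 797 n1591 (.cons 759 n6144 .nil)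
noncomputable def n6146 : Strat := .move 760 n611 (.cons 761 n6145 .nil)
noncomputable def n6147 : Strat := .move 881 n257 (.cons 922 n6146 .nil)
noncomputable def n6148 : Strat := .move 757 n258 (.cons 756 n6147 .nil)
noncomputable def n6149 : Strat := .move 881 n98 (.cons 922 n1029 .nil)
noncomputable def n6150 : Strat := .move 759 n788 (.cons 797 n6149 .nil)
noncomputable def n6151 : Strat := .move 760 n611 (.cons 761 n6150 .nil)
noncomputable def n6152 : Strat := .move 757 n258 (.cons 756 n6151 .nil)
noncomputable def n6153 : Strat := .move 759 n308 (.cons 677 n5268 .nil)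
noncomputable def n6154 : Strat := .move 757 n258 (.cons 756 n2098 .nil)
noncomputable def n6155 : Strat := .move 719 n2107 (.cons 677 n6154 .nil)
noncomputable def n6156 : Strat := .move 718 n2093 (.cons 883 n6153 (.cons 677 n6005 (.cons 759 n6155 .nil)))
noncomputable def n6157 : Strat := .move 760 n611 (.cons 761 n6156 .nil)
noncomputable def n6158 : Strat := .move 842 n123 (.cons 843 n6157 .nil)
noncomputable def n6159 : Strat := .move 798 n4406 (.cons 842 n6148 (.cons 760 n1929 (.cons 841 n6152 (.cons 797 n6158 .nil))))
noncomputable def n6160 : Strat := .move 803 n5632 (.cons 763 n5985 .nil)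
noncomputable def n6161 : Strat := .move 762 n5633 (.cons 761 n6160 .nil)
noncomputable def n6162 : Strat := .move 797 n85 (.cons 755 n6144 .nil)
noncomputable def n6163 : Strat := .move 756 n1177 (.cons 757 n6162 .nil)
noncomputable def n6164 : Strat := .move 843 n120 (.cons 844 n6163 .nil)
noncomputable def n6165 : Strat := .move 798 n125 (.cons 760 n6164 .nil)
noncomputable def n6166 : Strat := .move 761 n451 (.cons 762 n6165 .nil)
noncomputable def n6167 : Strat := .move 802 n5979 (.cons 761 n5986 (.cons 841 n6161 (.cons 803 n6166 .nil)))
noncomputable def n6168 : Strat := .move 802 n5986 (.cons 843 n5979 (.cons 841 n5776 .nil))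
noncomputable def n6169 : Strat := .move 841 n1878 (.cons 881 n5419 .nil)
noncomputable def n6170 : Strat := .move 718 n308 (.cons 677 n6169 .nil)
noncomputable def n6171 : Strat := .move 797 n958 (.cons 760 n417 .nil)
noncomputable def n6172 : Strat := .move 797 n958 (.cons 760 n1178 .nil)
noncomputable def n6173 : Strat := .win 760 2 759
noncomputable def n6174 : Strat := .win 764 5 760
noncomputable def n6175 : Strat := .win 762 5 759
noncomputable def n6176 : Strat := .move 763 n6174 (.cons 764 n6175 .nil)
noncomputable def n6177 : Strat := .move 804 n6173 (.cons 760 n6176 .nil)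
noncomputable def n6178 : Strat := .move 803 n3620 (.cons 841 n6177 .nil)
noncomputable def n6179 : Strat := .move 802 n120 (.cons 844 n6178 .nil)
noncomputable def n6180 : Strat := .move 843 n119 (.cons 842 n6179 .nil)
noncomputable def n6181 : Strat := .move 798 n6171 (.cons 842 n6172 (.cons 760 n1929 (.cons 797 n6180 .nil)))
noncomputable def n6182 : Strat := .move 881 n98 (.cons 922 n6181 .nil)
noncomputable def n6183 : Strat := .move 841 n1605 (.cons 883 n5418 .nil)
noncomputable def n6184 : Strat := .move 884 n5710 (.cons 760 n1364 .nil)
noncomputable def n6185 : Strat := .move 719 n1631 (.cons 678 n6184 .nil)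
noncomputable def n6186 : Strat := .move 802 n521 (.cons 803 n6185 .nil)
noncomputable def n6187 : Strat := .move 841 n1907 (.cons 844 n6186 .nil)
noncomputable def n6188 : Strat := .move 843 n5417 (.cons 798 n6187 .nil)
noncomputable def n6189 : Strat := .move 842 n6183 (.cons 841 n1626 (.cons 883 n6188 .nil))
noncomputable def n6190 : Strat := .move 718 n308 (.cons 677 n6189 .nil)
noncomputable def n6191 : Strat := .move 759 n6170 (.cons 718 n6182 (.cons 881 n6190 (.cons 842 n5269 (.cons 841 n5820 .nil))))
noncomputable def n6192 : Strat := .move 798 n0 (.cons 757 n2112 .nil)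
noncomputable def n6193 : Strat := .move 922 n2 (.cons 759 n6192 .nil)
noncomputable def n6194 : Strat := .move 797 n85 (.cons 755 n658 .nil)
noncomputable def n6195 : Strat := .move 756 n1177 (.cons 757 n6194 .nil)
noncomputable def n6196 : Strat := .move 798 n125 (.cons 760 n6195 .nil)
noncomputable def n6197 : Strat := .move 761 n451 (.cons 762 n6196 .nil)
noncomputable def n6198 : Strat := .move 922 n2 (.cons 759 n72 .nil)
noncomputable def n6199 : Strat := .move 881 n6193 (.cons 922 n6197 (.cons 757 n6198 .nil))
noncomputable def n6200 : Strat := .win 844 0 800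
noncomputable def n6201 : Strat := .win 846 0 801
noncomputable def n6202 : Strat := .move 763 n6175 (.cons 762 n6174 .nil)
noncomputable def n6203 : Strat := .move 804 n6201 (.cons 846 n6202 .nil)
noncomputable def n6204 : Strat := .move 845 n6200 (.cons 844 n6203 .nil)
noncomputable def n6205 : Strat := .move 803 n3620 (.cons 841 n6204 .nil)
noncomputable def n6206 : Strat := .win 759 2 759
noncomputable def n6207 : Strat := .win 805 2 760
noncomputable def n6208 : Strat := .move 761 n5461 (.cons 798 n6207 .nil)
noncomputable def n6209 : Strat := .move 760 n6206 (.cons 759 n6208 .nil)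
noncomputable def n6210 : Strat := .move 804 n6201 (.cons 846 n6209 .nil)
noncomputable def n6211 : Strat := .move 845 n6200 (.cons 844 n6210 .nil)
noncomputable def n6212 : Strat := .move 803 n3620 (.cons 841 n6211 .nil)
noncomputable def n6213 : Strat := .move 803 n5978 (.cons 762 n6211 (.cons 761 n6204 .nil))
noncomputable def n6214 : Strat := .move 802 n5984 (.cons 803 n6199 (.cons 761 n6205 (.cons 762 n6212 (.cons 841 n6213 .nil))))
noncomputable def n6215 : Strat := .move 801 n6142 (.cons 798 n6143 (.cons 802 n6159 (.cons 842 n6167 (.cons 841 n5774 (.cons 760 n6168 (.cons 761 n6191 (.cons 843 n6214 .nil)))))))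
noncomputable def n6216 : Strat := .move 797 n74 (.cons 796 n4069 .nil)
noncomputable def n6217 : Strat := .move 759 n308 (.cons 677 n1878 .nil)
noncomputable def n6218 : Strat := .move 759 n308 (.cons 677 n2177 .nil)
noncomputable def n6219 : Strat := .move 759 n1878 (.cons 881 n2177 .nil)
noncomputable def n6220 : Strat := .move 758 n980 (.cons 676 n37 .nil)
noncomputable def n6221 : Strat := .move 881 n257 (.cons 922 n46 .nil)
noncomputable def n6222 : Strat := .move 758 n980 (.cons 676 n6221 .nil)
noncomputable def n6223 : Strat := .move 758 n37 (.cons 677 n6221 .nil)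
noncomputable def n6224 : Strat := .move 716 n1019 (.cons 675 n2272 .nil)
noncomputable def n6225 : Strat := .move 757 n6220 (.cons 677 n6222 (.cons 676 n6223 (.cons 758 n6224 .nil)))
noncomputable def n6226 : Strat := .move 757 n138 (.cons 881 n924 .nil)
noncomputable def n6227 : Strat := .move 716 n42 (.cons 675 n6226 .nil)
noncomputable def n6228 : Strat := .move 758 n37 (.cons 677 n6227 .nil)
noncomputable def n6229 : Strat := .move 758 n980 (.cons 676 n6227 .nil)
noncomputable def n6230 : Strat := .move 757 n1019 (.cons 675 n2272 .nil)
noncomputable def n6231 : Strat := .move 719 n2188 (.cons 673 n2197 .nil)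
noncomputable def n6232 : Strat := .move 677 n2201 (.cons 676 n2200 .nil)
noncomputable def n6233 : Strat := .move 714 n2202 (.cons 756 n6232 .nil)
noncomputable def n6234 : Strat := .move 715 n2224 (.cons 714 n6231 (.cons 674 n6233 .nil))
noncomputable def n6235 : Strat := .move 842 n514 (.cons 843 n6234 .nil)
noncomputable def n6236 : Strat := .move 719 n1757 (.cons 755 n2197 .nil)
noncomputable def n6237 : Strat := .move 714 n1796 (.cons 674 n6232 .nil)
noncomputable def n6238 : Strat := .move 715 n2224 (.cons 714 n6236 (.cons 756 n6237 .nil))
noncomputable def n6239 : Strat := .move 842 n514 (.cons 843 n6238 .nil)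
noncomputable def n6240 : Strat := .move 719 n2191 (.cons 674 n5158 .nil)
noncomputable def n6241 : Strat := .move 675 n2375 (.cons 757 n6240 .nil)
noncomputable def n6242 : Strat := .move 674 n171 (.cons 633 n734 .nil)
noncomputable def n6243 : Strat := .move 756 n192 (.cons 755 n6242 .nil)
noncomputable def n6244 : Strat := .move 757 n1019 (.cons 675 n6243 .nil)
noncomputable def n6245 : Strat := .move 757 n1019 (.cons 675 n2224 .nil)
noncomputable def n6246 : Strat := .move 842 n514 (.cons 843 n2224 .nil)
noncomputable def n6247 : Strat := .move 757 n1019 (.cons 675 n6233 .nil)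
noncomputable def n6248 : Strat := .move 757 n1019 (.cons 675 n6237 .nil)
noncomputable def n6249 : Strat := .move 715 n6244 (.cons 633 n6245 (.cons 757 n6246 (.cons 673 n6247 (.cons 756 n6248 .nil))))
noncomputable def n6250 : Strat := .move 716 n6230 (.cons 757 n6235 (.cons 675 n6239 (.cons 756 n6241 (.cons 719 n6249 .nil))))
noncomputable def n6251 : Strat := .move 717 n6225 (.cons 676 n6228 (.cons 677 n6229 (.cons 716 n6220 (.cons 758 n6250 .nil))))
noncomputable def n6252 : Strat := .move 718 n6217 (.cons 881 n6218 (.cons 677 n6219 (.cons 759 n6251 .nil)))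
noncomputable def n6253 : Strat := .move 841 n515 (.cons 842 n6216 (.cons 797 n6252 .nil))
noncomputable def n6254 : Strat := .move 881 n257 (.cons 922 n3437 .nil)
noncomputable def n6255 : Strat := .move 879 n863 (.cons 920 n6254 .nil)
noncomputable def n6256 : Strat := .move 716 n1039 (.cons 675 n3981 .nil)
noncomputable def n6257 : Strat := .move 757 n2799 (.cons 716 n6255 (.cons 879 n6256 .nil))
noncomputable def n6258 : Strat := .move 838 n82 (.cons 837 n6257 .nil)
noncomputable def n6259 : Strat := .move 756 n85 (.cons 755 n6258 .nil)
noncomputable def n6260 : Strat := .move 841 n75 (.cons 842 n6259 .nil)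
noncomputable def n6261 : Strat := .move 841 n74 (.cons 796 n6259 .nil)
noncomputable def n6262 : Strat := .move 797 n76 (.cons 796 n6260 (.cons 842 n6261 (.cons 841 n5997 .nil)))
noncomputable def n6263 : Strat := .move 758 n313 (.cons 796 n4318 .nil)
noncomputable def n6264 : Strat := .move 797 n958 (.cons 760 n6263 .nil)
noncomputable def n6265 : Strat := .move 797 n958 (.cons 760 n5997 .nil)
noncomputable def n6266 : Strat := .move 881 n98 (.cons 922 n3210 .nil)
noncomputable def n6267 : Strat := .move 797 n958 (.cons 760 n6266 .nil)
noncomputable def n6268 : Strat := .move 759 n6264 (.cons 758 n6265 (.cons 796 n6267 (.cons 797 n6266 .nil)))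
noncomputable def n6269 : Strat := .move 841 n74 (.cons 796 n2068 .nil)
noncomputable def n6270 : Strat := .move 759 n958 (.cons 760 n5543 .nil)
noncomputable def n6271 : Strat := .move 797 n76 (.cons 796 n2417 (.cons 842 n6269 (.cons 841 n6270 .nil)))
noncomputable def n6272 : Strat := .move 841 n75 (.cons 842 n4068 .nil)
noncomputable def n6273 : Strat := .move 759 n958 (.cons 760 n6272 .nil)
noncomputable def n6274 : Strat := .move 759 n958 (.cons 760 n5997 .nil)
noncomputable def n6275 : Strat := .move 797 n76 (.cons 796 n6273 (.cons 842 n6000 (.cons 841 n6274 .nil)))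
noncomputable def n6276 : Strat := .move 881 n98 (.cons 922 n1295 .nil)
noncomputable def n6277 : Strat := .move 759 n958 (.cons 760 n6276 .nil)
noncomputable def n6278 : Strat := .move 759 n958 (.cons 760 n6266 .nil)
noncomputable def n6279 : Strat := .move 797 n6277 (.cons 759 n6260 (.cons 881 n2417 (.cons 841 n6278 .nil)))
noncomputable def n6280 : Strat := .move 841 n74 (.cons 796 n4069 .nil)
noncomputable def n6281 : Strat := .move 759 n958 (.cons 760 n6263 .nil)
noncomputable def n6282 : Strat := .move 797 n76 (.cons 842 n6280 (.cons 796 n6277 (.cons 841 n6281 .nil)))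
noncomputable def n6283 : Strat := .move 759 n308 (.cons 677 n1294 .nil)
noncomputable def n6284 : Strat := .move 759 n1294 (.cons 841 n1290 .nil)
noncomputable def n6285 : Strat := .move 757 n1019 (.cons 675 n1239 .nil)
noncomputable def n6286 : Strat := .move 841 n2224 (.cons 714 n6236 (.cons 756 n6237 .nil))
noncomputable def n6287 : Strat := .move 757 n171 (.cons 633 n139 .nil)
noncomputable def n6288 : Strat := .move 674 n734 (.cons 673 n6287 .nil)
noncomputable def n6289 : Strat := .move 756 n192 (.cons 755 n6288 .nil)
noncomputable def n6290 : Strat := .move 719 n193 (.cons 757 n2197 .nil)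
noncomputable def n6291 : Strat := .move 756 n192 (.cons 755 n6290 .nil)
noncomputable def n6292 : Strat := .move 715 n6286 (.cons 756 n2333 (.cons 677 n6289 (.cons 673 n6291 .nil)))
noncomputable def n6293 : Strat := .move 755 n327 (.cons 754 n2270 .nil)
noncomputable def n6294 : Strat := .move 756 n139 (.cons 719 n6293 .nil)
noncomputable def n6295 : Strat := .move 757 n1019 (.cons 675 n6294 .nil)
noncomputable def n6296 : Strat := .move 715 n6243 (.cons 756 n6237 (.cons 673 n6233 .nil))
noncomputable def n6297 : Strat := .move 757 n1019 (.cons 675 n6296 .nil)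
noncomputable def n6298 : Strat := .move 714 n1795 (.cons 672 n2202 .nil)
noncomputable def n6299 : Strat := .move 673 n194 (.cons 674 n6298 .nil)
noncomputable def n6300 : Strat := .move 714 n2201 (.cons 676 n1795 .nil)
noncomputable def n6301 : Strat := .move 677 n2200 (.cons 678 n6300 .nil)
noncomputable def n6302 : Strat := .move 673 n194 (.cons 674 n6301 .nil)
noncomputable def n6303 : Strat := .move 715 n6299 (.cons 673 n2204 (.cons 755 n6302 (.cons 714 n2199 .nil)))
noncomputable def n6304 : Strat := .move 717 n6241 (.cons 675 n6292 (.cons 674 n6295 (.cons 719 n6297 (.cons 757 n6303 .nil))))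
noncomputable def n6305 : Strat := .move 758 n37 (.cons 677 n42 .nil)
noncomputable def n6306 : Strat := .move 715 n2188 (.cons 673 n2197 .nil)
noncomputable def n6307 : Strat := .move 720 n197 (.cons 760 n5148 .nil)
noncomputable def n6308 : Strat := .move 719 n6306 (.cons 715 n6307 (.cons 675 n201 .nil))
noncomputable def n6309 : Strat := .move 758 n42 (.cons 675 n980 .nil)
noncomputable def n6310 : Strat := .move 758 n37 (.cons 677 n980 .nil)
noncomputable def n6311 : Strat := .move 841 n6305 (.cons 758 n6308 (.cons 677 n6309 (.cons 675 n6310 .nil)))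
noncomputable def n6312 : Strat := .move 675 n2216 (.cons 758 n6240 .nil)
noncomputable def n6313 : Strat := .move 715 n2200 (.cons 678 n2332 .nil)
noncomputable def n6314 : Strat := .move 677 n2238 (.cons 758 n6313 .nil)
noncomputable def n6315 : Strat := .move 717 n6311 (.cons 758 n6303 (.cons 677 n6312 (.cons 719 n6305 (.cons 675 n6314 .nil))))
noncomputable def n6316 : Strat := .move 758 n41 (.cons 757 n37 .nil)
noncomputable def n6317 : Strat := .move 758 n41 (.cons 757 n980 .nil)
noncomputable def n6318 : Strat := .move 841 n6316 (.cons 758 n6238 (.cons 757 n6310 (.cons 677 n6317 .nil)))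
noncomputable def n6319 : Strat := .move 757 n1239 (.cons 758 n6294 .nil)
noncomputable def n6320 : Strat := .move 717 n6318 (.cons 758 n6292 (.cons 757 n6314 (.cons 715 n6316 (.cons 677 n6319 .nil))))
noncomputable def n6321 : Strat := .move 716 n6285 (.cons 758 n6304 (.cons 757 n6315 (.cons 675 n6320 .nil)))
noncomputable def n6322 : Strat := .move 759 n308 (.cons 677 n1290 .nil)
noncomputable def n6323 : Strat := .move 718 n6283 (.cons 677 n6284 (.cons 759 n6321 (.cons 841 n6322 .nil)))
noncomputable def n6324 : Strat := .move 922 n2 (.cons 759 n0 .nil)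
noncomputable def n6325 : Strat := .move 881 n3646 (.cons 922 n6323 (.cons 758 n6324 (.cons 757 n6198 .nil)))
noncomputable def n6326 : Strat := .move 798 n6253 (.cons 759 n6262 (.cons 841 n6268 (.cons 881 n6271 (.cons 758 n6275 (.cons 796 n6279 (.cons 755 n6282 (.cons 797 n6325 .nil)))))))
noncomputable def n6327 : Strat := .move 841 n513 (.cons 797 n514 .nil)
noncomputable def n6328 : Strat := .move 801 n123 (.cons 843 n5703 .nil)
noncomputable def n6329 : Strat := .move 797 n124 (.cons 841 n6270 .nil)
noncomputable def n6330 : Strat := .move 842 n6327 (.cons 841 n6328 (.cons 843 n6329 .nil))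
noncomputable def n6331 : Strat := .move 838 n82 (.cons 837 n2799 .nil)
noncomputable def n6332 : Strat := .move 757 n260 (.cons 801 n6331 .nil)
noncomputable def n6333 : Strat := .move 756 n85 (.cons 755 n6332 .nil)
noncomputable def n6334 : Strat := .move 797 n958 (.cons 760 n6333 .nil)
noncomputable def n6335 : Strat := .move 761 n5175 (.cons 801 n5283 .nil)
noncomputable def n6336 : Strat := .move 760 n788 (.cons 797 n6335 .nil)
noncomputable def n6337 : Strat := .move 801 n5287 (.cons 758 n2116 (.cons 802 n5273 .nil))
noncomputable def n6338 : Strat := .move 881 n98 (.cons 922 n6337 .nil)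
noncomputable def n6339 : Strat := .move 758 n46 (.cons 716 n815 .nil)
noncomputable def n6340 : Strat := .move 755 n3778 (.cons 797 n327 .nil)
noncomputable def n6341 : Strat := .move 756 n260 (.cons 801 n6340 .nil)
noncomputable def n6342 : Strat := .move 757 n6339 (.cons 756 n3645 (.cons 758 n6341 .nil))
noncomputable def n6343 : Strat := .move 881 n98 (.cons 922 n6342 .nil)
noncomputable def n6344 : Strat := .move 759 n5629 (.cons 758 n6334 (.cons 756 n6336 (.cons 797 n6338 (.cons 760 n6343 .nil))))
noncomputable def n6345 : Strat := .move 797 n76 (.cons 842 n6000 (.cons 796 n2056 (.cons 841 n6333 .nil)))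
noncomputable def n6346 : Strat := .move 881 n98 (.cons 922 n3645 .nil)
noncomputable def n6347 : Strat := .move 757 n260 (.cons 801 n6346 .nil)
noncomputable def n6348 : Strat := .move 756 n85 (.cons 755 n6347 .nil)
noncomputable def n6349 : Strat := .move 759 n958 (.cons 760 n6348 .nil)
noncomputable def n6350 : Strat := .move 878 n3068 (.cons 919 n3436 .nil)
noncomputable def n6351 : Strat := .move 757 n863 (.cons 920 n2060 .nil)
noncomputable def n6352 : Strat := .move 879 n6350 (.cons 880 n6351 .nil)
noncomputable def n6353 : Strat := .move 838 n82 (.cons 837 n6352 .nil)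
noncomputable def n6354 : Strat := .move 756 n85 (.cons 755 n6353 .nil)
noncomputable def n6355 : Strat := .move 841 n75 (.cons 842 n6354 .nil)
noncomputable def n6356 : Strat := .move 881 n98 (.cons 922 n6355 .nil)
noncomputable def n6357 : Strat := .move 759 n958 (.cons 760 n6356 .nil)
noncomputable def n6358 : Strat := .move 797 n6349 (.cons 758 n2056 (.cons 801 n6357 (.cons 759 n2869 .nil)))
noncomputable def n6359 : Strat := .move 801 n2091 (.cons 757 n2116 (.cons 802 n5704 .nil))
noncomputable def n6360 : Strat := .move 759 n5278 (.cons 796 n6348 (.cons 758 n76 .nil))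
noncomputable def n6361 : Strat := .move 797 n6360 (.cons 756 n76 (.cons 842 n6000 (.cons 796 n2869 (.cons 841 n2409 .nil))))
noncomputable def n6362 : Strat := .move 797 n76 (.cons 842 n6000 (.cons 841 n6270 (.cons 796 n2056 .nil)))
noncomputable def n6363 : Strat := .move 759 n958 (.cons 760 n2386 .nil)
noncomputable def n6364 : Strat := .move 796 n77 (.cons 841 n6363 .nil)
noncomputable def n6365 : Strat := .move 797 n6000 (.cons 796 n2409 (.cons 755 n6364 .nil))
noncomputable def n6366 : Strat := .move 796 n2386 (.cons 758 n448 .nil)
noncomputable def n6367 : Strat := .move 759 n958 (.cons 760 n6366 .nil)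
noncomputable def n6368 : Strat := .move 797 n76 (.cons 841 n6367 (.cons 796 n2056 .nil))
noncomputable def n6369 : Strat := .move 797 n76 (.cons 796 n6357 (.cons 841 n6270 .nil))
noncomputable def n6370 : Strat := .move 798 n6330 (.cons 841 n6344 (.cons 758 n6345 (.cons 796 n6358 (.cons 797 n6359 (.cons 760 n6361 (.cons 675 n6362 (.cons 842 n6365 (.cons 756 n6368 (.cons 801 n6369 .nil)))))))))
noncomputable def n6371 : Strat := .move 761 n451 (.cons 762 n5735 .nil)
noncomputable def n6372 : Strat := .move 802 n5981 (.cons 841 n6371 (.cons 798 n5979 (.cons 761 n5986 .nil)))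
noncomputable def n6373 : Strat := .move 679 n5687 (.cons 842 n5722 .nil)
noncomputable def n6374 : Strat := .win 719 7 678
noncomputable def n6375 : Strat := .win 637 7 637
noncomputable def n6376 : Strat := .move 679 n6375 (.cons 637 n5722 .nil)
noncomputable def n6377 : Strat := .move 678 n6374 (.cons 719 n6376 .nil)
noncomputable def n6378 : Strat := .win 842 1 719
noncomputable def n6379 : Strat := .move 719 n6012 (.cons 760 n5476 .nil)
noncomputable def n6380 : Strat := .move 884 n6016 (.cons 924 n6379 .nil)
noncomputable def n6381 : Strat := .move 883 n6378 (.cons 842 n6380 .nil)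
noncomputable def n6382 : Strat := .move 720 n5709 (.cons 883 n6373 (.cons 842 n6377 (.cons 679 n6381 .nil)))
noncomputable def n6383 : Strat := .move 758 n953 (.cons 757 n6382 .nil)
noncomputable def n6384 : Strat := .move 843 n120 (.cons 844 n6383 .nil)
noncomputable def n6385 : Strat := .move 761 n451 (.cons 762 n6384 .nil)
noncomputable def n6386 : Strat := .move 802 n5979 (.cons 761 n5986 (.cons 841 n6385 .nil))
noncomputable def n6387 : Strat := .move 797 n75 (.cons 842 n74 .nil)
noncomputable def n6388 : Strat := .move 798 n125 (.cons 760 n6387 .nil)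
noncomputable def n6389 : Strat := .move 761 n451 (.cons 762 n6388 .nil)
noncomputable def n6390 : Strat := .move 717 n980 (.cons 676 n6389 .nil)
noncomputable def n6391 : Strat := .move 758 n953 (.cons 757 n6390 .nil)
noncomputable def n6392 : Strat := .move 841 n521 (.cons 803 n6391 .nil)
noncomputable def n6393 : Strat := .move 845 n6200 (.cons 844 n6201 .nil)
noncomputable def n6394 : Strat := .move 804 n6174 (.cons 764 n6393 .nil)
noncomputable def n6395 : Strat := .move 763 n6175 (.cons 762 n6394 .nil)
noncomputable def n6396 : Strat := .move 758 n953 (.cons 757 n6395 .nil)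
noncomputable def n6397 : Strat := .move 803 n3620 (.cons 841 n6396 .nil)
noncomputable def n6398 : Strat := .move 841 n521 (.cons 803 n5601 .nil)
noncomputable def n6399 : Strat := .move 798 n258 (.cons 756 n6398 .nil)
noncomputable def n6400 : Strat := .move 757 n2089 (.cons 758 n6399 .nil)
noncomputable def n6401 : Strat := .move 798 n125 (.cons 760 n5872 .nil)
noncomputable def n6402 : Strat := .move 761 n451 (.cons 762 n6401 .nil)
noncomputable def n6403 : Strat := .move 802 n6392 (.cons 761 n6397 (.cons 757 n5984 (.cons 762 n6400 (.cons 841 n6402 .nil))))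
noncomputable def n6404 : Strat := .win 718 0 716
noncomputable def n6405 : Strat := .move 716 n6404 (.cons 718 n42 .nil)
noncomputable def n6406 : Strat := .move 719 n5592 (.cons 678 n6405 .nil)
noncomputable def n6407 : Strat := .move 760 n5461 (.cons 798 n6406 .nil)
noncomputable def n6408 : Strat := .move 761 n451 (.cons 762 n6407 .nil)
noncomputable def n6409 : Strat := .move 717 n980 (.cons 676 n6408 .nil)
noncomputable def n6410 : Strat := .move 758 n953 (.cons 757 n6409 .nil)
noncomputable def n6411 : Strat := .move 841 n521 (.cons 803 n6410 .nil)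
noncomputable def n6412 : Strat := .move 798 n258 (.cons 756 n5986 .nil)
noncomputable def n6413 : Strat := .move 757 n2089 (.cons 758 n6412 .nil)
noncomputable def n6414 : Strat := .move 802 n6411 (.cons 762 n6413 (.cons 803 n6402 (.cons 758 n5979 .nil)))
noncomputable def n6415 : Strat := .move 798 n119 (.cons 842 n5872 .nil)
noncomputable def n6416 : Strat := .move 843 n120 (.cons 844 n6415 .nil)
noncomputable def n6417 : Strat := .move 802 n5986 (.cons 843 n5979 (.cons 803 n6416 .nil))
noncomputable def n6418 : Strat := .move 797 n124 (.cons 841 n3399 .nil)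
noncomputable def n6419 : Strat := .move 842 n123 (.cons 843 n6418 .nil)
noncomputable def n6420 : Strat := .move 757 n258 (.cons 756 n6419 .nil)
noncomputable def n6421 : Strat := .move 798 n5703 (.cons 802 n6420 (.cons 758 n1929 (.cons 756 n6138 .nil)))
noncomputable def n6422 : Strat := .move 884 n1364 (.cons 885 n5712 .nil)
noncomputable def n6423 : Strat := .move 841 n521 (.cons 803 n6422 .nil)
noncomputable def n6424 : Strat := .move 842 n5417 (.cons 798 n6423 .nil)
noncomputable def n6425 : Strat := .move 843 n120 (.cons 844 n6424 .nil)
noncomputable def n6426 : Strat := .move 802 n6425 (.cons 843 n6400 (.cons 798 n5986 (.cons 841 n6416 .nil)))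
noncomputable def n6427 : Strat := .move 881 n257 (.cons 922 n1240 .nil)
noncomputable def n6428 : Strat := .move 757 n258 (.cons 756 n6427 .nil)
noncomputable def n6429 : Strat := .move 841 n513 (.cons 797 n6428 .nil)
noncomputable def n6430 : Strat := .move 842 n123 (.cons 843 n6429 .nil)
noncomputable def n6431 : Strat := .move 798 n611 (.cons 761 n6430 .nil)
noncomputable def n6432 : Strat := .win 842 7 677
noncomputable def n6433 : Strat := .win 680 4 676
noncomputable def n6434 : Strat := .move 717 n6433 (.cons 680 n2238 .nil)
noncomputable def n6435 : Strat := .move 718 n6432 (.cons 842 n6434 .nil)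
noncomputable def n6436 : Strat := .move 679 n2094 (.cons 638 n6435 .nil)
noncomputable def n6437 : Strat := .move 677 n2943 (.cons 636 n6436 .nil)
noncomputable def n6438 : Strat := .move 678 n410 (.cons 841 n6437 .nil)
noncomputable def n6439 : Strat := .win 841 2 799
noncomputable def n6440 : Strat := .move 844 n6439 (.cons 841 n5753 .nil)
noncomputable def n6441 : Strat := .move 843 n2930 (.cons 884 n6440 .nil)
noncomputable def n6442 : Strat := .move 761 n2964 (.cons 883 n2966 .nil)
noncomputable def n6443 : Strat := .move 718 n2107 (.cons 677 n6442 .nil)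
noncomputable def n6444 : Strat := .move 720 n2099 (.cons 679 n6443 .nil)
noncomputable def n6445 : Strat := .move 842 n6441 (.cons 884 n6444 .nil)
noncomputable def n6446 : Strat := .move 678 n2943 (.cons 636 n6436 .nil)
noncomputable def n6447 : Strat := .win 721 0 676
noncomputable def n6448 : Strat := .win 675 0 675
noncomputable def n6449 : Strat := .move 720 n6447 (.cons 721 n6448 .nil)
noncomputable def n6450 : Strat := .win 716 4 675
noncomputable def n6451 : Strat := .move 718 n6433 (.cons 680 n2238 .nil)
noncomputable def n6452 : Strat := .move 717 n6450 (.cons 716 n6451 .nil)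
noncomputable def n6453 : Strat := .move 676 n6449 (.cons 675 n6452 .nil)
noncomputable def n6454 : Strat := .move 679 n2094 (.cons 638 n6453 .nil)
noncomputable def n6455 : Strat := .move 678 n2943 (.cons 636 n6454 .nil)
noncomputable def n6456 : Strat := .move 716 n2288 (.cons 715 n731 .nil)
noncomputable def n6457 : Strat := .move 717 n2238 (.cons 758 n6456 .nil)
noncomputable def n6458 : Strat := .move 718 n6432 (.cons 842 n6457 .nil)
noncomputable def n6459 : Strat := .move 678 n2943 (.cons 636 n6458 .nil)
noncomputable def n6460 : Strat := .move 842 n2095 (.cons 720 n2942 .nil)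
noncomputable def n6461 : Strat := .move 679 n2094 (.cons 638 n6460 .nil)
noncomputable def n6462 : Strat := .move 678 n2943 (.cons 636 n6461 .nil)
noncomputable def n6463 : Strat := .win 842 3 678
noncomputable def n6464 : Strat := .move 676 n6447 (.cons 721 n6448 .nil)
noncomputable def n6465 : Strat := .move 720 n6463 (.cons 842 n6464 .nil)
noncomputable def n6466 : Strat := .move 679 n2094 (.cons 638 n6465 .nil)
noncomputable def n6467 : Strat := .move 678 n2943 (.cons 636 n6466 .nil)
noncomputable def n6468 : Strat := .win 720 0 717
noncomputable def n6469 : Strat := .win 763 2 718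
noncomputable def n6470 : Strat := .move 762 n6468 (.cons 720 n6469 .nil)
noncomputable def n6471 : Strat := .move 761 n2965 (.cons 716 n6470 .nil)
noncomputable def n6472 : Strat := .move 717 n2238 (.cons 758 n6471 .nil)
noncomputable def n6473 : Strat := .move 718 n6432 (.cons 842 n6472 .nil)
noncomputable def n6474 : Strat := .move 677 n6446 (.cons 842 n6455 (.cons 679 n6459 (.cons 717 n6462 (.cons 718 n6467 (.cons 678 n6473 .nil)))))
noncomputable def n6475 : Strat := .move 677 n2943 (.cons 636 n6454 .nil)
noncomputable def n6476 : Strat := .move 678 n410 (.cons 841 n6475 .nil)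
noncomputable def n6477 : Strat := .move 677 n2943 (.cons 636 n6458 .nil)
noncomputable def n6478 : Strat := .move 678 n410 (.cons 841 n6477 .nil)
noncomputable def n6479 : Strat := .move 677 n2943 (.cons 636 n6465 .nil)
noncomputable def n6480 : Strat := .move 679 n2094 (.cons 638 n6479 .nil)
noncomputable def n6481 : Strat := .move 678 n410 (.cons 841 n6480 .nil)
noncomputable def n6482 : Strat := .win 679 3 637
noncomputable def n6483 : Strat := .win 597 3 596
noncomputable def n6484 : Strat := .move 638 n6482 (.cons 679 n6483 .nil)
noncomputable def n6485 : Strat := .win 636 7 595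
noncomputable def n6486 : Strat := .win 554 7 554
noncomputable def n6487 : Strat := .win 761 6 596
noncomputable def n6488 : Strat := .win 555 6 555
noncomputable def n6489 : Strat := .move 679 n6488 (.cons 555 n6463 .nil)
noncomputable def n6490 : Strat := .move 720 n6487 (.cons 761 n6489 .nil)
noncomputable def n6491 : Strat := .move 596 n6486 (.cons 554 n6490 .nil)
noncomputable def n6492 : Strat := .move 595 n6485 (.cons 636 n6491 .nil)
noncomputable def n6493 : Strat := .win 556 3 555
noncomputable def n6494 : Strat := .win 638 3 596
noncomputable def n6495 : Strat := .move 597 n6493 (.cons 556 n6494 .nil)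
noncomputable def n6496 : Strat := .move 596 n6486 (.cons 554 n6495 .nil)
noncomputable def n6497 : Strat := .move 595 n6485 (.cons 636 n6496 .nil)
noncomputable def n6498 : Strat := .move 637 n6484 (.cons 638 n6492 (.cons 679 n6497 .nil))
noncomputable def n6499 : Strat := .move 678 n410 (.cons 841 n6498 .nil)
noncomputable def n6500 : Strat := .move 719 n6438 (.cons 678 n6445 (.cons 841 n6474 (.cons 842 n6476 (.cons 679 n6478 (.cons 718 n6481 (.cons 677 n6499 .nil))))))
noncomputable def n6501 : Strat := .move 798 n611 (.cons 761 n5731 .nil)
noncomputable def n6502 : Strat := .move 798 n611 (.cons 761 n1929 .nil)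
noncomputable def n6503 : Strat := .move 677 n2943 (.cons 636 n6461 .nil)
noncomputable def n6504 : Strat := .move 678 n410 (.cons 841 n6503 .nil)
noncomputable def n6505 : Strat := .move 843 n5417 (.cons 798 n2930 .nil)
noncomputable def n6506 : Strat := .move 842 n6505 (.cons 843 n4514 .nil)
noncomputable def n6507 : Strat := .move 843 n2930 (.cons 884 n1907 .nil)
noncomputable def n6508 : Strat := .move 798 n123 (.cons 843 n513 .nil)
noncomputable def n6509 : Strat := .move 798 n513 (.cons 797 n6428 .nil)
noncomputable def n6510 : Strat := .move 842 n6505 (.cons 798 n6507 (.cons 884 n6508 (.cons 843 n6509 .nil)))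
noncomputable def n6511 : Strat := .move 841 n5592 (.cons 678 n6510 .nil)
noncomputable def n6512 : Strat := .move 842 n2107 (.cons 677 n6505 .nil)
noncomputable def n6513 : Strat := .move 842 n2099 (.cons 679 n6505 .nil)
noncomputable def n6514 : Strat := .move 758 n180 (.cons 716 n1110 .nil)
noncomputable def n6515 : Strat := .move 675 n2192 (.cons 676 n6514 .nil)
noncomputable def n6516 : Strat := .move 842 n2099 (.cons 679 n6515 .nil)
noncomputable def n6517 : Strat := .move 756 n2410 (.cons 716 n1713 .nil)
noncomputable def n6518 : Strat := .move 757 n5495 (.cons 758 n6517 .nil)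
noncomputable def n6519 : Strat := .move 679 n6463 (.cons 842 n198 .nil)
noncomputable def n6520 : Strat := .move 717 n6516 (.cons 679 n6518 (.cons 757 n6519 .nil))
noncomputable def n6521 : Strat := .move 717 n198 (.cons 680 n6515 .nil)
noncomputable def n6522 : Strat := .move 679 n6463 (.cons 842 n6521 .nil)
noncomputable def n6523 : Strat := .move 757 n281 (.cons 798 n719 .nil)
noncomputable def n6524 : Strat := .move 716 n2191 (.cons 674 n6523 .nil)
noncomputable def n6525 : Strat := .move 675 n2192 (.cons 676 n6524 .nil)
noncomputable def n6526 : Strat := .move 679 n198 (.cons 680 n6515 .nil)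
noncomputable def n6527 : Strat := .move 716 n2216 (.cons 758 n2191 .nil)
noncomputable def n6528 : Strat := .move 675 n2192 (.cons 676 n6527 .nil)
noncomputable def n6529 : Strat := .move 676 n502 (.cons 841 n5528 .nil)
noncomputable def n6530 : Strat := .move 758 n1110 (.cons 757 n6529 .nil)
noncomputable def n6531 : Strat := .move 717 n6518 (.cons 758 n6525 (.cons 798 n6526 (.cons 757 n6528 (.cons 716 n6530 .nil))))
noncomputable def n6532 : Strat := .move 716 n719 (.cons 756 n2191 .nil)
noncomputable def n6533 : Strat := .move 675 n2192 (.cons 676 n6532 .nil)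
noncomputable def n6534 : Strat := .move 757 n5495 (.cons 758 n6533 .nil)
noncomputable def n6535 : Strat := .move 717 n6518 (.cons 798 n6534 (.cons 756 n6515 (.cons 757 n6528 (.cons 758 n6525 (.cons 716 n6530 .nil)))))
noncomputable def n6536 : Strat := .move 720 n6513 (.cons 843 n6520 (.cons 798 n6522 (.cons 842 n6531 (.cons 679 n6535 .nil))))
noncomputable def n6537 : Strat := .move 842 n2107 (.cons 677 n6441 .nil)
noncomputable def n6538 : Strat := .move 677 n6432 (.cons 842 n2238 .nil)
noncomputable def n6539 : Strat := .move 720 n6516 (.cons 679 n6518 (.cons 757 n6519 .nil))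
noncomputable def n6540 : Strat := .move 757 n718 (.cons 720 n6517 .nil)
noncomputable def n6541 : Strat := .move 841 n980 (.cons 676 n6540 .nil)
noncomputable def n6542 : Strat := .move 758 n37 (.cons 677 n6541 .nil)
noncomputable def n6543 : Strat := .move 720 n2192 (.cons 676 n2099 .nil)
noncomputable def n6544 : Strat := .move 675 n6543 (.cons 679 n6524 .nil)
noncomputable def n6545 : Strat := .move 842 n2107 (.cons 677 n6544 .nil)
noncomputable def n6546 : Strat := .move 717 n6538 (.cons 677 n6539 (.cons 842 n6542 (.cons 758 n6545 .nil)))
noncomputable def n6547 : Strat := .move 756 n47 (.cons 755 n1713 .nil)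
noncomputable def n6548 : Strat := .move 757 n718 (.cons 720 n6547 .nil)
noncomputable def n6549 : Strat := .move 841 n980 (.cons 676 n6548 .nil)
noncomputable def n6550 : Strat := .move 717 n37 (.cons 677 n6549 .nil)
noncomputable def n6551 : Strat := .move 756 n1713 (.cons 798 n47 .nil)
noncomputable def n6552 : Strat := .move 716 n138 (.cons 881 n42 .nil)
noncomputable def n6553 : Strat := .move 717 n718 (.cons 720 n6552 .nil)
noncomputable def n6554 : Strat := .move 757 n6551 (.cons 756 n6553 .nil)
noncomputable def n6555 : Strat := .move 676 n5207 (.cons 720 n502 .nil)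
noncomputable def n6556 : Strat := .move 675 n180 (.cons 716 n6555 .nil)
noncomputable def n6557 : Strat := .move 717 n37 (.cons 677 n6556 .nil)
noncomputable def n6558 : Strat := .move 757 n719 (.cons 756 n138 .nil)
noncomputable def n6559 : Strat := .move 716 n42 (.cons 675 n6558 .nil)
noncomputable def n6560 : Strat := .move 717 n37 (.cons 677 n6559 .nil)
noncomputable def n6561 : Strat := .move 757 n46 (.cons 716 n6547 .nil)
noncomputable def n6562 : Strat := .move 921 n7 (.cons 962 n8 .nil)
noncomputable def n6563 : Strat := .move 922 n163 (.cons 798 n6562 .nil)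
noncomputable def n6564 : Strat := .move 757 n46 (.cons 716 n6563 .nil)
noncomputable def n6565 : Strat := .move 963 n3 (.cons 841 n250 .nil)
noncomputable def n6566 : Strat := .move 964 n21 (.cons 1005 n20 .nil)
noncomputable def n6567 : Strat := .move 963 n3 (.cons 841 n6566 .nil)
noncomputable def n6568 : Strat := .move 922 n6562 (.cons 880 n6565 (.cons 962 n6567 .nil))
noncomputable def n6569 : Strat := .move 881 n6561 (.cons 756 n6564 (.cons 798 n6568 .nil))
noncomputable def n6570 : Strat := .move 758 n6550 (.cons 677 n6554 (.cons 757 n6557 (.cons 720 n6560 (.cons 717 n6569 .nil))))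
noncomputable def n6571 : Strat := .move 718 n6512 (.cons 677 n6536 (.cons 798 n6537 (.cons 843 n6546 (.cons 842 n6570 .nil))))
noncomputable def n6572 : Strat := .move 719 n6504 (.cons 841 n6506 (.cons 842 n6476 (.cons 638 n6511 (.cons 678 n6571 .nil))))
noncomputable def n6573 : Strat := .move 760 n6431 (.cons 798 n6500 (.cons 841 n6501 (.cons 675 n6502 (.cons 761 n6572 .nil))))
noncomputable def n6574 : Strat := .move 801 n6372 (.cons 798 n6386 (.cons 843 n6403 (.cons 841 n5732 (.cons 842 n6414 (.cons 760 n6417 (.cons 844 n6421 (.cons 762 n6426 (.cons 802 n6573 .nil))))))))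
noncomputable def n6575 : Strat := .move 800 n5310 (.cons 881 n5558 (.cons 798 n5573 (.cons 717 n5591 (.cons 716 n5700 (.cons 841 n5822 (.cons 755 n5843 (.cons 677 n5882 (.cons 756 n5907 (.cons 802 n5973 (.cons 757 n6124 (.cons 758 n6215 (.cons 801 n6326 (.cons 718 n6370 (.cons 759 n6574 .nil))))))))))))))
noncomputable def n6576 : Strat := .move 717 n1693 (.cons 675 n1423 (.cons 881 n184 .nil))
noncomputable def n6577 : Strat := .move 718 n37 (.cons 677 n205 .nil)
noncomputable def n6578 : Strat := .move 716 n42 (.cons 675 n6577 .nil)
noncomputable def n6579 : Strat := .move 717 n184 (.cons 716 n151 (.cons 676 n1765 (.cons 798 n6578 .nil)))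
noncomputable def n6580 : Strat := .move 759 n209 (.cons 881 n1018 .nil)
noncomputable def n6581 : Strat := .move 798 n152 (.cons 676 n6580 .nil)
noncomputable def n6582 : Strat := .move 839 n145 (.cons 880 n6581 .nil)
noncomputable def n6583 : Strat := .move 718 n37 (.cons 677 n6582 .nil)
noncomputable def n6584 : Strat := .move 635 n1412 (.cons 595 n849 .nil)
noncomputable def n6585 : Strat := .move 636 n1411 (.cons 677 n6584 .nil)
noncomputable def n6586 : Strat := .move 676 n146 (.cons 798 n6585 .nil)
noncomputable def n6587 : Strat := .move 839 n145 (.cons 880 n6586 .nil)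
noncomputable def n6588 : Strat := .move 760 n286 (.cons 798 n5367 .nil)
noncomputable def n6589 : Strat := .move 679 n198 (.cons 680 n6588 .nil)
noncomputable def n6590 : Strat := .move 761 n195 (.cons 762 n6589 .nil)
noncomputable def n6591 : Strat := .move 720 n1111 (.cons 721 n6590 .nil)
noncomputable def n6592 : Strat := .move 757 n59 (.cons 801 n1194 .nil)
noncomputable def n6593 : Strat := .move 802 n58 (.cons 803 n6592 .nil)
noncomputable def n6594 : Strat := .move 761 n1154 (.cons 762 n6593 .nil)
noncomputable def n6595 : Strat := .move 757 n1194 (.cons 756 n1198 .nil)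
noncomputable def n6596 : Strat := .move 757 n1194 (.cons 756 n325 .nil)
noncomputable def n6597 : Strat := .move 842 n2930 (.cons 884 n1027 .nil)
noncomputable def n6598 : Strat := .move 843 n3017 (.cons 678 n6597 .nil)
noncomputable def n6599 : Strat := .move 802 n4268 (.cons 757 n6598 .nil)
noncomputable def n6600 : Strat := .move 638 n6483 (.cons 597 n6482 .nil)
noncomputable def n6601 : Strat := .move 637 n753 (.cons 596 n6600 .nil)
noncomputable def n6602 : Strat := .move 843 n2930 (.cons 884 n2929 .nil)
noncomputable def n6603 : Strat := .move 842 n1027 (.cons 883 n6602 .nil)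
noncomputable def n6604 : Strat := .move 678 n6601 (.cons 637 n6603 .nil)
noncomputable def n6605 : Strat := .move 757 n297 (.cons 797 n1194 .nil)
noncomputable def n6606 : Strat := .move 797 n477 (.cons 757 n313 .nil)
noncomputable def n6607 : Strat := .move 843 n1640 (.cons 841 n2930 .nil)
noncomputable def n6608 : Strat := .move 798 n6605 (.cons 756 n6606 (.cons 797 n6607 .nil))
noncomputable def n6609 : Strat := .move 842 n1027 (.cons 883 n6608 .nil)
noncomputable def n6610 : Strat := .move 801 n6596 (.cons 756 n6599 (.cons 757 n6604 (.cons 802 n6609 .nil)))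
noncomputable def n6611 : Strat := .move 760 n1481 (.cons 798 n6594 (.cons 762 n6595 (.cons 761 n6610 .nil)))
noncomputable def n6612 : Strat := .move 719 n1632 (.cons 757 n6591 (.cons 720 n6611 .nil))
noncomputable def n6613 : Strat := .move 759 n209 (.cons 881 n6612 .nil)
noncomputable def n6614 : Strat := .move 718 n37 (.cons 677 n6613 .nil)
noncomputable def n6615 : Strat := .move 718 n209 (.cons 881 n1018 .nil)
noncomputable def n6616 : Strat := .move 798 n152 (.cons 676 n6615 .nil)
noncomputable def n6617 : Strat := .move 839 n145 (.cons 880 n6616 .nil)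
noncomputable def n6618 : Strat := .move 718 n209 (.cons 881 n1314 .nil)
noncomputable def n6619 : Strat := .move 676 n146 (.cons 798 n6618 .nil)
noncomputable def n6620 : Strat := .move 839 n145 (.cons 880 n6619 .nil)
noncomputable def n6621 : Strat := .move 718 n209 (.cons 881 n1569 .nil)
noncomputable def n6622 : Strat := .move 881 n9 (.cons 718 n1421 .nil)
noncomputable def n6623 : Strat := .move 718 n209 (.cons 881 n6612 .nil)
noncomputable def n6624 : Strat := .move 759 n6617 (.cons 757 n6620 (.cons 880 n6621 (.cons 718 n1130 (.cons 676 n6622 (.cons 839 n6623 .nil)))))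
noncomputable def n6625 : Strat := .move 717 n6583 (.cons 718 n6587 (.cons 880 n1571 (.cons 676 n1423 (.cons 839 n6614 (.cons 677 n6624 .nil)))))
noncomputable def n6626 : Strat := .move 717 n766 (.cons 716 n151 (.cons 718 n184 .nil))
noncomputable def n6627 : Strat := .move 717 n1693 (.cons 718 n1446 (.cons 675 n1423 (.cons 881 n6578 .nil)))
noncomputable def n6628 : Strat := .move 757 n138 (.cons 881 n282 .nil)
noncomputable def n6629 : Strat := .move 717 n42 (.cons 675 n6577 .nil)
noncomputable def n6630 : Strat := .move 714 n828 (.cons 713 n2692 .nil)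
noncomputable def n6631 : Strat := .move 715 n155 (.cons 760 n6630 .nil)
noncomputable def n6632 : Strat := .move 761 n285 (.cons 717 n5899 .nil)
noncomputable def n6633 : Strat := .move 756 n55 (.cons 796 n4276 .nil)
noncomputable def n6634 : Strat := .move 797 n56 (.cons 798 n6633 .nil)
noncomputable def n6635 : Strat := .move 760 n287 (.cons 717 n299 (.cons 798 n6632 (.cons 761 n6634 .nil)))
noncomputable def n6636 : Strat := .win 717 4 714
noncomputable def n6637 : Strat := .win 753 5 712
noncomputable def n6638 : Strat := .move 754 n6637 (.cons 753 n1699 .nil)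
noncomputable def n6639 : Strat := .move 755 n6636 (.cons 717 n6638 .nil)
noncomputable def n6640 : Strat := .move 718 n289 (.cons 719 n6639 .nil)
noncomputable def n6641 : Strat := .move 797 n55 (.cons 796 n6640 .nil)
noncomputable def n6642 : Strat := .move 715 n169 (.cons 714 n6641 .nil)
noncomputable def n6643 : Strat := .win 717 5 713
noncomputable def n6644 : Strat := .move 754 n6643 (.cons 717 n1699 .nil)
noncomputable def n6645 : Strat := .move 755 n52 (.cons 795 n6644 .nil)
noncomputable def n6646 : Strat := .move 796 n51 (.cons 797 n6645 .nil)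
noncomputable def n6647 : Strat := .move 715 n169 (.cons 714 n6646 .nil)
noncomputable def n6648 : Strat := .move 714 n57 (.cons 715 n328 .nil)
noncomputable def n6649 : Strat := .move 755 n52 (.cons 795 n6648 .nil)
noncomputable def n6650 : Strat := .move 796 n51 (.cons 797 n6649 .nil)
noncomputable def n6651 : Strat := .move 756 n291 (.cons 755 n295 (.cons 677 n6642 (.cons 719 n6647 (.cons 717 n6650 .nil))))
noncomputable def n6652 : Strat := .move 759 n288 (.cons 717 n300 (.cons 761 n6631 (.cons 715 n6635 (.cons 760 n6651 .nil))))
noncomputable def n6653 : Strat := .move 757 n138 (.cons 881 n6652 .nil)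
noncomputable def n6654 : Strat := .move 716 n1395 (.cons 757 n1402 (.cons 717 n6628 (.cons 881 n6629 (.cons 675 n6653 .nil))))
noncomputable def n6655 : Strat := .move 756 n52 (.cons 795 n327 .nil)
noncomputable def n6656 : Strat := .move 757 n861 (.cons 716 n6655 .nil)
noncomputable def n6657 : Strat := .move 756 n2424 (.cons 715 n4778 .nil)
noncomputable def n6658 : Strat := .move 754 n2553 (.cons 713 n6657 .nil)
noncomputable def n6659 : Strat := .move 714 n2510 (.cons 836 n3729 .nil)
noncomputable def n6660 : Strat := .move 754 n2553 (.cons 713 n2560 .nil)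
noncomputable def n6661 : Strat := .move 757 n861 (.cons 716 n6660 .nil)
noncomputable def n6662 : Strat := .move 714 n2510 (.cons 836 n3722 .nil)
noncomputable def n6663 : Strat := .move 878 n6658 (.cons 754 n6659 (.cons 715 n6661 (.cons 756 n6662 .nil)))
noncomputable def n6664 : Strat := .move 920 n2551 (.cons 961 n2550 .nil)
noncomputable def n6665 : Strat := .move 919 n2563 (.cons 877 n6664 .nil)
noncomputable def n6666 : Strat := .move 878 n6658 (.cons 754 n6659 (.cons 715 n6665 .nil))
noncomputable def n6667 : Strat := .move 714 n3729 (.cons 674 n3722 .nil)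
noncomputable def n6668 : Strat := .move 878 n6659 (.cons 714 n6665 (.cons 918 n6667 .nil))
noncomputable def n6669 : Strat := .move 716 n189 (.cons 754 n187 .nil)
noncomputable def n6670 : Strat := .move 715 n2514 (.cons 674 n6669 .nil)
noncomputable def n6671 : Strat := .move 714 n6670 (.cons 715 n3728 .nil)
noncomputable def n6672 : Strat := .move 756 n328 (.cons 713 n52 .nil)
noncomputable def n6673 : Strat := .move 757 n861 (.cons 716 n6672 .nil)
noncomputable def n6674 : Strat := .win 756 2 713
noncomputable def n6675 : Strat := .move 713 n6674 (.cons 756 n2434 .nil)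
noncomputable def n6676 : Strat := .move 757 n861 (.cons 716 n6675 .nil)
noncomputable def n6677 : Strat := .move 714 n6673 (.cons 757 n3721 (.cons 795 n6676 .nil))
noncomputable def n6678 : Strat := .move 755 n6656 (.cons 795 n6663 (.cons 881 n6666 (.cons 757 n6668 (.cons 756 n6671 (.cons 754 n6677 .nil)))))
noncomputable def n6679 : Strat := .move 837 n4729 (.cons 795 n2534 (.cons 836 n2535 (.cons 838 n6678 .nil)))
noncomputable def n6680 : Strat := .move 796 n4726 (.cons 841 n4727 (.cons 795 n4728 (.cons 797 n6679 .nil)))
noncomputable def n6681 : Strat := .move 798 n152 (.cons 676 n6680 .nil)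
noncomputable def n6682 : Strat := .move 839 n145 (.cons 880 n6681 .nil)
noncomputable def n6683 : Strat := .move 635 n848 (.cons 593 n1413 .nil)
noncomputable def n6684 : Strat := .move 634 n847 (.cons 675 n6683 .nil)
noncomputable def n6685 : Strat := .move 635 n775 (.cons 798 n774 .nil)
noncomputable def n6686 : Strat := .move 757 n138 (.cons 881 n6685 .nil)
noncomputable def n6687 : Strat := .move 716 n42 (.cons 675 n6686 .nil)
noncomputable def n6688 : Strat := .move 716 n138 (.cons 881 n774 .nil)
noncomputable def n6689 : Strat := .move 757 n775 (.cons 798 n6688 .nil)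
noncomputable def n6690 : Strat := .move 635 n1412 (.cons 595 n6689 .nil)
noncomputable def n6691 : Strat := .move 636 n1411 (.cons 677 n6690 .nil)
noncomputable def n6692 : Strat := .move 676 n182 (.cons 716 n6684 (.cons 634 n6687 (.cons 675 n6691 .nil)))
noncomputable def n6693 : Strat := .move 717 n161 (.cons 716 n6587 (.cons 880 n1578 (.cons 675 n6682 (.cons 676 n1446 (.cons 839 n6692 .nil)))))
noncomputable def n6694 : Strat := .move 798 n152 (.cons 676 n142 .nil)
noncomputable def n6695 : Strat := .move 839 n145 (.cons 880 n6694 .nil)
noncomputable def n6696 : Strat := .move 757 n138 (.cons 881 n6695 .nil)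
noncomputable def n6697 : Strat := .move 716 n42 (.cons 675 n6696 .nil)
noncomputable def n6698 : Strat := .move 717 n6697 (.cons 839 n710 (.cons 757 n184 (.cons 716 n151 .nil)))
noncomputable def n6699 : Strat := .move 798 n1331 (.cons 922 n389 .nil)
noncomputable def n6700 : Strat := .move 757 n46 (.cons 716 n6699 .nil)
noncomputable def n6701 : Strat := .move 839 n224 (.cons 717 n6700 .nil)
noncomputable def n6702 : Strat := .move 880 n34 (.cons 921 n6701 .nil)
noncomputable def n6703 : Strat := .move 881 n6702 (.cons 921 n575 (.cons 798 n354 .nil))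
noncomputable def n6704 : Strat := .move 798 n153 (.cons 674 n152 .nil)
noncomputable def n6705 : Strat := .move 839 n145 (.cons 880 n6704 .nil)
noncomputable def n6706 : Strat := .move 757 n139 (.cons 719 n6705 .nil)
noncomputable def n6707 : Strat := .move 756 n192 (.cons 755 n6706 .nil)
noncomputable def n6708 : Strat := .move 715 n154 (.cons 714 n6707 .nil)
noncomputable def n6709 : Strat := .move 716 n42 (.cons 675 n6708 .nil)
noncomputable def n6710 : Strat := .move 717 n213 (.cons 716 n1130 (.cons 761 n1228 (.cons 760 n6709 .nil)))
noncomputable def n6711 : Strat := .move 718 n209 (.cons 881 n6710 .nil)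
noncomputable def n6712 : Strat := .move 718 n213 (.cons 716 n1130 (.cons 761 n1228 (.cons 760 n6709 .nil)))
noncomputable def n6713 : Strat := .move 715 n169 (.cons 714 n553 .nil)
noncomputable def n6714 : Strat := .move 755 n2484 (.cons 718 n327 .nil)
noncomputable def n6715 : Strat := .move 756 n6713 (.cons 674 n6714 .nil)
noncomputable def n6716 : Strat := .move 757 n168 (.cons 760 n6715 .nil)
noncomputable def n6717 : Strat := .move 797 n313 (.cons 796 n6716 .nil)
noncomputable def n6718 : Strat := .move 798 n152 (.cons 676 n6717 .nil)
noncomputable def n6719 : Strat := .move 839 n145 (.cons 880 n6718 .nil)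
noncomputable def n6720 : Strat := .win 718 0 715
noncomputable def n6721 : Strat := .move 715 n154 (.cons 714 n6720 .nil)
noncomputable def n6722 : Strat := .move 760 n211 (.cons 761 n6721 .nil)
noncomputable def n6723 : Strat := .move 716 n42 (.cons 675 n6722 .nil)
noncomputable def n6724 : Strat := .win 756 6 674
noncomputable def n6725 : Strat := .win 757 7 674
noncomputable def n6726 : Strat := .move 674 n6724 (.cons 756 n6725 .nil)
noncomputable def n6727 : Strat := .move 715 n154 (.cons 714 n6726 .nil)
noncomputable def n6728 : Strat := .move 797 n313 (.cons 796 n6727 .nil)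
noncomputable def n6729 : Strat := .move 798 n152 (.cons 676 n6728 .nil)
noncomputable def n6730 : Strat := .move 839 n145 (.cons 880 n6729 .nil)
noncomputable def n6731 : Strat := .move 716 n42 (.cons 675 n6730 .nil)
noncomputable def n6732 : Strat := .move 717 n6712 (.cons 675 n6719 (.cons 757 n6723 (.cons 715 n1130 (.cons 760 n6731 .nil))))
noncomputable def n6733 : Strat := .move 881 n46 (.cons 716 n1014 .nil)
noncomputable def n6734 : Strat := .move 717 n152 (.cons 676 n1336 .nil)
noncomputable def n6735 : Strat := .move 839 n270 (.cons 717 n2037 (.cons 880 n6734 .nil))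
noncomputable def n6736 : Strat := .move 716 n1019 (.cons 675 n6735 .nil)
noncomputable def n6737 : Strat := .move 797 n313 (.cons 796 n6736 .nil)
noncomputable def n6738 : Strat := .move 798 n401 (.cons 797 n1324 (.cons 760 n6737 .nil))
noncomputable def n6739 : Strat := .move 881 n257 (.cons 922 n401 .nil)
noncomputable def n6740 : Strat := .move 841 n823 (.cons 842 n3840 .nil)
noncomputable def n6741 : Strat := .move 839 n224 (.cons 717 n6740 .nil)
noncomputable def n6742 : Strat := .move 880 n34 (.cons 921 n6741 .nil)
noncomputable def n6743 : Strat := .move 881 n257 (.cons 922 n6742 .nil)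
noncomputable def n6744 : Strat := .move 797 n313 (.cons 796 n6743 .nil)
noncomputable def n6745 : Strat := .move 760 n298 (.cons 761 n1327 .nil)
noncomputable def n6746 : Strat := .move 798 n6739 (.cons 796 n408 (.cons 760 n6744 (.cons 797 n6745 .nil)))
noncomputable def n6747 : Strat := .move 757 n6733 (.cons 881 n6738 (.cons 760 n280 (.cons 716 n6746 .nil)))
noncomputable def n6748 : Strat := .move 717 n35 (.cons 839 n42 .nil)
noncomputable def n6749 : Strat := .move 716 n41 (.cons 757 n6748 .nil)
noncomputable def n6750 : Strat := .move 880 n34 (.cons 921 n6749 .nil)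
noncomputable def n6751 : Strat := .move 881 n9 (.cons 718 n6750 .nil)
noncomputable def n6752 : Strat := .move 757 n1194 (.cons 756 n1195 .nil)
noncomputable def n6753 : Strat := .move 720 n1111 (.cons 721 n6752 .nil)
noncomputable def n6754 : Strat := .move 798 n723 (.cons 839 n5596 .nil)
noncomputable def n6755 : Strat := .move 676 n5528 (.cons 675 n6754 .nil)
noncomputable def n6756 : Strat := .move 761 n195 (.cons 762 n6755 .nil)
noncomputable def n6757 : Strat := .move 676 n5528 (.cons 675 n1141 .nil)
noncomputable def n6758 : Strat := .win 844 6 679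
noncomputable def n6759 : Strat := .win 760 0 758
noncomputable def n6760 : Strat := .move 803 n6758 (.cons 844 n6759 .nil)
noncomputable def n6761 : Strat := .move 678 n6375 (.cons 637 n5668 .nil)
noncomputable def n6762 : Strat := .move 802 n6760 (.cons 760 n6761 .nil)
noncomputable def n6763 : Strat := .move 679 n198 (.cons 680 n6762 .nil)
noncomputable def n6764 : Strat := .move 761 n195 (.cons 762 n6763 .nil)
noncomputable def n6765 : Strat := .move 717 n6756 (.cons 839 n6590 (.cons 761 n6757 (.cons 798 n6764 .nil)))
noncomputable def n6766 : Strat := .move 720 n1111 (.cons 721 n6765 .nil)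
noncomputable def n6767 : Strat := .move 720 n1195 (.cons 717 n2026 .nil)
noncomputable def n6768 : Strat := .move 757 n1194 (.cons 756 n6767 .nil)
noncomputable def n6769 : Strat := .move 843 n2930 (.cons 884 n1640 .nil)
noncomputable def n6770 : Strat := .move 842 n1027 (.cons 883 n6769 .nil)
noncomputable def n6771 : Strat := .move 801 n325 (.cons 802 n6770 .nil)
noncomputable def n6772 : Strat := .move 798 n297 (.cons 797 n6771 .nil)
noncomputable def n6773 : Strat := .move 798 n298 (.cons 761 n6771 .nil)
noncomputable def n6774 : Strat := .win 717 2 717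
noncomputable def n6775 : Strat := .move 762 n6469 (.cons 763 n6774 .nil)
noncomputable def n6776 : Strat := .move 761 n58 (.cons 803 n6775 .nil)
noncomputable def n6777 : Strat := .move 802 n59 (.cons 801 n6776 .nil)
noncomputable def n6778 : Strat := .move 760 n1198 (.cons 761 n6772 (.cons 797 n6773 (.cons 798 n6777 .nil)))
noncomputable def n6779 : Strat := .move 757 n1194 (.cons 756 n6778 .nil)
noncomputable def n6780 : Strat := .move 757 n1194 (.cons 756 n2026 .nil)
noncomputable def n6781 : Strat := .move 720 n1111 (.cons 721 n6780 .nil)
noncomputable def n6782 : Strat := .move 719 n6753 (.cons 757 n6766 (.cons 721 n6768 (.cons 720 n6779 (.cons 717 n6781 .nil))))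
noncomputable def n6783 : Strat := .move 718 n209 (.cons 881 n6782 .nil)
noncomputable def n6784 : Strat := .move 718 n209 (.cons 881 n212 .nil)
noncomputable def n6785 : Strat := .move 716 n42 (.cons 675 n6784 .nil)
noncomputable def n6786 : Strat := .move 674 n734 (.cons 673 n6724 .nil)
noncomputable def n6787 : Strat := .move 718 n209 (.cons 881 n6786 .nil)
noncomputable def n6788 : Strat := .move 715 n154 (.cons 714 n6787 .nil)
noncomputable def n6789 : Strat := .move 716 n42 (.cons 675 n6788 .nil)
noncomputable def n6790 : Strat := .move 797 n313 (.cons 796 n6789 .nil)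
noncomputable def n6791 : Strat := .move 798 n152 (.cons 676 n6790 .nil)
noncomputable def n6792 : Strat := .move 839 n145 (.cons 880 n6791 .nil)
noncomputable def n6793 : Strat := .move 717 n6785 (.cons 881 n6723 (.cons 760 n6792 (.cons 715 n184 (.cons 716 n6620 (.cons 675 n6622 .nil)))))
noncomputable def n6794 : Strat := .move 759 n6711 (.cons 881 n6732 (.cons 718 n6747 (.cons 798 n6751 (.cons 716 n6783 (.cons 839 n1016 (.cons 757 n6793 .nil))))))
noncomputable def n6795 : Strat := .move 716 n1019 (.cons 675 n173 .nil)
noncomputable def n6796 : Strat := .move 798 n168 (.cons 760 n6795 .nil)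
noncomputable def n6797 : Strat := .move 797 n55 (.cons 796 n6796 .nil)
noncomputable def n6798 : Strat := .move 760 n1743 (.cons 716 n4276 .nil)
noncomputable def n6799 : Strat := .move 715 n169 (.cons 714 n6798 .nil)
noncomputable def n6800 : Strat := .move 839 n553 (.cons 674 n990 .nil)
noncomputable def n6801 : Strat := .move 674 n171 (.cons 633 n3101 .nil)
noncomputable def n6802 : Strat := .move 675 n2621 (.cons 716 n6801 .nil)
noncomputable def n6803 : Strat := .move 716 n825 (.cons 879 n1039 .nil)
noncomputable def n6804 : Strat := .move 837 n1076 (.cons 836 n3474 .nil)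
noncomputable def n6805 : Strat := .move 838 n6803 (.cons 675 n3906 (.cons 879 n6804 .nil))
noncomputable def n6806 : Strat := .move 839 n990 (.cons 880 n6805 .nil)
noncomputable def n6807 : Strat := .move 798 n6800 (.cons 880 n1666 (.cons 839 n6802 (.cons 674 n6806 .nil)))
noncomputable def n6808 : Strat := .move 715 n169 (.cons 714 n6807 .nil)
noncomputable def n6809 : Strat := .move 797 n55 (.cons 796 n6808 .nil)
noncomputable def n6810 : Strat := .move 715 n169 (.cons 714 n6800 .nil)
noncomputable def n6811 : Strat := .move 798 n168 (.cons 760 n6810 .nil)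
noncomputable def n6812 : Strat := .move 797 n55 (.cons 796 n6811 .nil)
noncomputable def n6813 : Strat := .move 715 n6800 (.cons 880 n1666 (.cons 839 n6802 (.cons 674 n6806 .nil)))
noncomputable def n6814 : Strat := .move 798 n168 (.cons 760 n6813 .nil)
noncomputable def n6815 : Strat := .move 797 n55 (.cons 796 n6814 .nil)
noncomputable def n6816 : Strat := .move 760 n56 (.cons 798 n4276 .nil)
noncomputable def n6817 : Strat := .move 797 n55 (.cons 796 n6816 .nil)
noncomputable def n6818 : Strat := .move 759 n6797 (.cons 798 n6799 (.cons 760 n6809 (.cons 716 n6812 (.cons 714 n6815 (.cons 715 n6817 .nil)))))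
noncomputable def n6819 : Strat := .move 759 n57 (.cons 715 n51 .nil)
noncomputable def n6820 : Strat := .move 796 n52 (.cons 795 n6819 .nil)
noncomputable def n6821 : Strat := .move 755 n328 (.cons 713 n6820 .nil)
noncomputable def n6822 : Strat := .win 879 7 714
noncomputable def n6823 : Strat := .move 838 n6822 (.cons 879 n2428 .nil)
noncomputable def n6824 : Strat := .win 837 1 673
noncomputable def n6825 : Strat := .move 674 n6824 (.cons 837 n2488 .nil)
noncomputable def n6826 : Strat := .move 837 n3474 (.cons 878 n2421 .nil)
noncomputable def n6827 : Strat := .move 839 n552 (.cons 880 n3291 .nil)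
noncomputable def n6828 : Strat := .move 715 n6825 (.cons 633 n6826 (.cons 837 n6827 .nil))
noncomputable def n6829 : Strat := .move 838 n6822 (.cons 879 n6828 .nil)
noncomputable def n6830 : Strat := .win 715 1 673
noncomputable def n6831 : Strat := .move 673 n2500 (.cons 633 n2396 .nil)
noncomputable def n6832 : Strat := .move 674 n6830 (.cons 715 n6831 .nil)
noncomputable def n6833 : Strat := .move 878 n2425 (.cons 919 n2510 .nil)
noncomputable def n6834 : Strat := .move 837 n3456 (.cons 674 n3706 (.cons 878 n6832 (.cons 715 n6833 .nil)))
noncomputable def n6835 : Strat := .move 797 n6823 (.cons 673 n6829 (.cons 879 n2398 (.cons 838 n6834 .nil)))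
noncomputable def n6836 : Strat := .move 796 n52 (.cons 795 n6835 .nil)
noncomputable def n6837 : Strat := .move 755 n328 (.cons 713 n6836 .nil)
noncomputable def n6838 : Strat := .move 674 n2488 (.cons 633 n2632 .nil)
noncomputable def n6839 : Strat := .move 715 n2472 (.cons 759 n6838 .nil)
noncomputable def n6840 : Strat := .move 796 n52 (.cons 795 n6839 .nil)
noncomputable def n6841 : Strat := .move 755 n328 (.cons 713 n6840 .nil)
noncomputable def n6842 : Strat := .move 797 n264 (.cons 759 n6823 .nil)
noncomputable def n6843 : Strat := .move 796 n52 (.cons 795 n6842 .nil)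
noncomputable def n6844 : Strat := .move 755 n328 (.cons 713 n6843 .nil)
noncomputable def n6845 : Strat := .win 716 0 713
noncomputable def n6846 : Strat := .move 713 n2574 (.cons 712 n6845 .nil)
noncomputable def n6847 : Strat := .move 715 n2472 (.cons 759 n6846 .nil)
noncomputable def n6848 : Strat := .win 755 7 714
noncomputable def n6849 : Strat := .move 879 n2060 (.cons 716 n6848 .nil)
noncomputable def n6850 : Strat := .move 838 n2805 (.cons 673 n6849 .nil)
noncomputable def n6851 : Strat := .move 796 n6824 (.cons 837 n4953 .nil)
noncomputable def n6852 : Strat := .move 755 n2488 (.cons 633 n52 .nil)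
noncomputable def n6853 : Strat := .move 796 n6824 (.cons 837 n6852 .nil)
noncomputable def n6854 : Strat := .win 675 3 633
noncomputable def n6855 : Strat := .win 593 3 592
noncomputable def n6856 : Strat := .win 796 1 632
noncomputable def n6857 : Strat := .move 755 n6856 (.cons 796 n2708 .nil)
noncomputable def n6858 : Strat := .move 633 n6855 (.cons 593 n6857 .nil)
noncomputable def n6859 : Strat := .move 634 n6854 (.cons 675 n6858 .nil)
noncomputable def n6860 : Strat := .win 673 7 632
noncomputable def n6861 : Strat := .win 591 7 591
noncomputable def n6862 : Strat := .move 633 n6861 (.cons 591 n6855 .nil)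
noncomputable def n6863 : Strat := .move 632 n6860 (.cons 673 n6862 .nil)
noncomputable def n6864 : Strat := .move 634 n6854 (.cons 675 n6863 .nil)
noncomputable def n6865 : Strat := .move 674 n6851 (.cons 794 n6853 (.cons 795 n6859 (.cons 796 n6864 .nil)))
noncomputable def n6866 : Strat := .move 879 n6848 (.cons 755 n3542 .nil)
noncomputable def n6867 : Strat := .win 796 1 673
noncomputable def n6868 : Strat := .move 837 n3474 (.cons 878 n6867 .nil)
noncomputable def n6869 : Strat := .move 674 n3101 (.cons 634 n6868 .nil)
noncomputable def n6870 : Strat := .move 675 n3102 (.cons 716 n6869 .nil)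
noncomputable def n6871 : Strat := .move 838 n6849 (.cons 716 n6866 (.cons 879 n6870 .nil))
noncomputable def n6872 : Strat := .move 716 n3070 (.cons 675 n1038 .nil)
noncomputable def n6873 : Strat := .move 838 n2805 (.cons 673 n6872 .nil)
noncomputable def n6874 : Strat := .move 797 n6850 (.cons 838 n6865 (.cons 673 n6871 (.cons 755 n6873 .nil)))
noncomputable def n6875 : Strat := .move 715 n2472 (.cons 759 n6874 .nil)
noncomputable def n6876 : Strat := .move 714 n6821 (.cons 759 n6837 (.cons 797 n6841 (.cons 715 n6844 (.cons 755 n6847 (.cons 713 n6875 .nil)))))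
noncomputable def n6877 : Strat := .move 798 n327 (.cons 754 n3775 .nil)
noncomputable def n6878 : Strat := .move 714 n328 (.cons 713 n6836 .nil)
noncomputable def n6879 : Strat := .win 797 4 795
noncomputable def n6880 : Strat := .move 836 n2496 (.cons 877 n6879 .nil)
noncomputable def n6881 : Strat := .move 715 n2514 (.cons 674 n2422 .nil)
noncomputable def n6882 : Strat := .move 837 n6880 (.cons 797 n6881 .nil)
noncomputable def n6883 : Strat := .move 716 n1019 (.cons 675 n6882 .nil)
noncomputable def n6884 : Strat := .move 714 n328 (.cons 713 n6883 .nil)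
noncomputable def n6885 : Strat := .move 796 n52 (.cons 795 n6884 .nil)
noncomputable def n6886 : Strat := .move 798 n327 (.cons 754 n6885 .nil)
noncomputable def n6887 : Strat := .win 714 2 713
noncomputable def n6888 : Strat := .win 712 2 712
noncomputable def n6889 : Strat := .move 713 n6887 (.cons 714 n6888 .nil)
noncomputable def n6890 : Strat := .move 754 n1699 (.cons 798 n6889 .nil)
noncomputable def n6891 : Strat := .move 837 n126 (.cons 836 n2422 .nil)
noncomputable def n6892 : Strat := .move 674 n170 (.cons 839 n2488 .nil)
noncomputable def n6893 : Strat := .move 715 n6891 (.cons 878 n6825 (.cons 837 n6892 .nil))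
noncomputable def n6894 : Strat := .move 716 n1019 (.cons 675 n6893 .nil)
noncomputable def n6895 : Strat := .move 797 n77 (.cons 841 n6894 .nil)
noncomputable def n6896 : Strat := .move 796 n52 (.cons 795 n6895 .nil)
noncomputable def n6897 : Strat := .move 798 n327 (.cons 754 n6896 .nil)
noncomputable def n6898 : Strat := .move 755 n6877 (.cons 798 n6878 (.cons 841 n6886 (.cons 796 n6890 (.cons 714 n6897 .nil))))
noncomputable def n6899 : Strat := .move 714 n328 (.cons 713 n6840 .nil)
noncomputable def n6900 : Strat := .move 795 n1701 (.cons 796 n1700 .nil)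
noncomputable def n6901 : Strat := .move 754 n1699 (.cons 798 n6900 .nil)
noncomputable def n6902 : Strat := .move 755 n6890 (.cons 798 n6899 (.cons 714 n6901 .nil))
noncomputable def n6903 : Strat := .move 797 n264 (.cons 759 n77 .nil)
noncomputable def n6904 : Strat := .move 796 n52 (.cons 795 n6903 .nil)
noncomputable def n6905 : Strat := .move 798 n327 (.cons 754 n6904 .nil)
noncomputable def n6906 : Strat := .move 714 n328 (.cons 713 n6842 .nil)
noncomputable def n6907 : Strat := .move 796 n52 (.cons 795 n6906 .nil)
noncomputable def n6908 : Strat := .move 755 n6905 (.cons 798 n6907 (.cons 797 n6901 (.cons 796 n6890 .nil)))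
noncomputable def n6909 : Strat := .move 798 n77 (.cons 841 n263 .nil)
noncomputable def n6910 : Strat := .move 797 n264 (.cons 759 n6909 .nil)
noncomputable def n6911 : Strat := .move 795 n4952 (.cons 755 n3449 .nil)
noncomputable def n6912 : Strat := .move 797 n264 (.cons 759 n6911 .nil)
noncomputable def n6913 : Strat := .move 755 n327 (.cons 754 n6894 .nil)
noncomputable def n6914 : Strat := .move 798 n77 (.cons 841 n6913 .nil)
noncomputable def n6915 : Strat := .move 797 n264 (.cons 759 n6914 .nil)
noncomputable def n6916 : Strat := .win 798 5 754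
noncomputable def n6917 : Strat := .move 797 n3449 (.cons 794 n6916 .nil)
noncomputable def n6918 : Strat := .move 795 n4952 (.cons 755 n6917 .nil)
noncomputable def n6919 : Strat := .move 880 n370 (.cons 715 n1329 .nil)
noncomputable def n6920 : Strat := .move 715 n153 (.cons 674 n990 .nil)
noncomputable def n6921 : Strat := .move 715 n153 (.cons 674 n2422 .nil)
noncomputable def n6922 : Strat := .move 838 n1076 (.cons 836 n825 .nil)
noncomputable def n6923 : Strat := .move 837 n6921 (.cons 878 n6922 .nil)
noncomputable def n6924 : Strat := .move 839 n6919 (.cons 921 n6920 (.cons 715 n2037 (.cons 880 n6923 .nil)))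
noncomputable def n6925 : Strat := .move 716 n1019 (.cons 675 n6924 .nil)
noncomputable def n6926 : Strat := .move 798 n327 (.cons 754 n6925 .nil)
noncomputable def n6927 : Strat := .move 755 n52 (.cons 795 n6926 .nil)
noncomputable def n6928 : Strat := .move 796 n6910 (.cons 798 n6912 (.cons 795 n6915 (.cons 759 n6918 (.cons 797 n6927 .nil))))
noncomputable def n6929 : Strat := .move 760 n1743 (.cons 716 n299 .nil)
noncomputable def n6930 : Strat := .move 715 n169 (.cons 714 n6929 .nil)
noncomputable def n6931 : Strat := .move 760 n409 (.cons 720 n299 .nil)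
noncomputable def n6932 : Strat := .move 719 n2476 (.cons 718 n6931 .nil)
noncomputable def n6933 : Strat := .move 713 n6888 (.cons 712 n6887 .nil)
noncomputable def n6934 : Strat := .move 754 n1699 (.cons 798 n6933 .nil)
noncomputable def n6935 : Strat := .win 711 2 711
noncomputable def n6936 : Strat := .win 713 2 712
noncomputable def n6937 : Strat := .move 712 n6935 (.cons 711 n6936 .nil)
noncomputable def n6938 : Strat := .win 793 4 752
noncomputable def n6939 : Strat := .win 795 4 753
noncomputable def n6940 : Strat := .move 794 n6938 (.cons 793 n6939 .nil)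
noncomputable def n6941 : Strat := .move 753 n6937 (.cons 713 n6940 .nil)
noncomputable def n6942 : Strat := .move 754 n1699 (.cons 798 n6941 .nil)
noncomputable def n6943 : Strat := .win 716 5 712
noncomputable def n6944 : Strat := .move 715 n6943 (.cons 716 n169 .nil)
noncomputable def n6945 : Strat := .move 753 n6940 (.cons 795 n6944 .nil)
noncomputable def n6946 : Strat := .move 754 n1699 (.cons 798 n6945 .nil)
noncomputable def n6947 : Strat := .move 755 n329 (.cons 715 n6934 (.cons 714 n6942 (.cons 713 n6946 .nil)))
noncomputable def n6948 : Strat := .move 677 n293 (.cons 636 n6947 .nil)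
noncomputable def n6949 : Strat := .move 718 n289 (.cons 719 n6948 .nil)
noncomputable def n6950 : Strat := .move 759 n6930 (.cons 715 n6932 (.cons 798 n6799 (.cons 760 n6949 .nil)))
noncomputable def n6951 : Strat := .move 756 n6818 (.cons 798 n6876 (.cons 759 n6898 (.cons 797 n6902 (.cons 715 n6908 (.cons 714 n6928 (.cons 796 n6950 .nil))))))
noncomputable def n6952 : Strat := .move 881 n9 (.cons 718 n620 .nil)
noncomputable def n6953 : Strat := .move 761 n286 (.cons 798 n5899 .nil)
noncomputable def n6954 : Strat := .move 761 n58 (.cons 803 n1849 .nil)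
noncomputable def n6955 : Strat := .move 802 n59 (.cons 801 n6954 .nil)
noncomputable def n6956 : Strat := .move 756 n2476 (.cons 718 n6955 .nil)
noncomputable def n6957 : Strat := .move 719 n409 (.cons 720 n6956 .nil)
noncomputable def n6958 : Strat := .move 760 n299 (.cons 761 n6634 (.cons 797 n6953 (.cons 798 n6957 .nil)))
noncomputable def n6959 : Strat := .move 761 n58 (.cons 803 n5899 .nil)
noncomputable def n6960 : Strat := .move 802 n59 (.cons 801 n6959 .nil)
noncomputable def n6961 : Strat := .move 797 n55 (.cons 796 n56 .nil)
noncomputable def n6962 : Strat := .move 714 n57 (.cons 715 n1659 .nil)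
noncomputable def n6963 : Strat := .move 798 n297 (.cons 797 n6962 .nil)
noncomputable def n6964 : Strat := .move 755 n329 (.cons 715 n6934 (.cons 713 n1703 .nil))
noncomputable def n6965 : Strat := .move 755 n328 (.cons 713 n811 .nil)
noncomputable def n6966 : Strat := .move 714 n57 (.cons 715 n6965 .nil)
noncomputable def n6967 : Strat := .move 756 n6961 (.cons 796 n6963 (.cons 797 n6964 (.cons 798 n6966 .nil)))
noncomputable def n6968 : Strat := .move 719 n409 (.cons 720 n6967 .nil)
noncomputable def n6969 : Strat := .move 801 n325 (.cons 802 n6968 .nil)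
noncomputable def n6970 : Strat := .move 760 n299 (.cons 798 n6960 (.cons 761 n6969 .nil))
noncomputable def n6971 : Strat := .move 720 n2026 (.cons 760 n1111 .nil)
noncomputable def n6972 : Strat := .move 719 n1194 (.cons 756 n6971 .nil)
noncomputable def n6973 : Strat := .move 718 n209 (.cons 881 n6972 .nil)
noncomputable def n6974 : Strat := .move 881 n9 (.cons 718 n166 .nil)
noncomputable def n6975 : Strat := .move 759 n6952 (.cons 881 n6958 (.cons 718 n6970 (.cons 798 n6973 (.cons 760 n6974 .nil))))
noncomputable def n6976 : Strat := .move 759 n9 (.cons 718 n701 .nil)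
noncomputable def n6977 : Strat := .move 881 n46 (.cons 716 n6976 .nil)
noncomputable def n6978 : Strat := .move 718 n209 (.cons 881 n289 .nil)
noncomputable def n6979 : Strat := .move 759 n6978 (.cons 718 n701 .nil)
noncomputable def n6980 : Strat := .win 838 1 755
noncomputable def n6981 : Strat := .move 919 n3163 (.cons 918 n6980 .nil)
noncomputable def n6982 : Strat := .move 878 n426 (.cons 841 n6981 .nil)
noncomputable def n6983 : Strat := .move 755 n4748 (.cons 838 n328 .nil)
noncomputable def n6984 : Strat := .move 714 n57 (.cons 715 n6983 .nil)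
noncomputable def n6985 : Strat := .move 842 n3185 (.cons 839 n474 .nil)
noncomputable def n6986 : Strat := .move 841 n384 (.cons 878 n6985 .nil)
noncomputable def n6987 : Strat := .move 879 n6982 (.cons 878 n6984 (.cons 838 n6986 .nil))
noncomputable def n6988 : Strat := .move 797 n55 (.cons 796 n6987 .nil)
noncomputable def n6989 : Strat := .move 880 n34 (.cons 921 n6988 .nil)
noncomputable def n6990 : Strat := .move 759 n9 (.cons 718 n6989 .nil)
noncomputable def n6991 : Strat := .move 881 n46 (.cons 716 n6990 .nil)
noncomputable def n6992 : Strat := .move 881 n9 (.cons 718 n46 .nil)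
noncomputable def n6993 : Strat := .move 715 n169 (.cons 714 n155 .nil)
noncomputable def n6994 : Strat := .move 716 n138 (.cons 881 n6993 .nil)
noncomputable def n6995 : Strat := .move 759 n6992 (.cons 881 n6799 (.cons 716 n6978 (.cons 718 n6994 .nil)))
noncomputable def n6996 : Strat := .win 838 3 674
noncomputable def n6997 : Strat := .move 759 n55 (.cons 796 n155 .nil)
noncomputable def n6998 : Strat := .move 715 n6996 (.cons 838 n6997 .nil)
noncomputable def n6999 : Strat := .move 838 n1038 (.cons 879 n3984 .nil)
noncomputable def n7000 : Strat := .move 760 n284 (.cons 715 n2477 .nil)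
noncomputable def n7001 : Strat := .move 759 n55 (.cons 796 n7000 .nil)
noncomputable def n7002 : Strat := .move 796 n264 (.cons 759 n6911 .nil)
noncomputable def n7003 : Strat := .move 797 n6998 (.cons 796 n6999 (.cons 838 n7001 (.cons 715 n7002 .nil)))
noncomputable def n7004 : Strat := .move 675 n278 (.cons 634 n7003 .nil)
noncomputable def n7005 : Strat := .move 716 n138 (.cons 881 n7004 .nil)
noncomputable def n7006 : Strat := .move 759 n9 (.cons 718 n51 .nil)
noncomputable def n7007 : Strat := .move 837 n2430 (.cons 920 n3162 .nil)
noncomputable def n7008 : Strat := .move 878 n426 (.cons 841 n7007 .nil)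
noncomputable def n7009 : Strat := .win 797 7 714
noncomputable def n7010 : Strat := .move 838 n7009 (.cons 797 n3515 .nil)
noncomputable def n7011 : Strat := .move 714 n328 (.cons 713 n7010 .nil)
noncomputable def n7012 : Strat := .move 879 n7008 (.cons 878 n7011 (.cons 837 n6986 .nil))
noncomputable def n7013 : Strat := .move 755 n52 (.cons 795 n7012 .nil)
noncomputable def n7014 : Strat := .move 755 n52 (.cons 795 n7007 .nil)
noncomputable def n7015 : Strat := .move 879 n426 (.cons 841 n7014 .nil)
noncomputable def n7016 : Strat := .move 836 n3154 (.cons 835 n3153 .nil)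
noncomputable def n7017 : Strat := .move 877 n3152 (.cons 839 n7016 .nil)
noncomputable def n7018 : Strat := .move 879 n426 (.cons 841 n7017 .nil)
noncomputable def n7019 : Strat := .win 837 7 713
noncomputable def n7020 : Strat := .move 754 n7019 (.cons 837 n6888 .nil)
noncomputable def n7021 : Strat := .move 713 n6887 (.cons 714 n7020 .nil)
noncomputable def n7022 : Strat := .move 755 n52 (.cons 795 n7021 .nil)
noncomputable def n7023 : Strat := .move 918 n3159 (.cons 917 n3158 .nil)
noncomputable def n7024 : Strat := .move 877 n3152 (.cons 839 n7023 .nil)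
noncomputable def n7025 : Strat := .move 879 n426 (.cons 841 n7024 .nil)
noncomputable def n7026 : Strat := .move 878 n7015 (.cons 920 n7018 (.cons 879 n7022 (.cons 837 n7025 .nil)))
noncomputable def n7027 : Strat := .move 796 n7006 (.cons 759 n7013 (.cons 797 n7026 .nil))
noncomputable def n7028 : Strat := .move 880 n34 (.cons 921 n7027 .nil)
noncomputable def n7029 : Strat := .move 881 n46 (.cons 716 n7028 .nil)
noncomputable def n7030 : Strat := .move 797 n2397 (.cons 838 n2396 .nil)
noncomputable def n7031 : Strat := .win 797 6 673
noncomputable def n7032 : Strat := .move 838 n2427 (.cons 879 n7031 .nil)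
noncomputable def n7033 : Strat := .move 837 n2766 (.cons 633 n3726 (.cons 715 n7032 .nil))
noncomputable def n7034 : Strat := .win 797 6 632
noncomputable def n7035 : Strat := .move 632 n7034 (.cons 797 n2663 .nil)
noncomputable def n7036 : Strat := .move 673 n7030 (.cons 632 n7033 (.cons 838 n7035 (.cons 797 n2748 .nil)))
noncomputable def n7037 : Strat := .move 881 n46 (.cons 716 n7036 .nil)
noncomputable def n7038 : Strat := .move 796 n52 (.cons 795 n7037 .nil)
noncomputable def n7039 : Strat := .move 714 n328 (.cons 713 n7038 .nil)
noncomputable def n7040 : Strat := .win 715 5 712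
noncomputable def n7041 : Strat := .move 753 n6935 (.cons 711 n7040 .nil)
noncomputable def n7042 : Strat := .move 712 n6936 (.cons 713 n7041 .nil)
noncomputable def n7043 : Strat := .move 754 n1700 (.cons 794 n7042 .nil)
noncomputable def n7044 : Strat := .move 795 n1701 (.cons 796 n7043 .nil)
noncomputable def n7045 : Strat := .move 675 n278 (.cons 634 n7044 .nil)
noncomputable def n7046 : Strat := .move 716 n138 (.cons 881 n7045 .nil)
noncomputable def n7047 : Strat := .move 878 n2424 (.cons 715 n2510 .nil)
noncomputable def n7048 : Strat := .win 839 4 836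
noncomputable def n7049 : Strat := .move 878 n7048 (.cons 839 n2508 .nil)
noncomputable def n7050 : Strat := .move 877 n2509 (.cons 836 n7049 .nil)
noncomputable def n7051 : Strat := .move 838 n2427 (.cons 879 n7050 .nil)
noncomputable def n7052 : Strat := .move 673 n2500 (.cons 633 n7030 .nil)
noncomputable def n7053 : Strat := .move 674 n2501 (.cons 715 n7052 .nil)
noncomputable def n7054 : Strat := .move 837 n3726 (.cons 674 n7047 (.cons 715 n7051 (.cons 878 n7053 .nil)))
noncomputable def n7055 : Strat := .move 714 n328 (.cons 713 n7054 .nil)
noncomputable def n7056 : Strat := .move 796 n52 (.cons 795 n7055 .nil)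
noncomputable def n7057 : Strat := .move 753 n7040 (.cons 715 n6940 .nil)
noncomputable def n7058 : Strat := .move 675 n278 (.cons 634 n7057 .nil)
noncomputable def n7059 : Strat := .move 754 n6888 (.cons 712 n7058 .nil)
noncomputable def n7060 : Strat := .move 713 n6887 (.cons 714 n7059 .nil)
noncomputable def n7061 : Strat := .move 716 n138 (.cons 881 n7060 .nil)
noncomputable def n7062 : Strat := .win 675 6 634
noncomputable def n7063 : Strat := .win 710 2 710
noncomputable def n7064 : Strat := .win 712 2 711
noncomputable def n7065 : Strat := .move 711 n7063 (.cons 710 n7064 .nil)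
noncomputable def n7066 : Strat := .win 792 4 751
noncomputable def n7067 : Strat := .win 794 4 752
noncomputable def n7068 : Strat := .move 793 n7066 (.cons 792 n7067 .nil)
noncomputable def n7069 : Strat := .move 752 n7065 (.cons 712 n7068 .nil)
noncomputable def n7070 : Strat := .move 753 n7040 (.cons 715 n7069 .nil)
noncomputable def n7071 : Strat := .win 797 0 752
noncomputable def n7072 : Strat := .move 796 n7071 (.cons 797 n52 .nil)
noncomputable def n7073 : Strat := .move 752 n7072 (.cons 795 n7065 .nil)
noncomputable def n7074 : Strat := .move 753 n7040 (.cons 715 n7073 .nil)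
noncomputable def n7075 : Strat := .move 754 n6900 (.cons 796 n7057 (.cons 795 n7070 (.cons 794 n7074 .nil)))
noncomputable def n7076 : Strat := .move 634 n7062 (.cons 675 n7075 .nil)
noncomputable def n7077 : Strat := .move 716 n138 (.cons 881 n7076 .nil)
noncomputable def n7078 : Strat := .move 754 n1700 (.cons 794 n6889 .nil)
noncomputable def n7079 : Strat := .move 795 n1701 (.cons 796 n7078 .nil)
noncomputable def n7080 : Strat := .move 675 n4910 (.cons 634 n6999 .nil)
noncomputable def n7081 : Strat := .win 714 0 713
noncomputable def n7082 : Strat := .move 754 n6637 (.cons 753 n6888 .nil)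
noncomputable def n7083 : Strat := .move 713 n7081 (.cons 714 n7082 .nil)
noncomputable def n7084 : Strat := .move 715 n6996 (.cons 838 n7083 .nil)
noncomputable def n7085 : Strat := .move 675 n4910 (.cons 634 n7084 .nil)
noncomputable def n7086 : Strat := .win 796 6 673
noncomputable def n7087 : Strat := .move 673 n7086 (.cons 796 n2396 .nil)
noncomputable def n7088 : Strat := .move 838 n1038 (.cons 879 n7087 .nil)
noncomputable def n7089 : Strat := .move 714 n328 (.cons 713 n7088 .nil)
noncomputable def n7090 : Strat := .move 675 n4910 (.cons 634 n7089 .nil)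
noncomputable def n7091 : Strat := .win 796 0 752
noncomputable def n7092 : Strat := .move 752 n7091 (.cons 796 n7068 .nil)
noncomputable def n7093 : Strat := .move 753 n7040 (.cons 715 n7092 .nil)
noncomputable def n7094 : Strat := .move 754 n6889 (.cons 712 n7093 .nil)
noncomputable def n7095 : Strat := .move 797 n7080 (.cons 879 n7085 (.cons 715 n7090 (.cons 675 n7089 (.cons 838 n7094 .nil))))
noncomputable def n7096 : Strat := .move 716 n138 (.cons 881 n7095 .nil)
noncomputable def n7097 : Strat := .move 755 n7039 (.cons 714 n7046 (.cons 716 n7056 (.cons 796 n7061 (.cons 713 n7077 (.cons 715 n7079 (.cons 795 n7096 .nil))))))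
noncomputable def n7098 : Strat := .move 756 n6977 (.cons 881 n6876 (.cons 716 n6979 (.cons 795 n6991 (.cons 796 n6995 (.cons 714 n7005 (.cons 715 n7029 (.cons 759 n7097 .nil)))))))
noncomputable def n7099 : Strat := .move 757 n303 (.cons 881 n6951 (.cons 716 n6975 (.cons 798 n7098 .nil)))
noncomputable def n7100 : Strat := .move 758 n6576 (.cons 881 n6579 (.cons 716 n6625 (.cons 880 n1579 (.cons 757 n6626 (.cons 798 n6627 (.cons 839 n6654 (.cons 718 n6693 (.cons 759 n6698 (.cons 675 n6703 (.cons 677 n6794 (.cons 717 n7099 .nil)))))))))))
noncomputable def n7101 : Strat := .move 880 n27 (.cons 878 n28 .nil)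
noncomputable def n7102 : Strat := .win 880 0 878
noncomputable def n7103 : Strat := .win 920 2 878
noncomputable def n7104 : Strat := .move 878 n7102 (.cons 880 n7103 .nil)
noncomputable def n7105 : Strat := .win 878 2 878
noncomputable def n7106 : Strat := .win 838 7 755
noncomputable def n7107 : Strat := .move 755 n7106 (.cons 838 n78 .nil)
noncomputable def n7108 : Strat := .move 796 n77 (.cons 841 n7107 .nil)
noncomputable def n7109 : Strat := .win 961 4 919
noncomputable def n7110 : Strat := .win 838 1 796
noncomputable def n7111 : Strat := .win 959 4 918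
noncomputable def n7112 : Strat := .move 919 n7110 (.cons 838 n7111 .nil)
noncomputable def n7113 : Strat := .move 960 n7109 (.cons 961 n7112 .nil)
noncomputable def n7114 : Strat := .move 842 n2844 (.cons 839 n514 .nil)
noncomputable def n7115 : Strat := .move 841 n74 (.cons 796 n7114 .nil)
noncomputable def n7116 : Strat := .move 797 n7108 (.cons 796 n7113 (.cons 838 n7115 .nil))
noncomputable def n7117 : Strat := .move 920 n7105 (.cons 878 n7116 .nil)
noncomputable def n7118 : Strat := .win 880 2 879
noncomputable def n7119 : Strat := .win 883 5 880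
noncomputable def n7120 : Strat := .win 885 5 881
noncomputable def n7121 : Strat := .win 967 0 922
noncomputable def n7122 : Strat := .win 965 0 921
noncomputable def n7123 : Strat := .move 966 n7121 (.cons 967 n7122 .nil)
noncomputable def n7124 : Strat := .move 925 n7120 (.cons 885 n7123 .nil)
noncomputable def n7125 : Strat := .move 884 n7119 (.cons 883 n7124 .nil)
noncomputable def n7126 : Strat := .move 924 n7118 (.cons 880 n7125 .nil)
noncomputable def n7127 : Strat := .move 879 n7101 (.cons 924 n7104 (.cons 880 n7117 (.cons 878 n7126 .nil)))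
noncomputable def n7128 : Strat := .move 923 n25 (.cons 964 n7127 .nil)
noncomputable def n7129 : Strat := .move 921 n7 (.cons 962 n7128 .nil)
noncomputable def n7130 : Strat := .move 798 n0 (.cons 757 n7129 .nil)
noncomputable def n7131 : Strat := .move 922 n18 (.cons 798 n1581 (.cons 962 n24 (.cons 963 n7130 .nil)))
noncomputable def n7132 : Strat := .move 800 n3246 (.cons 759 n2869 (.cons 841 n2798 .nil))
noncomputable def n7133 : Strat := .move 919 n3169 (.cons 756 n2563 .nil)
noncomputable def n7134 : Strat := .win 880 4 877
noncomputable def n7135 : Strat := .move 919 n7134 (.cons 880 n2561 .nil)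
noncomputable def n7136 : Strat := .move 918 n2562 (.cons 877 n7135 .nil)
noncomputable def n7137 : Strat := .move 879 n2430 (.cons 920 n7136 .nil)
noncomputable def n7138 : Strat := .move 714 n2514 (.cons 674 n2429 .nil)
noncomputable def n7139 : Strat := .move 715 n2571 (.cons 756 n7138 .nil)
noncomputable def n7140 : Strat := .move 878 n4764 (.cons 715 n7133 (.cons 756 n7137 (.cons 919 n7139 .nil)))
noncomputable def n7141 : Strat := .move 837 n126 (.cons 836 n7140 .nil)
noncomputable def n7142 : Strat := .move 755 n78 (.cons 754 n7141 .nil)
noncomputable def n7143 : Strat := .move 796 n77 (.cons 841 n7142 .nil)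
noncomputable def n7144 : Strat := .move 796 n78 (.cons 754 n2077 .nil)
noncomputable def n7145 : Strat := .move 796 n78 (.cons 754 n7141 .nil)
noncomputable def n7146 : Strat := .move 796 n78 (.cons 754 n2875 .nil)
noncomputable def n7147 : Strat := .move 837 n126 (.cons 836 n2823 .nil)
noncomputable def n7148 : Strat := .move 796 n78 (.cons 754 n7147 .nil)
noncomputable def n7149 : Strat := .move 754 n4779 (.cons 753 n4778 .nil)
noncomputable def n7150 : Strat := .move 756 n2395 (.cons 800 n7149 .nil)
noncomputable def n7151 : Strat := .move 920 n2852 (.cons 757 n4879 .nil)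
noncomputable def n7152 : Strat := .move 879 n3274 (.cons 714 n7151 .nil)
noncomputable def n7153 : Strat := .move 715 n3070 (.cons 675 n3542 .nil)
noncomputable def n7154 : Strat := .move 716 n3069 (.cons 757 n7153 .nil)
noncomputable def n7155 : Strat := .move 878 n3068 (.cons 919 n3080 .nil)
noncomputable def n7156 : Strat := .move 837 n126 (.cons 836 n7155 .nil)
noncomputable def n7157 : Strat := .move 796 n2821 (.cons 920 n7156 .nil)
noncomputable def n7158 : Strat := .move 879 n7151 (.cons 920 n7154 (.cons 757 n7157 .nil))
noncomputable def n7159 : Strat := .move 757 n2060 (.cons 716 n863 .nil)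
noncomputable def n7160 : Strat := .move 879 n3274 (.cons 714 n7159 .nil)
noncomputable def n7161 : Strat := .move 879 n3274 (.cons 714 n7157 .nil)
noncomputable def n7162 : Strat := .move 673 n2396 (.cons 632 n7086 .nil)
noncomputable def n7163 : Strat := .move 714 n6822 (.cons 879 n7162 .nil)
noncomputable def n7164 : Strat := .move 837 n3474 (.cons 878 n3522 .nil)
noncomputable def n7165 : Strat := .move 674 n3105 (.cons 632 n3101 .nil)
noncomputable def n7166 : Strat := .move 673 n3106 (.cons 714 n7165 .nil)
noncomputable def n7167 : Strat := .move 675 n3102 (.cons 716 n7166 .nil)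
noncomputable def n7168 : Strat := .move 715 n7164 (.cons 837 n7167 .nil)
noncomputable def n7169 : Strat := .move 838 n7152 (.cons 714 n7158 (.cons 796 n7160 (.cons 757 n7161 (.cons 920 n7163 (.cons 879 n7168 .nil)))))
noncomputable def n7170 : Strat := .move 756 n2395 (.cons 800 n7169 .nil)
noncomputable def n7171 : Strat := .move 755 n7144 (.cons 800 n7145 (.cons 838 n7146 (.cons 756 n7148 (.cons 796 n7150 (.cons 754 n7170 .nil)))))
noncomputable def n7172 : Strat := .move 797 n2079 (.cons 796 n7132 (.cons 800 n7143 (.cons 755 n2867 (.cons 841 n7171 .nil))))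
noncomputable def n7173 : Strat := .move 922 n0 (.cons 757 n1581 .nil)
noncomputable def n7174 : Strat := .move 797 n658 (.cons 796 n417 (.cons 842 n81 (.cons 841 n129 .nil)))
noncomputable def n7175 : Strat := .move 802 n452 (.cons 760 n3624 .nil)
noncomputable def n7176 : Strat := .move 841 n6387 (.cons 796 n6125 .nil)
noncomputable def n7177 : Strat := .move 761 n125 (.cons 760 n7176 .nil)
noncomputable def n7178 : Strat := .move 801 n524 (.cons 841 n3601 (.cons 762 n7174 (.cons 842 n7175 (.cons 843 n7177 .nil))))
noncomputable def n7179 : Strat := .move 962 n14 (.cons 921 n7178 .nil)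
noncomputable def n7180 : Strat := .move 923 n25 (.cons 964 n7179 .nil)
noncomputable def n7181 : Strat := .move 800 n2 (.cons 759 n7180 .nil)
noncomputable def n7182 : Strat := .move 922 n1237 (.cons 800 n1581 (.cons 963 n7181 .nil))
noncomputable def n7183 : Strat := .move 798 n1238 (.cons 922 n7172 (.cons 800 n7173 (.cons 757 n7182 .nil)))
noncomputable def n7184 : Strat := .move 796 n78 (.cons 754 n128 .nil)
noncomputable def n7185 : Strat := .move 755 n79 (.cons 756 n7184 .nil)
noncomputable def n7186 : Strat := .move 838 n320 (.cons 839 n82 .nil)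
noncomputable def n7187 : Strat := .move 801 n7186 (.cons 837 n365 (.cons 839 n453 .nil))
noncomputable def n7188 : Strat := .move 754 n2048 (.cons 753 n2047 .nil)
noncomputable def n7189 : Strat := .move 795 n2046 (.cons 839 n7188 .nil)
noncomputable def n7190 : Strat := .move 839 n579 (.cons 795 n86 .nil)
noncomputable def n7191 : Strat := .move 836 n2072 (.cons 835 n2071 .nil)
noncomputable def n7192 : Strat := .move 795 n2046 (.cons 839 n7191 .nil)
noncomputable def n7193 : Strat := .move 796 n80 (.cons 756 n7189 (.cons 754 n7190 (.cons 755 n7192 .nil)))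
noncomputable def n7194 : Strat := .move 839 n84 (.cons 880 n602 .nil)
noncomputable def n7195 : Strat := .move 756 n85 (.cons 755 n7194 .nil)
noncomputable def n7196 : Strat := .move 797 n88 (.cons 839 n7185 (.cons 755 n7187 (.cons 838 n7193 (.cons 837 n7195 .nil))))
noncomputable def n7197 : Strat := .move 964 n20 (.cons 923 n7196 .nil)
noncomputable def n7198 : Strat := .move 921 n7 (.cons 962 n7197 .nil)
noncomputable def n7199 : Strat := .move 800 n2 (.cons 759 n7198 .nil)
noncomputable def n7200 : Strat := .move 798 n0 (.cons 757 n7199 .nil)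
noncomputable def n7201 : Strat := .move 922 n18 (.cons 798 n1581 (.cons 921 n24 (.cons 963 n7200 .nil)))
noncomputable def n7202 : Strat := .move 922 n114 (.cons 798 n107 (.cons 800 n24 (.cons 963 n459 .nil)))
noncomputable def n7203 : Strat := .win 960 4 919
noncomputable def n7204 : Strat := .move 961 n5066 (.cons 798 n7203 .nil)
noncomputable def n7205 : Strat := .move 839 n232 (.cons 837 n7204 .nil)
noncomputable def n7206 : Strat := .win 797 1 796
noncomputable def n7207 : Strat := .move 919 n7206 (.cons 797 n7111 .nil)
noncomputable def n7208 : Strat := .move 960 n7109 (.cons 961 n7207 .nil)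
noncomputable def n7209 : Strat := .move 839 n232 (.cons 837 n4363 .nil)
noncomputable def n7210 : Strat := .move 838 n7205 (.cons 839 n7208 (.cons 960 n7209 .nil))
noncomputable def n7211 : Strat := .move 920 n7105 (.cons 878 n7210 .nil)
noncomputable def n7212 : Strat := .move 879 n7101 (.cons 924 n7104 (.cons 880 n7211 (.cons 878 n7126 .nil)))
noncomputable def n7213 : Strat := .move 923 n25 (.cons 964 n7212 .nil)
noncomputable def n7214 : Strat := .move 921 n7 (.cons 962 n7213 .nil)
noncomputable def n7215 : Strat := .move 800 n2 (.cons 759 n7214 .nil)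
noncomputable def n7216 : Strat := .move 922 n73 (.cons 800 n1581 (.cons 921 n107 (.cons 963 n7215 .nil)))
noncomputable def n7217 : Strat := .move 801 n123 (.cons 843 n7186 .nil)
noncomputable def n7218 : Strat := .move 842 n124 (.cons 841 n7217 .nil)
noncomputable def n7219 : Strat := .move 797 n76 (.cons 796 n7218 (.cons 841 n88 .nil))
noncomputable def n7220 : Strat := .move 921 n7 (.cons 962 n7219 .nil)
noncomputable def n7221 : Strat := .move 800 n2 (.cons 759 n7220 .nil)
noncomputable def n7222 : Strat := .move 798 n0 (.cons 757 n7221 .nil)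
noncomputable def n7223 : Strat := .move 922 n114 (.cons 798 n73 (.cons 800 n18 (.cons 963 n7222 .nil)))
noncomputable def n7224 : Strat := .move 922 n0 (.cons 757 n92 .nil)
noncomputable def n7225 : Strat := .move 841 n3245 (.cons 760 n3899 .nil)
noncomputable def n7226 : Strat := .move 800 n3246 (.cons 842 n7225 (.cons 760 n3900 (.cons 841 n2059 .nil)))
noncomputable def n7227 : Strat := .move 757 n860 (.cons 716 n555 .nil)
noncomputable def n7228 : Strat := .move 800 n83 (.cons 801 n7227 .nil)
noncomputable def n7229 : Strat := .move 796 n579 (.cons 795 n3498 .nil)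
noncomputable def n7230 : Strat := .move 837 n1076 (.cons 836 n7229 .nil)
noncomputable def n7231 : Strat := .move 838 n1086 (.cons 837 n7228 (.cons 800 n7230 .nil))
noncomputable def n7232 : Strat := .move 878 n3560 (.cons 838 n4764 .nil)
noncomputable def n7233 : Strat := .move 757 n860 (.cons 716 n7232 .nil)
noncomputable def n7234 : Strat := .move 755 n78 (.cons 754 n7233 .nil)
noncomputable def n7235 : Strat := .move 837 n126 (.cons 836 n7234 .nil)
noncomputable def n7236 : Strat := .move 796 n579 (.cons 795 n7235 .nil)
noncomputable def n7237 : Strat := .move 880 n2790 (.cons 921 n370 .nil)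
noncomputable def n7238 : Strat := .move 756 n7237 (.cons 921 n3189 .nil)
noncomputable def n7239 : Strat := .move 757 n860 (.cons 716 n7238 .nil)
noncomputable def n7240 : Strat := .move 796 n579 (.cons 795 n3088 .nil)
noncomputable def n7241 : Strat := .move 755 n2530 (.cons 714 n78 .nil)
noncomputable def n7242 : Strat := .move 879 n863 (.cons 920 n7241 .nil)
noncomputable def n7243 : Strat := .move 757 n860 (.cons 716 n7242 .nil)
noncomputable def n7244 : Strat := .move 838 n1085 (.cons 800 n7243 .nil)
noncomputable def n7245 : Strat := .move 837 n126 (.cons 836 n7244 .nil)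
noncomputable def n7246 : Strat := .move 796 n579 (.cons 795 n7245 .nil)
noncomputable def n7247 : Strat := .move 801 n116 (.cons 802 n258 .nil)
noncomputable def n7248 : Strat := .move 800 n857 (.cons 838 n7247 (.cons 801 n3969 .nil))
noncomputable def n7249 : Strat := .move 757 n860 (.cons 716 n7248 .nil)
noncomputable def n7250 : Strat := .move 839 n7231 (.cons 800 n7236 (.cons 837 n7239 (.cons 715 n7240 (.cons 756 n7246 (.cons 755 n7249 .nil)))))
noncomputable def n7251 : Strat := .move 797 n2867 (.cons 796 n7226 (.cons 800 n2051 (.cons 841 n7250 .nil)))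
noncomputable def n7252 : Strat := .move 922 n2 (.cons 759 n91 .nil)
noncomputable def n7253 : Strat := .move 797 n76 (.cons 796 n1999 (.cons 842 n449 (.cons 841 n2794 .nil)))
noncomputable def n7254 : Strat := .move 797 n958 (.cons 760 n557 .nil)
noncomputable def n7255 : Strat := .move 759 n98 (.cons 922 n7254 .nil)
noncomputable def n7256 : Strat := .move 800 n7252 (.cons 759 n7253 (.cons 797 n5564 (.cons 841 n7255 .nil)))
noncomputable def n7257 : Strat := .move 801 n258 (.cons 756 n633 .nil)
noncomputable def n7258 : Strat := .move 841 n75 (.cons 842 n3201 .nil)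
noncomputable def n7259 : Strat := .move 797 n76 (.cons 841 n7185 (.cons 796 n7258 .nil))
noncomputable def n7260 : Strat := .move 755 n327 (.cons 754 n3778 .nil)
noncomputable def n7261 : Strat := .move 756 n260 (.cons 801 n7260 .nil)
noncomputable def n7262 : Strat := .move 841 n514 (.cons 843 n513 .nil)
noncomputable def n7263 : Strat := .move 883 n2128 (.cons 718 n1624 .nil)
noncomputable def n7264 : Strat := .move 759 n788 (.cons 797 n7263 .nil)
noncomputable def n7265 : Strat := .move 760 n611 (.cons 761 n7264 .nil)
noncomputable def n7266 : Strat := .move 801 n123 (.cons 843 n7265 .nil)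
noncomputable def n7267 : Strat := .move 841 n513 (.cons 797 n3200 .nil)
noncomputable def n7268 : Strat := .move 759 n1295 (.cons 677 n7267 (.cons 841 n5877 .nil))
noncomputable def n7269 : Strat := .win 801 0 798
noncomputable def n7270 : Strat := .move 843 n1640 (.cons 841 n7269 .nil)
noncomputable def n7271 : Strat := .move 842 n7262 (.cons 841 n7266 (.cons 843 n7268 (.cons 797 n7270 .nil)))
noncomputable def n7272 : Strat := .move 800 n7257 (.cons 801 n7259 (.cons 797 n5580 (.cons 842 n7261 (.cons 756 n7271 .nil))))
noncomputable def n7273 : Strat := .move 675 n2621 (.cons 716 n7272 .nil)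
noncomputable def n7274 : Strat := .move 757 n257 (.cons 922 n7273 .nil)
noncomputable def n7275 : Strat := .move 798 n7224 (.cons 922 n7251 (.cons 757 n7256 (.cons 800 n3648 (.cons 839 n7274 .nil))))
noncomputable def n7276 : Strat := .move 798 n0 (.cons 757 n112 .nil)
noncomputable def n7277 : Strat := .move 800 n2 (.cons 759 n7276 .nil)
noncomputable def n7278 : Strat := .win 839 1 797
noncomputable def n7279 : Strat := .move 961 n7278 (.cons 839 n7203 .nil)
noncomputable def n7280 : Strat := .move 880 n28 (.cons 924 n7279 .nil)
noncomputable def n7281 : Strat := .move 879 n7105 (.cons 878 n7280 .nil)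
noncomputable def n7282 : Strat := .win 879 2 878
noncomputable def n7283 : Strat := .win 877 2 877
noncomputable def n7284 : Strat := .move 960 n7111 (.cons 959 n7109 .nil)
noncomputable def n7285 : Strat := .move 919 n7283 (.cons 877 n7284 .nil)
noncomputable def n7286 : Strat := .move 878 n7282 (.cons 879 n7285 .nil)
noncomputable def n7287 : Strat := .win 880 5 877
noncomputable def n7288 : Strat := .win 876 2 876
noncomputable def n7289 : Strat := .win 878 2 877
noncomputable def n7290 : Strat := .move 877 n7288 (.cons 876 n7289 .nil)
noncomputable def n7291 : Strat := .move 918 n7287 (.cons 880 n7290 .nil)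
noncomputable def n7292 : Strat := .move 919 n7284 (.cons 961 n7291 .nil)
noncomputable def n7293 : Strat := .move 924 n1258 (.cons 925 n1257 .nil)
noncomputable def n7294 : Strat := .move 880 n7278 (.cons 839 n7293 .nil)
noncomputable def n7295 : Strat := .move 961 n7203 (.cons 960 n7294 .nil)
noncomputable def n7296 : Strat := .move 879 n7118 (.cons 880 n7105 .nil)
noncomputable def n7297 : Strat := .move 880 n1258 (.cons 925 n1257 .nil)
noncomputable def n7298 : Strat := .move 884 n7120 (.cons 885 n7119 .nil)
noncomputable def n7299 : Strat := .move 925 n7123 (.cons 965 n7298 .nil)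
noncomputable def n7300 : Strat := .move 924 n7296 (.cons 878 n7297 (.cons 880 n7299 .nil))
noncomputable def n7301 : Strat := .move 920 n7281 (.cons 839 n7286 (.cons 879 n7292 (.cons 878 n7295 (.cons 961 n7300 .nil))))
noncomputable def n7302 : Strat := .move 759 n10 (.cons 800 n7301 .nil)
noncomputable def n7303 : Strat := .move 923 n25 (.cons 964 n7302 .nil)
noncomputable def n7304 : Strat := .move 921 n7 (.cons 962 n7303 .nil)
noncomputable def n7305 : Strat := .move 798 n0 (.cons 757 n7304 .nil)
noncomputable def n7306 : Strat := .move 922 n73 (.cons 962 n7277 (.cons 841 n18 (.cons 963 n7305 .nil)))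
noncomputable def n7307 : Strat := .move 841 n74 (.cons 796 n3033 .nil)
noncomputable def n7308 : Strat := .move 800 n3245 (.cons 760 n3899 .nil)
noncomputable def n7309 : Strat := .move 841 n74 (.cons 796 n7308 .nil)
noncomputable def n7310 : Strat := .move 759 n958 (.cons 760 n7227 .nil)
noncomputable def n7311 : Strat := .move 839 n83 (.cons 801 n7310 .nil)
noncomputable def n7312 : Strat := .move 838 n82 (.cons 837 n7311 .nil)
noncomputable def n7313 : Strat := .move 759 n958 (.cons 760 n555 .nil)
noncomputable def n7314 : Strat := .move 839 n83 (.cons 801 n7313 .nil)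
noncomputable def n7315 : Strat := .move 838 n82 (.cons 837 n7314 .nil)
noncomputable def n7316 : Strat := .move 839 n83 (.cons 801 n7227 .nil)
noncomputable def n7317 : Strat := .move 838 n82 (.cons 837 n7316 .nil)
noncomputable def n7318 : Strat := .move 796 n126 (.cons 836 n80 .nil)
noncomputable def n7319 : Strat := .move 837 n127 (.cons 838 n7318 .nil)
noncomputable def n7320 : Strat := .move 800 n7312 (.cons 838 n2798 (.cons 757 n7315 (.cons 759 n7317 (.cons 755 n2796 (.cons 801 n7319 .nil)))))
noncomputable def n7321 : Strat := .move 798 n7307 (.cons 796 n7226 (.cons 800 n7115 (.cons 842 n7309 (.cons 839 n2079 (.cons 841 n7320 .nil)))))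
noncomputable def n7322 : Strat := .move 796 n2050 (.cons 839 n7142 (.cons 755 n2074 .nil))
noncomputable def n7323 : Strat := .move 716 n1039 (.cons 675 n3395 .nil)
noncomputable def n7324 : Strat := .move 879 n2801 (.cons 921 n863 .nil)
noncomputable def n7325 : Strat := .move 880 n2802 (.cons 839 n7324 .nil)
noncomputable def n7326 : Strat := .move 674 n171 (.cons 633 n3107 .nil)
noncomputable def n7327 : Strat := .move 715 n2015 (.cons 674 n7325 (.cons 880 n1666 (.cons 839 n7326 .nil)))
noncomputable def n7328 : Strat := .move 757 n7323 (.cons 716 n7327 (.cons 839 n2799 .nil))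
noncomputable def n7329 : Strat := .move 756 n85 (.cons 755 n7328 .nil)
noncomputable def n7330 : Strat := .move 838 n82 (.cons 837 n7329 .nil)
noncomputable def n7331 : Strat := .move 800 n2059 (.cons 838 n2798 (.cons 756 n2796 (.cons 801 n7330 .nil)))
noncomputable def n7332 : Strat := .move 796 n2050 (.cons 839 n2876 (.cons 755 n2074 .nil))
noncomputable def n7333 : Strat := .move 801 n258 (.cons 756 n116 .nil)
noncomputable def n7334 : Strat := .move 800 n857 (.cons 838 n7333 (.cons 801 n3969 .nil))
noncomputable def n7335 : Strat := .move 839 n860 (.cons 716 n7334 .nil)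
noncomputable def n7336 : Strat := .move 756 n1038 (.cons 879 n3821 .nil)
noncomputable def n7337 : Strat := .move 800 n82 (.cons 837 n1436 .nil)
noncomputable def n7338 : Strat := .move 836 n3521 (.cons 796 n3050 .nil)
noncomputable def n7339 : Strat := .move 837 n1085 (.cons 800 n7338 .nil)
noncomputable def n7340 : Strat := .move 838 n7336 (.cons 801 n7337 (.cons 837 n1436 (.cons 756 n7339 .nil)))
noncomputable def n7341 : Strat := .move 716 n1019 (.cons 675 n7340 .nil)
noncomputable def n7342 : Strat := .move 756 n370 (.cons 715 n2790 .nil)
noncomputable def n7343 : Strat := .move 879 n427 (.cons 877 n382 .nil)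
noncomputable def n7344 : Strat := .move 837 n2425 (.cons 919 n126 .nil)
noncomputable def n7345 : Strat := .move 878 n7343 (.cons 920 n7344 .nil)
noncomputable def n7346 : Strat := .move 756 n370 (.cons 715 n7345 .nil)
noncomputable def n7347 : Strat := .move 880 n7342 (.cons 715 n3046 (.cons 756 n2138 (.cons 921 n7346 .nil)))
noncomputable def n7348 : Strat := .move 796 n579 (.cons 795 n7347 .nil)
noncomputable def n7349 : Strat := .move 839 n860 (.cons 716 n7348 .nil)
noncomputable def n7350 : Strat := .move 839 n857 (.cons 838 n7333 (.cons 801 n3969 .nil))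
noncomputable def n7351 : Strat := .win 756 5 753
noncomputable def n7352 : Strat := .win 752 2 752
noncomputable def n7353 : Strat := .win 754 2 753
noncomputable def n7354 : Strat := .move 753 n7352 (.cons 752 n7353 .nil)
noncomputable def n7355 : Strat := .move 794 n7351 (.cons 756 n7354 .nil)
noncomputable def n7356 : Strat := .move 795 n2046 (.cons 839 n7355 .nil)
noncomputable def n7357 : Strat := .move 796 n126 (.cons 836 n7356 .nil)
noncomputable def n7358 : Strat := .move 837 n127 (.cons 838 n7357 .nil)
noncomputable def n7359 : Strat := .move 801 n258 (.cons 756 n2054 .nil)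
noncomputable def n7360 : Strat := .move 800 n7350 (.cons 801 n7358 (.cons 838 n7359 (.cons 756 n2796 .nil)))
noncomputable def n7361 : Strat := .move 757 n7335 (.cons 839 n7341 (.cons 838 n7349 (.cons 756 n3647 (.cons 716 n7360 .nil))))
noncomputable def n7362 : Strat := .move 801 n119 (.cons 842 n117 .nil)
noncomputable def n7363 : Strat := .win 834 4 793
noncomputable def n7364 : Strat := .win 836 4 794
noncomputable def n7365 : Strat := .move 835 n7363 (.cons 834 n7364 .nil)
noncomputable def n7366 : Strat := .move 794 n7354 (.cons 754 n7365 .nil)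
noncomputable def n7367 : Strat := .move 795 n2046 (.cons 839 n7366 .nil)
noncomputable def n7368 : Strat := .win 757 5 753
noncomputable def n7369 : Strat := .move 756 n7368 (.cons 757 n85 .nil)
noncomputable def n7370 : Strat := .move 794 n7365 (.cons 836 n7369 .nil)
noncomputable def n7371 : Strat := .move 795 n2046 (.cons 839 n7370 .nil)
noncomputable def n7372 : Strat := .move 796 n80 (.cons 756 n7189 (.cons 755 n7367 (.cons 754 n7371 .nil)))
noncomputable def n7373 : Strat := .move 760 n1591 (.cons 759 n7372 .nil)
noncomputable def n7374 : Strat := .move 801 n119 (.cons 842 n2054 .nil)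
noncomputable def n7375 : Strat := .move 843 n7362 (.cons 801 n7373 (.cons 839 n7374 .nil))
noncomputable def n7376 : Strat := .move 838 n320 (.cons 839 n2054 .nil)
noncomputable def n7377 : Strat := .move 801 n7376 (.cons 839 n2054 (.cons 760 n117 .nil))
noncomputable def n7378 : Strat := .move 756 n85 (.cons 755 n3785 .nil)
noncomputable def n7379 : Strat := .move 757 n860 (.cons 716 n7378 .nil)
noncomputable def n7380 : Strat := .move 839 n579 (.cons 795 n7379 .nil)
noncomputable def n7381 : Strat := .move 794 n7352 (.cons 752 n7365 .nil)
noncomputable def n7382 : Strat := .move 753 n7353 (.cons 754 n7381 .nil)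
noncomputable def n7383 : Strat := .move 795 n2046 (.cons 839 n7382 .nil)
noncomputable def n7384 : Strat := .move 796 n80 (.cons 754 n7380 (.cons 755 n7383 .nil))
noncomputable def n7385 : Strat := .move 760 n1591 (.cons 759 n7384 .nil)
noncomputable def n7386 : Strat := .move 800 n7375 (.cons 755 n7377 (.cons 759 n2896 (.cons 839 n2798 (.cons 801 n7385 .nil))))
noncomputable def n7387 : Strat := .move 798 n7320 (.cons 800 n7322 (.cons 839 n7171 (.cons 796 n7331 (.cons 838 n7332 (.cons 756 n5112 (.cons 755 n7361 (.cons 837 n7386 .nil)))))))
noncomputable def n7388 : Strat := .move 841 n823 (.cons 842 n862 .nil)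
noncomputable def n7389 : Strat := .move 838 n863 (.cons 920 n7388 .nil)
noncomputable def n7390 : Strat := .move 757 n860 (.cons 716 n7389 .nil)
noncomputable def n7391 : Strat := .move 878 n3436 (.cons 880 n2454 .nil)
noncomputable def n7392 : Strat := .move 841 n823 (.cons 842 n7391 .nil)
noncomputable def n7393 : Strat := .move 920 n3227 (.cons 838 n2537 .nil)
noncomputable def n7394 : Strat := .move 757 n860 (.cons 716 n7393 .nil)
noncomputable def n7395 : Strat := .move 841 n823 (.cons 842 n384 .nil)
noncomputable def n7396 : Strat := .move 880 n7395 (.cons 842 n3046 .nil)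
noncomputable def n7397 : Strat := .move 839 n7390 (.cons 757 n7392 (.cons 878 n7394 (.cons 838 n7396 .nil)))
noncomputable def n7398 : Strat := .move 755 n3274 (.cons 714 n327 .nil)
noncomputable def n7399 : Strat := .move 757 n2060 (.cons 716 n7398 .nil)
noncomputable def n7400 : Strat := .move 880 n2801 (.cons 921 n426 .nil)
noncomputable def n7401 : Strat := .move 878 n3068 (.cons 919 n7400 .nil)
noncomputable def n7402 : Strat := .move 757 n7398 (.cons 754 n7401 .nil)
noncomputable def n7403 : Strat := .move 757 n2060 (.cons 716 n7401 .nil)
noncomputable def n7404 : Strat := .move 880 n426 (.cons 841 n2801 .nil)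
noncomputable def n7405 : Strat := .move 878 n3068 (.cons 919 n7404 .nil)
noncomputable def n7406 : Strat := .move 756 n7399 (.cons 716 n7402 (.cons 714 n7403 (.cons 757 n7405 .nil)))
noncomputable def n7407 : Strat := .move 756 n7398 (.cons 754 n7401 .nil)
noncomputable def n7408 : Strat := .move 757 n863 (.cons 920 n7407 .nil)
noncomputable def n7409 : Strat := .move 756 n3068 (.cons 919 n7404 .nil)
noncomputable def n7410 : Strat := .move 714 n2805 (.cons 673 n6848 .nil)
noncomputable def n7411 : Strat := .move 715 n3071 (.cons 837 n7410 .nil)
noncomputable def n7412 : Strat := .move 756 n3068 (.cons 919 n7411 .nil)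
noncomputable def n7413 : Strat := .win 837 3 796
noncomputable def n7414 : Strat := .win 920 1 796
noncomputable def n7415 : Strat := .move 960 n7413 (.cons 837 n7414 .nil)
noncomputable def n7416 : Strat := .move 919 n3163 (.cons 918 n7415 .nil)
noncomputable def n7417 : Strat := .move 880 n426 (.cons 841 n7416 .nil)
noncomputable def n7418 : Strat := .move 756 n3080 (.cons 715 n2801 .nil)
noncomputable def n7419 : Strat := .move 837 n3162 (.cons 836 n7418 .nil)
noncomputable def n7420 : Strat := .move 880 n426 (.cons 841 n7419 .nil)
noncomputable def n7421 : Strat := .move 878 n7409 (.cons 880 n7412 (.cons 756 n7417 (.cons 919 n7420 .nil)))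
noncomputable def n7422 : Strat := .move 961 n4882 (.cons 1003 n4902 .nil)
noncomputable def n7423 : Strat := .move 962 n4883 (.cons 921 n7422 .nil)
noncomputable def n7424 : Strat := .move 920 n2852 (.cons 757 n7423 .nil)
noncomputable def n7425 : Strat := .move 838 n3060 (.cons 920 n7406 (.cons 716 n7408 (.cons 757 n7421 (.cons 756 n7424 .nil))))
noncomputable def n7426 : Strat := .move 878 n3068 (.cons 919 n426 .nil)
noncomputable def n7427 : Strat := .move 880 n2801 (.cons 921 n7426 .nil)
noncomputable def n7428 : Strat := .move 756 n7427 (.cons 841 n7398 .nil)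
noncomputable def n7429 : Strat := .move 757 n863 (.cons 920 n7428 .nil)
noncomputable def n7430 : Strat := .move 878 n3071 (.cons 837 n3068 .nil)
noncomputable def n7431 : Strat := .move 715 n2802 (.cons 839 n7430 .nil)
noncomputable def n7432 : Strat := .move 880 n2801 (.cons 921 n7431 .nil)
noncomputable def n7433 : Strat := .move 756 n7398 (.cons 755 n7432 .nil)
noncomputable def n7434 : Strat := .move 757 n863 (.cons 920 n7433 .nil)
noncomputable def n7435 : Strat := .move 841 n3436 (.cons 880 n3067 .nil)
noncomputable def n7436 : Strat := .move 837 n1077 (.cons 877 n1076 .nil)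
noncomputable def n7437 : Strat := .move 839 n2158 (.cons 841 n7436 .nil)
noncomputable def n7438 : Strat := .move 755 n327 (.cons 754 n3274 .nil)
noncomputable def n7439 : Strat := .move 756 n3068 (.cons 919 n7438 .nil)
noncomputable def n7440 : Strat := .move 878 n7435 (.cons 880 n7437 (.cons 839 n7439 .nil))
noncomputable def n7441 : Strat := .move 757 n863 (.cons 920 n7440 .nil)
noncomputable def n7442 : Strat := .move 841 n862 (.cons 878 n823 .nil)
noncomputable def n7443 : Strat := .move 839 n7442 (.cons 842 n4072 .nil)
noncomputable def n7444 : Strat := .move 756 n2801 (.cons 921 n7431 .nil)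
noncomputable def n7445 : Strat := .move 919 n3163 (.cons 918 n4201 .nil)
noncomputable def n7446 : Strat := .move 878 n426 (.cons 841 n7445 .nil)
noncomputable def n7447 : Strat := .move 962 n3149 (.cons 1003 n3148 .nil)
noncomputable def n7448 : Strat := .move 921 n3062 (.cons 756 n7447 .nil)
noncomputable def n7449 : Strat := .move 837 n3162 (.cons 836 n4918 .nil)
noncomputable def n7450 : Strat := .move 878 n426 (.cons 841 n7449 .nil)
noncomputable def n7451 : Strat := .move 880 n7443 (.cons 841 n7444 (.cons 921 n7446 (.cons 878 n7448 (.cons 756 n7450 .nil))))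
noncomputable def n7452 : Strat := .move 757 n863 (.cons 920 n7451 .nil)
noncomputable def n7453 : Strat := .move 837 n3080 (.cons 715 n1076 .nil)
noncomputable def n7454 : Strat := .move 839 n2158 (.cons 841 n7453 .nil)
noncomputable def n7455 : Strat := .move 878 n3068 (.cons 919 n7454 .nil)
noncomputable def n7456 : Strat := .move 756 n7398 (.cons 755 n7455 .nil)
noncomputable def n7457 : Strat := .move 757 n863 (.cons 920 n7456 .nil)
noncomputable def n7458 : Strat := .move 919 n3163 (.cons 918 n3587 .nil)
noncomputable def n7459 : Strat := .move 837 n3162 (.cons 836 n7458 .nil)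
noncomputable def n7460 : Strat := .move 880 n426 (.cons 841 n7459 .nil)
noncomputable def n7461 : Strat := .move 877 n3154 (.cons 835 n3152 .nil)
noncomputable def n7462 : Strat := .move 836 n3153 (.cons 837 n7461 .nil)
noncomputable def n7463 : Strat := .move 880 n7459 (.cons 837 n7024 (.cons 918 n7462 .nil))
noncomputable def n7464 : Strat := .move 878 n7435 (.cons 839 n7460 (.cons 880 n7437 (.cons 841 n7463 .nil)))
noncomputable def n7465 : Strat := .move 757 n863 (.cons 920 n7464 .nil)
noncomputable def n7466 : Strat := .move 921 n3062 (.cons 756 n1891 .nil)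
noncomputable def n7467 : Strat := .move 756 n2801 (.cons 921 n888 .nil)
noncomputable def n7468 : Strat := .move 756 n3080 (.cons 715 n3068 .nil)
noncomputable def n7469 : Strat := .move 878 n1077 (.cons 877 n7468 .nil)
noncomputable def n7470 : Strat := .move 837 n481 (.cons 836 n7469 .nil)
noncomputable def n7471 : Strat := .move 878 n1077 (.cons 877 n4918 .nil)
noncomputable def n7472 : Strat := .move 837 n481 (.cons 836 n7471 .nil)
noncomputable def n7473 : Strat := .move 880 n7466 (.cons 962 n7467 (.cons 921 n7470 (.cons 756 n7472 .nil)))
noncomputable def n7474 : Strat := .move 919 n3348 (.cons 918 n3093 .nil)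
noncomputable def n7475 : Strat := .move 880 n3062 (.cons 756 n7474 .nil)
noncomputable def n7476 : Strat := .move 921 n3061 (.cons 962 n7475 .nil)
noncomputable def n7477 : Strat := .move 920 n484 (.cons 961 n7476 .nil)
noncomputable def n7478 : Strat := .move 839 n7388 (.cons 841 n7473 (.cons 878 n7477 .nil))
noncomputable def n7479 : Strat := .move 880 n4072 (.cons 756 n3907 .nil)
noncomputable def n7480 : Strat := .move 756 n7438 (.cons 714 n554 .nil)
noncomputable def n7481 : Strat := .move 837 n1076 (.cons 836 n7480 .nil)
noncomputable def n7482 : Strat := .move 839 n7388 (.cons 842 n7479 (.cons 841 n7481 .nil))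
noncomputable def n7483 : Strat := .move 757 n863 (.cons 920 n7482 .nil)
noncomputable def n7484 : Strat := .move 837 n1076 (.cons 836 n1077 .nil)
noncomputable def n7485 : Strat := .move 839 n2158 (.cons 841 n7484 .nil)
noncomputable def n7486 : Strat := .move 756 n3068 (.cons 919 n2801 .nil)
noncomputable def n7487 : Strat := .move 880 n426 (.cons 841 n7486 .nil)
noncomputable def n7488 : Strat := .move 837 n3162 (.cons 836 n3080 .nil)
noncomputable def n7489 : Strat := .move 880 n2801 (.cons 921 n7488 .nil)
noncomputable def n7490 : Strat := .move 756 n3068 (.cons 919 n7489 .nil)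
noncomputable def n7491 : Strat := .move 878 n7485 (.cons 837 n7435 (.cons 839 n7487 (.cons 841 n7490 .nil)))
noncomputable def n7492 : Strat := .move 839 n484 (.cons 961 n7476 .nil)
noncomputable def n7493 : Strat := .move 920 n2852 (.cons 757 n7492 .nil)
noncomputable def n7494 : Strat := .move 838 n7429 (.cons 841 n7434 (.cons 921 n7441 (.cons 755 n7452 (.cons 880 n7457 (.cons 756 n7465 (.cons 757 n7478 (.cons 919 n7483 (.cons 920 n7491 (.cons 878 n7493 .nil)))))))))
noncomputable def n7495 : Strat := .move 716 n1435 (.cons 756 n1039 .nil)
noncomputable def n7496 : Strat := .move 757 n863 (.cons 920 n7495 .nil)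
noncomputable def n7497 : Strat := .move 842 n514 (.cons 843 n7496 .nil)
noncomputable def n7498 : Strat := .move 920 n3061 (.cons 962 n2852 .nil)
noncomputable def n7499 : Strat := .move 921 n3062 (.cons 756 n7498 .nil)
noncomputable def n7500 : Strat := .move 842 n514 (.cons 843 n7499 .nil)
noncomputable def n7501 : Strat := .win 920 6 797
noncomputable def n7502 : Strat := .move 962 n3149 (.cons 1003 n7501 .nil)
noncomputable def n7503 : Strat := .move 921 n3062 (.cons 756 n7502 .nil)
noncomputable def n7504 : Strat := .move 842 n514 (.cons 843 n7503 .nil)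
noncomputable def n7505 : Strat := .move 921 n3061 (.cons 962 n7474 .nil)
noncomputable def n7506 : Strat := .move 920 n2852 (.cons 757 n7505 .nil)
noncomputable def n7507 : Strat := .move 757 n2060 (.cons 716 n7438 .nil)
noncomputable def n7508 : Strat := .move 756 n2801 (.cons 921 n7507 .nil)
noncomputable def n7509 : Strat := .move 841 n7497 (.cons 716 n7500 (.cons 842 n7496 (.cons 757 n7504 (.cons 756 n7506 (.cons 920 n7508 .nil)))))
noncomputable def n7510 : Strat := .move 962 n7501 (.cons 920 n3149 .nil)
noncomputable def n7511 : Strat := .move 921 n3062 (.cons 756 n7510 .nil)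
noncomputable def n7512 : Strat := .move 880 n7509 (.cons 757 n7511 (.cons 921 n3060 (.cons 756 n7506 (.cons 920 n7508 .nil))))
noncomputable def n7513 : Strat := .win 839 3 797
noncomputable def n7514 : Strat := .move 962 n4883 (.cons 921 n4882 .nil)
noncomputable def n7515 : Strat := .move 961 n7513 (.cons 839 n7514 .nil)
noncomputable def n7516 : Strat := .move 960 n4174 (.cons 919 n4175 .nil)
noncomputable def n7517 : Strat := .move 961 n7513 (.cons 839 n7516 .nil)
noncomputable def n7518 : Strat := .move 920 n7492 (.cons 839 n7476 (.cons 918 n7515 (.cons 921 n7517 .nil)))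
noncomputable def n7519 : Strat := .move 715 n2802 (.cons 839 n3070 .nil)
noncomputable def n7520 : Strat := .move 880 n2801 (.cons 921 n7519 .nil)
noncomputable def n7521 : Strat := .move 716 n3069 (.cons 757 n7520 .nil)
noncomputable def n7522 : Strat := .move 755 n3274 (.cons 714 n4780 .nil)
noncomputable def n7523 : Strat := .move 839 n888 (.cons 715 n7522 .nil)
noncomputable def n7524 : Strat := .move 880 n2801 (.cons 921 n7523 .nil)
noncomputable def n7525 : Strat := .move 715 n2802 (.cons 839 n7410 .nil)
noncomputable def n7526 : Strat := .move 880 n2801 (.cons 921 n7525 .nil)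
noncomputable def n7527 : Strat := .move 756 n7399 (.cons 755 n7521 (.cons 716 n7524 (.cons 757 n7526 .nil)))
noncomputable def n7528 : Strat := .move 838 n3058 (.cons 839 n7512 (.cons 675 n7493 (.cons 757 n7518 (.cons 920 n7527 .nil))))
noncomputable def n7529 : Strat := .win 837 4 836
noncomputable def n7530 : Strat := .win 876 5 835
noncomputable def n7531 : Strat := .move 877 n7529 (.cons 837 n7530 .nil)
noncomputable def n7532 : Strat := .move 839 n2158 (.cons 841 n7531 .nil)
noncomputable def n7533 : Strat := .move 837 n481 (.cons 836 n7458 .nil)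
noncomputable def n7534 : Strat := .move 839 n427 (.cons 877 n7533 .nil)
noncomputable def n7535 : Strat := .move 919 n3163 (.cons 918 n3093 .nil)
noncomputable def n7536 : Strat := .move 920 n484 (.cons 961 n7535 .nil)
noncomputable def n7537 : Strat := .move 839 n427 (.cons 877 n7536 .nil)
noncomputable def n7538 : Strat := .move 880 n7534 (.cons 839 n7416 (.cons 919 n7462 (.cons 837 n7537 .nil)))
noncomputable def n7539 : Strat := .move 878 n7532 (.cons 839 n7417 (.cons 841 n7538 (.cons 837 n7435 .nil)))
noncomputable def n7540 : Strat := .move 880 n426 (.cons 841 n7024 .nil)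
noncomputable def n7541 : Strat := .move 675 n7459 (.cons 837 n7024 (.cons 918 n7462 .nil))
noncomputable def n7542 : Strat := .move 880 n7541 (.cons 839 n7459 (.cons 837 n7024 (.cons 918 n7462 .nil)))
noncomputable def n7543 : Strat := .move 878 n7532 (.cons 839 n7460 (.cons 837 n7540 (.cons 841 n7542 .nil)))
noncomputable def n7544 : Strat := .move 838 n3058 (.cons 757 n7539 (.cons 839 n7424 (.cons 920 n7543 .nil)))
noncomputable def n7545 : Strat := .move 838 n863 (.cons 920 n7456 .nil)
noncomputable def n7546 : Strat := .move 838 n863 (.cons 920 n3059 .nil)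
noncomputable def n7547 : Strat := .move 757 n3647 (.cons 716 n7545 (.cons 839 n7546 .nil))
noncomputable def n7548 : Strat := .move 838 n863 (.cons 920 n7433 .nil)
noncomputable def n7549 : Strat := .move 757 n3647 (.cons 716 n7548 (.cons 839 n7546 .nil))
noncomputable def n7550 : Strat := .move 839 n427 (.cons 877 n3046 .nil)
noncomputable def n7551 : Strat := .move 878 n426 (.cons 841 n7550 .nil)
noncomputable def n7552 : Strat := .move 841 n384 (.cons 878 n7114 .nil)
noncomputable def n7553 : Strat := .move 839 n1891 (.cons 962 n3045 .nil)
noncomputable def n7554 : Strat := .move 838 n3062 (.cons 756 n7510 .nil)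
noncomputable def n7555 : Strat := .win 838 6 756
noncomputable def n7556 : Strat := .move 756 n7555 (.cons 838 n1260 .nil)
noncomputable def n7557 : Strat := .move 921 n7553 (.cons 839 n7554 (.cons 962 n7556 (.cons 756 n3150 .nil)))
noncomputable def n7558 : Strat := .move 878 n426 (.cons 841 n7416 .nil)
noncomputable def n7559 : Strat := .move 838 n7503 (.cons 921 n7446 (.cons 756 n7558 .nil))
noncomputable def n7560 : Strat := .move 880 n7551 (.cons 877 n7552 (.cons 878 n7557 (.cons 839 n7559 .nil)))
noncomputable def n7561 : Strat := .move 839 n7395 (.cons 842 n3046 .nil)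
noncomputable def n7562 : Strat := .move 877 n3159 (.cons 917 n7016 .nil)
noncomputable def n7563 : Strat := .move 918 n3158 (.cons 919 n7562 .nil)
noncomputable def n7564 : Strat := .move 878 n426 (.cons 841 n7563 .nil)
noncomputable def n7565 : Strat := .move 839 n3046 (.cons 962 n3325 .nil)
noncomputable def n7566 : Strat := .move 880 n7561 (.cons 839 n7564 (.cons 841 n7565 .nil))
noncomputable def n7567 : Strat := .move 839 n2790 (.cons 921 n3569 .nil)
noncomputable def n7568 : Strat := .move 838 n2801 (.cons 921 n7507 .nil)
noncomputable def n7569 : Strat := .move 715 n3070 (.cons 675 n2802 .nil)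
noncomputable def n7570 : Strat := .move 716 n3069 (.cons 757 n7569 .nil)
noncomputable def n7571 : Strat := .move 843 n7399 (.cons 757 n7525 (.cons 714 n7570 .nil))
noncomputable def n7572 : Strat := .move 838 n7571 (.cons 839 n7507 (.cons 757 n7525 (.cons 714 n7570 .nil)))
noncomputable def n7573 : Strat := .move 757 n860 (.cons 716 n370 .nil)
noncomputable def n7574 : Strat := .move 839 n2790 (.cons 921 n7573 .nil)
noncomputable def n7575 : Strat := .move 756 n7567 (.cons 839 n7568 (.cons 921 n7572 (.cons 838 n7574 .nil)))
noncomputable def n7576 : Strat := .move 837 n3587 (.cons 960 n3162 .nil)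
noncomputable def n7577 : Strat := .move 838 n4201 (.cons 756 n7576 .nil)
noncomputable def n7578 : Strat := .move 919 n3163 (.cons 918 n7577 .nil)
noncomputable def n7579 : Strat := .move 878 n426 (.cons 841 n7578 .nil)
noncomputable def n7580 : Strat := .move 880 n7551 (.cons 878 n7575 (.cons 921 n3157 (.cons 839 n7579 .nil)))
noncomputable def n7581 : Strat := .move 879 n7397 (.cons 839 n7425 (.cons 716 n7494 (.cons 878 n7528 (.cons 756 n7544 (.cons 880 n7547 (.cons 841 n7549 (.cons 757 n7560 (.cons 838 n7566 (.cons 920 n7580 .nil)))))))))
noncomputable def n7582 : Strat := .move 800 n3246 (.cons 841 n2796 (.cons 759 n1999 .nil))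
noncomputable def n7583 : Strat := .move 798 n7226 (.cons 800 n7581 (.cons 839 n7132 (.cons 841 n7331 (.cons 757 n7582 .nil))))
noncomputable def n7584 : Strat := .move 798 n2079 (.cons 796 n7132 (.cons 800 n7143 (.cons 755 n2867 (.cons 841 n7171 .nil))))
noncomputable def n7585 : Strat := .move 798 n7115 (.cons 841 n7322 (.cons 839 n7143 (.cons 796 n7581 .nil)))
noncomputable def n7586 : Strat := .move 759 n958 (.cons 760 n1295 .nil)
noncomputable def n7587 : Strat := .move 757 n260 (.cons 801 n3647 .nil)
noncomputable def n7588 : Strat := .move 756 n85 (.cons 755 n7587 .nil)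
noncomputable def n7589 : Strat := .move 841 n75 (.cons 842 n7588 .nil)
noncomputable def n7590 : Strat := .move 800 n3246 (.cons 842 n7586 (.cons 760 n7589 (.cons 841 n2798 .nil)))
noncomputable def n7591 : Strat := .move 842 n2834 (.cons 800 n514 .nil)
noncomputable def n7592 : Strat := .move 841 n74 (.cons 796 n7591 .nil)
noncomputable def n7593 : Strat := .move 798 n7307 (.cons 796 n7590 (.cons 841 n7332 (.cons 839 n7592 (.cons 800 n2051 .nil))))
noncomputable def n7594 : Strat := .move 798 n2867 (.cons 796 n5111 (.cons 843 n2075 (.cons 841 n5112 .nil)))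
noncomputable def n7595 : Strat := .move 800 n3246 (.cons 718 n1999 (.cons 841 n2896 .nil))
noncomputable def n7596 : Strat := .move 798 n7307 (.cons 841 n7386 (.cons 796 n7595 (.cons 842 n2051 (.cons 839 n7592 .nil))))
noncomputable def n7597 : Strat := .move 878 n3067 (.cons 839 n3436 .nil)
noncomputable def n7598 : Strat := .move 879 n7597 (.cons 880 n3811 (.cons 839 n6350 (.cons 878 n7159 .nil)))
noncomputable def n7599 : Strat := .move 756 n85 (.cons 755 n7598 .nil)
noncomputable def n7600 : Strat := .move 838 n82 (.cons 837 n7599 .nil)
noncomputable def n7601 : Strat := .move 841 n3899 (.cons 920 n557 (.cons 838 n7588 (.cons 839 n5849 (.cons 801 n7600 .nil))))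
noncomputable def n7602 : Strat := .move 800 n7225 (.cons 838 n7586 (.cons 760 n7601 (.cons 841 n7317 .nil)))
noncomputable def n7603 : Strat := .move 800 n83 (.cons 801 n7310 .nil)
noncomputable def n7604 : Strat := .move 838 n1086 (.cons 837 n7603 (.cons 800 n7230 .nil))
noncomputable def n7605 : Strat := .move 838 n1085 (.cons 800 n4600 .nil)
noncomputable def n7606 : Strat := .move 837 n126 (.cons 836 n7605 .nil)
noncomputable def n7607 : Strat := .move 796 n579 (.cons 795 n7606 .nil)
noncomputable def n7608 : Strat := .move 839 n7604 (.cons 754 n7607 (.cons 800 n7236 (.cons 837 n7239 (.cons 756 n7246 .nil))))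
noncomputable def n7609 : Strat := .move 798 n7309 (.cons 796 n7602 (.cons 841 n7608 (.cons 837 n2051 (.cons 839 n2079 .nil))))
noncomputable def n7610 : Strat := .move 800 n3246 (.cons 841 n2796 (.cons 760 n3900 .nil))
noncomputable def n7611 : Strat := .move 798 n7307 (.cons 841 n7361 (.cons 796 n7610 (.cons 800 n2075 (.cons 839 n2867 .nil))))
noncomputable def n7612 : Strat := .move 800 n3246 (.cons 760 n3900 (.cons 841 n2059 .nil))
noncomputable def n7613 : Strat := .move 801 n116 (.cons 802 n2054 .nil)
noncomputable def n7614 : Strat := .move 839 n857 (.cons 838 n7613 (.cons 801 n3975 .nil))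
noncomputable def n7615 : Strat := .move 801 n116 (.cons 802 n4848 .nil)
noncomputable def n7616 : Strat := .move 879 n863 (.cons 920 n669 .nil)
noncomputable def n7617 : Strat := .move 757 n860 (.cons 716 n7616 .nil)
noncomputable def n7618 : Strat := .move 838 n82 (.cons 837 n7617 .nil)
noncomputable def n7619 : Strat := .move 839 n857 (.cons 837 n981 (.cons 838 n7615 (.cons 801 n7618 .nil)))
noncomputable def n7620 : Strat := .move 838 n82 (.cons 837 n2851 .nil)
noncomputable def n7621 : Strat := .move 716 n4869 (.cons 757 n4870 .nil)
noncomputable def n7622 : Strat := .move 838 n82 (.cons 837 n7621 .nil)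
noncomputable def n7623 : Strat := .move 757 n860 (.cons 716 n7237 .nil)
noncomputable def n7624 : Strat := .move 757 n382 (.cons 920 n1087 .nil)
noncomputable def n7625 : Strat := .move 878 n427 (.cons 877 n3068 .nil)
noncomputable def n7626 : Strat := .move 879 n7624 (.cons 716 n486 (.cons 920 n7625 .nil))
noncomputable def n7627 : Strat := .move 880 n2790 (.cons 921 n7626 .nil)
noncomputable def n7628 : Strat := .move 838 n82 (.cons 837 n7627 .nil)
noncomputable def n7629 : Strat := .move 839 n7620 (.cons 880 n7622 (.cons 838 n7623 (.cons 715 n7628 .nil)))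
noncomputable def n7630 : Strat := .move 756 n85 (.cons 755 n7629 .nil)
noncomputable def n7631 : Strat := .move 800 n7317 (.cons 757 n7614 (.cons 715 n7619 (.cons 838 n2798 (.cons 756 n2796 (.cons 801 n7630 .nil)))))
noncomputable def n7632 : Strat := .move 798 n7307 (.cons 796 n7612 (.cons 800 n7115 (.cons 842 n7309 (.cons 841 n7631 (.cons 839 n7592 .nil)))))
noncomputable def n7633 : Strat := .move 800 n3246 (.cons 841 n2059 .nil)
noncomputable def n7634 : Strat := .move 839 n579 (.cons 795 n7606 .nil)
noncomputable def n7635 : Strat := .move 796 n77 (.cons 841 n7634 .nil)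
noncomputable def n7636 : Strat := .move 880 n4256 (.cons 757 n2790 .nil)
noncomputable def n7637 : Strat := .move 715 n2421 (.cons 674 n7636 .nil)
noncomputable def n7638 : Strat := .move 839 n579 (.cons 795 n7637 .nil)
noncomputable def n7639 : Strat := .move 756 n85 (.cons 755 n7638 .nil)
noncomputable def n7640 : Strat := .move 796 n126 (.cons 836 n7639 .nil)
noncomputable def n7641 : Strat := .move 837 n127 (.cons 838 n7640 .nil)
noncomputable def n7642 : Strat := .move 800 n7317 (.cons 838 n2798 (.cons 801 n7641 (.cons 757 n2794 (.cons 755 n2796 .nil))))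
noncomputable def n7643 : Strat := .move 800 n76 (.cons 842 n7586 (.cons 841 n2798 .nil))
noncomputable def n7644 : Strat := .move 798 n7307 (.cons 796 n7633 (.cons 800 n7115 (.cons 842 n7635 (.cons 841 n7642 (.cons 839 n7643 .nil)))))
noncomputable def n7645 : Strat := .move 841 n494 (.cons 796 n3273 .nil)
noncomputable def n7646 : Strat := .move 880 n383 (.cons 842 n4072 .nil)
noncomputable def n7647 : Strat := .move 879 n862 (.cons 878 n7646 .nil)
noncomputable def n7648 : Strat := .move 841 n494 (.cons 796 n7647 .nil)
noncomputable def n7649 : Strat := .move 921 n1891 (.cons 962 n4231 .nil)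
noncomputable def n7650 : Strat := .move 880 n481 (.cons 836 n7649 .nil)
noncomputable def n7651 : Strat := .move 837 n480 (.cons 800 n7650 .nil)
noncomputable def n7652 : Strat := .move 839 n7645 (.cons 837 n7648 (.cons 796 n7651 .nil))
noncomputable def n7653 : Strat := .move 796 n3291 (.cons 841 n892 .nil)
noncomputable def n7654 : Strat := .move 837 n480 (.cons 800 n7653 .nil)
noncomputable def n7655 : Strat := .move 796 n3291 (.cons 841 n4172 .nil)
noncomputable def n7656 : Strat := .move 756 n3068 (.cons 919 n3080 .nil)
noncomputable def n7657 : Strat := .move 836 n4990 (.cons 880 n7656 .nil)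
noncomputable def n7658 : Strat := .move 879 n2158 (.cons 841 n7657 .nil)
noncomputable def n7659 : Strat := .move 878 n1077 (.cons 877 n7658 .nil)
noncomputable def n7660 : Strat := .move 837 n480 (.cons 800 n7659 .nil)
noncomputable def n7661 : Strat := .move 842 n3932 (.cons 880 n3301 .nil)
noncomputable def n7662 : Strat := .move 879 n862 (.cons 878 n7661 .nil)
noncomputable def n7663 : Strat := .move 841 n494 (.cons 796 n7662 .nil)
noncomputable def n7664 : Strat := .move 796 n892 (.cons 795 n4095 .nil)
noncomputable def n7665 : Strat := .move 878 n1077 (.cons 877 n7664 .nil)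
noncomputable def n7666 : Strat := .move 837 n480 (.cons 800 n7665 .nil)
noncomputable def n7667 : Strat := .move 839 n7654 (.cons 800 n7655 (.cons 795 n7645 (.cons 796 n7660 (.cons 837 n7663 (.cons 841 n7666 .nil)))))
noncomputable def n7668 : Strat := .move 837 n480 (.cons 800 n5015 .nil)
noncomputable def n7669 : Strat := .move 878 n2158 (.cons 841 n1077 .nil)
noncomputable def n7670 : Strat := .move 879 n3062 (.cons 756 n7669 .nil)
noncomputable def n7671 : Strat := .move 921 n1891 (.cons 962 n7670 .nil)
noncomputable def n7672 : Strat := .move 880 n481 (.cons 836 n7671 .nil)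
noncomputable def n7673 : Strat := .move 837 n480 (.cons 800 n7672 .nil)
noncomputable def n7674 : Strat := .move 839 n7654 (.cons 800 n7655 (.cons 795 n7645 (.cons 841 n7668 (.cons 796 n7673 (.cons 837 n7648 .nil)))))
noncomputable def n7675 : Strat := .move 879 n2158 (.cons 841 n7458 .nil)
noncomputable def n7676 : Strat := .move 878 n1077 (.cons 877 n7675 .nil)
noncomputable def n7677 : Strat := .move 921 n1891 (.cons 962 n7676 .nil)
noncomputable def n7678 : Strat := .move 880 n481 (.cons 836 n7677 .nil)
noncomputable def n7679 : Strat := .move 837 n480 (.cons 800 n7678 .nil)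
noncomputable def n7680 : Strat := .move 839 n7654 (.cons 841 n7668 (.cons 800 n7655 (.cons 795 n7645 (.cons 837 n7663 (.cons 796 n7679 .nil)))))
noncomputable def n7681 : Strat := .move 880 n383 (.cons 842 n7467 .nil)
noncomputable def n7682 : Strat := .move 879 n862 (.cons 878 n7681 .nil)
noncomputable def n7683 : Strat := .move 841 n494 (.cons 796 n7682 .nil)
noncomputable def n7684 : Strat := .move 800 n232 (.cons 837 n7683 .nil)
noncomputable def n7685 : Strat := .move 836 n4990 (.cons 880 n4106 .nil)
noncomputable def n7686 : Strat := .move 837 n480 (.cons 800 n7685 .nil)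
noncomputable def n7687 : Strat := .move 841 n494 (.cons 796 n7686 .nil)
noncomputable def n7688 : Strat := .move 839 n7684 (.cons 879 n7687 (.cons 800 n7655 (.cons 837 n7648 (.cons 841 n7651 .nil))))
noncomputable def n7689 : Strat := .move 839 n7645 (.cons 796 n4115 (.cons 837 n7648 (.cons 841 n7666 .nil)))
noncomputable def n7690 : Strat := .move 839 n480 (.cons 800 n7653 .nil)
noncomputable def n7691 : Strat := .move 879 n2158 (.cons 841 n7656 .nil)
noncomputable def n7692 : Strat := .move 880 n481 (.cons 836 n7691 .nil)
noncomputable def n7693 : Strat := .move 878 n1077 (.cons 877 n7692 .nil)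
noncomputable def n7694 : Strat := .move 839 n480 (.cons 800 n7693 .nil)
noncomputable def n7695 : Strat := .move 756 n3080 (.cons 715 n3586 .nil)
noncomputable def n7696 : Strat := .move 919 n3587 (.cons 960 n7695 .nil)
noncomputable def n7697 : Strat := .win 796 3 755
noncomputable def n7698 : Strat := .move 756 n3080 (.cons 715 n7697 .nil)
noncomputable def n7699 : Strat := .move 919 n3587 (.cons 960 n7698 .nil)
noncomputable def n7700 : Strat := .move 880 n3162 (.cons 836 n426 .nil)
noncomputable def n7701 : Strat := .move 880 n3162 (.cons 836 n2801 .nil)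
noncomputable def n7702 : Strat := .win 796 6 755
noncomputable def n7703 : Strat := .move 755 n7702 (.cons 796 n3274 .nil)
noncomputable def n7704 : Strat := .move 796 n4108 (.cons 961 n3164 .nil)
noncomputable def n7705 : Strat := .win 1002 7 837
noncomputable def n7706 : Strat := .move 961 n7705 (.cons 1002 n4884 .nil)
noncomputable def n7707 : Strat := .move 920 n7703 (.cons 714 n7704 (.cons 796 n7706 .nil))
noncomputable def n7708 : Strat := .move 879 n7700 (.cons 841 n7701 (.cons 880 n7707 .nil))
noncomputable def n7709 : Strat := .move 756 n3080 (.cons 715 n7708 .nil)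
noncomputable def n7710 : Strat := .move 880 n426 (.cons 841 n3162 .nil)
noncomputable def n7711 : Strat := .move 880 n3163 (.cons 918 n426 .nil)
noncomputable def n7712 : Strat := .move 880 n3163 (.cons 918 n3162 .nil)
noncomputable def n7713 : Strat := .move 879 n7710 (.cons 836 n7711 (.cons 841 n7712 (.cons 880 n2531 .nil)))
noncomputable def n7714 : Strat := .move 918 n2562 (.cons 877 n2561 .nil)
noncomputable def n7715 : Strat := .move 755 n2550 (.cons 879 n7714 .nil)
noncomputable def n7716 : Strat := .move 920 n2551 (.cons 961 n7715 .nil)
noncomputable def n7717 : Strat := .move 755 n2553 (.cons 713 n7714 .nil)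
noncomputable def n7718 : Strat := .move 754 n2552 (.cons 795 n7717 .nil)
noncomputable def n7719 : Strat := .win 921 5 877
noncomputable def n7720 : Strat := .move 920 n7719 (.cons 921 n2551 .nil)
noncomputable def n7721 : Strat := .move 880 n4156 (.cons 879 n7720 .nil)
noncomputable def n7722 : Strat := .move 918 n2561 (.cons 959 n7721 .nil)
noncomputable def n7723 : Strat := .move 879 n3164 (.cons 755 n7710 .nil)
noncomputable def n7724 : Strat := .move 920 n2551 (.cons 961 n7723 .nil)
noncomputable def n7725 : Strat := .move 796 n7713 (.cons 880 n7716 (.cons 879 n7718 (.cons 755 n7722 (.cons 918 n7724 .nil))))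
noncomputable def n7726 : Strat := .move 919 n3587 (.cons 960 n7725 .nil)
noncomputable def n7727 : Strat := .move 878 n7696 (.cons 879 n7699 (.cons 919 n7709 (.cons 756 n7726 .nil)))
noncomputable def n7728 : Strat := .move 839 n480 (.cons 800 n7650 .nil)
noncomputable def n7729 : Strat := .move 837 n7690 (.cons 796 n7694 (.cons 839 n7727 (.cons 841 n7728 .nil)))
noncomputable def n7730 : Strat := .move 837 n480 (.cons 800 n892 .nil)
noncomputable def n7731 : Strat := .move 796 n3291 (.cons 841 n7730 .nil)
noncomputable def n7732 : Strat := .move 841 n494 (.cons 796 n5001 .nil)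
noncomputable def n7733 : Strat := .move 839 n7731 (.cons 796 n4115 (.cons 800 n7655 (.cons 841 n7651 (.cons 837 n7732 .nil))))
noncomputable def n7734 : Strat := .move 880 n481 (.cons 836 n7653 .nil)
noncomputable def n7735 : Strat := .move 837 n480 (.cons 800 n7734 .nil)
noncomputable def n7736 : Strat := .move 878 n2425 (.cons 919 n1077 .nil)
noncomputable def n7737 : Strat := .move 756 n888 (.cons 715 n7736 .nil)
noncomputable def n7738 : Strat := .move 796 n3291 (.cons 841 n7737 .nil)
noncomputable def n7739 : Strat := .move 921 n1891 (.cons 962 n7738 .nil)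
noncomputable def n7740 : Strat := .move 880 n481 (.cons 836 n7739 .nil)
noncomputable def n7741 : Strat := .move 837 n480 (.cons 800 n7740 .nil)
noncomputable def n7742 : Strat := .move 837 n7734 (.cons 796 n7685 (.cons 880 n7653 .nil))
noncomputable def n7743 : Strat := .move 843 n6083 (.cons 880 n1908 .nil)
noncomputable def n7744 : Strat := .move 842 n1074 (.cons 802 n7743 .nil)
noncomputable def n7745 : Strat := .move 801 n3300 (.cons 800 n7744 .nil)
noncomputable def n7746 : Strat := .move 841 n494 (.cons 796 n7745 .nil)
noncomputable def n7747 : Strat := .move 839 n7735 (.cons 836 n7654 (.cons 795 n7741 (.cons 796 n7686 (.cons 800 n7742 (.cons 837 n7746 .nil)))))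
noncomputable def n7748 : Strat := .move 880 n384 (.cons 878 n7503 .nil)
noncomputable def n7749 : Strat := .move 755 n4879 (.cons 796 n3274 .nil)
noncomputable def n7750 : Strat := .move 756 n3095 (.cons 878 n7749 .nil)
noncomputable def n7751 : Strat := .win 837 7 796
noncomputable def n7752 : Strat := .move 796 n7751 (.cons 837 n4169 .nil)
noncomputable def n7753 : Strat := .move 961 n4884 (.cons 921 n7752 .nil)
noncomputable def n7754 : Strat := .move 920 n7750 (.cons 756 n4903 (.cons 960 n7753 .nil))
noncomputable def n7755 : Strat := .move 759 n3200 (.cons 718 n7754 .nil)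
noncomputable def n7756 : Strat := .move 756 n3097 (.cons 880 n7749 .nil)
noncomputable def n7757 : Strat := .move 961 n4902 (.cons 919 n7752 .nil)
noncomputable def n7758 : Strat := .move 920 n7756 (.cons 756 n4903 (.cons 962 n7757 .nil))
noncomputable def n7759 : Strat := .move 759 n3200 (.cons 718 n7758 .nil)
noncomputable def n7760 : Strat := .move 716 n3070 (.cons 675 n3069 .nil)
noncomputable def n7761 : Strat := .move 715 n7760 (.cons 757 n7410 .nil)
noncomputable def n7762 : Strat := .move 756 n2801 (.cons 921 n7761 .nil)
noncomputable def n7763 : Strat := .move 880 n384 (.cons 878 n7762 .nil)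
noncomputable def n7764 : Strat := .move 715 n3071 (.cons 837 n7760 .nil)
noncomputable def n7765 : Strat := .move 756 n3068 (.cons 919 n7764 .nil)
noncomputable def n7766 : Strat := .move 878 n3436 (.cons 880 n7765 .nil)
noncomputable def n7767 : Strat := .move 920 n7505 (.cons 921 n7757 (.cons 960 n7753 .nil))
noncomputable def n7768 : Strat := .move 880 n384 (.cons 878 n7767 .nil)
noncomputable def n7769 : Strat := .move 800 n7748 (.cons 880 n7755 (.cons 878 n7759 (.cons 920 n7763 (.cons 921 n7766 (.cons 756 n7768 .nil)))))
noncomputable def n7770 : Strat := .move 842 n474 (.cons 843 n7767 .nil)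
noncomputable def n7771 : Strat := .move 880 n384 (.cons 878 n7770 .nil)
noncomputable def n7772 : Strat := .move 920 n3061 (.cons 962 n7474 .nil)
noncomputable def n7773 : Strat := .move 921 n3062 (.cons 756 n7772 .nil)
noncomputable def n7774 : Strat := .move 880 n384 (.cons 878 n7773 .nil)
noncomputable def n7775 : Strat := .move 880 n384 (.cons 878 n7511 .nil)
noncomputable def n7776 : Strat := .move 715 n2805 (.cons 673 n7760 .nil)
noncomputable def n7777 : Strat := .move 714 n6848 (.cons 755 n7776 .nil)
noncomputable def n7778 : Strat := .move 756 n2801 (.cons 921 n7777 .nil)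
noncomputable def n7779 : Strat := .move 880 n384 (.cons 878 n7778 .nil)
noncomputable def n7780 : Strat := .move 960 n7414 (.cons 920 n7413 .nil)
noncomputable def n7781 : Strat := .move 919 n4201 (.cons 756 n7780 .nil)
noncomputable def n7782 : Strat := .move 878 n3436 (.cons 880 n7781 .nil)
noncomputable def n7783 : Strat := .move 920 n4879 (.cons 796 n3095 .nil)
noncomputable def n7784 : Strat := .move 755 n3274 (.cons 714 n7783 .nil)
noncomputable def n7785 : Strat := .move 878 n3068 (.cons 919 n7764 .nil)
noncomputable def n7786 : Strat := .move 920 n4879 (.cons 796 n4903 .nil)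
noncomputable def n7787 : Strat := .move 755 n3274 (.cons 714 n7786 .nil)
noncomputable def n7788 : Strat := .move 715 n7760 (.cons 757 n6825 .nil)
noncomputable def n7789 : Strat := .move 796 n2821 (.cons 920 n7788 .nil)
noncomputable def n7790 : Strat := .move 755 n3274 (.cons 714 n7789 .nil)
noncomputable def n7791 : Strat := .move 756 n7784 (.cons 755 n7785 (.cons 878 n7787 (.cons 919 n7790 .nil)))
noncomputable def n7792 : Strat := .move 921 n3062 (.cons 756 n3061 .nil)
noncomputable def n7793 : Strat := .move 961 n7751 (.cons 837 n4902 .nil)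
noncomputable def n7794 : Strat := .move 796 n4169 (.cons 755 n7793 .nil)
noncomputable def n7795 : Strat := .move 880 n7792 (.cons 921 n7794 .nil)
noncomputable def n7796 : Strat := .move 756 n3096 (.cons 880 n7749 .nil)
noncomputable def n7797 : Strat := .move 921 n3061 (.cons 962 n7796 .nil)
noncomputable def n7798 : Strat := .move 920 n7795 (.cons 837 n7797 (.cons 880 n7794 (.cons 796 n7476 .nil)))
noncomputable def n7799 : Strat := .move 841 n7769 (.cons 756 n7771 (.cons 837 n7774 (.cons 919 n7775 (.cons 962 n7779 (.cons 921 n7782 (.cons 880 n7791 (.cons 878 n7798 .nil)))))))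
noncomputable def n7800 : Strat := .move 757 n2060 (.cons 716 n7784 .nil)
noncomputable def n7801 : Strat := .move 716 n3069 (.cons 757 n3070 .nil)
noncomputable def n7802 : Strat := .move 715 n3071 (.cons 837 n7801 .nil)
noncomputable def n7803 : Strat := .move 878 n3068 (.cons 919 n7802 .nil)
noncomputable def n7804 : Strat := .move 716 n3069 (.cons 757 n4903 .nil)
noncomputable def n7805 : Strat := .move 920 n4879 (.cons 796 n7804 .nil)
noncomputable def n7806 : Strat := .move 755 n3274 (.cons 714 n7805 .nil)
noncomputable def n7807 : Strat := .move 919 n3094 (.cons 878 n3093 .nil)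
noncomputable def n7808 : Strat := .move 920 n4879 (.cons 796 n7807 .nil)
noncomputable def n7809 : Strat := .move 755 n3274 (.cons 714 n7808 .nil)
noncomputable def n7810 : Strat := .move 756 n7800 (.cons 755 n7803 (.cons 878 n7806 (.cons 716 n7809 (.cons 919 n7790 .nil))))
noncomputable def n7811 : Strat := .move 960 n4174 (.cons 919 n7761 .nil)
noncomputable def n7812 : Strat := .move 920 n3061 (.cons 962 n7811 .nil)
noncomputable def n7813 : Strat := .move 921 n3096 (.cons 880 n7812 .nil)
noncomputable def n7814 : Strat := .move 837 n3080 (.cons 715 n3162 .nil)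
noncomputable def n7815 : Strat := .move 878 n426 (.cons 841 n7814 .nil)
noncomputable def n7816 : Strat := .move 880 n2801 (.cons 921 n7815 .nil)
noncomputable def n7817 : Strat := .move 756 n7405 (.cons 878 n7813 (.cons 880 n7803 (.cons 919 n7816 .nil)))
noncomputable def n7818 : Strat := .move 920 n4879 (.cons 796 n3093 .nil)
noncomputable def n7819 : Strat := .move 919 n3094 (.cons 878 n7818 .nil)
noncomputable def n7820 : Strat := .move 715 n3070 (.cons 675 n7819 .nil)
noncomputable def n7821 : Strat := .move 716 n3069 (.cons 757 n7820 .nil)
noncomputable def n7822 : Strat := .move 755 n3274 (.cons 714 n7821 .nil)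
noncomputable def n7823 : Strat := .move 920 n4879 (.cons 796 n3097 .nil)
noncomputable def n7824 : Strat := .move 715 n3070 (.cons 675 n7823 .nil)
noncomputable def n7825 : Strat := .move 716 n3069 (.cons 757 n7824 .nil)
noncomputable def n7826 : Strat := .move 755 n3274 (.cons 714 n7825 .nil)
noncomputable def n7827 : Strat := .move 756 n7427 (.cons 921 n7822 (.cons 919 n7826 .nil))
noncomputable def n7828 : Strat := .move 880 n2801 (.cons 921 n7777 .nil)
noncomputable def n7829 : Strat := .move 800 n7405 (.cons 878 n7828 (.cons 921 n7785 .nil))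
noncomputable def n7830 : Strat := .move 714 n6848 (.cons 755 n2805 .nil)
noncomputable def n7831 : Strat := .move 715 n3071 (.cons 837 n7830 .nil)
noncomputable def n7832 : Strat := .move 878 n3068 (.cons 919 n7831 .nil)
noncomputable def n7833 : Strat := .move 756 n7829 (.cons 878 n7828 (.cons 714 n7405 (.cons 880 n7832 .nil)))
noncomputable def n7834 : Strat := .move 880 n426 (.cons 841 n3163 .nil)
noncomputable def n7835 : Strat := .move 878 n4201 (.cons 756 n7834 .nil)
noncomputable def n7836 : Strat := .move 919 n3093 (.cons 960 n7835 .nil)
noncomputable def n7837 : Strat := .move 961 n7751 (.cons 837 n7514 .nil)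
noncomputable def n7838 : Strat := .move 796 n4169 (.cons 755 n7837 .nil)
noncomputable def n7839 : Strat := .move 920 n7836 (.cons 918 n7838 .nil)
noncomputable def n7840 : Strat := .move 796 n4169 (.cons 755 n4108 .nil)
noncomputable def n7841 : Strat := .move 796 n4169 (.cons 755 n7476 .nil)
noncomputable def n7842 : Strat := .move 837 n7840 (.cons 961 n7841 (.cons 796 n7476 .nil))
noncomputable def n7843 : Strat := .move 756 n3096 (.cons 880 n7811 .nil)
noncomputable def n7844 : Strat := .move 921 n3061 (.cons 962 n7843 .nil)
noncomputable def n7845 : Strat := .move 961 n7751 (.cons 837 n7516 .nil)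
noncomputable def n7846 : Strat := .move 796 n4169 (.cons 755 n7845 .nil)
noncomputable def n7847 : Strat := .move 880 n3062 (.cons 756 n3348 .nil)
noncomputable def n7848 : Strat := .move 919 n3093 (.cons 960 n7847 .nil)
noncomputable def n7849 : Strat := .move 921 n3061 (.cons 962 n7848 .nil)
noncomputable def n7850 : Strat := .move 920 n7842 (.cons 796 n7844 (.cons 919 n7838 (.cons 921 n7846 (.cons 755 n7849 .nil))))
noncomputable def n7851 : Strat := .win 875 2 875
noncomputable def n7852 : Strat := .win 877 2 876
noncomputable def n7853 : Strat := .move 876 n7851 (.cons 875 n7852 .nil)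
noncomputable def n7854 : Strat := .win 957 4 916
noncomputable def n7855 : Strat := .win 959 4 917
noncomputable def n7856 : Strat := .move 958 n7854 (.cons 957 n7855 .nil)
noncomputable def n7857 : Strat := .move 917 n7853 (.cons 877 n7856 .nil)
noncomputable def n7858 : Strat := .move 918 n7287 (.cons 880 n7857 .nil)
noncomputable def n7859 : Strat := .move 921 n3061 (.cons 962 n7858 .nil)
noncomputable def n7860 : Strat := .move 919 n3093 (.cons 960 n7859 .nil)
noncomputable def n7861 : Strat := .move 920 n7860 (.cons 959 n7838 (.cons 921 n7846 .nil))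
noncomputable def n7862 : Strat := .move 837 n3080 (.cons 715 n7700 .nil)
noncomputable def n7863 : Strat := .move 878 n3068 (.cons 919 n7862 .nil)
noncomputable def n7864 : Strat := .move 757 n2060 (.cons 716 n7863 .nil)
noncomputable def n7865 : Strat := .move 796 n2821 (.cons 920 n6825 .nil)
noncomputable def n7866 : Strat := .move 715 n3070 (.cons 675 n7865 .nil)
noncomputable def n7867 : Strat := .move 716 n3069 (.cons 757 n7866 .nil)
noncomputable def n7868 : Strat := .move 755 n3274 (.cons 714 n7867 .nil)
noncomputable def n7869 : Strat := .move 837 n3080 (.cons 715 n7710 .nil)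
noncomputable def n7870 : Strat := .move 878 n3068 (.cons 919 n7869 .nil)
noncomputable def n7871 : Strat := .move 756 n7864 (.cons 878 n7868 (.cons 716 n7870 (.cons 837 n7822 (.cons 715 n7809 .nil))))
noncomputable def n7872 : Strat := .move 878 n426 (.cons 841 n7488 .nil)
noncomputable def n7873 : Strat := .move 880 n2801 (.cons 921 n7872 .nil)
noncomputable def n7874 : Strat := .move 796 n2821 (.cons 920 n7873 .nil)
noncomputable def n7875 : Strat := .move 755 n3274 (.cons 714 n7874 .nil)
noncomputable def n7876 : Strat := .move 921 n3096 (.cons 880 n3061 .nil)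
noncomputable def n7877 : Strat := .move 920 n4879 (.cons 796 n7876 .nil)
noncomputable def n7878 : Strat := .move 755 n3274 (.cons 714 n7877 .nil)
noncomputable def n7879 : Strat := .move 756 n7875 (.cons 755 n7816 (.cons 880 n7790 (.cons 837 n7826 (.cons 715 n7878 .nil))))
noncomputable def n7880 : Strat := .move 756 n3068 (.cons 919 n7802 .nil)
noncomputable def n7881 : Strat := .move 880 n426 (.cons 841 n7511 .nil)
noncomputable def n7882 : Strat := .move 919 n3163 (.cons 918 n7780 .nil)
noncomputable def n7883 : Strat := .move 880 n426 (.cons 841 n7882 .nil)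
noncomputable def n7884 : Strat := .move 878 n7409 (.cons 880 n7880 (.cons 919 n7881 (.cons 756 n7883 .nil)))
noncomputable def n7885 : Strat := .move 879 n7799 (.cons 880 n7810 (.cons 796 n7817 (.cons 837 n7827 (.cons 920 n7833 (.cons 715 n7839 (.cons 878 n7850 (.cons 756 n7861 (.cons 921 n7871 (.cons 919 n7879 (.cons 755 n7884 .nil))))))))))
noncomputable def n7886 : Strat := .move 839 n1077 (.cons 877 n7664 .nil)
noncomputable def n7887 : Strat := .win 839 2 795
noncomputable def n7888 : Strat := .move 795 n7887 (.cons 839 n3371 .nil)
noncomputable def n7889 : Strat := .move 796 n3169 (.cons 756 n7888 .nil)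
noncomputable def n7890 : Strat := .move 919 n3587 (.cons 960 n7889 .nil)
noncomputable def n7891 : Strat := .move 756 n3609 (.cons 879 n3080 .nil)
noncomputable def n7892 : Strat := .move 921 n1891 (.cons 962 n7891 .nil)
noncomputable def n7893 : Strat := .move 880 n481 (.cons 836 n7892 .nil)
noncomputable def n7894 : Strat := .move 839 n1077 (.cons 877 n7893 .nil)
noncomputable def n7895 : Strat := .move 918 n4156 (.cons 879 n2561 .nil)
noncomputable def n7896 : Strat := .move 919 n3587 (.cons 960 n7895 .nil)
noncomputable def n7897 : Strat := .move 880 n481 (.cons 836 n7896 .nil)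
noncomputable def n7898 : Strat := .move 796 n892 (.cons 795 n7897 .nil)
noncomputable def n7899 : Strat := .move 839 n1077 (.cons 877 n7898 .nil)
noncomputable def n7900 : Strat := .move 878 n7696 (.cons 879 n7886 (.cons 715 n7890 (.cons 919 n7894 (.cons 756 n7899 .nil))))
noncomputable def n7901 : Strat := .move 839 n480 (.cons 800 n5015 .nil)
noncomputable def n7902 : Strat := .move 796 n892 (.cons 795 n4600 .nil)
noncomputable def n7903 : Strat := .move 839 n480 (.cons 800 n7902 .nil)
noncomputable def n7904 : Strat := .move 919 n3587 (.cons 960 n3586 .nil)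
noncomputable def n7905 : Strat := .move 878 n3080 (.cons 715 n7904 .nil)
noncomputable def n7906 : Strat := .move 674 n6867 (.cons 796 n3538 .nil)
noncomputable def n7907 : Strat := .move 715 n3474 (.cons 878 n7906 .nil)
noncomputable def n7908 : Strat := .move 796 n2821 (.cons 920 n2421 .nil)
noncomputable def n7909 : Strat := .move 755 n3274 (.cons 714 n7908 .nil)
noncomputable def n7910 : Strat := .move 879 n3069 (.cons 757 n7909 .nil)
noncomputable def n7911 : Strat := .move 716 n3070 (.cons 675 n7910 .nil)
noncomputable def n7912 : Strat := .move 879 n6848 (.cons 755 n7801 .nil)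
noncomputable def n7913 : Strat := .move 714 n2805 (.cons 673 n7912 .nil)
noncomputable def n7914 : Strat := .move 675 n3102 (.cons 716 n3101 .nil)
noncomputable def n7915 : Strat := .move 674 n6867 (.cons 796 n7914 .nil)
noncomputable def n7916 : Strat := .move 715 n7906 (.cons 673 n7911 (.cons 674 n7913 (.cons 714 n7915 .nil)))
noncomputable def n7917 : Strat := .move 880 n2801 (.cons 921 n3162 .nil)
noncomputable def n7918 : Strat := .move 878 n3068 (.cons 919 n7917 .nil)
noncomputable def n7919 : Strat := .move 878 n3068 (.cons 919 n7707 .nil)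
noncomputable def n7920 : Strat := .move 755 n3274 (.cons 714 n7823 .nil)
noncomputable def n7921 : Strat := .move 920 n3093 (.cons 960 n7749 .nil)
noncomputable def n7922 : Strat := .move 919 n3094 (.cons 878 n7921 .nil)
noncomputable def n7923 : Strat := .move 879 n7918 (.cons 880 n7919 (.cons 878 n7920 (.cons 921 n7922 .nil)))
noncomputable def n7924 : Strat := .move 756 n7905 (.cons 879 n7907 (.cons 878 n7916 (.cons 715 n7923 .nil)))
noncomputable def n7925 : Strat := .move 837 n7728 (.cons 800 n7900 (.cons 756 n7901 (.cons 880 n7903 (.cons 839 n7924 .nil))))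
noncomputable def n7926 : Strat := .move 841 n3067 (.cons 839 n3436 .nil)
noncomputable def n7927 : Strat := .move 878 n7487 (.cons 921 n7926 (.cons 841 n7781 .nil))
noncomputable def n7928 : Strat := .move 839 n2158 (.cons 841 n1077 .nil)
noncomputable def n7929 : Strat := .move 837 n3080 (.cons 715 n7928 .nil)
noncomputable def n7930 : Strat := .move 878 n3068 (.cons 919 n7929 .nil)
noncomputable def n7931 : Strat := .move 715 n3070 (.cons 675 n6825 .nil)
noncomputable def n7932 : Strat := .move 716 n3069 (.cons 757 n7931 .nil)
noncomputable def n7933 : Strat := .move 796 n2821 (.cons 920 n7932 .nil)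
noncomputable def n7934 : Strat := .move 755 n3274 (.cons 714 n7933 .nil)
noncomputable def n7935 : Strat := .move 878 n3068 (.cons 919 n7532 .nil)
noncomputable def n7936 : Strat := .move 756 n7930 (.cons 877 n7832 (.cons 878 n7934 (.cons 715 n7935 (.cons 837 n7809 .nil))))
noncomputable def n7937 : Strat := .move 837 n4108 (.cons 961 n892 .nil)
noncomputable def n7938 : Strat := .move 839 n3291 (.cons 841 n7937 .nil)
noncomputable def n7939 : Strat := .move 796 n4169 (.cons 755 n7938 .nil)
noncomputable def n7940 : Strat := .move 755 n3274 (.cons 714 n4879 .nil)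
noncomputable def n7941 : Strat := .move 756 n3096 (.cons 880 n7940 .nil)
noncomputable def n7942 : Strat := .move 921 n3061 (.cons 962 n7941 .nil)
noncomputable def n7943 : Strat := .move 919 n3093 (.cons 960 n3348 .nil)
noncomputable def n7944 : Strat := .move 880 n3062 (.cons 756 n7943 .nil)
noncomputable def n7945 : Strat := .move 921 n3061 (.cons 962 n7944 .nil)
noncomputable def n7946 : Strat := .move 920 n7939 (.cons 837 n7942 (.cons 796 n7844 (.cons 755 n7945 .nil)))
noncomputable def n7947 : Strat := .move 878 n2158 (.cons 841 n7531 .nil)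
noncomputable def n7948 : Strat := .move 921 n1891 (.cons 962 n7472 .nil)
noncomputable def n7949 : Strat := .win 921 3 798
noncomputable def n7950 : Strat := .move 755 n2530 (.cons 714 n2821 .nil)
noncomputable def n7951 : Strat := .move 796 n892 (.cons 795 n7950 .nil)
noncomputable def n7952 : Strat := .move 837 n481 (.cons 836 n7951 .nil)
noncomputable def n7953 : Strat := .move 962 n7949 (.cons 921 n7952 .nil)
noncomputable def n7954 : Strat := .win 1001 3 837
noncomputable def n7955 : Strat := .move 960 n7954 (.cons 1001 n7414 .nil)
noncomputable def n7956 : Strat := .move 919 n3163 (.cons 918 n7955 .nil)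
noncomputable def n7957 : Strat := .move 878 n427 (.cons 877 n7956 .nil)
noncomputable def n7958 : Strat := .move 921 n1891 (.cons 962 n7957 .nil)
noncomputable def n7959 : Strat := .move 880 n7948 (.cons 918 n7953 (.cons 921 n7472 (.cons 837 n7958 .nil)))
noncomputable def n7960 : Strat := .move 839 n4874 (.cons 878 n7655 (.cons 796 n7947 (.cons 841 n7959 .nil)))
noncomputable def n7961 : Strat := .move 756 n7405 (.cons 878 n7878 (.cons 880 n7809 .nil))
noncomputable def n7962 : Strat := .move 837 n3080 (.cons 715 n1077 .nil)
noncomputable def n7963 : Strat := .move 839 n2158 (.cons 841 n7962 .nil)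
noncomputable def n7964 : Strat := .move 756 n3068 (.cons 919 n7963 .nil)
noncomputable def n7965 : Strat := .move 880 n2801 (.cons 921 n7814 .nil)
noncomputable def n7966 : Strat := .move 756 n3068 (.cons 919 n7965 .nil)
noncomputable def n7967 : Strat := .move 878 n7487 (.cons 921 n7926 (.cons 880 n7964 (.cons 841 n7966 .nil)))
noncomputable def n7968 : Strat := .move 839 n4874 (.cons 796 n2159 (.cons 841 n7466 .nil))
noncomputable def n7969 : Strat := .win 875 5 834
noncomputable def n7970 : Strat := .win 916 4 875
noncomputable def n7971 : Strat := .win 918 4 876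
noncomputable def n7972 : Strat := .move 917 n7970 (.cons 916 n7971 .nil)
noncomputable def n7973 : Strat := .move 876 n7969 (.cons 875 n7972 .nil)
noncomputable def n7974 : Strat := .move 877 n7048 (.cons 839 n7973 .nil)
noncomputable def n7975 : Strat := .move 837 n3162 (.cons 836 n7974 .nil)
noncomputable def n7976 : Strat := .move 878 n426 (.cons 841 n7975 .nil)
noncomputable def n7977 : Strat := .move 880 n7968 (.cons 839 n7511 (.cons 921 n7976 .nil))
noncomputable def n7978 : Strat := .move 837 n3080 (.cons 715 n7917 .nil)
noncomputable def n7979 : Strat := .move 878 n3068 (.cons 919 n7978 .nil)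
noncomputable def n7980 : Strat := .move 715 n3071 (.cons 837 n2803 .nil)
noncomputable def n7981 : Strat := .move 878 n3068 (.cons 919 n7980 .nil)
noncomputable def n7982 : Strat := .move 715 n2802 (.cons 839 n7830 .nil)
noncomputable def n7983 : Strat := .move 880 n2801 (.cons 921 n7982 .nil)
noncomputable def n7984 : Strat := .move 839 n892 (.cons 795 n1077 .nil)
noncomputable def n7985 : Strat := .move 796 n2430 (.cons 920 n7984 .nil)
noncomputable def n7986 : Strat := .move 755 n3274 (.cons 714 n7985 .nil)
noncomputable def n7987 : Strat := .move 837 n3080 (.cons 715 n7986 .nil)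
noncomputable def n7988 : Strat := .move 878 n3068 (.cons 919 n7987 .nil)
noncomputable def n7989 : Strat := .move 796 n2531 (.cons 714 n7984 .nil)
noncomputable def n7990 : Strat := .move 837 n3162 (.cons 836 n7989 .nil)
noncomputable def n7991 : Strat := .move 880 n2801 (.cons 921 n7990 .nil)
noncomputable def n7992 : Strat := .move 878 n3068 (.cons 919 n7991 .nil)
noncomputable def n7993 : Strat := .move 756 n7979 (.cons 836 n7981 (.cons 878 n7983 (.cons 880 n7988 (.cons 715 n7992 .nil))))
noncomputable def n7994 : Strat := .move 879 n7927 (.cons 880 n7936 (.cons 878 n7946 (.cons 756 n7960 (.cons 839 n7961 (.cons 920 n7967 (.cons 919 n7977 (.cons 841 n7993 .nil)))))))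
noncomputable def n7995 : Strat := .move 837 n480 (.cons 800 n7902 .nil)
noncomputable def n7996 : Strat := .move 843 n4137 (.cons 803 n1364 .nil)
noncomputable def n7997 : Strat := .move 802 n4136 (.cons 801 n7996 .nil)
noncomputable def n7998 : Strat := .move 884 n1363 (.cons 883 n7997 .nil)
noncomputable def n7999 : Strat := .win 886 0 841
noncomputable def n8000 : Strat := .win 884 0 840
noncomputable def n8001 : Strat := .move 885 n7999 (.cons 886 n8000 .nil)
noncomputable def n8002 : Strat := .move 844 n1367 (.cons 800 n8001 .nil)
noncomputable def n8003 : Strat := .move 843 n1908 (.cons 883 n8002 (.cons 885 n1369 .nil))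
noncomputable def n8004 : Strat := .move 842 n3301 (.cons 802 n4135 (.cons 800 n7998 (.cons 801 n8003 .nil)))
noncomputable def n8005 : Strat := .move 879 n862 (.cons 878 n8004 .nil)
noncomputable def n8006 : Strat := .move 841 n494 (.cons 796 n8005 .nil)
noncomputable def n8007 : Strat := .move 839 n7654 (.cons 796 n4115 (.cons 841 n7995 (.cons 800 n7655 (.cons 837 n8006 .nil))))
noncomputable def n8008 : Strat := .move 878 n3068 (.cons 919 n7926 .nil)
noncomputable def n8009 : Strat := .move 839 n888 (.cons 715 n4167 .nil)
noncomputable def n8010 : Strat := .move 880 n2801 (.cons 921 n8009 .nil)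
noncomputable def n8011 : Strat := .move 879 n7427 (.cons 921 n8008 (.cons 880 n7809 (.cons 878 n8010 .nil)))
noncomputable def n8012 : Strat := .move 920 n3061 (.cons 962 n7807 .nil)
noncomputable def n8013 : Strat := .move 921 n3096 (.cons 880 n8012 .nil)
noncomputable def n8014 : Strat := .move 920 n3061 (.cons 962 n7940 .nil)
noncomputable def n8015 : Strat := .move 921 n3096 (.cons 880 n8014 .nil)
noncomputable def n8016 : Strat := .move 879 n7401 (.cons 921 n8008 (.cons 841 n8013 (.cons 878 n8015 (.cons 880 n7809 .nil))))
noncomputable def n8017 : Strat := .move 879 n7427 (.cons 921 n7822 (.cons 919 n7826 .nil))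
noncomputable def n8018 : Strat := .move 839 n888 (.cons 715 n427 .nil)
noncomputable def n8019 : Strat := .move 878 n3068 (.cons 919 n8018 .nil)
noncomputable def n8020 : Strat := .move 880 n2801 (.cons 921 n8019 .nil)
noncomputable def n8021 : Strat := .move 879 n8020 (.cons 877 n7526 (.cons 880 n7809 .nil))
noncomputable def n8022 : Strat := .move 879 n862 (.cons 878 n7801 .nil)
noncomputable def n8023 : Strat := .move 800 n1941 (.cons 801 n8022 .nil)
noncomputable def n8024 : Strat := .move 841 n494 (.cons 796 n8023 .nil)
noncomputable def n8025 : Strat := .move 839 n552 (.cons 880 n8024 .nil)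
noncomputable def n8026 : Strat := .move 673 n3106 (.cons 714 n7405 .nil)
noncomputable def n8027 : Strat := .move 879 n3069 (.cons 757 n8026 .nil)
noncomputable def n8028 : Strat := .move 716 n3070 (.cons 675 n8027 .nil)
noncomputable def n8029 : Strat := .move 800 n1941 (.cons 801 n3108 .nil)
noncomputable def n8030 : Strat := .move 841 n494 (.cons 796 n8029 .nil)
noncomputable def n8031 : Strat := .move 839 n552 (.cons 880 n8030 .nil)
noncomputable def n8032 : Strat := .move 880 n2802 (.cons 839 n2801 .nil)
noncomputable def n8033 : Strat := .move 879 n3069 (.cons 757 n8032 .nil)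
noncomputable def n8034 : Strat := .move 716 n3070 (.cons 675 n8033 .nil)
noncomputable def n8035 : Strat := .move 879 n2801 (.cons 921 n7426 .nil)
noncomputable def n8036 : Strat := .move 880 n2802 (.cons 839 n8035 .nil)
noncomputable def n8037 : Strat := .move 674 n3101 (.cons 634 n3538 .nil)
noncomputable def n8038 : Strat := .move 675 n3102 (.cons 716 n8037 .nil)
noncomputable def n8039 : Strat := .move 715 n8025 (.cons 839 n8028 (.cons 879 n8031 (.cons 841 n8034 (.cons 716 n8036 (.cons 880 n8038 .nil)))))
noncomputable def n8040 : Strat := .move 715 n2802 (.cons 839 n7760 .nil)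
noncomputable def n8041 : Strat := .move 880 n2801 (.cons 921 n8040 .nil)
noncomputable def n8042 : Strat := .move 715 n2805 (.cons 673 n7801 .nil)
noncomputable def n8043 : Strat := .move 714 n6848 (.cons 755 n8042 .nil)
noncomputable def n8044 : Strat := .move 839 n2158 (.cons 841 n8043 .nil)
noncomputable def n8045 : Strat := .move 878 n3068 (.cons 919 n8044 .nil)
noncomputable def n8046 : Strat := .move 879 n7427 (.cons 878 n8041 (.cons 921 n8008 (.cons 880 n8045 .nil)))
noncomputable def n8047 : Strat := .move 715 n552 (.cons 880 n7801 .nil)
noncomputable def n8048 : Strat := .move 839 n3291 (.cons 841 n8047 .nil)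
noncomputable def n8049 : Strat := .move 796 n2821 (.cons 920 n8048 .nil)
noncomputable def n8050 : Strat := .move 755 n3274 (.cons 714 n8049 .nil)
noncomputable def n8051 : Strat := .move 879 n8008 (.cons 878 n8050 (.cons 839 n7822 .nil))
noncomputable def n8052 : Strat := .move 879 n8010 (.cons 880 n7806 (.cons 921 n8050 (.cons 796 n8041 .nil)))
noncomputable def n8053 : Strat := .move 839 n888 (.cons 715 n4874 .nil)
noncomputable def n8054 : Strat := .move 880 n2801 (.cons 921 n8053 .nil)
noncomputable def n8055 : Strat := .move 839 n494 (.cons 796 n383 .nil)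
noncomputable def n8056 : Strat := .move 841 n384 (.cons 878 n8055 .nil)
noncomputable def n8057 : Strat := .move 880 n2801 (.cons 921 n8056 .nil)
noncomputable def n8058 : Strat := .move 839 n888 (.cons 715 n2302 .nil)
noncomputable def n8059 : Strat := .move 880 n2801 (.cons 921 n8058 .nil)
noncomputable def n8060 : Strat := .move 879 n8054 (.cons 839 n7826 (.cons 921 n8050 (.cons 715 n8057 (.cons 796 n8059 (.cons 880 n7777 .nil)))))
noncomputable def n8061 : Strat := .move 674 n3105 (.cons 632 n3103 .nil)
noncomputable def n8062 : Strat := .move 673 n3106 (.cons 714 n8061 .nil)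
noncomputable def n8063 : Strat := .move 715 n552 (.cons 880 n8062 .nil)
noncomputable def n8064 : Strat := .move 842 n3301 (.cons 802 n4135 (.cons 801 n8003 (.cons 800 n4139 .nil)))
noncomputable def n8065 : Strat := .move 841 n494 (.cons 796 n8064 .nil)
noncomputable def n8066 : Strat := .move 839 n8063 (.cons 715 n7746 (.cons 880 n8065 .nil))
noncomputable def n8067 : Strat := .move 842 n1074 (.cons 802 n474 .nil)
noncomputable def n8068 : Strat := .move 801 n3300 (.cons 800 n8067 .nil)
noncomputable def n8069 : Strat := .move 841 n494 (.cons 796 n8068 .nil)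
noncomputable def n8070 : Strat := .move 921 n1891 (.cons 962 n8069 .nil)
noncomputable def n8071 : Strat := .move 839 n888 (.cons 715 n8070 .nil)
noncomputable def n8072 : Strat := .move 879 n2801 (.cons 921 n8019 .nil)
noncomputable def n8073 : Strat := .move 839 n888 (.cons 715 n4236 .nil)
noncomputable def n8074 : Strat := .move 880 n8035 (.cons 879 n8071 (.cons 841 n8072 (.cons 921 n8073 .nil)))
noncomputable def n8075 : Strat := .move 879 n3069 (.cons 757 n6848 .nil)
noncomputable def n8076 : Strat := .move 714 n2805 (.cons 673 n8075 .nil)
noncomputable def n8077 : Strat := .move 715 n3070 (.cons 675 n8076 .nil)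
noncomputable def n8078 : Strat := .move 879 n3069 (.cons 757 n7784 .nil)
noncomputable def n8079 : Strat := .move 717 n189 (.cons 754 n2354 .nil)
noncomputable def n8080 : Strat := .move 755 n6822 (.cons 879 n8079 .nil)
noncomputable def n8081 : Strat := .move 714 n2805 (.cons 673 n8080 .nil)
noncomputable def n8082 : Strat := .move 715 n3070 (.cons 675 n8081 .nil)
noncomputable def n8083 : Strat := .move 757 n1038 (.cons 879 n4910 .nil)
noncomputable def n8084 : Strat := .move 675 n3984 (.cons 715 n8083 .nil)
noncomputable def n8085 : Strat := .move 633 n2708 (.cons 592 n6856 .nil)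
noncomputable def n8086 : Strat := .move 755 n8085 (.cons 796 n8079 .nil)
noncomputable def n8087 : Strat := .move 714 n2805 (.cons 673 n8086 .nil)
noncomputable def n8088 : Strat := .move 632 n6861 (.cons 591 n6860 .nil)
noncomputable def n8089 : Strat := .win 757 6 592
noncomputable def n8090 : Strat := .win 552 3 551
noncomputable def n8091 : Strat := .win 634 3 592
noncomputable def n8092 : Strat := .move 593 n8090 (.cons 552 n8091 .nil)
noncomputable def n8093 : Strat := .move 592 n8089 (.cons 757 n8092 .nil)
noncomputable def n8094 : Strat := .move 633 n8088 (.cons 673 n8093 .nil)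
noncomputable def n8095 : Strat := .win 714 1 591
noncomputable def n8096 : Strat := .move 592 n8095 (.cons 714 n8089 .nil)
noncomputable def n8097 : Strat := .move 633 n6856 (.cons 796 n8096 .nil)
noncomputable def n8098 : Strat := .win 714 4 713
noncomputable def n8099 : Strat := .move 754 n8098 (.cons 714 n6637 .nil)
noncomputable def n8100 : Strat := .move 717 n2354 (.cons 718 n8099 .nil)
noncomputable def n8101 : Strat := .win 757 5 713
noncomputable def n8102 : Strat := .move 754 n8101 (.cons 757 n6637 .nil)
noncomputable def n8103 : Strat := .move 717 n2354 (.cons 718 n8102 .nil)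
noncomputable def n8104 : Strat := .move 755 n8097 (.cons 633 n8100 (.cons 714 n8103 .nil))
noncomputable def n8105 : Strat := .move 674 n3538 (.cons 632 n8087 (.cons 714 n8094 (.cons 673 n8104 .nil)))
noncomputable def n8106 : Strat := .move 715 n3070 (.cons 675 n8105 .nil)
noncomputable def n8107 : Strat := .move 716 n8077 (.cons 715 n8078 (.cons 757 n8082 (.cons 755 n8084 (.cons 879 n8106 .nil))))
noncomputable def n8108 : Strat := .move 756 n8011 (.cons 715 n8016 (.cons 839 n8017 (.cons 841 n8021 (.cons 755 n8039 (.cons 796 n8046 (.cons 921 n8051 (.cons 878 n8052 (.cons 919 n8060 (.cons 879 n8066 (.cons 714 n8074 (.cons 880 n8107 .nil)))))))))))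
noncomputable def n8109 : Strat := .move 878 n7532 (.cons 839 n7781 (.cons 837 n7487 .nil))
noncomputable def n8110 : Strat := .move 837 n480 (.cons 800 n3080 .nil)
noncomputable def n8111 : Strat := .move 839 n2158 (.cons 841 n8110 .nil)
noncomputable def n8112 : Strat := .move 878 n3068 (.cons 919 n8111 .nil)
noncomputable def n8113 : Strat := .move 839 n480 (.cons 800 n1077 .nil)
noncomputable def n8114 : Strat := .move 837 n3080 (.cons 715 n8113 .nil)
noncomputable def n8115 : Strat := .move 878 n3068 (.cons 919 n8114 .nil)
noncomputable def n8116 : Strat := .move 715 n3070 (.cons 675 n7830 .nil)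
noncomputable def n8117 : Strat := .move 716 n3069 (.cons 757 n8116 .nil)
noncomputable def n8118 : Strat := .move 837 n480 (.cons 800 n1077 .nil)
noncomputable def n8119 : Strat := .move 839 n2158 (.cons 841 n8118 .nil)
noncomputable def n8120 : Strat := .move 878 n3068 (.cons 919 n8119 .nil)
noncomputable def n8121 : Strat := .move 756 n8112 (.cons 837 n8045 (.cons 841 n8115 (.cons 878 n8117 (.cons 715 n8120 .nil))))
noncomputable def n8122 : Strat := .move 841 n862 (.cons 878 n7661 .nil)
noncomputable def n8123 : Strat := .move 878 n1077 (.cons 877 n7458 .nil)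
noncomputable def n8124 : Strat := .move 880 n481 (.cons 836 n8123 .nil)
noncomputable def n8125 : Strat := .move 837 n480 (.cons 800 n8124 .nil)
noncomputable def n8126 : Strat := .move 839 n7947 (.cons 878 n4115 (.cons 837 n8122 (.cons 841 n8125 .nil)))
noncomputable def n8127 : Strat := .move 878 n3068 (.cons 919 n7814 .nil)
noncomputable def n8128 : Strat := .move 880 n2801 (.cons 921 n8127 .nil)
noncomputable def n8129 : Strat := .move 839 n1077 (.cons 877 n480 .nil)
noncomputable def n8130 : Strat := .move 837 n3162 (.cons 836 n8129 .nil)
noncomputable def n8131 : Strat := .move 878 n3068 (.cons 919 n8130 .nil)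
noncomputable def n8132 : Strat := .move 880 n2801 (.cons 921 n8131 .nil)
noncomputable def n8133 : Strat := .move 715 n2802 (.cons 839 n7801 .nil)
noncomputable def n8134 : Strat := .move 880 n2801 (.cons 921 n8133 .nil)
noncomputable def n8135 : Strat := .move 756 n8128 (.cons 880 n8115 (.cons 715 n8132 (.cons 878 n8134 .nil)))
noncomputable def n8136 : Strat := .move 839 n2159 (.cons 877 n7466 .nil)
noncomputable def n8137 : Strat := .move 837 n3162 (.cons 836 n8113 .nil)
noncomputable def n8138 : Strat := .move 878 n426 (.cons 841 n8137 .nil)
noncomputable def n8139 : Strat := .move 880 n8136 (.cons 839 n7511 (.cons 921 n8138 .nil))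
noncomputable def n8140 : Strat := .move 756 n7427 (.cons 878 n8041 (.cons 921 n8008 (.cons 880 n8045 .nil)))
noncomputable def n8141 : Strat := .move 756 n3096 (.cons 880 n7777 .nil)
noncomputable def n8142 : Strat := .move 921 n3061 (.cons 962 n8141 .nil)
noncomputable def n8143 : Strat := .move 961 n4882 (.cons 1003 n7516 .nil)
noncomputable def n8144 : Strat := .move 962 n4883 (.cons 921 n8143 .nil)
noncomputable def n8145 : Strat := .move 880 n4176 (.cons 1002 n886 .nil)
noncomputable def n8146 : Strat := .move 801 n840 (.cons 841 n116 .nil)
noncomputable def n8147 : Strat := .move 800 n232 (.cons 837 n8146 .nil)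
noncomputable def n8148 : Strat := .win 880 3 838
noncomputable def n8149 : Strat := .win 1044 6 879
noncomputable def n8150 : Strat := .win 962 6 838
noncomputable def n8151 : Strat := .move 1003 n8149 (.cons 1044 n8150 .nil)
noncomputable def n8152 : Strat := .move 1002 n8148 (.cons 880 n8151 .nil)
noncomputable def n8153 : Strat := .move 839 n8145 (.cons 880 n8147 (.cons 800 n8152 .nil))
noncomputable def n8154 : Strat := .move 961 n4175 (.cons 1001 n8153 .nil)
noncomputable def n8155 : Strat := .move 960 n4174 (.cons 919 n8154 .nil)
noncomputable def n8156 : Strat := .move 880 n4176 (.cons 1002 n4073 .nil)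
noncomputable def n8157 : Strat := .move 839 n8145 (.cons 880 n8147 (.cons 800 n8156 .nil))
noncomputable def n8158 : Strat := .move 961 n4175 (.cons 1001 n8157 .nil)
noncomputable def n8159 : Strat := .move 960 n4174 (.cons 919 n8158 .nil)
noncomputable def n8160 : Strat := .move 920 n8142 (.cons 880 n8144 (.cons 921 n8155 (.cons 962 n8159 .nil)))
noncomputable def n8161 : Strat := .move 879 n8109 (.cons 880 n8121 (.cons 756 n8126 (.cons 839 n7817 (.cons 841 n8135 (.cons 919 n8139 (.cons 837 n8140 (.cons 878 n8160 .nil)))))))
noncomputable def n8162 : Strat := .move 838 n7652 (.cons 921 n7667 (.cons 715 n7674 (.cons 756 n7680 (.cons 801 n7688 (.cons 836 n7689 (.cons 842 n7729 (.cons 878 n7733 (.cons 879 n7747 (.cons 839 n7885 (.cons 841 n7925 (.cons 800 n7994 (.cons 880 n8007 (.cons 837 n8108 (.cons 796 n8161 .nil))))))))))))))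
noncomputable def n8163 : Strat := .move 797 n7321 (.cons 841 n7387 (.cons 796 n7583 (.cons 839 n7584 (.cons 800 n7585 (.cons 838 n7593 (.cons 756 n7594 (.cons 837 n7596 (.cons 842 n7609 (.cons 755 n7611 (.cons 836 n7632 (.cons 754 n7644 (.cons 798 n8162 .nil))))))))))))
noncomputable def n8164 : Strat := .move 839 n232 (.cons 837 n8146 .nil)
noncomputable def n8165 : Strat := .move 838 n7208 (.cons 960 n8164 .nil)
noncomputable def n8166 : Strat := .move 920 n7105 (.cons 878 n8165 .nil)
noncomputable def n8167 : Strat := .move 879 n7101 (.cons 878 n7126 (.cons 924 n7104 (.cons 880 n8166 .nil)))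
noncomputable def n8168 : Strat := .move 800 n2 (.cons 759 n8167 .nil)
noncomputable def n8169 : Strat := .move 921 n7 (.cons 962 n8168 .nil)
noncomputable def n8170 : Strat := .move 923 n25 (.cons 964 n8169 .nil)
noncomputable def n8171 : Strat := .move 922 n73 (.cons 800 n1581 (.cons 962 n107 (.cons 963 n8170 .nil)))
noncomputable def n8172 : Strat := .move 881 n94 (.cons 800 n7131 (.cons 839 n7183 (.cons 841 n7201 (.cons 962 n7202 (.cons 757 n7216 (.cons 964 n7223 (.cons 963 n7275 (.cons 797 n7306 (.cons 922 n8163 (.cons 798 n8171 .nil))))))))))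
noncomputable def n8173 : Strat := .move 881 n97 (.cons 921 n104 (.cons 922 n40 (.cons 718 n45 .nil)))
noncomputable def n8174 : Strat := .move 759 n49 (.cons 800 n6799 .nil)
noncomputable def n8175 : Strat := .move 718 n289 (.cons 719 n1012 .nil)
noncomputable def n8176 : Strat := .move 715 n169 (.cons 714 n1743 .nil)
noncomputable def n8177 : Strat := .move 760 n325 (.cons 802 n8176 .nil)
noncomputable def n8178 : Strat := .move 801 n326 (.cons 800 n8177 .nil)
noncomputable def n8179 : Strat := .move 759 n1859 (.cons 801 n8175 (.cons 718 n8178 (.cons 800 n6799 .nil)))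
noncomputable def n8180 : Strat := .move 675 n6996 (.cons 838 n4910 .nil)
noncomputable def n8181 : Strat := .move 797 n55 (.cons 796 n8180 .nil)
noncomputable def n8182 : Strat := .move 716 n155 (.cons 760 n8181 .nil)
noncomputable def n8183 : Strat := .move 715 n169 (.cons 714 n8182 .nil)
noncomputable def n8184 : Strat := .move 759 n1858 (.cons 719 n8183 .nil)
noncomputable def n8185 : Strat := .move 800 n47 (.cons 755 n8184 .nil)
noncomputable def n8186 : Strat := .move 800 n47 (.cons 755 n1782 .nil)
noncomputable def n8187 : Strat := .move 755 n50 (.cons 800 n6878 .nil)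
noncomputable def n8188 : Strat := .move 756 n8174 (.cons 755 n8179 (.cons 801 n8185 (.cons 716 n8186 (.cons 759 n8187 (.cons 800 n6876 .nil)))))
noncomputable def n8189 : Strat := .move 881 n9 (.cons 718 n1709 .nil)
noncomputable def n8190 : Strat := .move 800 n47 (.cons 755 n309 .nil)
noncomputable def n8191 : Strat := .move 756 n49 (.cons 801 n8190 (.cons 755 n310 (.cons 800 n6650 .nil)))
noncomputable def n8192 : Strat := .move 881 n9 (.cons 718 n96 .nil)
noncomputable def n8193 : Strat := .move 761 n61 (.cons 721 n58 .nil)
noncomputable def n8194 : Strat := .move 720 n62 (.cons 719 n8193 .nil)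
noncomputable def n8195 : Strat := .move 802 n59 (.cons 801 n8194 .nil)
noncomputable def n8196 : Strat := .win 800 4 758
noncomputable def n8197 : Strat := .win 804 0 759
noncomputable def n8198 : Strat := .win 802 0 758
noncomputable def n8199 : Strat := .move 803 n8197 (.cons 804 n8198 .nil)
noncomputable def n8200 : Strat := .move 762 n8196 (.cons 800 n8199 .nil)
noncomputable def n8201 : Strat := .move 761 n63 (.cons 719 n8200 .nil)
noncomputable def n8202 : Strat := .move 760 n749 (.cons 800 n8195 (.cons 802 n566 (.cons 801 n8201 .nil)))
noncomputable def n8203 : Strat := .move 714 n57 (.cons 715 n8202 .nil)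
noncomputable def n8204 : Strat := .move 797 n55 (.cons 796 n8203 .nil)
noncomputable def n8205 : Strat := .move 756 n49 (.cons 800 n701 (.cons 755 n8204 .nil))
noncomputable def n8206 : Strat := .move 759 n8189 (.cons 881 n8191 (.cons 800 n6973 (.cons 756 n8192 (.cons 718 n8205 .nil))))
noncomputable def n8207 : Strat := .move 800 n1941 (.cons 801 n232 .nil)
noncomputable def n8208 : Strat := .move 800 n1941 (.cons 801 n47 .nil)
noncomputable def n8209 : Strat := .move 756 n8208 (.cons 755 n4688 .nil)
noncomputable def n8210 : Strat := .move 838 n886 (.cons 800 n3309 (.cons 836 n8207 (.cons 837 n8209 .nil)))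
noncomputable def n8211 : Strat := .move 879 n384 (.cons 878 n8210 .nil)
noncomputable def n8212 : Strat := .win 842 4 839
noncomputable def n8213 : Strat := .move 843 n8212 (.cons 842 n8210 .nil)
noncomputable def n8214 : Strat := .move 841 n4985 (.cons 842 n8211 (.cons 878 n4945 (.cons 879 n8213 .nil)))
noncomputable def n8215 : Strat := .move 880 n34 (.cons 921 n8214 .nil)
noncomputable def n8216 : Strat := .move 881 n46 (.cons 716 n8215 .nil)
noncomputable def n8217 : Strat := .move 801 n100 (.cons 802 n840 .nil)
noncomputable def n8218 : Strat := .move 800 n232 (.cons 837 n8217 .nil)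
noncomputable def n8219 : Strat := .move 797 n1038 (.cons 879 n3984 .nil)
noncomputable def n8220 : Strat := .move 756 n47 (.cons 755 n8219 .nil)
noncomputable def n8221 : Strat := .move 800 n232 (.cons 837 n8220 .nil)
noncomputable def n8222 : Strat := .move 800 n8217 (.cons 801 n8220 .nil)
noncomputable def n8223 : Strat := .move 756 n3984 (.cons 715 n1038 .nil)
noncomputable def n8224 : Strat := .move 797 n8223 (.cons 715 n7655 .nil)
noncomputable def n8225 : Strat := .move 838 n8218 (.cons 801 n8221 (.cons 837 n8222 (.cons 800 n8224 .nil)))
noncomputable def n8226 : Strat := .move 675 n278 (.cons 634 n8225 .nil)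
noncomputable def n8227 : Strat := .move 716 n138 (.cons 881 n8226 .nil)
noncomputable def n8228 : Strat := .move 880 n34 (.cons 921 n231 .nil)
noncomputable def n8229 : Strat := .win 962 1 839
noncomputable def n8230 : Strat := .win 1044 1 880
noncomputable def n8231 : Strat := .win 880 7 839
noncomputable def n8232 : Strat := .move 1004 n8230 (.cons 1044 n8231 .nil)
noncomputable def n8233 : Strat := .move 1003 n8229 (.cons 962 n8232 .nil)
noncomputable def n8234 : Strat := .move 800 n3 (.cons 841 n8233 .nil)
noncomputable def n8235 : Strat := .move 963 n21 (.cons 1005 n8234 .nil)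
noncomputable def n8236 : Strat := .move 964 n20 (.cons 923 n8235 .nil)
noncomputable def n8237 : Strat := .move 922 n95 (.cons 880 n1581 (.cons 962 n8228 (.cons 921 n8236 .nil)))
noncomputable def n8238 : Strat := .move 881 n46 (.cons 716 n8237 .nil)
noncomputable def n8239 : Strat := .move 797 n3291 (.cons 841 n3081 .nil)
noncomputable def n8240 : Strat := .move 878 n1077 (.cons 877 n8239 .nil)
noncomputable def n8241 : Strat := .move 796 n892 (.cons 795 n8240 .nil)
noncomputable def n8242 : Strat := .move 837 n480 (.cons 800 n8241 .nil)
noncomputable def n8243 : Strat := .move 756 n3166 (.cons 797 n2424 .nil)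
noncomputable def n8244 : Strat := .move 797 n3587 (.cons 960 n3169 .nil)
noncomputable def n8245 : Strat := .move 919 n8243 (.cons 715 n8244 (.cons 797 n6664 .nil))
noncomputable def n8246 : Strat := .move 756 n328 (.cons 713 n2424 .nil)
noncomputable def n8247 : Strat := .move 714 n2427 (.cons 879 n8246 .nil)
noncomputable def n8248 : Strat := .move 713 n6887 (.cons 714 n2507 .nil)
noncomputable def n8249 : Strat := .move 756 n2424 (.cons 715 n8248 .nil)
noncomputable def n8250 : Strat := .move 755 n4097 (.cons 714 n8245 (.cons 920 n8247 (.cons 879 n8249 .nil)))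
noncomputable def n8251 : Strat := .move 878 n1077 (.cons 877 n8250 .nil)
noncomputable def n8252 : Strat := .move 796 n892 (.cons 795 n8251 .nil)
noncomputable def n8253 : Strat := .move 837 n480 (.cons 800 n8252 .nil)
noncomputable def n8254 : Strat := .move 837 n892 (.cons 795 n8240 .nil)
noncomputable def n8255 : Strat := .move 837 n892 (.cons 795 n8251 .nil)
noncomputable def n8256 : Strat := .move 920 n4169 (.cons 755 n4108 .nil)
noncomputable def n8257 : Strat := .move 755 n2821 (.cons 920 n2530 .nil)
noncomputable def n8258 : Strat := .move 715 n552 (.cons 880 n2421 .nil)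
noncomputable def n8259 : Strat := .move 756 n2060 (.cons 716 n8258 .nil)
noncomputable def n8260 : Strat := .move 879 n8256 (.cons 961 n8257 (.cons 755 n8259 .nil))
noncomputable def n8261 : Strat := .move 797 n3291 (.cons 841 n8260 .nil)
noncomputable def n8262 : Strat := .move 837 n892 (.cons 795 n8261 .nil)
noncomputable def n8263 : Strat := .move 837 n892 (.cons 795 n2533 .nil)
noncomputable def n8264 : Strat := .move 715 n3070 (.cons 675 n552 .nil)
noncomputable def n8265 : Strat := .move 716 n1038 (.cons 879 n8264 .nil)
noncomputable def n8266 : Strat := .move 756 n4952 (.cons 755 n8265 .nil)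
noncomputable def n8267 : Strat := .move 795 n4170 (.cons 794 n8266 .nil)
noncomputable def n8268 : Strat := .move 797 n3291 (.cons 841 n8267 .nil)
noncomputable def n8269 : Strat := .move 715 n552 (.cons 880 n6826 .nil)
noncomputable def n8270 : Strat := .move 879 n2060 (.cons 716 n4387 .nil)
noncomputable def n8271 : Strat := .move 756 n8269 (.cons 715 n8270 .nil)
noncomputable def n8272 : Strat := .move 797 n3291 (.cons 841 n8271 .nil)
noncomputable def n8273 : Strat := .move 796 n8254 (.cons 841 n8255 (.cons 878 n8262 (.cons 797 n8263 (.cons 837 n8268 (.cons 795 n8272 .nil)))))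
noncomputable def n8274 : Strat := .move 756 n2060 (.cons 716 n47 .nil)
noncomputable def n8275 : Strat := .move 797 n494 (.cons 796 n8274 .nil)
noncomputable def n8276 : Strat := .move 879 n862 (.cons 878 n8275 .nil)
noncomputable def n8277 : Strat := .move 841 n1941 (.cons 801 n8276 .nil)
noncomputable def n8278 : Strat := .move 841 n862 (.cons 878 n494 .nil)
noncomputable def n8279 : Strat := .move 879 n2060 (.cons 716 n8278 .nil)
noncomputable def n8280 : Strat := .move 921 n3609 (.cons 879 n1891 .nil)
noncomputable def n8281 : Strat := .move 880 n888 (.cons 715 n8280 .nil)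
noncomputable def n8282 : Strat := .move 714 n828 (.cons 713 n2805 .nil)
noncomputable def n8283 : Strat := .move 716 n3070 (.cons 675 n8282 .nil)
noncomputable def n8284 : Strat := .move 715 n552 (.cons 880 n8283 .nil)
noncomputable def n8285 : Strat := .move 797 n8279 (.cons 841 n8265 (.cons 716 n8281 (.cons 879 n8284 .nil)))
noncomputable def n8286 : Strat := .move 756 n47 (.cons 755 n8285 .nil)
noncomputable def n8287 : Strat := .move 801 n100 (.cons 802 n8265 .nil)
noncomputable def n8288 : Strat := .move 879 n2801 (.cons 921 n2060 .nil)
noncomputable def n8289 : Strat := .move 880 n888 (.cons 715 n8288 .nil)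
noncomputable def n8290 : Strat := .move 801 n100 (.cons 802 n8289 .nil)
noncomputable def n8291 : Strat := .move 801 n100 (.cons 802 n8281 .nil)
noncomputable def n8292 : Strat := .move 716 n1038 (.cons 879 n4911 .nil)
noncomputable def n8293 : Strat := .move 801 n100 (.cons 802 n8292 .nil)
noncomputable def n8294 : Strat := .move 880 n2801 (.cons 921 n7625 .nil)
noncomputable def n8295 : Strat := .move 879 n2060 (.cons 716 n8294 .nil)
noncomputable def n8296 : Strat := .move 797 n8287 (.cons 675 n8290 (.cons 801 n8265 (.cons 716 n8291 (.cons 880 n8293 (.cons 715 n8295 (.cons 879 n8284 .nil))))))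
noncomputable def n8297 : Strat := .move 756 n47 (.cons 755 n8296 .nil)
noncomputable def n8298 : Strat := .move 800 n8217 (.cons 802 n8277 (.cons 801 n8286 (.cons 841 n8297 .nil)))
noncomputable def n8299 : Strat := .move 838 n8218 (.cons 801 n8242 (.cons 841 n8253 (.cons 800 n8273 (.cons 837 n8298 .nil))))
noncomputable def n8300 : Strat := .move 963 n21 (.cons 1005 n8233 .nil)
noncomputable def n8301 : Strat := .move 964 n20 (.cons 923 n8300 .nil)
noncomputable def n8302 : Strat := .move 922 n95 (.cons 921 n8301 (.cons 880 n1581 (.cons 962 n8228 .nil)))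
noncomputable def n8303 : Strat := .move 881 n46 (.cons 716 n8302 .nil)
noncomputable def n8304 : Strat := .move 841 n494 (.cons 796 n943 .nil)
noncomputable def n8305 : Strat := .move 797 n888 (.cons 715 n8304 .nil)
noncomputable def n8306 : Strat := .move 880 n1892 (.cons 921 n8305 .nil)
noncomputable def n8307 : Strat := .move 756 n47 (.cons 755 n8306 .nil)
noncomputable def n8308 : Strat := .move 800 n232 (.cons 837 n8307 .nil)
noncomputable def n8309 : Strat := .move 796 n892 (.cons 795 n2532 .nil)
noncomputable def n8310 : Strat := .move 878 n1077 (.cons 877 n8309 .nil)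
noncomputable def n8311 : Strat := .move 756 n3609 (.cons 879 n888 .nil)
noncomputable def n8312 : Strat := .move 921 n1891 (.cons 962 n8311 .nil)
noncomputable def n8313 : Strat := .move 881 n481 (.cons 836 n34 .nil)
noncomputable def n8314 : Strat := .win 879 0 835
noncomputable def n8315 : Strat := .win 834 5 793
noncomputable def n8316 : Strat := .move 835 n8314 (.cons 879 n8315 .nil)
noncomputable def n8317 : Strat := .move 836 n4184 (.cons 881 n8316 .nil)
noncomputable def n8318 : Strat := .move 880 n4242 (.cons 881 n8312 (.cons 962 n8313 (.cons 921 n8317 .nil)))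
noncomputable def n8319 : Strat := .move 797 n3291 (.cons 841 n8318 .nil)
noncomputable def n8320 : Strat := .move 796 n892 (.cons 795 n8319 .nil)
noncomputable def n8321 : Strat := .win 795 2 794
noncomputable def n8322 : Strat := .win 793 2 793
noncomputable def n8323 : Strat := .move 835 n8322 (.cons 793 n8314 .nil)
noncomputable def n8324 : Strat := .move 794 n8321 (.cons 795 n8323 .nil)
noncomputable def n8325 : Strat := .move 880 n4184 (.cons 881 n8324 .nil)
noncomputable def n8326 : Strat := .move 836 n4105 (.cons 876 n8325 .nil)
noncomputable def n8327 : Strat := .move 877 n4104 (.cons 878 n8326 .nil)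
noncomputable def n8328 : Strat := .move 881 n34 (.cons 921 n481 .nil)
noncomputable def n8329 : Strat := .move 879 n2158 (.cons 841 n4196 .nil)
noncomputable def n8330 : Strat := .move 878 n1077 (.cons 877 n8329 .nil)
noncomputable def n8331 : Strat := .move 878 n1077 (.cons 877 n2158 .nil)
noncomputable def n8332 : Strat := .move 836 n4185 (.cons 835 n4105 .nil)
noncomputable def n8333 : Strat := .move 877 n4104 (.cons 878 n8332 .nil)
noncomputable def n8334 : Strat := .move 841 n383 (.cons 842 n494 .nil)
noncomputable def n8335 : Strat := .move 797 n3062 (.cons 756 n8334 .nil)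
noncomputable def n8336 : Strat := .move 921 n1891 (.cons 962 n8335 .nil)
noncomputable def n8337 : Strat := .move 879 n8331 (.cons 841 n8333 (.cons 877 n2302 (.cons 878 n8336 .nil)))
noncomputable def n8338 : Strat := .move 880 n1892 (.cons 962 n8328 (.cons 921 n8330 (.cons 881 n8337 .nil)))
noncomputable def n8339 : Strat := .move 837 n8310 (.cons 878 n8320 (.cons 796 n8327 (.cons 879 n8241 (.cons 795 n8338 .nil))))
noncomputable def n8340 : Strat := .move 756 n47 (.cons 755 n4688 .nil)
noncomputable def n8341 : Strat := .move 879 n862 (.cons 878 n8340 .nil)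
noncomputable def n8342 : Strat := .move 800 n1941 (.cons 801 n8341 .nil)
noncomputable def n8343 : Strat := .move 800 n1941 (.cons 801 n8340 .nil)
noncomputable def n8344 : Strat := .move 841 n4212 (.cons 842 n8342 (.cons 878 n4218 (.cons 879 n8343 .nil)))
noncomputable def n8345 : Strat := .move 880 n1892 (.cons 921 n8344 .nil)
noncomputable def n8346 : Strat := .move 838 n8218 (.cons 801 n8308 (.cons 841 n8253 (.cons 800 n8339 (.cons 837 n8345 .nil))))
noncomputable def n8347 : Strat := .move 839 n8216 (.cons 880 n8227 (.cons 838 n8238 (.cons 881 n8299 (.cons 800 n8303 (.cons 716 n8346 .nil)))))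
noncomputable def n8348 : Strat := .move 881 n46 (.cons 716 n97 .nil)
noncomputable def n8349 : Strat := .move 757 n1712 (.cons 881 n8188 (.cons 716 n8206 (.cons 759 n8347 (.cons 800 n7098 (.cons 756 n8348 .nil)))))
noncomputable def n8350 : Strat := .move 719 n1382 (.cons 720 n755 .nil)
noncomputable def n8351 : Strat := .move 760 n211 (.cons 761 n8350 .nil)
noncomputable def n8352 : Strat := .move 800 n713 (.cons 841 n5399 .nil)
noncomputable def n8353 : Strat := .move 756 n192 (.cons 755 n8352 .nil)
noncomputable def n8354 : Strat := .move 715 n154 (.cons 714 n8353 .nil)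
noncomputable def n8355 : Strat := .move 759 n212 (.cons 761 n712 (.cons 715 n8351 (.cons 760 n8354 .nil)))
noncomputable def n8356 : Strat := .move 716 n42 (.cons 675 n8355 .nil)
noncomputable def n8357 : Strat := .move 718 n37 (.cons 677 n8356 .nil)
noncomputable def n8358 : Strat := .move 839 n145 (.cons 880 n8357 .nil)
noncomputable def n8359 : Strat := .move 801 n116 (.cons 802 n5021 .nil)
noncomputable def n8360 : Strat := .move 839 n145 (.cons 880 n8359 .nil)
noncomputable def n8361 : Strat := .move 800 n502 (.cons 841 n8360 .nil)
noncomputable def n8362 : Strat := .move 676 n181 (.cons 634 n8361 .nil)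
noncomputable def n8363 : Strat := .move 675 n180 (.cons 716 n8362 .nil)
noncomputable def n8364 : Strat := .move 841 n980 (.cons 676 n878 .nil)
noncomputable def n8365 : Strat := .win 801 4 798
noncomputable def n8366 : Strat := .move 635 n777 (.cons 759 n5966 .nil)
noncomputable def n8367 : Strat := .win 554 3 553
noncomputable def n8368 : Strat := .win 636 3 594
noncomputable def n8369 : Strat := .move 595 n8367 (.cons 554 n8368 .nil)
noncomputable def n8370 : Strat := .win 552 7 552
noncomputable def n8371 : Strat := .win 634 7 593
noncomputable def n8372 : Strat := .move 593 n8370 (.cons 552 n8371 .nil)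
noncomputable def n8373 : Strat := .move 594 n8369 (.cons 636 n8372 .nil)
noncomputable def n8374 : Strat := .move 635 n777 (.cons 759 n8373 .nil)
noncomputable def n8375 : Strat := .win 757 1 593
noncomputable def n8376 : Strat := .move 716 n8375 (.cons 757 n42 .nil)
noncomputable def n8377 : Strat := .move 594 n8376 (.cons 675 n8369 .nil)
noncomputable def n8378 : Strat := .move 635 n777 (.cons 759 n8377 .nil)
noncomputable def n8379 : Strat := .move 676 n182 (.cons 716 n8366 (.cons 675 n8374 (.cons 634 n8378 .nil)))
noncomputable def n8380 : Strat := .move 838 n232 (.cons 837 n8379 .nil)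
noncomputable def n8381 : Strat := .move 802 n8365 (.cons 801 n8380 .nil)
noncomputable def n8382 : Strat := .move 800 n8364 (.cons 802 n1873 (.cons 676 n1898 (.cons 841 n8381 .nil)))
noncomputable def n8383 : Strat := .move 839 n145 (.cons 880 n8382 .nil)
noncomputable def n8384 : Strat := .move 635 n848 (.cons 593 n777 .nil)
noncomputable def n8385 : Strat := .move 634 n847 (.cons 675 n8384 .nil)
noncomputable def n8386 : Strat := .move 801 n116 (.cons 802 n8385 .nil)
noncomputable def n8387 : Strat := .move 839 n145 (.cons 880 n8386 .nil)
noncomputable def n8388 : Strat := .move 800 n502 (.cons 841 n8387 .nil)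
noncomputable def n8389 : Strat := .move 676 n148 (.cons 636 n8388 .nil)
noncomputable def n8390 : Strat := .move 677 n147 (.cons 718 n8389 .nil)
noncomputable def n8391 : Strat := .move 594 n8370 (.cons 552 n8369 .nil)
noncomputable def n8392 : Strat := .move 593 n8371 (.cons 634 n8391 .nil)
noncomputable def n8393 : Strat := .move 635 n777 (.cons 759 n8392 .nil)
noncomputable def n8394 : Strat := .move 800 n502 (.cons 841 n8393 .nil)
noncomputable def n8395 : Strat := .move 759 n48 (.cons 801 n503 .nil)
noncomputable def n8396 : Strat := .move 756 n47 (.cons 755 n8395 .nil)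
noncomputable def n8397 : Strat := .move 719 n2410 (.cons 716 n718 .nil)
noncomputable def n8398 : Strat := .move 756 n47 (.cons 755 n8397 .nil)
noncomputable def n8399 : Strat := .move 759 n503 (.cons 635 n101 .nil)
noncomputable def n8400 : Strat := .win 716 1 593
noncomputable def n8401 : Strat := .move 594 n8400 (.cons 716 n8372 .nil)
noncomputable def n8402 : Strat := .move 635 n777 (.cons 759 n8401 .nil)
noncomputable def n8403 : Strat := .move 757 n8396 (.cons 759 n8398 (.cons 755 n8399 (.cons 756 n8402 .nil)))
noncomputable def n8404 : Strat := .move 800 n502 (.cons 841 n8403 .nil)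
noncomputable def n8405 : Strat := .move 718 n37 (.cons 677 n8404 .nil)
noncomputable def n8406 : Strat := .move 676 n149 (.cons 677 n8394 (.cons 636 n8405 .nil))
noncomputable def n8407 : Strat := .move 880 n35 (.cons 839 n8406 .nil)
noncomputable def n8408 : Strat := .move 717 n8358 (.cons 718 n8363 (.cons 677 n8383 (.cons 716 n8390 (.cons 839 n1121 (.cons 800 n6578 (.cons 759 n1497 (.cons 675 n8407 .nil)))))))
noncomputable def n8409 : Strat := .move 801 n100 (.cons 802 n6567 .nil)
noncomputable def n8410 : Strat := .move 800 n2 (.cons 759 n8409 .nil)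
noncomputable def n8411 : Strat := .move 922 n7 (.cons 962 n8410 .nil)
noncomputable def n8412 : Strat := .move 921 n8 (.cons 880 n8411 .nil)
noncomputable def n8413 : Strat := .move 881 n46 (.cons 716 n8412 .nil)
noncomputable def n8414 : Strat := .move 839 n232 (.cons 837 n145 .nil)
noncomputable def n8415 : Strat := .move 797 n1038 (.cons 879 n55 .nil)
noncomputable def n8416 : Strat := .move 838 n8414 (.cons 880 n8415 .nil)
noncomputable def n8417 : Strat := .move 760 n211 (.cons 761 n8416 .nil)
noncomputable def n8418 : Strat := .move 715 n154 (.cons 714 n8416 .nil)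
noncomputable def n8419 : Strat := .move 759 n808 (.cons 715 n8417 (.cons 760 n8418 .nil))
noncomputable def n8420 : Strat := .move 716 n42 (.cons 675 n8419 .nil)
noncomputable def n8421 : Strat := .move 717 n1873 (.cons 841 n8420 (.cons 675 n5568 .nil))
noncomputable def n8422 : Strat := .move 756 n47 (.cons 755 n8421 .nil)
noncomputable def n8423 : Strat := .move 760 n284 (.cons 715 n211 .nil)
noncomputable def n8424 : Strat := .move 716 n42 (.cons 675 n8423 .nil)
noncomputable def n8425 : Strat := .move 717 n644 (.cons 841 n8424 .nil)
noncomputable def n8426 : Strat := .move 759 n99 (.cons 756 n8425 .nil)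
noncomputable def n8427 : Strat := .move 801 n100 (.cons 802 n8426 .nil)
noncomputable def n8428 : Strat := .move 797 n888 (.cons 715 n8288 .nil)
noncomputable def n8429 : Strat := .move 838 n232 (.cons 837 n8428 .nil)
noncomputable def n8430 : Strat := .move 880 n224 (.cons 717 n8429 .nil)
noncomputable def n8431 : Strat := .move 675 n181 (.cons 634 n180 .nil)
noncomputable def n8432 : Strat := .move 676 n502 (.cons 841 n8431 .nil)
noncomputable def n8433 : Strat := .move 717 n145 (.cons 880 n8432 .nil)
noncomputable def n8434 : Strat := .move 839 n841 (.cons 841 n8430 (.cons 838 n8433 .nil))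
noncomputable def n8435 : Strat := .move 756 n47 (.cons 755 n8434 .nil)
noncomputable def n8436 : Strat := .move 801 n100 (.cons 802 n8435 .nil)
noncomputable def n8437 : Strat := .move 839 n145 (.cons 880 n841 .nil)
noncomputable def n8438 : Strat := .move 635 n1412 (.cons 595 n777 .nil)
noncomputable def n8439 : Strat := .move 636 n1411 (.cons 677 n8438 .nil)
noncomputable def n8440 : Strat := .move 676 n181 (.cons 634 n8439 .nil)
noncomputable def n8441 : Strat := .move 675 n180 (.cons 716 n8440 .nil)
noncomputable def n8442 : Strat := .move 717 n1873 (.cons 676 n8437 (.cons 841 n8441 .nil))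
noncomputable def n8443 : Strat := .move 801 n100 (.cons 802 n8442 .nil)
noncomputable def n8444 : Strat := .move 800 n838 (.cons 801 n8422 (.cons 755 n8427 (.cons 759 n8436 (.cons 756 n8443 .nil))))
noncomputable def n8445 : Strat := .move 717 n35 (.cons 839 n713 .nil)
noncomputable def n8446 : Strat := .move 880 n34 (.cons 921 n8445 .nil)
noncomputable def n8447 : Strat := .move 881 n98 (.cons 922 n8446 .nil)
noncomputable def n8448 : Strat := .move 759 n48 (.cons 801 n8447 .nil)
noncomputable def n8449 : Strat := .move 756 n47 (.cons 755 n8448 .nil)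
noncomputable def n8450 : Strat := .move 717 n145 (.cons 880 n980 .nil)
noncomputable def n8451 : Strat := .move 841 n877 (.cons 838 n8450 .nil)
noncomputable def n8452 : Strat := .move 839 n8451 (.cons 717 n841 (.cons 838 n1893 .nil))
noncomputable def n8453 : Strat := .move 801 n100 (.cons 802 n8452 .nil)
noncomputable def n8454 : Strat := .win 756 0 755
noncomputable def n8455 : Strat := .move 759 n98 (.cons 922 n8446 .nil)
noncomputable def n8456 : Strat := .move 635 n5020 (.cons 677 n5966 .nil)
noncomputable def n8457 : Strat := .move 676 n502 (.cons 841 n8456 .nil)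
noncomputable def n8458 : Strat := .move 717 n35 (.cons 839 n8457 .nil)
noncomputable def n8459 : Strat := .move 880 n34 (.cons 921 n8458 .nil)
noncomputable def n8460 : Strat := .move 881 n8455 (.cons 841 n5915 (.cons 759 n8459 (.cons 880 n5563 .nil)))
noncomputable def n8461 : Strat := .move 755 n8454 (.cons 756 n8460 .nil)
noncomputable def n8462 : Strat := .move 800 n838 (.cons 802 n8449 (.cons 756 n8453 (.cons 801 n8461 .nil)))
noncomputable def n8463 : Strat := .move 757 n280 (.cons 717 n8413 (.cons 881 n8444 (.cons 716 n8462 .nil)))
noncomputable def n8464 : Strat := .move 839 n224 (.cons 717 n1898 .nil)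
noncomputable def n8465 : Strat := .move 800 n98 (.cons 922 n8464 .nil)
noncomputable def n8466 : Strat := .move 759 n9 (.cons 718 n8465 .nil)
noncomputable def n8467 : Strat := .move 880 n34 (.cons 921 n8466 .nil)
noncomputable def n8468 : Strat := .move 922 n10 (.cons 800 n1581 .nil)
noncomputable def n8469 : Strat := .move 759 n9 (.cons 718 n8468 .nil)
noncomputable def n8470 : Strat := .move 800 n877 (.cons 838 n4808 .nil)
noncomputable def n8471 : Strat := .move 801 n1074 (.cons 802 n8470 .nil)
noncomputable def n8472 : Strat := .move 842 n474 (.cons 843 n8471 .nil)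
noncomputable def n8473 : Strat := .move 838 n232 (.cons 837 n1941 .nil)
noncomputable def n8474 : Strat := .move 922 n2 (.cons 759 n512 .nil)
noncomputable def n8475 : Strat := .move 800 n878 (.cons 802 n8473 (.cons 801 n8474 .nil))
noncomputable def n8476 : Strat := .move 879 n384 (.cons 878 n8475 .nil)
noncomputable def n8477 : Strat := .move 841 n936 (.cons 878 n476 (.cons 879 n8472 (.cons 842 n8476 .nil)))
noncomputable def n8478 : Strat := .move 839 n224 (.cons 717 n8477 .nil)
noncomputable def n8479 : Strat := .move 880 n34 (.cons 921 n8478 .nil)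
noncomputable def n8480 : Strat := .move 838 n480 (.cons 800 n4971 .nil)
noncomputable def n8481 : Strat := .move 919 n3163 (.cons 918 n8480 .nil)
noncomputable def n8482 : Strat := .move 837 n3162 (.cons 836 n8481 .nil)
noncomputable def n8483 : Strat := .move 878 n427 (.cons 877 n8482 .nil)
noncomputable def n8484 : Strat := .move 841 n3270 (.cons 797 n383 .nil)
noncomputable def n8485 : Strat := .move 796 n892 (.cons 795 n8484 .nil)
noncomputable def n8486 : Strat := .move 837 n481 (.cons 836 n8485 .nil)
noncomputable def n8487 : Strat := .move 841 n383 (.cons 842 n3273 .nil)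
noncomputable def n8488 : Strat := .move 756 n3274 (.cons 714 n888 .nil)
noncomputable def n8489 : Strat := .move 755 n2821 (.cons 920 n8488 .nil)
noncomputable def n8490 : Strat := .move 796 n3291 (.cons 841 n8489 .nil)
noncomputable def n8491 : Strat := .move 961 n4176 (.cons 1002 n4902 .nil)
noncomputable def n8492 : Strat := .move 755 n4879 (.cons 796 n8488 .nil)
noncomputable def n8493 : Strat := .move 920 n8491 (.cons 961 n8492 .nil)
noncomputable def n8494 : Strat := .move 841 n1941 (.cons 801 n383 .nil)
noncomputable def n8495 : Strat := .move 800 n8494 (.cons 842 n8146 (.cons 801 n4580 .nil))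
noncomputable def n8496 : Strat := .move 756 n888 (.cons 715 n8495 .nil)
noncomputable def n8497 : Strat := .move 797 n8334 (.cons 842 n8490 (.cons 841 n8493 (.cons 796 n8496 .nil)))
noncomputable def n8498 : Strat := .move 838 n886 (.cons 800 n8486 (.cons 836 n8487 (.cons 837 n8497 .nil)))
noncomputable def n8499 : Strat := .move 879 n388 (.cons 841 n8483 (.cons 878 n8498 .nil))
noncomputable def n8500 : Strat := .move 839 n224 (.cons 717 n8499 .nil)
noncomputable def n8501 : Strat := .move 880 n34 (.cons 921 n8500 .nil)
noncomputable def n8502 : Strat := .move 880 n224 (.cons 717 n1898 .nil)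
noncomputable def n8503 : Strat := .move 800 n98 (.cons 922 n8502 .nil)
noncomputable def n8504 : Strat := .move 759 n9 (.cons 718 n8503 .nil)
noncomputable def n8505 : Strat := .move 880 n224 (.cons 717 n231 .nil)
noncomputable def n8506 : Strat := .move 922 n10 (.cons 800 n8505 .nil)
noncomputable def n8507 : Strat := .move 759 n9 (.cons 718 n8506 .nil)
noncomputable def n8508 : Strat := .move 880 n224 (.cons 717 n8477 .nil)
noncomputable def n8509 : Strat := .move 800 n98 (.cons 922 n1898 .nil)
noncomputable def n8510 : Strat := .move 759 n9 (.cons 718 n8509 .nil)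
noncomputable def n8511 : Strat := .move 717 n145 (.cons 880 n352 .nil)
noncomputable def n8512 : Strat := .move 880 n224 (.cons 717 n8499 .nil)
noncomputable def n8513 : Strat := .move 839 n8504 (.cons 841 n8507 (.cons 718 n8508 (.cons 880 n8510 (.cons 922 n8511 (.cons 759 n8512 .nil)))))
noncomputable def n8514 : Strat := .move 881 n8467 (.cons 880 n8469 (.cons 718 n8479 (.cons 922 n354 (.cons 759 n8501 (.cons 921 n8513 .nil)))))
noncomputable def n8515 : Strat := .move 881 n34 (.cons 921 n598 .nil)
noncomputable def n8516 : Strat := .move 880 n35 (.cons 839 n8515 .nil)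
noncomputable def n8517 : Strat := .move 881 n34 (.cons 921 n1497 .nil)
noncomputable def n8518 : Strat := .move 880 n35 (.cons 839 n8517 .nil)
noncomputable def n8519 : Strat := .move 717 n215 (.cons 718 n8516 (.cons 716 n1423 (.cons 759 n8518 (.cons 881 n1470 .nil))))
noncomputable def n8520 : Strat := .move 880 n34 (.cons 921 n104 .nil)
noncomputable def n8521 : Strat := .move 839 n224 (.cons 717 n8510 .nil)
noncomputable def n8522 : Strat := .move 880 n34 (.cons 921 n8521 .nil)
noncomputable def n8523 : Strat := .move 881 n8520 (.cons 922 n45 (.cons 921 n104 (.cons 716 n8522 .nil)))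
noncomputable def n8524 : Strat := .move 880 n1892 (.cons 962 n8328 (.cons 921 n8317 (.cons 881 n8312 .nil)))
noncomputable def n8525 : Strat := .move 797 n3291 (.cons 841 n8524 .nil)
noncomputable def n8526 : Strat := .move 796 n892 (.cons 795 n8525 .nil)
noncomputable def n8527 : Strat := .move 797 n3291 (.cons 841 n4095 .nil)
noncomputable def n8528 : Strat := .move 878 n1077 (.cons 877 n8527 .nil)
noncomputable def n8529 : Strat := .move 796 n892 (.cons 795 n8528 .nil)
noncomputable def n8530 : Strat := .move 715 n2514 (.cons 674 n2571 .nil)
noncomputable def n8531 : Strat := .move 714 n2427 (.cons 879 n8530 .nil)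
noncomputable def n8532 : Strat := .move 714 n2433 (.cons 757 n2434 .nil)
noncomputable def n8533 : Strat := .move 713 n2507 (.cons 754 n8532 .nil)
noncomputable def n8534 : Strat := .move 756 n2424 (.cons 715 n8533 .nil)
noncomputable def n8535 : Strat := .move 919 n2551 (.cons 961 n4158 .nil)
noncomputable def n8536 : Strat := .move 920 n2550 (.cons 879 n8535 .nil)
noncomputable def n8537 : Strat := .move 755 n4328 (.cons 920 n8531 (.cons 879 n8534 (.cons 714 n8536 .nil)))
noncomputable def n8538 : Strat := .move 796 n892 (.cons 795 n8537 .nil)
noncomputable def n8539 : Strat := .move 878 n1077 (.cons 877 n8538 .nil)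
noncomputable def n8540 : Strat := .move 797 n8334 (.cons 796 n7467 .nil)
noncomputable def n8541 : Strat := .move 879 n4185 (.cons 835 n8540 .nil)
noncomputable def n8542 : Strat := .move 880 n4184 (.cons 881 n8541 .nil)
noncomputable def n8543 : Strat := .move 836 n4105 (.cons 876 n8542 .nil)
noncomputable def n8544 : Strat := .move 877 n4104 (.cons 878 n8543 .nil)
noncomputable def n8545 : Strat := .move 837 n4148 (.cons 878 n8526 (.cons 879 n8529 (.cons 841 n8539 (.cons 796 n8327 (.cons 795 n8544 .nil)))))
noncomputable def n8546 : Strat := .move 837 n480 (.cons 800 n8539 .nil)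
noncomputable def n8547 : Strat := .move 755 n50 (.cons 800 n3274 .nil)
noncomputable def n8548 : Strat := .move 757 n2060 (.cons 716 n8547 .nil)
noncomputable def n8549 : Strat := .move 756 n888 (.cons 715 n8548 .nil)
noncomputable def n8550 : Strat := .move 797 n494 (.cons 796 n8549 .nil)
noncomputable def n8551 : Strat := .move 879 n862 (.cons 878 n8550 .nil)
noncomputable def n8552 : Strat := .move 841 n4212 (.cons 842 n8551 (.cons 878 n4218 (.cons 879 n4228 .nil)))
noncomputable def n8553 : Strat := .move 802 n4137 (.cons 803 n4136 .nil)
noncomputable def n8554 : Strat := .move 843 n1908 (.cons 883 n8553 .nil)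
noncomputable def n8555 : Strat := .move 797 n494 (.cons 796 n8554 .nil)
noncomputable def n8556 : Strat := .move 842 n3301 (.cons 802 n4135 (.cons 801 n8003 (.cons 800 n8555 .nil)))
noncomputable def n8557 : Strat := .move 841 n4212 (.cons 842 n4224 (.cons 878 n4218 (.cons 879 n8556 .nil)))
noncomputable def n8558 : Strat := .move 921 n1891 (.cons 962 n8557 .nil)
noncomputable def n8559 : Strat := .move 880 n1892 (.cons 921 n8552 (.cons 881 n8558 .nil))
noncomputable def n8560 : Strat := .move 838 n4149 (.cons 800 n8545 (.cons 841 n8546 (.cons 878 n4115 (.cons 837 n8559 .nil))))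
noncomputable def n8561 : Strat := .move 717 n145 (.cons 880 n1497 .nil)
noncomputable def n8562 : Strat := .move 837 n892 (.cons 795 n4111 .nil)
noncomputable def n8563 : Strat := .move 879 n2821 (.cons 920 n3515 .nil)
noncomputable def n8564 : Strat := .move 714 n2428 (.cons 673 n8563 .nil)
noncomputable def n8565 : Strat := .move 714 n3515 (.cons 837 n3514 .nil)
noncomputable def n8566 : Strat := .move 879 n2821 (.cons 920 n8565 .nil)
noncomputable def n8567 : Strat := .move 877 n7530 (.cons 876 n7529 .nil)
noncomputable def n8568 : Strat := .move 878 n3068 (.cons 919 n8567 .nil)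
noncomputable def n8569 : Strat := .move 675 n3984 (.cons 715 n277 .nil)
noncomputable def n8570 : Strat := .move 716 n3069 (.cons 757 n8569 .nil)
noncomputable def n8571 : Strat := .move 756 n8568 (.cons 878 n8570 .nil)
noncomputable def n8572 : Strat := .move 879 n2821 (.cons 920 n8571 .nil)
noncomputable def n8573 : Strat := .move 877 n2509 (.cons 836 n4104 .nil)
noncomputable def n8574 : Strat := .move 837 n2434 (.cons 672 n8573 .nil)
noncomputable def n8575 : Strat := .win 715 0 713
noncomputable def n8576 : Strat := .move 716 n8575 (.cons 715 n138 .nil)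
noncomputable def n8577 : Strat := .move 757 n6674 (.cons 756 n8576 .nil)
noncomputable def n8578 : Strat := .move 713 n8574 (.cons 837 n8577 .nil)
noncomputable def n8579 : Strat := .move 714 n2428 (.cons 673 n8578 .nil)
noncomputable def n8580 : Strat := .move 879 n2821 (.cons 920 n3514 .nil)
noncomputable def n8581 : Strat := .move 714 n2428 (.cons 673 n8580 .nil)
noncomputable def n8582 : Strat := .move 755 n8564 (.cons 673 n8566 (.cons 714 n8572 (.cons 879 n8579 (.cons 837 n8581 .nil))))
noncomputable def n8583 : Strat := .move 797 n3291 (.cons 841 n8582 .nil)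
noncomputable def n8584 : Strat := .move 919 n2551 (.cons 961 n8243 .nil)
noncomputable def n8585 : Strat := .move 920 n2550 (.cons 879 n8584 .nil)
noncomputable def n8586 : Strat := .move 755 n4328 (.cons 920 n8531 (.cons 714 n8585 (.cons 879 n8534 .nil)))
noncomputable def n8587 : Strat := .move 878 n1077 (.cons 877 n8586 .nil)
noncomputable def n8588 : Strat := .move 837 n892 (.cons 795 n8587 .nil)
noncomputable def n8589 : Strat := .move 797 n3291 (.cons 841 n4170 .nil)
noncomputable def n8590 : Strat := .move 795 n4171 (.cons 837 n8589 .nil)
noncomputable def n8591 : Strat := .move 757 n4910 (.cons 634 n1038 .nil)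
noncomputable def n8592 : Strat := .move 756 n3984 (.cons 715 n8591 .nil)
noncomputable def n8593 : Strat := .move 675 n277 (.cons 717 n8592 .nil)
noncomputable def n8594 : Strat := .move 795 n4952 (.cons 755 n4170 .nil)
noncomputable def n8595 : Strat := .move 756 n1038 (.cons 879 n8594 .nil)
noncomputable def n8596 : Strat := .move 757 n138 (.cons 881 n8595 .nil)
noncomputable def n8597 : Strat := .move 879 n3514 (.cons 756 n2821 .nil)
noncomputable def n8598 : Strat := .move 755 n2428 (.cons 673 n8597 .nil)
noncomputable def n8599 : Strat := .win 715 5 673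
noncomputable def n8600 : Strat := .move 676 n8599 (.cons 715 n148 .nil)
noncomputable def n8601 : Strat := .move 677 n147 (.cons 718 n8600 .nil)
noncomputable def n8602 : Strat := .move 714 n8598 (.cons 755 n8601 .nil)
noncomputable def n8603 : Strat := .move 717 n42 (.cons 675 n8602 .nil)
noncomputable def n8604 : Strat := .move 716 n1395 (.cons 881 n8593 (.cons 675 n8596 (.cons 757 n8603 .nil)))
noncomputable def n8605 : Strat := .move 797 n3291 (.cons 841 n8604 .nil)
noncomputable def n8606 : Strat := .move 796 n8562 (.cons 795 n8583 (.cons 841 n8588 (.cons 878 n8590 (.cons 837 n8605 .nil))))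
noncomputable def n8607 : Strat := .move 796 n892 (.cons 795 n8587 .nil)
noncomputable def n8608 : Strat := .move 837 n480 (.cons 800 n8607 .nil)
noncomputable def n8609 : Strat := .win 797 3 715
noncomputable def n8610 : Strat := .move 879 n8609 (.cons 797 n862 .nil)
noncomputable def n8611 : Strat := .move 756 n47 (.cons 755 n8610 .nil)
noncomputable def n8612 : Strat := .move 757 n138 (.cons 881 n8611 .nil)
noncomputable def n8613 : Strat := .move 716 n42 (.cons 675 n8612 .nil)
noncomputable def n8614 : Strat := .move 717 n980 (.cons 676 n8613 .nil)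
noncomputable def n8615 : Strat := .move 800 n1941 (.cons 801 n8614 .nil)
noncomputable def n8616 : Strat := .move 757 n1435 (.cons 756 n138 .nil)
noncomputable def n8617 : Strat := .move 716 n42 (.cons 675 n8616 .nil)
noncomputable def n8618 : Strat := .move 717 n8617 (.cons 757 n3860 .nil)
noncomputable def n8619 : Strat := .move 879 n862 (.cons 878 n8618 .nil)
noncomputable def n8620 : Strat := .move 797 n494 (.cons 796 n8619 .nil)
noncomputable def n8621 : Strat := .move 879 n862 (.cons 878 n8064 .nil)
noncomputable def n8622 : Strat := .move 797 n494 (.cons 796 n8621 .nil)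
noncomputable def n8623 : Strat := .move 757 n138 (.cons 881 n720 .nil)
noncomputable def n8624 : Strat := .move 718 n37 (.cons 677 n8623 .nil)
noncomputable def n8625 : Strat := .move 717 n42 (.cons 675 n8624 .nil)
noncomputable def n8626 : Strat := .move 879 n862 (.cons 878 n1435 .nil)
noncomputable def n8627 : Strat := .move 797 n494 (.cons 796 n8626 .nil)
noncomputable def n8628 : Strat := .move 757 n138 (.cons 881 n8627 .nil)
noncomputable def n8629 : Strat := .move 879 n3069 (.cons 757 n862 .nil)
noncomputable def n8630 : Strat := .move 756 n3984 (.cons 715 n8629 .nil)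
noncomputable def n8631 : Strat := .move 797 n494 (.cons 796 n8630 .nil)
noncomputable def n8632 : Strat := .move 675 n277 (.cons 717 n8631 .nil)
noncomputable def n8633 : Strat := .move 757 n138 (.cons 881 n278 .nil)
noncomputable def n8634 : Strat := .move 675 n277 (.cons 717 n8633 .nil)
noncomputable def n8635 : Strat := .move 714 n5196 (.cons 672 n190 .nil)
noncomputable def n8636 : Strat := .move 718 n37 (.cons 677 n8635 .nil)
noncomputable def n8637 : Strat := .move 717 n42 (.cons 675 n8636 .nil)
noncomputable def n8638 : Strat := .win 756 3 674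
noncomputable def n8639 : Strat := .move 797 n8638 (.cons 756 n494 .nil)
noncomputable def n8640 : Strat := .win 678 4 674
noncomputable def n8641 : Strat := .win 674 4 673
noncomputable def n8642 : Strat := .move 714 n8641 (.cons 674 n5212 .nil)
noncomputable def n8643 : Strat := .move 676 n8640 (.cons 678 n8642 .nil)
noncomputable def n8644 : Strat := .move 677 n8639 (.cons 796 n8643 .nil)
noncomputable def n8645 : Strat := .move 675 n277 (.cons 717 n8644 .nil)
noncomputable def n8646 : Strat := .move 676 n2267 (.cons 714 n148 .nil)
noncomputable def n8647 : Strat := .move 677 n147 (.cons 718 n8646 .nil)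
noncomputable def n8648 : Strat := .move 717 n42 (.cons 675 n8647 .nil)
noncomputable def n8649 : Strat := .move 879 n862 (.cons 878 n7830 .nil)
noncomputable def n8650 : Strat := .move 756 n3070 (.cons 675 n8649 .nil)
noncomputable def n8651 : Strat := .move 797 n494 (.cons 796 n8650 .nil)
noncomputable def n8652 : Strat := .move 797 n494 (.cons 796 n8638 .nil)
noncomputable def n8653 : Strat := .move 675 n277 (.cons 717 n8652 .nil)
noncomputable def n8654 : Strat := .move 879 n6848 (.cons 755 n862 .nil)
noncomputable def n8655 : Strat := .move 756 n2805 (.cons 673 n8654 .nil)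
noncomputable def n8656 : Strat := .move 797 n494 (.cons 796 n8655 .nil)
noncomputable def n8657 : Strat := .move 677 n2201 (.cons 676 n147 .nil)
noncomputable def n8658 : Strat := .move 672 n2637 (.cons 673 n2675 .nil)
noncomputable def n8659 : Strat := .move 754 n5186 (.cons 755 n2642 .nil)
noncomputable def n8660 : Strat := .move 713 n8658 (.cons 671 n8659 .nil)
noncomputable def n8661 : Strat := .move 717 n8657 (.cons 718 n8660 .nil)
noncomputable def n8662 : Strat := .move 717 n189 (.cons 754 n8657 .nil)
noncomputable def n8663 : Strat := .move 879 n3514 (.cons 756 n862 .nil)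
noncomputable def n8664 : Strat := .move 797 n494 (.cons 796 n8663 .nil)
noncomputable def n8665 : Strat := .move 755 n8662 (.cons 717 n8664 .nil)
noncomputable def n8666 : Strat := .win 756 7 673
noncomputable def n8667 : Strat := .move 673 n8666 (.cons 756 n1795 .nil)
noncomputable def n8668 : Strat := .move 717 n8657 (.cons 718 n8667 .nil)
noncomputable def n8669 : Strat := .move 797 n494 (.cons 796 n8668 .nil)
noncomputable def n8670 : Strat := .move 714 n8656 (.cons 756 n8661 (.cons 673 n8665 (.cons 755 n8669 .nil)))
noncomputable def n8671 : Strat := .move 715 n8637 (.cons 718 n8645 (.cons 674 n8648 (.cons 717 n8651 (.cons 714 n8653 (.cons 675 n8670 .nil)))))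
noncomputable def n8672 : Strat := .move 716 n8625 (.cons 675 n8628 (.cons 881 n8632 (.cons 756 n8634 (.cons 757 n8671 .nil))))
noncomputable def n8673 : Strat := .move 797 n1038 (.cons 879 n494 .nil)
noncomputable def n8674 : Strat := .move 756 n47 (.cons 755 n8673 .nil)
noncomputable def n8675 : Strat := .move 757 n138 (.cons 881 n8674 .nil)
noncomputable def n8676 : Strat := .move 716 n42 (.cons 675 n8675 .nil)
noncomputable def n8677 : Strat := .move 717 n980 (.cons 676 n8676 .nil)
noncomputable def n8678 : Strat := .move 800 n1941 (.cons 801 n8677 .nil)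
noncomputable def n8679 : Strat := .move 800 n1941 (.cons 801 n980 .nil)
noncomputable def n8680 : Strat := .move 716 n42 (.cons 675 n8624 .nil)
noncomputable def n8681 : Strat := .move 717 n8679 (.cons 800 n8680 .nil)
noncomputable def n8682 : Strat := .move 879 n862 (.cons 878 n8681 .nil)
noncomputable def n8683 : Strat := .move 797 n494 (.cons 796 n8681 .nil)
noncomputable def n8684 : Strat := .move 841 n8615 (.cons 801 n8620 (.cons 717 n8622 (.cons 800 n8672 (.cons 878 n8678 (.cons 797 n8682 (.cons 879 n8683 .nil))))))
noncomputable def n8685 : Strat := .move 838 n4115 (.cons 800 n8606 (.cons 841 n8608 (.cons 837 n8684 .nil)))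
noncomputable def n8686 : Strat := .move 839 n1893 (.cons 717 n8560 (.cons 881 n8561 (.cons 880 n8685 .nil)))
noncomputable def n8687 : Strat := .move 758 n8173 (.cons 717 n8349 (.cons 881 n8408 (.cons 718 n8463 (.cons 716 n8514 (.cons 880 n1562 (.cons 757 n8519 (.cons 800 n6627 (.cons 677 n8523 (.cons 759 n8686 .nil)))))))))
noncomputable def n8688 : Strat := .move 800 n308 (.cons 677 n5823 .nil)
noncomputable def n8689 : Strat := .move 841 n1878 (.cons 881 n5302 .nil)
noncomputable def n8690 : Strat := .move 800 n308 (.cons 677 n8689 .nil)
noncomputable def n8691 : Strat := .move 841 n1878 (.cons 881 n5490 .nil)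
noncomputable def n8692 : Strat := .move 800 n308 (.cons 677 n8691 .nil)
noncomputable def n8693 : Strat := .move 880 n2083 (.cons 758 n475 .nil)
noncomputable def n8694 : Strat := .move 717 n2176 (.cons 676 n8693 .nil)
noncomputable def n8695 : Strat := .move 839 n8365 (.cons 801 n8694 .nil)
noncomputable def n8696 : Strat := .move 802 n4137 (.cons 803 n8695 .nil)
noncomputable def n8697 : Strat := .move 843 n1907 (.cons 844 n8696 .nil)
noncomputable def n8698 : Strat := .move 842 n1605 (.cons 883 n8697 .nil)
noncomputable def n8699 : Strat := .move 841 n1878 (.cons 881 n8698 .nil)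
noncomputable def n8700 : Strat := .move 800 n308 (.cons 677 n8699 .nil)
noncomputable def n8701 : Strat := .move 758 n209 (.cons 881 n294 .nil)
noncomputable def n8702 : Strat := .move 758 n292 (.cons 717 n293 .nil)
noncomputable def n8703 : Strat := .move 677 n1011 (.cons 800 n8702 .nil)
noncomputable def n8704 : Strat := .move 676 n1318 (.cons 841 n182 .nil)
noncomputable def n8705 : Strat := .move 676 n1318 (.cons 841 n769 (.cons 800 n1141 .nil))
noncomputable def n8706 : Strat := .move 717 n213 (.cons 715 n8704 (.cons 716 n8705 .nil))
noncomputable def n8707 : Strat := .move 758 n209 (.cons 881 n8706 .nil)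
noncomputable def n8708 : Strat := .move 759 n8688 (.cons 842 n8690 (.cons 797 n8692 (.cons 798 n8700 (.cons 800 n8701 (.cons 881 n8703 (.cons 677 n8707 .nil))))))
noncomputable def n8709 : Strat := .move 759 n308 (.cons 677 n5823 .nil)
noncomputable def n8710 : Strat := .move 802 n118 (.cons 839 n5981 .nil)
noncomputable def n8711 : Strat := .move 720 n5708 (.cons 883 n5466 .nil)
noncomputable def n8712 : Strat := .move 841 n8711 (.cons 679 n5738 (.cons 883 n6085 .nil))
noncomputable def n8713 : Strat := .move 842 n5417 (.cons 798 n8712 .nil)
noncomputable def n8714 : Strat := .move 761 n451 (.cons 762 n8713 .nil)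
noncomputable def n8715 : Strat := .move 843 n120 (.cons 844 n8714 .nil)
noncomputable def n8716 : Strat := .move 802 n5981 (.cons 843 n5979 (.cons 761 n5986 (.cons 803 n8715 (.cons 841 n5989 .nil))))
noncomputable def n8717 : Strat := .move 802 n118 (.cons 839 n5979 .nil)
noncomputable def n8718 : Strat := .move 839 n116 (.cons 802 n1894 .nil)
noncomputable def n8719 : Strat := .move 839 n232 (.cons 837 n243 .nil)
noncomputable def n8720 : Strat := .move 839 n232 (.cons 837 n840 .nil)
noncomputable def n8721 : Strat := .move 839 n243 (.cons 798 n840 .nil)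
noncomputable def n8722 : Strat := .move 798 n611 (.cons 761 n525 .nil)
noncomputable def n8723 : Strat := .move 720 n2964 (.cons 883 n2099 .nil)
noncomputable def n8724 : Strat := .move 761 n5461 (.cons 798 n8723 .nil)
noncomputable def n8725 : Strat := .move 719 n2107 (.cons 677 n8724 .nil)
noncomputable def n8726 : Strat := .move 797 n82 (.cons 837 n124 .nil)
noncomputable def n8727 : Strat := .move 798 n611 (.cons 761 n8726 .nil)
noncomputable def n8728 : Strat := .move 842 n8725 (.cons 720 n8727 (.cons 761 n2108 .nil))
noncomputable def n8729 : Strat := .move 717 n6468 (.cons 720 n2965 .nil)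
noncomputable def n8730 : Strat := .move 762 n6469 (.cons 763 n8729 .nil)
noncomputable def n8731 : Strat := .win 717 0 717
noncomputable def n8732 : Strat := .move 842 n2964 (.cons 883 n2107 .nil)
noncomputable def n8733 : Strat := .move 720 n8731 (.cons 717 n8732 .nil)
noncomputable def n8734 : Strat := .move 762 n6469 (.cons 763 n8733 .nil)
noncomputable def n8735 : Strat := .move 720 n2099 (.cons 679 n2964 .nil)
noncomputable def n8736 : Strat := .move 842 n2107 (.cons 677 n8735 .nil)
noncomputable def n8737 : Strat := .move 678 n2943 (.cons 636 n410 .nil)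
noncomputable def n8738 : Strat := .move 677 n6432 (.cons 842 n8737 .nil)
noncomputable def n8739 : Strat := .move 762 n6469 (.cons 763 n8738 .nil)
noncomputable def n8740 : Strat := .move 719 n8730 (.cons 716 n8734 (.cons 762 n8736 (.cons 720 n8739 .nil)))
noncomputable def n8741 : Strat := .move 761 n5461 (.cons 798 n8740 .nil)
noncomputable def n8742 : Strat := .move 719 n2107 (.cons 677 n2930 .nil)
noncomputable def n8743 : Strat := .move 843 n5417 (.cons 798 n8742 .nil)
noncomputable def n8744 : Strat := .move 843 n5417 (.cons 798 n6440 .nil)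
noncomputable def n8745 : Strat := .move 842 n8743 (.cons 843 n2108 (.cons 719 n8744 .nil))
noncomputable def n8746 : Strat := .move 796 n78 (.cons 754 n77 .nil)
noncomputable def n8747 : Strat := .move 755 n79 (.cons 756 n8746 .nil)
noncomputable def n8748 : Strat := .move 797 n82 (.cons 837 n8747 .nil)
noncomputable def n8749 : Strat := .move 798 n611 (.cons 761 n8748 .nil)
noncomputable def n8750 : Strat := .win 678 7 636
noncomputable def n8751 : Strat := .move 636 n8750 (.cons 678 n5169 .nil)
noncomputable def n8752 : Strat := .move 677 n6432 (.cons 842 n8751 .nil)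
noncomputable def n8753 : Strat := .move 719 n8729 (.cons 716 n8733 (.cons 720 n8752 .nil))
noncomputable def n8754 : Strat := .move 762 n5743 (.cons 763 n8753 .nil)
noncomputable def n8755 : Strat := .move 761 n5461 (.cons 798 n8754 .nil)
noncomputable def n8756 : Strat := .move 720 n2099 (.cons 679 n6442 .nil)
noncomputable def n8757 : Strat := .move 842 n2107 (.cons 677 n8756 .nil)
noncomputable def n8758 : Strat := .move 841 n1907 (.cons 844 n5592 .nil)
noncomputable def n8759 : Strat := .move 843 n2930 (.cons 884 n8758 .nil)
noncomputable def n8760 : Strat := .move 842 n8756 (.cons 717 n8759 .nil)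
noncomputable def n8761 : Strat := .move 842 n2107 (.cons 677 n8759 .nil)
noncomputable def n8762 : Strat := .win 716 5 675
noncomputable def n8763 : Strat := .win 677 4 676
noncomputable def n8764 : Strat := .win 681 4 677
noncomputable def n8765 : Strat := .move 680 n8763 (.cons 677 n8764 .nil)
noncomputable def n8766 : Strat := .move 717 n8762 (.cons 716 n8765 .nil)
noncomputable def n8767 : Strat := .move 679 n2094 (.cons 638 n8766 .nil)
noncomputable def n8768 : Strat := .move 678 n410 (.cons 841 n8767 .nil)
noncomputable def n8769 : Strat := .move 719 n8757 (.cons 677 n8760 (.cons 717 n8761 (.cons 842 n8768 .nil)))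
noncomputable def n8770 : Strat := .move 760 n8722 (.cons 843 n8728 (.cons 837 n8741 (.cons 761 n8745 (.cons 842 n8749 (.cons 841 n8755 (.cons 798 n8769 .nil))))))
noncomputable def n8771 : Strat := .move 838 n8719 (.cons 798 n8720 (.cons 837 n8721 (.cons 839 n8770 .nil)))
noncomputable def n8772 : Strat := .move 801 n8710 (.cons 839 n8716 (.cons 798 n8717 (.cons 761 n8718 (.cons 802 n8771 .nil))))
noncomputable def n8773 : Strat := .move 759 n1878 (.cons 881 n1605 .nil)
noncomputable def n8774 : Strat := .move 842 n1906 (.cons 798 n8773 .nil)
noncomputable def n8775 : Strat := .move 797 n494 (.cons 796 n8774 .nil)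
noncomputable def n8776 : Strat := .move 842 n1906 (.cons 798 n3933 .nil)
noncomputable def n8777 : Strat := .move 797 n494 (.cons 796 n8776 .nil)
noncomputable def n8778 : Strat := .move 843 n1907 (.cons 844 n4064 .nil)
noncomputable def n8779 : Strat := .move 842 n3932 (.cons 880 n8778 .nil)
noncomputable def n8780 : Strat := .move 879 n862 (.cons 878 n8779 .nil)
noncomputable def n8781 : Strat := .move 922 n512 (.cons 963 n8780 .nil)
noncomputable def n8782 : Strat := .move 842 n3932 (.cons 880 n1909 .nil)
noncomputable def n8783 : Strat := .move 879 n862 (.cons 878 n8782 .nil)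
noncomputable def n8784 : Strat := .move 756 n3091 (.cons 715 n4074 .nil)
noncomputable def n8785 : Strat := .move 879 n862 (.cons 878 n8784 .nil)
noncomputable def n8786 : Strat := .move 797 n494 (.cons 796 n8785 .nil)
noncomputable def n8787 : Strat := .move 881 n8777 (.cons 797 n8781 (.cons 798 n8783 (.cons 880 n1911 (.cons 842 n8786 .nil))))
noncomputable def n8788 : Strat := .move 759 n1878 (.cons 881 n1607 .nil)
noncomputable def n8789 : Strat := .move 759 n1878 (.cons 881 n958 .nil)
noncomputable def n8790 : Strat := .move 798 n75 (.cons 842 n8789 .nil)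
noncomputable def n8791 : Strat := .move 797 n494 (.cons 796 n8790 .nil)
noncomputable def n8792 : Strat := .move 759 n1878 (.cons 881 n5490 .nil)
noncomputable def n8793 : Strat := .move 756 n4366 (.cons 760 n3091 .nil)
noncomputable def n8794 : Strat := .move 879 n862 (.cons 878 n8793 .nil)
noncomputable def n8795 : Strat := .move 797 n494 (.cons 796 n8794 .nil)
noncomputable def n8796 : Strat := .move 759 n1878 (.cons 881 n8795 .nil)
noncomputable def n8797 : Strat := .move 842 n1906 (.cons 798 n4465 .nil)
noncomputable def n8798 : Strat := .move 797 n494 (.cons 796 n8797 .nil)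
noncomputable def n8799 : Strat := .move 842 n1605 (.cons 883 n4465 .nil)
noncomputable def n8800 : Strat := .move 759 n1878 (.cons 881 n8799 .nil)
noncomputable def n8801 : Strat := .move 841 n8775 (.cons 759 n8787 (.cons 796 n8788 (.cons 883 n8791 (.cons 797 n8792 (.cons 842 n8796 (.cons 881 n8798 (.cons 798 n8800 .nil)))))))
noncomputable def n8802 : Strat := .move 838 n232 (.cons 837 n8801 .nil)
noncomputable def n8803 : Strat := .move 841 n513 (.cons 797 n8773 .nil)
noncomputable def n8804 : Strat := .move 842 n123 (.cons 843 n8803 .nil)
noncomputable def n8805 : Strat := .move 797 n1591 (.cons 759 n3209 .nil)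
noncomputable def n8806 : Strat := .move 760 n611 (.cons 761 n8805 .nil)
noncomputable def n8807 : Strat := .move 760 n611 (.cons 761 n6005 .nil)
noncomputable def n8808 : Strat := .move 842 n123 (.cons 843 n8807 .nil)
noncomputable def n8809 : Strat := .move 797 n124 (.cons 841 n3209 .nil)
noncomputable def n8810 : Strat := .move 842 n123 (.cons 843 n8809 .nil)
noncomputable def n8811 : Strat := .move 798 n8804 (.cons 842 n4655 (.cons 841 n8806 (.cons 797 n8808 (.cons 759 n8810 .nil))))
noncomputable def n8812 : Strat := .move 801 n116 (.cons 802 n8811 .nil)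
noncomputable def n8813 : Strat := .move 839 n245 (.cons 801 n8802 (.cons 837 n1900 (.cons 798 n1898 (.cons 838 n8812 .nil))))
noncomputable def n8814 : Strat := .move 759 n308 (.cons 677 n4647 .nil)
noncomputable def n8815 : Strat := .move 801 n365 (.cons 802 n5554 .nil)
noncomputable def n8816 : Strat := .move 797 n958 (.cons 760 n7319 .nil)
noncomputable def n8817 : Strat := .move 796 n78 (.cons 754 n7192 .nil)
noncomputable def n8818 : Strat := .move 755 n79 (.cons 756 n8817 .nil)
noncomputable def n8819 : Strat := .move 839 n579 (.cons 795 n981 .nil)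
noncomputable def n8820 : Strat := .move 796 n78 (.cons 754 n8819 .nil)
noncomputable def n8821 : Strat := .move 755 n79 (.cons 756 n8820 .nil)
noncomputable def n8822 : Strat := .move 795 n2048 (.cons 753 n2046 .nil)
noncomputable def n8823 : Strat := .move 754 n2047 (.cons 755 n8822 .nil)
noncomputable def n8824 : Strat := .move 796 n126 (.cons 836 n8823 .nil)
noncomputable def n8825 : Strat := .move 837 n127 (.cons 838 n8824 .nil)
noncomputable def n8826 : Strat := .move 796 n448 (.cons 836 n8819 (.cons 838 n7192 .nil))
noncomputable def n8827 : Strat := .move 797 n557 (.cons 838 n8818 (.cons 837 n8821 (.cons 756 n8825 (.cons 839 n7185 (.cons 755 n8826 .nil)))))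
noncomputable def n8828 : Strat := .move 798 n5877 (.cons 797 n8815 (.cons 801 n8816 (.cons 760 n8827 .nil)))
noncomputable def n8829 : Strat := .move 881 n98 (.cons 922 n8828 .nil)
noncomputable def n8830 : Strat := .move 759 n308 (.cons 677 n8829 .nil)
noncomputable def n8831 : Strat := .move 800 n8709 (.cons 759 n8772 (.cons 677 n8813 (.cons 843 n8814 (.cons 841 n8830 .nil))))
noncomputable def n8832 : Strat := .move 800 n1294 (.cons 841 n98 .nil)
noncomputable def n8833 : Strat := .move 759 n1290 (.cons 758 n8832 .nil)
noncomputable def n8834 : Strat := .move 1004 n8231 (.cons 880 n8230 .nil)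
noncomputable def n8835 : Strat := .move 1003 n8229 (.cons 962 n8834 .nil)
noncomputable def n8836 : Strat := .move 800 n3 (.cons 841 n8835 .nil)
noncomputable def n8837 : Strat := .move 839 n228 (.cons 798 n8836 .nil)
noncomputable def n8838 : Strat := .move 963 n21 (.cons 1005 n8837 .nil)
noncomputable def n8839 : Strat := .move 964 n20 (.cons 923 n8838 .nil)
noncomputable def n8840 : Strat := .move 923 n27 (.cons 878 n28 .nil)
noncomputable def n8841 : Strat := .win 877 0 877
noncomputable def n8842 : Strat := .move 878 n8841 (.cons 877 n4447 .nil)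
noncomputable def n8843 : Strat := .win 798 6 798
noncomputable def n8844 : Strat := .move 963 n8843 (.cons 798 n229 .nil)
noncomputable def n8845 : Strat := .move 838 n482 (.cons 836 n3313 .nil)
noncomputable def n8846 : Strat := .move 841 n383 (.cons 842 n8845 .nil)
noncomputable def n8847 : Strat := .move 839 n8844 (.cons 963 n8846 .nil)
noncomputable def n8848 : Strat := .move 879 n8840 (.cons 924 n8842 (.cons 878 n8847 .nil))
noncomputable def n8849 : Strat := .move 880 n26 (.cons 758 n8848 .nil)
noncomputable def n8850 : Strat := .move 921 n7 (.cons 962 n8849 .nil)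
noncomputable def n8851 : Strat := .move 839 n8843 (.cons 798 n229 .nil)
noncomputable def n8852 : Strat := .win 964 6 840
noncomputable def n8853 : Strat := .win 1046 6 881
noncomputable def n8854 : Strat := .move 1005 n8852 (.cons 964 n8853 .nil)
noncomputable def n8855 : Strat := .move 1004 n4821 (.cons 1045 n8854 .nil)
noncomputable def n8856 : Strat := .move 841 n935 (.cons 800 n4945 .nil)
noncomputable def n8857 : Strat := .move 839 n8843 (.cons 798 n8856 .nil)
noncomputable def n8858 : Strat := .move 963 n8851 (.cons 798 n4822 (.cons 839 n8855 (.cons 1004 n8857 .nil)))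
noncomputable def n8859 : Strat := .move 880 n26 (.cons 758 n8858 .nil)
noncomputable def n8860 : Strat := .move 921 n7 (.cons 962 n8859 .nil)
noncomputable def n8861 : Strat := .move 880 n229 (.cons 1004 n3633 .nil)
noncomputable def n8862 : Strat := .move 839 n228 (.cons 798 n8861 .nil)
noncomputable def n8863 : Strat := .move 963 n21 (.cons 1005 n8862 .nil)
noncomputable def n8864 : Strat := .move 964 n20 (.cons 923 n8863 .nil)
noncomputable def n8865 : Strat := .move 922 n110 (.cons 921 n8839 (.cons 964 n8850 (.cons 923 n8860 (.cons 880 n685 (.cons 962 n8864 .nil)))))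
noncomputable def n8866 : Strat := .move 843 n4064 (.cons 798 n6083 .nil)
noncomputable def n8867 : Strat := .move 839 n4136 (.cons 801 n1363 .nil)
noncomputable def n8868 : Strat := .move 884 n1364 (.cons 885 n8867 .nil)
noncomputable def n8869 : Strat := .move 802 n4137 (.cons 803 n8868 .nil)
noncomputable def n8870 : Strat := .move 843 n4064 (.cons 798 n8869 .nil)
noncomputable def n8871 : Strat := .move 843 n6083 (.cons 880 n8869 .nil)
noncomputable def n8872 : Strat := .move 883 n1625 (.cons 760 n1358 .nil)
noncomputable def n8873 : Strat := .move 801 n1074 (.cons 802 n8872 .nil)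
noncomputable def n8874 : Strat := .move 797 n493 (.cons 798 n8873 .nil)
noncomputable def n8875 : Strat := .move 880 n475 (.cons 879 n8874 .nil)
noncomputable def n8876 : Strat := .move 838 n494 (.cons 796 n8873 .nil)
noncomputable def n8877 : Strat := .move 797 n493 (.cons 798 n8876 .nil)
noncomputable def n8878 : Strat := .move 921 n1891 (.cons 962 n8873 .nil)
noncomputable def n8879 : Strat := .move 880 n475 (.cons 879 n8878 .nil)
noncomputable def n8880 : Strat := .move 838 n862 (.cons 878 n494 .nil)
noncomputable def n8881 : Strat := .move 797 n493 (.cons 798 n8880 .nil)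
noncomputable def n8882 : Strat := .move 879 n3932 (.cons 880 n8881 .nil)
noncomputable def n8883 : Strat := .move 883 n1358 (.cons 884 n8882 .nil)
noncomputable def n8884 : Strat := .move 838 n494 (.cons 796 n4465 .nil)
noncomputable def n8885 : Strat := .move 797 n493 (.cons 798 n8884 .nil)
noncomputable def n8886 : Strat := .move 839 n8875 (.cons 880 n8877 (.cons 797 n8879 (.cons 760 n8883 (.cons 883 n8885 .nil))))
noncomputable def n8887 : Strat := .move 842 n8866 (.cons 880 n8870 (.cons 798 n8871 (.cons 843 n8886 .nil)))
noncomputable def n8888 : Strat := .move 841 n5139 (.cons 800 n8887 .nil)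
noncomputable def n8889 : Strat := .move 759 n1290 (.cons 758 n8888 .nil)
noncomputable def n8890 : Strat := .move 758 n36 (.cons 759 n8 .nil)
noncomputable def n8891 : Strat := .move 921 n7 (.cons 962 n8890 .nil)
noncomputable def n8892 : Strat := .move 839 n224 (.cons 717 n230 .nil)
noncomputable def n8893 : Strat := .move 880 n34 (.cons 921 n8892 .nil)
noncomputable def n8894 : Strat := .move 758 n36 (.cons 759 n8893 .nil)
noncomputable def n8895 : Strat := .move 839 n228 (.cons 798 n8231 .nil)
noncomputable def n8896 : Strat := .move 1004 n8230 (.cons 1044 n8895 .nil)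
noncomputable def n8897 : Strat := .move 1003 n8229 (.cons 962 n8896 .nil)
noncomputable def n8898 : Strat := .move 963 n21 (.cons 1005 n8897 .nil)
noncomputable def n8899 : Strat := .move 964 n20 (.cons 923 n8898 .nil)
noncomputable def n8900 : Strat := .move 922 n8891 (.cons 962 n8894 (.cons 758 n1581 (.cons 921 n8899 .nil)))
noncomputable def n8901 : Strat := .move 919 n3348 (.cons 918 n7111 .nil)
noncomputable def n8902 : Strat := .move 880 n1259 (.cons 925 n8901 .nil)
noncomputable def n8903 : Strat := .move 960 n7109 (.cons 961 n8902 .nil)
noncomputable def n8904 : Strat := .move 880 n1257 (.cons 879 n1258 .nil)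
noncomputable def n8905 : Strat := .win 880 2 880
noncomputable def n8906 : Strat := .move 925 n8905 (.cons 880 n7123 .nil)
noncomputable def n8907 : Strat := .move 924 n8904 (.cons 925 n7296 (.cons 879 n8906 (.cons 880 n7299 .nil)))
noncomputable def n8908 : Strat := .move 920 n7286 (.cons 878 n8903 (.cons 879 n7292 (.cons 960 n8907 .nil)))
noncomputable def n8909 : Strat := .move 759 n10 (.cons 800 n8908 .nil)
noncomputable def n8910 : Strat := .move 921 n7 (.cons 962 n8909 .nil)
noncomputable def n8911 : Strat := .move 923 n25 (.cons 964 n8910 .nil)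
noncomputable def n8912 : Strat := .move 922 n73 (.cons 800 n1581 (.cons 1003 n107 (.cons 963 n8911 .nil)))
noncomputable def n8913 : Strat := .move 881 n8833 (.cons 759 n8865 (.cons 922 n8889 (.cons 800 n8900 (.cons 758 n8912 .nil))))
noncomputable def n8914 : Strat := .move 717 n37 (.cons 677 n765 .nil)
noncomputable def n8915 : Strat := .move 717 n37 (.cons 677 n184 .nil)
noncomputable def n8916 : Strat := .move 759 n209 (.cons 881 n294 .nil)
noncomputable def n8917 : Strat := .move 923 n25 (.cons 964 n95 .nil)
noncomputable def n8918 : Strat := .move 839 n8231 (.cons 880 n228 .nil)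
noncomputable def n8919 : Strat := .move 1004 n8230 (.cons 1044 n8918 .nil)
noncomputable def n8920 : Strat := .move 1003 n8229 (.cons 962 n8919 .nil)
noncomputable def n8921 : Strat := .move 963 n21 (.cons 1005 n8920 .nil)
noncomputable def n8922 : Strat := .move 964 n20 (.cons 923 n8921 .nil)
noncomputable def n8923 : Strat := .move 839 n228 (.cons 798 n229 .nil)
noncomputable def n8924 : Strat := .move 963 n21 (.cons 1005 n8923 .nil)
noncomputable def n8925 : Strat := .move 964 n20 (.cons 923 n8924 .nil)
noncomputable def n8926 : Strat := .move 880 n34 (.cons 921 n8925 .nil)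
noncomputable def n8927 : Strat := .move 922 n8917 (.cons 921 n8922 (.cons 880 n1581 (.cons 923 n95 (.cons 962 n8926 .nil))))
noncomputable def n8928 : Strat := .move 881 n36 (.cons 759 n8927 .nil)
noncomputable def n8929 : Strat := .move 758 n8914 (.cons 759 n8915 (.cons 716 n8916 (.cons 717 n8928 .nil)))
noncomputable def n8930 : Strat := .move 801 n1485 (.cons 883 n1484 .nil)
noncomputable def n8931 : Strat := .move 760 n298 (.cons 761 n8930 .nil)
noncomputable def n8932 : Strat := .move 797 n313 (.cons 796 n1024 .nil)
noncomputable def n8933 : Strat := .move 798 n4317 (.cons 797 n8931 (.cons 760 n8932 .nil))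
noncomputable def n8934 : Strat := .move 758 n209 (.cons 881 n8933 .nil)
noncomputable def n8935 : Strat := .move 759 n308 (.cons 677 n8934 .nil)
noncomputable def n8936 : Strat := .move 881 n1290 (.cons 758 n98 .nil)
noncomputable def n8937 : Strat := .move 803 n5346 (.cons 758 n3620 .nil)
noncomputable def n8938 : Strat := .move 802 n118 (.cons 839 n8937 .nil)
noncomputable def n8939 : Strat := .move 841 n1605 (.cons 883 n513 .nil)
noncomputable def n8940 : Strat := .move 842 n123 (.cons 843 n8939 .nil)
noncomputable def n8941 : Strat := .move 798 n5625 (.cons 760 n8940 (.cons 797 n5551 .nil))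
noncomputable def n8942 : Strat := .move 801 n8938 (.cons 803 n8718 (.cons 802 n8941 .nil))
noncomputable def n8943 : Strat := .move 759 n8934 (.cons 841 n8936 (.cons 758 n4647 (.cons 881 n8942 .nil)))
noncomputable def n8944 : Strat := .move 759 n308 (.cons 677 n8942 .nil)
noncomputable def n8945 : Strat := .move 759 n308 (.cons 677 n8936 .nil)
noncomputable def n8946 : Strat := .move 842 n5417 (.cons 798 n6063 .nil)
noncomputable def n8947 : Strat := .move 761 n451 (.cons 762 n8946 .nil)
noncomputable def n8948 : Strat := .move 843 n120 (.cons 844 n8947 .nil)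
noncomputable def n8949 : Strat := .move 802 n5981 (.cons 798 n5979 (.cons 761 n5986 (.cons 803 n8948 .nil)))
noncomputable def n8950 : Strat := .move 842 n8725 (.cons 798 n2108 (.cons 720 n8727 .nil))
noncomputable def n8951 : Strat := .move 842 n8743 (.cons 843 n2108 (.cons 677 n8744 .nil))
noncomputable def n8952 : Strat := .move 842 n2107 (.cons 677 n2940 .nil)
noncomputable def n8953 : Strat := .move 842 n2107 (.cons 677 n2098 .nil)
noncomputable def n8954 : Strat := .win 677 7 636
noncomputable def n8955 : Strat := .win 595 7 595
noncomputable def n8956 : Strat := .move 637 n8955 (.cons 595 n6600 .nil)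
noncomputable def n8957 : Strat := .move 636 n8954 (.cons 677 n8956 .nil)
noncomputable def n8958 : Strat := .move 678 n410 (.cons 841 n8957 .nil)
noncomputable def n8959 : Strat := .move 842 n8759 (.cons 843 n2098 (.cons 841 n2940 .nil))
noncomputable def n8960 : Strat := .move 719 n8761 (.cons 841 n8952 (.cons 843 n8953 (.cons 842 n8958 (.cons 677 n8959 .nil))))
noncomputable def n8961 : Strat := .move 798 n123 (.cons 843 n611 .nil)
noncomputable def n8962 : Strat := .move 719 n2107 (.cons 677 n2940 .nil)
noncomputable def n8963 : Strat := .move 719 n2107 (.cons 677 n6505 .nil)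
noncomputable def n8964 : Strat := .move 719 n2107 (.cons 677 n8723 .nil)
noncomputable def n8965 : Strat := .move 761 n5461 (.cons 798 n8964 .nil)
noncomputable def n8966 : Strat := .move 842 n8961 (.cons 798 n8962 (.cons 761 n8963 (.cons 843 n8965 .nil)))
noncomputable def n8967 : Strat := .move 760 n8722 (.cons 843 n8950 (.cons 761 n8951 (.cons 842 n8749 (.cons 798 n8960 (.cons 841 n8966 .nil)))))
noncomputable def n8968 : Strat := .move 838 n8719 (.cons 798 n8720 (.cons 837 n8721 (.cons 839 n8967 .nil)))
noncomputable def n8969 : Strat := .move 801 n8710 (.cons 839 n8949 (.cons 798 n8717 (.cons 762 n8718 (.cons 802 n8968 .nil))))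
noncomputable def n8970 : Strat := .move 800 n8935 (.cons 677 n8943 (.cons 881 n8944 (.cons 841 n8945 (.cons 758 n8814 (.cons 759 n8969 .nil)))))
noncomputable def n8971 : Strat := .move 759 n1011 (.cons 800 n8702 .nil)
noncomputable def n8972 : Strat := .move 842 n5417 (.cons 798 n5635 .nil)
noncomputable def n8973 : Strat := .move 843 n120 (.cons 844 n8972 .nil)
noncomputable def n8974 : Strat := .move 802 n118 (.cons 839 n8973 .nil)
noncomputable def n8975 : Strat := .move 719 n3017 (.cons 678 n6432 .nil)
noncomputable def n8976 : Strat := .move 760 n5461 (.cons 798 n8975 .nil)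
noncomputable def n8977 : Strat := .move 843 n120 (.cons 844 n8976 .nil)
noncomputable def n8978 : Strat := .move 761 n451 (.cons 762 n8977 .nil)
noncomputable def n8979 : Strat := .move 802 n8973 (.cons 798 n5979 (.cons 761 n5986 (.cons 841 n8978 .nil)))
noncomputable def n8980 : Strat := .move 760 n611 (.cons 761 n2908 .nil)
noncomputable def n8981 : Strat := .move 842 n123 (.cons 843 n8980 .nil)
noncomputable def n8982 : Strat := .move 838 n320 (.cons 839 n8748 .nil)
noncomputable def n8983 : Strat := .move 798 n8981 (.cons 842 n8982 .nil)
noncomputable def n8984 : Strat := .move 801 n8974 (.cons 803 n8718 (.cons 798 n8717 (.cons 839 n8979 (.cons 802 n8983 .nil))))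
noncomputable def n8985 : Strat := .move 800 n2237 (.cons 759 n8984 .nil)
noncomputable def n8986 : Strat := .move 716 n2288 (.cons 715 n2290 .nil)
noncomputable def n8987 : Strat := .move 679 n6433 (.cons 680 n8986 .nil)
noncomputable def n8988 : Strat := .move 636 n5169 (.cons 595 n5168 .nil)
noncomputable def n8989 : Strat := .move 760 n731 (.cons 761 n8988 .nil)
noncomputable def n8990 : Strat := .win 720 0 675
noncomputable def n8991 : Strat := .win 638 5 634
noncomputable def n8992 : Strat := .win 759 1 595
noncomputable def n8993 : Strat := .win 555 1 554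
noncomputable def n8994 : Strat := .move 596 n8992 (.cons 759 n8993 .nil)
noncomputable def n8995 : Strat := .move 637 n8991 (.cons 638 n8994 .nil)
noncomputable def n8996 : Strat := .move 676 n8990 (.cons 720 n8995 .nil)
noncomputable def n8997 : Strat := .move 675 n2191 (.cons 674 n8996 .nil)
noncomputable def n8998 : Strat := .move 719 n8989 (.cons 595 n8997 .nil)
noncomputable def n8999 : Strat := .move 716 n2288 (.cons 715 n8998 .nil)
noncomputable def n9000 : Strat := .win 719 0 675
noncomputable def n9001 : Strat := .win 633 2 633
noncomputable def n9002 : Strat := .win 635 2 634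
noncomputable def n9003 : Strat := .move 634 n9001 (.cons 633 n9002 .nil)
noncomputable def n9004 : Strat := .move 675 n9000 (.cons 719 n9003 .nil)
noncomputable def n9005 : Strat := .move 720 n6447 (.cons 721 n9004 .nil)
noncomputable def n9006 : Strat := .move 676 n6450 (.cons 716 n9005 .nil)
noncomputable def n9007 : Strat := .move 679 n6433 (.cons 680 n9006 .nil)
noncomputable def n9008 : Strat := .move 716 n2288 (.cons 715 n2289 .nil)
noncomputable def n9009 : Strat := .move 679 n6433 (.cons 680 n9008 .nil)
noncomputable def n9010 : Strat := .win 634 2 634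
noncomputable def n9011 : Strat := .win 553 6 553
noncomputable def n9012 : Strat := .win 759 6 594
noncomputable def n9013 : Strat := .move 594 n9011 (.cons 553 n9012 .nil)
noncomputable def n9014 : Strat := .move 635 n9010 (.cons 634 n9013 .nil)
noncomputable def n9015 : Strat := .win 639 5 635
noncomputable def n9016 : Strat := .win 760 1 596
noncomputable def n9017 : Strat := .win 556 1 555
noncomputable def n9018 : Strat := .move 597 n9016 (.cons 760 n9017 .nil)
noncomputable def n9019 : Strat := .move 638 n9015 (.cons 639 n9018 .nil)
noncomputable def n9020 : Strat := .move 719 n6448 (.cons 675 n9019 .nil)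
noncomputable def n9021 : Strat := .move 720 n6447 (.cons 721 n9020 .nil)
noncomputable def n9022 : Strat := .move 676 n9005 (.cons 721 n9014 (.cons 634 n9021 .nil))
noncomputable def n9023 : Strat := .move 679 n6433 (.cons 680 n9022 .nil)
noncomputable def n9024 : Strat := .move 678 n8987 (.cons 679 n8999 (.cons 715 n9007 (.cons 676 n9009 (.cons 716 n9023 .nil))))
noncomputable def n9025 : Strat := .move 717 n2238 (.cons 758 n9024 .nil)
noncomputable def n9026 : Strat := .move 679 n6433 (.cons 680 n2290 .nil)
noncomputable def n9027 : Strat := .move 678 n2288 (.cons 715 n9026 .nil)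
noncomputable def n9028 : Strat := .move 678 n751 (.cons 679 n8989 .nil)
noncomputable def n9029 : Strat := .move 720 n2192 (.cons 676 n1403 .nil)
noncomputable def n9030 : Strat := .move 675 n2191 (.cons 674 n9029 .nil)
noncomputable def n9031 : Strat := .win 676 0 675
noncomputable def n9032 : Strat := .win 722 2 677
noncomputable def n9033 : Strat := .move 721 n9032 (.cons 722 n5498 .nil)
noncomputable def n9034 : Strat := .move 720 n9031 (.cons 676 n9033 .nil)
noncomputable def n9035 : Strat := .move 675 n2191 (.cons 674 n9034 .nil)
noncomputable def n9036 : Strat := .move 678 n751 (.cons 679 n9035 .nil)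
noncomputable def n9037 : Strat := .win 721 2 676
noncomputable def n9038 : Strat := .move 676 n5528 (.cons 675 n9037 .nil)
noncomputable def n9039 : Strat := .move 720 n198 (.cons 680 n9038 .nil)
noncomputable def n9040 : Strat := .move 679 n199 (.cons 678 n9039 .nil)
noncomputable def n9041 : Strat := .move 719 n9028 (.cons 678 n9030 (.cons 760 n9036 (.cons 761 n9040 .nil)))
noncomputable def n9042 : Strat := .win 797 3 633
noncomputable def n9043 : Strat := .win 593 1 592
noncomputable def n9044 : Strat := .move 634 n9042 (.cons 797 n9043 .nil)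
noncomputable def n9045 : Strat := .move 675 n2207 (.cons 719 n9044 .nil)
noncomputable def n9046 : Strat := .move 756 n192 (.cons 755 n9045 .nil)
noncomputable def n9047 : Strat := .move 674 n734 (.cons 673 n9046 .nil)
noncomputable def n9048 : Strat := .move 715 n2200 (.cons 678 n9047 .nil)
noncomputable def n9049 : Strat := .move 714 n2201 (.cons 676 n5196 .nil)
noncomputable def n9050 : Strat := .move 714 n2201 (.cons 676 n190 .nil)
noncomputable def n9051 : Strat := .move 715 n9049 (.cons 676 n9047 (.cons 673 n9050 .nil))
noncomputable def n9052 : Strat := .move 716 n9027 (.cons 715 n9041 (.cons 676 n9048 (.cons 678 n9051 .nil)))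
noncomputable def n9053 : Strat := .move 717 n2238 (.cons 758 n9052 .nil)
noncomputable def n9054 : Strat := .move 677 n8971 (.cons 758 n8985 (.cons 800 n9025 (.cons 759 n9053 .nil)))
noncomputable def n9055 : Strat := .move 881 n1290 (.cons 758 n1294 .nil)
noncomputable def n9056 : Strat := .move 800 n308 (.cons 677 n9055 .nil)
noncomputable def n9057 : Strat := .move 719 n1631 (.cons 678 n5379 .nil)
noncomputable def n9058 : Strat := .move 843 n1907 (.cons 844 n9057 .nil)
noncomputable def n9059 : Strat := .move 842 n1605 (.cons 883 n9058 .nil)
noncomputable def n9060 : Strat := .move 717 n2176 (.cons 676 n9059 .nil)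
noncomputable def n9061 : Strat := .move 841 n5490 (.cons 842 n5302 (.cons 798 n9060 .nil))
noncomputable def n9062 : Strat := .move 800 n308 (.cons 677 n9061 .nil)
noncomputable def n9063 : Strat := .move 881 n1290 (.cons 758 n8832 .nil)
noncomputable def n9064 : Strat := .move 800 n308 (.cons 677 n4647 .nil)
noncomputable def n9065 : Strat := .move 759 n9056 (.cons 800 n8701 (.cons 881 n9062 (.cons 677 n9063 (.cons 758 n9064 .nil))))
noncomputable def n9066 : Strat := .move 758 n42 (.cons 675 n2217 .nil)
noncomputable def n9067 : Strat := .move 760 n210 (.cons 715 n5296 .nil)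
noncomputable def n9068 : Strat := .move 761 n196 (.cons 760 n5296 .nil)
noncomputable def n9069 : Strat := .move 760 n210 (.cons 715 n731 .nil)
noncomputable def n9070 : Strat := .move 716 n9066 (.cons 761 n9067 (.cons 715 n9068 (.cons 760 n5511 (.cons 758 n9069 .nil))))
noncomputable def n9071 : Strat := .move 719 n1631 (.cons 678 n9070 .nil)
noncomputable def n9072 : Strat := .move 717 n2176 (.cons 676 n9071 .nil)
noncomputable def n9073 : Strat := .move 841 n1878 (.cons 881 n9072 .nil)
noncomputable def n9074 : Strat := .move 800 n308 (.cons 677 n9073 .nil)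
noncomputable def n9075 : Strat := .move 838 n232 (.cons 837 n4465 .nil)
noncomputable def n9076 : Strat := .move 839 n8365 (.cons 801 n9075 .nil)
noncomputable def n9077 : Strat := .move 802 n4137 (.cons 803 n9076 .nil)
noncomputable def n9078 : Strat := .move 843 n1907 (.cons 844 n9077 .nil)
noncomputable def n9079 : Strat := .move 842 n1605 (.cons 883 n9078 .nil)
noncomputable def n9080 : Strat := .move 841 n8698 (.cons 842 n9072 (.cons 717 n9079 .nil))
noncomputable def n9081 : Strat := .move 800 n308 (.cons 677 n9080 .nil)
noncomputable def n9082 : Strat := .move 841 n1878 (.cons 881 n9079 .nil)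
noncomputable def n9083 : Strat := .move 800 n308 (.cons 677 n9082 .nil)
noncomputable def n9084 : Strat := .move 677 n1011 (.cons 800 n292 .nil)
noncomputable def n9085 : Strat := .move 758 n209 (.cons 881 n9084 .nil)
noncomputable def n9086 : Strat := .move 761 n5319 (.cons 716 n1154 .nil)
noncomputable def n9087 : Strat := .move 716 n42 (.cons 675 n210 .nil)
noncomputable def n9088 : Strat := .move 801 n5687 (.cons 842 n4494 .nil)
noncomputable def n9089 : Strat := .win 719 5 676
noncomputable def n9090 : Strat := .move 680 n5720 (.cons 639 n9089 .nil)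
noncomputable def n9091 : Strat := .move 679 n9088 (.cons 638 n9090 .nil)
noncomputable def n9092 : Strat := .move 802 n58 (.cons 803 n9091 .nil)
noncomputable def n9093 : Strat := .move 720 n61 (.cons 721 n9092 .nil)
noncomputable def n9094 : Strat := .move 761 n1154 (.cons 762 n9093 .nil)
noncomputable def n9095 : Strat := .move 760 n9086 (.cons 761 n9087 (.cons 716 n9094 .nil))
noncomputable def n9096 : Strat := .move 717 n37 (.cons 677 n9095 .nil)
noncomputable def n9097 : Strat := .move 758 n209 (.cons 881 n9096 .nil)
noncomputable def n9098 : Strat := .move 759 n8700 (.cons 842 n9074 (.cons 881 n9081 (.cons 717 n9083 (.cons 841 n9085 (.cons 677 n9063 (.cons 800 n9097 .nil))))))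
noncomputable def n9099 : Strat := .move 759 n9056 (.cons 800 n8701 (.cons 758 n8692 (.cons 677 n9063 (.cons 881 n8703 .nil))))
noncomputable def n9100 : Strat := .move 758 n37 (.cons 677 n184 .nil)
noncomputable def n9101 : Strat := .move 673 n2221 (.cons 715 n2220 .nil)
noncomputable def n9102 : Strat := .move 674 n2207 (.cons 719 n9101 .nil)
noncomputable def n9103 : Strat := .win 714 4 673
noncomputable def n9104 : Strat := .move 756 n192 (.cons 755 n9044 .nil)
noncomputable def n9105 : Strat := .move 676 n9103 (.cons 714 n9104 .nil)
noncomputable def n9106 : Strat := .move 677 n2200 (.cons 678 n9105 .nil)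
noncomputable def n9107 : Strat := .move 715 n734 (.cons 673 n9106 .nil)
noncomputable def n9108 : Strat := .move 674 n2207 (.cons 719 n9107 .nil)
noncomputable def n9109 : Strat := .move 679 n199 (.cons 678 n198 .nil)
noncomputable def n9110 : Strat := .move 720 n2192 (.cons 676 n9109 .nil)
noncomputable def n9111 : Strat := .move 677 n2288 (.cons 715 n5170 .nil)
noncomputable def n9112 : Strat := .move 760 n731 (.cons 761 n9111 .nil)
noncomputable def n9113 : Strat := .move 678 n751 (.cons 679 n9112 .nil)
noncomputable def n9114 : Strat := .move 719 n9110 (.cons 679 n9029 (.cons 676 n9113 .nil))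
noncomputable def n9115 : Strat := .move 797 n3101 (.cons 634 n6996 .nil)
noncomputable def n9116 : Strat := .move 756 n192 (.cons 755 n9115 .nil)
noncomputable def n9117 : Strat := .move 676 n9103 (.cons 714 n9116 .nil)
noncomputable def n9118 : Strat := .move 677 n2200 (.cons 678 n9117 .nil)
noncomputable def n9119 : Strat := .move 674 n734 (.cons 673 n9118 .nil)
noncomputable def n9120 : Strat := .move 677 n2200 (.cons 678 n9050 .nil)
noncomputable def n9121 : Strat := .move 634 n9043 (.cons 593 n9042 .nil)
noncomputable def n9122 : Strat := .move 756 n192 (.cons 755 n9121 .nil)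
noncomputable def n9123 : Strat := .move 674 n734 (.cons 673 n9122 .nil)
noncomputable def n9124 : Strat := .win 676 4 673
noncomputable def n9125 : Strat := .move 713 n2209 (.cons 712 n5187 .nil)
noncomputable def n9126 : Strat := .move 714 n9124 (.cons 676 n9125 .nil)
noncomputable def n9127 : Strat := .move 677 n2200 (.cons 678 n9126 .nil)
noncomputable def n9128 : Strat := .move 674 n734 (.cons 673 n9127 .nil)
noncomputable def n9129 : Strat := .move 676 n5212 (.cons 713 n2682 .nil)
noncomputable def n9130 : Strat := .move 714 n1795 (.cons 672 n9129 .nil)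
noncomputable def n9131 : Strat := .move 673 n194 (.cons 674 n9130 .nil)
noncomputable def n9132 : Strat := .move 715 n9119 (.cons 674 n9120 (.cons 677 n9123 (.cons 756 n9128 (.cons 755 n9131 .nil))))
noncomputable def n9133 : Strat := .move 719 n2191 (.cons 674 n9110 .nil)
noncomputable def n9134 : Strat := .move 675 n9102 (.cons 672 n9108 (.cons 674 n9114 (.cons 719 n9132 (.cons 715 n9133 .nil))))
noncomputable def n9135 : Strat := .move 715 n734 (.cons 673 n9122 .nil)
noncomputable def n9136 : Strat := .move 674 n2207 (.cons 719 n9135 .nil)
noncomputable def n9137 : Strat := .move 675 n2216 (.cons 758 n9136 .nil)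
noncomputable def n9138 : Strat := .move 716 n6305 (.cons 758 n9134 (.cons 675 n2293 (.cons 677 n9137 .nil)))
noncomputable def n9139 : Strat := .move 676 n146 (.cons 798 n502 .nil)
noncomputable def n9140 : Strat := .move 798 n152 (.cons 676 n233 .nil)
noncomputable def n9141 : Strat := .move 800 n9139 (.cons 841 n9140 (.cons 676 n1895 (.cons 798 n8364 .nil)))
noncomputable def n9142 : Strat := .move 839 n145 (.cons 880 n9141 .nil)
noncomputable def n9143 : Strat := .move 758 n37 (.cons 677 n9142 .nil)
noncomputable def n9144 : Strat := .win 596 6 596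
noncomputable def n9145 : Strat := .win 802 7 637
noncomputable def n9146 : Strat := .move 637 n9144 (.cons 596 n9145 .nil)
noncomputable def n9147 : Strat := .move 678 n8762 (.cons 716 n9146 .nil)
noncomputable def n9148 : Strat := .move 761 n195 (.cons 762 n9147 .nil)
noncomputable def n9149 : Strat := .move 679 n198 (.cons 680 n9148 .nil)
noncomputable def n9150 : Strat := .move 716 n196 (.cons 760 n199 .nil)
noncomputable def n9151 : Strat := .move 761 n195 (.cons 762 n9150 .nil)
noncomputable def n9152 : Strat := .move 679 n198 (.cons 680 n9151 .nil)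
noncomputable def n9153 : Strat := .move 675 n2191 (.cons 674 n2192 .nil)
noncomputable def n9154 : Strat := .move 716 n196 (.cons 760 n9153 .nil)
noncomputable def n9155 : Strat := .move 761 n195 (.cons 762 n9154 .nil)
noncomputable def n9156 : Strat := .move 597 n9017 (.cons 556 n9016 .nil)
noncomputable def n9157 : Strat := .move 638 n9015 (.cons 639 n9156 .nil)
noncomputable def n9158 : Strat := .move 677 n6447 (.cons 721 n9157 .nil)
noncomputable def n9159 : Strat := .move 676 n5528 (.cons 675 n9158 .nil)
noncomputable def n9160 : Strat := .move 678 n8762 (.cons 716 n9159 .nil)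
noncomputable def n9161 : Strat := .move 679 n198 (.cons 680 n9160 .nil)
noncomputable def n9162 : Strat := .move 760 n5365 (.cons 801 n5366 .nil)
noncomputable def n9163 : Strat := .win 678 5 635
noncomputable def n9164 : Strat := .win 598 3 597
noncomputable def n9165 : Strat := .move 639 n9163 (.cons 678 n9164 .nil)
noncomputable def n9166 : Strat := .move 638 n9162 (.cons 597 n9165 .nil)
noncomputable def n9167 : Strat := .move 677 n9037 (.cons 721 n9166 .nil)
noncomputable def n9168 : Strat := .move 676 n5528 (.cons 675 n9167 .nil)
noncomputable def n9169 : Strat := .move 761 n195 (.cons 762 n9168 .nil)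
noncomputable def n9170 : Strat := .move 679 n198 (.cons 680 n9169 .nil)
noncomputable def n9171 : Strat := .move 720 n9149 (.cons 596 n9152 (.cons 680 n9155 (.cons 761 n9161 (.cons 716 n9170 .nil))))
noncomputable def n9172 : Strat := .move 843 n5321 (.cons 884 n3017 .nil)
noncomputable def n9173 : Strat := .move 760 n4494 (.cons 638 n9172 .nil)
noncomputable def n9174 : Strat := .move 801 n5687 (.cons 842 n9173 .nil)
noncomputable def n9175 : Strat := .move 800 n5461 (.cons 798 n118 .nil)
noncomputable def n9176 : Strat := .move 760 n4494 (.cons 638 n9175 .nil)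
noncomputable def n9177 : Strat := .move 801 n5687 (.cons 842 n9176 .nil)
noncomputable def n9178 : Strat := .move 802 n6761 (.cons 637 n9174 (.cons 678 n9177 .nil))
noncomputable def n9179 : Strat := .move 761 n195 (.cons 762 n9178 .nil)
noncomputable def n9180 : Strat := .move 679 n198 (.cons 680 n9179 .nil)
noncomputable def n9181 : Strat := .win 677 2 676
noncomputable def n9182 : Strat := .move 680 n5500 (.cons 679 n5499 .nil)
noncomputable def n9183 : Strat := .move 721 n9181 (.cons 677 n9182 .nil)
noncomputable def n9184 : Strat := .move 676 n5528 (.cons 675 n9183 .nil)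
noncomputable def n9185 : Strat := .move 762 n5497 (.cons 761 n5496 .nil)
noncomputable def n9186 : Strat := .move 721 n9181 (.cons 677 n9185 .nil)
noncomputable def n9187 : Strat := .move 676 n5528 (.cons 675 n9186 .nil)
noncomputable def n9188 : Strat := .move 720 n9170 (.cons 676 n9180 (.cons 801 n9184 (.cons 679 n9187 .nil)))
noncomputable def n9189 : Strat := .move 716 n2191 (.cons 674 n9029 .nil)
noncomputable def n9190 : Strat := .win 716 2 674
noncomputable def n9191 : Strat := .win 673 0 673
noncomputable def n9192 : Strat := .win 677 0 674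
noncomputable def n9193 : Strat := .move 676 n9191 (.cons 673 n9192 .nil)
noncomputable def n9194 : Strat := .move 674 n9190 (.cons 716 n9193 .nil)
noncomputable def n9195 : Strat := .move 674 n9191 (.cons 673 n9192 .nil)
noncomputable def n9196 : Strat := .move 676 n5207 (.cons 720 n9195 .nil)
noncomputable def n9197 : Strat := .move 637 n5759 (.cons 802 n9144 .nil)
noncomputable def n9198 : Strat := .win 637 6 637
noncomputable def n9199 : Strat := .move 802 n9198 (.cons 637 n5668 .nil)
noncomputable def n9200 : Strat := .move 842 n2107 (.cons 677 n2964 .nil)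
noncomputable def n9201 : Strat := .move 800 n410 (.cons 841 n5461 .nil)
noncomputable def n9202 : Strat := .move 801 n9200 (.cons 883 n9201 .nil)
noncomputable def n9203 : Strat := .move 678 n9197 (.cons 596 n9199 (.cons 802 n9202 .nil))
noncomputable def n9204 : Strat := .move 760 n2965 (.cons 716 n9203 .nil)
noncomputable def n9205 : Strat := .move 761 n195 (.cons 762 n9204 .nil)
noncomputable def n9206 : Strat := .move 720 n2192 (.cons 676 n9205 .nil)
noncomputable def n9207 : Strat := .move 678 n2943 (.cons 636 n2288 .nil)
noncomputable def n9208 : Strat := .move 677 n6432 (.cons 842 n9207 .nil)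
noncomputable def n9209 : Strat := .move 798 n1640 (.cons 841 n1641 .nil)
noncomputable def n9210 : Strat := .move 843 n2930 (.cons 884 n9209 .nil)
noncomputable def n9211 : Strat := .move 842 n2107 (.cons 677 n9210 .nil)
noncomputable def n9212 : Strat := .win 843 6 678
noncomputable def n9213 : Strat := .move 678 n9212 (.cons 843 n410 .nil)
noncomputable def n9214 : Strat := .move 800 n118 (.cons 839 n9213 .nil)
noncomputable def n9215 : Strat := .move 884 n5676 (.cons 925 n5675 .nil)
noncomputable def n9216 : Strat := .move 843 n3017 (.cons 678 n9215 .nil)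
noncomputable def n9217 : Strat := .move 841 n521 (.cons 803 n5592 .nil)
noncomputable def n9218 : Strat := .move 800 n118 (.cons 839 n9217 .nil)
noncomputable def n9219 : Strat := .move 800 n120 (.cons 844 n118 .nil)
noncomputable def n9220 : Strat := .move 843 n9219 (.cons 839 n9215 .nil)
noncomputable def n9221 : Strat := .move 802 n9214 (.cons 800 n9216 (.cons 843 n9218 (.cons 678 n9220 .nil)))
noncomputable def n9222 : Strat := .move 677 n2943 (.cons 636 n2288 .nil)
noncomputable def n9223 : Strat := .move 802 n9212 (.cons 843 n118 .nil)
noncomputable def n9224 : Strat := .move 800 n410 (.cons 841 n9223 .nil)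
noncomputable def n9225 : Strat := .move 678 n9222 (.cons 715 n9224 .nil)
noncomputable def n9226 : Strat := .move 801 n9208 (.cons 636 n9211 (.cons 677 n9221 (.cons 842 n9225 .nil)))
noncomputable def n9227 : Strat := .move 760 n731 (.cons 761 n9226 .nil)
noncomputable def n9228 : Strat := .move 716 n2191 (.cons 674 n9227 .nil)
noncomputable def n9229 : Strat := .move 675 n9189 (.cons 720 n9194 (.cons 716 n9196 (.cons 674 n9206 (.cons 676 n9228 .nil))))
noncomputable def n9230 : Strat := .move 801 n4494 (.cons 638 n6463 .nil)
noncomputable def n9231 : Strat := .move 760 n2965 (.cons 716 n9230 .nil)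
noncomputable def n9232 : Strat := .move 679 n198 (.cons 680 n9231 .nil)
noncomputable def n9233 : Strat := .move 761 n195 (.cons 762 n9232 .nil)
noncomputable def n9234 : Strat := .move 679 n4494 (.cons 638 n6463 .nil)
noncomputable def n9235 : Strat := .move 842 n2099 (.cons 679 n2964 .nil)
noncomputable def n9236 : Strat := .move 843 n120 (.cons 844 n5321 .nil)
noncomputable def n9237 : Strat := .move 802 n118 (.cons 839 n9236 .nil)
noncomputable def n9238 : Strat := .move 800 n5461 (.cons 798 n9237 .nil)
noncomputable def n9239 : Strat := .move 801 n9234 (.cons 638 n9235 (.cons 842 n9238 .nil))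
noncomputable def n9240 : Strat := .move 760 n2965 (.cons 716 n9239 .nil)
noncomputable def n9241 : Strat := .move 761 n195 (.cons 762 n9240 .nil)
noncomputable def n9242 : Strat := .win 682 5 678
noncomputable def n9243 : Strat := .win 680 5 677
noncomputable def n9244 : Strat := .move 681 n9242 (.cons 682 n9243 .nil)
noncomputable def n9245 : Strat := .move 722 n6032 (.cons 723 n9244 .nil)
noncomputable def n9246 : Strat := .move 760 n2965 (.cons 716 n9245 .nil)
noncomputable def n9247 : Strat := .move 721 n9181 (.cons 677 n9246 .nil)
noncomputable def n9248 : Strat := .move 676 n5528 (.cons 675 n9247 .nil)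
noncomputable def n9249 : Strat := .move 761 n195 (.cons 762 n9248 .nil)
noncomputable def n9250 : Strat := .move 720 n9233 (.cons 761 n9184 (.cons 680 n9241 (.cons 679 n9249 .nil)))
noncomputable def n9251 : Strat := .move 843 n5476 (.cons 678 n5321 .nil)
noncomputable def n9252 : Strat := .move 678 n5668 (.cons 843 n9198 .nil)
noncomputable def n9253 : Strat := .move 800 n118 (.cons 839 n5461 .nil)
noncomputable def n9254 : Strat := .move 801 n9200 (.cons 883 n9253 .nil)
noncomputable def n9255 : Strat := .move 678 n9198 (.cons 637 n9254 .nil)
noncomputable def n9256 : Strat := .move 841 n4137 (.cons 803 n4064 .nil)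
noncomputable def n9257 : Strat := .move 842 n5708 (.cons 883 n9256 .nil)
noncomputable def n9258 : Strat := .move 843 n5321 (.cons 884 n9257 .nil)
noncomputable def n9259 : Strat := .move 802 n9251 (.cons 884 n9252 (.cons 843 n9255 (.cons 678 n9258 .nil)))
noncomputable def n9260 : Strat := .move 760 n2965 (.cons 716 n9259 .nil)
noncomputable def n9261 : Strat := .move 761 n195 (.cons 762 n9260 .nil)
noncomputable def n9262 : Strat := .win 676 2 676
noncomputable def n9263 : Strat := .win 678 2 677
noncomputable def n9264 : Strat := .win 764 0 719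
noncomputable def n9265 : Strat := .win 762 0 718
noncomputable def n9266 : Strat := .move 763 n9264 (.cons 764 n9265 .nil)
noncomputable def n9267 : Strat := .move 722 n9263 (.cons 678 n9266 .nil)
noncomputable def n9268 : Strat := .move 677 n9262 (.cons 676 n9267 .nil)
noncomputable def n9269 : Strat := .move 721 n5499 (.cons 681 n9268 .nil)
noncomputable def n9270 : Strat := .move 680 n5500 (.cons 679 n9269 .nil)
noncomputable def n9271 : Strat := .move 801 n2943 (.cons 636 n6432 .nil)
noncomputable def n9272 : Strat := .move 760 n6456 (.cons 761 n9271 .nil)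
noncomputable def n9273 : Strat := .move 678 n9032 (.cons 722 n9272 .nil)
noncomputable def n9274 : Strat := .move 677 n9262 (.cons 676 n9273 .nil)
noncomputable def n9275 : Strat := .move 721 n5499 (.cons 681 n9274 .nil)
noncomputable def n9276 : Strat := .move 680 n5500 (.cons 679 n9275 .nil)
noncomputable def n9277 : Strat := .move 720 n9149 (.cons 679 n9261 (.cons 678 n9233 (.cons 716 n9180 (.cons 761 n9270 (.cons 762 n9276 .nil)))))
noncomputable def n9278 : Strat := .move 675 n5212 (.cons 713 n5207 .nil)
noncomputable def n9279 : Strat := .move 676 n2682 (.cons 677 n9278 .nil)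
noncomputable def n9280 : Strat := .move 714 n189 (.cons 754 n9279 .nil)
noncomputable def n9281 : Strat := .move 755 n188 (.cons 756 n9280 .nil)
noncomputable def n9282 : Strat := .move 714 n189 (.cons 754 n5196 .nil)
noncomputable def n9283 : Strat := .move 755 n188 (.cons 756 n9282 .nil)
noncomputable def n9284 : Strat := .move 715 n2188 (.cons 674 n9281 (.cons 675 n9283 .nil))
noncomputable def n9285 : Strat := .move 714 n189 (.cons 754 n1796 .nil)
noncomputable def n9286 : Strat := .move 755 n188 (.cons 756 n9285 .nil)
noncomputable def n9287 : Strat := .move 715 n2196 (.cons 677 n9286 .nil)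
noncomputable def n9288 : Strat := .move 678 n751 (.cons 679 n9287 .nil)
noncomputable def n9289 : Strat := .move 675 n2191 (.cons 674 n9110 .nil)
noncomputable def n9290 : Strat := .move 677 n9037 (.cons 721 n2268 .nil)
noncomputable def n9291 : Strat := .move 676 n5528 (.cons 675 n9290 .nil)
noncomputable def n9292 : Strat := .move 720 n9109 (.cons 679 n9291 (.cons 678 n9184 .nil))
noncomputable def n9293 : Strat := .move 716 n5153 (.cons 678 n9284 (.cons 675 n9288 (.cons 715 n9289 (.cons 674 n9292 .nil))))
noncomputable def n9294 : Strat := .move 716 n731 (.cons 761 n199 .nil)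
noncomputable def n9295 : Strat := .move 761 n2965 (.cons 716 n9230 .nil)
noncomputable def n9296 : Strat := .move 801 n6463 (.cons 842 n2094 .nil)
noncomputable def n9297 : Strat := .move 678 n8762 (.cons 716 n9296 .nil)
noncomputable def n9298 : Strat := .win 761 1 637
noncomputable def n9299 : Strat := .move 638 n5366 (.cons 597 n9298 .nil)
noncomputable def n9300 : Strat := .move 801 n6463 (.cons 842 n9299 .nil)
noncomputable def n9301 : Strat := .move 760 n9294 (.cons 678 n9295 (.cons 761 n9297 (.cons 716 n9300 .nil)))
noncomputable def n9302 : Strat := .move 679 n198 (.cons 680 n9301 .nil)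
noncomputable def n9303 : Strat := .win 677 2 677
noncomputable def n9304 : Strat := .win 723 2 678
noncomputable def n9305 : Strat := .move 679 n9304 (.cons 723 n8762 .nil)
noncomputable def n9306 : Strat := .move 678 n9303 (.cons 677 n9305 .nil)
noncomputable def n9307 : Strat := .move 722 n9264 (.cons 764 n9306 .nil)
noncomputable def n9308 : Strat := .move 763 n9265 (.cons 762 n9307 .nil)
noncomputable def n9309 : Strat := .move 763 n9265 (.cons 762 n9264 .nil)
noncomputable def n9310 : Strat := .move 722 n9242 (.cons 682 n9309 .nil)
noncomputable def n9311 : Strat := .move 681 n9243 (.cons 680 n9310 .nil)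
noncomputable def n9312 : Strat := .move 721 n9182 (.cons 680 n9308 (.cons 679 n9311 .nil))
noncomputable def n9313 : Strat := .move 720 n9152 (.cons 679 n9261 (.cons 716 n9180 (.cons 678 n9233 (.cons 760 n9149 (.cons 762 n9302 (.cons 761 n9312 .nil))))))
noncomputable def n9314 : Strat := .move 679 n198 (.cons 680 n9150 .nil)
noncomputable def n9315 : Strat := .move 761 n195 (.cons 762 n9314 .nil)
noncomputable def n9316 : Strat := .move 676 n5528 (.cons 675 n9315 .nil)
noncomputable def n9317 : Strat := .move 716 n199 (.cons 678 n9153 .nil)
noncomputable def n9318 : Strat := .move 679 n198 (.cons 680 n9317 .nil)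
noncomputable def n9319 : Strat := .win 760 1 637
noncomputable def n9320 : Strat := .move 801 n5687 (.cons 842 n9319 .nil)
noncomputable def n9321 : Strat := .win 678 7 637
noncomputable def n9322 : Strat := .win 596 7 596
noncomputable def n9323 : Strat := .move 637 n9321 (.cons 678 n9322 .nil)
noncomputable def n9324 : Strat := .move 638 n9162 (.cons 597 n9320 (.cons 801 n9323 .nil))
noncomputable def n9325 : Strat := .win 801 1 678
noncomputable def n9326 : Strat := .move 842 n5708 (.cons 883 n9325 .nil)
noncomputable def n9327 : Strat := .move 843 n5476 (.cons 678 n9326 .nil)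
noncomputable def n9328 : Strat := .win 803 6 679
noncomputable def n9329 : Strat := .move 844 n5473 (.cons 885 n9328 .nil)
noncomputable def n9330 : Strat := .move 843 n9326 (.cons 801 n9329 .nil)
noncomputable def n9331 : Strat := .move 802 n6761 (.cons 843 n9324 (.cons 637 n9327 (.cons 678 n9330 .nil)))
noncomputable def n9332 : Strat := .move 679 n198 (.cons 680 n9331 .nil)
noncomputable def n9333 : Strat := .move 761 n195 (.cons 762 n9332 .nil)
noncomputable def n9334 : Strat := .move 675 n2192 (.cons 676 n9333 .nil)
noncomputable def n9335 : Strat := .move 720 n9316 (.cons 761 n9318 (.cons 679 n9155 (.cons 716 n9334 (.cons 676 n9315 .nil))))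
noncomputable def n9336 : Strat := .move 677 n2288 (.cons 715 n8988 .nil)
noncomputable def n9337 : Strat := .move 678 n751 (.cons 679 n9336 .nil)
noncomputable def n9338 : Strat := .move 716 n731 (.cons 761 n9337 .nil)
noncomputable def n9339 : Strat := .move 679 n2094 (.cons 638 n6433 .nil)
noncomputable def n9340 : Strat := .move 678 n2943 (.cons 636 n9339 .nil)
noncomputable def n9341 : Strat := .move 677 n6432 (.cons 842 n9340 .nil)
noncomputable def n9342 : Strat := .move 636 n5169 (.cons 595 n8750 .nil)
noncomputable def n9343 : Strat := .move 677 n6432 (.cons 842 n9342 .nil)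
noncomputable def n9344 : Strat := .move 678 n2929 (.cons 802 n410 .nil)
noncomputable def n9345 : Strat := .move 800 n5417 (.cons 798 n9344 .nil)
noncomputable def n9346 : Strat := .move 843 n2930 (.cons 884 n9345 .nil)
noncomputable def n9347 : Strat := .move 842 n2107 (.cons 677 n9346 .nil)
noncomputable def n9348 : Strat := .move 843 n3017 (.cons 678 n120 .nil)
noncomputable def n9349 : Strat := .move 802 n118 (.cons 839 n9348 .nil)
noncomputable def n9350 : Strat := .move 839 n116 (.cons 802 n1146 .nil)
noncomputable def n9351 : Strat := .move 841 n5592 (.cons 678 n6387 .nil)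
noncomputable def n9352 : Strat := .move 798 n611 (.cons 761 n9351 .nil)
noncomputable def n9353 : Strat := .move 800 n9349 (.cons 843 n9350 (.cons 802 n9352 .nil))
noncomputable def n9354 : Strat := .move 677 n2943 (.cons 636 n9339 .nil)
noncomputable def n9355 : Strat := .move 802 n118 (.cons 839 n9212 .nil)
noncomputable def n9356 : Strat := .move 800 n410 (.cons 841 n9355 .nil)
noncomputable def n9357 : Strat := .move 678 n9354 (.cons 677 n9356 .nil)
noncomputable def n9358 : Strat := .move 802 n120 (.cons 844 n118 .nil)
noncomputable def n9359 : Strat := .move 800 n5417 (.cons 798 n9358 .nil)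
noncomputable def n9360 : Strat := .move 843 n2930 (.cons 884 n9359 .nil)
noncomputable def n9361 : Strat := .move 842 n2107 (.cons 677 n9360 .nil)
noncomputable def n9362 : Strat := .move 801 n9341 (.cons 638 n9343 (.cons 636 n9347 (.cons 677 n9353 (.cons 842 n9357 (.cons 678 n9361 .nil)))))
noncomputable def n9363 : Strat := .move 716 n751 (.cons 679 n9336 .nil)
noncomputable def n9364 : Strat := .move 677 n6432 (.cons 842 n2943 .nil)
noncomputable def n9365 : Strat := .move 801 n9364 (.cons 677 n9224 .nil)
noncomputable def n9366 : Strat := .move 716 n751 (.cons 679 n5152 .nil)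
noncomputable def n9367 : Strat := .move 801 n2094 (.cons 638 n9356 .nil)
noncomputable def n9368 : Strat := .move 679 n8762 (.cons 716 n9367 .nil)
noncomputable def n9369 : Strat := .move 678 n9363 (.cons 716 n9365 (.cons 636 n9366 (.cons 677 n9368 .nil)))
noncomputable def n9370 : Strat := .move 675 n2191 (.cons 674 n9129 .nil)
noncomputable def n9371 : Strat := .move 714 n189 (.cons 754 n9370 .nil)
noncomputable def n9372 : Strat := .move 755 n188 (.cons 756 n9371 .nil)
noncomputable def n9373 : Strat := .move 713 n5185 (.cons 673 n5192 .nil)
noncomputable def n9374 : Strat := .move 714 n189 (.cons 754 n9373 .nil)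
noncomputable def n9375 : Strat := .move 755 n188 (.cons 756 n9374 .nil)
noncomputable def n9376 : Strat := .move 715 n2188 (.cons 673 n9372 (.cons 674 n9375 (.cons 675 n9286 .nil)))
noncomputable def n9377 : Strat := .move 716 n731 (.cons 761 n9376 .nil)
noncomputable def n9378 : Strat := .move 716 n731 (.cons 761 n751 .nil)
noncomputable def n9379 : Strat := .win 761 6 637
noncomputable def n9380 : Strat := .move 802 n9212 (.cons 843 n9379 .nil)
noncomputable def n9381 : Strat := .move 801 n6482 (.cons 679 n9380 .nil)
noncomputable def n9382 : Strat := .move 638 n6483 (.cons 597 n9381 .nil)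
noncomputable def n9383 : Strat := .move 800 n118 (.cons 839 n410 .nil)
noncomputable def n9384 : Strat := .move 801 n9212 (.cons 843 n9383 .nil)
noncomputable def n9385 : Strat := .move 802 n9379 (.cons 761 n9384 .nil)
noncomputable def n9386 : Strat := .win 801 3 637
noncomputable def n9387 : Strat := .win 680 0 635
noncomputable def n9388 : Strat := .win 634 0 634
noncomputable def n9389 : Strat := .move 635 n9387 (.cons 680 n9388 .nil)
noncomputable def n9390 : Strat := .move 636 n8955 (.cons 595 n9389 .nil)
noncomputable def n9391 : Strat := .move 679 n9386 (.cons 801 n9390 .nil)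
noncomputable def n9392 : Strat := .move 638 n6483 (.cons 597 n9391 .nil)
noncomputable def n9393 : Strat := .move 595 n6486 (.cons 554 n6485 .nil)
noncomputable def n9394 : Strat := .move 596 n6493 (.cons 556 n9393 .nil)
noncomputable def n9395 : Strat := .move 597 n6494 (.cons 638 n9394 .nil)
noncomputable def n9396 : Strat := .move 637 n9382 (.cons 679 n9385 (.cons 802 n9392 (.cons 801 n9395 .nil)))
noncomputable def n9397 : Strat := .move 800 n5461 (.cons 798 n410 .nil)
noncomputable def n9398 : Strat := .move 801 n9212 (.cons 843 n9397 .nil)
noncomputable def n9399 : Strat := .move 802 n9198 (.cons 637 n9398 .nil)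
noncomputable def n9400 : Strat := .move 761 n2965 (.cons 716 n9399 .nil)
noncomputable def n9401 : Strat := .move 678 n9378 (.cons 761 n9368 (.cons 716 n9396 (.cons 679 n9400 .nil)))
noncomputable def n9402 : Strat := .move 760 n9338 (.cons 716 n9362 (.cons 761 n9369 (.cons 678 n9377 (.cons 677 n9401 .nil))))
noncomputable def n9403 : Strat := .move 719 n9171 (.cons 716 n9188 (.cons 679 n9229 (.cons 678 n9250 (.cons 675 n9277 (.cons 761 n9293 (.cons 676 n9313 (.cons 677 n9335 (.cons 720 n9402 .nil))))))))
noncomputable def n9404 : Strat := .move 758 n37 (.cons 677 n145 .nil)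
noncomputable def n9405 : Strat := .move 842 n493 (.cons 798 n4465 .nil)
noncomputable def n9406 : Strat := .move 797 n494 (.cons 796 n9405 .nil)
noncomputable def n9407 : Strat := .move 842 n1074 (.cons 802 n4465 .nil)
noncomputable def n9408 : Strat := .move 801 n3300 (.cons 800 n9407 .nil)
noncomputable def n9409 : Strat := .move 800 n1941 (.cons 801 n8785 .nil)
noncomputable def n9410 : Strat := .move 797 n494 (.cons 796 n9409 .nil)
noncomputable def n9411 : Strat := .move 841 n9406 (.cons 880 n5059 (.cons 797 n9408 (.cons 842 n9410 .nil)))
noncomputable def n9412 : Strat := .move 837 n4107 (.cons 878 n4119 (.cons 836 n4995 .nil))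
noncomputable def n9413 : Strat := .move 838 n4336 (.cons 798 n4115 (.cons 837 n9411 (.cons 800 n9412 .nil)))
noncomputable def n9414 : Strat := .win 798 4 795
noncomputable def n9415 : Strat := .move 877 n4105 (.cons 876 n4104 .nil)
noncomputable def n9416 : Strat := .move 836 n9414 (.cons 798 n9415 .nil)
noncomputable def n9417 : Strat := .move 797 n3291 (.cons 841 n9416 .nil)
noncomputable def n9418 : Strat := .move 796 n892 (.cons 795 n9417 .nil)
noncomputable def n9419 : Strat := .move 837 n480 (.cons 800 n9418 .nil)
noncomputable def n9420 : Strat := .move 795 n4117 (.cons 794 n4116 .nil)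
noncomputable def n9421 : Strat := .move 836 n4103 (.cons 798 n9420 .nil)
noncomputable def n9422 : Strat := .move 841 n3270 (.cons 797 n4785 .nil)
noncomputable def n9423 : Strat := .move 796 n892 (.cons 795 n9422 .nil)
noncomputable def n9424 : Strat := .move 836 n4103 (.cons 798 n9415 .nil)
noncomputable def n9425 : Strat := .move 837 n9421 (.cons 836 n9423 (.cons 796 n9424 .nil))
noncomputable def n9426 : Strat := .move 716 n42 (.cons 675 n9425 .nil)
noncomputable def n9427 : Strat := .move 758 n37 (.cons 677 n9426 .nil)
noncomputable def n9428 : Strat := .move 837 n480 (.cons 800 n4995 .nil)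
noncomputable def n9429 : Strat := .move 841 n3300 (.cons 800 n5058 .nil)
noncomputable def n9430 : Strat := .move 719 n2191 (.cons 674 n201 .nil)
noncomputable def n9431 : Strat := .move 675 n2216 (.cons 758 n9430 .nil)
noncomputable def n9432 : Strat := .move 679 n6433 (.cons 680 n2289 .nil)
noncomputable def n9433 : Strat := .move 678 n2288 (.cons 715 n9432 .nil)
noncomputable def n9434 : Strat := .move 677 n2238 (.cons 758 n9433 .nil)
noncomputable def n9435 : Strat := .move 842 n493 (.cons 798 n1074 .nil)
noncomputable def n9436 : Strat := .move 841 n494 (.cons 796 n9435 .nil)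
noncomputable def n9437 : Strat := .win 798 0 795
noncomputable def n9438 : Strat := .move 795 n9437 (.cons 798 n4170 .nil)
noncomputable def n9439 : Strat := .move 796 n3291 (.cons 841 n9438 .nil)
noncomputable def n9440 : Strat := .move 756 n3070 (.cons 675 n192 .nil)
noncomputable def n9441 : Strat := .move 756 n3106 (.cons 714 n3070 .nil)
noncomputable def n9442 : Strat := .move 673 n194 (.cons 674 n9441 .nil)
noncomputable def n9443 : Strat := .move 756 n3106 (.cons 714 n192 .nil)
noncomputable def n9444 : Strat := .move 673 n194 (.cons 674 n9443 .nil)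
noncomputable def n9445 : Strat := .move 715 n9440 (.cons 755 n9442 (.cons 675 n9444 (.cons 756 n6231 .nil)))
noncomputable def n9446 : Strat := .move 797 n9436 (.cons 802 n9439 (.cons 798 n9445 .nil))
noncomputable def n9447 : Strat := .move 716 n6305 (.cons 677 n9431 (.cons 675 n9434 (.cons 758 n9446 .nil)))
noncomputable def n9448 : Strat := .move 801 n9429 (.cons 841 n4462 (.cons 802 n4463 (.cons 798 n4464 (.cons 800 n9447 .nil))))
noncomputable def n9449 : Strat := .move 838 n9419 (.cons 800 n9427 (.cons 798 n9428 (.cons 877 n3297 (.cons 837 n9448 .nil))))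
noncomputable def n9450 : Strat := .move 839 n9404 (.cons 758 n9413 (.cons 880 n9449 .nil))
noncomputable def n9451 : Strat := .move 758 n145 (.cons 880 n183 .nil)
noncomputable def n9452 : Strat := .move 837 n480 (.cons 800 n8310 .nil)
noncomputable def n9453 : Strat := .move 838 n4336 (.cons 877 n3297 (.cons 837 n9411 (.cons 800 n9412 (.cons 798 n9452 .nil))))
noncomputable def n9454 : Strat := .move 879 n383 (.cons 842 n4721 .nil)
noncomputable def n9455 : Strat := .move 879 n862 (.cons 878 n4923 .nil)
noncomputable def n9456 : Strat := .move 838 n3273 (.cons 801 n9455 .nil)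
noncomputable def n9457 : Strat := .move 921 n1891 (.cons 962 n9456 .nil)
noncomputable def n9458 : Strat := .move 836 n4184 (.cons 881 n9420 .nil)
noncomputable def n9459 : Strat := .move 836 n4184 (.cons 881 n9415 .nil)
noncomputable def n9460 : Strat := .move 837 n3308 (.cons 797 n9458 (.cons 795 n9459 .nil))
noncomputable def n9461 : Strat := .move 921 n1891 (.cons 962 n9460 .nil)
noncomputable def n9462 : Strat := .move 838 n3273 (.cons 837 n4221 (.cons 800 n9461 .nil))
noncomputable def n9463 : Strat := .move 841 n4593 (.cons 801 n9454 (.cons 842 n9457 (.cons 879 n9462 .nil)))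
noncomputable def n9464 : Strat := .move 880 n2083 (.cons 758 n9463 .nil)
noncomputable def n9465 : Strat := .move 800 n116 (.cons 802 n1894 .nil)
noncomputable def n9466 : Strat := .move 800 n232 (.cons 837 n243 .nil)
noncomputable def n9467 : Strat := .move 800 n232 (.cons 837 n840 .nil)
noncomputable def n9468 : Strat := .move 841 n1078 (.cons 879 n3270 .nil)
noncomputable def n9469 : Strat := .move 878 n1077 (.cons 877 n9468 .nil)
noncomputable def n9470 : Strat := .move 796 n892 (.cons 795 n9469 .nil)
noncomputable def n9471 : Strat := .move 837 n9418 (.cons 841 n4119 (.cons 796 n4107 (.cons 836 n9470 .nil)))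
noncomputable def n9472 : Strat := .move 838 n9466 (.cons 798 n9467 (.cons 837 n4463 (.cons 800 n9471 .nil)))
noncomputable def n9473 : Strat := .win 841 5 798
noncomputable def n9474 : Strat := .win 843 1 719
noncomputable def n9475 : Strat := .move 883 n9474 (.cons 843 n3016 .nil)
noncomputable def n9476 : Strat := .move 761 n5466 (.cons 679 n9475 .nil)
noncomputable def n9477 : Strat := .win 760 3 678
noncomputable def n9478 : Strat := .move 679 n198 (.cons 680 n9477 .nil)
noncomputable def n9479 : Strat := .move 716 n2191 (.cons 674 n2216 .nil)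
noncomputable def n9480 : Strat := .move 675 n2192 (.cons 676 n9479 .nil)
noncomputable def n9481 : Strat := .move 719 n9478 (.cons 760 n9480 .nil)
noncomputable def n9482 : Strat := .move 761 n195 (.cons 762 n9475 .nil)
noncomputable def n9483 : Strat := .move 719 n9482 (.cons 761 n9480 .nil)
noncomputable def n9484 : Strat := .move 720 n9476 (.cons 761 n9481 (.cons 679 n9483 .nil))
noncomputable def n9485 : Strat := .move 842 n9473 (.cons 841 n9484 .nil)
noncomputable def n9486 : Strat := .move 802 n4267 (.cons 800 n9485 .nil)
noncomputable def n9487 : Strat := .move 841 n1074 (.cons 802 n4576 .nil)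
noncomputable def n9488 : Strat := .move 679 n9477 (.cons 760 n198 .nil)
noncomputable def n9489 : Strat := .move 760 n2099 (.cons 679 n2965 .nil)
noncomputable def n9490 : Strat := .move 761 n195 (.cons 762 n9489 .nil)
noncomputable def n9491 : Strat := .move 760 n2964 (.cons 883 n2965 .nil)
noncomputable def n9492 : Strat := .move 761 n195 (.cons 762 n9491 .nil)
noncomputable def n9493 : Strat := .move 720 n9488 (.cons 680 n9490 (.cons 679 n9492 (.cons 760 n9480 .nil)))
noncomputable def n9494 : Strat := .move 679 n199 (.cons 678 n2095 .nil)
noncomputable def n9495 : Strat := .move 760 n731 (.cons 761 n9494 .nil)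
noncomputable def n9496 : Strat := .move 716 n5511 (.cons 758 n9495 .nil)
noncomputable def n9497 : Strat := .move 761 n5748 (.cons 802 n195 .nil)
noncomputable def n9498 : Strat := .move 679 n198 (.cons 680 n9497 .nil)
noncomputable def n9499 : Strat := .move 720 n9480 (.cons 675 n9498 .nil)
noncomputable def n9500 : Strat := .move 720 n198 (.cons 680 n9477 .nil)
noncomputable def n9501 : Strat := .move 679 n199 (.cons 678 n9500 .nil)
noncomputable def n9502 : Strat := .move 716 n5511 (.cons 675 n9501 .nil)
noncomputable def n9503 : Strat := .move 758 n146 (.cons 798 n180 .nil)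
noncomputable def n9504 : Strat := .move 676 n5207 (.cons 720 n9503 .nil)
noncomputable def n9505 : Strat := .move 758 n181 (.cons 634 n146 .nil)
noncomputable def n9506 : Strat := .move 676 n5207 (.cons 720 n9505 .nil)
noncomputable def n9507 : Strat := .move 716 n2191 (.cons 674 n5158 .nil)
noncomputable def n9508 : Strat := .move 675 n6527 (.cons 674 n9504 (.cons 716 n9506 (.cons 758 n9507 .nil)))
noncomputable def n9509 : Strat := .move 720 n9488 (.cons 680 n9490 (.cons 679 n9492 (.cons 760 n9498 .nil)))
noncomputable def n9510 : Strat := .move 678 n751 (.cons 679 n2931 .nil)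
noncomputable def n9511 : Strat := .move 760 n731 (.cons 761 n9510 .nil)
noncomputable def n9512 : Strat := .move 716 n5511 (.cons 675 n9511 .nil)
noncomputable def n9513 : Strat := .move 675 n2192 (.cons 676 n9478 .nil)
noncomputable def n9514 : Strat := .win 760 3 719
noncomputable def n9515 : Strat := .move 802 n3016 (.cons 924 n9474 .nil)
noncomputable def n9516 : Strat := .move 883 n9514 (.cons 760 n9515 .nil)
noncomputable def n9517 : Strat := .move 761 n195 (.cons 762 n9516 .nil)
noncomputable def n9518 : Strat := .move 679 n5748 (.cons 802 n198 .nil)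
noncomputable def n9519 : Strat := .move 761 n195 (.cons 762 n9518 .nil)
noncomputable def n9520 : Strat := .move 720 n9513 (.cons 679 n9517 (.cons 760 n9519 .nil))
noncomputable def n9521 : Strat := .move 719 n9493 (.cons 680 n9496 (.cons 760 n9499 (.cons 761 n9502 (.cons 679 n9508 (.cons 674 n9509 (.cons 720 n9512 (.cons 716 n9520 .nil)))))))
noncomputable def n9522 : Strat := .move 883 n9514 (.cons 760 n3016 .nil)
noncomputable def n9523 : Strat := .move 761 n5466 (.cons 679 n9522 .nil)
noncomputable def n9524 : Strat := .move 883 n9514 (.cons 760 n9474 .nil)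
noncomputable def n9525 : Strat := .move 761 n5466 (.cons 679 n9524 .nil)
noncomputable def n9526 : Strat := .move 720 n9476 (.cons 843 n9523 (.cons 924 n9525 (.cons 761 n9481 (.cons 679 n9483 .nil))))
noncomputable def n9527 : Strat := .move 802 n9473 (.cons 841 n9526 .nil)
noncomputable def n9528 : Strat := .move 761 n195 (.cons 762 n5466 .nil)
noncomputable def n9529 : Strat := .move 719 n9528 (.cons 679 n9480 .nil)
noncomputable def n9530 : Strat := .move 761 n195 (.cons 762 n9522 .nil)
noncomputable def n9531 : Strat := .move 719 n9530 (.cons 761 n9480 .nil)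
noncomputable def n9532 : Strat := .move 720 n9523 (.cons 761 n9481 (.cons 760 n9529 (.cons 679 n9531 .nil)))
noncomputable def n9533 : Strat := .move 802 n9473 (.cons 841 n9532 .nil)
noncomputable def n9534 : Strat := .move 761 n195 (.cons 762 n2965 .nil)
noncomputable def n9535 : Strat := .move 760 n2099 (.cons 679 n9534 .nil)
noncomputable def n9536 : Strat := .move 720 n9488 (.cons 680 n9535 (.cons 679 n9492 (.cons 760 n9480 .nil)))
noncomputable def n9537 : Strat := .move 883 n2121 (.cons 925 n2122 .nil)
noncomputable def n9538 : Strat := .move 884 n2935 (.cons 843 n9537 .nil)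
noncomputable def n9539 : Strat := .move 760 n731 (.cons 761 n9538 .nil)
noncomputable def n9540 : Strat := .move 716 n5159 (.cons 760 n2194 (.cons 674 n9495 (.cons 720 n9539 .nil)))
noncomputable def n9541 : Strat := .move 716 n5511 (.cons 675 n9539 .nil)
noncomputable def n9542 : Strat := .move 841 n944 (.cons 797 n514 .nil)
noncomputable def n9543 : Strat := .move 716 n199 (.cons 678 n42 .nil)
noncomputable def n9544 : Strat := .move 679 n9543 (.cons 675 n9500 .nil)
noncomputable def n9545 : Strat := .move 758 n152 (.cons 676 n9544 .nil)
noncomputable def n9546 : Strat := .move 798 n9542 (.cons 841 n9545 .nil)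
noncomputable def n9547 : Strat := .win 758 1 675
noncomputable def n9548 : Strat := .move 676 n5528 (.cons 675 n9547 .nil)
noncomputable def n9549 : Strat := .move 798 n4792 (.cons 797 n9548 .nil)
noncomputable def n9550 : Strat := .move 761 n195 (.cons 762 n9549 .nil)
noncomputable def n9551 : Strat := .move 720 n9513 (.cons 679 n9550 (.cons 676 n9488 .nil))
noncomputable def n9552 : Strat := .move 716 n731 (.cons 761 n9494 .nil)
noncomputable def n9553 : Strat := .move 716 n731 (.cons 761 n9538 .nil)
noncomputable def n9554 : Strat := .move 716 n9494 (.cons 720 n9538 .nil)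
noncomputable def n9555 : Strat := .move 761 n2964 (.cons 883 n195 .nil)
noncomputable def n9556 : Strat := .move 720 n2099 (.cons 679 n9555 .nil)
noncomputable def n9557 : Strat := .move 760 n9552 (.cons 720 n9553 (.cons 761 n9554 (.cons 716 n9556 .nil)))
noncomputable def n9558 : Strat := .move 674 n9191 (.cons 673 n9190 .nil)
noncomputable def n9559 : Strat := .move 675 n5207 (.cons 720 n9558 .nil)
noncomputable def n9560 : Strat := .move 676 n9547 (.cons 758 n9559 .nil)
noncomputable def n9561 : Strat := .move 798 n9542 (.cons 843 n9560 .nil)
noncomputable def n9562 : Strat := .move 719 n9536 (.cons 758 n9540 (.cons 680 n9496 (.cons 720 n9541 (.cons 761 n9546 (.cons 716 n9551 (.cons 675 n9557 (.cons 760 n9561 .nil)))))))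
noncomputable def n9563 : Strat := .move 842 n9487 (.cons 797 n4467 (.cons 841 n9521 (.cons 798 n9527 (.cons 843 n9533 (.cons 802 n9562 .nil)))))
noncomputable def n9564 : Strat := .move 801 n9465 (.cons 802 n9472 (.cons 838 n9486 (.cons 800 n9563 .nil)))
noncomputable def n9565 : Strat := .move 839 n9451 (.cons 758 n9453 (.cons 798 n9464 (.cons 880 n9564 .nil)))
noncomputable def n9566 : Strat := .move 717 n9100 (.cons 839 n9138 (.cons 716 n9143 (.cons 758 n9403 (.cons 676 n9450 (.cons 677 n9565 .nil)))))
noncomputable def n9567 : Strat := .move 718 n8708 (.cons 758 n8831 (.cons 677 n8913 (.cons 800 n8929 (.cons 717 n8970 (.cons 881 n9054 (.cons 839 n9065 (.cons 798 n9098 (.cons 760 n9099 (.cons 759 n9566 .nil)))))))))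
noncomputable def n9568 : Strat := .move 799 n137 (.cons 841 n361 (.cons 675 n444 (.cons 677 n511 (.cons 796 n550 (.cons 802 n591 (.cons 837 n677 (.cons 760 n707 (.cons 1003 n902 (.cons 1005 n976 (.cons 921 n1233 (.cons 838 n1304 (.cons 801 n1458 (.cons 880 n1692 (.cons 797 n1835 (.cons 922 n2045 (.cons 881 n3116 (.cons 717 n3394 (.cons 759 n4045 (.cons 716 n4801 (.cons 718 n5094 (.cons 756 n5267 (.cons 839 n6575 (.cons 800 n7100 (.cons 758 n8172 (.cons 798 n8687 (.cons 757 n9567 .nil))))))))))))))))))))))))))

end Vale.Agent.Snaky.R1_1
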