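import Vale.Agent.Snaky.Assemble

namespace Vale.Agent.Snaky.R2_0

open Vale.Agent.Snaky

noncomputable def n0 : Strat := .win 716 7 716
noncomputable def n1 : Strat := .win 798 7 757
noncomputable def n2 : Strat := .win 718 3 717
noncomputable def n3 : Strat := .win 800 3 758
noncomputable def n4 : Strat := .move 759 n2 (.cons 718 n3 .nil)
noncomputable def n5 : Strat := .move 922 n1 (.cons 798 n4 .nil)
noncomputable def n6 : Strat := .move 757 n0 (.cons 716 n5 .nil)
noncomputable def n7 : Strat := .win 923 6 758
noncomputable def n8 : Strat := .win 841 6 717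
noncomputable def n9 : Strat := .win 921 1 757
noncomputable def n10 : Strat := .win 839 1 716
noncomputable def n11 : Strat := .move 880 n9 (.cons 921 n10 .nil)
noncomputable def n12 : Strat := .move 717 n8 (.cons 841 n11 .nil)
noncomputable def n13 : Strat := .move 882 n7 (.cons 923 n12 .nil)
noncomputable def n14 : Strat := .move 758 n6 (.cons 757 n13 .nil)
noncomputable def n15 : Strat := .win 880 1 757
noncomputable def n16 : Strat := .win 962 1 798
noncomputable def n17 : Strat := .move 921 n15 (.cons 880 n16 .nil)
noncomputable def n18 : Strat := .move 922 n1 (.cons 798 n17 .nil)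
noncomputable def n19 : Strat := .move 757 n0 (.cons 716 n18 .nil)
noncomputable def n20 : Strat := .win 759 3 717
noncomputable def n21 : Strat := .win 677 3 676
noncomputable def n22 : Strat := .move 718 n20 (.cons 759 n21 .nil)
noncomputable def n23 : Strat := .move 717 n10 (.cons 839 n22 .nil)
noncomputable def n24 : Strat := .move 880 n9 (.cons 921 n23 .nil)
noncomputable def n25 : Strat := .move 758 n6 (.cons 800 n19 (.cons 757 n24 .nil))
noncomputable def n26 : Strat := .win 757 7 716
noncomputable def n27 : Strat := .win 675 7 675
noncomputable def n28 : Strat := .move 716 n26 (.cons 757 n27 .nil)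
noncomputable def n29 : Strat := .move 717 n10 (.cons 839 n28 .nil)
noncomputable def n30 : Strat := .move 880 n9 (.cons 921 n29 .nil)
noncomputable def n31 : Strat := .move 717 n10 (.cons 839 n8 .nil)
noncomputable def n32 : Strat := .move 882 n7 (.cons 923 n31 .nil)
noncomputable def n33 : Strat := .move 880 n9 (.cons 921 n32 .nil)
noncomputable def n34 : Strat := .win 882 6 758
noncomputable def n35 : Strat := .win 964 6 799
noncomputable def n36 : Strat := .move 923 n34 (.cons 882 n35 .nil)
noncomputable def n37 : Strat := .move 922 n1 (.cons 798 n36 .nil)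
noncomputable def n38 : Strat := .move 757 n0 (.cons 716 n37 .nil)
noncomputable def n39 : Strat := .move 758 n30 (.cons 675 n33 (.cons 880 n38 .nil))
noncomputable def n40 : Strat := .move 717 n8 (.cons 841 n22 .nil)
noncomputable def n41 : Strat := .move 882 n7 (.cons 923 n40 .nil)
noncomputable def n42 : Strat := .move 922 n3 (.cons 800 n17 .nil)
noncomputable def n43 : Strat := .move 759 n2 (.cons 718 n42 .nil)
noncomputable def n44 : Strat := .move 758 n41 (.cons 882 n43 (.cons 759 n13 .nil))
noncomputable def n45 : Strat := .win 759 3 758
noncomputable def n46 : Strat := .win 841 3 799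
noncomputable def n47 : Strat := .win 923 6 799
noncomputable def n48 : Strat := .win 1005 6 840
noncomputable def n49 : Strat := .move 964 n47 (.cons 923 n48 .nil)
noncomputable def n50 : Strat := .move 963 n46 (.cons 841 n49 .nil)
noncomputable def n51 : Strat := .move 800 n45 (.cons 759 n50 .nil)
noncomputable def n52 : Strat := .move 757 n0 (.cons 716 n1 .nil)
noncomputable def n53 : Strat := .move 758 n34 (.cons 882 n52 .nil)
noncomputable def n54 : Strat := .move 923 n35 (.cons 964 n53 .nil)
noncomputable def n55 : Strat := .win 757 7 757
noncomputable def n56 : Strat := .win 839 7 798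
noncomputable def n57 : Strat := .move 798 n55 (.cons 757 n56 .nil)
noncomputable def n58 : Strat := .move 963 n46 (.cons 841 n57 .nil)
noncomputable def n59 : Strat := .move 800 n45 (.cons 759 n58 .nil)
noncomputable def n60 : Strat := .move 922 n51 (.cons 800 n54 (.cons 923 n59 .nil))
noncomputable def n61 : Strat := .win 921 1 798
noncomputable def n62 : Strat := .win 1003 1 839
noncomputable def n63 : Strat := .move 962 n61 (.cons 921 n62 .nil)
noncomputable def n64 : Strat := .move 963 n46 (.cons 841 n63 .nil)
noncomputable def n65 : Strat := .move 800 n45 (.cons 759 n64 .nil)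
noncomputable def n66 : Strat := .move 963 n56 (.cons 839 n49 .nil)
noncomputable def n67 : Strat := .move 798 n55 (.cons 757 n66 .nil)
noncomputable def n68 : Strat := .win 883 5 879
noncomputable def n69 : Strat := .win 919 5 878
noncomputable def n70 : Strat := .move 882 n68 (.cons 883 n69 .nil)
noncomputable def n71 : Strat := .win 924 2 879
noncomputable def n72 : Strat := .win 878 0 878
noncomputable def n73 : Strat := .move 879 n71 (.cons 924 n72 .nil)
noncomputable def n74 : Strat := .win 925 2 880
noncomputable def n75 : Strat := .win 879 2 879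
noncomputable def n76 : Strat := .move 924 n74 (.cons 925 n75 .nil)
noncomputable def n77 : Strat := .win 839 1 797
noncomputable def n78 : Strat := .win 960 4 919
noncomputable def n79 : Strat := .move 961 n77 (.cons 839 n78 .nil)
noncomputable def n80 : Strat := .move 880 n73 (.cons 878 n76 (.cons 924 n79 .nil))
noncomputable def n81 : Strat := .move 920 n70 (.cons 919 n80 .nil)
noncomputable def n82 : Strat := .move 798 n55 (.cons 757 n81 .nil)
noncomputable def n83 : Strat := .move 800 n45 (.cons 759 n82 .nil)
noncomputable def n84 : Strat := .move 923 n35 (.cons 964 n83 .nil)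
noncomputable def n85 : Strat := .move 921 n16 (.cons 962 n84 .nil)
noncomputable def n86 : Strat := .move 922 n65 (.cons 800 n67 (.cons 963 n85 .nil))
noncomputable def n87 : Strat := .move 717 n8 (.cons 841 n28 .nil)
noncomputable def n88 : Strat := .move 882 n7 (.cons 923 n87 .nil)
noncomputable def n89 : Strat := .win 801 0 756
noncomputable def n90 : Strat := .win 755 0 755
noncomputable def n91 : Strat := .move 800 n89 (.cons 801 n90 .nil)
noncomputable def n92 : Strat := .win 760 4 756
noncomputable def n93 : Strat := .win 796 4 755
noncomputable def n94 : Strat := .move 797 n92 (.cons 760 n93 .nil)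
noncomputable def n95 : Strat := .win 761 4 757
noncomputable def n96 : Strat := .win 797 4 756
noncomputable def n97 : Strat := .move 760 n95 (.cons 761 n96 .nil)
noncomputable def n98 : Strat := .win 839 7 715
noncomputable def n99 : Strat := .win 714 2 714
noncomputable def n100 : Strat := .move 715 n98 (.cons 839 n99 .nil)
noncomputable def n101 : Strat := .move 798 n94 (.cons 796 n97 (.cons 760 n100 .nil))
noncomputable def n102 : Strat := .move 756 n91 (.cons 755 n101 .nil)
noncomputable def n103 : Strat := .move 880 n9 (.cons 921 n102 .nil)
noncomputable def n104 : Strat := .move 882 n7 (.cons 923 n103 .nil)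
noncomputable def n105 : Strat := .move 759 n2 (.cons 718 n104 .nil)
noncomputable def n106 : Strat := .move 757 n0 (.cons 716 n105 .nil)
noncomputable def n107 : Strat := .move 758 n88 (.cons 882 n24 (.cons 717 n106 .nil))
noncomputable def n108 : Strat := .move 922 n3 (.cons 800 n52 .nil)
noncomputable def n109 : Strat := .move 759 n2 (.cons 718 n108 .nil)
noncomputable def n110 : Strat := .move 922 n3 (.cons 800 n36 .nil)
noncomputable def n111 : Strat := .move 759 n2 (.cons 718 n110 .nil)
noncomputable def n112 : Strat := .win 717 6 717
noncomputable def n113 : Strat := .move 756 n89 (.cons 801 n90 .nil)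
noncomputable def n114 : Strat := .win 802 2 757
noncomputable def n115 : Strat := .win 756 0 756
noncomputable def n116 : Strat := .move 801 n114 (.cons 802 n115 .nil)
noncomputable def n117 : Strat := .win 719 3 718
noncomputable def n118 : Strat := .move 798 n96 (.cons 797 n95 .nil)
noncomputable def n119 : Strat := .move 760 n117 (.cons 719 n118 .nil)
noncomputable def n120 : Strat := .move 800 n113 (.cons 755 n116 (.cons 801 n119 .nil))
noncomputable def n121 : Strat := .move 841 n112 (.cons 717 n120 .nil)
noncomputable def n122 : Strat := .move 882 n7 (.cons 923 n121 .nil)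
noncomputable def n123 : Strat := .move 757 n0 (.cons 716 n122 .nil)
noncomputable def n124 : Strat := .move 759 n2 (.cons 718 n123 .nil)
noncomputable def n125 : Strat := .move 758 n109 (.cons 759 n38 (.cons 798 n111 (.cons 922 n124 .nil)))
noncomputable def n126 : Strat := .move 881 n14 (.cons 841 n25 (.cons 800 n39 (.cons 798 n44 (.cons 880 n60 (.cons 758 n86 (.cons 922 n107 (.cons 839 n125 .nil)))))))
noncomputable def n127 : Strat := .move 881 n30 (.cons 675 n33 (.cons 880 n38 .nil))
noncomputable def n128 : Strat := .move 718 n21 (.cons 677 n20 .nil)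
noncomputable def n129 : Strat := .move 717 n8 (.cons 841 n128 .nil)
noncomputable def n130 : Strat := .move 882 n7 (.cons 923 n129 .nil)
noncomputable def n131 : Strat := .move 717 n10 (.cons 839 n128 .nil)
noncomputable def n132 : Strat := .move 880 n9 (.cons 921 n131 .nil)
noncomputable def n133 : Strat := .move 922 n16 (.cons 962 n36 .nil)
noncomputable def n134 : Strat := .move 921 n15 (.cons 880 n133 .nil)
noncomputable def n135 : Strat := .move 881 n33 (.cons 880 n130 (.cons 882 n132 (.cons 717 n134 .nil)))
noncomputable def n136 : Strat := .move 881 n38 (.cons 757 n130 (.cons 882 n19 .nil))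
noncomputable def n137 : Strat := .move 881 n19 (.cons 757 n132 (.cons 880 n38 .nil))
noncomputable def n138 : Strat := .win 880 1 716
noncomputable def n139 : Strat := .win 676 1 675
noncomputable def n140 : Strat := .win 720 4 716
noncomputable def n141 : Strat := .win 756 4 715
noncomputable def n142 : Strat := .move 719 n140 (.cons 720 n141 .nil)
noncomputable def n143 : Strat := .win 674 7 674
noncomputable def n144 : Strat := .win 760 0 715
noncomputable def n145 : Strat := .win 714 0 714
noncomputable def n146 : Strat := .move 759 n144 (.cons 760 n145 .nil)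
noncomputable def n147 : Strat := .move 715 n143 (.cons 674 n146 .nil)
noncomputable def n148 : Strat := .move 757 n142 (.cons 756 n147 .nil)
noncomputable def n149 : Strat := .move 798 n139 (.cons 676 n148 .nil)
noncomputable def n150 : Strat := .move 839 n138 (.cons 880 n149 .nil)
noncomputable def n151 : Strat := .move 718 n21 (.cons 677 n150 .nil)
noncomputable def n152 : Strat := .move 716 n27 (.cons 675 n151 .nil)
noncomputable def n153 : Strat := .win 798 1 675
noncomputable def n154 : Strat := .win 718 3 676
noncomputable def n155 : Strat := .win 636 3 635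
noncomputable def n156 : Strat := .move 677 n154 (.cons 718 n155 .nil)
noncomputable def n157 : Strat := .move 676 n153 (.cons 798 n156 .nil)
noncomputable def n158 : Strat := .move 839 n138 (.cons 880 n157 .nil)
noncomputable def n159 : Strat := .win 716 7 675
noncomputable def n160 : Strat := .win 634 7 634
noncomputable def n161 : Strat := .move 675 n159 (.cons 716 n160 .nil)
noncomputable def n162 : Strat := .move 676 n153 (.cons 798 n161 .nil)
noncomputable def n163 : Strat := .move 839 n138 (.cons 880 n162 .nil)
noncomputable def n164 : Strat := .move 759 n145 (.cons 714 n144 .nil)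
noncomputable def n165 : Strat := .win 755 4 714
noncomputable def n166 : Strat := .win 757 4 715
noncomputable def n167 : Strat := .win 762 0 717
noncomputable def n168 : Strat := .win 760 0 716
noncomputable def n169 : Strat := .move 761 n167 (.cons 762 n168 .nil)
noncomputable def n170 : Strat := .win 680 5 676
noncomputable def n171 : Strat := .win 678 5 675
noncomputable def n172 : Strat := .move 679 n170 (.cons 680 n171 .nil)
noncomputable def n173 : Strat := .move 720 n169 (.cons 760 n172 .nil)
noncomputable def n174 : Strat := .move 719 n166 (.cons 757 n173 .nil)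
noncomputable def n175 : Strat := .move 756 n165 (.cons 755 n174 .nil)
noncomputable def n176 : Strat := .win 759 0 714
noncomputable def n177 : Strat := .win 756 4 714
noncomputable def n178 : Strat := .win 754 4 713
noncomputable def n179 : Strat := .move 755 n177 (.cons 756 n178 .nil)
noncomputable def n180 : Strat := .move 714 n176 (.cons 759 n179 .nil)
noncomputable def n181 : Strat := .move 715 n164 (.cons 759 n175 (.cons 760 n180 .nil))
noncomputable def n182 : Strat := .move 718 n21 (.cons 677 n181 .nil)
noncomputable def n183 : Strat := .move 716 n27 (.cons 675 n182 .nil)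
noncomputable def n184 : Strat := .move 717 n152 (.cons 716 n158 (.cons 718 n163 (.cons 839 n183 .nil)))
noncomputable def n185 : Strat := .move 716 n26 (.cons 757 n134 .nil)
noncomputable def n186 : Strat := .win 837 0 837
noncomputable def n187 : Strat := .win 883 2 838
noncomputable def n188 : Strat := .move 838 n186 (.cons 837 n187 .nil)
noncomputable def n189 : Strat := .win 838 2 838
noncomputable def n190 : Strat := .win 884 2 839
noncomputable def n191 : Strat := .move 883 n189 (.cons 838 n190 .nil)
noncomputable def n192 : Strat := .win 798 1 756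
noncomputable def n193 : Strat := .win 919 4 878
noncomputable def n194 : Strat := .move 920 n192 (.cons 798 n193 .nil)
noncomputable def n195 : Strat := .win 877 5 836
noncomputable def n196 : Strat := .win 841 5 837
noncomputable def n197 : Strat := .move 878 n195 (.cons 877 n196 .nil)
noncomputable def n198 : Strat := .move 879 n194 (.cons 919 n197 .nil)
noncomputable def n199 : Strat := .move 759 n2 (.cons 718 n198 .nil)
noncomputable def n200 : Strat := .move 839 n188 (.cons 837 n191 (.cons 838 n199 .nil))
noncomputable def n201 : Strat := .move 757 n0 (.cons 716 n200 .nil)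
noncomputable def n202 : Strat := .move 882 n7 (.cons 923 n201 .nil)
noncomputable def n203 : Strat := .move 880 n9 (.cons 921 n202 .nil)
noncomputable def n204 : Strat := .move 881 n185 (.cons 757 n134 (.cons 880 n38 (.cons 882 n19 (.cons 922 n203 .nil))))
noncomputable def n205 : Strat := .win 922 7 757
noncomputable def n206 : Strat := .win 796 5 755
noncomputable def n207 : Strat := .move 797 n92 (.cons 760 n206 .nil)
noncomputable def n208 : Strat := .move 759 n2 (.cons 718 n207 .nil)
noncomputable def n209 : Strat := .move 798 n205 (.cons 922 n208 .nil)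
noncomputable def n210 : Strat := .move 757 n0 (.cons 716 n209 .nil)
noncomputable def n211 : Strat := .move 881 n38 (.cons 716 n130 (.cons 923 n210 .nil))
noncomputable def n212 : Strat := .move 758 n127 (.cons 716 n135 (.cons 839 n136 (.cons 841 n137 (.cons 881 n184 (.cons 717 n204 (.cons 880 n211 .nil))))))
noncomputable def n213 : Strat := .win 800 3 799
noncomputable def n214 : Strat := .win 1004 3 840
noncomputable def n215 : Strat := .move 963 n213 (.cons 800 n214 .nil)
noncomputable def n216 : Strat := .move 841 n112 (.cons 717 n215 .nil)
noncomputable def n217 : Strat := .move 922 n16 (.cons 962 n216 .nil)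
noncomputable def n218 : Strat := .move 921 n15 (.cons 880 n217 .nil)
noncomputable def n219 : Strat := .move 882 n7 (.cons 923 n218 .nil)
noncomputable def n220 : Strat := .move 758 n38 (.cons 716 n219 (.cons 882 n19 (.cons 922 n88 .nil)))
noncomputable def n221 : Strat := .move 758 n15 (.cons 880 n4 .nil)
noncomputable def n222 : Strat := .move 921 n16 (.cons 962 n221 .nil)
noncomputable def n223 : Strat := .win 963 3 799
noncomputable def n224 : Strat := .win 676 6 676
noncomputable def n225 : Strat := .win 882 6 717
noncomputable def n226 : Strat := .move 717 n224 (.cons 676 n225 .nil)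
noncomputable def n227 : Strat := .move 841 n223 (.cons 963 n226 .nil)
noncomputable def n228 : Strat := .move 758 n0 (.cons 716 n227 .nil)
noncomputable def n229 : Strat := .move 757 n1 (.cons 798 n228 .nil)
noncomputable def n230 : Strat := .move 800 n45 (.cons 759 n229 .nil)
noncomputable def n231 : Strat := .move 758 n15 (.cons 880 n52 .nil)
noncomputable def n232 : Strat := .move 921 n16 (.cons 962 n231 .nil)
noncomputable def n233 : Strat := .move 922 n222 (.cons 962 n230 (.cons 800 n232 (.cons 758 n65 .nil)))
noncomputable def n234 : Strat := .move 758 n15 (.cons 880 n34 .nil)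
noncomputable def n235 : Strat := .move 921 n16 (.cons 962 n234 .nil)
noncomputable def n236 : Strat := .move 923 n35 (.cons 964 n235 .nil)
noncomputable def n237 : Strat := .move 798 n55 (.cons 757 n236 .nil)
noncomputable def n238 : Strat := .win 758 6 758
noncomputable def n239 : Strat := .win 884 4 880
noncomputable def n240 : Strat := .win 920 5 879
noncomputable def n241 : Strat := .move 883 n239 (.cons 884 n240 .nil)
noncomputable def n242 : Strat := .move 921 n16 (.cons 962 n241 .nil)
noncomputable def n243 : Strat := .move 882 n238 (.cons 758 n242 .nil)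
noncomputable def n244 : Strat := .move 923 n35 (.cons 964 n243 .nil)
noncomputable def n245 : Strat := .win 841 1 799
noncomputable def n246 : Strat := .win 1045 3 881
noncomputable def n247 : Strat := .win 1044 1 880
noncomputable def n248 : Strat := .win 962 1 839
noncomputable def n249 : Strat := .move 1003 n247 (.cons 1044 n248 .nil)
noncomputable def n250 : Strat := .move 1004 n246 (.cons 1045 n249 .nil)
noncomputable def n251 : Strat := .move 963 n245 (.cons 841 n250 .nil)
noncomputable def n252 : Strat := .move 882 n238 (.cons 758 n251 .nil)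
noncomputable def n253 : Strat := .move 800 n45 (.cons 759 n252 .nil)
noncomputable def n254 : Strat := .move 923 n35 (.cons 964 n253 .nil)
noncomputable def n255 : Strat := .win 963 1 799
noncomputable def n256 : Strat := .win 965 6 800
noncomputable def n257 : Strat := .win 879 0 879
noncomputable def n258 : Strat := .move 880 n257 (.cons 879 n74 .nil)
noncomputable def n259 : Strat := .move 924 n256 (.cons 965 n258 .nil)
noncomputable def n260 : Strat := .move 841 n255 (.cons 963 n259 .nil)
noncomputable def n261 : Strat := .move 800 n45 (.cons 759 n260 .nil)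
noncomputable def n262 : Strat := .move 882 n238 (.cons 758 n261 .nil)
noncomputable def n263 : Strat := .move 923 n35 (.cons 964 n262 .nil)
noncomputable def n264 : Strat := .move 920 n68 (.cons 883 n69 .nil)
noncomputable def n265 : Strat := .move 883 n240 (.cons 920 n239 .nil)
noncomputable def n266 : Strat := .move 882 n264 (.cons 919 n265 (.cons 883 n259 .nil))
noncomputable def n267 : Strat := .move 841 n223 (.cons 963 n266 .nil)
noncomputable def n268 : Strat := .move 800 n45 (.cons 759 n267 .nil)
noncomputable def n269 : Strat := .move 921 n16 (.cons 962 n268 .nil)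
noncomputable def n270 : Strat := .move 923 n35 (.cons 964 n269 .nil)
noncomputable def n271 : Strat := .move 922 n237 (.cons 964 n222 (.cons 880 n244 (.cons 921 n254 (.cons 962 n263 (.cons 758 n270 .nil)))))
noncomputable def n272 : Strat := .win 922 3 758
noncomputable def n273 : Strat := .move 801 n115 (.cons 756 n114 .nil)
noncomputable def n274 : Strat := .move 757 n0 (.cons 716 n273 .nil)
noncomputable def n275 : Strat := .move 800 n272 (.cons 922 n274 .nil)
noncomputable def n276 : Strat := .move 759 n2 (.cons 718 n275 .nil)
noncomputable def n277 : Strat := .move 758 n111 (.cons 923 n276 (.cons 759 n88 .nil))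
noncomputable def n278 : Strat := .move 758 n38 (.cons 757 n130 (.cons 882 n19 .nil))
noncomputable def n279 : Strat := .move 922 n222 (.cons 921 n51 (.cons 800 n232 .nil))
noncomputable def n280 : Strat := .move 882 n69 (.cons 919 n68 .nil)
noncomputable def n281 : Strat := .win 878 2 878
noncomputable def n282 : Strat := .win 880 2 879
noncomputable def n283 : Strat := .win 884 5 880
noncomputable def n284 : Strat := .win 882 5 879
noncomputable def n285 : Strat := .move 883 n283 (.cons 884 n284 .nil)
noncomputable def n286 : Strat := .move 924 n282 (.cons 880 n285 .nil)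
noncomputable def n287 : Strat := .move 879 n281 (.cons 878 n286 .nil)
noncomputable def n288 : Strat := .win 967 0 922
noncomputable def n289 : Strat := .win 965 0 921
noncomputable def n290 : Strat := .move 966 n288 (.cons 967 n289 .nil)
noncomputable def n291 : Strat := .win 885 5 881
noncomputable def n292 : Strat := .win 883 5 880
noncomputable def n293 : Strat := .move 884 n291 (.cons 885 n292 .nil)
noncomputable def n294 : Strat := .move 925 n290 (.cons 965 n293 .nil)
noncomputable def n295 : Strat := .move 924 n282 (.cons 880 n294 .nil)
noncomputable def n296 : Strat := .move 879 n281 (.cons 878 n295 .nil)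
noncomputable def n297 : Strat := .win 882 5 878
noncomputable def n298 : Strat := .win 879 2 878
noncomputable def n299 : Strat := .win 877 2 877
noncomputable def n300 : Strat := .move 878 n298 (.cons 879 n299 .nil)
noncomputable def n301 : Strat := .move 919 n297 (.cons 882 n300 .nil)
noncomputable def n302 : Strat := .move 920 n280 (.cons 919 n287 (.cons 882 n296 (.cons 883 n301 .nil)))
noncomputable def n303 : Strat := .move 921 n16 (.cons 962 n302 .nil)
noncomputable def n304 : Strat := .move 923 n35 (.cons 964 n303 .nil)
noncomputable def n305 : Strat := .move 922 n270 (.cons 923 n65 (.cons 921 n51 (.cons 800 n304 .nil)))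
noncomputable def n306 : Strat := .move 800 n90 (.cons 755 n89 .nil)
noncomputable def n307 : Strat := .win 798 4 756
noncomputable def n308 : Strat := .win 802 0 757
noncomputable def n309 : Strat := .win 800 0 756
noncomputable def n310 : Strat := .move 801 n308 (.cons 802 n309 .nil)
noncomputable def n311 : Strat := .move 760 n307 (.cons 798 n310 .nil)
noncomputable def n312 : Strat := .move 797 n93 (.cons 796 n311 .nil)
noncomputable def n313 : Strat := .win 803 0 758
noncomputable def n314 : Strat := .win 801 0 757
noncomputable def n315 : Strat := .move 802 n313 (.cons 803 n314 .nil)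
noncomputable def n316 : Strat := .win 721 5 717
noncomputable def n317 : Strat := .win 719 5 716
noncomputable def n318 : Strat := .move 720 n316 (.cons 721 n317 .nil)
noncomputable def n319 : Strat := .move 761 n315 (.cons 801 n318 .nil)
noncomputable def n320 : Strat := .move 760 n307 (.cons 798 n319 .nil)
noncomputable def n321 : Strat := .move 797 n93 (.cons 796 n320 .nil)
noncomputable def n322 : Strat := .win 800 0 755
noncomputable def n323 : Strat := .win 797 4 755
noncomputable def n324 : Strat := .win 795 4 754
noncomputable def n325 : Strat := .move 796 n323 (.cons 797 n324 .nil)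
noncomputable def n326 : Strat := .move 755 n322 (.cons 800 n325 .nil)
noncomputable def n327 : Strat := .move 756 n306 (.cons 755 n312 (.cons 800 n321 (.cons 801 n326 .nil)))
noncomputable def n328 : Strat := .move 757 n0 (.cons 716 n327 .nil)
noncomputable def n329 : Strat := .move 759 n2 (.cons 718 n328 .nil)
noncomputable def n330 : Strat := .move 758 n124 (.cons 759 n88 (.cons 757 n41 (.cons 882 n329 .nil)))
noncomputable def n331 : Strat := .move 922 n3 (.cons 800 n1 .nil)
noncomputable def n332 : Strat := .move 759 n2 (.cons 718 n331 .nil)
noncomputable def n333 : Strat := .move 757 n0 (.cons 716 n332 .nil)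
noncomputable def n334 : Strat := .move 882 n7 (.cons 923 n333 .nil)
noncomputable def n335 : Strat := .move 797 n307 (.cons 798 n93 .nil)
noncomputable def n336 : Strat := .move 760 n310 (.cons 800 n335 .nil)
noncomputable def n337 : Strat := .win 713 2 713
noncomputable def n338 : Strat := .win 715 2 714
noncomputable def n339 : Strat := .move 714 n337 (.cons 713 n338 .nil)
noncomputable def n340 : Strat := .move 755 n322 (.cons 800 n339 .nil)
noncomputable def n341 : Strat := .move 796 n324 (.cons 795 n323 .nil)
noncomputable def n342 : Strat := .move 755 n339 (.cons 715 n341 .nil)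
noncomputable def n343 : Strat := .move 756 n91 (.cons 755 n336 (.cons 801 n340 (.cons 800 n342 .nil)))
noncomputable def n344 : Strat := .move 880 n9 (.cons 921 n343 .nil)
noncomputable def n345 : Strat := .move 759 n2 (.cons 718 n344 .nil)
noncomputable def n346 : Strat := .move 757 n0 (.cons 716 n345 .nil)
noncomputable def n347 : Strat := .move 882 n7 (.cons 923 n346 .nil)
noncomputable def n348 : Strat := .move 758 n334 (.cons 759 n19 (.cons 798 n43 (.cons 922 n347 .nil)))
noncomputable def n349 : Strat := .move 881 n125 (.cons 759 n220 (.cons 923 n233 (.cons 716 n271 (.cons 798 n277 (.cons 800 n278 (.cons 882 n279 (.cons 758 n305 (.cons 922 n330 (.cons 841 n348 .nil)))))))))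
noncomputable def n350 : Strat := .move 879 n72 (.cons 878 n71 .nil)
noncomputable def n351 : Strat := .move 923 n35 (.cons 964 n350 .nil)
noncomputable def n352 : Strat := .win 839 7 839
noncomputable def n353 : Strat := .win 1045 7 880
noncomputable def n354 : Strat := .move 1004 n352 (.cons 839 n353 .nil)
noncomputable def n355 : Strat := .move 963 n46 (.cons 841 n354 .nil)
noncomputable def n356 : Strat := .move 800 n45 (.cons 759 n355 .nil)
noncomputable def n357 : Strat := .move 880 n351 (.cons 923 n356 .nil)
noncomputable def n358 : Strat := .move 921 n16 (.cons 962 n357 .nil)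
noncomputable def n359 : Strat := .win 918 5 877
noncomputable def n360 : Strat := .win 959 4 918
noncomputable def n361 : Strat := .win 961 4 919
noncomputable def n362 : Strat := .move 960 n360 (.cons 959 n361 .nil)
noncomputable def n363 : Strat := .move 919 n359 (.cons 918 n362 .nil)
noncomputable def n364 : Strat := .move 880 n71 (.cons 924 n363 .nil)
noncomputable def n365 : Strat := .move 879 n281 (.cons 878 n364 .nil)
noncomputable def n366 : Strat := .win 880 0 879
noncomputable def n367 : Strat := .move 879 n366 (.cons 880 n281 .nil)
noncomputable def n368 : Strat := .move 880 n74 (.cons 925 n257 .nil)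
noncomputable def n369 : Strat := .win 926 2 881
noncomputable def n370 : Strat := .move 925 n369 (.cons 926 n290 .nil)
noncomputable def n371 : Strat := .move 924 n367 (.cons 878 n368 (.cons 880 n370 .nil))
noncomputable def n372 : Strat := .move 882 n68 (.cons 883 n371 .nil)
noncomputable def n373 : Strat := .move 920 n280 (.cons 882 n365 (.cons 919 n372 .nil))
noncomputable def n374 : Strat := .move 923 n35 (.cons 964 n373 .nil)
noncomputable def n375 : Strat := .move 921 n16 (.cons 962 n374 .nil)
noncomputable def n376 : Strat := .move 922 n358 (.cons 923 n65 (.cons 921 n51 (.cons 841 n375 .nil)))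
noncomputable def n377 : Strat := .move 757 n0 (.cons 716 n41 .nil)
noncomputable def n378 : Strat := .move 717 n21 (.cons 677 n28 .nil)
noncomputable def n379 : Strat := .move 718 n20 (.cons 759 n378 .nil)
noncomputable def n380 : Strat := .move 839 n189 (.cons 838 n190 .nil)
noncomputable def n381 : Strat := .win 841 6 759
noncomputable def n382 : Strat := .win 925 0 880
noncomputable def n383 : Strat := .move 924 n381 (.cons 841 n382 .nil)
noncomputable def n384 : Strat := .move 883 n380 (.cons 884 n383 .nil)
noncomputable def n385 : Strat := .move 800 n113 (.cons 755 n116 (.cons 801 n384 .nil))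
noncomputable def n386 : Strat := .move 757 n0 (.cons 716 n385 .nil)
noncomputable def n387 : Strat := .move 759 n2 (.cons 718 n386 .nil)
noncomputable def n388 : Strat := .move 880 n9 (.cons 921 n387 .nil)
noncomputable def n389 : Strat := .move 882 n7 (.cons 923 n388 .nil)
noncomputable def n390 : Strat := .move 758 n377 (.cons 882 n379 (.cons 718 n13 (.cons 717 n389 .nil)))
noncomputable def n391 : Strat := .win 758 1 757
noncomputable def n392 : Strat := .move 880 n391 (.cons 758 n351 .nil)
noncomputable def n393 : Strat := .move 921 n16 (.cons 962 n392 .nil)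
noncomputable def n394 : Strat := .move 922 n222 (.cons 962 n51 (.cons 759 n393 .nil))
noncomputable def n395 : Strat := .win 717 1 716
noncomputable def n396 : Strat := .move 839 n395 (.cons 717 n188 .nil)
noncomputable def n397 : Strat := .move 880 n9 (.cons 921 n396 .nil)
noncomputable def n398 : Strat := .move 882 n40 (.cons 759 n12 (.cons 841 n397 (.cons 717 n276 .nil)))
noncomputable def n399 : Strat := .move 758 n398 (.cons 759 n30 (.cons 757 n24 (.cons 839 n276 .nil)))
noncomputable def n400 : Strat := .move 800 n272 (.cons 922 n116 .nil)
noncomputable def n401 : Strat := .move 759 n2 (.cons 718 n400 .nil)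
noncomputable def n402 : Strat := .move 757 n0 (.cons 716 n401 .nil)
noncomputable def n403 : Strat := .move 758 n402 (.cons 759 n88 (.cons 716 n41 .nil))
noncomputable def n404 : Strat := .move 923 n35 (.cons 964 n234 .nil)
noncomputable def n405 : Strat := .move 921 n16 (.cons 962 n404 .nil)
noncomputable def n406 : Strat := .move 758 n34 (.cons 882 n4 .nil)
noncomputable def n407 : Strat := .move 923 n35 (.cons 964 n406 .nil)
noncomputable def n408 : Strat := .move 922 n405 (.cons 758 n375 (.cons 882 n222 (.cons 880 n407 .nil)))
noncomputable def n409 : Strat := .move 880 n9 (.cons 921 n31 .nil)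
noncomputable def n410 : Strat := .move 882 n7 (.cons 923 n409 .nil)
noncomputable def n411 : Strat := .move 757 n0 (.cons 716 n410 .nil)
noncomputable def n412 : Strat := .move 758 n411 (.cons 882 n30 (.cons 880 n88 (.cons 716 n410 (.cons 717 n134 .nil))))
noncomputable def n413 : Strat := .move 881 n44 (.cons 758 n376 (.cons 922 n390 (.cons 882 n394 (.cons 923 n399 (.cons 921 n403 (.cons 841 n408 (.cons 800 n412 .nil)))))))
noncomputable def n414 : Strat := .move 677 n155 (.cons 636 n154 .nil)
noncomputable def n415 : Strat := .move 676 n160 (.cons 634 n414 .nil)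
noncomputable def n416 : Strat := .move 675 n159 (.cons 716 n415 .nil)
noncomputable def n417 : Strat := .move 922 n35 (.cons 964 n416 .nil)
noncomputable def n418 : Strat := .move 923 n34 (.cons 882 n417 .nil)
noncomputable def n419 : Strat := .move 717 n10 (.cons 839 n418 .nil)
noncomputable def n420 : Strat := .move 880 n9 (.cons 921 n419 .nil)
noncomputable def n421 : Strat := .move 882 n7 (.cons 923 n188 .nil)
noncomputable def n422 : Strat := .move 839 n395 (.cons 717 n421 .nil)
noncomputable def n423 : Strat := .move 880 n9 (.cons 921 n422 .nil)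
noncomputable def n424 : Strat := .move 758 n24 (.cons 921 n111 (.cons 759 n420 (.cons 718 n423 .nil)))
noncomputable def n425 : Strat := .win 1046 6 881
noncomputable def n426 : Strat := .win 964 6 840
noncomputable def n427 : Strat := .move 1005 n425 (.cons 1046 n426 .nil)
noncomputable def n428 : Strat := .move 1004 n247 (.cons 1044 n427 .nil)
noncomputable def n429 : Strat := .move 1003 n248 (.cons 962 n428 .nil)
noncomputable def n430 : Strat := .move 758 n2 (.cons 718 n429 .nil)
noncomputable def n431 : Strat := .move 759 n3 (.cons 800 n430 .nil)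
noncomputable def n432 : Strat := .move 963 n56 (.cons 839 n431 .nil)
noncomputable def n433 : Strat := .move 798 n55 (.cons 757 n432 .nil)
noncomputable def n434 : Strat := .win 963 7 798
noncomputable def n435 : Strat := .win 801 4 797
noncomputable def n436 : Strat := .win 837 5 796
noncomputable def n437 : Strat := .move 838 n435 (.cons 801 n436 .nil)
noncomputable def n438 : Strat := .move 800 n45 (.cons 759 n437 .nil)
noncomputable def n439 : Strat := .move 839 n434 (.cons 963 n438 .nil)
noncomputable def n440 : Strat := .move 798 n55 (.cons 757 n439 .nil)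
noncomputable def n441 : Strat := .move 922 n67 (.cons 757 n407 (.cons 923 n433 (.cons 964 n440 .nil)))
noncomputable def n442 : Strat := .move 882 n7 (.cons 923 n397 .nil)
noncomputable def n443 : Strat := .move 758 n442 (.cons 883 n19 (.cons 880 n38 .nil))
noncomputable def n444 : Strat := .move 838 n436 (.cons 837 n435 .nil)
noncomputable def n445 : Strat := .move 839 n434 (.cons 963 n444 .nil)
noncomputable def n446 : Strat := .move 798 n55 (.cons 757 n445 .nil)
noncomputable def n447 : Strat := .move 800 n45 (.cons 759 n446 .nil)
noncomputable def n448 : Strat := .move 922 n447 (.cons 798 n375 .nil)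
noncomputable def n449 : Strat := .win 839 6 674
noncomputable def n450 : Strat := .win 633 6 633
noncomputable def n451 : Strat := .move 674 n449 (.cons 839 n450 .nil)
noncomputable def n452 : Strat := .move 715 n99 (.cons 714 n451 .nil)
noncomputable def n453 : Strat := .move 798 n92 (.cons 760 n452 .nil)
noncomputable def n454 : Strat := .move 797 n93 (.cons 796 n453 .nil)
noncomputable def n455 : Strat := .move 756 n306 (.cons 800 n454 .nil)
noncomputable def n456 : Strat := .move 759 n2 (.cons 718 n455 .nil)
noncomputable def n457 : Strat := .move 757 n0 (.cons 716 n456 .nil)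
noncomputable def n458 : Strat := .move 758 n442 (.cons 880 n457 (.cons 839 n347 .nil))
noncomputable def n459 : Strat := .move 881 n25 (.cons 757 n424 (.cons 921 n441 (.cons 839 n348 (.cons 759 n443 (.cons 758 n448 (.cons 922 n458 .nil))))))
noncomputable def n460 : Strat := .win 922 6 757
noncomputable def n461 : Strat := .win 715 7 715
noncomputable def n462 : Strat := .win 754 0 754
noncomputable def n463 : Strat := .move 755 n462 (.cons 754 n322 .nil)
noncomputable def n464 : Strat := .move 756 n461 (.cons 715 n463 .nil)
noncomputable def n465 : Strat := .move 798 n460 (.cons 922 n464 .nil)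
noncomputable def n466 : Strat := .move 757 n0 (.cons 716 n465 .nil)
noncomputable def n467 : Strat := .move 880 n9 (.cons 921 n466 .nil)
noncomputable def n468 : Strat := .move 880 n9 (.cons 921 n421 .nil)
noncomputable def n469 : Strat := .move 800 n45 (.cons 759 n36 .nil)
noncomputable def n470 : Strat := .move 922 n1 (.cons 798 n469 .nil)
noncomputable def n471 : Strat := .move 757 n0 (.cons 716 n470 .nil)
noncomputable def n472 : Strat := .move 839 n467 (.cons 757 n468 (.cons 880 n471 .nil))
noncomputable def n473 : Strat := .move 758 n472 (.cons 922 n106 (.cons 757 n43 (.cons 759 n38 .nil)))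
noncomputable def n474 : Strat := .move 757 n1 (.cons 798 n65 .nil)
noncomputable def n475 : Strat := .move 922 n474 (.cons 800 n67 (.cons 798 n65 (.cons 963 n85 .nil)))
noncomputable def n476 : Strat := .move 758 n185 (.cons 757 n134 (.cons 880 n38 (.cons 882 n19 (.cons 922 n203 .nil))))
noncomputable def n477 : Strat := .move 963 n56 (.cons 839 n63 .nil)
noncomputable def n478 : Strat := .move 798 n55 (.cons 757 n477 .nil)
noncomputable def n479 : Strat := .move 963 n46 (.cons 841 n56 .nil)
noncomputable def n480 : Strat := .move 800 n45 (.cons 759 n479 .nil)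
noncomputable def n481 : Strat := .move 798 n55 (.cons 757 n480 .nil)
noncomputable def n482 : Strat := .move 922 n478 (.cons 1003 n481 (.cons 757 n393 .nil))
noncomputable def n483 : Strat := .move 880 n391 (.cons 758 n350 .nil)
noncomputable def n484 : Strat := .move 923 n35 (.cons 964 n483 .nil)
noncomputable def n485 : Strat := .move 921 n16 (.cons 962 n484 .nil)
noncomputable def n486 : Strat := .move 922 n65 (.cons 921 n51 (.cons 800 n485 .nil))
noncomputable def n487 : Strat := .move 839 n186 (.cons 837 n187 .nil)
noncomputable def n488 : Strat := .win 841 4 837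
noncomputable def n489 : Strat := .move 878 n195 (.cons 877 n488 .nil)
noncomputable def n490 : Strat := .win 918 4 877
noncomputable def n491 : Strat := .win 920 4 878
noncomputable def n492 : Strat := .move 919 n490 (.cons 918 n491 .nil)
noncomputable def n493 : Strat := .move 878 n195 (.cons 877 n492 .nil)
noncomputable def n494 : Strat := .move 878 n488 (.cons 841 n492 .nil)
noncomputable def n495 : Strat := .win 1002 3 838
noncomputable def n496 : Strat := .win 798 3 797
noncomputable def n497 : Strat := .move 961 n495 (.cons 1002 n496 .nil)
noncomputable def n498 : Strat := .move 920 n193 (.cons 919 n497 .nil)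
noncomputable def n499 : Strat := .move 879 n489 (.cons 841 n493 (.cons 877 n494 (.cons 878 n498 .nil)))
noncomputable def n500 : Strat := .move 839 n186 (.cons 837 n499 .nil)
noncomputable def n501 : Strat := .move 839 n187 (.cons 883 n499 .nil)
noncomputable def n502 : Strat := .win 837 2 837
noncomputable def n503 : Strat := .move 878 n490 (.cons 918 n196 .nil)
noncomputable def n504 : Strat := .move 919 n491 (.cons 920 n503 .nil)
noncomputable def n505 : Strat := .move 879 n502 (.cons 837 n504 .nil)
noncomputable def n506 : Strat := .move 838 n487 (.cons 883 n500 (.cons 837 n501 (.cons 839 n505 .nil)))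
noncomputable def n507 : Strat := .move 880 n9 (.cons 921 n506 .nil)
noncomputable def n508 : Strat := .move 882 n7 (.cons 923 n507 .nil)
noncomputable def n509 : Strat := .move 922 n35 (.cons 964 n17 .nil)
noncomputable def n510 : Strat := .move 923 n34 (.cons 882 n509 .nil)
noncomputable def n511 : Strat := .move 758 n38 (.cons 757 n508 (.cons 923 n19 (.cons 798 n510 .nil)))
noncomputable def n512 : Strat := .move 922 n59 (.cons 757 n51 (.cons 841 n67 (.cons 963 n54 .nil)))
noncomputable def n513 : Strat := .win 922 1 758
noncomputable def n514 : Strat := .move 757 n0 (.cons 716 n113 .nil)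
noncomputable def n515 : Strat := .move 800 n513 (.cons 922 n514 .nil)
noncomputable def n516 : Strat := .move 759 n2 (.cons 718 n515 .nil)
noncomputable def n517 : Strat := .win 878 5 837
noncomputable def n518 : Strat := .win 839 1 756
noncomputable def n519 : Strat := .move 920 n518 (.cons 839 n193 .nil)
noncomputable def n520 : Strat := .move 798 n205 (.cons 922 n519 .nil)
noncomputable def n521 : Strat := .move 757 n0 (.cons 716 n520 .nil)
noncomputable def n522 : Strat := .move 879 n517 (.cons 878 n521 .nil)
noncomputable def n523 : Strat := .move 880 n9 (.cons 921 n522 .nil)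
noncomputable def n524 : Strat := .win 838 0 838
noncomputable def n525 : Strat := .move 839 n190 (.cons 884 n524 .nil)
noncomputable def n526 : Strat := .win 885 2 840
noncomputable def n527 : Strat := .win 839 2 839
noncomputable def n528 : Strat := .move 884 n526 (.cons 885 n527 .nil)
noncomputable def n529 : Strat := .win 800 6 759
noncomputable def n530 : Strat := .move 924 n382 (.cons 925 n529 .nil)
noncomputable def n531 : Strat := .move 883 n525 (.cons 838 n528 (.cons 884 n530 .nil))
noncomputable def n532 : Strat := .move 880 n9 (.cons 921 n531 .nil)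
noncomputable def n533 : Strat := .move 757 n0 (.cons 716 n532 .nil)
noncomputable def n534 : Strat := .move 759 n2 (.cons 718 n533 .nil)
noncomputable def n535 : Strat := .win 762 4 758
noncomputable def n536 : Strat := .win 798 4 757
noncomputable def n537 : Strat := .move 761 n535 (.cons 762 n536 .nil)
noncomputable def n538 : Strat := .move 760 n117 (.cons 719 n537 .nil)
noncomputable def n539 : Strat := .move 800 n513 (.cons 922 n538 .nil)
noncomputable def n540 : Strat := .move 759 n2 (.cons 718 n539 .nil)
noncomputable def n541 : Strat := .move 882 n516 (.cons 800 n523 (.cons 922 n534 (.cons 716 n540 .nil)))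
noncomputable def n542 : Strat := .win 883 0 838
noncomputable def n543 : Strat := .move 838 n542 (.cons 883 n186 .nil)
noncomputable def n544 : Strat := .move 883 n190 (.cons 884 n524 .nil)
noncomputable def n545 : Strat := .move 757 n0 (.cons 716 n194 .nil)
noncomputable def n546 : Strat := .move 839 n543 (.cons 837 n544 (.cons 883 n545 .nil))
noncomputable def n547 : Strat := .move 879 n517 (.cons 878 n546 .nil)
noncomputable def n548 : Strat := .move 880 n9 (.cons 921 n547 .nil)
noncomputable def n549 : Strat := .move 757 n0 (.cons 716 n120 .nil)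
noncomputable def n550 : Strat := .move 759 n2 (.cons 718 n549 .nil)
noncomputable def n551 : Strat := .move 879 n517 (.cons 878 n531 .nil)
noncomputable def n552 : Strat := .move 880 n9 (.cons 921 n551 .nil)
noncomputable def n553 : Strat := .move 759 n2 (.cons 718 n552 .nil)
noncomputable def n554 : Strat := .move 882 n534 (.cons 759 n548 (.cons 880 n550 (.cons 716 n553 .nil)))
noncomputable def n555 : Strat := .win 757 2 757
noncomputable def n556 : Strat := .win 803 2 758
noncomputable def n557 : Strat := .move 802 n555 (.cons 757 n556 .nil)
noncomputable def n558 : Strat := .move 757 n115 (.cons 756 n114 .nil)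
noncomputable def n559 : Strat := .win 760 5 756
noncomputable def n560 : Strat := .win 796 0 796
noncomputable def n561 : Strat := .move 797 n559 (.cons 760 n560 .nil)
noncomputable def n562 : Strat := .win 797 5 756
noncomputable def n563 : Strat := .move 760 n562 (.cons 797 n95 .nil)
noncomputable def n564 : Strat := .win 757 0 756
noncomputable def n565 : Strat := .win 755 2 755
noncomputable def n566 : Strat := .move 797 n565 (.cons 755 n560 .nil)
noncomputable def n567 : Strat := .move 756 n564 (.cons 757 n566 .nil)
noncomputable def n568 : Strat := .win 678 1 677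
noncomputable def n569 : Strat := .win 882 3 718
noncomputable def n570 : Strat := .move 719 n568 (.cons 678 n569 .nil)
noncomputable def n571 : Strat := .move 760 n95 (.cons 761 n570 .nil)
noncomputable def n572 : Strat := .move 798 n561 (.cons 796 n563 (.cons 760 n567 (.cons 797 n571 .nil)))
noncomputable def n573 : Strat := .win 839 4 798
noncomputable def n574 : Strat := .move 802 n556 (.cons 803 n573 .nil)
noncomputable def n575 : Strat := .move 801 n557 (.cons 803 n558 (.cons 802 n572 (.cons 757 n574 .nil)))
noncomputable def n576 : Strat := .move 800 n272 (.cons 922 n575 .nil)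
noncomputable def n577 : Strat := .move 759 n2 (.cons 718 n576 .nil)
noncomputable def n578 : Strat := .move 798 n95 (.cons 761 n562 .nil)
noncomputable def n579 : Strat := .move 761 n536 (.cons 798 n535 .nil)
noncomputable def n580 : Strat := .win 801 1 677
noncomputable def n581 : Strat := .win 637 1 636
noncomputable def n582 : Strat := .move 678 n580 (.cons 801 n581 .nil)
noncomputable def n583 : Strat := .move 719 n569 (.cons 882 n582 .nil)
noncomputable def n584 : Strat := .move 761 n535 (.cons 762 n583 .nil)
noncomputable def n585 : Strat := .move 798 n562 (.cons 797 n583 .nil)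
noncomputable def n586 : Strat := .move 760 n578 (.cons 797 n579 (.cons 798 n584 (.cons 761 n585 .nil)))
noncomputable def n587 : Strat := .move 800 n272 (.cons 922 n586 .nil)
noncomputable def n588 : Strat := .move 759 n2 (.cons 718 n587 .nil)
noncomputable def n589 : Strat := .move 841 n541 (.cons 759 n19 (.cons 922 n554 (.cons 716 n577 (.cons 798 n276 (.cons 757 n588 .nil)))))
noncomputable def n590 : Strat := .move 798 n92 (.cons 760 n100 .nil)
noncomputable def n591 : Strat := .move 797 n93 (.cons 796 n590 .nil)
noncomputable def n592 : Strat := .move 756 n306 (.cons 801 n340 (.cons 800 n591 .nil))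
noncomputable def n593 : Strat := .move 880 n9 (.cons 921 n592 .nil)
noncomputable def n594 : Strat := .move 759 n2 (.cons 718 n593 .nil)
noncomputable def n595 : Strat := .move 757 n0 (.cons 716 n594 .nil)
noncomputable def n596 : Strat := .move 757 n0 (.cons 716 n331 .nil)
noncomputable def n597 : Strat := .move 759 n2 (.cons 718 n596 .nil)
noncomputable def n598 : Strat := .move 758 n589 (.cons 757 n43 (.cons 759 n19 (.cons 922 n595 (.cons 880 n597 .nil))))
noncomputable def n599 : Strat := .move 759 n2 (.cons 718 n102 .nil)
noncomputable def n600 : Strat := .move 757 n0 (.cons 716 n599 .nil)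
noncomputable def n601 : Strat := .move 880 n9 (.cons 921 n600 .nil)
noncomputable def n602 : Strat := .move 758 n7 (.cons 923 n601 .nil)
noncomputable def n603 : Strat := .win 841 0 838
noncomputable def n604 : Strat := .move 883 n190 (.cons 884 n603 .nil)
noncomputable def n605 : Strat := .move 838 n186 (.cons 837 n604 .nil)
noncomputable def n606 : Strat := .win 880 2 838
noncomputable def n607 : Strat := .move 838 n603 (.cons 841 n606 .nil)
noncomputable def n608 : Strat := .move 883 n190 (.cons 884 n607 .nil)
noncomputable def n609 : Strat := .move 883 n603 (.cons 841 n606 .nil)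
noncomputable def n610 : Strat := .move 838 n186 (.cons 837 n609 .nil)
noncomputable def n611 : Strat := .win 962 3 798
noncomputable def n612 : Strat := .win 920 4 879
noncomputable def n613 : Strat := .move 921 n611 (.cons 962 n612 .nil)
noncomputable def n614 : Strat := .win 923 0 879
noncomputable def n615 : Strat := .win 921 4 879
noncomputable def n616 : Strat := .move 920 n193 (.cons 919 n615 .nil)
noncomputable def n617 : Strat := .move 879 n614 (.cons 923 n616 .nil)
noncomputable def n618 : Strat := .move 924 n382 (.cons 925 n617 .nil)
noncomputable def n619 : Strat := .move 878 n196 (.cons 841 n195 .nil)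
noncomputable def n620 : Strat := .move 879 n614 (.cons 923 n619 .nil)
noncomputable def n621 : Strat := .move 924 n382 (.cons 925 n620 .nil)
noncomputable def n622 : Strat := .move 880 n613 (.cons 962 n618 (.cons 921 n621 .nil))
noncomputable def n623 : Strat := .move 883 n190 (.cons 884 n622 .nil)
noncomputable def n624 : Strat := .win 801 5 797
noncomputable def n625 : Strat := .win 964 7 799
noncomputable def n626 : Strat := .win 878 4 837
noncomputable def n627 : Strat := .move 924 n366 (.cons 880 n256 .nil)
noncomputable def n628 : Strat := .move 879 n626 (.cons 878 n627 .nil)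
noncomputable def n629 : Strat := .move 923 n625 (.cons 964 n628 .nil)
noncomputable def n630 : Strat := .move 800 n624 (.cons 801 n629 .nil)
noncomputable def n631 : Strat := .win 796 2 796
noncomputable def n632 : Strat := .win 924 0 879
noncomputable def n633 : Strat := .move 923 n632 (.cons 924 n625 .nil)
noncomputable def n634 : Strat := .win 921 6 756
noncomputable def n635 : Strat := .win 715 6 715
noncomputable def n636 : Strat := .move 756 n634 (.cons 921 n635 .nil)
noncomputable def n637 : Strat := .move 880 n633 (.cons 964 n636 .nil)
noncomputable def n638 : Strat := .move 797 n631 (.cons 796 n637 .nil)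
noncomputable def n639 : Strat := .move 879 n626 (.cons 878 n638 .nil)
noncomputable def n640 : Strat := .win 718 1 717
noncomputable def n641 : Strat := .win 798 5 756
noncomputable def n642 : Strat := .move 797 n641 (.cons 798 n631 .nil)
noncomputable def n643 : Strat := .move 760 n117 (.cons 719 n642 .nil)
noncomputable def n644 : Strat := .move 759 n640 (.cons 718 n643 .nil)
noncomputable def n645 : Strat := .move 800 n624 (.cons 801 n644 .nil)
noncomputable def n646 : Strat := .move 841 n630 (.cons 800 n639 (.cons 880 n645 .nil))
noncomputable def n647 : Strat := .move 838 n186 (.cons 837 n646 .nil)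
noncomputable def n648 : Strat := .move 883 n190 (.cons 884 n606 .nil)
noncomputable def n649 : Strat := .move 838 n186 (.cons 837 n648 .nil)
noncomputable def n650 : Strat := .move 839 n605 (.cons 837 n608 (.cons 884 n610 (.cons 838 n623 (.cons 883 n647 (.cons 841 n649 .nil)))))
noncomputable def n651 : Strat := .move 798 n95 (.cons 761 n96 .nil)
noncomputable def n652 : Strat := .move 761 n536 (.cons 798 n315 .nil)
noncomputable def n653 : Strat := .win 841 3 718
noncomputable def n654 : Strat := .win 720 5 716
noncomputable def n655 : Strat := .move 719 n653 (.cons 841 n654 .nil)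
noncomputable def n656 : Strat := .move 800 n115 (.cons 756 n655 .nil)
noncomputable def n657 : Strat := .move 801 n308 (.cons 802 n656 .nil)
noncomputable def n658 : Strat := .move 760 n651 (.cons 797 n652 (.cons 798 n657 .nil))
noncomputable def n659 : Strat := .move 757 n0 (.cons 716 n658 .nil)
noncomputable def n660 : Strat := .move 759 n2 (.cons 718 n659 .nil)
noncomputable def n661 : Strat := .move 758 n7 (.cons 923 n660 .nil)
noncomputable def n662 : Strat := .move 838 n187 (.cons 883 n186 .nil)
noncomputable def n663 : Strat := .move 798 n191 (.cons 884 n662 (.cons 838 n464 .nil))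
noncomputable def n664 : Strat := .move 883 n190 (.cons 884 n198 .nil)
noncomputable def n665 : Strat := .move 879 n194 (.cons 919 n489 .nil)
noncomputable def n666 : Strat := .move 838 n186 (.cons 837 n665 .nil)
noncomputable def n667 : Strat := .move 839 n663 (.cons 838 n664 (.cons 883 n666 (.cons 798 n188 .nil)))
noncomputable def n668 : Strat := .move 757 n0 (.cons 716 n667 .nil)
noncomputable def n669 : Strat := .move 880 n9 (.cons 921 n668 .nil)
noncomputable def n670 : Strat := .move 758 n7 (.cons 923 n669 .nil)
noncomputable def n671 : Strat := .move 758 n7 (.cons 923 n388 .nil)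
noncomputable def n672 : Strat := .move 758 n9 (.cons 921 n600 .nil)
noncomputable def n673 : Strat := .win 883 4 879
noncomputable def n674 : Strat := .win 879 4 878
noncomputable def n675 : Strat := .move 919 n674 (.cons 879 n359 .nil)
noncomputable def n676 : Strat := .move 920 n673 (.cons 883 n675 .nil)
noncomputable def n677 : Strat := .move 921 n391 (.cons 758 n676 .nil)
noncomputable def n678 : Strat := .move 883 n190 (.cons 884 n612 .nil)
noncomputable def n679 : Strat := .move 921 n611 (.cons 962 n678 .nil)
noncomputable def n680 : Strat := .win 757 1 756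
noncomputable def n681 : Strat := .win 961 1 797
noncomputable def n682 : Strat := .move 798 n680 (.cons 757 n681 .nil)
noncomputable def n683 : Strat := .move 920 n193 (.cons 919 n682 .nil)
noncomputable def n684 : Strat := .move 879 n489 (.cons 841 n683 .nil)
noncomputable def n685 : Strat := .move 921 n611 (.cons 962 n684 .nil)
noncomputable def n686 : Strat := .move 838 n186 (.cons 837 n685 .nil)
noncomputable def n687 : Strat := .move 839 n188 (.cons 838 n679 (.cons 883 n686 .nil))
noncomputable def n688 : Strat := .move 878 n488 (.cons 841 n195 .nil)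
noncomputable def n689 : Strat := .win 961 3 797
noncomputable def n690 : Strat := .move 798 n689 (.cons 961 n680 .nil)
noncomputable def n691 : Strat := .move 920 n193 (.cons 919 n690 .nil)
noncomputable def n692 : Strat := .move 841 n626 (.cons 878 n691 .nil)
noncomputable def n693 : Strat := .move 879 n688 (.cons 877 n692 (.cons 878 n691 .nil))
noncomputable def n694 : Strat := .move 839 n186 (.cons 837 n693 .nil)
noncomputable def n695 : Strat := .move 839 n187 (.cons 883 n693 .nil)
noncomputable def n696 : Strat := .move 919 n491 (.cons 920 n490 .nil)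
noncomputable def n697 : Strat := .move 878 n196 (.cons 841 n696 .nil)
noncomputable def n698 : Strat := .move 879 n502 (.cons 837 n697 .nil)
noncomputable def n699 : Strat := .move 838 n487 (.cons 883 n694 (.cons 837 n695 (.cons 839 n698 .nil)))
noncomputable def n700 : Strat := .move 880 n672 (.cons 839 n677 (.cons 758 n687 (.cons 921 n699 .nil)))
noncomputable def n701 : Strat := .move 839 n191 (.cons 884 n662 (.cons 838 n198 .nil))
noncomputable def n702 : Strat := .move 757 n0 (.cons 716 n701 .nil)
noncomputable def n703 : Strat := .move 759 n2 (.cons 718 n702 .nil)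
noncomputable def n704 : Strat := .move 880 n9 (.cons 921 n703 .nil)
noncomputable def n705 : Strat := .move 758 n7 (.cons 923 n704 .nil)
noncomputable def n706 : Strat := .move 882 n602 (.cons 758 n650 (.cons 880 n661 (.cons 759 n670 (.cons 798 n671 (.cons 923 n700 (.cons 756 n705 .nil))))))
noncomputable def n707 : Strat := .move 881 n473 (.cons 758 n475 (.cons 800 n476 (.cons 882 n482 (.cons 757 n486 (.cons 759 n511 (.cons 921 n512 (.cons 923 n598 (.cons 922 n706 .nil))))))))
noncomputable def n708 : Strat := .move 881 n88 (.cons 882 n24 (.cons 717 n106 .nil))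
noncomputable def n709 : Strat := .move 881 n0 (.cons 716 n105 .nil)
noncomputable def n710 : Strat := .move 880 n9 (.cons 921 n667 .nil)
noncomputable def n711 : Strat := .move 882 n7 (.cons 923 n710 .nil)
noncomputable def n712 : Strat := .move 881 n0 (.cons 716 n711 .nil)
noncomputable def n713 : Strat := .move 882 n7 (.cons 923 n658 .nil)
noncomputable def n714 : Strat := .move 759 n2 (.cons 718 n713 .nil)
noncomputable def n715 : Strat := .move 881 n0 (.cons 716 n714 .nil)
noncomputable def n716 : Strat := .move 881 n0 (.cons 716 n594 .nil)
noncomputable def n717 : Strat := .win 759 0 756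
noncomputable def n718 : Strat := .move 756 n90 (.cons 755 n717 .nil)
noncomputable def n719 : Strat := .move 801 n114 (.cons 802 n718 .nil)
noncomputable def n720 : Strat := .win 798 2 756
noncomputable def n721 : Strat := .move 756 n90 (.cons 755 n720 .nil)
noncomputable def n722 : Strat := .move 801 n114 (.cons 802 n721 .nil)
noncomputable def n723 : Strat := .win 881 3 717
noncomputable def n724 : Strat := .win 677 1 676
noncomputable def n725 : Strat := .move 718 n723 (.cons 881 n724 .nil)
noncomputable def n726 : Strat := .move 759 n89 (.cons 801 n725 .nil)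
noncomputable def n727 : Strat := .move 756 n90 (.cons 755 n726 .nil)
noncomputable def n728 : Strat := .move 759 n115 (.cons 756 n725 .nil)
noncomputable def n729 : Strat := .move 801 n114 (.cons 802 n728 .nil)
noncomputable def n730 : Strat := .win 719 5 715
noncomputable def n731 : Strat := .move 718 n724 (.cons 677 n730 .nil)
noncomputable def n732 : Strat := .move 718 n723 (.cons 881 n730 .nil)
noncomputable def n733 : Strat := .move 761 n535 (.cons 762 n318 .nil)
noncomputable def n734 : Strat := .move 760 n307 (.cons 798 n733 .nil)
noncomputable def n735 : Strat := .move 797 n93 (.cons 796 n734 .nil)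
noncomputable def n736 : Strat := .move 759 n725 (.cons 881 n731 (.cons 677 n732 (.cons 718 n735 .nil)))
noncomputable def n737 : Strat := .move 756 n90 (.cons 755 n736 .nil)
noncomputable def n738 : Strat := .win 841 1 677
noncomputable def n739 : Strat := .move 678 n738 (.cons 841 n581 .nil)
noncomputable def n740 : Strat := .move 719 n654 (.cons 720 n739 .nil)
noncomputable def n741 : Strat := .move 760 n651 (.cons 797 n579 (.cons 798 n740 .nil))
noncomputable def n742 : Strat := .move 759 n725 (.cons 718 n741 .nil)
noncomputable def n743 : Strat := .move 801 n114 (.cons 802 n742 .nil)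
noncomputable def n744 : Strat := .move 800 n719 (.cons 759 n722 (.cons 802 n727 (.cons 755 n729 (.cons 801 n737 (.cons 756 n743 .nil)))))
noncomputable def n745 : Strat := .move 880 n9 (.cons 921 n385 .nil)
noncomputable def n746 : Strat := .move 882 n7 (.cons 923 n745 .nil)
noncomputable def n747 : Strat := .move 759 n2 (.cons 718 n746 .nil)
noncomputable def n748 : Strat := .move 881 n0 (.cons 716 n747 .nil)
noncomputable def n749 : Strat := .move 759 n89 (.cons 801 n731 .nil)
noncomputable def n750 : Strat := .move 756 n90 (.cons 755 n749 .nil)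
noncomputable def n751 : Strat := .win 756 2 756
noncomputable def n752 : Strat := .win 838 4 797
noncomputable def n753 : Strat := .win 761 5 757
noncomputable def n754 : Strat := .win 715 2 715
noncomputable def n755 : Strat := .win 675 6 675
noncomputable def n756 : Strat := .move 716 n754 (.cons 715 n755 .nil)
noncomputable def n757 : Strat := .move 759 n96 (.cons 797 n756 .nil)
noncomputable def n758 : Strat := .move 760 n753 (.cons 761 n757 .nil)
noncomputable def n759 : Strat := .move 839 n752 (.cons 838 n758 .nil)
noncomputable def n760 : Strat := .move 798 n751 (.cons 756 n759 .nil)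
noncomputable def n761 : Strat := .move 801 n114 (.cons 802 n760 .nil)
noncomputable def n762 : Strat := .win 716 2 715
noncomputable def n763 : Strat := .move 715 n762 (.cons 716 n99 .nil)
noncomputable def n764 : Strat := .move 760 n307 (.cons 798 n763 .nil)
noncomputable def n765 : Strat := .move 797 n93 (.cons 796 n764 .nil)
noncomputable def n766 : Strat := .move 759 n731 (.cons 718 n765 .nil)
noncomputable def n767 : Strat := .move 756 n90 (.cons 755 n766 .nil)
noncomputable def n768 : Strat := .win 759 2 715
noncomputable def n769 : Strat := .move 760 n768 (.cons 759 n753 .nil)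
noncomputable def n770 : Strat := .move 715 n143 (.cons 674 n769 .nil)
noncomputable def n771 : Strat := .move 716 n755 (.cons 675 n770 .nil)
noncomputable def n772 : Strat := .move 839 n752 (.cons 838 n771 .nil)
noncomputable def n773 : Strat := .win 759 4 756
noncomputable def n774 : Strat := .win 837 4 796
noncomputable def n775 : Strat := .win 839 4 797
noncomputable def n776 : Strat := .move 838 n774 (.cons 837 n775 .nil)
noncomputable def n777 : Strat := .move 797 n773 (.cons 759 n776 .nil)
noncomputable def n778 : Strat := .move 760 n753 (.cons 761 n777 .nil)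
noncomputable def n779 : Strat := .win 795 5 754
noncomputable def n780 : Strat := .win 841 0 796
noncomputable def n781 : Strat := .move 796 n779 (.cons 795 n780 .nil)
noncomputable def n782 : Strat := .move 797 n774 (.cons 837 n781 .nil)
noncomputable def n783 : Strat := .move 716 n755 (.cons 675 n782 .nil)
noncomputable def n784 : Strat := .move 838 n775 (.cons 839 n783 .nil)
noncomputable def n785 : Strat := .move 798 n759 (.cons 839 n758 (.cons 797 n772 (.cons 716 n778 (.cons 759 n784 .nil))))
noncomputable def n786 : Strat := .move 801 n114 (.cons 802 n785 .nil)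
noncomputable def n787 : Strat := .move 800 n719 (.cons 759 n722 (.cons 802 n750 (.cons 755 n761 (.cons 801 n767 (.cons 756 n786 .nil)))))
noncomputable def n788 : Strat := .move 880 n9 (.cons 921 n701 .nil)
noncomputable def n789 : Strat := .move 882 n7 (.cons 923 n788 .nil)
noncomputable def n790 : Strat := .move 759 n2 (.cons 718 n789 .nil)
noncomputable def n791 : Strat := .move 881 n0 (.cons 716 n790 .nil)
noncomputable def n792 : Strat := .move 757 n709 (.cons 718 n712 (.cons 880 n715 (.cons 923 n716 (.cons 716 n744 (.cons 798 n748 (.cons 881 n787 (.cons 756 n791 .nil)))))))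
noncomputable def n793 : Strat := .win 715 0 715
noncomputable def n794 : Strat := .win 761 2 716
noncomputable def n795 : Strat := .move 760 n793 (.cons 715 n794 .nil)
noncomputable def n796 : Strat := .move 715 n145 (.cons 714 n144 .nil)
noncomputable def n797 : Strat := .win 678 3 677
noncomputable def n798 : Strat := .move 757 n141 (.cons 756 n140 .nil)
noncomputable def n799 : Strat := .move 719 n797 (.cons 678 n798 .nil)
noncomputable def n800 : Strat := .move 800 n224 (.cons 676 n799 .nil)
noncomputable def n801 : Strat := .move 759 n795 (.cons 761 n796 (.cons 760 n800 .nil))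
noncomputable def n802 : Strat := .move 841 n225 (.cons 882 n801 .nil)
noncomputable def n803 : Strat := .move 716 n27 (.cons 675 n802 .nil)
noncomputable def n804 : Strat := .move 718 n21 (.cons 677 n803 .nil)
noncomputable def n805 : Strat := .win 800 6 676
noncomputable def n806 : Strat := .move 841 n225 (.cons 882 n805 .nil)
noncomputable def n807 : Strat := .move 676 n153 (.cons 798 n806 .nil)
noncomputable def n808 : Strat := .move 839 n138 (.cons 880 n807 .nil)
noncomputable def n809 : Strat := .win 719 4 715
noncomputable def n810 : Strat := .move 756 n809 (.cons 719 n165 .nil)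
noncomputable def n811 : Strat := .win 798 7 674
noncomputable def n812 : Strat := .win 673 2 673
noncomputable def n813 : Strat := .move 674 n811 (.cons 798 n812 .nil)
noncomputable def n814 : Strat := .move 757 n810 (.cons 755 n142 (.cons 719 n813 .nil))
noncomputable def n815 : Strat := .move 715 n146 (.cons 714 n814 .nil)
noncomputable def n816 : Strat := .move 841 n225 (.cons 882 n815 .nil)
noncomputable def n817 : Strat := .move 839 n138 (.cons 880 n816 .nil)
noncomputable def n818 : Strat := .move 718 n21 (.cons 677 n817 .nil)
noncomputable def n819 : Strat := .move 716 n27 (.cons 675 n818 .nil)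
noncomputable def n820 : Strat := .move 717 n152 (.cons 839 n804 (.cons 716 n808 (.cons 676 n819 .nil)))
noncomputable def n821 : Strat := .move 882 n7 (.cons 923 n191 .nil)
noncomputable def n822 : Strat := .move 839 n395 (.cons 717 n821 .nil)
noncomputable def n823 : Strat := .move 880 n9 (.cons 921 n822 .nil)
noncomputable def n824 : Strat := .move 839 n138 (.cons 880 n139 .nil)
noncomputable def n825 : Strat := .win 635 1 634
noncomputable def n826 : Strat := .win 839 1 675
noncomputable def n827 : Strat := .move 676 n825 (.cons 635 n826 .nil)
noncomputable def n828 : Strat := .move 882 n8 (.cons 841 n7 .nil)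
noncomputable def n829 : Strat := .move 717 n824 (.cons 880 n827 (.cons 839 n828 .nil))
noncomputable def n830 : Strat := .move 717 n8 (.cons 841 n827 .nil)
noncomputable def n831 : Strat := .move 882 n7 (.cons 923 n830 .nil)
noncomputable def n832 : Strat := .move 839 n191 (.cons 884 n662 (.cons 838 n464 .nil))
noncomputable def n833 : Strat := .move 882 n7 (.cons 923 n832 .nil)
noncomputable def n834 : Strat := .move 880 n9 (.cons 921 n833 .nil)
noncomputable def n835 : Strat := .move 839 n395 (.cons 717 n464 .nil)
noncomputable def n836 : Strat := .move 880 n9 (.cons 921 n835 .nil)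
noncomputable def n837 : Strat := .move 676 n825 (.cons 635 n414 .nil)
noncomputable def n838 : Strat := .move 717 n8 (.cons 841 n837 .nil)
noncomputable def n839 : Strat := .move 882 n7 (.cons 923 n838 .nil)
noncomputable def n840 : Strat := .move 798 n823 (.cons 921 n829 (.cons 880 n831 (.cons 717 n834 (.cons 882 n836 (.cons 839 n839 .nil)))))
noncomputable def n841 : Strat := .move 757 n0 (.cons 716 n840 .nil)
noncomputable def n842 : Strat := .move 716 n27 (.cons 675 n26 .nil)
noncomputable def n843 : Strat := .move 717 n10 (.cons 839 n842 .nil)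
noncomputable def n844 : Strat := .move 880 n9 (.cons 921 n843 .nil)
noncomputable def n845 : Strat := .move 717 n8 (.cons 841 n842 .nil)
noncomputable def n846 : Strat := .move 882 n7 (.cons 923 n845 .nil)
noncomputable def n847 : Strat := .move 880 n10 (.cons 839 n9 .nil)
noncomputable def n848 : Strat := .move 717 n8 (.cons 841 n847 .nil)
noncomputable def n849 : Strat := .move 882 n7 (.cons 923 n848 .nil)
noncomputable def n850 : Strat := .move 882 n7 (.cons 923 n669 .nil)
noncomputable def n851 : Strat := .move 881 n841 (.cons 882 n844 (.cons 880 n846 (.cons 757 n849 (.cons 717 n850 .nil))))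
noncomputable def n852 : Strat := .move 881 n124 (.cons 759 n88 (.cons 757 n41 (.cons 882 n329 .nil)))
noncomputable def n853 : Strat := .move 757 n105 (.cons 880 n714 (.cons 718 n711 (.cons 923 n594 (.cons 798 n747 (.cons 756 n790 .nil)))))
noncomputable def n854 : Strat := .move 881 n849 (.cons 882 n132 (.cons 880 n130 (.cons 717 n853 .nil)))
noncomputable def n855 : Strat := .move 757 n0 (.cons 716 n116 .nil)
noncomputable def n856 : Strat := .win 635 6 635
noncomputable def n857 : Strat := .move 676 n153 (.cons 798 n856 .nil)
noncomputable def n858 : Strat := .move 839 n138 (.cons 880 n857 .nil)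
noncomputable def n859 : Strat := .move 717 n8 (.cons 841 n858 .nil)
noncomputable def n860 : Strat := .move 882 n7 (.cons 923 n859 .nil)
noncomputable def n861 : Strat := .move 759 n855 (.cons 756 n846 (.cons 757 n860 .nil))
noncomputable def n862 : Strat := .move 801 n114 (.cons 802 n717 .nil)
noncomputable def n863 : Strat := .move 756 n90 (.cons 755 n862 .nil)
noncomputable def n864 : Strat := .move 757 n0 (.cons 716 n863 .nil)
noncomputable def n865 : Strat := .move 800 n861 (.cons 839 n864 (.cons 801 n849 .nil))
noncomputable def n866 : Strat := .move 757 n0 (.cons 716 n711 .nil)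
noncomputable def n867 : Strat := .move 881 n865 (.cons 882 n844 (.cons 757 n849 (.cons 839 n846 (.cons 717 n866 .nil))))
noncomputable def n868 : Strat := .move 881 n24 (.cons 759 n844 (.cons 839 n329 .nil))
noncomputable def n869 : Strat := .move 882 n7 (.cons 923 n662 .nil)
noncomputable def n870 : Strat := .move 839 n395 (.cons 717 n869 .nil)
noncomputable def n871 : Strat := .move 880 n9 (.cons 921 n870 .nil)
noncomputable def n872 : Strat := .move 798 n871 (.cons 717 n208 .nil)
noncomputable def n873 : Strat := .move 757 n0 (.cons 716 n872 .nil)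
noncomputable def n874 : Strat := .move 881 n873 (.cons 717 n203 (.cons 880 n846 (.cons 882 n844 (.cons 716 n33 .nil))))
noncomputable def n875 : Strat := .move 881 n377 (.cons 882 n379 (.cons 718 n13 (.cons 717 n389 .nil)))
noncomputable def n876 : Strat := .move 760 n794 (.cons 761 n793 .nil)
noncomputable def n877 : Strat := .move 759 n723 (.cons 881 n876 .nil)
noncomputable def n878 : Strat := .move 718 n21 (.cons 677 n877 .nil)
noncomputable def n879 : Strat := .move 716 n27 (.cons 675 n878 .nil)
noncomputable def n880 : Strat := .move 717 n879 (.cons 718 n808 .nil)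
noncomputable def n881 : Strat := .move 758 n708 (.cons 717 n792 (.cons 881 n820 (.cons 759 n851 (.cons 839 n852 (.cons 716 n854 (.cons 718 n867 (.cons 882 n868 (.cons 800 n874 (.cons 798 n875 (.cons 757 n880 .nil))))))))))
noncomputable def n882 : Strat := .move 758 n7 (.cons 923 n12 .nil)
noncomputable def n883 : Strat := .move 758 n7 (.cons 923 n397 .nil)
noncomputable def n884 : Strat := .win 922 6 799
noncomputable def n885 : Strat := .win 841 7 799
noncomputable def n886 : Strat := .move 964 n884 (.cons 922 n885 .nil)
noncomputable def n887 : Strat := .move 923 n238 (.cons 758 n886 .nil)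
noncomputable def n888 : Strat := .move 921 n391 (.cons 758 n611 .nil)
noncomputable def n889 : Strat := .move 880 n189 (.cons 838 n888 .nil)
noncomputable def n890 : Strat := .move 883 n190 (.cons 884 n889 .nil)
noncomputable def n891 : Strat := .move 880 n187 (.cons 883 n888 .nil)
noncomputable def n892 : Strat := .move 838 n186 (.cons 837 n891 .nil)
noncomputable def n893 : Strat := .move 758 n9 (.cons 921 n395 .nil)
noncomputable def n894 : Strat := .move 800 n272 (.cons 922 n383 .nil)
noncomputable def n895 : Strat := .move 759 n2 (.cons 718 n894 .nil)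
noncomputable def n896 : Strat := .move 758 n395 (.cons 717 n895 .nil)
noncomputable def n897 : Strat := .move 880 n888 (.cons 758 n613 (.cons 962 n893 (.cons 921 n896 .nil)))
noncomputable def n898 : Strat := .move 883 n190 (.cons 884 n897 .nil)
noncomputable def n899 : Strat := .move 759 n513 (.cons 922 n640 .nil)
noncomputable def n900 : Strat := .move 800 n624 (.cons 801 n899 .nil)
noncomputable def n901 : Strat := .move 921 n16 (.cons 962 n15 .nil)
noncomputable def n902 : Strat := .move 758 n112 (.cons 717 n901 .nil)
noncomputable def n903 : Strat := .move 922 n223 (.cons 963 n902 .nil)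
noncomputable def n904 : Strat := .move 800 n624 (.cons 801 n903 .nil)
noncomputable def n905 : Strat := .win 798 7 798
noncomputable def n906 : Strat := .move 963 n214 (.cons 1004 n905 .nil)
noncomputable def n907 : Strat := .move 922 n16 (.cons 962 n906 .nil)
noncomputable def n908 : Strat := .move 921 n15 (.cons 880 n907 .nil)
noncomputable def n909 : Strat := .move 758 n112 (.cons 717 n908 .nil)
noncomputable def n910 : Strat := .move 841 n900 (.cons 759 n904 (.cons 800 n909 (.cons 922 n645 .nil)))
noncomputable def n911 : Strat := .move 838 n186 (.cons 837 n910 .nil)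
noncomputable def n912 : Strat := .move 839 n605 (.cons 837 n890 (.cons 884 n892 (.cons 838 n898 (.cons 883 n911 .nil))))
noncomputable def n913 : Strat := .move 923 n35 (.cons 964 n242 .nil)
noncomputable def n914 : Strat := .move 839 n905 (.cons 798 n63 .nil)
noncomputable def n915 : Strat := .move 963 n46 (.cons 841 n914 .nil)
noncomputable def n916 : Strat := .move 800 n45 (.cons 759 n915 .nil)
noncomputable def n917 : Strat := .win 880 7 839
noncomputable def n918 : Strat := .move 1004 n917 (.cons 880 n246 .nil)
noncomputable def n919 : Strat := .move 839 n905 (.cons 798 n918 .nil)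
noncomputable def n920 : Strat := .move 963 n245 (.cons 841 n919 .nil)
noncomputable def n921 : Strat := .move 800 n45 (.cons 759 n920 .nil)
noncomputable def n922 : Strat := .move 923 n35 (.cons 964 n921 .nil)
noncomputable def n923 : Strat := .move 922 n913 (.cons 923 n916 (.cons 921 n922 .nil))
noncomputable def n924 : Strat := .move 882 n882 (.cons 841 n883 (.cons 839 n887 (.cons 923 n912 (.cons 758 n923 .nil))))
noncomputable def n925 : Strat := .move 922 n393 (.cons 924 n65 (.cons 921 n51 .nil))
noncomputable def n926 : Strat := .move 759 n2 (.cons 718 n33 .nil)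
noncomputable def n927 : Strat := .move 758 n926 (.cons 921 n41 (.cons 717 n134 (.cons 923 n24 .nil)))
noncomputable def n928 : Strat := .move 882 n238 (.cons 758 n241 .nil)
noncomputable def n929 : Strat := .move 923 n35 (.cons 964 n928 .nil)
noncomputable def n930 : Strat := .move 921 n16 (.cons 962 n929 .nil)
noncomputable def n931 : Strat := .move 922 n930 (.cons 923 n65 (.cons 962 n51 .nil))
noncomputable def n932 : Strat := .move 717 n8 (.cons 841 n163 .nil)
noncomputable def n933 : Strat := .move 882 n7 (.cons 923 n932 .nil)
noncomputable def n934 : Strat := .win 841 6 676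
noncomputable def n935 : Strat := .move 676 n856 (.cons 635 n934 .nil)
noncomputable def n936 : Strat := .move 880 n10 (.cons 839 n935 .nil)
noncomputable def n937 : Strat := .win 802 4 798
noncomputable def n938 : Strat := .win 798 4 797
noncomputable def n939 : Strat := .move 838 n938 (.cons 798 n436 .nil)
noncomputable def n940 : Strat := .move 801 n937 (.cons 802 n939 .nil)
noncomputable def n941 : Strat := .move 839 n138 (.cons 880 n940 .nil)
noncomputable def n942 : Strat := .move 717 n936 (.cons 839 n935 (.cons 676 n941 .nil))
noncomputable def n943 : Strat := .move 800 n272 (.cons 922 n942 .nil)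
noncomputable def n944 : Strat := .move 759 n2 (.cons 718 n943 .nil)
noncomputable def n945 : Strat := .move 758 n41 (.cons 759 n933 (.cons 841 n111 (.cons 882 n944 .nil)))
noncomputable def n946 : Strat := .win 798 6 798
noncomputable def n947 : Strat := .win 1004 7 839
noncomputable def n948 : Strat := .move 839 n946 (.cons 798 n947 .nil)
noncomputable def n949 : Strat := .move 800 n45 (.cons 759 n46 .nil)
noncomputable def n950 : Strat := .move 963 n948 (.cons 798 n354 (.cons 839 n949 .nil))
noncomputable def n951 : Strat := .move 880 n391 (.cons 758 n950 .nil)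
noncomputable def n952 : Strat := .move 921 n16 (.cons 962 n951 .nil)
noncomputable def n953 : Strat := .move 1003 n248 (.cons 962 n247 .nil)
noncomputable def n954 : Strat := .move 1004 n917 (.cons 880 n953 .nil)
noncomputable def n955 : Strat := .move 839 n905 (.cons 798 n954 .nil)
noncomputable def n956 : Strat := .move 963 n46 (.cons 841 n955 .nil)
noncomputable def n957 : Strat := .move 800 n45 (.cons 759 n956 .nil)
noncomputable def n958 : Strat := .move 880 n947 (.cons 1004 n893 .nil)
noncomputable def n959 : Strat := .move 839 n905 (.cons 798 n958 .nil)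
noncomputable def n960 : Strat := .move 963 n46 (.cons 841 n959 .nil)
noncomputable def n961 : Strat := .move 800 n45 (.cons 759 n960 .nil)
noncomputable def n962 : Strat := .move 1005 n426 (.cons 964 n425 .nil)
noncomputable def n963 : Strat := .move 1004 n917 (.cons 880 n962 .nil)
noncomputable def n964 : Strat := .move 839 n905 (.cons 798 n963 .nil)
noncomputable def n965 : Strat := .move 963 n62 (.cons 1003 n964 .nil)
noncomputable def n966 : Strat := .move 962 n61 (.cons 921 n965 .nil)
noncomputable def n967 : Strat := .move 922 n952 (.cons 921 n957 (.cons 962 n961 (.cons 963 n222 (.cons 880 n65 (.cons 800 n966 .nil)))))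
noncomputable def n968 : Strat := .move 676 n160 (.cons 634 n156 .nil)
noncomputable def n969 : Strat := .move 675 n159 (.cons 716 n968 .nil)
noncomputable def n970 : Strat := .move 717 n10 (.cons 839 n969 .nil)
noncomputable def n971 : Strat := .move 880 n9 (.cons 921 n970 .nil)
noncomputable def n972 : Strat := .move 717 n8 (.cons 841 n969 .nil)
noncomputable def n973 : Strat := .move 882 n7 (.cons 923 n972 .nil)
noncomputable def n974 : Strat := .move 758 n13 (.cons 882 n971 (.cons 880 n973 (.cons 717 n508 .nil)))
noncomputable def n975 : Strat := .move 880 n351 (.cons 923 n950 .nil)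
noncomputable def n976 : Strat := .move 921 n16 (.cons 962 n975 .nil)
noncomputable def n977 : Strat := .move 880 n74 (.cons 925 n75 .nil)
noncomputable def n978 : Strat := .win 880 2 880
noncomputable def n979 : Strat := .move 925 n978 (.cons 880 n290 .nil)
noncomputable def n980 : Strat := .win 841 6 800
noncomputable def n981 : Strat := .win 966 0 921
noncomputable def n982 : Strat := .move 965 n980 (.cons 841 n981 .nil)
noncomputable def n983 : Strat := .move 882 n240 (.cons 920 n982 .nil)
noncomputable def n984 : Strat := .move 883 n283 (.cons 884 n983 .nil)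
noncomputable def n985 : Strat := .move 924 n977 (.cons 879 n979 (.cons 880 n984 .nil))
noncomputable def n986 : Strat := .move 921 n16 (.cons 962 n985 .nil)
noncomputable def n987 : Strat := .move 923 n35 (.cons 964 n986 .nil)
noncomputable def n988 : Strat := .move 878 n299 (.cons 877 n298 .nil)
noncomputable def n989 : Strat := .move 919 n297 (.cons 882 n988 .nil)
noncomputable def n990 : Strat := .move 919 n299 (.cons 877 n362 .nil)
noncomputable def n991 : Strat := .move 878 n298 (.cons 879 n990 .nil)
noncomputable def n992 : Strat := .move 879 n282 (.cons 880 n281 .nil)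
noncomputable def n993 : Strat := .move 924 n283 (.cons 884 n992 .nil)
noncomputable def n994 : Strat := .move 883 n284 (.cons 882 n993 .nil)
noncomputable def n995 : Strat := .move 920 n280 (.cons 883 n989 (.cons 882 n991 (.cons 919 n994 .nil)))
noncomputable def n996 : Strat := .move 923 n35 (.cons 964 n995 .nil)
noncomputable def n997 : Strat := .move 921 n16 (.cons 962 n996 .nil)
noncomputable def n998 : Strat := .move 800 n64 (.cons 921 n50 (.cons 963 n987 (.cons 841 n997 .nil)))
noncomputable def n999 : Strat := .move 963 n947 (.cons 1004 n946 .nil)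
noncomputable def n1000 : Strat := .move 882 n189 (.cons 838 n612 .nil)
noncomputable def n1001 : Strat := .move 839 n999 (.cons 798 n1000 .nil)
noncomputable def n1002 : Strat := .move 883 n283 (.cons 884 n1001 .nil)
noncomputable def n1003 : Strat := .move 924 n74 (.cons 925 n1002 .nil)
noncomputable def n1004 : Strat := .move 882 n673 (.cons 883 n193 .nil)
noncomputable def n1005 : Strat := .win 798 1 797
noncomputable def n1006 : Strat := .move 839 n495 (.cons 1002 n1005 .nil)
noncomputable def n1007 : Strat := .move 961 n78 (.cons 960 n1006 .nil)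
noncomputable def n1008 : Strat := .move 920 n1004 (.cons 919 n1007 .nil)
noncomputable def n1009 : Strat := .move 879 n72 (.cons 878 n1008 .nil)
noncomputable def n1010 : Strat := .move 880 n350 (.cons 879 n1003 (.cons 924 n1009 .nil))
noncomputable def n1011 : Strat := .move 923 n35 (.cons 964 n1010 .nil)
noncomputable def n1012 : Strat := .move 921 n16 (.cons 962 n1011 .nil)
noncomputable def n1013 : Strat := .move 800 n45 (.cons 759 n985 .nil)
noncomputable def n1014 : Strat := .move 923 n35 (.cons 964 n1013 .nil)
noncomputable def n1015 : Strat := .move 921 n16 (.cons 962 n1014 .nil)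
noncomputable def n1016 : Strat := .move 922 n976 (.cons 921 n51 (.cons 923 n65 (.cons 759 n998 (.cons 800 n1012 (.cons 963 n1015 .nil)))))
noncomputable def n1017 : Strat := .move 881 n924 (.cons 882 n925 (.cons 800 n927 (.cons 880 n931 (.cons 921 n945 (.cons 923 n967 (.cons 759 n974 (.cons 841 n424 (.cons 758 n1016 .nil))))))))
noncomputable def n1018 : Strat := .move 717 n11 (.cons 921 n28 .nil)
noncomputable def n1019 : Strat := .move 758 n1018 (.cons 716 n410 (.cons 717 n38 .nil))
noncomputable def n1020 : Strat := .move 758 n841 (.cons 882 n844 (.cons 880 n846 (.cons 757 n849 (.cons 717 n850 .nil))))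
noncomputable def n1021 : Strat := .move 800 n245 (.cons 841 n63 .nil)
noncomputable def n1022 : Strat := .win 800 1 799
noncomputable def n1023 : Strat := .move 841 n1022 (.cons 800 n214 .nil)
noncomputable def n1024 : Strat := .move 963 n1021 (.cons 1003 n1023 (.cons 841 n63 .nil))
noncomputable def n1025 : Strat := .move 923 n35 (.cons 964 n1024 .nil)
noncomputable def n1026 : Strat := .win 880 4 879
noncomputable def n1027 : Strat := .move 920 n69 (.cons 919 n1026 .nil)
noncomputable def n1028 : Strat := .move 883 n239 (.cons 884 n1027 .nil)
noncomputable def n1029 : Strat := .move 921 n16 (.cons 962 n1028 .nil)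
noncomputable def n1030 : Strat := .move 800 n245 (.cons 841 n919 .nil)
noncomputable def n1031 : Strat := .move 841 n214 (.cons 1004 n57 .nil)
noncomputable def n1032 : Strat := .move 800 n245 (.cons 841 n250 .nil)
noncomputable def n1033 : Strat := .move 963 n1030 (.cons 800 n1031 (.cons 839 n1032 (.cons 841 n57 .nil)))
noncomputable def n1034 : Strat := .move 923 n35 (.cons 964 n1033 .nil)
noncomputable def n1035 : Strat := .move 963 n56 (.cons 839 n1023 .nil)
noncomputable def n1036 : Strat := .move 798 n55 (.cons 757 n1035 .nil)
noncomputable def n1037 : Strat := .move 923 n35 (.cons 964 n1036 .nil)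
noncomputable def n1038 : Strat := .move 882 n913 (.cons 920 n1025 (.cons 923 n1029 (.cons 921 n1034 (.cons 962 n1037 .nil))))
noncomputable def n1039 : Strat := .move 880 n71 (.cons 924 n79 .nil)
noncomputable def n1040 : Strat := .move 879 n281 (.cons 878 n1039 .nil)
noncomputable def n1041 : Strat := .move 920 n280 (.cons 883 n989 (.cons 882 n1040 .nil))
noncomputable def n1042 : Strat := .move 798 n55 (.cons 757 n1041 .nil)
noncomputable def n1043 : Strat := .move 923 n35 (.cons 964 n1042 .nil)
noncomputable def n1044 : Strat := .move 921 n16 (.cons 962 n1043 .nil)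
noncomputable def n1045 : Strat := .move 922 n1038 (.cons 921 n67 (.cons 923 n478 (.cons 963 n1044 (.cons 757 n998 .nil))))
noncomputable def n1046 : Strat := .move 923 n35 (.cons 964 n73 .nil)
noncomputable def n1047 : Strat := .move 880 n391 (.cons 758 n1046 .nil)
noncomputable def n1048 : Strat := .move 921 n16 (.cons 962 n1047 .nil)
noncomputable def n1049 : Strat := .move 798 n55 (.cons 757 n1048 .nil)
noncomputable def n1050 : Strat := .move 800 n58 (.cons 839 n64 (.cons 841 n446 (.cons 963 n1049 .nil)))
noncomputable def n1051 : Strat := .move 922 n1050 (.cons 921 n67 (.cons 798 n393 (.cons 923 n478 .nil)))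
noncomputable def n1052 : Strat := .move 800 n50 (.cons 923 n58 (.cons 841 n446 (.cons 963 n244 .nil)))
noncomputable def n1053 : Strat := .move 922 n1052 (.cons 923 n478 (.cons 921 n67 (.cons 839 n244 .nil)))
noncomputable def n1054 : Strat := .move 798 n205 (.cons 922 n829 .nil)
noncomputable def n1055 : Strat := .move 757 n0 (.cons 716 n1054 .nil)
noncomputable def n1056 : Strat := .move 922 n55 (.cons 757 n434 .nil)
noncomputable def n1057 : Strat := .move 798 n139 (.cons 676 n1056 .nil)
noncomputable def n1058 : Strat := .move 839 n138 (.cons 880 n1057 .nil)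
noncomputable def n1059 : Strat := .move 717 n8 (.cons 841 n1058 .nil)
noncomputable def n1060 : Strat := .move 882 n7 (.cons 923 n1059 .nil)
noncomputable def n1061 : Strat := .move 717 n27 (.cons 675 n158 .nil)
noncomputable def n1062 : Strat := .move 716 n26 (.cons 757 n1061 .nil)
noncomputable def n1063 : Strat := .move 758 n1055 (.cons 757 n933 (.cons 716 n1060 (.cons 717 n38 (.cons 798 n88 (.cons 882 n1062 .nil)))))
noncomputable def n1064 : Strat := .move 758 n13 (.cons 880 n88 (.cons 923 n30 (.cons 717 n510 .nil)))
noncomputable def n1065 : Strat := .move 882 n191 (.cons 884 n662 (.cons 838 n464 .nil))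
noncomputable def n1066 : Strat := .move 798 n460 (.cons 922 n1065 .nil)
noncomputable def n1067 : Strat := .move 839 n395 (.cons 717 n1066 .nil)
noncomputable def n1068 : Strat := .move 880 n9 (.cons 921 n1067 .nil)
noncomputable def n1069 : Strat := .move 757 n0 (.cons 716 n1068 .nil)
noncomputable def n1070 : Strat := .move 676 n805 (.cons 800 n161 .nil)
noncomputable def n1071 : Strat := .move 841 n225 (.cons 882 n1070 .nil)
noncomputable def n1072 : Strat := .move 717 n10 (.cons 839 n1071 .nil)
noncomputable def n1073 : Strat := .move 880 n9 (.cons 921 n1072 .nil)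
noncomputable def n1074 : Strat := .move 882 n214 (.cons 1004 n112 .nil)
noncomputable def n1075 : Strat := .move 841 n213 (.cons 800 n1074 .nil)
noncomputable def n1076 : Strat := .move 963 n62 (.cons 1003 n1075 .nil)
noncomputable def n1077 : Strat := .move 962 n61 (.cons 921 n1076 .nil)
noncomputable def n1078 : Strat := .move 922 n1 (.cons 798 n1077 .nil)
noncomputable def n1079 : Strat := .move 757 n0 (.cons 716 n1078 .nil)
noncomputable def n1080 : Strat := .win 836 0 836
noncomputable def n1081 : Strat := .win 882 0 837
noncomputable def n1082 : Strat := .move 837 n1080 (.cons 836 n1081 .nil)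
noncomputable def n1083 : Strat := .move 882 n186 (.cons 837 n187 .nil)
noncomputable def n1084 : Strat := .win 757 6 757
noncomputable def n1085 : Strat := .move 922 n434 (.cons 963 n1084 .nil)
noncomputable def n1086 : Strat := .move 920 n689 (.cons 961 n193 .nil)
noncomputable def n1087 : Strat := .move 879 n489 (.cons 841 n1086 .nil)
noncomputable def n1088 : Strat := .move 798 n1085 (.cons 757 n1087 .nil)
noncomputable def n1089 : Strat := .move 882 n187 (.cons 883 n1088 .nil)
noncomputable def n1090 : Strat := .win 800 5 796
noncomputable def n1091 : Strat := .move 837 n1080 (.cons 836 n1090 .nil)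
noncomputable def n1092 : Strat := .move 838 n1082 (.cons 836 n1083 (.cons 837 n1089 (.cons 882 n1091 .nil)))
noncomputable def n1093 : Strat := .move 839 n395 (.cons 717 n1092 .nil)
noncomputable def n1094 : Strat := .move 880 n9 (.cons 921 n1093 .nil)
noncomputable def n1095 : Strat := .move 758 n1069 (.cons 757 n1073 (.cons 880 n1079 (.cons 716 n1094 (.cons 717 n19 (.cons 921 n1062 .nil)))))
noncomputable def n1096 : Strat := .move 881 n1019 (.cons 922 n1020 (.cons 758 n1045 (.cons 882 n1051 (.cons 880 n1053 (.cons 839 n220 (.cons 921 n1063 (.cons 757 n974 (.cons 798 n1064 (.cons 841 n443 (.cons 923 n1095 .nil))))))))))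
noncomputable def n1097 : Strat := .move 922 n478 (.cons 1003 n481 (.cons 798 n222 .nil))
noncomputable def n1098 : Strat := .move 923 n35 (.cons 964 n481 .nil)
noncomputable def n1099 : Strat := .move 758 n0 (.cons 716 n4 .nil)
noncomputable def n1100 : Strat := .move 757 n1 (.cons 798 n1099 .nil)
noncomputable def n1101 : Strat := .move 922 n1098 (.cons 757 n51 (.cons 963 n1100 (.cons 759 n67 .nil)))
noncomputable def n1102 : Strat := .move 962 n61 (.cons 921 n1100 .nil)
noncomputable def n1103 : Strat := .move 801 n752 (.cons 838 n937 .nil)
noncomputable def n1104 : Strat := .win 795 0 795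
noncomputable def n1105 : Strat := .move 796 n1104 (.cons 795 n780 .nil)
noncomputable def n1106 : Strat := .win 880 7 756
noncomputable def n1107 : Strat := .move 756 n1106 (.cons 880 n565 .nil)
noncomputable def n1108 : Strat := .move 797 n1105 (.cons 841 n1107 .nil)
noncomputable def n1109 : Strat := .move 923 n35 (.cons 964 n1108 .nil)
noncomputable def n1110 : Strat := .move 839 n437 (.cons 837 n1103 (.cons 838 n1109 .nil))
noncomputable def n1111 : Strat := .move 921 n16 (.cons 962 n1110 .nil)
noncomputable def n1112 : Strat := .move 800 n45 (.cons 759 n1111 .nil)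
noncomputable def n1113 : Strat := .move 798 n55 (.cons 757 n1112 .nil)
noncomputable def n1114 : Strat := .move 922 n1102 (.cons 921 n1100 (.cons 798 n222 (.cons 800 n232 (.cons 758 n1113 .nil))))
noncomputable def n1115 : Strat := .move 758 n24 (.cons 759 n844 (.cons 839 n329 .nil))
noncomputable def n1116 : Strat := .win 963 6 798
noncomputable def n1117 : Strat := .move 801 n937 (.cons 802 n752 .nil)
noncomputable def n1118 : Strat := .move 800 n45 (.cons 759 n1117 .nil)
noncomputable def n1119 : Strat := .move 839 n1116 (.cons 963 n1118 .nil)
noncomputable def n1120 : Strat := .move 798 n55 (.cons 757 n1119 .nil)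
noncomputable def n1121 : Strat := .move 880 n1120 (.cons 963 n351 .nil)
noncomputable def n1122 : Strat := .move 921 n16 (.cons 962 n1121 .nil)
noncomputable def n1123 : Strat := .move 922 n1122 (.cons 963 n1113 (.cons 798 n65 (.cons 800 n478 (.cons 962 n481 .nil))))
noncomputable def n1124 : Strat := .move 758 n210 (.cons 716 n132 (.cons 759 n30 .nil))
noncomputable def n1125 : Strat := .move 881 n1097 (.cons 798 n394 (.cons 759 n1051 (.cons 921 n1101 (.cons 963 n1114 (.cons 922 n1115 (.cons 758 n1123 (.cons 800 n1124 .nil)))))))
noncomputable def n1126 : Strat := .move 798 n208 (.cons 759 n831 .nil)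
noncomputable def n1127 : Strat := .move 757 n0 (.cons 716 n1126 .nil)
noncomputable def n1128 : Strat := .move 758 n1127 (.cons 759 n846 (.cons 757 n41 (.cons 841 n457 .nil)))
noncomputable def n1129 : Strat := .move 921 n16 (.cons 962 n51 .nil)
noncomputable def n1130 : Strat := .move 963 n48 (.cons 1005 n63 .nil)
noncomputable def n1131 : Strat := .move 964 n47 (.cons 923 n1130 .nil)
noncomputable def n1132 : Strat := .move 839 n752 (.cons 838 n937 .nil)
noncomputable def n1133 : Strat := .win 841 3 759
noncomputable def n1134 : Strat := .move 760 n1133 (.cons 841 n753 .nil)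
noncomputable def n1135 : Strat := .move 801 n1132 (.cons 802 n1134 .nil)
noncomputable def n1136 : Strat := .move 882 n264 (.cons 919 n265 (.cons 883 n1135 .nil))
noncomputable def n1137 : Strat := .move 921 n16 (.cons 962 n1136 .nil)
noncomputable def n1138 : Strat := .move 923 n35 (.cons 964 n1137 .nil)
noncomputable def n1139 : Strat := .move 798 n55 (.cons 757 n1138 .nil)
noncomputable def n1140 : Strat := .move 800 n45 (.cons 759 n1139 .nil)
noncomputable def n1141 : Strat := .move 922 n1129 (.cons 800 n1131 (.cons 964 n59 (.cons 963 n1140 .nil)))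
noncomputable def n1142 : Strat := .move 758 n38 (.cons 716 n130 (.cons 923 n210 .nil))
noncomputable def n1143 : Strat := .move 758 n333 (.cons 922 n457 (.cons 800 n38 (.cons 798 n111 .nil)))
noncomputable def n1144 : Strat := .move 798 n55 (.cons 757 n479 .nil)
noncomputable def n1145 : Strat := .move 800 n45 (.cons 759 n1144 .nil)
noncomputable def n1146 : Strat := .move 921 n16 (.cons 962 n1145 .nil)
noncomputable def n1147 : Strat := .move 922 n1146 (.cons 800 n478 (.cons 798 n65 (.cons 962 n1145 (.cons 963 n1100 .nil))))
noncomputable def n1148 : Strat := .move 881 n60 (.cons 922 n1128 (.cons 758 n1141 (.cons 800 n1142 (.cons 759 n1053 (.cons 757 n931 (.cons 841 n1143 (.cons 882 n1147 .nil)))))))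
noncomputable def n1149 : Strat := .move 717 n21 (.cons 677 n11 .nil)
noncomputable def n1150 : Strat := .move 718 n20 (.cons 759 n1149 .nil)
noncomputable def n1151 : Strat := .move 718 n20 (.cons 759 n442 .nil)
noncomputable def n1152 : Strat := .move 758 n1150 (.cons 677 n1151 (.cons 759 n410 (.cons 717 n43 (.cons 880 n111 .nil))))
noncomputable def n1153 : Strat := .move 882 n673 (.cons 883 n69 .nil)
noncomputable def n1154 : Strat := .move 920 n681 (.cons 961 n1153 .nil)
noncomputable def n1155 : Strat := .move 880 n73 (.cons 878 n76 (.cons 924 n1154 .nil))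
noncomputable def n1156 : Strat := .move 839 n434 (.cons 963 n1155 .nil)
noncomputable def n1157 : Strat := .move 798 n55 (.cons 757 n1156 .nil)
noncomputable def n1158 : Strat := .move 923 n35 (.cons 964 n1157 .nil)
noncomputable def n1159 : Strat := .move 921 n16 (.cons 962 n1158 .nil)
noncomputable def n1160 : Strat := .move 922 n474 (.cons 921 n59 (.cons 798 n65 (.cons 963 n85 (.cons 800 n1159 .nil))))
noncomputable def n1161 : Strat := .move 921 n16 (.cons 962 n483 .nil)
noncomputable def n1162 : Strat := .move 923 n35 (.cons 964 n1161 .nil)
noncomputable def n1163 : Strat := .move 922 n1162 (.cons 924 n65 (.cons 921 n59 .nil))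
noncomputable def n1164 : Strat := .move 758 n33 (.cons 880 n130 (.cons 882 n132 (.cons 717 n134 .nil)))
noncomputable def n1165 : Strat := .move 922 n51 (.cons 759 n244 (.cons 964 n59 .nil))
noncomputable def n1166 : Strat := .move 757 n1 (.cons 798 n51 .nil)
noncomputable def n1167 : Strat := .move 963 n1030 (.cons 841 n57 (.cons 798 n1023 .nil))
noncomputable def n1168 : Strat := .move 882 n238 (.cons 758 n1167 .nil)
noncomputable def n1169 : Strat := .move 923 n35 (.cons 964 n1168 .nil)
noncomputable def n1170 : Strat := .win 841 3 840
noncomputable def n1171 : Strat := .move 1004 n1170 (.cons 841 n246 .nil)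
noncomputable def n1172 : Strat := .move 963 n56 (.cons 839 n1171 .nil)
noncomputable def n1173 : Strat := .move 798 n55 (.cons 757 n1172 .nil)
noncomputable def n1174 : Strat := .move 882 n238 (.cons 758 n1173 .nil)
noncomputable def n1175 : Strat := .move 923 n35 (.cons 964 n1174 .nil)
noncomputable def n1176 : Strat := .move 838 n435 (.cons 801 n186 .nil)
noncomputable def n1177 : Strat := .move 760 n753 (.cons 761 n1133 .nil)
noncomputable def n1178 : Strat := .move 801 n937 (.cons 802 n1177 .nil)
noncomputable def n1179 : Strat := .move 883 n603 (.cons 841 n190 .nil)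
noncomputable def n1180 : Strat := .move 838 n186 (.cons 837 n1179 .nil)
noncomputable def n1181 : Strat := .move 839 n1103 (.cons 802 n1176 (.cons 838 n1178 (.cons 801 n1180 .nil)))
noncomputable def n1182 : Strat := .move 798 n55 (.cons 757 n1181 .nil)
noncomputable def n1183 : Strat := .move 800 n45 (.cons 759 n1182 .nil)
noncomputable def n1184 : Strat := .move 882 n238 (.cons 758 n1183 .nil)
noncomputable def n1185 : Strat := .move 923 n35 (.cons 964 n1184 .nil)
noncomputable def n1186 : Strat := .move 923 n35 (.cons 964 n440 .nil)
noncomputable def n1187 : Strat := .move 922 n1166 (.cons 923 n59 (.cons 759 n1169 (.cons 757 n51 (.cons 800 n1175 (.cons 963 n1185 (.cons 841 n1186 .nil))))))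
noncomputable def n1188 : Strat := .move 839 n1116 (.cons 963 n1154 .nil)
noncomputable def n1189 : Strat := .move 798 n55 (.cons 757 n1188 .nil)
noncomputable def n1190 : Strat := .move 880 n391 (.cons 758 n1189 .nil)
noncomputable def n1191 : Strat := .move 921 n16 (.cons 962 n1190 .nil)
noncomputable def n1192 : Strat := .move 922 n474 (.cons 800 n1191 (.cons 921 n59 (.cons 963 n222 .nil)))
noncomputable def n1193 : Strat := .win 756 7 756
noncomputable def n1194 : Strat := .move 797 n1193 (.cons 756 n1105 .nil)
noncomputable def n1195 : Strat := .move 800 n1117 (.cons 838 n1194 .nil)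
noncomputable def n1196 : Strat := .move 839 n1116 (.cons 963 n1195 .nil)
noncomputable def n1197 : Strat := .move 798 n55 (.cons 757 n1196 .nil)
noncomputable def n1198 : Strat := .move 880 n391 (.cons 758 n1197 .nil)
noncomputable def n1199 : Strat := .move 921 n16 (.cons 962 n1198 .nil)
noncomputable def n1200 : Strat := .move 922 n485 (.cons 964 n1199 (.cons 921 n1169 (.cons 880 n244 (.cons 758 n1159 .nil))))
noncomputable def n1201 : Strat := .move 922 n485 (.cons 921 n1186 (.cons 923 n1191 .nil))
noncomputable def n1202 : Strat := .move 758 n849 (.cons 882 n132 (.cons 880 n130 (.cons 717 n853 .nil)))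
noncomputable def n1203 : Strat := .move 881 n1152 (.cons 758 n1160 (.cons 882 n1163 (.cons 800 n1164 (.cons 880 n1165 (.cons 921 n1187 (.cons 923 n1192 (.cons 759 n1200 (.cons 839 n271 (.cons 841 n1201 (.cons 922 n1202 .nil))))))))))
noncomputable def n1204 : Strat := .move 758 n38 (.cons 757 n13 (.cons 882 n19 .nil))
noncomputable def n1205 : Strat := .move 758 n865 (.cons 882 n844 (.cons 757 n849 (.cons 839 n846 (.cons 717 n866 .nil))))
noncomputable def n1206 : Strat := .move 759 n3 (.cons 800 n393 .nil)
noncomputable def n1207 : Strat := .move 922 n478 (.cons 757 n1206 (.cons 962 n67 .nil))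
noncomputable def n1208 : Strat := .win 759 1 758
noncomputable def n1209 : Strat := .move 800 n1208 (.cons 759 n223 .nil)
noncomputable def n1210 : Strat := .move 800 n223 (.cons 963 n17 .nil)
noncomputable def n1211 : Strat := .move 922 n1209 (.cons 759 n1210 (.cons 800 n17 .nil))
noncomputable def n1212 : Strat := .move 841 n112 (.cons 717 n1211 .nil)
noncomputable def n1213 : Strat := .move 882 n7 (.cons 923 n1212 .nil)
noncomputable def n1214 : Strat := .move 758 n38 (.cons 716 n1213 (.cons 923 n19 (.cons 922 n846 .nil)))
noncomputable def n1215 : Strat := .move 963 n245 (.cons 841 n63 .nil)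
noncomputable def n1216 : Strat := .move 800 n45 (.cons 759 n1215 .nil)
noncomputable def n1217 : Strat := .move 882 n238 (.cons 758 n1216 .nil)
noncomputable def n1218 : Strat := .move 923 n35 (.cons 964 n1217 .nil)
noncomputable def n1219 : Strat := .move 963 n56 (.cons 839 n949 .nil)
noncomputable def n1220 : Strat := .move 798 n55 (.cons 757 n1219 .nil)
noncomputable def n1221 : Strat := .move 921 n16 (.cons 962 n928 .nil)
noncomputable def n1222 : Strat := .move 923 n35 (.cons 964 n1221 .nil)
noncomputable def n1223 : Strat := .move 922 n1218 (.cons 923 n1220 (.cons 841 n1222 .nil))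
noncomputable def n1224 : Strat := .move 759 n3 (.cons 800 n485 .nil)
noncomputable def n1225 : Strat := .move 882 n238 (.cons 758 n921 .nil)
noncomputable def n1226 : Strat := .move 923 n35 (.cons 964 n1225 .nil)
noncomputable def n1227 : Strat := .move 922 n1224 (.cons 921 n1226 (.cons 800 n485 (.cons 758 n65 .nil)))
noncomputable def n1228 : Strat := .move 880 n391 (.cons 758 n356 .nil)
noncomputable def n1229 : Strat := .move 921 n16 (.cons 962 n1228 .nil)
noncomputable def n1230 : Strat := .move 922 n59 (.cons 798 n1229 (.cons 800 n1191 (.cons 963 n232 .nil)))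
noncomputable def n1231 : Strat := .move 841 n255 (.cons 963 n264 .nil)
noncomputable def n1232 : Strat := .move 882 n241 (.cons 884 n1231 (.cons 883 n260 .nil))
noncomputable def n1233 : Strat := .move 800 n45 (.cons 759 n1232 .nil)
noncomputable def n1234 : Strat := .move 921 n16 (.cons 962 n1233 .nil)
noncomputable def n1235 : Strat := .move 923 n35 (.cons 964 n1234 .nil)
noncomputable def n1236 : Strat := .move 922 n1222 (.cons 923 n1229 (.cons 921 n263 (.cons 758 n1235 .nil)))
noncomputable def n1237 : Strat := .move 800 n45 (.cons 759 n81 .nil)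
noncomputable def n1238 : Strat := .move 798 n55 (.cons 757 n1237 .nil)
noncomputable def n1239 : Strat := .move 923 n35 (.cons 964 n1238 .nil)
noncomputable def n1240 : Strat := .move 921 n16 (.cons 962 n1239 .nil)
noncomputable def n1241 : Strat := .move 922 n67 (.cons 798 n1235 (.cons 964 n478 (.cons 963 n1240 .nil)))
noncomputable def n1242 : Strat := .move 923 n35 (.cons 964 n59 .nil)
noncomputable def n1243 : Strat := .move 922 n1226 (.cons 798 n263 (.cons 758 n1242 (.cons 841 n1186 (.cons 923 n1220 (.cons 800 n1175 (.cons 963 n1185 .nil))))))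
noncomputable def n1244 : Strat := .move 881 n1204 (.cons 922 n1205 (.cons 882 n1207 (.cons 839 n1214 (.cons 880 n1223 (.cons 757 n1227 (.cons 923 n1230 (.cons 798 n1236 (.cons 758 n1241 (.cons 921 n1243 .nil)))))))))
noncomputable def n1245 : Strat := .move 922 n45 (.cons 759 n58 .nil)
noncomputable def n1246 : Strat := .move 922 n45 (.cons 759 n446 .nil)
noncomputable def n1247 : Strat := .win 758 3 717
noncomputable def n1248 : Strat := .move 718 n1247 (.cons 758 n724 .nil)
noncomputable def n1249 : Strat := .move 759 n272 (.cons 922 n1248 .nil)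
noncomputable def n1250 : Strat := .move 801 n937 (.cons 802 n938 .nil)
noncomputable def n1251 : Strat := .move 838 n436 (.cons 837 n1250 .nil)
noncomputable def n1252 : Strat := .win 716 6 716
noncomputable def n1253 : Strat := .move 757 n205 (.cons 922 n1252 .nil)
noncomputable def n1254 : Strat := .move 798 n752 (.cons 838 n1253 .nil)
noncomputable def n1255 : Strat := .move 801 n937 (.cons 802 n1254 .nil)
noncomputable def n1256 : Strat := .move 798 n435 (.cons 801 n1253 .nil)
noncomputable def n1257 : Strat := .move 838 n436 (.cons 837 n1256 .nil)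
noncomputable def n1258 : Strat := .move 757 n1252 (.cons 716 n751 .nil)
noncomputable def n1259 : Strat := .move 717 n139 (.cons 676 n138 .nil)
noncomputable def n1260 : Strat := .move 758 n34 (.cons 882 n1259 .nil)
noncomputable def n1261 : Strat := .move 923 n35 (.cons 964 n1260 .nil)
noncomputable def n1262 : Strat := .move 922 n434 (.cons 963 n1261 .nil)
noncomputable def n1263 : Strat := .move 798 n1253 (.cons 922 n1258 (.cons 716 n1056 (.cons 757 n1262 .nil)))
noncomputable def n1264 : Strat := .move 801 n937 (.cons 802 n1263 .nil)
noncomputable def n1265 : Strat := .move 923 n238 (.cons 758 n625 .nil)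
noncomputable def n1266 : Strat := .move 882 n542 (.cons 883 n1265 .nil)
noncomputable def n1267 : Strat := .move 922 n223 (.cons 963 n1 .nil)
noncomputable def n1268 : Strat := .move 757 n0 (.cons 716 n1267 .nil)
noncomputable def n1269 : Strat := .move 758 n112 (.cons 717 n1268 .nil)
noncomputable def n1270 : Strat := .move 882 n542 (.cons 883 n1269 .nil)
noncomputable def n1271 : Strat := .move 717 n224 (.cons 676 n138 .nil)
noncomputable def n1272 : Strat := .move 758 n0 (.cons 716 n1271 .nil)
noncomputable def n1273 : Strat := .move 757 n1 (.cons 798 n1272 .nil)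
noncomputable def n1274 : Strat := .move 922 n223 (.cons 963 n1273 .nil)
noncomputable def n1275 : Strat := .move 882 n542 (.cons 883 n629 .nil)
noncomputable def n1276 : Strat := .move 841 n1266 (.cons 923 n1270 (.cons 882 n1274 (.cons 758 n1275 .nil)))
noncomputable def n1277 : Strat := .move 838 n436 (.cons 837 n1276 .nil)
noncomputable def n1278 : Strat := .move 841 n624 (.cons 801 n1266 .nil)
noncomputable def n1279 : Strat := .move 838 n436 (.cons 837 n1278 .nil)
noncomputable def n1280 : Strat := .move 839 n1251 (.cons 837 n1255 (.cons 802 n1257 (.cons 838 n1264 (.cons 801 n1277 (.cons 798 n1279 .nil)))))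
noncomputable def n1281 : Strat := .move 759 n2 (.cons 718 n855 .nil)
noncomputable def n1282 : Strat := .move 839 n138 (.cons 880 n28 .nil)
noncomputable def n1283 : Strat := .move 717 n8 (.cons 841 n1282 .nil)
noncomputable def n1284 : Strat := .move 882 n7 (.cons 923 n1283 .nil)
noncomputable def n1285 : Strat := .move 759 n2 (.cons 718 n860 .nil)
noncomputable def n1286 : Strat := .move 758 n1281 (.cons 759 n1284 (.cons 757 n1285 .nil))
noncomputable def n1287 : Strat := .move 800 n1245 (.cons 841 n1246 (.cons 839 n1249 (.cons 759 n1280 (.cons 922 n1286 .nil))))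
noncomputable def n1288 : Strat := .move 758 n210 (.cons 760 n88 (.cons 757 n41 .nil))
noncomputable def n1289 : Strat := .move 1004 n247 (.cons 1044 n962 .nil)
noncomputable def n1290 : Strat := .move 1003 n248 (.cons 962 n1289 .nil)
noncomputable def n1291 : Strat := .move 963 n56 (.cons 839 n1290 .nil)
noncomputable def n1292 : Strat := .move 798 n55 (.cons 757 n1291 .nil)
noncomputable def n1293 : Strat := .move 963 n46 (.cons 841 n1290 .nil)
noncomputable def n1294 : Strat := .move 800 n45 (.cons 759 n1293 .nil)
noncomputable def n1295 : Strat := .move 839 n436 (.cons 837 n435 .nil)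
noncomputable def n1296 : Strat := .win 880 6 715
noncomputable def n1297 : Strat := .win 674 6 674
noncomputable def n1298 : Strat := .move 715 n1296 (.cons 880 n1297 .nil)
noncomputable def n1299 : Strat := .move 756 n565 (.cons 755 n1298 .nil)
noncomputable def n1300 : Strat := .move 797 n1105 (.cons 841 n1299 .nil)
noncomputable def n1301 : Strat := .move 839 n436 (.cons 837 n1300 .nil)
noncomputable def n1302 : Strat := .move 839 n435 (.cons 801 n1300 .nil)
noncomputable def n1303 : Strat := .win 756 2 755
noncomputable def n1304 : Strat := .win 754 2 754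
noncomputable def n1305 : Strat := .move 796 n1304 (.cons 754 n780 .nil)
noncomputable def n1306 : Strat := .move 755 n1303 (.cons 756 n1305 .nil)
noncomputable def n1307 : Strat := .move 797 n774 (.cons 837 n1306 .nil)
noncomputable def n1308 : Strat := .move 838 n1295 (.cons 801 n1301 (.cons 837 n1302 (.cons 839 n1307 .nil)))
noncomputable def n1309 : Strat := .move 798 n55 (.cons 757 n1308 .nil)
noncomputable def n1310 : Strat := .move 800 n45 (.cons 759 n1309 .nil)
noncomputable def n1311 : Strat := .move 922 n59 (.cons 800 n1292 (.cons 798 n1294 (.cons 963 n1310 .nil)))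
noncomputable def n1312 : Strat := .move 798 n208 (.cons 759 n829 .nil)
noncomputable def n1313 : Strat := .move 757 n0 (.cons 716 n1312 .nil)
noncomputable def n1314 : Strat := .move 755 n324 (.cons 795 n339 .nil)
noncomputable def n1315 : Strat := .move 796 n323 (.cons 797 n1314 .nil)
noncomputable def n1316 : Strat := .move 760 n308 (.cons 802 n335 .nil)
noncomputable def n1317 : Strat := .move 801 n309 (.cons 800 n1316 .nil)
noncomputable def n1318 : Strat := .move 756 n306 (.cons 801 n340 (.cons 800 n1315 (.cons 755 n1317 .nil)))
noncomputable def n1319 : Strat := .move 759 n2 (.cons 718 n1318 .nil)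
noncomputable def n1320 : Strat := .move 757 n0 (.cons 716 n1319 .nil)
noncomputable def n1321 : Strat := .move 882 n87 (.cons 757 n40 (.cons 717 n660 (.cons 841 n1320 .nil)))
noncomputable def n1322 : Strat := .move 800 n752 (.cons 838 n115 .nil)
noncomputable def n1323 : Strat := .move 839 n1259 (.cons 880 n1322 .nil)
noncomputable def n1324 : Strat := .move 801 n308 (.cons 802 n1323 .nil)
noncomputable def n1325 : Strat := .move 760 n95 (.cons 761 n1324 .nil)
noncomputable def n1326 : Strat := .move 756 n91 (.cons 755 n452 .nil)
noncomputable def n1327 : Strat := .move 797 n206 (.cons 796 n1326 .nil)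
noncomputable def n1328 : Strat := .move 798 n207 (.cons 797 n1325 (.cons 760 n1327 .nil))
noncomputable def n1329 : Strat := .move 759 n2 (.cons 718 n1328 .nil)
noncomputable def n1330 : Strat := .move 757 n0 (.cons 716 n1329 .nil)
noncomputable def n1331 : Strat := .move 757 n0 (.cons 716 n714 .nil)
noncomputable def n1332 : Strat := .move 758 n1313 (.cons 757 n41 (.cons 759 n88 (.cons 923 n1321 (.cons 882 n1330 (.cons 717 n1331 .nil)))))
noncomputable def n1333 : Strat := .move 881 n1287 (.cons 800 n1288 (.cons 882 n1101 (.cons 798 n403 (.cons 757 n945 (.cons 759 n1063 (.cons 923 n1311 (.cons 841 n441 (.cons 922 n1332 .nil))))))))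
noncomputable def n1334 : Strat := .move 963 n57 (.cons 757 n63 .nil)
noncomputable def n1335 : Strat := .move 922 n1334 (.cons 962 n1145 (.cons 963 n222 .nil))
noncomputable def n1336 : Strat := .move 839 n1117 (.cons 838 n1194 .nil)
noncomputable def n1337 : Strat := .move 800 n45 (.cons 759 n1336 .nil)
noncomputable def n1338 : Strat := .move 798 n55 (.cons 757 n1337 .nil)
noncomputable def n1339 : Strat := .move 1004 n353 (.cons 1045 n427 .nil)
noncomputable def n1340 : Strat := .move 963 n46 (.cons 841 n1339 .nil)
noncomputable def n1341 : Strat := .move 800 n45 (.cons 759 n1340 .nil)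
noncomputable def n1342 : Strat := .move 880 n1120 (.cons 757 n950 (.cons 798 n356 (.cons 963 n1338 (.cons 800 n1189 (.cons 839 n1341 .nil)))))
noncomputable def n1343 : Strat := .move 921 n16 (.cons 962 n1342 .nil)
noncomputable def n1344 : Strat := .move 880 n1117 (.cons 838 n1194 .nil)
noncomputable def n1345 : Strat := .move 801 n937 (.cons 802 n1108 .nil)
noncomputable def n1346 : Strat := .move 838 n436 (.cons 837 n1108 .nil)
noncomputable def n1347 : Strat := .move 839 n1344 (.cons 795 n444 (.cons 838 n1345 (.cons 801 n1346 .nil)))
noncomputable def n1348 : Strat := .move 921 n16 (.cons 962 n1347 .nil)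
noncomputable def n1349 : Strat := .move 798 n55 (.cons 757 n1348 .nil)
noncomputable def n1350 : Strat := .move 800 n45 (.cons 759 n1349 .nil)
noncomputable def n1351 : Strat := .move 922 n1343 (.cons 800 n478 (.cons 798 n65 (.cons 921 n59 (.cons 963 n1350 .nil))))
noncomputable def n1352 : Strat := .move 882 n8 (.cons 841 n842 .nil)
noncomputable def n1353 : Strat := .move 841 n225 (.cons 882 n224 .nil)
noncomputable def n1354 : Strat := .move 717 n1352 (.cons 675 n1353 (.cons 841 n28 .nil))
noncomputable def n1355 : Strat := .move 759 n2 (.cons 718 n1354 .nil)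
noncomputable def n1356 : Strat := .move 757 n0 (.cons 716 n722 .nil)
noncomputable def n1357 : Strat := .move 882 n8 (.cons 841 n858 .nil)
noncomputable def n1358 : Strat := .move 841 n224 (.cons 676 n11 .nil)
noncomputable def n1359 : Strat := .move 675 n160 (.cons 634 n159 .nil)
noncomputable def n1360 : Strat := .move 676 n856 (.cons 635 n1359 .nil)
noncomputable def n1361 : Strat := .move 882 n8 (.cons 841 n1360 .nil)
noncomputable def n1362 : Strat := .move 717 n1357 (.cons 882 n1358 (.cons 839 n1361 (.cons 841 n11 .nil)))
noncomputable def n1363 : Strat := .move 759 n2 (.cons 718 n1362 .nil)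
noncomputable def n1364 : Strat := .move 717 n10 (.cons 839 n1353 .nil)
noncomputable def n1365 : Strat := .move 880 n9 (.cons 921 n1364 .nil)
noncomputable def n1366 : Strat := .move 759 n2 (.cons 718 n1365 .nil)
noncomputable def n1367 : Strat := .move 800 n1281 (.cons 756 n1355 (.cons 759 n1356 (.cons 757 n1363 (.cons 716 n1366 .nil))))
noncomputable def n1368 : Strat := .move 758 n1367 (.cons 757 n24 (.cons 759 n30 (.cons 717 n595 (.cons 921 n1321 .nil))))
noncomputable def n1369 : Strat := .move 759 n2 (.cons 718 n97 .nil)
noncomputable def n1370 : Strat := .move 798 n205 (.cons 922 n1369 .nil)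
noncomputable def n1371 : Strat := .move 757 n0 (.cons 716 n1370 .nil)
noncomputable def n1372 : Strat := .move 880 n9 (.cons 921 n1371 .nil)
noncomputable def n1373 : Strat := .move 882 n12 (.cons 839 n87 (.cons 841 n397 (.cons 717 n1372 .nil)))
noncomputable def n1374 : Strat := .move 758 n1373 (.cons 757 n24 (.cons 880 n210 (.cons 759 n30 .nil)))
noncomputable def n1375 : Strat := .move 758 n2 (.cons 718 n52 .nil)
noncomputable def n1376 : Strat := .move 759 n3 (.cons 800 n1375 .nil)
noncomputable def n1377 : Strat := .move 922 n59 (.cons 798 n65 (.cons 759 n478 (.cons 963 n1376 .nil)))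
noncomputable def n1378 : Strat := .move 922 n447 (.cons 801 n232 (.cons 798 n222 .nil))
noncomputable def n1379 : Strat := .move 881 n1335 (.cons 758 n1351 (.cons 922 n1368 (.cons 800 n1374 (.cons 798 n399 (.cons 839 n233 (.cons 757 n967 (.cons 921 n1311 (.cons 880 n1377 (.cons 841 n1378 (.cons 759 n1095 .nil))))))))))
noncomputable def n1380 : Strat := .win 716 1 715
noncomputable def n1381 : Strat := .win 920 3 756
noncomputable def n1382 : Strat := .move 757 n1380 (.cons 716 n1381 .nil)
noncomputable def n1383 : Strat := .move 879 n626 (.cons 878 n1382 .nil)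
noncomputable def n1384 : Strat := .move 839 n435 (.cons 801 n1383 .nil)
noncomputable def n1385 : Strat := .move 838 n774 (.cons 837 n1384 .nil)
noncomputable def n1386 : Strat := .move 881 n640 (.cons 718 n272 .nil)
noncomputable def n1387 : Strat := .move 759 n559 (.cons 760 n1386 .nil)
noncomputable def n1388 : Strat := .move 800 n1385 (.cons 801 n1387 .nil)
noncomputable def n1389 : Strat := .move 841 n560 (.cons 796 n1388 .nil)
noncomputable def n1390 : Strat := .move 838 n774 (.cons 837 n1387 .nil)
noncomputable def n1391 : Strat := .win 801 2 756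
noncomputable def n1392 : Strat := .win 716 3 715
noncomputable def n1393 : Strat := .move 879 n1392 (.cons 716 n1381 .nil)
noncomputable def n1394 : Strat := .move 757 n1391 (.cons 801 n1393 .nil)
noncomputable def n1395 : Strat := .move 756 n565 (.cons 755 n1394 .nil)
noncomputable def n1396 : Strat := .move 838 n774 (.cons 837 n1395 .nil)
noncomputable def n1397 : Strat := .move 800 n1390 (.cons 759 n1396 (.cons 838 n1387 .nil))
noncomputable def n1398 : Strat := .move 841 n560 (.cons 796 n1397 .nil)
noncomputable def n1399 : Strat := .win 839 0 795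
noncomputable def n1400 : Strat := .win 755 2 754
noncomputable def n1401 : Strat := .win 753 2 753
noncomputable def n1402 : Strat := .move 754 n1400 (.cons 755 n1401 .nil)
noncomputable def n1403 : Strat := .move 795 n1399 (.cons 839 n1402 .nil)
noncomputable def n1404 : Strat := .move 796 n780 (.cons 841 n1403 .nil)
noncomputable def n1405 : Strat := .move 841 n1385 (.cons 801 n1387 .nil)
noncomputable def n1406 : Strat := .win 757 2 756
noncomputable def n1407 : Strat := .move 756 n565 (.cons 755 n1406 .nil)
noncomputable def n1408 : Strat := .move 801 n775 (.cons 839 n1407 .nil)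
noncomputable def n1409 : Strat := .move 838 n774 (.cons 837 n1408 .nil)
noncomputable def n1410 : Strat := .move 801 n1132 (.cons 839 n1407 .nil)
noncomputable def n1411 : Strat := .move 839 n435 (.cons 801 n1299 .nil)
noncomputable def n1412 : Strat := .move 838 n774 (.cons 837 n1411 .nil)
noncomputable def n1413 : Strat := .win 803 4 799
noncomputable def n1414 : Strat := .move 802 n573 (.cons 839 n1413 .nil)
noncomputable def n1415 : Strat := .move 801 n1406 (.cons 757 n1414 .nil)
noncomputable def n1416 : Strat := .move 756 n565 (.cons 755 n1415 .nil)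
noncomputable def n1417 : Strat := .win 921 7 756
noncomputable def n1418 : Strat := .move 880 n1417 (.cons 921 n635 .nil)
noncomputable def n1419 : Strat := .move 839 n1298 (.cons 674 n1418 (.cons 880 n1383 .nil))
noncomputable def n1420 : Strat := .move 756 n565 (.cons 755 n1419 .nil)
noncomputable def n1421 : Strat := .move 838 n774 (.cons 837 n1420 .nil)
noncomputable def n1422 : Strat := .move 841 n1385 (.cons 879 n1409 (.cons 839 n1396 (.cons 837 n1410 (.cons 757 n1412 (.cons 838 n1416 (.cons 801 n1421 .nil))))))
noncomputable def n1423 : Strat := .move 841 n1390 (.cons 759 n1396 (.cons 838 n1387 .nil))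
noncomputable def n1424 : Strat := .move 881 n272 (.cons 922 n640 .nil)
noncomputable def n1425 : Strat := .move 759 n559 (.cons 760 n1424 .nil)
noncomputable def n1426 : Strat := .move 841 n1425 (.cons 759 n1410 .nil)
noncomputable def n1427 : Strat := .win 919 1 755
noncomputable def n1428 : Strat := .win 839 4 837
noncomputable def n1429 : Strat := .move 878 n1427 (.cons 919 n1428 .nil)
noncomputable def n1430 : Strat := .move 757 n1392 (.cons 716 n1381 .nil)
noncomputable def n1431 : Strat := .move 879 n1429 (.cons 839 n1430 .nil)
noncomputable def n1432 : Strat := .move 756 n565 (.cons 755 n1431 .nil)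
noncomputable def n1433 : Strat := .move 838 n774 (.cons 837 n1432 .nil)
noncomputable def n1434 : Strat := .move 841 n1386 (.cons 881 n1433 .nil)
noncomputable def n1435 : Strat := .move 759 n559 (.cons 760 n1434 .nil)
noncomputable def n1436 : Strat := .move 841 n1412 (.cons 715 n1425 .nil)
noncomputable def n1437 : Strat := .win 841 1 717
noncomputable def n1438 : Strat := .move 718 n724 (.cons 677 n1437 .nil)
noncomputable def n1439 : Strat := .move 881 n272 (.cons 922 n1438 .nil)
noncomputable def n1440 : Strat := .move 759 n559 (.cons 760 n1439 .nil)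
noncomputable def n1441 : Strat := .win 675 1 674
noncomputable def n1442 : Strat := .win 879 3 715
noncomputable def n1443 : Strat := .move 716 n1441 (.cons 675 n1442 .nil)
noncomputable def n1444 : Strat := .move 757 n1391 (.cons 801 n1443 .nil)
noncomputable def n1445 : Strat := .move 756 n565 (.cons 755 n1444 .nil)
noncomputable def n1446 : Strat := .move 838 n774 (.cons 837 n1445 .nil)
noncomputable def n1447 : Strat := .move 800 n1405 (.cons 759 n1422 (.cons 839 n1423 (.cons 837 n1426 (.cons 801 n1435 (.cons 757 n1436 (.cons 838 n1440 (.cons 841 n1446 .nil)))))))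
noncomputable def n1448 : Strat := .win 800 4 796
noncomputable def n1449 : Strat := .win 836 5 795
noncomputable def n1450 : Strat := .move 837 n1448 (.cons 800 n1449 .nil)
noncomputable def n1451 : Strat := .move 756 n565 (.cons 755 n1418 .nil)
noncomputable def n1452 : Strat := .move 800 n435 (.cons 801 n1451 .nil)
noncomputable def n1453 : Strat := .win 877 4 836
noncomputable def n1454 : Strat := .win 756 3 755
noncomputable def n1455 : Strat := .win 960 3 796
noncomputable def n1456 : Strat := .move 919 n1454 (.cons 756 n1455 .nil)
noncomputable def n1457 : Strat := .move 878 n1453 (.cons 877 n1456 .nil)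
noncomputable def n1458 : Strat := .move 796 n1104 (.cons 795 n1457 .nil)
noncomputable def n1459 : Strat := .move 837 n1449 (.cons 836 n1458 .nil)
noncomputable def n1460 : Strat := .move 838 n1450 (.cons 837 n1452 (.cons 800 n1459 .nil))
noncomputable def n1461 : Strat := .win 836 4 795
noncomputable def n1462 : Strat := .win 879 6 714
noncomputable def n1463 : Strat := .win 673 6 673
noncomputable def n1464 : Strat := .move 714 n1462 (.cons 879 n1463 .nil)
noncomputable def n1465 : Strat := .win 920 7 755
noncomputable def n1466 : Strat := .win 714 6 714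
noncomputable def n1467 : Strat := .move 879 n1465 (.cons 920 n1466 .nil)
noncomputable def n1468 : Strat := .win 715 1 714
noncomputable def n1469 : Strat := .win 919 3 755
noncomputable def n1470 : Strat := .move 756 n1468 (.cons 715 n1469 .nil)
noncomputable def n1471 : Strat := .move 878 n1453 (.cons 877 n1470 .nil)
noncomputable def n1472 : Strat := .move 838 n1464 (.cons 673 n1467 (.cons 879 n1471 .nil))
noncomputable def n1473 : Strat := .move 755 n1304 (.cons 754 n1472 .nil)
noncomputable def n1474 : Strat := .move 837 n1461 (.cons 836 n1473 .nil)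
noncomputable def n1475 : Strat := .move 796 n1104 (.cons 795 n1474 .nil)
noncomputable def n1476 : Strat := .move 838 n774 (.cons 837 n435 .nil)
noncomputable def n1477 : Strat := .move 838 n774 (.cons 837 n1451 .nil)
noncomputable def n1478 : Strat := .win 881 6 716
noncomputable def n1479 : Strat := .move 716 n755 (.cons 675 n1478 .nil)
noncomputable def n1480 : Strat := .move 757 n1391 (.cons 801 n1479 .nil)
noncomputable def n1481 : Strat := .move 756 n565 (.cons 755 n1480 .nil)
noncomputable def n1482 : Strat := .move 800 n1476 (.cons 801 n1477 (.cons 837 n1103 (.cons 838 n1481 .nil)))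
noncomputable def n1483 : Strat := .win 800 2 755
noncomputable def n1484 : Strat := .win 878 3 714
noncomputable def n1485 : Strat := .move 837 n1484 (.cons 878 n1461 .nil)
noncomputable def n1486 : Strat := .move 715 n1297 (.cons 674 n1485 .nil)
noncomputable def n1487 : Strat := .move 756 n1483 (.cons 800 n1486 .nil)
noncomputable def n1488 : Strat := .move 755 n1304 (.cons 754 n1487 .nil)
noncomputable def n1489 : Strat := .move 796 n1104 (.cons 795 n1488 .nil)
noncomputable def n1490 : Strat := .win 838 6 715
noncomputable def n1491 : Strat := .move 880 n1490 (.cons 838 n1417 .nil)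
noncomputable def n1492 : Strat := .move 715 n1297 (.cons 674 n1491 .nil)
noncomputable def n1493 : Strat := .move 756 n1483 (.cons 800 n1492 .nil)
noncomputable def n1494 : Strat := .move 755 n1304 (.cons 754 n1493 .nil)
noncomputable def n1495 : Strat := .move 796 n1104 (.cons 795 n1494 .nil)
noncomputable def n1496 : Strat := .move 755 n1304 (.cons 754 n1464 .nil)
noncomputable def n1497 : Strat := .move 838 n1448 (.cons 800 n1496 .nil)
noncomputable def n1498 : Strat := .move 837 n1461 (.cons 836 n1497 .nil)
noncomputable def n1499 : Strat := .move 796 n1104 (.cons 795 n1498 .nil)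
noncomputable def n1500 : Strat := .move 800 n774 (.cons 837 n435 .nil)
noncomputable def n1501 : Strat := .move 716 n1441 (.cons 675 n1478 .nil)
noncomputable def n1502 : Strat := .move 879 n1380 (.cons 716 n1381 .nil)
noncomputable def n1503 : Strat := .move 921 n611 (.cons 962 n1193 .nil)
noncomputable def n1504 : Strat := .move 756 n1417 (.cons 921 n635 .nil)
noncomputable def n1505 : Strat := .win 920 1 756
noncomputable def n1506 : Strat := .move 878 n1427 (.cons 919 n195 .nil)
noncomputable def n1507 : Strat := .move 879 n1505 (.cons 920 n1506 .nil)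
noncomputable def n1508 : Strat := .move 756 n635 (.cons 715 n1507 .nil)
noncomputable def n1509 : Strat := .win 879 1 756
noncomputable def n1510 : Strat := .move 921 n681 (.cons 961 n611 .nil)
noncomputable def n1511 : Strat := .move 920 n1509 (.cons 879 n1510 .nil)
noncomputable def n1512 : Strat := .move 881 n460 (.cons 922 n1511 .nil)
noncomputable def n1513 : Strat := .move 880 n1503 (.cons 962 n1504 (.cons 921 n1508 (.cons 756 n1512 .nil)))
noncomputable def n1514 : Strat := .move 757 n1501 (.cons 675 n1502 (.cons 716 n1513 .nil))
noncomputable def n1515 : Strat := .move 838 n1450 (.cons 836 n1500 (.cons 800 n1459 (.cons 837 n1514 .nil)))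
noncomputable def n1516 : Strat := .move 839 n1460 (.cons 800 n1475 (.cons 796 n1482 (.cons 838 n1489 (.cons 837 n1495 (.cons 756 n1499 (.cons 755 n1515 .nil))))))
noncomputable def n1517 : Strat := .move 798 n1389 (.cons 839 n1398 (.cons 838 n1404 (.cons 796 n1447 (.cons 841 n1516 .nil))))
noncomputable def n1518 : Strat := .move 759 n559 (.cons 760 n640 .nil)
noncomputable def n1519 : Strat := .win 880 5 837
noncomputable def n1520 : Strat := .move 878 n1428 (.cons 839 n1519 .nil)
noncomputable def n1521 : Strat := .move 878 n1427 (.cons 919 n1519 .nil)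
noncomputable def n1522 : Strat := .move 879 n1520 (.cons 880 n1429 (.cons 839 n1521 (.cons 878 n1430 .nil)))
noncomputable def n1523 : Strat := .move 756 n565 (.cons 755 n1522 .nil)
noncomputable def n1524 : Strat := .move 838 n774 (.cons 837 n1523 .nil)
noncomputable def n1525 : Strat := .move 881 n1518 (.cons 759 n1524 .nil)
noncomputable def n1526 : Strat := .move 800 n1387 (.cons 922 n1525 (.cons 881 n1421 .nil))
noncomputable def n1527 : Strat := .move 841 n560 (.cons 796 n1526 .nil)
noncomputable def n1528 : Strat := .win 837 4 795
noncomputable def n1529 : Strat := .win 835 4 794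
noncomputable def n1530 : Strat := .move 836 n1528 (.cons 837 n1529 .nil)
noncomputable def n1531 : Strat := .move 795 n1399 (.cons 839 n1530 .nil)
noncomputable def n1532 : Strat := .move 796 n780 (.cons 841 n1531 .nil)
noncomputable def n1533 : Strat := .win 838 4 796
noncomputable def n1534 : Strat := .move 800 n1303 (.cons 756 n1533 .nil)
noncomputable def n1535 : Strat := .move 837 n1461 (.cons 836 n1534 .nil)
noncomputable def n1536 : Strat := .move 755 n1304 (.cons 754 n1535 .nil)
noncomputable def n1537 : Strat := .move 796 n780 (.cons 841 n1536 .nil)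
noncomputable def n1538 : Strat := .win 676 3 675
noncomputable def n1539 : Strat := .win 879 1 715
noncomputable def n1540 : Strat := .move 837 n1449 (.cons 836 n1448 .nil)
noncomputable def n1541 : Strat := .move 838 n1539 (.cons 879 n1540 .nil)
noncomputable def n1542 : Strat := .move 717 n1538 (.cons 676 n1541 .nil)
noncomputable def n1543 : Strat := .move 839 n1478 (.cons 881 n1542 .nil)
noncomputable def n1544 : Strat := .move 716 n755 (.cons 675 n1543 .nil)
noncomputable def n1545 : Strat := .move 718 n1437 (.cons 841 n724 .nil)
noncomputable def n1546 : Strat := .move 759 n559 (.cons 760 n1545 .nil)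
noncomputable def n1547 : Strat := .move 756 n565 (.cons 755 n1546 .nil)
noncomputable def n1548 : Strat := .move 800 n774 (.cons 837 n1547 .nil)
noncomputable def n1549 : Strat := .move 839 n1081 (.cons 882 n1449 .nil)
noncomputable def n1550 : Strat := .move 837 n1448 (.cons 800 n1549 .nil)
noncomputable def n1551 : Strat := .move 755 n462 (.cons 754 n1483 .nil)
noncomputable def n1552 : Strat := .win 714 7 714
noncomputable def n1553 : Strat := .move 755 n1552 (.cons 714 n462 .nil)
noncomputable def n1554 : Strat := .move 755 n1552 (.cons 714 n1483 .nil)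
noncomputable def n1555 : Strat := .move 878 n196 (.cons 841 n1427 .nil)
noncomputable def n1556 : Strat := .move 880 n634 (.cons 921 n1555 .nil)
noncomputable def n1557 : Strat := .move 756 n1551 (.cons 800 n1553 (.cons 754 n1554 (.cons 755 n1556 .nil)))
noncomputable def n1558 : Strat := .move 879 n1381 (.cons 920 n1557 .nil)
noncomputable def n1559 : Strat := .win 756 6 756
noncomputable def n1560 : Strat := .move 921 n611 (.cons 962 n1559 .nil)
noncomputable def n1561 : Strat := .move 839 n1082 (.cons 882 n1560 .nil)
noncomputable def n1562 : Strat := .move 756 n634 (.cons 921 n1555 .nil)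
noncomputable def n1563 : Strat := .win 882 2 837
noncomputable def n1564 : Strat := .win 839 0 836
noncomputable def n1565 : Strat := .win 835 0 835
noncomputable def n1566 : Strat := .move 836 n1564 (.cons 839 n1565 .nil)
noncomputable def n1567 : Strat := .move 837 n1563 (.cons 882 n1566 .nil)
noncomputable def n1568 : Strat := .move 880 n1561 (.cons 839 n1562 (.cons 756 n1567 .nil))
noncomputable def n1569 : Strat := .move 879 n1381 (.cons 920 n1568 .nil)
noncomputable def n1570 : Strat := .move 838 n1548 (.cons 841 n1550 (.cons 837 n1558 (.cons 800 n1569 .nil)))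
noncomputable def n1571 : Strat := .move 881 n205 (.cons 922 n1570 .nil)
noncomputable def n1572 : Strat := .win 839 6 716
noncomputable def n1573 : Strat := .move 881 n205 (.cons 922 n1572 .nil)
noncomputable def n1574 : Strat := .move 716 n755 (.cons 675 n1573 .nil)
noncomputable def n1575 : Strat := .win 839 1 715
noncomputable def n1576 : Strat := .move 879 n1381 (.cons 920 n1575 .nil)
noncomputable def n1577 : Strat := .win 756 3 715
noncomputable def n1578 : Strat := .move 879 n1381 (.cons 920 n1577 .nil)
noncomputable def n1579 : Strat := .win 756 1 714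
noncomputable def n1580 : Strat := .move 878 n1453 (.cons 877 n1579 .nil)
noncomputable def n1581 : Strat := .move 715 n143 (.cons 674 n1580 .nil)
noncomputable def n1582 : Strat := .move 839 n1449 (.cons 836 n1581 .nil)
noncomputable def n1583 : Strat := .move 837 n1448 (.cons 800 n1582 .nil)
noncomputable def n1584 : Strat := .move 838 n1576 (.cons 839 n1578 (.cons 879 n1583 .nil))
noncomputable def n1585 : Strat := .move 716 n755 (.cons 675 n1584 .nil)
noncomputable def n1586 : Strat := .move 800 n774 (.cons 837 n1546 .nil)
noncomputable def n1587 : Strat := .move 838 n1578 (.cons 756 n1586 .nil)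
noncomputable def n1588 : Strat := .move 881 n205 (.cons 922 n1587 .nil)
noncomputable def n1589 : Strat := .move 716 n755 (.cons 675 n1588 .nil)
noncomputable def n1590 : Strat := .move 757 n1544 (.cons 716 n1571 (.cons 836 n1574 (.cons 881 n1585 (.cons 839 n1589 .nil))))
noncomputable def n1591 : Strat := .move 839 n1104 (.cons 795 n1471 .nil)
noncomputable def n1592 : Strat := .move 838 n1448 (.cons 800 n1591 .nil)
noncomputable def n1593 : Strat := .move 837 n1461 (.cons 836 n1592 .nil)
noncomputable def n1594 : Strat := .move 796 n1593 (.cons 837 n1403 (.cons 839 n1536 .nil))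
noncomputable def n1595 : Strat := .move 798 n1527 (.cons 756 n1532 (.cons 839 n1537 (.cons 796 n1590 (.cons 841 n1594 (.cons 837 n1404 .nil)))))
noncomputable def n1596 : Strat := .move 881 n1081 (.cons 882 n1496 .nil)
noncomputable def n1597 : Strat := .move 839 n1104 (.cons 795 n1596 .nil)
noncomputable def n1598 : Strat := .move 838 n1448 (.cons 800 n1597 .nil)
noncomputable def n1599 : Strat := .move 837 n1461 (.cons 836 n1598 .nil)
noncomputable def n1600 : Strat := .move 796 n780 (.cons 841 n1599 .nil)
noncomputable def n1601 : Strat := .move 879 n1466 (.cons 714 n1465 .nil)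
noncomputable def n1602 : Strat := .move 755 n1304 (.cons 754 n1601 .nil)
noncomputable def n1603 : Strat := .move 838 n1448 (.cons 800 n1602 .nil)
noncomputable def n1604 : Strat := .move 837 n1461 (.cons 836 n1603 .nil)
noncomputable def n1605 : Strat := .move 796 n780 (.cons 841 n1604 .nil)
noncomputable def n1606 : Strat := .move 881 n1518 (.cons 718 n1433 .nil)
noncomputable def n1607 : Strat := .win 881 1 717
noncomputable def n1608 : Strat := .move 718 n724 (.cons 677 n1607 .nil)
noncomputable def n1609 : Strat := .move 759 n559 (.cons 760 n1608 .nil)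
noncomputable def n1610 : Strat := .move 841 n1525 (.cons 880 n1606 (.cons 878 n1609 (.cons 718 n1421 .nil)))
noncomputable def n1611 : Strat := .win 759 5 756
noncomputable def n1612 : Strat := .move 760 n1611 (.cons 759 n753 .nil)
noncomputable def n1613 : Strat := .move 801 n775 (.cons 839 n1612 .nil)
noncomputable def n1614 : Strat := .move 838 n774 (.cons 837 n1613 .nil)
noncomputable def n1615 : Strat := .move 801 n1406 (.cons 757 n1132 .nil)
noncomputable def n1616 : Strat := .move 756 n565 (.cons 755 n1615 .nil)
noncomputable def n1617 : Strat := .move 838 n774 (.cons 837 n1443 .nil)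
noncomputable def n1618 : Strat := .move 757 n1391 (.cons 801 n1617 .nil)
noncomputable def n1619 : Strat := .move 756 n565 (.cons 755 n1618 .nil)
noncomputable def n1620 : Strat := .move 801 n1406 (.cons 757 n1612 .nil)
noncomputable def n1621 : Strat := .move 756 n565 (.cons 755 n1620 .nil)
noncomputable def n1622 : Strat := .move 800 n1409 (.cons 801 n1610 (.cons 755 n1614 (.cons 837 n1616 (.cons 839 n1619 (.cons 838 n1621 .nil)))))
noncomputable def n1623 : Strat := .move 796 n1599 (.cons 837 n1403 (.cons 795 n1604 (.cons 755 n1531 .nil)))
noncomputable def n1624 : Strat := .move 798 n1600 (.cons 714 n1404 (.cons 755 n1532 (.cons 795 n1605 (.cons 796 n1622 (.cons 841 n1623 .nil)))))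
noncomputable def n1625 : Strat := .move 800 n1385 (.cons 879 n1409 (.cons 839 n1396 (.cons 837 n1410 (.cons 757 n1412 (.cons 838 n1416 (.cons 801 n1421 .nil))))))
noncomputable def n1626 : Strat := .move 841 n560 (.cons 796 n1625 .nil)
noncomputable def n1627 : Strat := .move 839 n1464 (.cons 673 n1467 (.cons 879 n1471 .nil))
noncomputable def n1628 : Strat := .move 755 n1304 (.cons 754 n1627 .nil)
noncomputable def n1629 : Strat := .move 838 n1448 (.cons 800 n1628 .nil)
noncomputable def n1630 : Strat := .move 837 n1461 (.cons 836 n1629 .nil)
noncomputable def n1631 : Strat := .win 674 1 673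
noncomputable def n1632 : Strat := .move 715 n1631 (.cons 674 n1484 .nil)
noncomputable def n1633 : Strat := .move 756 n1483 (.cons 800 n1632 .nil)
noncomputable def n1634 : Strat := .move 837 n1461 (.cons 836 n1633 .nil)
noncomputable def n1635 : Strat := .move 755 n1304 (.cons 754 n1634 .nil)
noncomputable def n1636 : Strat := .move 796 n1593 (.cons 800 n1403 (.cons 795 n1630 (.cons 839 n1635 .nil)))
noncomputable def n1637 : Strat := .move 796 n780 (.cons 841 n1635 .nil)
noncomputable def n1638 : Strat := .move 881 n1081 (.cons 882 n1253 .nil)
noncomputable def n1639 : Strat := .move 839 n1449 (.cons 836 n1638 .nil)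
noncomputable def n1640 : Strat := .move 837 n1448 (.cons 800 n1639 .nil)
noncomputable def n1641 : Strat := .move 839 n1539 (.cons 879 n1478 .nil)
noncomputable def n1642 : Strat := .move 716 n1441 (.cons 675 n1641 .nil)
noncomputable def n1643 : Strat := .move 716 n1441 (.cons 675 n1578 .nil)
noncomputable def n1644 : Strat := .move 800 n1391 (.cons 801 n565 .nil)
noncomputable def n1645 : Strat := .move 756 n1644 (.cons 755 n1298 .nil)
noncomputable def n1646 : Strat := .move 839 n1478 (.cons 881 n1645 .nil)
noncomputable def n1647 : Strat := .move 716 n1441 (.cons 675 n1646 .nil)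
noncomputable def n1648 : Strat := .move 755 n1483 (.cons 800 n462 .nil)
noncomputable def n1649 : Strat := .move 800 n565 (.cons 755 n1391 .nil)
noncomputable def n1650 : Strat := .move 878 n488 (.cons 841 n1427 .nil)
noncomputable def n1651 : Strat := .move 839 n635 (.cons 715 n1650 .nil)
noncomputable def n1652 : Strat := .move 880 n634 (.cons 921 n1651 .nil)
noncomputable def n1653 : Strat := .move 756 n1648 (.cons 754 n1649 (.cons 755 n1652 .nil))
noncomputable def n1654 : Strat := .move 879 n1381 (.cons 920 n1653 .nil)
noncomputable def n1655 : Strat := .move 757 n1642 (.cons 839 n1643 (.cons 879 n1647 (.cons 716 n1654 .nil)))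
noncomputable def n1656 : Strat := .move 837 n1081 (.cons 882 n1080 .nil)
noncomputable def n1657 : Strat := .move 882 n187 (.cons 883 n186 .nil)
noncomputable def n1658 : Strat := .move 839 n1656 (.cons 836 n1657 (.cons 882 n1560 .nil))
noncomputable def n1659 : Strat := .move 756 n634 (.cons 921 n1553 .nil)
noncomputable def n1660 : Strat := .move 880 n1658 (.cons 839 n1659 (.cons 756 n1567 .nil))
noncomputable def n1661 : Strat := .move 881 n205 (.cons 922 n1660 .nil)
noncomputable def n1662 : Strat := .move 879 n1381 (.cons 920 n1661 .nil)
noncomputable def n1663 : Strat := .win 878 1 714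
noncomputable def n1664 : Strat := .move 837 n1663 (.cons 878 n1449 .nil)
noncomputable def n1665 : Strat := .move 756 n1296 (.cons 880 n1664 .nil)
noncomputable def n1666 : Strat := .move 715 n143 (.cons 674 n1665 .nil)
noncomputable def n1667 : Strat := .move 839 n1478 (.cons 881 n1666 .nil)
noncomputable def n1668 : Strat := .move 716 n1441 (.cons 675 n1667 .nil)
noncomputable def n1669 : Strat := .move 757 n1642 (.cons 716 n1662 (.cons 839 n1643 (.cons 879 n1668 .nil)))
noncomputable def n1670 : Strat := .win 835 5 794
noncomputable def n1671 : Strat := .move 716 n1577 (.cons 756 n1441 .nil)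
noncomputable def n1672 : Strat := .move 757 n1381 (.cons 920 n1671 .nil)
noncomputable def n1673 : Strat := .win 757 3 756
noncomputable def n1674 : Strat := .move 878 n1427 (.cons 919 n1468 .nil)
noncomputable def n1675 : Strat := .win 960 1 796
noncomputable def n1676 : Strat := .win 878 1 755
noncomputable def n1677 : Strat := .move 919 n1675 (.cons 960 n1676 .nil)
noncomputable def n1678 : Strat := .win 962 6 797
noncomputable def n1679 : Strat := .win 880 6 756
noncomputable def n1680 : Strat := .move 921 n1678 (.cons 962 n1679 .nil)
noncomputable def n1681 : Strat := .move 756 n1674 (.cons 715 n1677 (.cons 919 n1680 .nil))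
noncomputable def n1682 : Strat := .move 920 n1673 (.cons 757 n1681 .nil)
noncomputable def n1683 : Strat := .win 878 2 836
noncomputable def n1684 : Strat := .move 881 n1563 (.cons 882 n1683 .nil)
noncomputable def n1685 : Strat := .win 1003 7 838
noncomputable def n1686 : Strat := .win 920 6 797
noncomputable def n1687 : Strat := .move 962 n1685 (.cons 1003 n1686 .nil)
noncomputable def n1688 : Strat := .move 921 n1559 (.cons 756 n1687 .nil)
noncomputable def n1689 : Strat := .move 880 n1684 (.cons 878 n1688 .nil)
noncomputable def n1690 : Strat := .move 755 n462 (.cons 754 n1552 .nil)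
noncomputable def n1691 : Strat := .move 757 n1392 (.cons 716 n1690 .nil)
noncomputable def n1692 : Strat := .move 756 n1674 (.cons 715 n1691 .nil)
noncomputable def n1693 : Strat := .move 880 n1563 (.cons 882 n1683 .nil)
noncomputable def n1694 : Strat := .move 881 n205 (.cons 922 n1693 .nil)
noncomputable def n1695 : Strat := .move 757 n1381 (.cons 920 n1694 .nil)
noncomputable def n1696 : Strat := .move 879 n1672 (.cons 675 n1682 (.cons 757 n1689 (.cons 920 n1692 (.cons 756 n1695 .nil))))
noncomputable def n1697 : Strat := .move 836 n1670 (.cons 835 n1696 .nil)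
noncomputable def n1698 : Strat := .move 837 n1448 (.cons 800 n1697 .nil)
noncomputable def n1699 : Strat := .move 800 n774 (.cons 837 n1408 .nil)
noncomputable def n1700 : Strat := .win 839 5 795
noncomputable def n1701 : Strat := .move 836 n1670 (.cons 835 n1700 .nil)
noncomputable def n1702 : Strat := .move 837 n1448 (.cons 800 n1701 .nil)
noncomputable def n1703 : Strat := .move 838 n1640 (.cons 837 n1655 (.cons 800 n1669 (.cons 839 n1698 (.cons 716 n1699 (.cons 757 n1702 .nil)))))
noncomputable def n1704 : Strat := .move 798 n1626 (.cons 800 n1404 (.cons 755 n1532 (.cons 841 n1636 (.cons 839 n1637 (.cons 796 n1703 .nil)))))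
noncomputable def n1705 : Strat := .move 800 n1412 (.cons 715 n1425 .nil)
noncomputable def n1706 : Strat := .move 841 n560 (.cons 796 n1705 .nil)
noncomputable def n1707 : Strat := .move 880 n635 (.cons 715 n1417 .nil)
noncomputable def n1708 : Strat := .move 756 n565 (.cons 755 n1707 .nil)
noncomputable def n1709 : Strat := .move 839 n435 (.cons 801 n1708 .nil)
noncomputable def n1710 : Strat := .move 838 n774 (.cons 837 n1709 .nil)
noncomputable def n1711 : Strat := .move 800 n1436 (.cons 837 n1440 (.cons 841 n1710 .nil))
noncomputable def n1712 : Strat := .move 798 n1706 (.cons 796 n1711 (.cons 839 n1537 (.cons 837 n1404 (.cons 755 n1532 (.cons 841 n1594 .nil)))))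
noncomputable def n1713 : Strat := .win 715 3 714
noncomputable def n1714 : Strat := .move 878 n1713 (.cons 715 n1469 .nil)
noncomputable def n1715 : Strat := .move 837 n1461 (.cons 836 n1714 .nil)
noncomputable def n1716 : Strat := .move 756 n1483 (.cons 800 n1715 .nil)
noncomputable def n1717 : Strat := .move 755 n1304 (.cons 754 n1716 .nil)
noncomputable def n1718 : Strat := .move 796 n1403 (.cons 795 n1717 (.cons 755 n1531 .nil))
noncomputable def n1719 : Strat := .move 796 n780 (.cons 841 n1717 .nil)
noncomputable def n1720 : Strat := .move 716 n755 (.cons 675 n1572 .nil)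
noncomputable def n1721 : Strat := .move 881 n205 (.cons 922 n1720 .nil)
noncomputable def n1722 : Strat := .move 757 n1391 (.cons 801 n1721 .nil)
noncomputable def n1723 : Strat := .move 756 n565 (.cons 755 n1722 .nil)
noncomputable def n1724 : Strat := .move 800 n1440 (.cons 881 n1621 (.cons 760 n1723 .nil))
noncomputable def n1725 : Strat := .move 798 n1404 (.cons 841 n1718 (.cons 754 n1532 (.cons 795 n1719 (.cons 796 n1724 .nil))))
noncomputable def n1726 : Strat := .move 839 n1104 (.cons 795 n1474 .nil)
noncomputable def n1727 : Strat := .win 674 3 673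
noncomputable def n1728 : Strat := .move 715 n1579 (.cons 756 n1727 .nil)
noncomputable def n1729 : Strat := .move 919 n1455 (.cons 960 n1454 .nil)
noncomputable def n1730 : Strat := .win 839 4 836
noncomputable def n1731 : Strat := .win 918 1 754
noncomputable def n1732 : Strat := .move 877 n1730 (.cons 839 n1731 .nil)
noncomputable def n1733 : Strat := .move 878 n1470 (.cons 919 n1728 (.cons 715 n1729 (.cons 756 n1732 .nil)))
noncomputable def n1734 : Strat := .move 714 n1463 (.cons 673 n1733 .nil)
noncomputable def n1735 : Strat := .move 756 n1468 (.cons 715 n1427 .nil)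
noncomputable def n1736 : Strat := .move 878 n1735 (.cons 919 n1732 .nil)
noncomputable def n1737 : Strat := .move 879 n1465 (.cons 920 n1736 .nil)
noncomputable def n1738 : Strat := .move 838 n1627 (.cons 877 n1601 (.cons 879 n1734 (.cons 714 n1737 .nil)))
noncomputable def n1739 : Strat := .move 755 n1304 (.cons 754 n1738 .nil)
noncomputable def n1740 : Strat := .move 837 n1461 (.cons 836 n1739 .nil)
noncomputable def n1741 : Strat := .move 838 n1463 (.cons 673 n1462 .nil)
noncomputable def n1742 : Strat := .win 715 3 673
noncomputable def n1743 : Strat := .win 633 3 632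
noncomputable def n1744 : Strat := .win 631 7 631
noncomputable def n1745 : Strat := .win 713 7 672
noncomputable def n1746 : Strat := .move 672 n1744 (.cons 631 n1745 .nil)
noncomputable def n1747 : Strat := .move 673 n1743 (.cons 633 n1746 .nil)
noncomputable def n1748 : Strat := .move 674 n1742 (.cons 715 n1747 .nil)
noncomputable def n1749 : Strat := .win 838 6 714
noncomputable def n1750 : Strat := .win 920 6 755
noncomputable def n1751 : Strat := .win 756 3 714
noncomputable def n1752 : Strat := .move 715 n1751 (.cons 756 n1727 .nil)
noncomputable def n1753 : Strat := .move 878 n1750 (.cons 920 n1752 .nil)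
noncomputable def n1754 : Strat := .move 879 n1749 (.cons 838 n1753 .nil)
noncomputable def n1755 : Strat := .move 714 n1741 (.cons 838 n1748 (.cons 673 n1754 .nil))
noncomputable def n1756 : Strat := .move 837 n1461 (.cons 836 n1755 .nil)
noncomputable def n1757 : Strat := .move 755 n1304 (.cons 754 n1756 .nil)
noncomputable def n1758 : Strat := .move 796 n1726 (.cons 795 n1740 (.cons 755 n1531 (.cons 836 n1403 (.cons 839 n1757 .nil))))
noncomputable def n1759 : Strat := .move 796 n1304 (.cons 754 n1535 .nil)
noncomputable def n1760 : Strat := .move 796 n1304 (.cons 754 n1756 .nil)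
noncomputable def n1761 : Strat := .move 796 n1304 (.cons 754 n1634 .nil)
noncomputable def n1762 : Strat := .move 838 n1448 (.cons 800 n1467 .nil)
noncomputable def n1763 : Strat := .move 837 n1461 (.cons 836 n1762 .nil)
noncomputable def n1764 : Strat := .move 796 n1304 (.cons 754 n1763 .nil)
noncomputable def n1765 : Strat := .win 753 0 753
noncomputable def n1766 : Strat := .win 757 0 754
noncomputable def n1767 : Strat := .move 754 n1765 (.cons 753 n1766 .nil)
noncomputable def n1768 : Strat := .move 756 n1483 (.cons 800 n1767 .nil)
noncomputable def n1769 : Strat := .move 879 n1552 (.cons 714 n1392 .nil)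
noncomputable def n1770 : Strat := .win 716 1 674
noncomputable def n1771 : Strat := .win 634 3 633
noncomputable def n1772 : Strat := .move 674 n1771 (.cons 634 n450 .nil)
noncomputable def n1773 : Strat := .move 675 n1770 (.cons 716 n1772 .nil)
noncomputable def n1774 : Strat := .win 796 4 795
noncomputable def n1775 : Strat := .move 836 n1670 (.cons 835 n1774 .nil)
noncomputable def n1776 : Strat := .move 837 n1663 (.cons 878 n1775 .nil)
noncomputable def n1777 : Strat := .move 715 n1773 (.cons 675 n1776 .nil)
noncomputable def n1778 : Strat := .move 879 n1552 (.cons 714 n1381 .nil)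
noncomputable def n1779 : Strat := .move 757 n1769 (.cons 714 n1443 (.cons 879 n1777 (.cons 716 n1778 .nil)))
noncomputable def n1780 : Strat := .move 879 n1552 (.cons 714 n1430 .nil)
noncomputable def n1781 : Strat := .move 757 n1773 (.cons 675 n1776 .nil)
noncomputable def n1782 : Strat := .win 716 3 674
noncomputable def n1783 : Strat := .win 837 1 673
noncomputable def n1784 : Strat := .win 633 1 632
noncomputable def n1785 : Strat := .move 796 n1783 (.cons 837 n1784 .nil)
noncomputable def n1786 : Strat := .move 674 n1771 (.cons 634 n1785 .nil)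
noncomputable def n1787 : Strat := .move 675 n1782 (.cons 716 n1786 .nil)
noncomputable def n1788 : Strat := .win 714 7 673
noncomputable def n1789 : Strat := .win 632 7 632
noncomputable def n1790 : Strat := .move 674 n1789 (.cons 632 n1771 .nil)
noncomputable def n1791 : Strat := .move 673 n1788 (.cons 714 n1790 .nil)
noncomputable def n1792 : Strat := .move 675 n1782 (.cons 716 n1791 .nil)
noncomputable def n1793 : Strat := .move 715 n1781 (.cons 836 n1787 (.cons 837 n1792 (.cons 675 n1776 .nil)))
noncomputable def n1794 : Strat := .move 837 n1674 (.cons 715 n1775 .nil)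
noncomputable def n1795 : Strat := .move 757 n1392 (.cons 716 n1794 .nil)
noncomputable def n1796 : Strat := .move 837 n1461 (.cons 836 n1674 .nil)
noncomputable def n1797 : Strat := .move 796 n1465 (.cons 920 n1796 .nil)
noncomputable def n1798 : Strat := .move 879 n1430 (.cons 920 n1795 (.cons 757 n1797 .nil))
noncomputable def n1799 : Strat := .move 879 n1552 (.cons 714 n1797 .nil)
noncomputable def n1800 : Strat := .move 838 n1779 (.cons 633 n1780 (.cons 879 n1793 (.cons 714 n1798 (.cons 757 n1799 .nil))))
noncomputable def n1801 : Strat := .move 756 n1483 (.cons 800 n1800 .nil)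
noncomputable def n1802 : Strat := .move 755 n1759 (.cons 800 n1760 (.cons 838 n1761 (.cons 756 n1764 (.cons 796 n1768 (.cons 754 n1801 .nil)))))
noncomputable def n1803 : Strat := .move 839 n1104 (.cons 795 n1498 .nil)
noncomputable def n1804 : Strat := .move 796 n1803 (.cons 795 n1604 (.cons 755 n1531 (.cons 837 n1403 .nil)))
noncomputable def n1805 : Strat := .move 838 n1539 (.cons 879 n1450 .nil)
noncomputable def n1806 : Strat := .move 839 n1478 (.cons 881 n1805 .nil)
noncomputable def n1807 : Strat := .move 716 n755 (.cons 675 n1806 .nil)
noncomputable def n1808 : Strat := .win 756 7 715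
noncomputable def n1809 : Strat := .move 920 n681 (.cons 961 n1509 .nil)
noncomputable def n1810 : Strat := .move 921 n611 (.cons 962 n1809 .nil)
noncomputable def n1811 : Strat := .move 880 n1808 (.cons 756 n1810 .nil)
noncomputable def n1812 : Strat := .move 715 n143 (.cons 674 n1811 .nil)
noncomputable def n1813 : Strat := .win 880 7 715
noncomputable def n1814 : Strat := .move 796 n1461 (.cons 836 n1104 .nil)
noncomputable def n1815 : Strat := .move 800 n1391 (.cons 801 n1533 .nil)
noncomputable def n1816 : Strat := .move 837 n1814 (.cons 795 n1815 .nil)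
noncomputable def n1817 : Strat := .move 756 n1813 (.cons 880 n1816 .nil)
noncomputable def n1818 : Strat := .move 715 n143 (.cons 674 n1817 .nil)
noncomputable def n1819 : Strat := .move 839 n1805 (.cons 838 n1812 (.cons 879 n1818 .nil))
noncomputable def n1820 : Strat := .move 716 n755 (.cons 675 n1819 .nil)
noncomputable def n1821 : Strat := .move 800 n1391 (.cons 801 n774 .nil)
noncomputable def n1822 : Strat := .move 756 n1442 (.cons 879 n1821 .nil)
noncomputable def n1823 : Strat := .move 801 n753 (.cons 761 n751 .nil)
noncomputable def n1824 : Strat := .move 760 n1611 (.cons 759 n1823 .nil)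
noncomputable def n1825 : Strat := .move 800 n774 (.cons 837 n1824 .nil)
noncomputable def n1826 : Strat := .move 837 n1448 (.cons 800 n1775 .nil)
noncomputable def n1827 : Strat := .move 838 n1578 (.cons 920 n1822 (.cons 879 n1825 (.cons 756 n1826 .nil)))
noncomputable def n1828 : Strat := .move 881 n205 (.cons 922 n1827 .nil)
noncomputable def n1829 : Strat := .move 716 n755 (.cons 675 n1828 .nil)
noncomputable def n1830 : Strat := .move 801 n751 (.cons 756 n937 .nil)
noncomputable def n1831 : Strat := .move 837 n1533 (.cons 838 n1814 .nil)
noncomputable def n1832 : Strat := .move 800 n1476 (.cons 838 n1830 (.cons 801 n1831 .nil))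
noncomputable def n1833 : Strat := .move 839 n1252 (.cons 716 n1832 .nil)
noncomputable def n1834 : Strat := .move 881 n205 (.cons 922 n1833 .nil)
noncomputable def n1835 : Strat := .move 801 n751 (.cons 756 n775 .nil)
noncomputable def n1836 : Strat := .move 838 n774 (.cons 837 n1835 .nil)
noncomputable def n1837 : Strat := .move 801 n751 (.cons 756 n1612 .nil)
noncomputable def n1838 : Strat := .win 756 5 753
noncomputable def n1839 : Strat := .win 752 2 752
noncomputable def n1840 : Strat := .win 754 2 753
noncomputable def n1841 : Strat := .move 753 n1839 (.cons 752 n1840 .nil)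
noncomputable def n1842 : Strat := .move 794 n1838 (.cons 756 n1841 .nil)
noncomputable def n1843 : Strat := .move 795 n1399 (.cons 839 n1842 .nil)
noncomputable def n1844 : Strat := .move 796 n1461 (.cons 836 n1843 .nil)
noncomputable def n1845 : Strat := .move 837 n1533 (.cons 838 n1844 .nil)
noncomputable def n1846 : Strat := .move 800 n1836 (.cons 838 n1837 (.cons 756 n1614 (.cons 801 n1845 .nil)))
noncomputable def n1847 : Strat := .move 757 n1807 (.cons 881 n1820 (.cons 839 n1829 (.cons 675 n1834 (.cons 838 n1574 (.cons 716 n1846 .nil)))))
noncomputable def n1848 : Strat := .move 716 n1572 (.cons 839 n755 .nil)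
noncomputable def n1849 : Strat := .move 881 n272 (.cons 922 n1848 .nil)
noncomputable def n1850 : Strat := .move 757 n1391 (.cons 801 n1849 .nil)
noncomputable def n1851 : Strat := .move 756 n565 (.cons 755 n1850 .nil)
noncomputable def n1852 : Strat := .move 759 n559 (.cons 760 n1851 .nil)
noncomputable def n1853 : Strat := .move 716 n1442 (.cons 879 n1441 .nil)
noncomputable def n1854 : Strat := .move 838 n774 (.cons 837 n1853 .nil)
noncomputable def n1855 : Strat := .move 757 n1391 (.cons 801 n1854 .nil)
noncomputable def n1856 : Strat := .move 756 n565 (.cons 755 n1855 .nil)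
noncomputable def n1857 : Strat := .move 759 n559 (.cons 760 n1856 .nil)
noncomputable def n1858 : Strat := .move 715 n1297 (.cons 674 n1296 .nil)
noncomputable def n1859 : Strat := .move 757 n1380 (.cons 716 n1505 .nil)
noncomputable def n1860 : Strat := .move 878 n195 (.cons 877 n1427 .nil)
noncomputable def n1861 : Strat := .move 879 n1859 (.cons 920 n1860 .nil)
noncomputable def n1862 : Strat := .move 880 n1417 (.cons 921 n1861 .nil)
noncomputable def n1863 : Strat := .win 675 3 674
noncomputable def n1864 : Strat := .move 757 n1478 (.cons 881 n1539 .nil)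
noncomputable def n1865 : Strat := .move 716 n1863 (.cons 675 n1864 .nil)
noncomputable def n1866 : Strat := .move 715 n1297 (.cons 674 n1865 .nil)
noncomputable def n1867 : Strat := .move 839 n1707 (.cons 921 n1858 (.cons 715 n1862 (.cons 880 n1866 .nil)))
noncomputable def n1868 : Strat := .move 756 n565 (.cons 755 n1867 .nil)
noncomputable def n1869 : Strat := .move 838 n774 (.cons 837 n1868 .nil)
noncomputable def n1870 : Strat := .move 800 n1710 (.cons 837 n1852 (.cons 839 n1857 (.cons 755 n1614 (.cons 801 n1869 .nil))))
noncomputable def n1871 : Strat := .move 839 n1104 (.cons 795 n1494 .nil)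
noncomputable def n1872 : Strat := .move 839 n937 (.cons 802 n752 .nil)
noncomputable def n1873 : Strat := .move 801 n753 (.cons 761 n1872 .nil)
noncomputable def n1874 : Strat := .move 760 n1611 (.cons 759 n1873 .nil)
noncomputable def n1875 : Strat := .move 800 n1303 (.cons 756 n1874 .nil)
noncomputable def n1876 : Strat := .move 755 n1304 (.cons 754 n1875 .nil)
noncomputable def n1877 : Strat := .win 836 4 794
noncomputable def n1878 : Strat := .win 834 4 793
noncomputable def n1879 : Strat := .move 835 n1877 (.cons 836 n1878 .nil)
noncomputable def n1880 : Strat := .move 794 n1839 (.cons 752 n1879 .nil)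
noncomputable def n1881 : Strat := .move 753 n1840 (.cons 754 n1880 .nil)
noncomputable def n1882 : Strat := .move 795 n1399 (.cons 839 n1881 .nil)
noncomputable def n1883 : Strat := .move 881 n205 (.cons 922 n1252 .nil)
noncomputable def n1884 : Strat := .move 756 n1644 (.cons 755 n1707 .nil)
noncomputable def n1885 : Strat := .move 838 n1539 (.cons 879 n1884 .nil)
noncomputable def n1886 : Strat := .move 716 n755 (.cons 675 n1885 .nil)
noncomputable def n1887 : Strat := .move 880 n461 (.cons 715 n1417 .nil)
noncomputable def n1888 : Strat := .move 756 n1644 (.cons 755 n1887 .nil)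
noncomputable def n1889 : Strat := .move 881 n205 (.cons 922 n1888 .nil)
noncomputable def n1890 : Strat := .move 757 n1479 (.cons 675 n1883 (.cons 881 n1886 (.cons 716 n1889 .nil)))
noncomputable def n1891 : Strat := .move 839 n1104 (.cons 795 n1890 .nil)
noncomputable def n1892 : Strat := .win 757 5 753
noncomputable def n1893 : Strat := .win 793 5 752
noncomputable def n1894 : Strat := .move 794 n1892 (.cons 757 n1893 .nil)
noncomputable def n1895 : Strat := .move 756 n1483 (.cons 800 n1894 .nil)
noncomputable def n1896 : Strat := .move 755 n1304 (.cons 754 n1895 .nil)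
noncomputable def n1897 : Strat := .move 755 n1893 (.cons 793 n1483 .nil)
noncomputable def n1898 : Strat := .move 756 n1892 (.cons 757 n1897 .nil)
noncomputable def n1899 : Strat := .move 794 n1878 (.cons 834 n1898 .nil)
noncomputable def n1900 : Strat := .move 835 n1877 (.cons 836 n1899 .nil)
noncomputable def n1901 : Strat := .move 795 n1402 (.cons 755 n1881 (.cons 753 n1896 (.cons 754 n1900 .nil)))
noncomputable def n1902 : Strat := .move 796 n1871 (.cons 795 n1876 (.cons 755 n1882 (.cons 754 n1891 (.cons 839 n1901 .nil))))
noncomputable def n1903 : Strat := .move 798 n1516 (.cons 800 n1758 (.cons 839 n1802 (.cons 838 n1718 (.cons 756 n1804 (.cons 755 n1847 (.cons 754 n1870 (.cons 837 n1902 .nil)))))))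
noncomputable def n1904 : Strat := .move 796 n780 (.cons 841 n1803 .nil)
noncomputable def n1905 : Strat := .move 716 n1441 (.cons 675 n1539 .nil)
noncomputable def n1906 : Strat := .move 881 n205 (.cons 922 n1546 .nil)
noncomputable def n1907 : Strat := .move 757 n1905 (.cons 716 n1906 .nil)
noncomputable def n1908 : Strat := .move 839 n435 (.cons 801 n1907 .nil)
noncomputable def n1909 : Strat := .move 838 n774 (.cons 837 n1908 .nil)
noncomputable def n1910 : Strat := .move 879 n1381 (.cons 920 n1380 .nil)
noncomputable def n1911 : Strat := .win 880 5 836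
noncomputable def n1912 : Strat := .win 876 5 835
noncomputable def n1913 : Strat := .move 877 n1911 (.cons 880 n1912 .nil)
noncomputable def n1914 : Strat := .move 878 n488 (.cons 841 n1913 .nil)
noncomputable def n1915 : Strat := .move 879 n1381 (.cons 920 n1914 .nil)
noncomputable def n1916 : Strat := .move 757 n1905 (.cons 675 n1910 (.cons 716 n1915 (.cons 879 n1501 .nil)))
noncomputable def n1917 : Strat := .move 839 n435 (.cons 801 n1916 .nil)
noncomputable def n1918 : Strat := .move 838 n774 (.cons 837 n1917 .nil)
noncomputable def n1919 : Strat := .move 800 n1909 (.cons 716 n1614 (.cons 839 n1440 (.cons 759 n1918 .nil)))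
noncomputable def n1920 : Strat := .move 798 n1904 (.cons 714 n1404 (.cons 795 n1605 (.cons 755 n1532 (.cons 796 n1919 (.cons 841 n1804 .nil)))))
noncomputable def n1921 : Strat := .move 755 n1464 (.cons 673 n1467 (.cons 879 n1471 .nil))
noncomputable def n1922 : Strat := .move 839 n1104 (.cons 795 n1921 .nil)
noncomputable def n1923 : Strat := .move 838 n1448 (.cons 800 n1922 .nil)
noncomputable def n1924 : Strat := .move 837 n1461 (.cons 836 n1923 .nil)
noncomputable def n1925 : Strat := .move 796 n780 (.cons 841 n1924 .nil)
noncomputable def n1926 : Strat := .move 800 n1710 (.cons 756 n1909 (.cons 838 n1440 .nil))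
noncomputable def n1927 : Strat := .move 796 n780 (.cons 841 n1891 .nil)
noncomputable def n1928 : Strat := .move 755 n1466 (.cons 714 n1465 .nil)
noncomputable def n1929 : Strat := .move 715 n1663 (.cons 878 n1631 .nil)
noncomputable def n1930 : Strat := .move 878 n1468 (.cons 715 n1427 .nil)
noncomputable def n1931 : Strat := .win 755 6 714
noncomputable def n1932 : Strat := .win 673 7 673
noncomputable def n1933 : Strat := .move 715 n1932 (.cons 673 n1631 .nil)
noncomputable def n1934 : Strat := .move 714 n1931 (.cons 755 n1933 .nil)
noncomputable def n1935 : Strat := .move 757 n1392 (.cons 716 n205 .nil)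
noncomputable def n1936 : Strat := .move 880 n634 (.cons 921 n1563 .nil)
noncomputable def n1937 : Strat := .move 881 n1935 (.cons 922 n1936 .nil)
noncomputable def n1938 : Strat := .move 756 n1929 (.cons 674 n1930 (.cons 878 n1934 (.cons 715 n1937 .nil)))
noncomputable def n1939 : Strat := .win 961 7 796
noncomputable def n1940 : Strat := .move 920 n1673 (.cons 757 n1939 .nil)
noncomputable def n1941 : Strat := .move 879 n1928 (.cons 920 n1938 (.cons 755 n1940 .nil))
noncomputable def n1942 : Strat := .move 838 n1448 (.cons 800 n1941 .nil)
noncomputable def n1943 : Strat := .move 837 n1461 (.cons 836 n1942 .nil)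
noncomputable def n1944 : Strat := .move 796 n780 (.cons 841 n1943 .nil)
noncomputable def n1945 : Strat := .move 798 n1925 (.cons 796 n1926 (.cons 838 n1532 (.cons 837 n1927 (.cons 841 n1870 (.cons 839 n1944 .nil)))))
noncomputable def n1946 : Strat := .move 796 n780 (.cons 841 n1104 .nil)
noncomputable def n1947 : Strat := .move 839 n435 (.cons 801 n1946 .nil)
noncomputable def n1948 : Strat := .move 838 n774 (.cons 837 n1947 .nil)
noncomputable def n1949 : Strat := .move 841 n560 (.cons 796 n1396 .nil)
noncomputable def n1950 : Strat := .move 755 n1304 (.cons 754 n1303 .nil)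
noncomputable def n1951 : Strat := .move 796 n780 (.cons 841 n1950 .nil)
noncomputable def n1952 : Strat := .move 800 n1948 (.cons 839 n1949 (.cons 841 n1710 (.cons 838 n1951 .nil)))
noncomputable def n1953 : Strat := .move 800 n1533 (.cons 838 n1950 .nil)
noncomputable def n1954 : Strat := .move 837 n1461 (.cons 836 n1953 .nil)
noncomputable def n1955 : Strat := .move 796 n780 (.cons 841 n1954 .nil)
noncomputable def n1956 : Strat := .move 796 n1403 (.cons 795 n1954 (.cons 755 n1531 .nil))
noncomputable def n1957 : Strat := .move 880 n634 (.cons 921 n635 .nil)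
noncomputable def n1958 : Strat := .move 839 n1298 (.cons 674 n1957 (.cons 880 n1650 .nil))
noncomputable def n1959 : Strat := .move 879 n1430 (.cons 920 n1958 .nil)
noncomputable def n1960 : Strat := .move 759 n559 (.cons 760 n1959 .nil)
noncomputable def n1961 : Strat := .move 756 n565 (.cons 755 n1960 .nil)
noncomputable def n1962 : Strat := .move 838 n774 (.cons 837 n1961 .nil)
noncomputable def n1963 : Strat := .move 800 n1409 (.cons 838 n1621 (.cons 755 n1614 (.cons 801 n1962 .nil)))
noncomputable def n1964 : Strat := .move 798 n1952 (.cons 920 n1404 (.cons 755 n1532 (.cons 795 n1955 (.cons 841 n1956 (.cons 796 n1963 .nil)))))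
noncomputable def n1965 : Strat := .move 800 n1409 (.cons 755 n1614 (.cons 839 n1440 .nil))
noncomputable def n1966 : Strat := .move 837 n1461 (.cons 836 n1533 .nil)
noncomputable def n1967 : Strat := .move 800 n1303 (.cons 756 n1966 .nil)
noncomputable def n1968 : Strat := .move 755 n1304 (.cons 754 n1967 .nil)
noncomputable def n1969 : Strat := .move 796 n780 (.cons 841 n1968 .nil)
noncomputable def n1970 : Strat := .move 796 n1104 (.cons 795 n1954 .nil)
noncomputable def n1971 : Strat := .move 800 n1476 (.cons 837 n1103 (.cons 838 n1481 (.cons 801 n1477 .nil)))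
noncomputable def n1972 : Strat := .win 757 7 715
noncomputable def n1973 : Strat := .move 880 n1972 (.cons 757 n1417 .nil)
noncomputable def n1974 : Strat := .move 715 n1297 (.cons 674 n1973 .nil)
noncomputable def n1975 : Strat := .move 756 n1483 (.cons 800 n1974 .nil)
noncomputable def n1976 : Strat := .move 755 n1304 (.cons 754 n1975 .nil)
noncomputable def n1977 : Strat := .move 796 n1104 (.cons 795 n1976 .nil)
noncomputable def n1978 : Strat := .move 757 n1252 (.cons 716 n205 .nil)
noncomputable def n1979 : Strat := .move 881 n1081 (.cons 882 n1978 .nil)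
noncomputable def n1980 : Strat := .move 838 n1464 (.cons 673 n1467 (.cons 879 n1979 .nil))
noncomputable def n1981 : Strat := .move 755 n1304 (.cons 754 n1980 .nil)
noncomputable def n1982 : Strat := .move 837 n1461 (.cons 836 n1981 .nil)
noncomputable def n1983 : Strat := .move 796 n1104 (.cons 795 n1982 .nil)
noncomputable def n1984 : Strat := .move 838 n1448 (.cons 800 n1979 .nil)
noncomputable def n1985 : Strat := .move 837 n1461 (.cons 836 n1984 .nil)
noncomputable def n1986 : Strat := .move 796 n1104 (.cons 795 n1985 .nil)
noncomputable def n1987 : Strat := .move 839 n1970 (.cons 796 n1971 (.cons 838 n1977 (.cons 800 n1983 (.cons 755 n1986 .nil))))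
noncomputable def n1988 : Strat := .move 798 n1404 (.cons 796 n1965 (.cons 839 n1969 (.cons 755 n1532 (.cons 841 n1987 .nil))))
noncomputable def n1989 : Strat := .move 800 n1710 (.cons 838 n1440 .nil)
noncomputable def n1990 : Strat := .move 796 n780 (.cons 841 n1740 .nil)
noncomputable def n1991 : Strat := .move 879 n1465 (.cons 920 n1552 .nil)
noncomputable def n1992 : Strat := .move 756 n1483 (.cons 800 n1991 .nil)
noncomputable def n1993 : Strat := .move 755 n1304 (.cons 754 n1992 .nil)
noncomputable def n1994 : Strat := .move 796 n780 (.cons 841 n1993 .nil)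
noncomputable def n1995 : Strat := .win 756 7 714
noncomputable def n1996 : Strat := .move 714 n1463 (.cons 673 n1995 .nil)
noncomputable def n1997 : Strat := .move 879 n1465 (.cons 920 n1996 .nil)
noncomputable def n1998 : Strat := .move 755 n1304 (.cons 754 n1997 .nil)
noncomputable def n1999 : Strat := .move 796 n780 (.cons 841 n1998 .nil)
noncomputable def n2000 : Strat := .win 879 7 714
noncomputable def n2001 : Strat := .move 714 n1463 (.cons 673 n2000 .nil)
noncomputable def n2002 : Strat := .move 756 n1483 (.cons 800 n2001 .nil)
noncomputable def n2003 : Strat := .move 755 n1304 (.cons 754 n2002 .nil)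
noncomputable def n2004 : Strat := .move 796 n780 (.cons 841 n2003 .nil)
noncomputable def n2005 : Strat := .move 800 n435 (.cons 801 n1383 .nil)
noncomputable def n2006 : Strat := .move 800 n435 (.cons 801 n1299 .nil)
noncomputable def n2007 : Strat := .move 757 n1381 (.cons 920 n1380 .nil)
noncomputable def n2008 : Strat := .move 879 n626 (.cons 878 n2007 .nil)
noncomputable def n2009 : Strat := .move 839 n2005 (.cons 878 n2006 (.cons 800 n2008 .nil))
noncomputable def n2010 : Strat := .move 841 n560 (.cons 796 n2009 .nil)
noncomputable def n2011 : Strat := .move 717 n1538 (.cons 676 n1645 .nil)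
noncomputable def n2012 : Strat := .move 839 n1478 (.cons 881 n2011 .nil)
noncomputable def n2013 : Strat := .move 716 n1441 (.cons 675 n2012 .nil)
noncomputable def n2014 : Strat := .move 757 n1642 (.cons 879 n2013 (.cons 839 n1643 (.cons 716 n1654 .nil)))
noncomputable def n2015 : Strat := .move 716 n1441 (.cons 675 n1576 .nil)
noncomputable def n2016 : Strat := .move 716 n1441 (.cons 675 n1573 .nil)
noncomputable def n2017 : Strat := .move 839 n635 (.cons 715 n1860 .nil)
noncomputable def n2018 : Strat := .move 880 n634 (.cons 921 n2017 .nil)
noncomputable def n2019 : Strat := .move 756 n1648 (.cons 754 n1649 (.cons 800 n1690 (.cons 755 n2018 .nil)))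
noncomputable def n2020 : Strat := .move 879 n1381 (.cons 920 n2019 .nil)
noncomputable def n2021 : Strat := .move 757 n2015 (.cons 839 n1643 (.cons 879 n2016 (.cons 716 n2020 .nil)))
noncomputable def n2022 : Strat := .move 760 n753 (.cons 761 n1611 .nil)
noncomputable def n2023 : Strat := .move 801 n775 (.cons 839 n2022 .nil)
noncomputable def n2024 : Strat := .move 800 n1303 (.cons 756 n2023 .nil)
noncomputable def n2025 : Strat := .move 755 n1304 (.cons 754 n2024 .nil)
noncomputable def n2026 : Strat := .move 796 n780 (.cons 841 n2025 .nil)
noncomputable def n2027 : Strat := .move 718 n1607 (.cons 881 n724 .nil)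
noncomputable def n2028 : Strat := .move 759 n559 (.cons 760 n2027 .nil)
noncomputable def n2029 : Strat := .move 800 n435 (.cons 801 n2028 .nil)
noncomputable def n2030 : Strat := .move 839 n2005 (.cons 801 n2008 (.cons 716 n2029 .nil))
noncomputable def n2031 : Strat := .move 841 n560 (.cons 796 n2030 .nil)
noncomputable def n2032 : Strat := .move 838 n1994 (.cons 800 n1999 (.cons 920 n2004 (.cons 754 n2010 (.cons 796 n2014 (.cons 841 n2021 (.cons 879 n2026 (.cons 755 n2031 .nil)))))))
noncomputable def n2033 : Strat := .move 839 n1453 (.cons 877 n1456 .nil)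
noncomputable def n2034 : Strat := .move 756 n1469 (.cons 919 n1468 .nil)
noncomputable def n2035 : Strat := .move 839 n1453 (.cons 877 n1979 .nil)
noncomputable def n2036 : Strat := .move 878 n2033 (.cons 960 n2034 (.cons 919 n2035 .nil))
noncomputable def n2037 : Strat := .move 838 n1448 (.cons 800 n2036 .nil)
noncomputable def n2038 : Strat := .move 837 n1461 (.cons 836 n2037 .nil)
noncomputable def n2039 : Strat := .move 796 n780 (.cons 841 n2038 .nil)
noncomputable def n2040 : Strat := .move 839 n1478 (.cons 881 n1887 .nil)
noncomputable def n2041 : Strat := .move 716 n755 (.cons 675 n2040 .nil)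
noncomputable def n2042 : Strat := .move 757 n1391 (.cons 801 n2041 .nil)
noncomputable def n2043 : Strat := .move 756 n565 (.cons 755 n2042 .nil)
noncomputable def n2044 : Strat := .move 796 n1461 (.cons 836 n1950 .nil)
noncomputable def n2045 : Strat := .move 759 n559 (.cons 760 n2044 .nil)
noncomputable def n2046 : Strat := .move 837 n1533 (.cons 838 n2045 .nil)
noncomputable def n2047 : Strat := .move 800 n1446 (.cons 838 n2043 (.cons 756 n1614 (.cons 801 n2046 .nil)))
noncomputable def n2048 : Strat := .move 798 n1955 (.cons 796 n1989 (.cons 800 n1990 (.cons 838 n1719 (.cons 756 n1605 (.cons 837 n2032 (.cons 755 n2039 (.cons 841 n2047 .nil)))))))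
noncomputable def n2049 : Strat := .move 878 n1469 (.cons 919 n1468 .nil)
noncomputable def n2050 : Strat := .move 920 n1939 (.cons 961 n1673 .nil)
noncomputable def n2051 : Strat := .move 920 n1939 (.cons 961 n1680 .nil)
noncomputable def n2052 : Strat := .win 757 3 715
noncomputable def n2053 : Strat := .move 715 n1863 (.cons 675 n1631 .nil)
noncomputable def n2054 : Strat := .move 716 n2052 (.cons 757 n2053 .nil)
noncomputable def n2055 : Strat := .move 879 n2050 (.cons 757 n2051 (.cons 961 n1430 (.cons 920 n2054 .nil)))
noncomputable def n2056 : Strat := .move 920 n1675 (.cons 960 n1939 .nil)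
noncomputable def n2057 : Strat := .move 919 n1676 (.cons 878 n2056 .nil)
noncomputable def n2058 : Strat := .move 880 n1563 (.cons 882 n634 .nil)
noncomputable def n2059 : Strat := .move 881 n1935 (.cons 922 n2058 .nil)
noncomputable def n2060 : Strat := .move 879 n2050 (.cons 757 n2057 (.cons 961 n1430 (.cons 920 n2059 .nil)))
noncomputable def n2061 : Strat := .move 756 n2049 (.cons 878 n2055 (.cons 715 n2060 .nil))
noncomputable def n2062 : Strat := .move 838 n1448 (.cons 800 n2061 .nil)
noncomputable def n2063 : Strat := .move 837 n1461 (.cons 836 n2062 .nil)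
noncomputable def n2064 : Strat := .move 796 n780 (.cons 841 n2063 .nil)
noncomputable def n2065 : Strat := .move 796 n780 (.cons 841 n1882 .nil)
noncomputable def n2066 : Strat := .move 800 n1385 (.cons 878 n1387 .nil)
noncomputable def n2067 : Strat := .move 841 n560 (.cons 796 n2066 .nil)
noncomputable def n2068 : Strat := .move 921 n1559 (.cons 756 n611 .nil)
noncomputable def n2069 : Strat := .move 880 n2068 (.cons 962 n636 (.cons 756 n489 .nil))
noncomputable def n2070 : Strat := .move 879 n1381 (.cons 920 n2069 .nil)
noncomputable def n2071 : Strat := .move 757 n1905 (.cons 675 n1910 (.cons 716 n2070 (.cons 879 n1501 .nil)))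
noncomputable def n2072 : Strat := .move 839 n435 (.cons 801 n2071 .nil)
noncomputable def n2073 : Strat := .move 838 n774 (.cons 837 n2072 .nil)
noncomputable def n2074 : Strat := .move 800 n2073 (.cons 881 n1614 (.cons 839 n1440 .nil))
noncomputable def n2075 : Strat := .move 798 n1532 (.cons 841 n1847 (.cons 839 n2064 (.cons 837 n2065 (.cons 836 n2067 (.cons 796 n2074 .nil)))))
noncomputable def n2076 : Strat := .move 800 n1476 (.cons 837 n1103 (.cons 838 n1950 .nil))
noncomputable def n2077 : Strat := .move 839 n1104 (.cons 795 n2076 .nil)
noncomputable def n2078 : Strat := .move 796 n780 (.cons 841 n2077 .nil)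
noncomputable def n2079 : Strat := .move 841 n1425 (.cons 718 n1421 .nil)
noncomputable def n2080 : Strat := .move 800 n1710 (.cons 801 n2079 (.cons 756 n1909 (.cons 837 n1440 .nil)))
noncomputable def n2081 : Strat := .move 841 n560 (.cons 796 n640 .nil)
noncomputable def n2082 : Strat := .move 881 n272 (.cons 922 n2081 .nil)
noncomputable def n2083 : Strat := .move 759 n559 (.cons 760 n2082 .nil)
noncomputable def n2084 : Strat := .move 800 n2083 (.cons 796 n1440 (.cons 759 n1619 .nil))
noncomputable def n2085 : Strat := .move 756 n565 (.cons 755 n1858 .nil)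
noncomputable def n2086 : Strat := .move 839 n435 (.cons 801 n2085 .nil)
noncomputable def n2087 : Strat := .move 838 n774 (.cons 837 n2086 .nil)
noncomputable def n2088 : Strat := .move 756 n1707 (.cons 921 n1858 (.cons 715 n1862 (.cons 880 n1866 .nil)))
noncomputable def n2089 : Strat := .move 839 n435 (.cons 801 n2088 .nil)
noncomputable def n2090 : Strat := .move 838 n774 (.cons 837 n2089 .nil)
noncomputable def n2091 : Strat := .move 800 n1710 (.cons 838 n2043 (.cons 921 n2087 (.cons 839 n1619 (.cons 755 n2090 (.cons 756 n1614 (.cons 801 n1869 .nil))))))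
noncomputable def n2092 : Strat := .move 798 n2078 (.cons 796 n2080 (.cons 800 n1404 (.cons 839 n2084 (.cons 755 n2067 (.cons 841 n2091 .nil)))))
noncomputable def n2093 : Strat := .move 800 n1423 (.cons 756 n1440 (.cons 922 n1619 .nil))
noncomputable def n2094 : Strat := .move 796 n780 (.cons 841 n1757 .nil)
noncomputable def n2095 : Strat := .move 755 n1304 (.cons 754 n1762 .nil)
noncomputable def n2096 : Strat := .move 837 n1461 (.cons 836 n2095 .nil)
noncomputable def n2097 : Strat := .move 796 n780 (.cons 841 n2096 .nil)
noncomputable def n2098 : Strat := .move 796 n780 (.cons 841 n1901 .nil)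
noncomputable def n2099 : Strat := .move 798 n1398 (.cons 796 n2093 (.cons 841 n1802 (.cons 800 n2094 (.cons 755 n2064 (.cons 756 n2097 (.cons 838 n1637 (.cons 837 n2098 .nil)))))))
noncomputable def n2100 : Strat := .move 800 n1425 (.cons 759 n1410 .nil)
noncomputable def n2101 : Strat := .move 841 n560 (.cons 796 n2100 .nil)
noncomputable def n2102 : Strat := .move 800 n1426 (.cons 757 n1440 (.cons 922 n1616 .nil))
noncomputable def n2103 : Strat := .move 798 n2101 (.cons 796 n2102 (.cons 841 n1902 (.cons 839 n2098 (.cons 757 n1404 (.cons 755 n2065 .nil)))))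
noncomputable def n2104 : Strat := .move 798 n55 (.cons 757 n1412 .nil)
noncomputable def n2105 : Strat := .move 800 n45 (.cons 759 n2104 .nil)
noncomputable def n2106 : Strat := .move 922 n1145 (.cons 800 n67 (.cons 798 n65 (.cons 963 n2105 .nil)))
noncomputable def n2107 : Strat := .move 837 n1081 (.cons 882 n1090 .nil)
noncomputable def n2108 : Strat := .move 837 n1081 (.cons 882 n1449 .nil)
noncomputable def n2109 : Strat := .move 882 n186 (.cons 837 n542 .nil)
noncomputable def n2110 : Strat := .move 841 n2108 (.cons 836 n2109 (.cons 837 n2008 .nil))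
noncomputable def n2111 : Strat := .move 837 n1449 (.cons 836 n1453 .nil)
noncomputable def n2112 : Strat := .move 878 n488 (.cons 841 n2111 .nil)
noncomputable def n2113 : Strat := .move 879 n1381 (.cons 920 n2112 .nil)
noncomputable def n2114 : Strat := .move 757 n1252 (.cons 716 n2113 .nil)
noncomputable def n2115 : Strat := .move 757 n1252 (.cons 716 n2070 .nil)
noncomputable def n2116 : Strat := .move 798 n2110 (.cons 757 n2108 (.cons 882 n2114 (.cons 837 n2115 .nil)))
noncomputable def n2117 : Strat := .win 880 0 836
noncomputable def n2118 : Strat := .win 798 5 795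
noncomputable def n2119 : Strat := .move 836 n2117 (.cons 880 n2118 .nil)
noncomputable def n2120 : Strat := .move 837 n1090 (.cons 800 n2119 .nil)
noncomputable def n2121 : Strat := .win 879 6 756
noncomputable def n2122 : Strat := .move 756 n635 (.cons 715 n2121 .nil)
noncomputable def n2123 : Strat := .move 921 n611 (.cons 962 n2122 .nil)
noncomputable def n2124 : Strat := .win 798 7 756
noncomputable def n2125 : Strat := .move 756 n635 (.cons 715 n2124 .nil)
noncomputable def n2126 : Strat := .move 921 n611 (.cons 962 n2125 .nil)
noncomputable def n2127 : Strat := .move 879 n489 (.cons 841 n691 .nil)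
noncomputable def n2128 : Strat := .move 882 n187 (.cons 883 n2127 .nil)
noncomputable def n2129 : Strat := .move 880 n2123 (.cons 879 n2126 (.cons 921 n2128 .nil))
noncomputable def n2130 : Strat := .move 839 n2107 (.cons 800 n2116 (.cons 882 n2120 (.cons 837 n2129 .nil)))
noncomputable def n2131 : Strat := .move 880 n1683 (.cons 878 n1563 .nil)
noncomputable def n2132 : Strat := .win 880 2 836
noncomputable def n2133 : Strat := .move 756 n1427 (.cons 919 n1468 .nil)
noncomputable def n2134 : Strat := .move 878 n2132 (.cons 880 n2133 .nil)
noncomputable def n2135 : Strat := .move 879 n2131 (.cons 882 n2134 (.cons 878 n1672 .nil))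
noncomputable def n2136 : Strat := .move 836 n1670 (.cons 835 n2135 .nil)
noncomputable def n2137 : Strat := .move 837 n1448 (.cons 800 n2136 .nil)
noncomputable def n2138 : Strat := .move 716 n1441 (.cons 675 n1577 .nil)
noncomputable def n2139 : Strat := .move 757 n1381 (.cons 920 n2138 .nil)
noncomputable def n2140 : Strat := .move 880 n634 (.cons 921 n196 .nil)
noncomputable def n2141 : Strat := .move 878 n1427 (.cons 919 n2140 .nil)
noncomputable def n2142 : Strat := .move 756 n1690 (.cons 714 n2141 .nil)
noncomputable def n2143 : Strat := .move 757 n1381 (.cons 920 n2142 .nil)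
noncomputable def n2144 : Strat := .win 882 4 878
noncomputable def n2145 : Strat := .move 880 n2144 (.cons 882 n503 .nil)
noncomputable def n2146 : Strat := .move 919 n1675 (.cons 960 n2145 .nil)
noncomputable def n2147 : Strat := .move 920 n1673 (.cons 757 n2146 .nil)
noncomputable def n2148 : Strat := .move 923 n625 (.cons 964 n632 .nil)
noncomputable def n2149 : Strat := .move 882 n502 (.cons 837 n2148 .nil)
noncomputable def n2150 : Strat := .move 841 n517 (.cons 878 n2149 .nil)
noncomputable def n2151 : Strat := .win 1003 3 839
noncomputable def n2152 : Strat := .move 962 n2151 (.cons 1003 n1686 .nil)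
noncomputable def n2153 : Strat := .move 921 n1559 (.cons 756 n2152 .nil)
noncomputable def n2154 : Strat := .move 880 n2150 (.cons 878 n2153 .nil)
noncomputable def n2155 : Strat := .move 757 n1690 (.cons 714 n2141 .nil)
noncomputable def n2156 : Strat := .move 756 n1691 (.cons 716 n2155 (.cons 754 n1556 .nil))
noncomputable def n2157 : Strat := .move 879 n2139 (.cons 716 n2143 (.cons 756 n2147 (.cons 757 n2154 (.cons 920 n2156 .nil))))
noncomputable def n2158 : Strat := .move 759 n559 (.cons 760 n1438 .nil)
noncomputable def n2159 : Strat := .move 800 n774 (.cons 837 n2158 .nil)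
noncomputable def n2160 : Strat := .move 755 n1483 (.cons 800 n1767 .nil)
noncomputable def n2161 : Strat := .move 800 n565 (.cons 755 n1394 .nil)
noncomputable def n2162 : Strat := .move 878 n1519 (.cons 880 n1427 .nil)
noncomputable def n2163 : Strat := .move 841 n1430 (.cons 920 n2162 .nil)
noncomputable def n2164 : Strat := .move 757 n1381 (.cons 920 n1392 .nil)
noncomputable def n2165 : Strat := .move 879 n2163 (.cons 920 n1556 (.cons 880 n2164 .nil))
noncomputable def n2166 : Strat := .move 880 n196 (.cons 841 n634 .nil)
noncomputable def n2167 : Strat := .move 878 n1427 (.cons 919 n2166 .nil)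
noncomputable def n2168 : Strat := .move 879 n1552 (.cons 714 n2167 .nil)
noncomputable def n2169 : Strat := .move 755 n1483 (.cons 800 n2168 .nil)
noncomputable def n2170 : Strat := .move 756 n2160 (.cons 754 n2161 (.cons 800 n2165 (.cons 757 n2169 .nil)))
noncomputable def n2171 : Strat := .move 798 n2137 (.cons 800 n2157 (.cons 756 n2159 (.cons 837 n2170 .nil)))
noncomputable def n2172 : Strat := .move 878 n1427 (.cons 919 n196 .nil)
noncomputable def n2173 : Strat := .move 880 n634 (.cons 921 n2172 .nil)
noncomputable def n2174 : Strat := .move 755 n1483 (.cons 800 n1552 .nil)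
noncomputable def n2175 : Strat := .move 798 n1381 (.cons 920 n2174 .nil)
noncomputable def n2176 : Strat := .move 757 n1392 (.cons 716 n2175 .nil)
noncomputable def n2177 : Strat := .move 756 n2173 (.cons 841 n2018 (.cons 880 n2176 .nil))
noncomputable def n2178 : Strat := .move 839 n689 (.cons 961 n1914 .nil)
noncomputable def n2179 : Strat := .move 798 n1673 (.cons 757 n2178 .nil)
noncomputable def n2180 : Strat := .win 839 3 797
noncomputable def n2181 : Strat := .win 1001 1 837
noncomputable def n2182 : Strat := .win 919 1 796
noncomputable def n2183 : Strat := .move 960 n2181 (.cons 1001 n2182 .nil)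
noncomputable def n2184 : Strat := .move 961 n2180 (.cons 839 n2183 .nil)
noncomputable def n2185 : Strat := .move 798 n1673 (.cons 757 n2184 .nil)
noncomputable def n2186 : Strat := .move 920 n2146 (.cons 882 n2179 (.cons 880 n2185 .nil))
noncomputable def n2187 : Strat := .move 756 n2176 (.cons 798 n2173 .nil)
noncomputable def n2188 : Strat := .move 757 n1505 (.cons 920 n1380 .nil)
noncomputable def n2189 : Strat := .move 798 n2188 (.cons 716 n2174 .nil)
noncomputable def n2190 : Strat := .move 839 n635 (.cons 715 n2189 .nil)
noncomputable def n2191 : Strat := .move 880 n634 (.cons 921 n2190 .nil)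
noncomputable def n2192 : Strat := .win 839 6 715
noncomputable def n2193 : Strat := .move 716 n1863 (.cons 675 n2052 .nil)
noncomputable def n2194 : Strat := .move 715 n2192 (.cons 839 n2193 .nil)
noncomputable def n2195 : Strat := .move 880 n634 (.cons 921 n2194 .nil)
noncomputable def n2196 : Strat := .win 798 2 755
noncomputable def n2197 : Strat := .move 755 n2196 (.cons 798 n1552 .nil)
noncomputable def n2198 : Strat := .move 798 n435 (.cons 801 n565 .nil)
noncomputable def n2199 : Strat := .win 841 5 797
noncomputable def n2200 : Strat := .move 801 n2199 (.cons 841 n937 .nil)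
noncomputable def n2201 : Strat := .move 800 n2197 (.cons 714 n2198 (.cons 798 n2200 .nil))
noncomputable def n2202 : Strat := .move 839 n635 (.cons 715 n2201 .nil)
noncomputable def n2203 : Strat := .move 880 n634 (.cons 921 n2202 .nil)
noncomputable def n2204 : Strat := .move 756 n2191 (.cons 798 n2195 (.cons 839 n2176 (.cons 757 n2203 .nil)))
noncomputable def n2205 : Strat := .move 839 n635 (.cons 715 n489 .nil)
noncomputable def n2206 : Strat := .move 880 n634 (.cons 921 n2205 .nil)
noncomputable def n2207 : Strat := .win 755 7 714
noncomputable def n2208 : Strat := .move 714 n1932 (.cons 673 n2207 .nil)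
noncomputable def n2209 : Strat := .move 715 n2193 (.cons 757 n2208 .nil)
noncomputable def n2210 : Strat := .move 839 n488 (.cons 841 n2209 .nil)
noncomputable def n2211 : Strat := .move 878 n1427 (.cons 919 n2210 .nil)
noncomputable def n2212 : Strat := .move 756 n2173 (.cons 919 n2206 (.cons 880 n2211 (.cons 878 n2195 .nil)))
noncomputable def n2213 : Strat := .win 839 3 798
noncomputable def n2214 : Strat := .move 962 n1686 (.cons 920 n2213 .nil)
noncomputable def n2215 : Strat := .move 921 n1559 (.cons 756 n2214 .nil)
noncomputable def n2216 : Strat := .win 756 1 755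
noncomputable def n2217 : Strat := .move 919 n2216 (.cons 756 n490 .nil)
noncomputable def n2218 : Strat := .move 878 n196 (.cons 841 n2217 .nil)
noncomputable def n2219 : Strat := .move 882 n187 (.cons 883 n696 .nil)
noncomputable def n2220 : Strat := .move 839 n195 (.cons 877 n2219 .nil)
noncomputable def n2221 : Strat := .move 878 n196 (.cons 841 n2220 .nil)
noncomputable def n2222 : Strat := .move 880 n2215 (.cons 962 n2218 (.cons 756 n2221 .nil))
noncomputable def n2223 : Strat := .move 756 n2018 (.cons 921 n2176 .nil)
noncomputable def n2224 : Strat := .move 919 n1675 (.cons 960 n2216 .nil)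
noncomputable def n2225 : Strat := .move 878 n488 (.cons 841 n2224 .nil)
noncomputable def n2226 : Strat := .move 839 n689 (.cons 961 n2225 .nil)
noncomputable def n2227 : Strat := .move 798 n1673 (.cons 757 n2226 .nil)
noncomputable def n2228 : Strat := .win 798 3 756
noncomputable def n2229 : Strat := .move 757 n2228 (.cons 798 n1392 .nil)
noncomputable def n2230 : Strat := .move 756 n1676 (.cons 878 n2229 .nil)
noncomputable def n2231 : Strat := .move 919 n1675 (.cons 960 n2230 .nil)
noncomputable def n2232 : Strat := .move 756 n1676 (.cons 878 n2209 .nil)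
noncomputable def n2233 : Strat := .move 919 n1675 (.cons 960 n2232 .nil)
noncomputable def n2234 : Strat := .move 839 n496 (.cons 798 n488 .nil)
noncomputable def n2235 : Strat := .win 1003 6 838
noncomputable def n2236 : Strat := .win 921 6 797
noncomputable def n2237 : Strat := .move 962 n2235 (.cons 1003 n2236 .nil)
noncomputable def n2238 : Strat := .move 961 n2234 (.cons 841 n2237 .nil)
noncomputable def n2239 : Strat := .move 878 n2216 (.cons 756 n2238 .nil)
noncomputable def n2240 : Strat := .move 919 n1675 (.cons 960 n2239 .nil)
noncomputable def n2241 : Strat := .move 961 n2180 (.cons 839 n2237 .nil)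
noncomputable def n2242 : Strat := .move 798 n1673 (.cons 757 n2241 .nil)
noncomputable def n2243 : Strat := .move 920 n2227 (.cons 756 n2185 (.cons 839 n2231 (.cons 798 n2233 (.cons 757 n2240 (.cons 919 n2242 .nil)))))
noncomputable def n2244 : Strat := .move 879 n2177 (.cons 756 n2186 (.cons 839 n2187 (.cons 878 n2204 (.cons 798 n2212 (.cons 757 n2222 (.cons 841 n2223 (.cons 880 n2243 .nil)))))))
noncomputable def n2245 : Strat := .move 837 n1090 (.cons 800 n1081 .nil)
noncomputable def n2246 : Strat := .move 839 n488 (.cons 841 n2245 .nil)
noncomputable def n2247 : Strat := .move 878 n1427 (.cons 919 n2246 .nil)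
noncomputable def n2248 : Strat := .move 839 n635 (.cons 715 n2245 .nil)
noncomputable def n2249 : Strat := .move 880 n634 (.cons 921 n2248 .nil)
noncomputable def n2250 : Strat := .move 879 n2173 (.cons 921 n2247 (.cons 878 n2249 .nil))
noncomputable def n2251 : Strat := .move 879 n2173 (.cons 919 n2206 (.cons 880 n2211 (.cons 878 n2195 .nil)))
noncomputable def n2252 : Strat := .move 714 n2207 (.cons 755 n1932 .nil)
noncomputable def n2253 : Strat := .move 879 n2052 (.cons 757 n2252 .nil)
noncomputable def n2254 : Strat := .move 716 n1863 (.cons 675 n2253 .nil)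
noncomputable def n2255 : Strat := .move 715 n1296 (.cons 880 n2254 .nil)
noncomputable def n2256 : Strat := .move 839 n2107 (.cons 837 n2255 .nil)
noncomputable def n2257 : Strat := .move 837 n1090 (.cons 800 n1663 .nil)
noncomputable def n2258 : Strat := .move 715 n1296 (.cons 880 n2257 .nil)
noncomputable def n2259 : Strat := .move 880 n635 (.cons 715 n1083 .nil)
noncomputable def n2260 : Strat := .move 675 n1771 (.cons 634 n1782 .nil)
noncomputable def n2261 : Strat := .move 674 n1789 (.cons 632 n2260 .nil)
noncomputable def n2262 : Strat := .move 673 n1788 (.cons 714 n2261 .nil)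
noncomputable def n2263 : Strat := .move 715 n1296 (.cons 880 n2262 .nil)
noncomputable def n2264 : Strat := .move 839 n2107 (.cons 882 n2258 (.cons 800 n2259 (.cons 837 n2263 .nil)))
noncomputable def n2265 : Strat := .win 1005 7 840
noncomputable def n2266 : Strat := .move 964 n2265 (.cons 1005 n885 .nil)
noncomputable def n2267 : Strat := .move 923 n632 (.cons 924 n2266 .nil)
noncomputable def n2268 : Strat := .move 882 n502 (.cons 837 n2267 .nil)
noncomputable def n2269 : Strat := .move 880 n634 (.cons 921 n2268 .nil)
noncomputable def n2270 : Strat := .move 880 n196 (.cons 841 n1563 .nil)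
noncomputable def n2271 : Strat := .move 837 n1468 (.cons 715 n2270 .nil)
noncomputable def n2272 : Strat := .move 878 n1427 (.cons 919 n2271 .nil)
noncomputable def n2273 : Strat := .move 837 n1563 (.cons 882 n1468 .nil)
noncomputable def n2274 : Strat := .move 878 n1427 (.cons 919 n2273 .nil)
noncomputable def n2275 : Strat := .move 880 n634 (.cons 921 n2274 .nil)
noncomputable def n2276 : Strat := .win 837 1 714
noncomputable def n2277 : Strat := .move 716 n2052 (.cons 757 n1863 .nil)
noncomputable def n2278 : Strat := .move 715 n2276 (.cons 837 n2277 .nil)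
noncomputable def n2279 : Strat := .move 878 n1427 (.cons 919 n2278 .nil)
noncomputable def n2280 : Strat := .move 879 n2173 (.cons 878 n2269 (.cons 921 n2272 (.cons 841 n2275 (.cons 880 n2279 .nil))))
noncomputable def n2281 : Strat := .win 839 2 838
noncomputable def n2282 : Strat := .move 924 n382 (.cons 925 n614 .nil)
noncomputable def n2283 : Strat := .move 883 n2281 (.cons 839 n2282 .nil)
noncomputable def n2284 : Strat := .move 882 n502 (.cons 837 n2283 .nil)
noncomputable def n2285 : Strat := .move 880 n634 (.cons 921 n2284 .nil)
noncomputable def n2286 : Strat := .move 879 n2173 (.cons 921 n2247 (.cons 878 n2285 .nil))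
noncomputable def n2287 : Strat := .move 715 n1863 (.cons 675 n2252 .nil)
noncomputable def n2288 : Strat := .move 716 n2052 (.cons 757 n2287 .nil)
noncomputable def n2289 : Strat := .move 879 n2247 (.cons 839 n2279 (.cons 837 n2211 (.cons 878 n2288 .nil)))
noncomputable def n2290 : Strat := .move 756 n2250 (.cons 837 n2251 (.cons 921 n2256 (.cons 879 n2264 (.cons 839 n2280 (.cons 715 n2286 (.cons 880 n2289 .nil))))))
noncomputable def n2291 : Strat := .move 801 n938 (.cons 798 n937 .nil)
noncomputable def n2292 : Strat := .move 801 n937 (.cons 802 n2199 .nil)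
noncomputable def n2293 : Strat := .move 798 n435 (.cons 801 n2085 .nil)
noncomputable def n2294 : Strat := .win 757 6 716
noncomputable def n2295 : Strat := .move 716 n2294 (.cons 757 n1546 .nil)
noncomputable def n2296 : Strat := .move 798 n2085 (.cons 674 n1451 (.cons 756 n2295 .nil))
noncomputable def n2297 : Strat := .move 800 n2291 (.cons 798 n2292 (.cons 802 n2293 (.cons 801 n2296 .nil)))
noncomputable def n2298 : Strat := .move 837 n1081 (.cons 882 n2119 .nil)
noncomputable def n2299 : Strat := .move 839 n2107 (.cons 882 n2120 (.cons 837 n2297 (.cons 800 n2298 .nil)))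
noncomputable def n2300 : Strat := .win 798 4 796
noncomputable def n2301 : Strat := .win 839 5 796
noncomputable def n2302 : Strat := .move 837 n2300 (.cons 798 n2301 .nil)
noncomputable def n2303 : Strat := .move 757 n1252 (.cons 716 n1299 .nil)
noncomputable def n2304 : Strat := .move 839 n435 (.cons 801 n2303 .nil)
noncomputable def n2305 : Strat := .move 757 n1252 (.cons 716 n1546 .nil)
noncomputable def n2306 : Strat := .move 839 n2303 (.cons 715 n2305 (.cons 757 n1299 .nil))
noncomputable def n2307 : Strat := .move 839 n435 (.cons 801 n2305 .nil)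
noncomputable def n2308 : Strat := .move 798 n2304 (.cons 801 n2306 (.cons 757 n1411 (.cons 839 n1395 (.cons 756 n2307 .nil))))
noncomputable def n2309 : Strat := .move 839 n436 (.cons 837 n2292 .nil)
noncomputable def n2310 : Strat := .move 798 n774 (.cons 837 n1395 .nil)
noncomputable def n2311 : Strat := .move 800 n2302 (.cons 837 n2308 (.cons 798 n2309 (.cons 839 n2310 .nil)))
noncomputable def n2312 : Strat := .move 800 n436 (.cons 837 n2291 .nil)
noncomputable def n2313 : Strat := .move 878 n1427 (.cons 919 n488 .nil)
noncomputable def n2314 : Strat := .move 756 n1649 (.cons 801 n1551 (.cons 755 n2313 .nil))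
noncomputable def n2315 : Strat := .move 879 n1381 (.cons 920 n2314 .nil)
noncomputable def n2316 : Strat := .move 757 n1252 (.cons 716 n2315 .nil)
noncomputable def n2317 : Strat := .move 800 n435 (.cons 801 n1547 .nil)
noncomputable def n2318 : Strat := .move 756 n2313 (.cons 841 n1553 .nil)
noncomputable def n2319 : Strat := .move 879 n1381 (.cons 920 n2318 .nil)
noncomputable def n2320 : Strat := .move 757 n1252 (.cons 716 n2319 .nil)
noncomputable def n2321 : Strat := .move 800 n435 (.cons 801 n1546 .nil)
noncomputable def n2322 : Strat := .move 757 n1252 (.cons 716 n2321 .nil)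
noncomputable def n2323 : Strat := .move 757 n1252 (.cons 716 n1649 .nil)
noncomputable def n2324 : Strat := .move 757 n1252 (.cons 716 n1551 .nil)
noncomputable def n2325 : Strat := .move 800 n435 (.cons 801 n565 .nil)
noncomputable def n2326 : Strat := .move 879 n1381 (.cons 920 n1553 .nil)
noncomputable def n2327 : Strat := .move 757 n1252 (.cons 716 n2326 .nil)
noncomputable def n2328 : Strat := .move 715 n1863 (.cons 675 n1297 .nil)
noncomputable def n2329 : Strat := .move 716 n2294 (.cons 757 n2328 .nil)
noncomputable def n2330 : Strat := .move 756 n2323 (.cons 801 n2324 (.cons 757 n2325 (.cons 800 n2327 (.cons 755 n2329 .nil))))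
noncomputable def n2331 : Strat := .move 798 n2316 (.cons 757 n2317 (.cons 800 n2320 (.cons 756 n2322 (.cons 841 n2330 .nil))))
noncomputable def n2332 : Strat := .move 879 n1381 (.cons 920 n488 .nil)
noncomputable def n2333 : Strat := .move 757 n1252 (.cons 716 n2332 .nil)
noncomputable def n2334 : Strat := .move 798 n1449 (.cons 836 n2333 .nil)
noncomputable def n2335 : Strat := .move 878 n1453 (.cons 877 n2334 .nil)
noncomputable def n2336 : Strat := .move 837 n1081 (.cons 882 n2335 .nil)
noncomputable def n2337 : Strat := .move 839 n2107 (.cons 882 n2312 (.cons 837 n2331 (.cons 800 n2336 .nil)))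
noncomputable def n2338 : Strat := .move 839 n1081 (.cons 882 n1090 .nil)
noncomputable def n2339 : Strat := .move 839 n1081 (.cons 882 n2119 .nil)
noncomputable def n2340 : Strat := .move 839 n1090 (.cons 800 n2119 .nil)
noncomputable def n2341 : Strat := .move 879 n2131 (.cons 882 n1672 .nil)
noncomputable def n2342 : Strat := .move 836 n1670 (.cons 835 n2341 .nil)
noncomputable def n2343 : Strat := .move 798 n1448 (.cons 800 n2342 .nil)
noncomputable def n2344 : Strat := .move 837 n2338 (.cons 800 n2339 (.cons 882 n2340 (.cons 839 n2343 .nil)))
noncomputable def n2345 : Strat := .move 879 n1427 (.cons 919 n488 .nil)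
noncomputable def n2346 : Strat := .move 756 n1468 (.cons 715 n2345 .nil)
noncomputable def n2347 : Strat := .move 878 n1453 (.cons 877 n2346 .nil)
noncomputable def n2348 : Strat := .move 837 n1449 (.cons 836 n2347 .nil)
noncomputable def n2349 : Strat := .move 882 n186 (.cons 837 n609 .nil)
noncomputable def n2350 : Strat := .move 920 n193 (.cons 919 n689 .nil)
noncomputable def n2351 : Strat := .move 879 n489 (.cons 841 n2350 .nil)
noncomputable def n2352 : Strat := .move 882 n187 (.cons 883 n2351 .nil)
noncomputable def n2353 : Strat := .move 880 n1503 (.cons 921 n2352 .nil)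
noncomputable def n2354 : Strat := .move 798 n2108 (.cons 882 n2348 (.cons 836 n2349 (.cons 837 n2353 .nil)))
noncomputable def n2355 : Strat := .move 798 n1449 (.cons 836 n2347 .nil)
noncomputable def n2356 : Strat := .move 837 n1090 (.cons 800 n2355 .nil)
noncomputable def n2357 : Strat := .move 801 n938 (.cons 798 n2199 .nil)
noncomputable def n2358 : Strat := .move 921 n2121 (.cons 879 n611 .nil)
noncomputable def n2359 : Strat := .move 880 n635 (.cons 715 n2358 .nil)
noncomputable def n2360 : Strat := .move 798 n559 (.cons 760 n565 .nil)
noncomputable def n2361 : Strat := .move 759 n1545 (.cons 677 n2360 .nil)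
noncomputable def n2362 : Strat := .move 756 n2359 (.cons 880 n2361 .nil)
noncomputable def n2363 : Strat := .move 756 n2121 (.cons 879 n635 .nil)
noncomputable def n2364 : Strat := .move 921 n611 (.cons 962 n2363 .nil)
noncomputable def n2365 : Strat := .move 880 n187 (.cons 883 n2364 .nil)
noncomputable def n2366 : Strat := .move 882 n609 (.cons 883 n2362 (.cons 880 n1179 (.cons 841 n2365 .nil)))
noncomputable def n2367 : Strat := .move 800 n2291 (.cons 798 n2292 (.cons 802 n2357 (.cons 801 n2366 .nil)))
noncomputable def n2368 : Strat := .move 839 n2107 (.cons 800 n2354 (.cons 882 n2356 (.cons 837 n2367 .nil)))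
noncomputable def n2369 : Strat := .move 839 n635 (.cons 715 n1082 .nil)
noncomputable def n2370 : Strat := .move 880 n634 (.cons 921 n2369 .nil)
noncomputable def n2371 : Strat := .move 837 n1468 (.cons 715 n1081 .nil)
noncomputable def n2372 : Strat := .move 839 n488 (.cons 841 n2371 .nil)
noncomputable def n2373 : Strat := .move 878 n1427 (.cons 919 n2372 .nil)
noncomputable def n2374 : Strat := .move 756 n2173 (.cons 919 n2370 (.cons 880 n2373 .nil))
noncomputable def n2375 : Strat := .move 798 n2139 (.cons 716 n2143 (.cons 756 n2147 (.cons 757 n2154 (.cons 920 n2156 .nil))))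
noncomputable def n2376 : Strat := .move 756 n634 (.cons 921 n2369 .nil)
noncomputable def n2377 : Strat := .move 962 n1686 (.cons 920 n2151 .nil)
noncomputable def n2378 : Strat := .move 921 n1559 (.cons 756 n2377 .nil)
noncomputable def n2379 : Strat := .move 836 n1565 (.cons 835 n1564 .nil)
noncomputable def n2380 : Strat := .move 837 n1563 (.cons 882 n2379 .nil)
noncomputable def n2381 : Strat := .move 880 n2376 (.cons 836 n2215 (.cons 839 n2378 (.cons 921 n2380 .nil)))
noncomputable def n2382 : Strat := .move 715 n1663 (.cons 878 n2193 .nil)
noncomputable def n2383 : Strat := .move 798 n1381 (.cons 920 n1690 .nil)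
noncomputable def n2384 : Strat := .move 757 n1392 (.cons 716 n2383 .nil)
noncomputable def n2385 : Strat := .move 837 n1674 (.cons 919 n2382 (.cons 878 n2384 .nil))
noncomputable def n2386 : Strat := .move 961 n2183 (.cons 919 n2237 .nil)
noncomputable def n2387 : Strat := .move 920 n2228 (.cons 798 n2386 .nil)
noncomputable def n2388 : Strat := .move 757 n1392 (.cons 716 n2387 .nil)
noncomputable def n2389 : Strat := .move 756 n2373 (.cons 839 n2385 (.cons 878 n2388 (.cons 919 n2384 .nil)))
noncomputable def n2390 : Strat := .move 878 n488 (.cons 841 n1453 .nil)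
noncomputable def n2391 : Strat := .move 837 n1081 (.cons 882 n2390 .nil)
noncomputable def n2392 : Strat := .move 880 n195 (.cons 877 n2219 .nil)
noncomputable def n2393 : Strat := .move 878 n488 (.cons 841 n2392 .nil)
noncomputable def n2394 : Strat := .win 837 4 836
noncomputable def n2395 : Strat := .move 877 n2394 (.cons 837 n1912 .nil)
noncomputable def n2396 : Strat := .move 878 n488 (.cons 841 n2395 .nil)
noncomputable def n2397 : Strat := .move 839 n2391 (.cons 841 n2298 (.cons 837 n2393 (.cons 882 n2396 .nil)))
noncomputable def n2398 : Strat := .move 920 n2228 (.cons 798 n1677 .nil)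
noncomputable def n2399 : Strat := .move 757 n1392 (.cons 716 n2398 .nil)
noncomputable def n2400 : Strat := .move 757 n192 (.cons 798 n1392 .nil)
noncomputable def n2401 : Strat := .move 882 n193 (.cons 919 n187 .nil)
noncomputable def n2402 : Strat := .move 920 n2400 (.cons 716 n2401 .nil)
noncomputable def n2403 : Strat := .move 839 n635 (.cons 715 n2402 .nil)
noncomputable def n2404 : Strat := .move 880 n634 (.cons 921 n2403 .nil)
noncomputable def n2405 : Strat := .move 756 n2173 (.cons 919 n2206 (.cons 880 n2399 (.cons 878 n2404 .nil)))
noncomputable def n2406 : Strat := .move 756 n1427 (.cons 919 n634 .nil)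
noncomputable def n2407 : Strat := .move 880 n196 (.cons 841 n2406 .nil)
noncomputable def n2408 : Strat := .move 839 n488 (.cons 841 n2395 .nil)
noncomputable def n2409 : Strat := .win 836 2 836
noncomputable def n2410 : Strat := .move 837 n2409 (.cons 836 n1468 .nil)
noncomputable def n2411 : Strat := .move 880 n634 (.cons 921 n2410 .nil)
noncomputable def n2412 : Strat := .move 756 n1427 (.cons 919 n2411 .nil)
noncomputable def n2413 : Strat := .move 878 n2407 (.cons 756 n2408 (.cons 841 n2412 .nil))
noncomputable def n2414 : Strat := .move 879 n2374 (.cons 839 n2375 (.cons 919 n2381 (.cons 880 n2389 (.cons 756 n2397 (.cons 837 n2405 (.cons 882 n2413 .nil))))))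
noncomputable def n2415 : Strat := .move 800 n2300 (.cons 798 n2301 .nil)
noncomputable def n2416 : Strat := .move 836 n1683 (.cons 878 n1565 .nil)
noncomputable def n2417 : Strat := .move 880 n1563 (.cons 882 n2416 .nil)
noncomputable def n2418 : Strat := .move 920 n1673 (.cons 757 n2386 .nil)
noncomputable def n2419 : Strat := .move 879 n2417 (.cons 836 n2418 .nil)
noncomputable def n2420 : Strat := .move 798 n1448 (.cons 800 n2419 .nil)
noncomputable def n2421 : Strat := .move 837 n2338 (.cons 800 n2339 (.cons 882 n2415 (.cons 839 n2420 .nil)))
noncomputable def n2422 : Strat := .move 838 n2130 (.cons 839 n2171 (.cons 837 n2244 (.cons 798 n2290 (.cons 879 n2299 (.cons 882 n2311 (.cons 880 n2337 (.cons 841 n2344 (.cons 757 n2368 (.cons 800 n2414 (.cons 756 n2421 .nil))))))))))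
noncomputable def n2423 : Strat := .win 838 1 796
noncomputable def n2424 : Strat := .move 919 n2423 (.cons 838 n360 .nil)
noncomputable def n2425 : Strat := .move 960 n361 (.cons 961 n2424 .nil)
noncomputable def n2426 : Strat := .move 879 n281 (.cons 878 n2425 .nil)
noncomputable def n2427 : Strat := .move 920 n280 (.cons 883 n989 (.cons 882 n2426 (.cons 919 n994 .nil)))
noncomputable def n2428 : Strat := .move 923 n35 (.cons 964 n2427 .nil)
noncomputable def n2429 : Strat := .move 921 n16 (.cons 962 n2428 .nil)
noncomputable def n2430 : Strat := .move 922 n65 (.cons 921 n51 (.cons 841 n2429 .nil))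
noncomputable def n2431 : Strat := .win 839 7 756
noncomputable def n2432 : Strat := .move 756 n2431 (.cons 839 n565 .nil)
noncomputable def n2433 : Strat := .move 880 n73 (.cons 878 n76 (.cons 924 n2432 .nil))
noncomputable def n2434 : Strat := .move 798 n55 (.cons 757 n2433 .nil)
noncomputable def n2435 : Strat := .move 800 n45 (.cons 759 n2434 .nil)
noncomputable def n2436 : Strat := .move 923 n35 (.cons 964 n2435 .nil)
noncomputable def n2437 : Strat := .move 921 n16 (.cons 962 n2436 .nil)
noncomputable def n2438 : Strat := .move 922 n59 (.cons 841 n478 (.cons 757 n65 (.cons 963 n2437 .nil)))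
noncomputable def n2439 : Strat := .move 922 n1145 (.cons 798 n51 (.cons 800 n67 (.cons 963 n2105 .nil)))
noncomputable def n2440 : Strat := .move 919 n359 (.cons 918 n2144 .nil)
noncomputable def n2441 : Strat := .move 880 n71 (.cons 924 n2440 .nil)
noncomputable def n2442 : Strat := .move 879 n281 (.cons 878 n2441 .nil)
noncomputable def n2443 : Strat := .move 920 n280 (.cons 883 n2442 (.cons 882 n2426 (.cons 919 n287 .nil)))
noncomputable def n2444 : Strat := .move 921 n16 (.cons 962 n2443 .nil)
noncomputable def n2445 : Strat := .move 923 n35 (.cons 964 n2444 .nil)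
noncomputable def n2446 : Strat := .move 922 n67 (.cons 1005 n478 (.cons 839 n2445 .nil))
noncomputable def n2447 : Strat := .move 922 n1145 (.cons 800 n478 (.cons 839 n65 (.cons 963 n2105 .nil)))
noncomputable def n2448 : Strat := .move 922 n45 (.cons 759 n1144 .nil)
noncomputable def n2449 : Strat := .move 798 n435 (.cons 801 n2305 .nil)
noncomputable def n2450 : Strat := .move 838 n436 (.cons 837 n2449 .nil)
noncomputable def n2451 : Strat := .move 838 n436 (.cons 837 n2292 .nil)
noncomputable def n2452 : Strat := .move 798 n1258 (.cons 716 n1407 (.cons 757 n1612 .nil))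
noncomputable def n2453 : Strat := .move 801 n937 (.cons 802 n2452 .nil)
noncomputable def n2454 : Strat := .move 756 n565 (.cons 755 n2328 .nil)
noncomputable def n2455 : Strat := .move 716 n2294 (.cons 757 n2454 .nil)
noncomputable def n2456 : Strat := .move 798 n2305 (.cons 757 n1547 (.cons 841 n2455 .nil))
noncomputable def n2457 : Strat := .move 838 n436 (.cons 837 n2456 .nil)
noncomputable def n2458 : Strat := .move 839 n1251 (.cons 802 n2450 (.cons 798 n2451 (.cons 838 n2453 (.cons 801 n2457 .nil))))
noncomputable def n2459 : Strat := .move 922 n45 (.cons 759 n50 .nil)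
noncomputable def n2460 : Strat := .move 839 n434 (.cons 963 n1476 .nil)
noncomputable def n2461 : Strat := .move 798 n55 (.cons 757 n2460 .nil)
noncomputable def n2462 : Strat := .move 922 n45 (.cons 759 n2461 .nil)
noncomputable def n2463 : Strat := .move 839 n436 (.cons 837 n1250 .nil)
noncomputable def n2464 : Strat := .move 839 n436 (.cons 837 n1256 .nil)
noncomputable def n2465 : Strat := .move 756 n565 (.cons 755 n1391 .nil)
noncomputable def n2466 : Strat := .move 757 n205 (.cons 922 n2465 .nil)
noncomputable def n2467 : Strat := .move 798 n774 (.cons 837 n2466 .nil)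
noncomputable def n2468 : Strat := .move 839 n937 (.cons 802 n938 .nil)
noncomputable def n2469 : Strat := .move 839 n937 (.cons 802 n2199 .nil)
noncomputable def n2470 : Strat := .move 757 n205 (.cons 922 n751 .nil)
noncomputable def n2471 : Strat := .move 798 n775 (.cons 839 n2470 .nil)
noncomputable def n2472 : Strat := .win 841 4 799
noncomputable def n2473 : Strat := .win 845 0 800
noncomputable def n2474 : Strat := .win 843 0 799
noncomputable def n2475 : Strat := .move 844 n2473 (.cons 845 n2474 .nil)
noncomputable def n2476 : Strat := .move 803 n2472 (.cons 841 n2475 .nil)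
noncomputable def n2477 : Strat := .move 922 n223 (.cons 963 n55 .nil)
noncomputable def n2478 : Strat := .win 762 5 758
noncomputable def n2479 : Strat := .win 760 5 757
noncomputable def n2480 : Strat := .move 761 n2478 (.cons 762 n2479 .nil)
noncomputable def n2481 : Strat := .move 798 n2477 (.cons 757 n2480 .nil)
noncomputable def n2482 : Strat := .move 841 n1413 (.cons 803 n2481 .nil)
noncomputable def n2483 : Strat := .move 757 n751 (.cons 756 n205 .nil)
noncomputable def n2484 : Strat := .move 798 n2479 (.cons 760 n2483 .nil)
noncomputable def n2485 : Strat := .move 761 n2478 (.cons 762 n2484 .nil)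
noncomputable def n2486 : Strat := .move 802 n2476 (.cons 845 n2482 (.cons 803 n2485 .nil))
noncomputable def n2487 : Strat := .move 801 n2468 (.cons 798 n2469 (.cons 802 n2471 (.cons 839 n2486 .nil)))
noncomputable def n2488 : Strat := .move 838 n2463 (.cons 798 n2309 (.cons 802 n2464 (.cons 839 n2467 (.cons 801 n2302 (.cons 837 n2487 .nil)))))
noncomputable def n2489 : Strat := .move 800 n2448 (.cons 922 n2458 (.cons 798 n2459 (.cons 841 n2462 (.cons 759 n2488 .nil))))
noncomputable def n2490 : Strat := .move 881 n2106 (.cons 922 n2422 (.cons 798 n2430 (.cons 838 n2438 (.cons 921 n2439 (.cons 759 n2446 (.cons 923 n2447 (.cons 880 n2489 .nil)))))))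
noncomputable def n2491 : Strat := .move 798 n780 (.cons 841 n1726 .nil)
noncomputable def n2492 : Strat := .move 798 n1726 (.cons 795 n1740 (.cons 755 n1531 (.cons 836 n1403 (.cons 839 n1757 .nil))))
noncomputable def n2493 : Strat := .move 798 n780 (.cons 841 n1757 .nil)
noncomputable def n2494 : Strat := .move 798 n780 (.cons 841 n1531 .nil)
noncomputable def n2495 : Strat := .move 798 n780 (.cons 841 n1403 .nil)
noncomputable def n2496 : Strat := .win 841 2 796
noncomputable def n2497 : Strat := .win 794 0 794
noncomputable def n2498 : Strat := .win 837 2 795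
noncomputable def n2499 : Strat := .move 795 n2497 (.cons 794 n2498 .nil)
noncomputable def n2500 : Strat := .move 839 n2496 (.cons 841 n2499 .nil)
noncomputable def n2501 : Strat := .win 795 2 795
noncomputable def n2502 : Strat := .move 839 n2501 (.cons 795 n1471 .nil)
noncomputable def n2503 : Strat := .move 881 n1081 (.cons 882 n2117 .nil)
noncomputable def n2504 : Strat := .win 834 5 793
noncomputable def n2505 : Strat := .win 875 4 834
noncomputable def n2506 : Strat := .win 877 4 835
noncomputable def n2507 : Strat := .move 876 n2505 (.cons 875 n2506 .nil)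
noncomputable def n2508 : Strat := .move 835 n2504 (.cons 834 n2507 .nil)
noncomputable def n2509 : Strat := .move 836 n2503 (.cons 881 n2508 .nil)
noncomputable def n2510 : Strat := .move 839 n2501 (.cons 795 n2509 .nil)
noncomputable def n2511 : Strat := .move 880 n1080 (.cons 836 n2364 .nil)
noncomputable def n2512 : Strat := .move 881 n1081 (.cons 882 n2511 .nil)
noncomputable def n2513 : Strat := .move 839 n2501 (.cons 795 n2512 .nil)
noncomputable def n2514 : Strat := .move 839 n1471 (.cons 878 n2509 (.cons 877 n2512 .nil))
noncomputable def n2515 : Strat := .move 879 n1750 (.cons 920 n1466 .nil)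
noncomputable def n2516 : Strat := .move 714 n1463 (.cons 673 n1462 .nil)
noncomputable def n2517 : Strat := .move 714 n1727 (.cons 674 n1463 .nil)
noncomputable def n2518 : Strat := .move 715 n1579 (.cons 756 n2517 .nil)
noncomputable def n2519 : Strat := .win 881 2 836
noncomputable def n2520 : Strat := .move 836 n2519 (.cons 881 n1565 .nil)
noncomputable def n2521 : Strat := .move 881 n1563 (.cons 882 n2409 .nil)
noncomputable def n2522 : Strat := .move 756 n634 (.cons 921 n1468 .nil)
noncomputable def n2523 : Strat := .move 880 n2520 (.cons 835 n2521 (.cons 881 n2522 .nil))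
noncomputable def n2524 : Strat := .move 879 n1750 (.cons 920 n2523 .nil)
noncomputable def n2525 : Strat := .move 755 n2515 (.cons 920 n2516 (.cons 879 n2518 (.cons 714 n2524 .nil)))
noncomputable def n2526 : Strat := .win 961 6 796
noncomputable def n2527 : Strat := .win 879 6 755
noncomputable def n2528 : Strat := .win 959 1 795
noncomputable def n2529 : Strat := .win 877 1 754
noncomputable def n2530 : Strat := .move 918 n2528 (.cons 959 n2529 .nil)
noncomputable def n2531 : Strat := .move 755 n2527 (.cons 879 n2530 .nil)
noncomputable def n2532 : Strat := .move 920 n2526 (.cons 961 n2531 .nil)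
noncomputable def n2533 : Strat := .move 919 n1455 (.cons 960 n2532 .nil)
noncomputable def n2534 : Strat := .move 878 n1456 (.cons 919 n2525 (.cons 756 n2533 .nil))
noncomputable def n2535 : Strat := .move 837 n2502 (.cons 878 n2510 (.cons 877 n2513 (.cons 795 n2514 (.cons 839 n2534 .nil))))
noncomputable def n2536 : Strat := .move 837 n1471 (.cons 878 n2509 (.cons 877 n2512 .nil))
noncomputable def n2537 : Strat := .move 839 n2496 (.cons 841 n2536 .nil)
noncomputable def n2538 : Strat := .win 837 6 714
noncomputable def n2539 : Strat := .move 714 n1463 (.cons 673 n2538 .nil)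
noncomputable def n2540 : Strat := .move 755 n1465 (.cons 920 n2539 .nil)
noncomputable def n2541 : Strat := .win 837 6 796
noncomputable def n2542 : Strat := .move 961 n2541 (.cons 837 n2237 .nil)
noncomputable def n2543 : Strat := .move 878 n2216 (.cons 756 n2542 .nil)
noncomputable def n2544 : Strat := .move 919 n1675 (.cons 960 n2543 .nil)
noncomputable def n2545 : Strat := .move 756 n1679 (.cons 880 n1676 .nil)
noncomputable def n2546 : Strat := .move 919 n1675 (.cons 960 n2545 .nil)
noncomputable def n2547 : Strat := .move 921 n1678 (.cons 962 n2546 .nil)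
noncomputable def n2548 : Strat := .win 837 7 796
noncomputable def n2549 : Strat := .move 962 n2236 (.cons 921 n2235 .nil)
noncomputable def n2550 : Strat := .move 961 n2548 (.cons 837 n2549 .nil)
noncomputable def n2551 : Strat := .move 837 n2528 (.cons 959 n2526 .nil)
noncomputable def n2552 : Strat := .win 881 4 877
noncomputable def n2553 : Strat := .win 917 5 876
noncomputable def n2554 : Strat := .move 880 n2552 (.cons 881 n2553 .nil)
noncomputable def n2555 : Strat := .move 918 n2551 (.cons 961 n2554 .nil)
noncomputable def n2556 : Strat := .move 878 n2216 (.cons 756 n2555 .nil)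
noncomputable def n2557 : Strat := .move 919 n1675 (.cons 960 n2556 .nil)
noncomputable def n2558 : Strat := .move 920 n2544 (.cons 837 n2547 (.cons 756 n2550 (.cons 921 n2557 .nil)))
noncomputable def n2559 : Strat := .win 755 7 755
noncomputable def n2560 : Strat := .move 920 n2559 (.cons 755 n2547 .nil)
noncomputable def n2561 : Strat := .move 881 n2409 (.cons 836 n196 .nil)
noncomputable def n2562 : Strat := .move 880 n634 (.cons 921 n2561 .nil)
noncomputable def n2563 : Strat := .move 837 n1468 (.cons 715 n2562 .nil)
noncomputable def n2564 : Strat := .move 756 n1427 (.cons 919 n2563 .nil)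
noncomputable def n2565 : Strat := .move 715 n2276 (.cons 837 n2193 .nil)
noncomputable def n2566 : Strat := .move 756 n1427 (.cons 919 n2565 .nil)
noncomputable def n2567 : Strat := .move 715 n1932 (.cons 673 n2193 .nil)
noncomputable def n2568 : Strat := .move 714 n2207 (.cons 755 n2567 .nil)
noncomputable def n2569 : Strat := .move 837 n1563 (.cons 882 n2409 .nil)
noncomputable def n2570 : Strat := .move 881 n196 (.cons 841 n2569 .nil)
noncomputable def n2571 : Strat := .move 880 n634 (.cons 921 n2570 .nil)
noncomputable def n2572 : Strat := .move 756 n2563 (.cons 921 n2565 (.cons 837 n2568 (.cons 715 n2571 .nil)))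
noncomputable def n2573 : Strat := .move 756 n1427 (.cons 919 n2568 .nil)
noncomputable def n2574 : Strat := .move 918 n2529 (.cons 877 n2528 .nil)
noncomputable def n2575 : Strat := .move 755 n1466 (.cons 714 n2574 .nil)
noncomputable def n2576 : Strat := .move 837 n1455 (.cons 960 n2575 .nil)
noncomputable def n2577 : Strat := .move 919 n2216 (.cons 756 n2576 .nil)
noncomputable def n2578 : Strat := .move 755 n1466 (.cons 714 n2530 .nil)
noncomputable def n2579 : Strat := .move 919 n1455 (.cons 960 n2578 .nil)
noncomputable def n2580 : Strat := .win 795 7 754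
noncomputable def n2581 : Strat := .win 713 7 713
noncomputable def n2582 : Strat := .move 754 n2580 (.cons 795 n2581 .nil)
noncomputable def n2583 : Strat := .move 755 n2530 (.cons 877 n2582 .nil)
noncomputable def n2584 : Strat := .move 919 n1455 (.cons 960 n2583 .nil)
noncomputable def n2585 : Strat := .move 919 n2580 (.cons 795 n1455 .nil)
noncomputable def n2586 : Strat := .move 754 n2581 (.cons 713 n2585 .nil)
noncomputable def n2587 : Strat := .move 755 n1466 (.cons 714 n2586 .nil)
noncomputable def n2588 : Strat := .win 880 0 835
noncomputable def n2589 : Strat := .win 834 0 834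
noncomputable def n2590 : Strat := .move 836 n2588 (.cons 880 n2589 .nil)
noncomputable def n2591 : Strat := .win 836 0 835
noncomputable def n2592 : Strat := .move 881 n1563 (.cons 882 n196 .nil)
noncomputable def n2593 : Strat := .move 880 n2591 (.cons 836 n2592 .nil)
noncomputable def n2594 : Strat := .win 793 2 793
noncomputable def n2595 : Strat := .move 836 n2594 (.cons 793 n2589 .nil)
noncomputable def n2596 : Strat := .win 836 2 793
noncomputable def n2597 : Strat := .win 795 0 793
noncomputable def n2598 : Strat := .move 793 n2596 (.cons 836 n2597 .nil)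
noncomputable def n2599 : Strat := .win 795 4 793
noncomputable def n2600 : Strat := .win 836 0 834
noncomputable def n2601 : Strat := .move 834 n2599 (.cons 795 n2600 .nil)
noncomputable def n2602 : Strat := .win 793 0 793
noncomputable def n2603 : Strat := .move 795 n1878 (.cons 834 n2602 .nil)
noncomputable def n2604 : Strat := .move 794 n2595 (.cons 834 n2598 (.cons 793 n2601 (.cons 836 n2603 .nil)))
noncomputable def n2605 : Strat := .move 755 n1731 (.cons 918 n1466 .nil)
noncomputable def n2606 : Strat := .win 834 2 834
noncomputable def n2607 : Strat := .win 875 5 834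
noncomputable def n2608 : Strat := .move 876 n2606 (.cons 834 n2607 .nil)
noncomputable def n2609 : Strat := .move 877 n2605 (.cons 714 n2608 .nil)
noncomputable def n2610 : Strat := .move 835 n2590 (.cons 834 n2593 (.cons 880 n2604 (.cons 836 n2609 .nil)))
noncomputable def n2611 : Strat := .win 754 7 754
noncomputable def n2612 : Strat := .move 919 n2611 (.cons 754 n1455 .nil)
noncomputable def n2613 : Strat := .move 794 n1878 (.cons 834 n2602 .nil)
noncomputable def n2614 : Strat := .move 795 n2612 (.cons 960 n2613 .nil)
noncomputable def n2615 : Strat := .move 835 n2590 (.cons 834 n2593 (.cons 880 n2604 (.cons 836 n2614 .nil)))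
noncomputable def n2616 : Strat := .move 837 n2579 (.cons 714 n2584 (.cons 959 n2587 (.cons 919 n2610 (.cons 755 n2615 .nil))))
noncomputable def n2617 : Strat := .move 878 n2564 (.cons 921 n2566 (.cons 919 n2572 (.cons 837 n2573 (.cons 715 n2577 (.cons 756 n2616 .nil)))))
noncomputable def n2618 : Strat := .move 879 n2540 (.cons 755 n2558 (.cons 837 n2560 (.cons 920 n2617 .nil)))
noncomputable def n2619 : Strat := .move 756 n1679 (.cons 880 n1677 .nil)
noncomputable def n2620 : Strat := .move 921 n1678 (.cons 962 n2619 .nil)
noncomputable def n2621 : Strat := .move 920 n2559 (.cons 755 n2620 .nil)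
noncomputable def n2622 : Strat := .move 839 n2496 (.cons 841 n2621 .nil)
noncomputable def n2623 : Strat := .move 880 n634 (.cons 921 n1860 .nil)
noncomputable def n2624 : Strat := .move 757 n1392 (.cons 716 n2623 .nil)
noncomputable def n2625 : Strat := .move 880 n635 (.cons 715 n1860 .nil)
noncomputable def n2626 : Strat := .move 756 n1957 (.cons 715 n2624 (.cons 921 n2625 (.cons 880 n2568 .nil)))
noncomputable def n2627 : Strat := .move 839 n2496 (.cons 841 n2626 .nil)
noncomputable def n2628 : Strat := .move 961 n2235 (.cons 1003 n2183 .nil)
noncomputable def n2629 : Strat := .move 962 n2236 (.cons 921 n2628 .nil)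
noncomputable def n2630 : Strat := .move 920 n2559 (.cons 755 n2629 .nil)
noncomputable def n2631 : Strat := .move 839 n2496 (.cons 841 n2630 .nil)
noncomputable def n2632 : Strat := .move 755 n1465 (.cons 920 n1996 .nil)
noncomputable def n2633 : Strat := .move 839 n2496 (.cons 841 n2632 .nil)
noncomputable def n2634 : Strat := .move 756 n634 (.cons 921 n1427 .nil)
noncomputable def n2635 : Strat := .move 880 n195 (.cons 877 n2634 .nil)
noncomputable def n2636 : Strat := .move 839 n2496 (.cons 841 n2635 .nil)
noncomputable def n2637 : Strat := .move 880 n635 (.cons 715 n634 .nil)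
noncomputable def n2638 : Strat := .move 756 n1427 (.cons 919 n2637 .nil)
noncomputable def n2639 : Strat := .move 839 n2496 (.cons 841 n2638 .nil)
noncomputable def n2640 : Strat := .move 877 n1912 (.cons 876 n1911 .nil)
noncomputable def n2641 : Strat := .move 839 n2496 (.cons 841 n2640 .nil)
noncomputable def n2642 : Strat := .move 839 n635 (.cons 715 n195 .nil)
noncomputable def n2643 : Strat := .move 880 n634 (.cons 921 n2642 .nil)
noncomputable def n2644 : Strat := .move 756 n1427 (.cons 919 n2643 .nil)
noncomputable def n2645 : Strat := .win 920 1 796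
noncomputable def n2646 : Strat := .win 1001 3 837
noncomputable def n2647 : Strat := .move 960 n2645 (.cons 920 n2646 .nil)
noncomputable def n2648 : Strat := .move 919 n2216 (.cons 756 n2647 .nil)
noncomputable def n2649 : Strat := .move 878 n2636 (.cons 877 n2639 (.cons 756 n2641 (.cons 841 n2644 (.cons 839 n2648 .nil))))
noncomputable def n2650 : Strat := .move 879 n2622 (.cons 839 n2560 (.cons 920 n2627 (.cons 756 n2631 (.cons 921 n2633 (.cons 755 n2649 .nil)))))
noncomputable def n2651 : Strat := .move 838 n2500 (.cons 841 n2535 (.cons 795 n2537 (.cons 839 n2618 (.cons 837 n2650 .nil))))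
noncomputable def n2652 : Strat := .move 796 n2491 (.cons 841 n2492 (.cons 839 n2493 (.cons 755 n2494 (.cons 836 n2495 (.cons 798 n2651 .nil)))))
noncomputable def n2653 : Strat := .move 796 n2496 (.cons 841 n2501 .nil)
noncomputable def n2654 : Strat := .move 837 n1090 (.cons 800 n2653 .nil)
noncomputable def n2655 : Strat := .move 796 n2501 (.cons 795 n1470 .nil)
noncomputable def n2656 : Strat := .move 878 n1453 (.cons 877 n2655 .nil)
noncomputable def n2657 : Strat := .move 837 n1090 (.cons 800 n2656 .nil)
noncomputable def n2658 : Strat := .move 879 n488 (.cons 841 n1735 .nil)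
noncomputable def n2659 : Strat := .move 878 n1453 (.cons 877 n2658 .nil)
noncomputable def n2660 : Strat := .move 837 n1090 (.cons 800 n2659 .nil)
noncomputable def n2661 : Strat := .move 796 n2496 (.cons 841 n2499 .nil)
noncomputable def n2662 : Strat := .move 714 n1995 (.cons 756 n1463 .nil)
noncomputable def n2663 : Strat := .move 755 n1465 (.cons 920 n2662 .nil)
noncomputable def n2664 : Strat := .move 715 n1932 (.cons 673 n1296 .nil)
noncomputable def n2665 : Strat := .move 714 n2207 (.cons 755 n2664 .nil)
noncomputable def n2666 : Strat := .move 756 n1957 (.cons 715 n2623 (.cons 921 n2665 (.cons 880 n2209 .nil)))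
noncomputable def n2667 : Strat := .move 920 n2559 (.cons 755 n2386 .nil)
noncomputable def n2668 : Strat := .move 756 n1427 (.cons 919 n635 .nil)
noncomputable def n2669 : Strat := .move 880 n195 (.cons 877 n2668 .nil)
noncomputable def n2670 : Strat := .move 960 n2646 (.cons 1001 n2645 .nil)
noncomputable def n2671 : Strat := .move 919 n2216 (.cons 756 n2670 .nil)
noncomputable def n2672 : Strat := .move 878 n1913 (.cons 876 n2669 (.cons 880 n2671 .nil))
noncomputable def n2673 : Strat := .move 879 n2663 (.cons 920 n2666 (.cons 756 n2667 (.cons 755 n2672 .nil)))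
noncomputable def n2674 : Strat := .move 795 n2497 (.cons 794 n2673 .nil)
noncomputable def n2675 : Strat := .move 796 n2496 (.cons 841 n2674 .nil)
noncomputable def n2676 : Strat := .move 839 n2654 (.cons 841 n2657 (.cons 796 n2660 (.cons 800 n2661 (.cons 837 n2675 .nil))))
noncomputable def n2677 : Strat := .move 878 n1427 (.cons 919 n2563 .nil)
noncomputable def n2678 : Strat := .move 880 n634 (.cons 921 n2520 .nil)
noncomputable def n2679 : Strat := .move 837 n1468 (.cons 715 n2678 .nil)
noncomputable def n2680 : Strat := .move 878 n1427 (.cons 919 n2679 .nil)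
noncomputable def n2681 : Strat := .move 961 n2181 (.cons 1001 n2548 .nil)
noncomputable def n2682 : Strat := .move 960 n2182 (.cons 919 n2681 .nil)
noncomputable def n2683 : Strat := .move 920 n1678 (.cons 962 n2682 .nil)
noncomputable def n2684 : Strat := .move 921 n1679 (.cons 880 n2683 .nil)
noncomputable def n2685 : Strat := .move 837 n1939 (.cons 961 n1929 .nil)
noncomputable def n2686 : Strat := .move 920 n1678 (.cons 962 n2685 .nil)
noncomputable def n2687 : Strat := .move 921 n1679 (.cons 880 n2686 .nil)
noncomputable def n2688 : Strat := .move 920 n1678 (.cons 962 n1677 .nil)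
noncomputable def n2689 : Strat := .move 921 n1679 (.cons 880 n2688 .nil)
noncomputable def n2690 : Strat := .move 878 n1427 (.cons 919 n2565 .nil)
noncomputable def n2691 : Strat := .move 756 n2677 (.cons 841 n2680 (.cons 878 n2684 (.cons 919 n2687 (.cons 837 n2689 (.cons 880 n2690 .nil)))))
noncomputable def n2692 : Strat := .move 755 n1552 (.cons 714 n2690 .nil)
noncomputable def n2693 : Strat := .move 674 n1784 (.cons 633 n1783 .nil)
noncomputable def n2694 : Strat := .move 715 n1863 (.cons 675 n2693 .nil)
noncomputable def n2695 : Strat := .move 716 n2052 (.cons 757 n2694 .nil)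
noncomputable def n2696 : Strat := .move 755 n1552 (.cons 714 n2695 .nil)
noncomputable def n2697 : Strat := .move 837 n1663 (.cons 878 n1631 .nil)
noncomputable def n2698 : Strat := .move 878 n2276 (.cons 837 n1427 .nil)
noncomputable def n2699 : Strat := .move 674 n1784 (.cons 633 n2260 .nil)
noncomputable def n2700 : Strat := .move 715 n2697 (.cons 674 n2698 (.cons 878 n2693 (.cons 837 n2699 .nil)))
noncomputable def n2701 : Strat := .move 755 n1552 (.cons 714 n2700 .nil)
noncomputable def n2702 : Strat := .move 837 n2581 (.cons 713 n1468 .nil)
noncomputable def n2703 : Strat := .move 878 n1427 (.cons 919 n2702 .nil)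
noncomputable def n2704 : Strat := .win 752 0 752
noncomputable def n2705 : Strat := .win 715 5 712
noncomputable def n2706 : Strat := .move 716 n2705 (.cons 715 n2052 .nil)
noncomputable def n2707 : Strat := .move 753 n2704 (.cons 752 n2706 .nil)
noncomputable def n2708 : Strat := .win 795 4 753
noncomputable def n2709 : Strat := .move 757 n2708 (.cons 795 n1392 .nil)
noncomputable def n2710 : Strat := .win 757 4 753
noncomputable def n2711 : Strat := .move 795 n1893 (.cons 793 n2710 .nil)
noncomputable def n2712 : Strat := .win 793 4 752
noncomputable def n2713 : Strat := .move 753 n2712 (.cons 793 n2704 .nil)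
noncomputable def n2714 : Strat := .move 794 n2709 (.cons 716 n2711 (.cons 795 n2713 .nil))
noncomputable def n2715 : Strat := .move 754 n2703 (.cons 878 n2707 (.cons 715 n2714 .nil))
noncomputable def n2716 : Strat := .move 755 n1552 (.cons 714 n2715 .nil)
noncomputable def n2717 : Strat := .move 878 n1427 (.cons 919 n2571 .nil)
noncomputable def n2718 : Strat := .move 756 n2692 (.cons 755 n2690 (.cons 878 n2696 (.cons 837 n2568 (.cons 757 n2701 (.cons 675 n2716 (.cons 715 n2717 .nil))))))
noncomputable def n2719 : Strat := .move 920 n2559 (.cons 755 n2550 .nil)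
noncomputable def n2720 : Strat := .move 796 n2663 (.cons 755 n2691 (.cons 920 n2718 (.cons 756 n2719 .nil)))
noncomputable def n2721 : Strat := .move 837 n1468 (.cons 715 n2561 .nil)
noncomputable def n2722 : Strat := .move 880 n634 (.cons 921 n2721 .nil)
noncomputable def n2723 : Strat := .move 878 n1427 (.cons 919 n2722 .nil)
noncomputable def n2724 : Strat := .move 960 n2182 (.cons 919 n2209 .nil)
noncomputable def n2725 : Strat := .move 920 n1678 (.cons 962 n2724 .nil)
noncomputable def n2726 : Strat := .move 921 n1679 (.cons 880 n2725 .nil)
noncomputable def n2727 : Strat := .win 881 1 798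
noncomputable def n2728 : Strat := .move 922 n2727 (.cons 881 n2209 .nil)
noncomputable def n2729 : Strat := .move 962 n1686 (.cons 920 n2728 .nil)
noncomputable def n2730 : Strat := .move 921 n1679 (.cons 880 n2729 .nil)
noncomputable def n2731 : Strat := .move 919 n1676 (.cons 878 n1675 .nil)
noncomputable def n2732 : Strat := .move 920 n1678 (.cons 962 n2731 .nil)
noncomputable def n2733 : Strat := .move 921 n1679 (.cons 880 n2732 .nil)
noncomputable def n2734 : Strat := .move 756 n2723 (.cons 878 n2726 (.cons 921 n2279 (.cons 919 n2730 (.cons 715 n2733 .nil))))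
noncomputable def n2735 : Strat := .win 796 7 755
noncomputable def n2736 : Strat := .move 921 n1679 (.cons 880 n1678 .nil)
noncomputable def n2737 : Strat := .move 920 n2735 (.cons 796 n2736 .nil)
noncomputable def n2738 : Strat := .move 755 n1552 (.cons 714 n2737 .nil)
noncomputable def n2739 : Strat := .move 920 n2735 (.cons 796 n1675 .nil)
noncomputable def n2740 : Strat := .move 919 n1676 (.cons 878 n2739 .nil)
noncomputable def n2741 : Strat := .move 715 n1863 (.cons 675 n2740 .nil)
noncomputable def n2742 : Strat := .move 716 n2052 (.cons 757 n2741 .nil)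
noncomputable def n2743 : Strat := .move 755 n1552 (.cons 714 n2742 .nil)
noncomputable def n2744 : Strat := .move 715 n1932 (.cons 673 n2277 .nil)
noncomputable def n2745 : Strat := .move 714 n2207 (.cons 755 n2744 .nil)
noncomputable def n2746 : Strat := .move 756 n2738 (.cons 755 n2733 (.cons 921 n2743 (.cons 920 n2745 .nil)))
noncomputable def n2747 : Strat := .move 796 n2692 (.cons 755 n2690 (.cons 878 n2696 (.cons 837 n2568 (.cons 757 n2701 (.cons 675 n2716 (.cons 715 n2717 .nil))))))
noncomputable def n2748 : Strat := .move 756 n2747 (.cons 878 n2745 (.cons 715 n2717 .nil))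
noncomputable def n2749 : Strat := .move 796 n2548 (.cons 837 n2559 .nil)
noncomputable def n2750 : Strat := .move 961 n2181 (.cons 1001 n2749 .nil)
noncomputable def n2751 : Strat := .move 960 n2182 (.cons 919 n2750 .nil)
noncomputable def n2752 : Strat := .move 920 n1678 (.cons 962 n2751 .nil)
noncomputable def n2753 : Strat := .move 921 n1679 (.cons 880 n2752 .nil)
noncomputable def n2754 : Strat := .move 715 n1631 (.cons 674 n1663 .nil)
noncomputable def n2755 : Strat := .move 837 n1939 (.cons 961 n2754 .nil)
noncomputable def n2756 : Strat := .move 796 n2559 (.cons 755 n2755 .nil)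
noncomputable def n2757 : Strat := .move 920 n1678 (.cons 962 n2756 .nil)
noncomputable def n2758 : Strat := .move 921 n1679 (.cons 880 n2757 .nil)
noncomputable def n2759 : Strat := .move 756 n2723 (.cons 878 n2753 (.cons 837 n2733 (.cons 919 n2758 (.cons 880 n2279 .nil))))
noncomputable def n2760 : Strat := .move 881 n2409 (.cons 836 n1563 .nil)
noncomputable def n2761 : Strat := .move 880 n634 (.cons 921 n2760 .nil)
noncomputable def n2762 : Strat := .move 878 n1427 (.cons 919 n2761 .nil)
noncomputable def n2763 : Strat := .move 920 n2735 (.cons 796 n1680 .nil)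
noncomputable def n2764 : Strat := .move 755 n1552 (.cons 714 n2763 .nil)
noncomputable def n2765 : Strat := .win 796 6 755
noncomputable def n2766 : Strat := .move 755 n2765 (.cons 796 n1552 .nil)
noncomputable def n2767 : Strat := .win 755 6 755
noncomputable def n2768 : Strat := .move 796 n1939 (.cons 961 n2767 .nil)
noncomputable def n2769 : Strat := .win 1002 7 837
noncomputable def n2770 : Strat := .move 961 n2769 (.cons 1002 n2237 .nil)
noncomputable def n2771 : Strat := .move 920 n2766 (.cons 714 n2768 (.cons 796 n2770 .nil))
noncomputable def n2772 : Strat := .move 878 n1427 (.cons 919 n2771 .nil)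
noncomputable def n2773 : Strat := .move 755 n2735 (.cons 796 n1552 .nil)
noncomputable def n2774 : Strat := .move 920 n1675 (.cons 960 n2773 .nil)
noncomputable def n2775 : Strat := .move 919 n1676 (.cons 878 n2774 .nil)
noncomputable def n2776 : Strat := .move 837 n2762 (.cons 878 n2764 (.cons 880 n2772 (.cons 921 n2775 .nil)))
noncomputable def n2777 : Strat := .move 920 n1675 (.cons 960 n2736 .nil)
noncomputable def n2778 : Strat := .move 919 n1676 (.cons 878 n2777 .nil)
noncomputable def n2779 : Strat := .move 920 n2735 (.cons 796 n2731 .nil)
noncomputable def n2780 : Strat := .move 755 n1552 (.cons 714 n2779 .nil)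
noncomputable def n2781 : Strat := .move 756 n2776 (.cons 755 n2778 (.cons 919 n2738 (.cons 921 n2780 (.cons 920 n2717 .nil))))
noncomputable def n2782 : Strat := .move 837 n2409 (.cons 836 n1563 .nil)
noncomputable def n2783 : Strat := .move 880 n196 (.cons 841 n2782 .nil)
noncomputable def n2784 : Strat := .move 878 n1427 (.cons 919 n2783 .nil)
noncomputable def n2785 : Strat := .move 880 n2409 (.cons 836 n196 .nil)
noncomputable def n2786 : Strat := .move 837 n1468 (.cons 715 n2785 .nil)
noncomputable def n2787 : Strat := .move 878 n1427 (.cons 919 n2786 .nil)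
noncomputable def n2788 : Strat := .move 674 n1783 (.cons 837 n1784 .nil)
noncomputable def n2789 : Strat := .move 715 n2193 (.cons 757 n2788 .nil)
noncomputable def n2790 : Strat := .move 796 n1465 (.cons 920 n2789 .nil)
noncomputable def n2791 : Strat := .move 755 n1552 (.cons 714 n2790 .nil)
noncomputable def n2792 : Strat := .move 716 n2052 (.cons 757 n2740 .nil)
noncomputable def n2793 : Strat := .move 755 n1552 (.cons 714 n2792 .nil)
noncomputable def n2794 : Strat := .move 881 n2272 (.cons 715 n2784 (.cons 882 n2787 (.cons 919 n2791 (.cons 837 n2793 .nil))))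
noncomputable def n2795 : Strat := .move 796 n1465 (.cons 920 n2788 .nil)
noncomputable def n2796 : Strat := .move 715 n1863 (.cons 675 n2795 .nil)
noncomputable def n2797 : Strat := .move 716 n2052 (.cons 757 n2796 .nil)
noncomputable def n2798 : Strat := .move 755 n1552 (.cons 714 n2797 .nil)
noncomputable def n2799 : Strat := .move 756 n2794 (.cons 878 n2798 (.cons 715 n2780 (.cons 796 n2279 .nil)))
noncomputable def n2800 : Strat := .move 755 n1552 (.cons 714 n2735 .nil)
noncomputable def n2801 : Strat := .move 756 n1676 (.cons 878 n2800 .nil)
noncomputable def n2802 : Strat := .move 919 n1675 (.cons 960 n2801 .nil)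
noncomputable def n2803 : Strat := .win 922 2 877
noncomputable def n2804 : Strat := .win 876 0 876
noncomputable def n2805 : Strat := .move 877 n2803 (.cons 922 n2804 .nil)
noncomputable def n2806 : Strat := .move 921 n1678 (.cons 962 n2805 .nil)
noncomputable def n2807 : Strat := .move 878 n2216 (.cons 756 n2806 .nil)
noncomputable def n2808 : Strat := .move 919 n1675 (.cons 960 n2807 .nil)
noncomputable def n2809 : Strat := .move 960 n2182 (.cons 919 n2181 .nil)
noncomputable def n2810 : Strat := .move 961 n2548 (.cons 837 n2809 .nil)
noncomputable def n2811 : Strat := .move 796 n2559 (.cons 755 n2810 .nil)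
noncomputable def n2812 : Strat := .move 796 n2559 (.cons 755 n2550 .nil)
noncomputable def n2813 : Strat := .move 920 n2802 (.cons 755 n2808 (.cons 756 n2811 (.cons 919 n2812 .nil)))
noncomputable def n2814 : Strat := .move 796 n2526 (.cons 961 n2767 .nil)
noncomputable def n2815 : Strat := .win 796 6 796
noncomputable def n2816 : Strat := .move 961 n2769 (.cons 1002 n2815 .nil)
noncomputable def n2817 : Strat := .win 923 2 878
noncomputable def n2818 : Strat := .move 922 n299 (.cons 877 n2817 .nil)
noncomputable def n2819 : Strat := .move 921 n1678 (.cons 962 n2818 .nil)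
noncomputable def n2820 : Strat := .move 837 n2814 (.cons 755 n2816 (.cons 961 n2819 .nil))
noncomputable def n2821 : Strat := .move 919 n1675 (.cons 960 n2820 .nil)
noncomputable def n2822 : Strat := .win 880 0 877
noncomputable def n2823 : Strat := .move 877 n2822 (.cons 880 n2804 .nil)
noncomputable def n2824 : Strat := .move 922 n2817 (.cons 923 n2823 .nil)
noncomputable def n2825 : Strat := .move 921 n1678 (.cons 962 n2824 .nil)
noncomputable def n2826 : Strat := .win 880 5 876
noncomputable def n2827 : Strat := .win 916 5 875
noncomputable def n2828 : Strat := .move 917 n2826 (.cons 880 n2827 .nil)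
noncomputable def n2829 : Strat := .move 880 n2553 (.cons 917 n2552 .nil)
noncomputable def n2830 : Strat := .move 918 n2828 (.cons 916 n2829 (.cons 880 n2551 .nil))
noncomputable def n2831 : Strat := .move 796 n2559 (.cons 755 n2830 .nil)
noncomputable def n2832 : Strat := .move 919 n1675 (.cons 960 n2831 .nil)
noncomputable def n2833 : Strat := .move 878 n2821 (.cons 919 n2825 (.cons 921 n2832 .nil))
noncomputable def n2834 : Strat := .move 878 n2817 (.cons 923 n299 .nil)
noncomputable def n2835 : Strat := .move 923 n35 (.cons 964 n281 .nil)
noncomputable def n2836 : Strat := .move 881 n297 (.cons 882 n2835 .nil)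
noncomputable def n2837 : Strat := .win 878 2 877
noncomputable def n2838 : Strat := .win 876 2 876
noncomputable def n2839 : Strat := .move 877 n2837 (.cons 878 n2838 .nil)
noncomputable def n2840 : Strat := .win 881 5 877
noncomputable def n2841 : Strat := .move 880 n2840 (.cons 881 n2553 .nil)
noncomputable def n2842 : Strat := .move 918 n2839 (.cons 876 n2841 .nil)
noncomputable def n2843 : Strat := .win 963 0 919
noncomputable def n2844 : Strat := .move 964 n47 (.cons 923 n2843 .nil)
noncomputable def n2845 : Strat := .move 881 n297 (.cons 882 n2844 .nil)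
noncomputable def n2846 : Strat := .move 922 n2834 (.cons 877 n2836 (.cons 923 n2842 (.cons 878 n2845 .nil)))
noncomputable def n2847 : Strat := .move 921 n1678 (.cons 962 n2846 .nil)
noncomputable def n2848 : Strat := .move 919 n1675 (.cons 960 n2847 .nil)
noncomputable def n2849 : Strat := .move 920 n2833 (.cons 755 n2848 (.cons 880 n2811 (.cons 919 n2812 .nil)))
noncomputable def n2850 : Strat := .win 881 5 837
noncomputable def n2851 : Strat := .move 880 n634 (.cons 921 n2850 .nil)
noncomputable def n2852 : Strat := .move 756 n1427 (.cons 919 n2851 .nil)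
noncomputable def n2853 : Strat := .move 880 n2850 (.cons 881 n1688 .nil)
noncomputable def n2854 : Strat := .move 800 n223 (.cons 963 n45 .nil)
noncomputable def n2855 : Strat := .move 962 n62 (.cons 1003 n61 .nil)
noncomputable def n2856 : Strat := .move 963 n213 (.cons 800 n2855 .nil)
noncomputable def n2857 : Strat := .win 920 2 878
noncomputable def n2858 : Strat := .move 923 n2857 (.cons 920 n35 .nil)
noncomputable def n2859 : Strat := .move 921 n16 (.cons 962 n2858 .nil)
noncomputable def n2860 : Strat := .move 922 n2854 (.cons 759 n2856 (.cons 963 n2859 .nil))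
noncomputable def n2861 : Strat := .move 881 n1519 (.cons 880 n2860 .nil)
noncomputable def n2862 : Strat := .move 841 n2852 (.cons 921 n2566 (.cons 919 n2853 (.cons 756 n2861 .nil)))
noncomputable def n2863 : Strat := .move 756 n1427 (.cons 919 n2722 .nil)
noncomputable def n2864 : Strat := .move 756 n634 (.cons 921 n2721 .nil)
noncomputable def n2865 : Strat := .move 962 n1686 (.cons 920 n1685 .nil)
noncomputable def n2866 : Strat := .move 921 n1559 (.cons 756 n2865 .nil)
noncomputable def n2867 : Strat := .move 881 n196 (.cons 841 n2782 .nil)
noncomputable def n2868 : Strat := .move 880 n2864 (.cons 881 n2866 (.cons 921 n2867 .nil))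
noncomputable def n2869 : Strat := .win 837 3 796
noncomputable def n2870 : Strat := .move 960 n2645 (.cons 920 n2869 .nil)
noncomputable def n2871 : Strat := .move 960 n2869 (.cons 837 n2646 .nil)
noncomputable def n2872 : Strat := .move 881 n196 (.cons 841 n490 .nil)
noncomputable def n2873 : Strat := .move 881 n490 (.cons 918 n2569 .nil)
noncomputable def n2874 : Strat := .win 922 0 877
noncomputable def n2875 : Strat := .move 921 n2874 (.cons 922 n1687 .nil)
noncomputable def n2876 : Strat := .win 836 2 835
noncomputable def n2877 : Strat := .move 835 n2606 (.cons 834 n2876 .nil)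
noncomputable def n2878 : Strat := .win 916 4 875
noncomputable def n2879 : Strat := .win 918 4 876
noncomputable def n2880 : Strat := .move 917 n2878 (.cons 916 n2879 .nil)
noncomputable def n2881 : Strat := .move 876 n2877 (.cons 836 n2880 .nil)
noncomputable def n2882 : Strat := .move 877 n2875 (.cons 921 n2881 .nil)
noncomputable def n2883 : Strat := .move 880 n2872 (.cons 841 n2873 (.cons 881 n2882 (.cons 918 n2570 .nil)))
noncomputable def n2884 : Strat := .move 919 n2870 (.cons 920 n2871 (.cons 837 n2647 (.cons 960 n2883 .nil)))
noncomputable def n2885 : Strat := .move 878 n2862 (.cons 837 n2648 (.cons 920 n2863 (.cons 919 n2868 (.cons 756 n2884 .nil))))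
noncomputable def n2886 : Strat := .move 715 n1663 (.cons 878 n2252 .nil)
noncomputable def n2887 : Strat := .move 878 n1468 (.cons 715 n2561 .nil)
noncomputable def n2888 : Strat := .move 880 n634 (.cons 921 n2887 .nil)
noncomputable def n2889 : Strat := .move 837 n2886 (.cons 715 n2764 (.cons 714 n2888 .nil))
noncomputable def n2890 : Strat := .win 796 1 673
noncomputable def n2891 : Strat := .move 837 n2890 (.cons 796 n1663 .nil)
noncomputable def n2892 : Strat := .move 673 n1789 (.cons 632 n1788 .nil)
noncomputable def n2893 : Strat := .move 674 n2891 (.cons 878 n2892 .nil)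
noncomputable def n2894 : Strat := .move 715 n1863 (.cons 675 n2893 .nil)
noncomputable def n2895 : Strat := .move 716 n2052 (.cons 757 n2894 .nil)
noncomputable def n2896 : Strat := .move 880 n634 (.cons 921 n2895 .nil)
noncomputable def n2897 : Strat := .move 756 n2889 (.cons 714 n2758 (.cons 921 n2791 (.cons 715 n2738 (.cons 796 n2730 (.cons 920 n2745 (.cons 755 n2896 .nil))))))
noncomputable def n2898 : Strat := .move 756 n1679 (.cons 880 n2800 .nil)
noncomputable def n2899 : Strat := .move 921 n1678 (.cons 962 n2898 .nil)
noncomputable def n2900 : Strat := .move 756 n1679 (.cons 880 n2724 .nil)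
noncomputable def n2901 : Strat := .move 921 n1678 (.cons 962 n2900 .nil)
noncomputable def n2902 : Strat := .move 918 n2840 (.cons 881 n2553 .nil)
noncomputable def n2903 : Strat := .move 880 n1559 (.cons 756 n2902 .nil)
noncomputable def n2904 : Strat := .move 919 n1675 (.cons 960 n2903 .nil)
noncomputable def n2905 : Strat := .move 921 n1678 (.cons 962 n2904 .nil)
noncomputable def n2906 : Strat := .move 920 n2899 (.cons 796 n2901 (.cons 962 n2811 (.cons 755 n2905 .nil)))
noncomputable def n2907 : Strat := .move 879 n2720 (.cons 796 n2734 (.cons 837 n2746 (.cons 920 n2748 (.cons 714 n2759 (.cons 715 n2781 (.cons 921 n2799 (.cons 880 n2813 (.cons 756 n2849 (.cons 755 n2885 (.cons 919 n2897 (.cons 878 n2906 .nil)))))))))))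
noncomputable def n2908 : Strat := .move 841 n631 (.cons 796 n624 .nil)
noncomputable def n2909 : Strat := .move 800 n2908 (.cons 841 n2263 .nil)
noncomputable def n2910 : Strat := .move 715 n1296 (.cons 880 n1663 .nil)
noncomputable def n2911 : Strat := .move 837 n1090 (.cons 800 n2910 .nil)
noncomputable def n2912 : Strat := .move 837 n1663 (.cons 878 n2653 .nil)
noncomputable def n2913 : Strat := .move 715 n1296 (.cons 880 n2912 .nil)
noncomputable def n2914 : Strat := .move 756 n2654 (.cons 837 n2909 (.cons 796 n2911 (.cons 800 n2913 .nil)))
noncomputable def n2915 : Strat := .move 800 n436 (.cons 837 n2292 .nil)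
noncomputable def n2916 : Strat := .move 796 n2501 (.cons 795 n1471 .nil)
noncomputable def n2917 : Strat := .move 837 n1090 (.cons 800 n2916 .nil)
noncomputable def n2918 : Strat := .move 881 n513 (.cons 922 n640 .nil)
noncomputable def n2919 : Strat := .win 760 3 718
noncomputable def n2920 : Strat := .move 719 n797 (.cons 678 n2919 .nil)
noncomputable def n2921 : Strat := .move 718 n724 (.cons 677 n2920 .nil)
noncomputable def n2922 : Strat := .win 881 1 758
noncomputable def n2923 : Strat := .move 923 n255 (.cons 963 n625 .nil)
noncomputable def n2924 : Strat := .move 922 n2922 (.cons 881 n2923 .nil)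
noncomputable def n2925 : Strat := .move 759 n2027 (.cons 677 n2918 (.cons 881 n2921 (.cons 718 n2924 .nil)))
noncomputable def n2926 : Strat := .move 882 n542 (.cons 883 n2925 .nil)
noncomputable def n2927 : Strat := .move 800 n624 (.cons 801 n2926 .nil)
noncomputable def n2928 : Strat := .move 841 n631 (.cons 796 n2927 .nil)
noncomputable def n2929 : Strat := .move 839 n2914 (.cons 800 n2661 (.cons 796 n2915 (.cons 841 n2917 (.cons 837 n2928 .nil))))
noncomputable def n2930 : Strat := .move 839 n488 (.cons 841 n1957 .nil)
noncomputable def n2931 : Strat := .move 878 n1427 (.cons 919 n2930 .nil)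
noncomputable def n2932 : Strat := .move 878 n1427 (.cons 919 n2642 .nil)
noncomputable def n2933 : Strat := .move 880 n634 (.cons 921 n2932 .nil)
noncomputable def n2934 : Strat := .win 881 0 836
noncomputable def n2935 : Strat := .move 836 n2934 (.cons 881 n1565 .nil)
noncomputable def n2936 : Strat := .move 837 n1090 (.cons 800 n2935 .nil)
noncomputable def n2937 : Strat := .move 839 n635 (.cons 715 n2936 .nil)
noncomputable def n2938 : Strat := .move 880 n634 (.cons 921 n2937 .nil)
noncomputable def n2939 : Strat := .move 837 n1090 (.cons 800 n1468 .nil)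
noncomputable def n2940 : Strat := .move 839 n488 (.cons 841 n2939 .nil)
noncomputable def n2941 : Strat := .move 878 n1427 (.cons 919 n2940 .nil)
noncomputable def n2942 : Strat := .move 878 n1427 (.cons 919 n2408 .nil)
noncomputable def n2943 : Strat := .move 756 n2931 (.cons 841 n2933 (.cons 878 n2938 (.cons 880 n2941 (.cons 839 n2723 (.cons 715 n2942 .nil)))))
noncomputable def n2944 : Strat := .move 921 n611 (.cons 962 n688 .nil)
noncomputable def n2945 : Strat := .win 921 3 798
noncomputable def n2946 : Strat := .win 923 0 878
noncomputable def n2947 : Strat := .move 878 n2946 (.cons 923 n488 .nil)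
noncomputable def n2948 : Strat := .move 923 n35 (.cons 964 n72 .nil)
noncomputable def n2949 : Strat := .move 963 n947 (.cons 1004 n62 .nil)
noncomputable def n2950 : Strat := .move 922 n2947 (.cons 841 n2948 (.cons 923 n2949 .nil))
noncomputable def n2951 : Strat := .move 961 n2235 (.cons 1003 n495 .nil)
noncomputable def n2952 : Strat := .move 920 n2951 (.cons 1002 n2401 .nil)
noncomputable def n2953 : Strat := .move 878 n490 (.cons 918 n488 .nil)
noncomputable def n2954 : Strat := .move 882 n491 (.cons 920 n187 .nil)
noncomputable def n2955 : Strat := .move 919 n2953 (.cons 841 n2954 .nil)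
noncomputable def n2956 : Strat := .move 881 n2950 (.cons 922 n2952 (.cons 1003 n2955 .nil))
noncomputable def n2957 : Strat := .move 962 n2945 (.cons 921 n2956 .nil)
noncomputable def n2958 : Strat := .win 922 0 878
noncomputable def n2959 : Strat := .move 923 n632 (.cons 924 n2958 .nil)
noncomputable def n2960 : Strat := .move 882 n187 (.cons 883 n2959 .nil)
noncomputable def n2961 : Strat := .move 919 n490 (.cons 918 n2670 .nil)
noncomputable def n2962 : Strat := .move 881 n2960 (.cons 882 n2961 .nil)
noncomputable def n2963 : Strat := .move 878 n195 (.cons 877 n2962 .nil)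
noncomputable def n2964 : Strat := .move 919 n1675 (.cons 960 n2902 .nil)
noncomputable def n2965 : Strat := .move 921 n611 (.cons 962 n2964 .nil)
noncomputable def n2966 : Strat := .move 881 n359 (.cons 918 n2144 .nil)
noncomputable def n2967 : Strat := .move 919 n1675 (.cons 960 n2966 .nil)
noncomputable def n2968 : Strat := .move 921 n611 (.cons 962 n2967 .nil)
noncomputable def n2969 : Strat := .move 961 n495 (.cons 1002 n2183 .nil)
noncomputable def n2970 : Strat := .move 962 n2945 (.cons 921 n2951 .nil)
noncomputable def n2971 : Strat := .move 920 n2965 (.cons 917 n2968 (.cons 921 n2969 (.cons 919 n2970 .nil)))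
noncomputable def n2972 : Strat := .move 880 n2944 (.cons 921 n688 (.cons 877 n2957 (.cons 841 n2963 (.cons 878 n2971 .nil))))
noncomputable def n2973 : Strat := .move 841 n626 (.cons 878 n624 .nil)
noncomputable def n2974 : Strat := .move 800 n436 (.cons 837 n2973 .nil)
noncomputable def n2975 : Strat := .move 919 n490 (.cons 918 n1455 .nil)
noncomputable def n2976 : Strat := .move 880 n1080 (.cons 836 n2975 .nil)
noncomputable def n2977 : Strat := .move 881 n1081 (.cons 882 n2976 .nil)
noncomputable def n2978 : Strat := .move 878 n1453 (.cons 877 n2977 .nil)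
noncomputable def n2979 : Strat := .move 837 n1090 (.cons 800 n2978 .nil)
noncomputable def n2980 : Strat := .move 839 n2396 (.cons 837 n2972 (.cons 877 n2974 (.cons 878 n2915 (.cons 841 n2979 .nil))))
noncomputable def n2981 : Strat := .move 837 n1090 (.cons 800 n1453 .nil)
noncomputable def n2982 : Strat := .move 839 n488 (.cons 841 n2981 .nil)
noncomputable def n2983 : Strat := .move 878 n1427 (.cons 919 n2982 .nil)
noncomputable def n2984 : Strat := .move 756 n2941 (.cons 878 n2288 (.cons 715 n2983 .nil))
noncomputable def n2985 : Strat := .move 839 n488 (.cons 841 n635 .nil)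
noncomputable def n2986 : Strat := .move 878 n1427 (.cons 919 n2985 .nil)
noncomputable def n2987 : Strat := .move 880 n634 (.cons 921 n2986 .nil)
noncomputable def n2988 : Strat := .move 839 n488 (.cons 841 n2568 .nil)
noncomputable def n2989 : Strat := .move 878 n1427 (.cons 919 n2988 .nil)
noncomputable def n2990 : Strat := .move 839 n635 (.cons 715 n688 .nil)
noncomputable def n2991 : Strat := .move 880 n634 (.cons 921 n2990 .nil)
noncomputable def n2992 : Strat := .move 715 n2192 (.cons 839 n2277 .nil)
noncomputable def n2993 : Strat := .move 880 n634 (.cons 921 n2992 .nil)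
noncomputable def n2994 : Strat := .move 756 n2987 (.cons 880 n2989 (.cons 919 n2991 (.cons 839 n2733 (.cons 878 n2993 .nil))))
noncomputable def n2995 : Strat := .move 881 n1081 (.cons 882 n1080 .nil)
noncomputable def n2996 : Strat := .move 880 n2995 (.cons 882 n2068 .nil)
noncomputable def n2997 : Strat := .move 837 n1090 (.cons 800 n2996 .nil)
noncomputable def n2998 : Strat := .move 880 n195 (.cons 877 n2068 .nil)
noncomputable def n2999 : Strat := .move 878 n488 (.cons 841 n2998 .nil)
noncomputable def n3000 : Strat := .move 839 n2396 (.cons 878 n2915 (.cons 841 n2997 (.cons 837 n2999 .nil)))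
noncomputable def n3001 : Strat := .move 839 n1090 (.cons 800 n1453 .nil)
noncomputable def n3002 : Strat := .move 837 n1468 (.cons 715 n3001 .nil)
noncomputable def n3003 : Strat := .move 878 n1427 (.cons 919 n3002 .nil)
noncomputable def n3004 : Strat := .win 839 5 836
noncomputable def n3005 : Strat := .move 877 n3004 (.cons 839 n2881 .nil)
noncomputable def n3006 : Strat := .move 878 n1427 (.cons 919 n3005 .nil)
noncomputable def n3007 : Strat := .move 880 n634 (.cons 921 n3006 .nil)
noncomputable def n3008 : Strat := .move 756 n2933 (.cons 880 n3003 (.cons 878 n2993 (.cons 715 n3007 (.cons 839 n2279 .nil))))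
noncomputable def n3009 : Strat := .move 756 n634 (.cons 921 n2937 .nil)
noncomputable def n3010 : Strat := .move 962 n2213 (.cons 839 n1685 .nil)
noncomputable def n3011 : Strat := .move 883 n612 (.cons 920 n2281 .nil)
noncomputable def n3012 : Strat := .move 882 n502 (.cons 837 n3011 .nil)
noncomputable def n3013 : Strat := .move 920 n673 (.cons 883 n193 .nil)
noncomputable def n3014 : Strat := .move 964 n885 (.cons 841 n884 .nil)
noncomputable def n3015 : Strat := .move 923 n632 (.cons 924 n3014 .nil)
noncomputable def n3016 : Strat := .move 882 n3011 (.cons 839 n3013 (.cons 920 n2283 (.cons 883 n3015 .nil)))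
noncomputable def n3017 : Strat := .move 923 n35 (.cons 964 n71 .nil)
noncomputable def n3018 : Strat := .move 800 n46 (.cons 841 n45 .nil)
noncomputable def n3019 : Strat := .move 964 n48 (.cons 1005 n47 .nil)
noncomputable def n3020 : Strat := .move 963 n3018 (.cons 759 n3019 .nil)
noncomputable def n3021 : Strat := .move 1004 n353 (.cons 1045 n352 .nil)
noncomputable def n3022 : Strat := .move 963 n3018 (.cons 759 n3021 .nil)
noncomputable def n3023 : Strat := .move 922 n3017 (.cons 924 n3020 (.cons 964 n3022 .nil))
noncomputable def n3024 : Strat := .move 882 n502 (.cons 837 n3013 .nil)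
noncomputable def n3025 : Strat := .move 881 n3012 (.cons 883 n1567 (.cons 837 n3016 (.cons 882 n3023 (.cons 839 n3024 .nil))))
noncomputable def n3026 : Strat := .move 921 n2214 (.cons 839 n2865 (.cons 920 n3010 (.cons 962 n3025 .nil)))
noncomputable def n3027 : Strat := .move 839 n187 (.cons 883 n3015 .nil)
noncomputable def n3028 : Strat := .move 882 n502 (.cons 837 n3027 .nil)
noncomputable def n3029 : Strat := .move 839 n187 (.cons 883 n2267 .nil)
noncomputable def n3030 : Strat := .move 882 n502 (.cons 837 n3029 .nil)
noncomputable def n3031 : Strat := .move 964 n2265 (.cons 1005 n884 .nil)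
noncomputable def n3032 : Strat := .move 923 n632 (.cons 924 n3031 .nil)
noncomputable def n3033 : Strat := .move 839 n187 (.cons 883 n3032 .nil)
noncomputable def n3034 : Strat := .move 882 n502 (.cons 837 n3033 .nil)
noncomputable def n3035 : Strat := .move 839 n1090 (.cons 800 n1080 .nil)
noncomputable def n3036 : Strat := .move 837 n1563 (.cons 882 n3035 .nil)
noncomputable def n3037 : Strat := .move 882 n502 (.cons 837 n3015 .nil)
noncomputable def n3038 : Strat := .win 882 0 879
noncomputable def n3039 : Strat := .move 924 n74 (.cons 925 n3038 .nil)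
noncomputable def n3040 : Strat := .move 923 n35 (.cons 964 n3039 .nil)
noncomputable def n3041 : Strat := .move 963 n46 (.cons 841 n3019 .nil)
noncomputable def n3042 : Strat := .move 800 n45 (.cons 759 n3041 .nil)
noncomputable def n3043 : Strat := .move 1004 n352 (.cons 839 n249 .nil)
noncomputable def n3044 : Strat := .move 963 n3018 (.cons 759 n3043 .nil)
noncomputable def n3045 : Strat := .move 922 n3040 (.cons 925 n3042 (.cons 923 n3044 .nil))
noncomputable def n3046 : Strat := .move 839 n436 (.cons 837 n2200 .nil)
noncomputable def n3047 : Strat := .move 841 n624 (.cons 801 n223 .nil)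
noncomputable def n3048 : Strat := .move 922 n45 (.cons 759 n3047 .nil)
noncomputable def n3049 : Strat := .move 839 n436 (.cons 837 n3048 .nil)
noncomputable def n3050 : Strat := .move 922 n45 (.cons 759 n3041 .nil)
noncomputable def n3051 : Strat := .move 839 n947 (.cons 1004 n436 .nil)
noncomputable def n3052 : Strat := .move 963 n3019 (.cons 923 n3051 .nil)
noncomputable def n3053 : Strat := .move 922 n45 (.cons 759 n3052 .nil)
noncomputable def n3054 : Strat := .move 800 n3046 (.cons 802 n3049 (.cons 839 n3050 (.cons 841 n3053 .nil)))
noncomputable def n3055 : Strat := .move 881 n3028 (.cons 922 n3030 (.cons 841 n3034 (.cons 923 n3036 (.cons 839 n3037 (.cons 837 n3045 (.cons 882 n3054 .nil))))))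
noncomputable def n3056 : Strat := .move 880 n3009 (.cons 756 n3026 (.cons 839 n2866 (.cons 921 n3055 .nil)))
noncomputable def n3057 : Strat := .move 879 n2943 (.cons 756 n2980 (.cons 839 n2734 (.cons 880 n2984 (.cons 837 n2994 (.cons 919 n3000 (.cons 841 n3008 (.cons 878 n3056 .nil)))))))
noncomputable def n3058 : Strat := .move 800 n436 (.cons 837 n624 .nil)
noncomputable def n3059 : Strat := .win 881 0 837
noncomputable def n3060 : Strat := .move 837 n1090 (.cons 800 n3059 .nil)
noncomputable def n3061 : Strat := .move 882 n542 (.cons 883 n3060 .nil)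
noncomputable def n3062 : Strat := .win 879 4 837
noncomputable def n3063 : Strat := .move 878 n1453 (.cons 877 n3062 .nil)
noncomputable def n3064 : Strat := .move 837 n3059 (.cons 881 n3063 .nil)
noncomputable def n3065 : Strat := .move 882 n542 (.cons 883 n3064 .nil)
noncomputable def n3066 : Strat := .move 841 n3058 (.cons 801 n3061 (.cons 800 n3065 (.cons 837 n2927 .nil)))
noncomputable def n3067 : Strat := .win 878 4 836
noncomputable def n3068 : Strat := .win 876 4 835
noncomputable def n3069 : Strat := .move 881 n2117 (.cons 880 n1081 .nil)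
noncomputable def n3070 : Strat := .move 836 n3068 (.cons 876 n3069 .nil)
noncomputable def n3071 : Strat := .move 877 n3067 (.cons 878 n3070 .nil)
noncomputable def n3072 : Strat := .move 796 n2501 (.cons 795 n3071 .nil)
noncomputable def n3073 : Strat := .move 837 n1090 (.cons 800 n3072 .nil)
noncomputable def n3074 : Strat := .move 839 n2654 (.cons 837 n2928 (.cons 796 n3066 (.cons 800 n2661 (.cons 841 n3073 .nil))))
noncomputable def n3075 : Strat := .move 839 n2496 (.cons 841 n2501 .nil)
noncomputable def n3076 : Strat := .move 879 n1466 (.cons 714 n1750 .nil)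
noncomputable def n3077 : Strat := .move 755 n3076 (.cons 920 n2516 (.cons 879 n2518 (.cons 714 n2524 .nil)))
noncomputable def n3078 : Strat := .move 878 n1729 (.cons 960 n1470 (.cons 756 n2533 (.cons 919 n3077 .nil)))
noncomputable def n3079 : Strat := .move 796 n3075 (.cons 839 n3078 .nil)
noncomputable def n3080 : Strat := .move 879 n488 (.cons 841 n2975 .nil)
noncomputable def n3081 : Strat := .move 880 n1080 (.cons 836 n3080 .nil)
noncomputable def n3082 : Strat := .move 881 n1081 (.cons 882 n3081 .nil)
noncomputable def n3083 : Strat := .move 878 n1453 (.cons 877 n3082 .nil)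
noncomputable def n3084 : Strat := .move 877 n3067 (.cons 878 n3068 .nil)
noncomputable def n3085 : Strat := .move 836 n2117 (.cons 880 n3084 .nil)
noncomputable def n3086 : Strat := .move 881 n1081 (.cons 882 n3085 .nil)
noncomputable def n3087 : Strat := .move 839 n2659 (.cons 877 n2512 (.cons 756 n3083 (.cons 879 n3086 .nil)))
noncomputable def n3088 : Strat := .move 839 n2653 (.cons 796 n3086 .nil)
noncomputable def n3089 : Strat := .move 919 n1455 (.cons 960 n2216 .nil)
noncomputable def n3090 : Strat := .move 879 n488 (.cons 841 n3089 .nil)
noncomputable def n3091 : Strat := .move 878 n1453 (.cons 877 n3090 .nil)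
noncomputable def n3092 : Strat := .move 839 n2653 (.cons 796 n3091 (.cons 841 n2916 .nil))
noncomputable def n3093 : Strat := .move 839 n2653 (.cons 796 n2512 .nil)
noncomputable def n3094 : Strat := .move 796 n2501 (.cons 795 n2509 .nil)
noncomputable def n3095 : Strat := .win 879 1 755
noncomputable def n3096 : Strat := .move 919 n1455 (.cons 960 n3095 .nil)
noncomputable def n3097 : Strat := .move 756 n1468 (.cons 715 n3096 .nil)
noncomputable def n3098 : Strat := .move 878 n1453 (.cons 877 n3097 .nil)
noncomputable def n3099 : Strat := .move 796 n2501 (.cons 795 n2512 .nil)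
noncomputable def n3100 : Strat := .move 839 n2656 (.cons 878 n3094 (.cons 796 n3098 (.cons 877 n3099 .nil)))
noncomputable def n3101 : Strat := .move 878 n1468 (.cons 715 n3096 .nil)
noncomputable def n3102 : Strat := .move 673 n1788 (.cons 714 n1789 .nil)
noncomputable def n3103 : Strat := .move 674 n2890 (.cons 796 n3102 .nil)
noncomputable def n3104 : Strat := .move 715 n1663 (.cons 878 n3103 .nil)
noncomputable def n3105 : Strat := .move 715 n1631 (.cons 674 n2277 .nil)
noncomputable def n3106 : Strat := .move 796 n1465 (.cons 920 n3105 .nil)
noncomputable def n3107 : Strat := .move 755 n1552 (.cons 714 n3106 .nil)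
noncomputable def n3108 : Strat := .move 920 n1939 (.cons 961 n2559 .nil)
noncomputable def n3109 : Strat := .move 796 n2053 (.cons 674 n3108 .nil)
noncomputable def n3110 : Strat := .move 716 n2052 (.cons 757 n3109 .nil)
noncomputable def n3111 : Strat := .move 880 n634 (.cons 921 n3110 .nil)
noncomputable def n3112 : Strat := .move 880 n634 (.cons 921 n2745 .nil)
noncomputable def n3113 : Strat := .win 796 7 796
noncomputable def n3114 : Strat := .move 961 n2181 (.cons 1001 n3113 .nil)
noncomputable def n3115 : Strat := .move 960 n2182 (.cons 919 n3114 .nil)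
noncomputable def n3116 : Strat := .move 920 n1678 (.cons 962 n3115 .nil)
noncomputable def n3117 : Strat := .move 921 n1679 (.cons 880 n3116 .nil)
noncomputable def n3118 : Strat := .move 879 n3107 (.cons 714 n3111 (.cons 796 n3112 (.cons 715 n2764 (.cons 755 n3117 .nil))))
noncomputable def n3119 : Strat := .move 879 n2762 (.cons 878 n2764 (.cons 880 n2772 (.cons 921 n2775 .nil)))
noncomputable def n3120 : Strat := .move 756 n3101 (.cons 879 n3104 (.cons 878 n3118 (.cons 715 n3119 .nil)))
noncomputable def n3121 : Strat := .move 837 n3079 (.cons 796 n3087 (.cons 879 n3088 (.cons 880 n3092 (.cons 877 n3093 (.cons 841 n3100 (.cons 839 n3120 .nil))))))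
noncomputable def n3122 : Strat := .move 839 n1090 (.cons 800 n2656 .nil)
noncomputable def n3123 : Strat := .move 839 n1090 (.cons 800 n3094 .nil)
noncomputable def n3124 : Strat := .move 839 n1090 (.cons 800 n3098 .nil)
noncomputable def n3125 : Strat := .move 839 n1090 (.cons 800 n3099 .nil)
noncomputable def n3126 : Strat := .move 879 n2764 (.cons 714 n3111 (.cons 920 n2745 (.cons 755 n3117 .nil)))
noncomputable def n3127 : Strat := .move 756 n3101 (.cons 715 n3119 (.cons 878 n3126 (.cons 919 n3104 .nil)))
noncomputable def n3128 : Strat := .move 837 n3122 (.cons 800 n3100 (.cons 878 n3123 (.cons 796 n3124 (.cons 877 n3125 (.cons 839 n3127 .nil)))))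
noncomputable def n3129 : Strat := .move 837 n1090 (.cons 800 n3091 .nil)
noncomputable def n3130 : Strat := .move 839 n2654 (.cons 841 n2917 (.cons 796 n3129 (.cons 800 n2661 (.cons 837 n2928 .nil))))
noncomputable def n3131 : Strat := .move 837 n1090 (.cons 800 n3099 .nil)
noncomputable def n3132 : Strat := .move 837 n2501 (.cons 795 n2512 .nil)
noncomputable def n3133 : Strat := .move 796 n2496 (.cons 841 n3132 .nil)
noncomputable def n3134 : Strat := .move 839 n2654 (.cons 841 n3131 (.cons 796 n2915 (.cons 800 n3133 (.cons 837 n2928 .nil))))
noncomputable def n3135 : Strat := .move 839 n631 (.cons 796 n624 .nil)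
noncomputable def n3136 : Strat := .move 841 n223 (.cons 963 n3135 .nil)
noncomputable def n3137 : Strat := .move 800 n45 (.cons 759 n3136 .nil)
noncomputable def n3138 : Strat := .move 880 n72 (.cons 878 n1559 .nil)
noncomputable def n3139 : Strat := .win 880 0 878
noncomputable def n3140 : Strat := .move 878 n2857 (.cons 920 n3139 .nil)
noncomputable def n3141 : Strat := .move 880 n71 (.cons 924 n1559 .nil)
noncomputable def n3142 : Strat := .move 920 n281 (.cons 878 n70 .nil)
noncomputable def n3143 : Strat := .move 879 n3138 (.cons 756 n3140 (.cons 878 n3141 (.cons 880 n3142 .nil)))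
noncomputable def n3144 : Strat := .move 923 n35 (.cons 964 n3143 .nil)
noncomputable def n3145 : Strat := .move 921 n16 (.cons 962 n3144 .nil)
noncomputable def n3146 : Strat := .move 881 n3137 (.cons 801 n3145 .nil)
noncomputable def n3147 : Strat := .move 923 n35 (.cons 964 n3022 .nil)
noncomputable def n3148 : Strat := .move 839 n624 (.cons 801 n631 .nil)
noncomputable def n3149 : Strat := .move 841 n223 (.cons 963 n3148 .nil)
noncomputable def n3150 : Strat := .move 800 n45 (.cons 759 n3149 .nil)
noncomputable def n3151 : Strat := .move 880 n1046 (.cons 924 n3147 (.cons 923 n3150 .nil))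
noncomputable def n3152 : Strat := .move 921 n16 (.cons 962 n3151 .nil)
noncomputable def n3153 : Strat := .move 920 n992 (.cons 878 n70 .nil)
noncomputable def n3154 : Strat := .move 924 n977 (.cons 879 n979 (.cons 925 n3153 (.cons 880 n294 .nil)))
noncomputable def n3155 : Strat := .move 923 n35 (.cons 964 n3154 .nil)
noncomputable def n3156 : Strat := .move 921 n16 (.cons 962 n3155 .nil)
noncomputable def n3157 : Strat := .move 881 n3152 (.cons 841 n3156 (.cons 921 n3137 .nil))
noncomputable def n3158 : Strat := .move 879 n72 (.cons 878 n1559 .nil)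
noncomputable def n3159 : Strat := .move 879 n71 (.cons 924 n1559 .nil)
noncomputable def n3160 : Strat := .move 882 n612 (.cons 920 n239 .nil)
noncomputable def n3161 : Strat := .move 882 n2281 (.cons 839 n612 .nil)
noncomputable def n3162 : Strat := .move 924 n283 (.cons 884 n74 .nil)
noncomputable def n3163 : Strat := .move 883 n3160 (.cons 884 n3161 (.cons 920 n3162 .nil))
noncomputable def n3164 : Strat := .move 880 n3158 (.cons 756 n73 (.cons 878 n3159 (.cons 879 n3163 .nil)))
noncomputable def n3165 : Strat := .move 923 n35 (.cons 964 n3164 .nil)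
noncomputable def n3166 : Strat := .move 921 n16 (.cons 962 n3165 .nil)
noncomputable def n3167 : Strat := .move 880 n353 (.cons 1045 n352 .nil)
noncomputable def n3168 : Strat := .move 1004 n427 (.cons 964 n3167 .nil)
noncomputable def n3169 : Strat := .move 963 n46 (.cons 841 n3168 .nil)
noncomputable def n3170 : Strat := .move 800 n45 (.cons 759 n3169 .nil)
noncomputable def n3171 : Strat := .move 921 n16 (.cons 962 n3170 .nil)
noncomputable def n3172 : Strat := .move 963 n62 (.cons 1003 n949 .nil)
noncomputable def n3173 : Strat := .move 962 n61 (.cons 921 n3172 .nil)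
noncomputable def n3174 : Strat := .move 881 n3166 (.cons 921 n51 (.cons 923 n3171 (.cons 964 n3173 .nil)))
noncomputable def n3175 : Strat := .win 879 6 797
noncomputable def n3176 : Strat := .win 924 4 920
noncomputable def n3177 : Strat := .move 961 n78 (.cons 960 n3176 .nil)
noncomputable def n3178 : Strat := .win 965 0 920
noncomputable def n3179 : Strat := .move 882 n885 (.cons 841 n68 .nil)
noncomputable def n3180 : Strat := .move 964 n3178 (.cons 965 n3179 .nil)
noncomputable def n3181 : Strat := .move 923 n3177 (.cons 924 n3180 .nil)
noncomputable def n3182 : Strat := .move 920 n3175 (.cons 879 n3181 .nil)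
noncomputable def n3183 : Strat := .move 962 n2727 (.cons 881 n3182 .nil)
noncomputable def n3184 : Strat := .move 962 n3175 (.cons 879 n3181 .nil)
noncomputable def n3185 : Strat := .move 960 n361 (.cons 961 n2182 .nil)
noncomputable def n3186 : Strat := .move 879 n281 (.cons 878 n3185 .nil)
noncomputable def n3187 : Strat := .move 964 n3178 (.cons 965 n2843 .nil)
noncomputable def n3188 : Strat := .move 919 n1675 (.cons 960 n3187 .nil)
noncomputable def n3189 : Strat := .move 879 n281 (.cons 878 n3188 .nil)
noncomputable def n3190 : Strat := .move 923 n3186 (.cons 961 n3189 (.cons 879 n3180 .nil))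
noncomputable def n3191 : Strat := .move 923 n281 (.cons 878 n3188 .nil)
noncomputable def n3192 : Strat := .move 879 n1678 (.cons 962 n3191 .nil)
noncomputable def n3193 : Strat := .move 919 n299 (.cons 877 n1675 .nil)
noncomputable def n3194 : Strat := .move 878 n2817 (.cons 923 n3193 .nil)
noncomputable def n3195 : Strat := .move 879 n1678 (.cons 962 n3194 .nil)
noncomputable def n3196 : Strat := .move 962 n3177 (.cons 924 n3180 .nil)
noncomputable def n3197 : Strat := .win 962 4 920
noncomputable def n3198 : Strat := .move 924 n3197 (.cons 962 n285 .nil)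
noncomputable def n3199 : Strat := .move 961 n78 (.cons 960 n3198 .nil)
noncomputable def n3200 : Strat := .move 919 n360 (.cons 959 n3187 .nil)
noncomputable def n3201 : Strat := .move 960 n361 (.cons 961 n3200 .nil)
noncomputable def n3202 : Strat := .move 923 n3196 (.cons 962 n3180 (.cons 964 n3199 (.cons 882 n3201 .nil)))
noncomputable def n3203 : Strat := .move 878 n2216 (.cons 756 n299 .nil)
noncomputable def n3204 : Strat := .move 919 n1675 (.cons 960 n3203 .nil)
noncomputable def n3205 : Strat := .move 879 n1678 (.cons 962 n3204 .nil)
noncomputable def n3206 : Strat := .win 919 2 877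
noncomputable def n3207 : Strat := .move 877 n2804 (.cons 876 n3206 .nil)
noncomputable def n3208 : Strat := .move 878 n2817 (.cons 923 n3207 .nil)
noncomputable def n3209 : Strat := .move 879 n1678 (.cons 962 n3208 .nil)
noncomputable def n3210 : Strat := .move 920 n3184 (.cons 962 n3190 (.cons 961 n3192 (.cons 964 n3195 (.cons 879 n3202 (.cons 923 n3205 (.cons 960 n3209 .nil))))))
noncomputable def n3211 : Strat := .move 881 n16 (.cons 962 n3150 .nil)
noncomputable def n3212 : Strat := .win 964 0 919
noncomputable def n3213 : Strat := .win 918 0 918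
noncomputable def n3214 : Strat := .move 963 n3212 (.cons 964 n3213 .nil)
noncomputable def n3215 : Strat := .move 923 n3187 (.cons 963 n3177 .nil)
noncomputable def n3216 : Strat := .win 963 0 918
noncomputable def n3217 : Strat := .move 877 n2838 (.cons 876 n2837 .nil)
noncomputable def n3218 : Strat := .move 918 n3216 (.cons 963 n3217 .nil)
noncomputable def n3219 : Strat := .win 958 4 917
noncomputable def n3220 : Strat := .win 960 4 918
noncomputable def n3221 : Strat := .move 959 n3219 (.cons 958 n3220 .nil)
noncomputable def n3222 : Strat := .move 918 n3217 (.cons 878 n3221 .nil)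
noncomputable def n3223 : Strat := .move 919 n3214 (.cons 918 n3215 (.cons 964 n3218 (.cons 963 n3222 .nil)))
noncomputable def n3224 : Strat := .move 920 n3175 (.cons 879 n3223 .nil)
noncomputable def n3225 : Strat := .move 962 n2727 (.cons 881 n3224 .nil)
noncomputable def n3226 : Strat := .move 881 n223 (.cons 963 n45 .nil)
noncomputable def n3227 : Strat := .move 800 n624 (.cons 801 n3226 .nil)
noncomputable def n3228 : Strat := .move 839 n631 (.cons 796 n3227 .nil)
noncomputable def n3229 : Strat := .move 800 n624 (.cons 801 n2923 .nil)
noncomputable def n3230 : Strat := .move 882 n542 (.cons 883 n3229 .nil)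
noncomputable def n3231 : Strat := .move 839 n631 (.cons 796 n3230 .nil)
noncomputable def n3232 : Strat := .win 881 6 799
noncomputable def n3233 : Strat := .win 882 7 799
noncomputable def n3234 : Strat := .move 964 n3232 (.cons 881 n3233 .nil)
noncomputable def n3235 : Strat := .win 924 5 880
noncomputable def n3236 : Strat := .move 884 n526 (.cons 885 n3235 .nil)
noncomputable def n3237 : Strat := .move 883 n240 (.cons 920 n3236 .nil)
noncomputable def n3238 : Strat := .move 882 n625 (.cons 964 n3237 .nil)
noncomputable def n3239 : Strat := .win 881 3 840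
noncomputable def n3240 : Strat := .move 1004 n246 (.cons 1045 n3239 .nil)
noncomputable def n3241 : Strat := .move 963 n1022 (.cons 800 n3240 .nil)
noncomputable def n3242 : Strat := .move 882 n3237 (.cons 883 n3241 .nil)
noncomputable def n3243 : Strat := .move 881 n35 (.cons 964 n2854 .nil)
noncomputable def n3244 : Strat := .move 923 n3234 (.cons 881 n3238 (.cons 964 n3242 (.cons 882 n3243 .nil)))
noncomputable def n3245 : Strat := .move 839 n542 (.cons 883 n631 .nil)
noncomputable def n3246 : Strat := .move 882 n625 (.cons 964 n3245 .nil)
noncomputable def n3247 : Strat := .move 960 n2182 (.cons 919 n361 .nil)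
noncomputable def n3248 : Strat := .move 879 n281 (.cons 878 n3247 .nil)
noncomputable def n3249 : Strat := .win 881 5 878
noncomputable def n3250 : Strat := .move 882 n3249 (.cons 881 n68 .nil)
noncomputable def n3251 : Strat := .move 919 n362 (.cons 961 n3250 .nil)
noncomputable def n3252 : Strat := .win 839 2 796
noncomputable def n3253 : Strat := .move 796 n2559 (.cons 755 n3252 .nil)
noncomputable def n3254 : Strat := .move 879 n281 (.cons 878 n3253 .nil)
noncomputable def n3255 : Strat := .move 920 n3248 (.cons 879 n3251 (.cons 961 n3254 .nil))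
noncomputable def n3256 : Strat := .win 920 0 920
noncomputable def n3257 : Strat := .win 963 2 921
noncomputable def n3258 : Strat := .win 924 0 921
noncomputable def n3259 : Strat := .move 966 n3257 (.cons 963 n3258 .nil)
noncomputable def n3260 : Strat := .move 965 n3256 (.cons 920 n3259 .nil)
noncomputable def n3261 : Strat := .move 964 n3232 (.cons 881 n3260 .nil)
noncomputable def n3262 : Strat := .move 923 n3234 (.cons 881 n3246 (.cons 964 n3255 (.cons 882 n3261 .nil)))
noncomputable def n3263 : Strat := .move 882 n625 (.cons 964 n542 .nil)
noncomputable def n3264 : Strat := .move 839 n631 (.cons 796 n3263 .nil)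
noncomputable def n3265 : Strat := .move 881 n35 (.cons 964 n45 .nil)
noncomputable def n3266 : Strat := .move 800 n624 (.cons 801 n3265 .nil)
noncomputable def n3267 : Strat := .move 839 n631 (.cons 796 n3266 .nil)
noncomputable def n3268 : Strat := .move 923 n3234 (.cons 881 n3264 (.cons 964 n3255 (.cons 882 n3267 .nil)))
noncomputable def n3269 : Strat := .move 841 n3228 (.cons 759 n3231 (.cons 839 n3244 (.cons 800 n3262 (.cons 963 n3268 .nil))))
noncomputable def n3270 : Strat := .move 921 n3183 (.cons 881 n3210 (.cons 923 n3211 (.cons 841 n3225 (.cons 962 n3269 .nil))))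
noncomputable def n3271 : Strat := .move 881 n16 (.cons 962 n3144 .nil)
noncomputable def n3272 : Strat := .move 962 n2213 (.cons 839 n1686 .nil)
noncomputable def n3273 : Strat := .move 880 n1559 (.cons 756 n3272 .nil)
noncomputable def n3274 : Strat := .move 880 n1559 (.cons 756 n1685 .nil)
noncomputable def n3275 : Strat := .move 962 n1686 (.cons 920 n3274 .nil)
noncomputable def n3276 : Strat := .move 877 n2804 (.cons 876 n2822 .nil)
noncomputable def n3277 : Strat := .move 878 n2817 (.cons 923 n3276 .nil)
noncomputable def n3278 : Strat := .move 920 n1678 (.cons 962 n3277 .nil)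
noncomputable def n3279 : Strat := .move 878 n2817 (.cons 923 n2224 .nil)
noncomputable def n3280 : Strat := .move 920 n1678 (.cons 962 n3279 .nil)
noncomputable def n3281 : Strat := .move 880 n1559 (.cons 756 n3010 .nil)
noncomputable def n3282 : Strat := .move 920 n2817 (.cons 923 n2773 .nil)
noncomputable def n3283 : Strat := .move 878 n1427 (.cons 919 n3282 .nil)
noncomputable def n3284 : Strat := .move 756 n1679 (.cons 880 n3283 .nil)
noncomputable def n3285 : Strat := .move 879 n3273 (.cons 839 n3275 (.cons 756 n3278 (.cons 880 n3280 (.cons 920 n3281 (.cons 962 n3284 .nil)))))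
noncomputable def n3286 : Strat := .move 879 n1559 (.cons 756 n1685 .nil)
noncomputable def n3287 : Strat := .move 880 n2213 (.cons 839 n3286 .nil)
noncomputable def n3288 : Strat := .move 962 n2727 (.cons 881 n3287 .nil)
noncomputable def n3289 : Strat := .win 880 3 798
noncomputable def n3290 : Strat := .move 879 n626 (.cons 878 n1686 .nil)
noncomputable def n3291 : Strat := .move 841 n631 (.cons 796 n3290 .nil)
noncomputable def n3292 : Strat := .move 839 n3289 (.cons 880 n3291 .nil)
noncomputable def n3293 : Strat := .move 962 n2727 (.cons 881 n3292 .nil)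
noncomputable def n3294 : Strat := .move 841 n631 (.cons 796 n3263 .nil)
noncomputable def n3295 : Strat := .win 920 4 919
noncomputable def n3296 : Strat := .win 959 5 918
noncomputable def n3297 : Strat := .move 960 n3295 (.cons 920 n3296 .nil)
noncomputable def n3298 : Strat := .move 961 n3176 (.cons 924 n3297 .nil)
noncomputable def n3299 : Strat := .move 923 n3294 (.cons 841 n3298 .nil)
noncomputable def n3300 : Strat := .move 839 n3289 (.cons 880 n3299 .nil)
noncomputable def n3301 : Strat := .move 962 n2727 (.cons 881 n3300 .nil)
noncomputable def n3302 : Strat := .move 964 n885 (.cons 841 n3178 .nil)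
noncomputable def n3303 : Strat := .move 882 n68 (.cons 883 n3302 .nil)
noncomputable def n3304 : Strat := .move 923 n3177 (.cons 924 n3303 .nil)
noncomputable def n3305 : Strat := .move 920 n3175 (.cons 879 n3304 .nil)
noncomputable def n3306 : Strat := .move 962 n2727 (.cons 881 n3305 .nil)
noncomputable def n3307 : Strat := .move 881 n35 (.cons 964 n3143 .nil)
noncomputable def n3308 : Strat := .move 881 n3138 (.cons 756 n3140 (.cons 878 n3141 (.cons 880 n3142 .nil)))
noncomputable def n3309 : Strat := .move 878 n3139 (.cons 880 n2857 .nil)
noncomputable def n3310 : Strat := .move 920 n281 (.cons 878 n3247 .nil)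
noncomputable def n3311 : Strat := .move 881 n3141 (.cons 756 n3309 (.cons 880 n3310 .nil))
noncomputable def n3312 : Strat := .move 880 n1559 (.cons 756 n71 .nil)
noncomputable def n3313 : Strat := .move 879 n3308 (.cons 882 n3311 (.cons 919 n3312 (.cons 880 n3310 .nil)))
noncomputable def n3314 : Strat := .move 879 n281 (.cons 878 n3141 .nil)
noncomputable def n3315 : Strat := .move 920 n3314 (.cons 880 n3180 .nil)
noncomputable def n3316 : Strat := .move 879 n3141 (.cons 756 n3309 (.cons 880 n3310 .nil))
noncomputable def n3317 : Strat := .move 881 n35 (.cons 964 n3316 .nil)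
noncomputable def n3318 : Strat := .move 920 n3178 (.cons 965 n3179 .nil)
noncomputable def n3319 : Strat := .move 964 n3232 (.cons 881 n3318 .nil)
noncomputable def n3320 : Strat := .move 839 n626 (.cons 878 n631 .nil)
noncomputable def n3321 : Strat := .move 879 n3141 (.cons 756 n3320 .nil)
noncomputable def n3322 : Strat := .move 841 n3233 (.cons 882 n3321 .nil)
noncomputable def n3323 : Strat := .move 964 n3232 (.cons 881 n3322 .nil)
noncomputable def n3324 : Strat := .move 923 n3307 (.cons 964 n3313 (.cons 881 n3315 (.cons 882 n3317 (.cons 880 n3319 (.cons 920 n3323 .nil)))))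
noncomputable def n3325 : Strat := .move 921 n3271 (.cons 881 n3285 (.cons 920 n3288 (.cons 756 n3293 (.cons 879 n3301 (.cons 880 n3306 (.cons 962 n3324 .nil))))))
noncomputable def n3326 : Strat := .move 963 n62 (.cons 1003 n49 .nil)
noncomputable def n3327 : Strat := .move 962 n61 (.cons 921 n3326 .nil)
noncomputable def n3328 : Strat := .move 923 n35 (.cons 964 n3316 .nil)
noncomputable def n3329 : Strat := .move 921 n16 (.cons 962 n3328 .nil)
noncomputable def n3330 : Strat := .move 881 n3327 (.cons 1005 n3173 (.cons 962 n3137 (.cons 963 n3329 .nil)))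
noncomputable def n3331 : Strat := .move 963 n48 (.cons 1005 n3018 .nil)
noncomputable def n3332 : Strat := .move 964 n47 (.cons 923 n3331 .nil)
noncomputable def n3333 : Strat := .move 881 n16 (.cons 962 n3332 .nil)
noncomputable def n3334 : Strat := .move 756 n1679 (.cons 880 n2775 .nil)
noncomputable def n3335 : Strat := .move 878 n299 (.cons 877 n2817 .nil)
noncomputable def n3336 : Strat := .move 919 n1675 (.cons 960 n3335 .nil)
noncomputable def n3337 : Strat := .move 918 n3217 (.cons 878 n2841 .nil)
noncomputable def n3338 : Strat := .move 919 n1675 (.cons 960 n3337 .nil)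
noncomputable def n3339 : Strat := .win 877 0 877
noncomputable def n3340 : Strat := .move 878 n2817 (.cons 923 n3339 .nil)
noncomputable def n3341 : Strat := .move 964 n3178 (.cons 965 n3232 .nil)
noncomputable def n3342 : Strat := .move 923 n281 (.cons 878 n3341 .nil)
noncomputable def n3343 : Strat := .move 841 n2850 (.cons 881 n1428 .nil)
noncomputable def n3344 : Strat := .move 878 n3339 (.cons 877 n3343 .nil)
noncomputable def n3345 : Strat := .win 923 4 919
noncomputable def n3346 : Strat := .move 960 n3345 (.cons 923 n2181 .nil)
noncomputable def n3347 : Strat := .win 1043 3 879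
noncomputable def n3348 : Strat := .win 839 3 838
noncomputable def n3349 : Strat := .move 1002 n3347 (.cons 1043 n3348 .nil)
noncomputable def n3350 : Strat := .move 961 n3346 (.cons 1001 n3349 .nil)
noncomputable def n3351 : Strat := .move 880 n3340 (.cons 877 n3342 (.cons 923 n3344 (.cons 878 n3350 .nil)))
noncomputable def n3352 : Strat := .move 923 n281 (.cons 878 n35 .nil)
noncomputable def n3353 : Strat := .move 881 n297 (.cons 882 n3352 .nil)
noncomputable def n3354 : Strat := .move 919 n1675 (.cons 960 n3353 .nil)
noncomputable def n3355 : Strat := .move 964 n2843 (.cons 963 n47 .nil)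
noncomputable def n3356 : Strat := .move 881 n297 (.cons 882 n3355 .nil)
noncomputable def n3357 : Strat := .move 919 n1675 (.cons 960 n3356 .nil)
noncomputable def n3358 : Strat := .move 920 n3336 (.cons 923 n3338 (.cons 919 n3351 (.cons 877 n3354 (.cons 878 n3357 (.cons 960 n3277 .nil)))))
noncomputable def n3359 : Strat := .move 878 n2817 (.cons 923 n2216 .nil)
noncomputable def n3360 : Strat := .move 919 n1675 (.cons 960 n3359 .nil)
noncomputable def n3361 : Strat := .move 878 n299 (.cons 877 n2216 .nil)
noncomputable def n3362 : Strat := .move 919 n1675 (.cons 960 n3361 .nil)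
noncomputable def n3363 : Strat := .move 920 n3360 (.cons 923 n3362 (.cons 756 n3336 (.cons 919 n3342 (.cons 878 n3357 .nil))))
noncomputable def n3364 : Strat := .move 756 n1679 (.cons 880 n2568 .nil)
noncomputable def n3365 : Strat := .move 879 n3284 (.cons 923 n3334 (.cons 756 n3358 (.cons 880 n3363 (.cons 878 n3364 .nil))))
noncomputable def n3366 : Strat := .move 879 n1559 (.cons 756 n1686 .nil)
noncomputable def n3367 : Strat := .move 880 n2213 (.cons 839 n3366 .nil)
noncomputable def n3368 : Strat := .move 962 n2727 (.cons 881 n3367 .nil)
noncomputable def n3369 : Strat := .move 880 n611 (.cons 962 n2363 .nil)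
noncomputable def n3370 : Strat := .move 962 n3289 (.cons 880 n3291 .nil)
noncomputable def n3371 : Strat := .move 882 n542 (.cons 883 n2923 .nil)
noncomputable def n3372 : Strat := .move 800 n624 (.cons 801 n3371 .nil)
noncomputable def n3373 : Strat := .move 841 n631 (.cons 796 n3372 .nil)
noncomputable def n3374 : Strat := .move 839 n3369 (.cons 756 n3370 (.cons 880 n3373 .nil))
noncomputable def n3375 : Strat := .move 921 n3333 (.cons 962 n3365 (.cons 963 n3368 (.cons 881 n3374 .nil)))
noncomputable def n3376 : Strat := .move 923 n71 (.cons 924 n2857 .nil)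
noncomputable def n3377 : Strat := .move 878 n3339 (.cons 877 n3376 .nil)
noncomputable def n3378 : Strat := .move 839 n611 (.cons 962 n3377 .nil)
noncomputable def n3379 : Strat := .move 880 n1559 (.cons 756 n3378 .nil)
noncomputable def n3380 : Strat := .move 920 n1678 (.cons 962 n3360 .nil)
noncomputable def n3381 : Strat := .move 923 n281 (.cons 878 n3185 .nil)
noncomputable def n3382 : Strat := .move 920 n1678 (.cons 962 n3381 .nil)
noncomputable def n3383 : Strat := .move 879 n3379 (.cons 880 n3380 (.cons 962 n3284 (.cons 756 n3382 (.cons 923 n3273 (.cons 920 n3281 .nil)))))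
noncomputable def n3384 : Strat := .move 881 n16 (.cons 962 n35 .nil)
noncomputable def n3385 : Strat := .move 919 n2843 (.cons 963 n362 .nil)
noncomputable def n3386 : Strat := .move 920 n3178 (.cons 965 n3385 .nil)
noncomputable def n3387 : Strat := .move 964 n3232 (.cons 881 n3386 .nil)
noncomputable def n3388 : Strat := .move 960 n3296 (.cons 959 n3295 .nil)
noncomputable def n3389 : Strat := .move 961 n3176 (.cons 924 n3388 .nil)
noncomputable def n3390 : Strat := .move 880 n2213 (.cons 839 n3389 .nil)
noncomputable def n3391 : Strat := .move 962 n2727 (.cons 881 n3390 .nil)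
noncomputable def n3392 : Strat := .win 961 4 920
noncomputable def n3393 : Strat := .win 963 4 921
noncomputable def n3394 : Strat := .move 925 n3393 (.cons 963 n290 .nil)
noncomputable def n3395 : Strat := .move 962 n3392 (.cons 961 n3394 .nil)
noncomputable def n3396 : Strat := .win 964 0 920
noncomputable def n3397 : Strat := .move 965 n981 (.cons 966 n3396 .nil)
noncomputable def n3398 : Strat := .move 920 n3397 (.cons 964 n285 .nil)
noncomputable def n3399 : Strat := .move 925 n3393 (.cons 963 n293 .nil)
noncomputable def n3400 : Strat := .move 962 n3394 (.cons 925 n3398 (.cons 965 n3399 .nil))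
noncomputable def n3401 : Strat := .move 925 n291 (.cons 885 n3393 .nil)
noncomputable def n3402 : Strat := .move 884 n292 (.cons 883 n3401 .nil)
noncomputable def n3403 : Strat := .move 962 n3392 (.cons 961 n3402 .nil)
noncomputable def n3404 : Strat := .move 920 n3396 (.cons 964 n285 .nil)
noncomputable def n3405 : Strat := .move 965 n981 (.cons 966 n3404 .nil)
noncomputable def n3406 : Strat := .move 924 n3395 (.cons 961 n3400 (.cons 967 n3403 (.cons 962 n3405 .nil)))
noncomputable def n3407 : Strat := .move 923 n3384 (.cons 962 n3387 (.cons 964 n3391 (.cons 881 n3406 .nil)))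
noncomputable def n3408 : Strat := .move 920 n1677 (.cons 878 n2773 .nil)
noncomputable def n3409 : Strat := .move 756 n1679 (.cons 880 n3408 .nil)
noncomputable def n3410 : Strat := .move 756 n1679 (.cons 880 n2209 .nil)
noncomputable def n3411 : Strat := .move 923 n35 (.cons 964 n3309 .nil)
noncomputable def n3412 : Strat := .move 881 n45 (.cons 759 n3411 .nil)
noncomputable def n3413 : Strat := .move 919 n297 (.cons 882 n1675 .nil)
noncomputable def n3414 : Strat := .move 920 n3352 (.cons 964 n3413 .nil)
noncomputable def n3415 : Strat := .move 881 n45 (.cons 759 n3414 .nil)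
noncomputable def n3416 : Strat := .move 800 n3409 (.cons 920 n3410 (.cons 756 n3412 (.cons 880 n3415 .nil)))
noncomputable def n3417 : Strat := .move 920 n3336 (.cons 877 n3342 (.cons 923 n3338 (.cons 878 n3357 .nil)))
noncomputable def n3418 : Strat := .move 878 n2857 (.cons 920 n3339 .nil)
noncomputable def n3419 : Strat := .move 923 n71 (.cons 924 n3418 .nil)
noncomputable def n3420 : Strat := .move 880 n1559 (.cons 756 n3419 .nil)
noncomputable def n3421 : Strat := .move 920 n3360 (.cons 756 n3336 (.cons 919 n3342 (.cons 923 n3362 (.cons 878 n3357 .nil))))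
noncomputable def n3422 : Strat := .move 879 n3416 (.cons 756 n3417 (.cons 881 n3284 (.cons 919 n3420 (.cons 880 n3421 (.cons 878 n3364 .nil)))))
noncomputable def n3423 : Strat := .move 921 n3368 (.cons 881 n3383 (.cons 880 n3225 (.cons 879 n3407 (.cons 962 n3422 (.cons 920 n3288 .nil)))))
noncomputable def n3424 : Strat := .move 879 n1679 (.cons 880 n2775 .nil)
noncomputable def n3425 : Strat := .move 674 n2260 (.cons 716 n2892 .nil)
noncomputable def n3426 : Strat := .move 715 n1296 (.cons 880 n3425 .nil)
noncomputable def n3427 : Strat := .move 841 n631 (.cons 796 n3227 .nil)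
noncomputable def n3428 : Strat := .move 839 n3426 (.cons 634 n3427 .nil)
noncomputable def n3429 : Strat := .move 880 n2121 (.cons 879 n635 .nil)
noncomputable def n3430 : Strat := .move 841 n626 (.cons 878 n631 .nil)
noncomputable def n3431 : Strat := .move 879 n1679 (.cons 880 n3430 .nil)
noncomputable def n3432 : Strat := .move 839 n3429 (.cons 715 n3431 (.cons 880 n3427 .nil))
noncomputable def n3433 : Strat := .move 715 n2277 (.cons 675 n2252 .nil)
noncomputable def n3434 : Strat := .move 919 n1676 (.cons 878 n3433 .nil)
noncomputable def n3435 : Strat := .move 879 n1679 (.cons 880 n3434 .nil)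
noncomputable def n3436 : Strat := .move 920 n1675 (.cons 960 n297 .nil)
noncomputable def n3437 : Strat := .move 919 n1676 (.cons 878 n3436 .nil)
noncomputable def n3438 : Strat := .move 841 n2854 (.cons 759 n3320 .nil)
noncomputable def n3439 : Strat := .move 919 n1675 (.cons 960 n297 .nil)
noncomputable def n3440 : Strat := .move 920 n3439 (.cons 882 n2773 .nil)
noncomputable def n3441 : Strat := .move 879 n3437 (.cons 919 n3438 (.cons 878 n3440 .nil))
noncomputable def n3442 : Strat := .move 879 n3437 (.cons 919 n3433 .nil)
noncomputable def n3443 : Strat := .move 881 n3150 (.cons 801 n3441 (.cons 841 n3442 .nil))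
noncomputable def n3444 : Strat := .move 756 n3424 (.cons 879 n3428 (.cons 714 n3432 (.cons 796 n3435 (.cons 880 n3443 .nil))))
noncomputable def n3445 : Strat := .move 879 n1686 (.cons 920 n3274 .nil)
noncomputable def n3446 : Strat := .move 962 n2727 (.cons 881 n3445 .nil)
noncomputable def n3447 : Strat := .move 920 n1678 (.cons 962 n3204 .nil)
noncomputable def n3448 : Strat := .move 880 n2213 (.cons 839 n1685 .nil)
noncomputable def n3449 : Strat := .move 962 n1686 (.cons 920 n3448 .nil)
noncomputable def n3450 : Strat := .move 878 n1427 (.cons 919 n2209 .nil)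
noncomputable def n3451 : Strat := .move 756 n1679 (.cons 880 n3450 .nil)
noncomputable def n3452 : Strat := .move 879 n3273 (.cons 880 n3447 (.cons 920 n3281 (.cons 756 n3449 (.cons 962 n3451 .nil))))
noncomputable def n3453 : Strat := .move 921 n3211 (.cons 962 n3444 (.cons 839 n3446 (.cons 881 n3452 .nil)))
noncomputable def n3454 : Strat := .move 881 n3327 (.cons 923 n65 (.cons 963 n3145 (.cons 962 n51 .nil)))
noncomputable def n3455 : Strat := .move 881 n45 (.cons 759 n223 .nil)
noncomputable def n3456 : Strat := .move 800 n624 (.cons 801 n3455 .nil)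
noncomputable def n3457 : Strat := .move 839 n631 (.cons 796 n3456 .nil)
noncomputable def n3458 : Strat := .win 801 3 759
noncomputable def n3459 : Strat := .move 760 n117 (.cons 719 n3458 .nil)
noncomputable def n3460 : Strat := .win 883 6 759
noncomputable def n3461 : Strat := .move 924 n3460 (.cons 883 n256 .nil)
noncomputable def n3462 : Strat := .move 759 n3459 (.cons 801 n3461 .nil)
noncomputable def n3463 : Strat := .move 882 n255 (.cons 963 n3462 .nil)
noncomputable def n3464 : Strat := .win 881 3 799
noncomputable def n3465 : Strat := .win 882 1 799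
noncomputable def n3466 : Strat := .move 963 n3464 (.cons 881 n3465 .nil)
noncomputable def n3467 : Strat := .win 881 3 758
noncomputable def n3468 : Strat := .move 882 n3459 (.cons 801 n3461 .nil)
noncomputable def n3469 : Strat := .move 759 n3467 (.cons 881 n3468 .nil)
noncomputable def n3470 : Strat := .move 800 n3455 (.cons 881 n3463 (.cons 759 n3466 (.cons 963 n3469 .nil)))
noncomputable def n3471 : Strat := .move 800 n255 (.cons 963 n3462 .nil)
noncomputable def n3472 : Strat := .move 882 n625 (.cons 964 n3471 .nil)
noncomputable def n3473 : Strat := .move 800 n45 (.cons 759 n223 .nil)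
noncomputable def n3474 : Strat := .move 881 n35 (.cons 964 n3473 .nil)
noncomputable def n3475 : Strat := .move 923 n3234 (.cons 964 n3470 (.cons 881 n3472 (.cons 882 n3474 .nil)))
noncomputable def n3476 : Strat := .move 718 n797 (.cons 678 n724 .nil)
noncomputable def n3477 : Strat := .move 882 n2919 (.cons 760 n542 .nil)
noncomputable def n3478 : Strat := .move 719 n3476 (.cons 677 n3477 .nil)
noncomputable def n3479 : Strat := .move 759 n3467 (.cons 881 n3478 .nil)
noncomputable def n3480 : Strat := .move 800 n624 (.cons 801 n3479 .nil)
noncomputable def n3481 : Strat := .move 839 n631 (.cons 796 n3480 .nil)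
noncomputable def n3482 : Strat := .move 839 n631 (.cons 796 n3372 .nil)
noncomputable def n3483 : Strat := .move 923 n625 (.cons 964 n3241 .nil)
noncomputable def n3484 : Strat := .move 882 n542 (.cons 883 n3483 .nil)
noncomputable def n3485 : Strat := .move 839 n631 (.cons 796 n3484 .nil)
noncomputable def n3486 : Strat := .move 839 n631 (.cons 796 n626 .nil)
noncomputable def n3487 : Strat := .move 796 n3252 (.cons 839 n2632 .nil)
noncomputable def n3488 : Strat := .move 881 n1519 (.cons 880 n2671 .nil)
noncomputable def n3489 : Strat := .move 878 n1428 (.cons 839 n3488 .nil)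
noncomputable def n3490 : Strat := .move 880 n72 (.cons 878 n3039 .nil)
noncomputable def n3491 : Strat := .move 923 n35 (.cons 964 n3490 .nil)
noncomputable def n3492 : Strat := .move 878 n1519 (.cons 880 n2671 .nil)
noncomputable def n3493 : Strat := .win 882 3 840
noncomputable def n3494 : Strat := .move 1004 n3493 (.cons 882 n249 .nil)
noncomputable def n3495 : Strat := .move 963 n3019 (.cons 923 n3494 .nil)
noncomputable def n3496 : Strat := .move 881 n3491 (.cons 925 n3492 (.cons 878 n3495 .nil))
noncomputable def n3497 : Strat := .move 879 n3486 (.cons 878 n3487 (.cons 796 n3489 (.cons 839 n3496 .nil)))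
noncomputable def n3498 : Strat := .move 841 n3457 (.cons 839 n3475 (.cons 963 n3481 (.cons 759 n3482 (.cons 801 n3485 (.cons 800 n3497 .nil)))))
noncomputable def n3499 : Strat := .move 923 n35 (.cons 964 n3150 .nil)
noncomputable def n3500 : Strat := .move 881 n16 (.cons 962 n3499 .nil)
noncomputable def n3501 : Strat := .move 881 n35 (.cons 964 n3150 .nil)
noncomputable def n3502 : Strat := .win 881 2 880
noncomputable def n3503 : Strat := .move 925 n3502 (.cons 881 n290 .nil)
noncomputable def n3504 : Strat := .move 880 n75 (.cons 879 n3503 .nil)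
noncomputable def n3505 : Strat := .move 925 n291 (.cons 885 n3502 .nil)
noncomputable def n3506 : Strat := .move 884 n292 (.cons 883 n3505 .nil)
noncomputable def n3507 : Strat := .move 880 n75 (.cons 879 n3506 .nil)
noncomputable def n3508 : Strat := .move 925 n291 (.cons 885 n290 .nil)
noncomputable def n3509 : Strat := .move 884 n292 (.cons 883 n3508 .nil)
noncomputable def n3510 : Strat := .move 920 n285 (.cons 882 n3247 .nil)
noncomputable def n3511 : Strat := .move 879 n282 (.cons 880 n3510 .nil)
noncomputable def n3512 : Strat := .move 924 n3504 (.cons 967 n3507 (.cons 880 n3509 (.cons 925 n3511 .nil)))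
noncomputable def n3513 : Strat := .win 879 1 796
noncomputable def n3514 : Strat := .move 919 n360 (.cons 959 n3513 .nil)
noncomputable def n3515 : Strat := .move 960 n361 (.cons 961 n3514 .nil)
noncomputable def n3516 : Strat := .move 920 n3515 (.cons 959 n3180 .nil)
noncomputable def n3517 : Strat := .move 923 n3501 (.cons 964 n3512 (.cons 881 n3516 .nil))
noncomputable def n3518 : Strat := .move 839 n3369 (.cons 880 n3373 .nil)
noncomputable def n3519 : Strat := .move 921 n3500 (.cons 962 n3517 (.cons 839 n3333 (.cons 923 n3368 (.cons 881 n3518 .nil))))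
noncomputable def n3520 : Strat := .move 839 n624 (.cons 801 n3371 .nil)
noncomputable def n3521 : Strat := .move 839 n624 (.cons 801 n3479 .nil)
noncomputable def n3522 : Strat := .move 800 n3455 (.cons 759 n3520 (.cons 963 n3521 .nil))
noncomputable def n3523 : Strat := .move 963 n48 (.cons 1005 n214 .nil)
noncomputable def n3524 : Strat := .move 964 n47 (.cons 923 n3523 .nil)
noncomputable def n3525 : Strat := .move 882 n542 (.cons 883 n3524 .nil)
noncomputable def n3526 : Strat := .move 839 n631 (.cons 796 n3525 .nil)
noncomputable def n3527 : Strat := .move 963 n62 (.cons 1003 n3019 .nil)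
noncomputable def n3528 : Strat := .move 962 n61 (.cons 921 n3527 .nil)
noncomputable def n3529 : Strat := .move 963 n214 (.cons 1004 n62 .nil)
noncomputable def n3530 : Strat := .move 962 n61 (.cons 921 n3529 .nil)
noncomputable def n3531 : Strat := .move 882 n542 (.cons 883 n3530 .nil)
noncomputable def n3532 : Strat := .move 839 n631 (.cons 796 n3531 .nil)
noncomputable def n3533 : Strat := .move 878 n3139 (.cons 880 n1428 .nil)
noncomputable def n3534 : Strat := .move 879 n3320 (.cons 796 n3533 (.cons 878 n3312 .nil))
noncomputable def n3535 : Strat := .move 921 n16 (.cons 962 n3534 .nil)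
noncomputable def n3536 : Strat := .move 923 n35 (.cons 964 n3535 .nil)
noncomputable def n3537 : Strat := .move 881 n3526 (.cons 839 n3528 (.cons 923 n3532 (.cons 963 n3536 .nil)))
noncomputable def n3538 : Strat := .move 923 n3234 (.cons 964 n3470 (.cons 882 n3474 (.cons 881 n3472 .nil)))
noncomputable def n3539 : Strat := .move 841 n3457 (.cons 796 n3522 (.cons 963 n3481 (.cons 759 n3482 (.cons 801 n3485 (.cons 800 n3537 (.cons 839 n3538 .nil))))))
noncomputable def n3540 : Strat := .move 839 n624 (.cons 801 n3455 .nil)
noncomputable def n3541 : Strat := .move 800 n3540 (.cons 839 n3455 (.cons 963 n3521 (.cons 881 n3520 .nil)))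
noncomputable def n3542 : Strat := .move 880 n2850 (.cons 881 n2634 .nil)
noncomputable def n3543 : Strat := .move 878 n1428 (.cons 839 n3542 .nil)
noncomputable def n3544 : Strat := .move 878 n1427 (.cons 919 n2851 .nil)
noncomputable def n3545 : Strat := .move 756 n3544 (.cons 881 n2568 .nil)
noncomputable def n3546 : Strat := .move 879 n3486 (.cons 878 n3487 (.cons 796 n3543 (.cons 839 n3545 .nil)))
noncomputable def n3547 : Strat := .move 841 n3457 (.cons 963 n3481 (.cons 801 n3485 (.cons 796 n3541 (.cons 881 n3482 (.cons 839 n3475 (.cons 800 n3546 .nil))))))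
noncomputable def n3548 : Strat := .move 921 n16 (.cons 962 n3499 .nil)
noncomputable def n3549 : Strat := .move 921 n16 (.cons 962 n979 .nil)
noncomputable def n3550 : Strat := .win 882 2 881
noncomputable def n3551 : Strat := .win 968 0 923
noncomputable def n3552 : Strat := .win 966 0 922
noncomputable def n3553 : Strat := .move 967 n3551 (.cons 968 n3552 .nil)
noncomputable def n3554 : Strat := .move 926 n3550 (.cons 882 n3553 .nil)
noncomputable def n3555 : Strat := .move 925 n978 (.cons 880 n3554 .nil)
noncomputable def n3556 : Strat := .move 925 n291 (.cons 885 n978 .nil)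
noncomputable def n3557 : Strat := .move 884 n292 (.cons 883 n3556 .nil)
noncomputable def n3558 : Strat := .move 921 n16 (.cons 962 n3557 .nil)
noncomputable def n3559 : Strat := .move 921 n16 (.cons 962 n264 .nil)
noncomputable def n3560 : Strat := .move 800 n256 (.cons 965 n1208 .nil)
noncomputable def n3561 : Strat := .move 841 n3245 (.cons 796 n3560 .nil)
noncomputable def n3562 : Strat := .move 921 n981 (.cons 966 n16 .nil)
noncomputable def n3563 : Strat := .move 800 n980 (.cons 841 n45 .nil)
noncomputable def n3564 : Strat := .move 965 n3562 (.cons 962 n3563 .nil)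
noncomputable def n3565 : Strat := .move 882 n3559 (.cons 921 n3561 (.cons 883 n3564 .nil))
noncomputable def n3566 : Strat := .move 924 n3549 (.cons 921 n3555 (.cons 967 n3558 (.cons 925 n3565 .nil)))
noncomputable def n3567 : Strat := .move 923 n35 (.cons 964 n3566 .nil)
noncomputable def n3568 : Strat := .move 881 n3548 (.cons 800 n3327 (.cons 962 n3137 (.cons 963 n3567 .nil)))
noncomputable def n3569 : Strat := .move 839 n2496 (.cons 841 n2637 .nil)
noncomputable def n3570 : Strat := .move 756 n1552 (.cons 714 n3569 .nil)
noncomputable def n3571 : Strat := .move 755 n1465 (.cons 920 n3570 .nil)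
noncomputable def n3572 : Strat := .move 756 n2637 (.cons 921 n2665 (.cons 715 n2623 (.cons 880 n2209 .nil)))
noncomputable def n3573 : Strat := .move 839 n2496 (.cons 841 n3572 .nil)
noncomputable def n3574 : Strat := .move 756 n1677 (.cons 878 n1680 .nil)
noncomputable def n3575 : Strat := .move 920 n2559 (.cons 755 n3574 .nil)
noncomputable def n3576 : Strat := .move 839 n2496 (.cons 841 n3575 .nil)
noncomputable def n3577 : Strat := .move 921 n2817 (.cons 923 n1678 .nil)
noncomputable def n3578 : Strat := .move 878 n1913 (.cons 876 n3577 .nil)
noncomputable def n3579 : Strat := .move 920 n2559 (.cons 755 n3578 .nil)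
noncomputable def n3580 : Strat := .move 839 n2496 (.cons 841 n3579 .nil)
noncomputable def n3581 : Strat := .move 756 n1679 (.cons 880 n2688 .nil)
noncomputable def n3582 : Strat := .move 962 n3289 (.cons 880 n1686 .nil)
noncomputable def n3583 : Strat := .move 839 n2496 (.cons 841 n3582 .nil)
noncomputable def n3584 : Strat := .move 839 n611 (.cons 962 n2496 .nil)
noncomputable def n3585 : Strat := .move 880 n1559 (.cons 756 n3584 .nil)
noncomputable def n3586 : Strat := .move 880 n1559 (.cons 756 n3377 .nil)
noncomputable def n3587 : Strat := .move 921 n3273 (.cons 839 n3581 (.cons 880 n3280 (.cons 756 n3583 (.cons 920 n3585 (.cons 962 n3586 .nil)))))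
noncomputable def n3588 : Strat := .move 796 n2663 (.cons 673 n3571 (.cons 920 n3573 (.cons 714 n3576 (.cons 756 n3580 (.cons 755 n3587 .nil)))))
noncomputable def n3589 : Strat := .move 839 n635 (.cons 715 n3430 .nil)
noncomputable def n3590 : Strat := .move 880 n634 (.cons 921 n3589 .nil)
noncomputable def n3591 : Strat := .move 839 n488 (.cons 841 n1913 .nil)
noncomputable def n3592 : Strat := .move 878 n1427 (.cons 919 n3591 .nil)
noncomputable def n3593 : Strat := .move 756 n3590 (.cons 880 n2568 (.cons 715 n3592 .nil))
noncomputable def n3594 : Strat := .move 839 n1296 (.cons 880 n2496 .nil)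
noncomputable def n3595 : Strat := .move 715 n2193 (.cons 757 n3594 .nil)
noncomputable def n3596 : Strat := .move 796 n1465 (.cons 920 n3595 .nil)
noncomputable def n3597 : Strat := .move 755 n1552 (.cons 714 n3596 .nil)
noncomputable def n3598 : Strat := .move 756 n3597 (.cons 839 n2793 (.cons 755 n3592 .nil))
noncomputable def n3599 : Strat := .move 920 n1678 (.cons 962 n2773 .nil)
noncomputable def n3600 : Strat := .move 921 n1679 (.cons 880 n3599 .nil)
noncomputable def n3601 : Strat := .move 921 n1679 (.cons 880 n2568 .nil)
noncomputable def n3602 : Strat := .move 961 n3345 (.cons 923 n2181 .nil)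
noncomputable def n3603 : Strat := .move 960 n2182 (.cons 919 n3602 .nil)
noncomputable def n3604 : Strat := .move 920 n1678 (.cons 962 n3603 .nil)
noncomputable def n3605 : Strat := .move 921 n1679 (.cons 880 n3604 .nil)
noncomputable def n3606 : Strat := .move 920 n2735 (.cons 796 n2386 .nil)
noncomputable def n3607 : Strat := .move 755 n1552 (.cons 714 n3606 .nil)
noncomputable def n3608 : Strat := .move 756 n3600 (.cons 962 n3601 (.cons 714 n3605 (.cons 921 n3597 (.cons 880 n3607 .nil))))
noncomputable def n3609 : Strat := .move 923 n281 (.cons 878 n3303 .nil)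
noncomputable def n3610 : Strat := .move 921 n1678 (.cons 962 n3609 .nil)
noncomputable def n3611 : Strat := .move 921 n3381 (.cons 919 n3609 (.cons 923 n3204 (.cons 878 n3603 .nil)))
noncomputable def n3612 : Strat := .move 756 n1676 (.cons 878 n2773 .nil)
noncomputable def n3613 : Strat := .move 919 n1675 (.cons 960 n3612 .nil)
noncomputable def n3614 : Strat := .move 920 n2629 (.cons 919 n3610 (.cons 962 n3611 (.cons 921 n3613 .nil)))
noncomputable def n3615 : Strat := .move 921 n3379 (.cons 880 n3380 (.cons 962 n3284 (.cons 756 n3382 (.cons 923 n3273 (.cons 920 n3281 .nil)))))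
noncomputable def n3616 : Strat := .move 841 n631 (.cons 796 n626 .nil)
noncomputable def n3617 : Strat := .move 796 n2496 (.cons 841 n2632 .nil)
noncomputable def n3618 : Strat := .move 878 n488 (.cons 841 n2640 .nil)
noncomputable def n3619 : Strat := .move 715 n1296 (.cons 880 n2193 .nil)
noncomputable def n3620 : Strat := .move 920 n2773 (.cons 714 n3619 .nil)
noncomputable def n3621 : Strat := .move 756 n1957 (.cons 921 n3620 (.cons 715 n3600 (.cons 880 n2568 .nil)))
noncomputable def n3622 : Strat := .move 839 n3616 (.cons 878 n3617 (.cons 796 n3618 (.cons 841 n3621 .nil)))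
noncomputable def n3623 : Strat := .move 921 n1678 (.cons 962 n3279 .nil)
noncomputable def n3624 : Strat := .move 878 n2817 (.cons 923 n2823 .nil)
noncomputable def n3625 : Strat := .move 921 n1678 (.cons 962 n3624 .nil)
noncomputable def n3626 : Strat := .move 878 n2216 (.cons 756 n3591 .nil)
noncomputable def n3627 : Strat := .move 919 n1675 (.cons 960 n3626 .nil)
noncomputable def n3628 : Strat := .move 921 n1678 (.cons 962 n3603 .nil)
noncomputable def n3629 : Strat := .move 920 n3623 (.cons 756 n3625 (.cons 921 n3627 (.cons 878 n3628 .nil)))
noncomputable def n3630 : Strat := .move 796 n2559 (.cons 755 n3624 .nil)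
noncomputable def n3631 : Strat := .move 921 n1678 (.cons 962 n3630 .nil)
noncomputable def n3632 : Strat := .win 1042 1 878
noncomputable def n3633 : Strat := .win 960 1 837
noncomputable def n3634 : Strat := .move 1001 n3632 (.cons 1042 n3633 .nil)
noncomputable def n3635 : Strat := .win 880 3 838
noncomputable def n3636 : Strat := .move 839 n3635 (.cons 880 n2496 .nil)
noncomputable def n3637 : Strat := .move 1002 n3634 (.cons 960 n3636 .nil)
noncomputable def n3638 : Strat := .win 1044 6 879
noncomputable def n3639 : Strat := .win 962 6 838
noncomputable def n3640 : Strat := .move 1003 n3638 (.cons 1044 n3639 .nil)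
noncomputable def n3641 : Strat := .move 1002 n3636 (.cons 841 n3640 .nil)
noncomputable def n3642 : Strat := .move 961 n2183 (.cons 919 n3637 (.cons 1001 n3641 .nil))
noncomputable def n3643 : Strat := .move 796 n2559 (.cons 755 n3642 .nil)
noncomputable def n3644 : Strat := .move 921 n1678 (.cons 962 n3336 .nil)
noncomputable def n3645 : Strat := .move 921 n2817 (.cons 923 n2823 .nil)
noncomputable def n3646 : Strat := .move 880 n195 (.cons 877 n495 .nil)
noncomputable def n3647 : Strat := .move 839 n488 (.cons 841 n3646 .nil)
noncomputable def n3648 : Strat := .move 921 n2817 (.cons 923 n3193 .nil)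
noncomputable def n3649 : Strat := .move 839 n3635 (.cons 880 n488 .nil)
noncomputable def n3650 : Strat := .win 1043 7 878
noncomputable def n3651 : Strat := .move 919 n3650 (.cons 1043 n1675 .nil)
noncomputable def n3652 : Strat := .move 1002 n3649 (.cons 841 n3651 .nil)
noncomputable def n3653 : Strat := .move 878 n3591 (.cons 839 n3645 (.cons 876 n3647 (.cons 880 n3648 (.cons 877 n3652 .nil))))
noncomputable def n3654 : Strat := .move 796 n2559 (.cons 755 n3637 .nil)
noncomputable def n3655 : Strat := .move 839 n3635 (.cons 880 n3430 .nil)
noncomputable def n3656 : Strat := .win 1083 1 919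
noncomputable def n3657 : Strat := .win 1001 1 878
noncomputable def n3658 : Strat := .move 1042 n3656 (.cons 1083 n3657 .nil)
noncomputable def n3659 : Strat := .win 1085 6 920
noncomputable def n3660 : Strat := .win 1003 6 879
noncomputable def n3661 : Strat := .move 1044 n3659 (.cons 1085 n3660 .nil)
noncomputable def n3662 : Strat := .move 1043 n3658 (.cons 1001 n3661 .nil)
noncomputable def n3663 : Strat := .move 1002 n3655 (.cons 839 n3662 .nil)
noncomputable def n3664 : Strat := .move 961 n2809 (.cons 1001 n3653 (.cons 919 n3654 (.cons 960 n3663 .nil)))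
noncomputable def n3665 : Strat := .move 920 n3631 (.cons 921 n3643 (.cons 880 n3644 (.cons 962 n3664 .nil)))
noncomputable def n3666 : Strat := .move 879 n3588 (.cons 920 n3593 (.cons 921 n3598 (.cons 878 n3608 (.cons 880 n3614 (.cons 841 n3615 (.cons 919 n3622 (.cons 714 n3629 (.cons 756 n3665 .nil))))))))
noncomputable def n3667 : Strat := .move 922 n3146 (.cons 756 n3157 (.cons 796 n3174 (.cons 880 n3270 (.cons 963 n3325 (.cons 882 n3330 (.cons 924 n3375 (.cons 841 n3423 (.cons 923 n3453 (.cons 839 n3454 (.cons 921 n3498 (.cons 878 n3519 (.cons 920 n3539 (.cons 962 n3547 (.cons 879 n3568 (.cons 881 n3666 .nil)))))))))))))))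
noncomputable def n3668 : Strat := .move 838 n2676 (.cons 839 n2907 (.cons 879 n2929 (.cons 796 n3057 (.cons 756 n3074 (.cons 800 n3121 (.cons 841 n3128 (.cons 880 n3130 (.cons 877 n3134 (.cons 837 n3667 .nil)))))))))
noncomputable def n3669 : Strat := .move 797 n1517 (.cons 801 n1595 (.cons 922 n1624 (.cons 759 n1704 (.cons 757 n1712 (.cons 838 n1725 (.cons 841 n1903 (.cons 756 n1920 (.cons 754 n1945 (.cons 881 n1964 (.cons 878 n1988 (.cons 795 n2048 (.cons 755 n2075 (.cons 836 n2092 (.cons 839 n2099 (.cons 837 n2103 (.cons 796 n2490 (.cons 800 n2652 (.cons 798 n3668 .nil))))))))))))))))))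
noncomputable def n3670 : Strat := .move 758 n158 (.cons 880 n1071 (.cons 676 n819 .nil))
noncomputable def n3671 : Strat := .move 757 n140 (.cons 720 n141 .nil)
noncomputable def n3672 : Strat := .move 719 n797 (.cons 678 n3671 .nil)
noncomputable def n3673 : Strat := .move 800 n224 (.cons 676 n3672 .nil)
noncomputable def n3674 : Strat := .move 759 n876 (.cons 761 n796 (.cons 760 n3673 .nil))
noncomputable def n3675 : Strat := .move 841 n225 (.cons 882 n3674 .nil)
noncomputable def n3676 : Strat := .move 718 n21 (.cons 677 n3675 .nil)
noncomputable def n3677 : Strat := .move 716 n27 (.cons 675 n3676 .nil)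
noncomputable def n3678 : Strat := .move 676 n805 (.cons 800 n156 .nil)
noncomputable def n3679 : Strat := .move 841 n225 (.cons 882 n3678 .nil)
noncomputable def n3680 : Strat := .move 758 n3677 (.cons 800 n183 (.cons 757 n3679 (.cons 718 n1071 .nil)))
noncomputable def n3681 : Strat := .move 758 n138 (.cons 880 n807 .nil)
noncomputable def n3682 : Strat := .move 758 n138 (.cons 880 n157 .nil)
noncomputable def n3683 : Strat := .win 838 5 797
noncomputable def n3684 : Strat := .move 801 n937 (.cons 802 n3683 .nil)
noncomputable def n3685 : Strat := .move 800 n224 (.cons 676 n3684 .nil)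
noncomputable def n3686 : Strat := .move 841 n225 (.cons 882 n3685 .nil)
noncomputable def n3687 : Strat := .move 758 n138 (.cons 880 n3686 .nil)
noncomputable def n3688 : Strat := .win 798 4 795
noncomputable def n3689 : Strat := .move 877 n3068 (.cons 876 n3067 .nil)
noncomputable def n3690 : Strat := .move 836 n3688 (.cons 798 n3689 .nil)
noncomputable def n3691 : Strat := .move 797 n2496 (.cons 841 n3690 .nil)
noncomputable def n3692 : Strat := .move 796 n2501 (.cons 795 n3691 .nil)
noncomputable def n3693 : Strat := .move 837 n1090 (.cons 800 n3692 .nil)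
noncomputable def n3694 : Strat := .move 836 n2118 (.cons 798 n3084 .nil)
noncomputable def n3695 : Strat := .win 796 2 795
noncomputable def n3696 : Strat := .win 794 2 794
noncomputable def n3697 : Strat := .move 795 n3695 (.cons 796 n3696 .nil)
noncomputable def n3698 : Strat := .move 836 n2118 (.cons 798 n3697 .nil)
noncomputable def n3699 : Strat := .win 797 2 796
noncomputable def n3700 : Strat := .move 841 n3699 (.cons 797 n3062 .nil)
noncomputable def n3701 : Strat := .move 796 n2501 (.cons 795 n3700 .nil)
noncomputable def n3702 : Strat := .move 878 n1453 (.cons 877 n3701 .nil)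
noncomputable def n3703 : Strat := .move 837 n3692 (.cons 796 n3694 (.cons 878 n3698 (.cons 798 n3702 .nil)))
noncomputable def n3704 : Strat := .move 837 n1090 (.cons 800 n3694 .nil)
noncomputable def n3705 : Strat := .move 755 n1552 (.cons 714 n2196 .nil)
noncomputable def n3706 : Strat := .move 756 n1957 (.cons 715 n3705 .nil)
noncomputable def n3707 : Strat := .move 797 n631 (.cons 796 n3706 .nil)
noncomputable def n3708 : Strat := .move 841 n626 (.cons 878 n3707 .nil)
noncomputable def n3709 : Strat := .move 841 n631 (.cons 796 n3706 .nil)
noncomputable def n3710 : Strat := .move 798 n1673 (.cons 757 n689 .nil)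
noncomputable def n3711 : Strat := .move 798 n1673 (.cons 757 n565 .nil)
noncomputable def n3712 : Strat := .move 756 n3711 (.cons 755 n1957 .nil)
noncomputable def n3713 : Strat := .move 961 n496 (.cons 798 n2183 .nil)
noncomputable def n3714 : Strat := .move 920 n3710 (.cons 961 n3712 (.cons 757 n3713 (.cons 798 n2386 .nil)))
noncomputable def n3715 : Strat := .win 798 0 795
noncomputable def n3716 : Strat := .move 795 n3715 (.cons 798 n2497 .nil)
noncomputable def n3717 : Strat := .move 796 n2496 (.cons 841 n3716 .nil)
noncomputable def n3718 : Strat := .move 797 n3709 (.cons 796 n3714 (.cons 798 n3617 (.cons 756 n3717 .nil)))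
noncomputable def n3719 : Strat := .move 756 n1427 (.cons 919 n3705 .nil)
noncomputable def n3720 : Strat := .move 878 n488 (.cons 841 n3719 .nil)
noncomputable def n3721 : Strat := .move 920 n1673 (.cons 757 n689 .nil)
noncomputable def n3722 : Strat := .move 920 n2735 (.cons 796 n1673 .nil)
noncomputable def n3723 : Strat := .move 755 n1303 (.cons 756 n3722 .nil)
noncomputable def n3724 : Strat := .move 920 n2735 (.cons 796 n689 .nil)
noncomputable def n3725 : Strat := .move 755 n1303 (.cons 756 n3724 .nil)
noncomputable def n3726 : Strat := .move 796 n1304 (.cons 754 n1104 .nil)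
noncomputable def n3727 : Strat := .move 755 n1303 (.cons 756 n3726 .nil)
noncomputable def n3728 : Strat := .move 798 n3721 (.cons 961 n3723 (.cons 757 n3725 (.cons 920 n3727 .nil)))
noncomputable def n3729 : Strat := .move 797 n3616 (.cons 796 n3720 (.cons 841 n3728 .nil))
noncomputable def n3730 : Strat := .move 756 n565 (.cons 755 n1957 .nil)
noncomputable def n3731 : Strat := .move 798 n3721 (.cons 961 n3730 .nil)
noncomputable def n3732 : Strat := .move 880 n634 (.cons 921 n1506 .nil)
noncomputable def n3733 : Strat := .move 878 n1427 (.cons 919 n1913 .nil)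
noncomputable def n3734 : Strat := .move 756 n1957 (.cons 715 n3732 (.cons 921 n3733 (.cons 880 n3408 .nil)))
noncomputable def n3735 : Strat := .move 796 n2559 (.cons 755 n1104 .nil)
noncomputable def n3736 : Strat := .move 798 n1673 (.cons 757 n3735 .nil)
noncomputable def n3737 : Strat := .move 920 n3710 (.cons 961 n3736 (.cons 757 n3713 (.cons 798 n2386 .nil)))
noncomputable def n3738 : Strat := .move 756 n1677 (.cons 878 n1957 .nil)
noncomputable def n3739 : Strat := .move 920 n3710 (.cons 961 n3738 .nil)
noncomputable def n3740 : Strat := .move 797 n3731 (.cons 880 n3728 (.cons 757 n3706 (.cons 798 n3734 (.cons 756 n3737 (.cons 755 n3739 .nil)))))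
noncomputable def n3741 : Strat := .move 879 n3708 (.cons 878 n3718 (.cons 797 n3618 (.cons 880 n3729 (.cons 841 n3740 .nil))))
noncomputable def n3742 : Strat := .move 800 n1250 (.cons 798 n2292 (.cons 802 n2357 (.cons 801 n3741 .nil)))
noncomputable def n3743 : Strat := .move 838 n3693 (.cons 800 n3703 (.cons 841 n3704 (.cons 798 n2915 (.cons 837 n3742 .nil))))
noncomputable def n3744 : Strat := .move 800 n436 (.cons 837 n1250 .nil)
noncomputable def n3745 : Strat := .win 758 6 717
noncomputable def n3746 : Strat := .move 882 n3745 (.cons 758 n542 .nil)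
noncomputable def n3747 : Strat := .move 841 n624 (.cons 801 n3746 .nil)
noncomputable def n3748 : Strat := .move 800 n436 (.cons 837 n3747 .nil)
noncomputable def n3749 : Strat := .win 797 0 796
noncomputable def n3750 : Strat := .move 837 n1449 (.cons 836 n2501 .nil)
noncomputable def n3751 : Strat := .move 796 n3749 (.cons 797 n3750 .nil)
noncomputable def n3752 : Strat := .move 798 n139 (.cons 676 n3751 .nil)
noncomputable def n3753 : Strat := .move 758 n225 (.cons 882 n3752 .nil)
noncomputable def n3754 : Strat := .move 837 n2501 (.cons 795 n3063 .nil)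
noncomputable def n3755 : Strat := .move 796 n3699 (.cons 797 n3754 .nil)
noncomputable def n3756 : Strat := .move 841 n3746 (.cons 883 n3753 (.cons 882 n3755 .nil))
noncomputable def n3757 : Strat := .move 800 n624 (.cons 801 n224 .nil)
noncomputable def n3758 : Strat := .move 758 n225 (.cons 882 n3757 .nil)
noncomputable def n3759 : Strat := .win 676 7 676
noncomputable def n3760 : Strat := .move 718 n3759 (.cons 676 n724 .nil)
noncomputable def n3761 : Strat := .move 760 n117 (.cons 719 n641 .nil)
noncomputable def n3762 : Strat := .move 759 n3760 (.cons 677 n3761 .nil)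
noncomputable def n3763 : Strat := .move 882 n542 (.cons 883 n3762 .nil)
noncomputable def n3764 : Strat := .move 797 n631 (.cons 796 n3763 .nil)
noncomputable def n3765 : Strat := .move 800 n624 (.cons 801 n3764 .nil)
noncomputable def n3766 : Strat := .move 758 n224 (.cons 676 n21 .nil)
noncomputable def n3767 : Strat := .win 759 7 676
noncomputable def n3768 : Strat := .win 758 6 676
noncomputable def n3769 : Strat := .move 676 n3767 (.cons 759 n3768 .nil)
noncomputable def n3770 : Strat := .win 759 1 676
noncomputable def n3771 : Strat := .win 758 3 676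
noncomputable def n3772 : Strat := .move 677 n3770 (.cons 759 n3771 .nil)
noncomputable def n3773 : Strat := .move 759 n3759 (.cons 676 n724 .nil)
noncomputable def n3774 : Strat := .move 718 n3766 (.cons 677 n3769 (.cons 676 n3772 (.cons 758 n3773 .nil)))
noncomputable def n3775 : Strat := .move 879 n626 (.cons 878 n3774 .nil)
noncomputable def n3776 : Strat := .move 797 n631 (.cons 796 n3775 .nil)
noncomputable def n3777 : Strat := .move 800 n624 (.cons 801 n3776 .nil)
noncomputable def n3778 : Strat := .move 841 n3758 (.cons 801 n3746 (.cons 758 n3765 (.cons 882 n3777 .nil)))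
noncomputable def n3779 : Strat := .move 838 n3744 (.cons 798 n3748 (.cons 800 n3756 (.cons 837 n3778 .nil)))
noncomputable def n3780 : Strat := .move 839 n3681 (.cons 800 n3682 (.cons 798 n3687 (.cons 758 n3743 (.cons 880 n3779 .nil))))
noncomputable def n3781 : Strat := .move 758 n152 (.cons 716 n158 (.cons 718 n163 (.cons 839 n183 .nil)))
noncomputable def n3782 : Strat := .move 758 n27 (.cons 675 n818 .nil)
noncomputable def n3783 : Strat := .move 758 n21 (.cons 677 n817 .nil)
noncomputable def n3784 : Strat := .win 759 0 715
noncomputable def n3785 : Strat := .win 761 0 716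
noncomputable def n3786 : Strat := .move 760 n3784 (.cons 759 n3785 .nil)
noncomputable def n3787 : Strat := .move 719 n166 (.cons 757 n3786 .nil)
noncomputable def n3788 : Strat := .move 756 n165 (.cons 755 n3787 .nil)
noncomputable def n3789 : Strat := .win 798 6 633
noncomputable def n3790 : Strat := .win 592 6 592
noncomputable def n3791 : Strat := .move 633 n3789 (.cons 798 n3790 .nil)
noncomputable def n3792 : Strat := .move 674 n812 (.cons 673 n3791 .nil)
noncomputable def n3793 : Strat := .move 757 n809 (.cons 719 n3792 .nil)
noncomputable def n3794 : Strat := .move 756 n165 (.cons 755 n3793 .nil)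
noncomputable def n3795 : Strat := .win 721 4 717
noncomputable def n3796 : Strat := .win 757 4 716
noncomputable def n3797 : Strat := .move 720 n3795 (.cons 721 n3796 .nil)
noncomputable def n3798 : Strat := .win 800 3 677
noncomputable def n3799 : Strat := .win 679 5 675
noncomputable def n3800 : Strat := .move 678 n3798 (.cons 800 n3799 .nil)
noncomputable def n3801 : Strat := .move 719 n3797 (.cons 757 n3800 .nil)
noncomputable def n3802 : Strat := .move 841 n225 (.cons 882 n3801 .nil)
noncomputable def n3803 : Strat := .move 758 n145 (.cons 714 n3802 .nil)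
noncomputable def n3804 : Strat := .move 759 n144 (.cons 760 n3803 .nil)
noncomputable def n3805 : Strat := .win 758 0 714
noncomputable def n3806 : Strat := .win 674 2 673
noncomputable def n3807 : Strat := .win 672 2 672
noncomputable def n3808 : Strat := .move 673 n3806 (.cons 674 n3807 .nil)
noncomputable def n3809 : Strat := .move 714 n3805 (.cons 758 n3808 .nil)
noncomputable def n3810 : Strat := .move 759 n144 (.cons 760 n3809 .nil)
noncomputable def n3811 : Strat := .move 715 n3788 (.cons 761 n3794 (.cons 756 n3804 (.cons 757 n3810 .nil)))
noncomputable def n3812 : Strat := .move 800 n624 (.cons 801 n436 .nil)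
noncomputable def n3813 : Strat := .win 798 1 715
noncomputable def n3814 : Strat := .move 879 n3813 (.cons 798 n626 .nil)
noncomputable def n3815 : Strat := .move 757 n142 (.cons 756 n3814 .nil)
noncomputable def n3816 : Strat := .move 838 n3812 (.cons 837 n3815 .nil)
noncomputable def n3817 : Strat := .move 841 n225 (.cons 882 n3816 .nil)
noncomputable def n3818 : Strat := .move 839 n138 (.cons 880 n3817 .nil)
noncomputable def n3819 : Strat := .move 758 n21 (.cons 677 n3818 .nil)
noncomputable def n3820 : Strat := .move 719 n3800 (.cons 679 n3797 .nil)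
noncomputable def n3821 : Strat := .move 759 n796 (.cons 760 n3820 .nil)
noncomputable def n3822 : Strat := .move 841 n225 (.cons 882 n3821 .nil)
noncomputable def n3823 : Strat := .move 839 n138 (.cons 880 n3822 .nil)
noncomputable def n3824 : Strat := .move 758 n21 (.cons 677 n3823 .nil)
noncomputable def n3825 : Strat := .move 673 n3807 (.cons 672 n3806 .nil)
noncomputable def n3826 : Strat := .move 714 n176 (.cons 759 n3825 .nil)
noncomputable def n3827 : Strat := .move 757 n810 (.cons 755 n813 .nil)
noncomputable def n3828 : Strat := .move 715 n164 (.cons 760 n3826 (.cons 714 n3827 .nil))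
noncomputable def n3829 : Strat := .move 841 n225 (.cons 882 n3828 .nil)
noncomputable def n3830 : Strat := .move 839 n138 (.cons 880 n3829 .nil)
noncomputable def n3831 : Strat := .move 758 n21 (.cons 677 n3830 .nil)
noncomputable def n3832 : Strat := .win 755 5 714
noncomputable def n3833 : Strat := .move 756 n809 (.cons 719 n3832 .nil)
noncomputable def n3834 : Strat := .move 760 n3785 (.cons 761 n3784 .nil)
noncomputable def n3835 : Strat := .move 715 n3834 (.cons 759 n813 .nil)
noncomputable def n3836 : Strat := .move 719 n140 (.cons 720 n3835 .nil)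
noncomputable def n3837 : Strat := .win 713 0 713
noncomputable def n3838 : Strat := .move 714 n3837 (.cons 713 n176 .nil)
noncomputable def n3839 : Strat := .move 715 n164 (.cons 760 n3838 (.cons 714 n813 .nil))
noncomputable def n3840 : Strat := .move 756 n3832 (.cons 755 n3839 .nil)
noncomputable def n3841 : Strat := .move 757 n3833 (.cons 756 n3836 (.cons 719 n3840 .nil))
noncomputable def n3842 : Strat := .move 839 n138 (.cons 880 n3841 .nil)
noncomputable def n3843 : Strat := .move 758 n21 (.cons 677 n3842 .nil)
noncomputable def n3844 : Strat := .win 677 5 674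
noncomputable def n3845 : Strat := .move 678 n3844 (.cons 677 n3799 .nil)
noncomputable def n3846 : Strat := .move 719 n166 (.cons 757 n3845 .nil)
noncomputable def n3847 : Strat := .move 756 n165 (.cons 755 n3846 .nil)
noncomputable def n3848 : Strat := .win 678 5 674
noncomputable def n3849 : Strat := .win 800 1 676
noncomputable def n3850 : Strat := .move 759 n144 (.cons 760 n3849 .nil)
noncomputable def n3851 : Strat := .move 677 n3848 (.cons 678 n3850 .nil)
noncomputable def n3852 : Strat := .move 757 n809 (.cons 719 n3791 .nil)
noncomputable def n3853 : Strat := .move 674 n812 (.cons 673 n3852 .nil)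
noncomputable def n3854 : Strat := .move 756 n165 (.cons 755 n3853 .nil)
noncomputable def n3855 : Strat := .move 715 n3847 (.cons 757 n3851 (.cons 678 n3854 .nil))
noncomputable def n3856 : Strat := .move 715 n3848 (.cons 678 n3850 .nil)
noncomputable def n3857 : Strat := .move 677 n3771 (.cons 758 n3856 .nil)
noncomputable def n3858 : Strat := .move 718 n3783 (.cons 677 n3811 (.cons 760 n3819 (.cons 756 n3824 (.cons 720 n3831 (.cons 841 n3843 (.cons 758 n3855 (.cons 719 n3857 .nil)))))))
noncomputable def n3859 : Strat := .move 718 n21 (.cons 677 n3842 .nil)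
noncomputable def n3860 : Strat := .move 758 n27 (.cons 675 n3859 .nil)
noncomputable def n3861 : Strat := .win 758 7 675
noncomputable def n3862 : Strat := .win 798 6 675
noncomputable def n3863 : Strat := .win 797 1 633
noncomputable def n3864 : Strat := .win 593 1 592
noncomputable def n3865 : Strat := .move 718 n165 (.cons 755 n809 .nil)
noncomputable def n3866 : Strat := .move 715 n3864 (.cons 593 n3865 .nil)
noncomputable def n3867 : Strat := .move 634 n3863 (.cons 797 n3866 .nil)
noncomputable def n3868 : Strat := .win 715 1 592
noncomputable def n3869 : Strat := .win 553 3 552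
noncomputable def n3870 : Strat := .win 635 3 593
noncomputable def n3871 : Strat := .move 594 n3869 (.cons 553 n3870 .nil)
noncomputable def n3872 : Strat := .move 593 n3868 (.cons 715 n3871 .nil)
noncomputable def n3873 : Strat := .move 634 n3863 (.cons 797 n3872 .nil)
noncomputable def n3874 : Strat := .win 633 7 592
noncomputable def n3875 : Strat := .win 551 7 551
noncomputable def n3876 : Strat := .move 593 n3875 (.cons 551 n3871 .nil)
noncomputable def n3877 : Strat := .move 592 n3874 (.cons 633 n3876 .nil)
noncomputable def n3878 : Strat := .move 634 n3863 (.cons 797 n3877 .nil)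
noncomputable def n3879 : Strat := .win 754 5 713
noncomputable def n3880 : Strat := .win 715 4 714
noncomputable def n3881 : Strat := .move 755 n3879 (.cons 754 n3880 .nil)
noncomputable def n3882 : Strat := .move 718 n809 (.cons 719 n3881 .nil)
noncomputable def n3883 : Strat := .move 756 n3867 (.cons 718 n3873 (.cons 715 n3878 (.cons 634 n3882 .nil)))
noncomputable def n3884 : Strat := .move 757 n3862 (.cons 798 n3883 .nil)
noncomputable def n3885 : Strat := .move 675 n3861 (.cons 758 n3884 .nil)
noncomputable def n3886 : Strat := .move 718 n21 (.cons 677 n3823 .nil)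
noncomputable def n3887 : Strat := .move 758 n27 (.cons 675 n3886 .nil)
noncomputable def n3888 : Strat := .move 720 n3796 (.cons 757 n169 .nil)
noncomputable def n3889 : Strat := .move 838 n624 (.cons 801 n436 .nil)
noncomputable def n3890 : Strat := .move 801 n3683 (.cons 838 n937 .nil)
noncomputable def n3891 : Strat := .win 759 3 677
noncomputable def n3892 : Strat := .move 678 n3891 (.cons 759 n3799 .nil)
noncomputable def n3893 : Strat := .move 800 n3889 (.cons 837 n3890 (.cons 801 n3892 .nil))
noncomputable def n3894 : Strat := .move 719 n3671 (.cons 756 n3888 (.cons 720 n3893 .nil))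
noncomputable def n3895 : Strat := .move 841 n225 (.cons 882 n3894 .nil)
noncomputable def n3896 : Strat := .move 839 n138 (.cons 880 n3895 .nil)
noncomputable def n3897 : Strat := .move 718 n21 (.cons 677 n3896 .nil)
noncomputable def n3898 : Strat := .move 758 n27 (.cons 675 n3897 .nil)
noncomputable def n3899 : Strat := .win 757 6 675
noncomputable def n3900 : Strat := .move 754 n1401 (.cons 753 n1400 .nil)
noncomputable def n3901 : Strat := .move 795 n1399 (.cons 839 n3900 .nil)
noncomputable def n3902 : Strat := .move 796 n780 (.cons 841 n3901 .nil)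
noncomputable def n3903 : Strat := .move 755 n1303 (.cons 756 n1304 .nil)
noncomputable def n3904 : Strat := .move 800 n1533 (.cons 838 n3903 .nil)
noncomputable def n3905 : Strat := .move 837 n1461 (.cons 836 n3904 .nil)
noncomputable def n3906 : Strat := .move 796 n780 (.cons 841 n3905 .nil)
noncomputable def n3907 : Strat := .move 836 n1529 (.cons 835 n1528 .nil)
noncomputable def n3908 : Strat := .move 795 n1399 (.cons 839 n3907 .nil)
noncomputable def n3909 : Strat := .move 796 n780 (.cons 841 n3908 .nil)
noncomputable def n3910 : Strat := .move 796 n3901 (.cons 795 n3905 (.cons 755 n3908 .nil))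
noncomputable def n3911 : Strat := .win 838 3 674
noncomputable def n3912 : Strat := .win 674 3 633
noncomputable def n3913 : Strat := .move 634 n3912 (.cons 674 n3864 .nil)
noncomputable def n3914 : Strat := .move 715 n3911 (.cons 838 n3913 .nil)
noncomputable def n3915 : Strat := .move 674 n449 (.cons 839 n1771 .nil)
noncomputable def n3916 : Strat := .move 715 n3911 (.cons 838 n3915 .nil)
noncomputable def n3917 : Strat := .win 714 4 713
noncomputable def n3918 : Strat := .move 754 n3917 (.cons 714 n1765 .nil)
noncomputable def n3919 : Strat := .move 715 n3913 (.cons 593 n3915 (.cons 674 n3918 .nil))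
noncomputable def n3920 : Strat := .move 755 n1483 (.cons 800 n3919 .nil)
noncomputable def n3921 : Strat := .move 838 n775 (.cons 839 n774 .nil)
noncomputable def n3922 : Strat := .move 801 n3921 (.cons 837 n1872 (.cons 839 n2022 .nil))
noncomputable def n3923 : Strat := .move 800 n565 (.cons 755 n3922 .nil)
noncomputable def n3924 : Strat := .move 756 n3914 (.cons 593 n3916 (.cons 838 n3920 (.cons 715 n3923 .nil)))
noncomputable def n3925 : Strat := .move 797 n3902 (.cons 795 n3906 (.cons 755 n3909 (.cons 841 n3910 (.cons 796 n3924 .nil))))
noncomputable def n3926 : Strat := .move 798 n3899 (.cons 757 n3925 .nil)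
noncomputable def n3927 : Strat := .move 675 n3861 (.cons 758 n3926 .nil)
noncomputable def n3928 : Strat := .win 675 2 674
noncomputable def n3929 : Strat := .move 719 n3928 (.cons 675 n166 .nil)
noncomputable def n3930 : Strat := .move 674 n812 (.cons 673 n3929 .nil)
noncomputable def n3931 : Strat := .move 756 n165 (.cons 755 n3930 .nil)
noncomputable def n3932 : Strat := .move 719 n3928 (.cons 675 n3845 .nil)
noncomputable def n3933 : Strat := .move 674 n812 (.cons 673 n3932 .nil)
noncomputable def n3934 : Strat := .move 798 n450 (.cons 633 n755 .nil)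
noncomputable def n3935 : Strat := .move 759 n3849 (.cons 800 n144 .nil)
noncomputable def n3936 : Strat := .move 677 n3848 (.cons 678 n3935 .nil)
noncomputable def n3937 : Strat := .move 757 n3791 (.cons 592 n3934 (.cons 798 n3936 .nil))
noncomputable def n3938 : Strat := .move 674 n812 (.cons 673 n3937 .nil)
noncomputable def n3939 : Strat := .move 756 n165 (.cons 755 n3938 .nil)
noncomputable def n3940 : Strat := .move 715 n3931 (.cons 757 n3933 (.cons 674 n3847 (.cons 719 n3939 .nil)))
noncomputable def n3941 : Strat := .win 674 2 674
noncomputable def n3942 : Strat := .move 757 n141 (.cons 756 n3862 .nil)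
noncomputable def n3943 : Strat := .move 675 n3941 (.cons 674 n3942 .nil)
noncomputable def n3944 : Strat := .move 760 n3785 (.cons 761 n3943 .nil)
noncomputable def n3945 : Strat := .move 678 n3799 (.cons 679 n3944 .nil)
noncomputable def n3946 : Strat := .move 675 n3862 (.cons 798 n3941 .nil)
noncomputable def n3947 : Strat := .move 757 n141 (.cons 756 n3946 .nil)
noncomputable def n3948 : Strat := .win 841 3 677
noncomputable def n3949 : Strat := .move 759 n3948 (.cons 841 n724 .nil)
noncomputable def n3950 : Strat := .move 759 n581 (.cons 637 n3948 .nil)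
noncomputable def n3951 : Strat := .move 759 n581 (.cons 637 n724 .nil)
noncomputable def n3952 : Strat := .win 843 6 678
noncomputable def n3953 : Strat := .move 802 n573 (.cons 839 n3952 .nil)
noncomputable def n3954 : Strat := .move 801 n738 (.cons 841 n3953 .nil)
noncomputable def n3955 : Strat := .move 800 n3949 (.cons 677 n3950 (.cons 841 n3951 (.cons 759 n3954 .nil)))
noncomputable def n3956 : Strat := .move 760 n3785 (.cons 761 n3955 .nil)
noncomputable def n3957 : Strat := .move 678 n3799 (.cons 679 n3956 .nil)
noncomputable def n3958 : Strat := .move 719 n3945 (.cons 678 n3947 (.cons 757 n3957 .nil))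
noncomputable def n3959 : Strat := .move 719 n3928 (.cons 675 n3786 .nil)
noncomputable def n3960 : Strat := .move 674 n812 (.cons 673 n3959 .nil)
noncomputable def n3961 : Strat := .move 715 n3933 (.cons 675 n3851 (.cons 677 n3960 .nil))
noncomputable def n3962 : Strat := .move 674 n812 (.cons 673 n3928 .nil)
noncomputable def n3963 : Strat := .move 715 n3784 (.cons 759 n3962 .nil)
noncomputable def n3964 : Strat := .move 760 n3785 (.cons 761 n3963 .nil)
noncomputable def n3965 : Strat := .win 800 1 636
noncomputable def n3966 : Strat := .win 596 1 595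
noncomputable def n3967 : Strat := .move 637 n3965 (.cons 800 n3966 .nil)
noncomputable def n3968 : Strat := .move 759 n793 (.cons 715 n3967 .nil)
noncomputable def n3969 : Strat := .move 678 n3799 (.cons 679 n3968 .nil)
noncomputable def n3970 : Strat := .move 760 n3785 (.cons 761 n3969 .nil)
noncomputable def n3971 : Strat := .move 719 n3964 (.cons 759 n3947 (.cons 674 n3970 .nil))
noncomputable def n3972 : Strat := .move 715 n3844 (.cons 677 n3962 .nil)
noncomputable def n3973 : Strat := .move 678 n3799 (.cons 679 n3972 .nil)
noncomputable def n3974 : Strat := .move 756 n166 (.cons 757 n165 .nil)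
noncomputable def n3975 : Strat := .move 715 n3844 (.cons 677 n3974 .nil)
noncomputable def n3976 : Strat := .move 720 n167 (.cons 762 n3975 .nil)
noncomputable def n3977 : Strat := .move 761 n168 (.cons 760 n3976 .nil)
noncomputable def n3978 : Strat := .move 678 n3799 (.cons 679 n3977 .nil)
noncomputable def n3979 : Strat := .move 719 n3973 (.cons 677 n3947 (.cons 674 n3978 .nil))
noncomputable def n3980 : Strat := .move 756 n165 (.cons 755 n166 .nil)
noncomputable def n3981 : Strat := .move 715 n3844 (.cons 677 n3980 .nil)
noncomputable def n3982 : Strat := .move 678 n3799 (.cons 679 n3981 .nil)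
noncomputable def n3983 : Strat := .move 719 n3973 (.cons 674 n3982 (.cons 678 n3947 .nil))
noncomputable def n3984 : Strat := .move 715 n3784 (.cons 759 n3844 .nil)
noncomputable def n3985 : Strat := .move 760 n3785 (.cons 761 n3984 .nil)
noncomputable def n3986 : Strat := .move 678 n3799 (.cons 679 n3985 .nil)
noncomputable def n3987 : Strat := .win 801 6 636
noncomputable def n3988 : Strat := .win 595 6 595
noncomputable def n3989 : Strat := .move 636 n3987 (.cons 801 n3988 .nil)
noncomputable def n3990 : Strat := .move 677 n3849 (.cons 800 n3989 .nil)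
noncomputable def n3991 : Strat := .move 759 n793 (.cons 715 n3990 .nil)
noncomputable def n3992 : Strat := .move 760 n3785 (.cons 761 n3991 .nil)
noncomputable def n3993 : Strat := .move 679 n171 (.cons 678 n170 .nil)
noncomputable def n3994 : Strat := .move 720 n167 (.cons 762 n3993 .nil)
noncomputable def n3995 : Strat := .move 761 n168 (.cons 760 n3994 .nil)
noncomputable def n3996 : Strat := .move 719 n3986 (.cons 678 n3992 (.cons 760 n3982 (.cons 677 n3970 (.cons 715 n3995 .nil))))
noncomputable def n3997 : Strat := .move 719 n3964 (.cons 760 n3947 (.cons 674 n3992 .nil))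
noncomputable def n3998 : Strat := .move 677 n3849 (.cons 800 n3848 .nil)
noncomputable def n3999 : Strat := .move 715 n144 (.cons 760 n3998 .nil)
noncomputable def n4000 : Strat := .move 755 n178 (.cons 754 n177 .nil)
noncomputable def n4001 : Strat := .move 714 n3807 (.cons 672 n4000 .nil)
noncomputable def n4002 : Strat := .move 673 n3806 (.cons 674 n4001 .nil)
noncomputable def n4003 : Strat := .move 715 n144 (.cons 760 n4002 .nil)
noncomputable def n4004 : Strat := .move 677 n3849 (.cons 800 n4003 .nil)
noncomputable def n4005 : Strat := .move 715 n3848 (.cons 678 n4002 .nil)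
noncomputable def n4006 : Strat := .move 677 n3849 (.cons 800 n4005 .nil)
noncomputable def n4007 : Strat := .move 677 n3848 (.cons 678 n4002 .nil)
noncomputable def n4008 : Strat := .move 715 n144 (.cons 760 n4007 .nil)
noncomputable def n4009 : Strat := .move 797 n559 (.cons 760 n1951 .nil)
noncomputable def n4010 : Strat := .move 756 n1391 (.cons 801 n565 .nil)
noncomputable def n4011 : Strat := .move 757 n755 (.cons 675 n4010 .nil)
noncomputable def n4012 : Strat := .move 797 n559 (.cons 760 n4011 .nil)
noncomputable def n4013 : Strat := .move 801 n751 (.cons 756 n1132 .nil)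
noncomputable def n4014 : Strat := .move 757 n755 (.cons 675 n4013 .nil)
noncomputable def n4015 : Strat := .win 801 5 757
noncomputable def n4016 : Strat := .win 762 2 717
noncomputable def n4017 : Strat := .move 761 n4015 (.cons 801 n4016 .nil)
noncomputable def n4018 : Strat := .move 760 n562 (.cons 797 n4017 .nil)
noncomputable def n4019 : Strat := .move 798 n4009 (.cons 754 n4012 (.cons 797 n4014 (.cons 756 n4018 .nil)))
noncomputable def n4020 : Strat := .move 800 n724 (.cons 677 n4019 .nil)
noncomputable def n4021 : Strat := .move 714 n178 (.cons 754 n3825 .nil)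
noncomputable def n4022 : Strat := .move 755 n177 (.cons 756 n4021 .nil)
noncomputable def n4023 : Strat := .move 715 n144 (.cons 760 n4022 .nil)
noncomputable def n4024 : Strat := .move 759 n3999 (.cons 678 n4004 (.cons 760 n4006 (.cons 800 n4008 (.cons 715 n4020 (.cons 677 n4023 .nil)))))
noncomputable def n4025 : Strat := .move 718 n3940 (.cons 715 n3958 (.cons 757 n3961 (.cons 675 n3855 (.cons 677 n3971 (.cons 759 n3979 (.cons 760 n3983 (.cons 674 n3996 (.cons 678 n3997 (.cons 719 n4024 .nil)))))))))
noncomputable def n4026 : Strat := .move 715 n3844 (.cons 677 n3784 .nil)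
noncomputable def n4027 : Strat := .move 760 n3785 (.cons 761 n4026 .nil)
noncomputable def n4028 : Strat := .move 678 n3799 (.cons 679 n4027 .nil)
noncomputable def n4029 : Strat := .move 719 n3941 (.cons 674 n4028 .nil)
noncomputable def n4030 : Strat := .move 797 n1771 (.cons 634 n3911 .nil)
noncomputable def n4031 : Strat := .move 756 n165 (.cons 755 n4030 .nil)
noncomputable def n4032 : Strat := .move 674 n812 (.cons 673 n4031 .nil)
noncomputable def n4033 : Strat := .move 755 n177 (.cons 756 n3936 .nil)
noncomputable def n4034 : Strat := .move 674 n812 (.cons 673 n4033 .nil)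
noncomputable def n4035 : Strat := .move 756 n165 (.cons 755 n3936 .nil)
noncomputable def n4036 : Strat := .move 674 n812 (.cons 673 n3936 .nil)
noncomputable def n4037 : Strat := .move 715 n4032 (.cons 797 n4034 (.cons 674 n4035 (.cons 756 n4036 .nil)))
noncomputable def n4038 : Strat := .move 720 n167 (.cons 762 n172 .nil)
noncomputable def n4039 : Strat := .move 761 n168 (.cons 760 n4038 .nil)
noncomputable def n4040 : Strat := .move 719 n3941 (.cons 674 n4039 .nil)
noncomputable def n4041 : Strat := .win 719 2 674
noncomputable def n4042 : Strat := .win 672 0 672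
noncomputable def n4043 : Strat := .win 715 2 673
noncomputable def n4044 : Strat := .move 673 n4042 (.cons 672 n4043 .nil)
noncomputable def n4045 : Strat := .move 674 n4041 (.cons 719 n4044 .nil)
noncomputable def n4046 : Strat := .win 715 5 674
noncomputable def n4047 : Strat := .win 719 5 675
noncomputable def n4048 : Strat := .win 680 4 676
noncomputable def n4049 : Strat := .move 679 n4047 (.cons 719 n4048 .nil)
noncomputable def n4050 : Strat := .move 678 n4046 (.cons 715 n4049 .nil)
noncomputable def n4051 : Strat := .win 719 0 716
noncomputable def n4052 : Strat := .move 761 n4016 (.cons 762 n4051 .nil)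
noncomputable def n4053 : Strat := .move 760 n793 (.cons 715 n4052 .nil)
noncomputable def n4054 : Strat := .move 759 n3849 (.cons 800 n4053 .nil)
noncomputable def n4055 : Strat := .move 760 n3987 (.cons 801 n4052 .nil)
noncomputable def n4056 : Strat := .win 555 3 554
noncomputable def n4057 : Strat := .win 637 3 595
noncomputable def n4058 : Strat := .move 596 n4056 (.cons 555 n4057 .nil)
noncomputable def n4059 : Strat := .win 553 7 553
noncomputable def n4060 : Strat := .win 635 7 594
noncomputable def n4061 : Strat := .move 594 n4059 (.cons 553 n4060 .nil)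
noncomputable def n4062 : Strat := .move 595 n4058 (.cons 637 n4061 .nil)
noncomputable def n4063 : Strat := .move 636 n4055 (.cons 760 n4062 .nil)
noncomputable def n4064 : Strat := .move 759 n3849 (.cons 800 n4063 .nil)
noncomputable def n4065 : Strat := .move 677 n4050 (.cons 679 n3856 (.cons 678 n4054 (.cons 715 n4064 .nil)))
noncomputable def n4066 : Strat := .move 718 n4029 (.cons 719 n4037 (.cons 715 n4040 (.cons 760 n4045 (.cons 674 n4065 .nil))))
noncomputable def n4067 : Strat := .move 675 n3861 (.cons 758 n4066 .nil)
noncomputable def n4068 : Strat := .move 716 n3782 (.cons 675 n3858 (.cons 841 n3860 (.cons 677 n3885 (.cons 756 n3887 (.cons 715 n3898 (.cons 718 n3927 (.cons 758 n4025 (.cons 757 n4067 .nil))))))))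
noncomputable def n4069 : Strat := .move 800 n435 (.cons 801 n774 .nil)
noncomputable def n4070 : Strat := .win 757 1 715
noncomputable def n4071 : Strat := .move 879 n626 (.cons 878 n4070 .nil)
noncomputable def n4072 : Strat := .move 838 n4069 (.cons 837 n4071 .nil)
noncomputable def n4073 : Strat := .move 797 n560 (.cons 796 n4072 .nil)
noncomputable def n4074 : Strat := .move 841 n225 (.cons 882 n4073 .nil)
noncomputable def n4075 : Strat := .move 798 n139 (.cons 676 n4074 .nil)
noncomputable def n4076 : Strat := .move 839 n138 (.cons 880 n4075 .nil)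
noncomputable def n4077 : Strat := .move 716 n27 (.cons 675 n4076 .nil)
noncomputable def n4078 : Strat := .move 757 n1577 (.cons 756 n3813 .nil)
noncomputable def n4079 : Strat := .move 879 n626 (.cons 878 n4078 .nil)
noncomputable def n4080 : Strat := .move 797 n631 (.cons 796 n4079 .nil)
noncomputable def n4081 : Strat := .move 838 n3058 (.cons 800 n3755 (.cons 837 n4080 .nil))
noncomputable def n4082 : Strat := .move 841 n225 (.cons 882 n4081 .nil)
noncomputable def n4083 : Strat := .move 839 n138 (.cons 880 n4082 .nil)
noncomputable def n4084 : Strat := .move 716 n27 (.cons 675 n4083 .nil)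
noncomputable def n4085 : Strat := .move 758 n4077 (.cons 716 n808 (.cons 882 n163 (.cons 798 n1071 (.cons 676 n4084 .nil))))
noncomputable def n4086 : Strat := .move 716 n27 (.cons 675 n795 .nil)
noncomputable def n4087 : Strat := .move 839 n138 (.cons 880 n153 .nil)
noncomputable def n4088 : Strat := .move 676 n805 (.cons 800 n4087 .nil)
noncomputable def n4089 : Strat := .move 841 n225 (.cons 882 n4088 .nil)
noncomputable def n4090 : Strat := .move 759 n4086 (.cons 716 n4089 .nil)
noncomputable def n4091 : Strat := .move 718 n21 (.cons 677 n4090 .nil)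
noncomputable def n4092 : Strat := .move 759 n793 (.cons 715 n3800 .nil)
noncomputable def n4093 : Strat := .move 760 n3785 (.cons 761 n4092 .nil)
noncomputable def n4094 : Strat := .move 759 n3795 (.cons 721 n793 .nil)
noncomputable def n4095 : Strat := .move 720 n4094 (.cons 715 n172 .nil)
noncomputable def n4096 : Strat := .move 760 n3785 (.cons 761 n4095 .nil)
noncomputable def n4097 : Strat := .move 800 n3892 (.cons 679 n3889 .nil)
noncomputable def n4098 : Strat := .move 839 n138 (.cons 880 n4097 .nil)
noncomputable def n4099 : Strat := .move 839 n138 (.cons 880 n173 .nil)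
noncomputable def n4100 : Strat := .move 714 n3825 (.cons 674 n4000 .nil)
noncomputable def n4101 : Strat := .move 715 n146 (.cons 714 n3834 (.cons 760 n3826 (.cons 759 n4100 .nil)))
noncomputable def n4102 : Strat := .move 719 n4093 (.cons 800 n4096 (.cons 760 n4098 (.cons 759 n4099 (.cons 678 n4101 .nil))))
noncomputable def n4103 : Strat := .move 841 n225 (.cons 882 n4102 .nil)
noncomputable def n4104 : Strat := .move 716 n27 (.cons 675 n4103 .nil)
noncomputable def n4105 : Strat := .move 718 n21 (.cons 677 n4104 .nil)
noncomputable def n4106 : Strat := .move 758 n4091 (.cons 839 n3679 (.cons 841 n158 (.cons 677 n808 (.cons 676 n4105 .nil))))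
noncomputable def n4107 : Strat := .move 716 n27 (.cons 675 n158 .nil)
noncomputable def n4108 : Strat := .move 716 n27 (.cons 675 n3886 .nil)
noncomputable def n4109 : Strat := .move 758 n4107 (.cons 839 n1071 (.cons 716 n808 (.cons 676 n4108 .nil)))
noncomputable def n4110 : Strat := .move 839 n1538 (.cons 676 n1887 .nil)
noncomputable def n4111 : Strat := .move 716 n755 (.cons 675 n4110 .nil)
noncomputable def n4112 : Strat := .move 757 n1391 (.cons 801 n4111 .nil)
noncomputable def n4113 : Strat := .move 756 n565 (.cons 755 n4112 .nil)
noncomputable def n4114 : Strat := .move 838 n1442 (.cons 879 n774 .nil)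
noncomputable def n4115 : Strat := .move 716 n755 (.cons 675 n4114 .nil)
noncomputable def n4116 : Strat := .move 757 n1391 (.cons 801 n4115 .nil)
noncomputable def n4117 : Strat := .move 756 n565 (.cons 755 n4116 .nil)
noncomputable def n4118 : Strat := .move 837 n1533 (.cons 838 n2044 .nil)
noncomputable def n4119 : Strat := .move 800 n1412 (.cons 756 n1614 (.cons 837 n4113 (.cons 839 n4117 (.cons 801 n4118 .nil))))
noncomputable def n4120 : Strat := .move 759 n559 (.cons 760 n3760 .nil)
noncomputable def n4121 : Strat := .move 838 n774 (.cons 837 n4120 .nil)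
noncomputable def n4122 : Strat := .move 718 n724 (.cons 677 n3759 .nil)
noncomputable def n4123 : Strat := .move 759 n559 (.cons 760 n4122 .nil)
noncomputable def n4124 : Strat := .move 841 n4121 (.cons 837 n4123 (.cons 676 n1433 .nil))
noncomputable def n4125 : Strat := .move 841 n1412 (.cons 801 n4123 .nil)
noncomputable def n4126 : Strat := .move 838 n774 (.cons 837 n2023 .nil)
noncomputable def n4127 : Strat := .move 841 n1385 (.cons 878 n4126 (.cons 801 n4123 .nil))
noncomputable def n4128 : Strat := .move 800 n1409 (.cons 838 n1621 (.cons 801 n4124 (.cons 757 n4125 (.cons 756 n4127 .nil))))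
noncomputable def n4129 : Strat := .move 797 n1404 (.cons 755 n1532 (.cons 839 n1537 (.cons 841 n4119 (.cons 796 n4128 .nil))))
noncomputable def n4130 : Strat := .move 800 n435 (.cons 801 n436 .nil)
noncomputable def n4131 : Strat := .move 838 n1539 (.cons 879 n4130 .nil)
noncomputable def n4132 : Strat := .move 839 n1538 (.cons 676 n4131 .nil)
noncomputable def n4133 : Strat := .move 757 n755 (.cons 675 n4132 .nil)
noncomputable def n4134 : Strat := .win 676 0 673
noncomputable def n4135 : Strat := .move 673 n4042 (.cons 672 n4134 .nil)
noncomputable def n4136 : Strat := .move 674 n4041 (.cons 719 n4135 .nil)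
noncomputable def n4137 : Strat := .move 715 n3936 (.cons 800 n4002 .nil)
noncomputable def n4138 : Strat := .win 676 5 672
noncomputable def n4139 : Strat := .win 712 5 671
noncomputable def n4140 : Strat := .move 713 n4138 (.cons 676 n4139 .nil)
noncomputable def n4141 : Strat := .move 714 n4000 (.cons 756 n4140 .nil)
noncomputable def n4142 : Strat := .move 715 n3936 (.cons 677 n4141 .nil)
noncomputable def n4143 : Strat := .move 674 n4041 (.cons 719 n4142 .nil)
noncomputable def n4144 : Strat := .win 676 2 675
noncomputable def n4145 : Strat := .move 720 n4144 (.cons 676 n169 .nil)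
noncomputable def n4146 : Strat := .move 715 n3844 (.cons 677 n3834 .nil)
noncomputable def n4147 : Strat := .move 678 n3799 (.cons 679 n4146 .nil)
noncomputable def n4148 : Strat := .move 720 n4144 (.cons 676 n172 .nil)
noncomputable def n4149 : Strat := .move 719 n4145 (.cons 676 n4147 (.cons 761 n4148 .nil))
noncomputable def n4150 : Strat := .move 718 n4136 (.cons 719 n4137 (.cons 673 n4143 (.cons 674 n4149 .nil)))
noncomputable def n4151 : Strat := .move 675 n3899 (.cons 757 n4150 .nil)
noncomputable def n4152 : Strat := .move 756 n1813 (.cons 880 n3865 .nil)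
noncomputable def n4153 : Strat := .move 715 n143 (.cons 674 n4152 .nil)
noncomputable def n4154 : Strat := .move 839 n4131 (.cons 838 n4153 .nil)
noncomputable def n4155 : Strat := .move 757 n755 (.cons 675 n4154 .nil)
noncomputable def n4156 : Strat := .move 839 n1538 (.cons 676 n4153 .nil)
noncomputable def n4157 : Strat := .move 757 n755 (.cons 675 n4156 .nil)
noncomputable def n4158 : Strat := .win 714 5 673
noncomputable def n4159 : Strat := .win 839 3 675
noncomputable def n4160 : Strat := .move 757 n4159 (.cons 839 n810 .nil)
noncomputable def n4161 : Strat := .move 676 n4158 (.cons 714 n4160 .nil)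
noncomputable def n4162 : Strat := .move 677 n3848 (.cons 678 n4161 .nil)
noncomputable def n4163 : Strat := .move 839 n143 (.cons 674 n1538 .nil)
noncomputable def n4164 : Strat := .move 757 n809 (.cons 719 n4163 .nil)
noncomputable def n4165 : Strat := .move 756 n165 (.cons 755 n4164 .nil)
noncomputable def n4166 : Strat := .move 715 n3851 (.cons 760 n4162 (.cons 677 n4165 .nil))
noncomputable def n4167 : Strat := .win 676 5 673
noncomputable def n4168 : Strat := .move 714 n4167 (.cons 676 n3825 .nil)
noncomputable def n4169 : Strat := .move 677 n3848 (.cons 678 n4168 .nil)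
noncomputable def n4170 : Strat := .win 839 7 674
noncomputable def n4171 : Strat := .win 756 6 633
noncomputable def n4172 : Strat := .move 633 n4171 (.cons 756 n3790 .nil)
noncomputable def n4173 : Strat := .move 757 n4170 (.cons 839 n4172 .nil)
noncomputable def n4174 : Strat := .move 674 n812 (.cons 673 n4173 .nil)
noncomputable def n4175 : Strat := .move 715 n3851 (.cons 760 n4169 (.cons 677 n4174 .nil))
noncomputable def n4176 : Strat := .move 714 n4167 (.cons 676 n4000 .nil)
noncomputable def n4177 : Strat := .move 677 n3848 (.cons 678 n4176 .nil)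
noncomputable def n4178 : Strat := .move 719 n3799 (.cons 679 n3834 .nil)
noncomputable def n4179 : Strat := .move 678 n3844 (.cons 677 n4178 .nil)
noncomputable def n4180 : Strat := .move 839 n4169 (.cons 676 n4002 (.cons 673 n4177 (.cons 714 n4179 .nil)))
noncomputable def n4181 : Strat := .move 800 n724 (.cons 677 n4100 .nil)
noncomputable def n4182 : Strat := .move 759 n144 (.cons 760 n4181 .nil)
noncomputable def n4183 : Strat := .move 719 n3785 (.cons 761 n4100 .nil)
noncomputable def n4184 : Strat := .move 760 n3784 (.cons 759 n4183 .nil)
noncomputable def n4185 : Strat := .move 715 n3851 (.cons 800 n4180 (.cons 760 n4169 (.cons 678 n4182 (.cons 677 n4184 .nil))))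
noncomputable def n4186 : Strat := .move 837 n1090 (.cons 800 n1449 .nil)
noncomputable def n4187 : Strat := .move 838 n1539 (.cons 879 n4186 .nil)
noncomputable def n4188 : Strat := .move 839 n1538 (.cons 676 n4187 .nil)
noncomputable def n4189 : Strat := .move 757 n141 (.cons 756 n4188 .nil)
noncomputable def n4190 : Strat := .move 715 n3784 (.cons 759 n4100 .nil)
noncomputable def n4191 : Strat := .move 760 n3785 (.cons 761 n4190 .nil)
noncomputable def n4192 : Strat := .move 719 n4189 (.cons 757 n4191 (.cons 756 n3970 .nil))
noncomputable def n4193 : Strat := .move 674 n450 (.cons 633 n812 .nil)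
noncomputable def n4194 : Strat := .move 757 n809 (.cons 719 n4193 .nil)
noncomputable def n4195 : Strat := .move 756 n165 (.cons 755 n4194 .nil)
noncomputable def n4196 : Strat := .move 839 n1813 (.cons 880 n1538 .nil)
noncomputable def n4197 : Strat := .move 757 n809 (.cons 719 n4196 .nil)
noncomputable def n4198 : Strat := .move 756 n165 (.cons 755 n4197 .nil)
noncomputable def n4199 : Strat := .move 715 n4165 (.cons 839 n4195 (.cons 756 n4169 (.cons 674 n4198 .nil)))
noncomputable def n4200 : Strat := .move 715 n3848 (.cons 678 n4168 .nil)
noncomputable def n4201 : Strat := .move 677 n3856 (.cons 715 n4064 (.cons 759 n4200 .nil))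
noncomputable def n4202 : Strat := .move 757 n143 (.cons 674 n1538 .nil)
noncomputable def n4203 : Strat := .win 757 7 674
noncomputable def n4204 : Strat := .move 674 n4203 (.cons 757 n812 .nil)
noncomputable def n4205 : Strat := .win 841 7 676
noncomputable def n4206 : Strat := .win 757 3 675
noncomputable def n4207 : Strat := .move 676 n4205 (.cons 841 n4206 .nil)
noncomputable def n4208 : Strat := .move 839 n4202 (.cons 676 n4204 (.cons 674 n4207 (.cons 757 n1117 .nil)))
noncomputable def n4209 : Strat := .move 800 n724 (.cons 677 n4208 .nil)
noncomputable def n4210 : Strat := .move 759 n144 (.cons 760 n4209 .nil)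
noncomputable def n4211 : Strat := .move 715 n4165 (.cons 756 n4210 (.cons 757 n4182 (.cons 674 n4198 .nil)))
noncomputable def n4212 : Strat := .move 674 n4170 (.cons 839 n812 .nil)
noncomputable def n4213 : Strat := .move 757 n809 (.cons 719 n4212 .nil)
noncomputable def n4214 : Strat := .move 756 n165 (.cons 755 n4213 .nil)
noncomputable def n4215 : Strat := .move 719 n3799 (.cons 679 n3785 .nil)
noncomputable def n4216 : Strat := .move 678 n3844 (.cons 677 n4215 .nil)
noncomputable def n4217 : Strat := .move 760 n3784 (.cons 759 n4216 .nil)
noncomputable def n4218 : Strat := .move 674 n812 (.cons 673 n4217 .nil)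
noncomputable def n4219 : Strat := .move 719 n166 (.cons 757 n3834 .nil)
noncomputable def n4220 : Strat := .move 756 n165 (.cons 755 n4219 .nil)
noncomputable def n4221 : Strat := .move 715 n4214 (.cons 756 n4218 (.cons 674 n4220 (.cons 719 n4174 .nil)))
noncomputable def n4222 : Strat := .move 715 n3851 (.cons 677 n4198 .nil)
noncomputable def n4223 : Strat := .win 801 7 636
noncomputable def n4224 : Strat := .move 636 n4223 (.cons 801 n3988 .nil)
noncomputable def n4225 : Strat := .move 760 n3785 (.cons 761 n4224 .nil)
noncomputable def n4226 : Strat := .move 678 n3799 (.cons 679 n4225 .nil)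
noncomputable def n4227 : Strat := .win 722 2 677
noncomputable def n4228 : Strat := .win 676 2 676
noncomputable def n4229 : Strat := .move 721 n4227 (.cons 722 n4228 .nil)
noncomputable def n4230 : Strat := .move 720 n169 (.cons 760 n4229 .nil)
noncomputable def n4231 : Strat := .move 678 n3799 (.cons 679 n4230 .nil)
noncomputable def n4232 : Strat := .win 721 2 676
noncomputable def n4233 : Strat := .move 676 n4232 (.cons 721 n4159 .nil)
noncomputable def n4234 : Strat := .move 720 n169 (.cons 760 n4233 .nil)
noncomputable def n4235 : Strat := .move 757 n141 (.cons 756 n4234 .nil)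
noncomputable def n4236 : Strat := .move 757 n141 (.cons 756 n4159 .nil)
noncomputable def n4237 : Strat := .move 720 n4232 (.cons 721 n170 .nil)
noncomputable def n4238 : Strat := .move 676 n4236 (.cons 839 n4237 .nil)
noncomputable def n4239 : Strat := .move 679 n171 (.cons 678 n4238 .nil)
noncomputable def n4240 : Strat := .move 677 n4226 (.cons 801 n4231 (.cons 678 n4235 (.cons 760 n4239 .nil)))
noncomputable def n4241 : Strat := .move 720 n170 (.cons 680 n169 .nil)
noncomputable def n4242 : Strat := .move 679 n171 (.cons 678 n4241 .nil)
noncomputable def n4243 : Strat := .move 757 n141 (.cons 756 n4242 .nil)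
noncomputable def n4244 : Strat := .move 678 n3948 (.cons 841 n3799 .nil)
noncomputable def n4245 : Strat := .move 759 n724 (.cons 677 n4244 .nil)
noncomputable def n4246 : Strat := .move 841 n569 (.cons 882 n3759 .nil)
noncomputable def n4247 : Strat := .move 760 n3785 (.cons 761 n4246 .nil)
noncomputable def n4248 : Strat := .move 759 n724 (.cons 677 n4247 .nil)
noncomputable def n4249 : Strat := .move 720 n170 (.cons 680 n167 .nil)
noncomputable def n4250 : Strat := .move 679 n171 (.cons 678 n4249 .nil)
noncomputable def n4251 : Strat := .move 761 n168 (.cons 760 n4250 .nil)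
noncomputable def n4252 : Strat := .move 800 n4245 (.cons 678 n4248 (.cons 841 n4251 .nil))
noncomputable def n4253 : Strat := .move 719 n4189 (.cons 800 n4240 (.cons 839 n4243 (.cons 757 n4252 .nil)))
noncomputable def n4254 : Strat := .move 718 n4166 (.cons 719 n4175 (.cons 757 n4185 (.cons 677 n4192 (.cons 759 n4199 (.cons 756 n4201 (.cons 678 n4211 (.cons 676 n4221 (.cons 674 n4222 (.cons 715 n4253 .nil)))))))))
noncomputable def n4255 : Strat := .move 719 n3928 (.cons 675 n3834 .nil)
noncomputable def n4256 : Strat := .move 674 n812 (.cons 673 n4255 .nil)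
noncomputable def n4257 : Strat := .move 715 n3851 (.cons 760 n4169 (.cons 677 n4256 .nil))
noncomputable def n4258 : Strat := .move 675 n3936 (.cons 800 n4002 .nil)
noncomputable def n4259 : Strat := .move 715 n4258 (.cons 755 n3851 (.cons 678 n4182 (.cons 760 n4169 (.cons 677 n4002 .nil))))
noncomputable def n4260 : Strat := .move 674 n3928 (.cons 675 n812 .nil)
noncomputable def n4261 : Strat := .move 715 n3784 (.cons 759 n4260 .nil)
noncomputable def n4262 : Strat := .move 760 n3785 (.cons 761 n4261 .nil)
noncomputable def n4263 : Strat := .move 675 n4144 (.cons 676 n3941 .nil)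
noncomputable def n4264 : Strat := .move 720 n4263 (.cons 674 n172 .nil)
noncomputable def n4265 : Strat := .move 760 n3785 (.cons 761 n4264 .nil)
noncomputable def n4266 : Strat := .move 675 n3941 (.cons 674 n4148 .nil)
noncomputable def n4267 : Strat := .move 839 n4262 (.cons 673 n4265 (.cons 760 n4266 (.cons 674 n4039 .nil)))
noncomputable def n4268 : Strat := .move 675 n3941 (.cons 674 n4145 .nil)
noncomputable def n4269 : Strat := .move 719 n4267 (.cons 675 n4191 (.cons 715 n4268 (.cons 760 n4266 (.cons 674 n3970 .nil))))
noncomputable def n4270 : Strat := .move 675 n4041 (.cons 719 n4141 .nil)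
noncomputable def n4271 : Strat := .move 674 n812 (.cons 673 n4270 .nil)
noncomputable def n4272 : Strat := .move 677 n3849 (.cons 800 n4176 .nil)
noncomputable def n4273 : Strat := .move 759 n144 (.cons 760 n4272 .nil)
noncomputable def n4274 : Strat := .move 715 n4271 (.cons 673 n4273 (.cons 714 n4256 .nil))
noncomputable def n4275 : Strat := .move 674 n812 (.cons 673 n4176 .nil)
noncomputable def n4276 : Strat := .move 677 n3848 (.cons 678 n4275 .nil)
noncomputable def n4277 : Strat := .move 719 n3799 (.cons 679 n3928 .nil)
noncomputable def n4278 : Strat := .move 678 n3844 (.cons 677 n4277 .nil)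
noncomputable def n4279 : Strat := .move 755 n177 (.cons 756 n4278 .nil)
noncomputable def n4280 : Strat := .move 674 n812 (.cons 673 n4279 .nil)
noncomputable def n4281 : Strat := .move 715 n4169 (.cons 672 n4276 (.cons 674 n4177 (.cons 678 n4271 (.cons 676 n4280 .nil))))
noncomputable def n4282 : Strat := .move 715 n3848 (.cons 678 n4176 .nil)
noncomputable def n4283 : Strat := .move 677 n3856 (.cons 759 n4282 (.cons 678 n4054 (.cons 715 n4064 .nil)))
noncomputable def n4284 : Strat := .move 673 n3806 (.cons 674 n3936 .nil)
noncomputable def n4285 : Strat := .move 675 n4284 (.cons 673 n4033 (.cons 677 n4002 .nil))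
noncomputable def n4286 : Strat := .move 715 n4256 (.cons 760 n4280 (.cons 719 n4285 (.cons 673 n3851 .nil)))
noncomputable def n4287 : Strat := .move 800 n4205 (.cons 841 n724 .nil)
noncomputable def n4288 : Strat := .move 759 n144 (.cons 760 n4287 .nil)
noncomputable def n4289 : Strat := .move 719 n3799 (.cons 679 n4260 .nil)
noncomputable def n4290 : Strat := .move 678 n3844 (.cons 677 n4289 .nil)
noncomputable def n4291 : Strat := .move 676 n3936 (.cons 678 n4288 (.cons 677 n4256 (.cons 759 n4290 .nil)))
noncomputable def n4292 : Strat := .move 678 n3799 (.cons 679 n3844 .nil)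
noncomputable def n4293 : Strat := .move 719 n3928 (.cons 675 n4292 .nil)
noncomputable def n4294 : Strat := .move 674 n812 (.cons 673 n4293 .nil)
noncomputable def n4295 : Strat := .move 715 n4291 (.cons 674 n3851 (.cons 759 n4294 (.cons 678 n4256 .nil)))
noncomputable def n4296 : Strat := .move 760 n580 (.cons 801 n3785 .nil)
noncomputable def n4297 : Strat := .move 800 n3891 (.cons 759 n4296 .nil)
noncomputable def n4298 : Strat := .move 678 n3799 (.cons 679 n4297 .nil)
noncomputable def n4299 : Strat := .move 720 n169 (.cons 760 n4263 .nil)
noncomputable def n4300 : Strat := .move 678 n3799 (.cons 679 n4299 .nil)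
noncomputable def n4301 : Strat := .move 841 n4298 (.cons 801 n4300 (.cons 760 n4266 (.cons 678 n4268 .nil)))
noncomputable def n4302 : Strat := .move 760 n3785 (.cons 761 n3990 .nil)
noncomputable def n4303 : Strat := .win 720 2 675
noncomputable def n4304 : Strat := .move 675 n4303 (.cons 720 n3941 .nil)
noncomputable def n4305 : Strat := .move 676 n4205 (.cons 841 n4304 .nil)
noncomputable def n4306 : Strat := .move 800 n724 (.cons 677 n4305 .nil)
noncomputable def n4307 : Strat := .move 720 n167 (.cons 762 n4263 .nil)
noncomputable def n4308 : Strat := .move 761 n168 (.cons 760 n4307 .nil)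
noncomputable def n4309 : Strat := .move 759 n4302 (.cons 760 n4306 (.cons 677 n4308 .nil))
noncomputable def n4310 : Strat := .move 800 n724 (.cons 677 n4244 .nil)
noncomputable def n4311 : Strat := .move 841 n3759 (.cons 676 n797 .nil)
noncomputable def n4312 : Strat := .move 800 n4244 (.cons 679 n4311 (.cons 841 n4264 (.cons 678 n4305 .nil)))
noncomputable def n4313 : Strat := .move 677 n3849 (.cons 800 n4264 .nil)
noncomputable def n4314 : Strat := .move 800 n724 (.cons 677 n4311 .nil)
noncomputable def n4315 : Strat := .move 759 n4310 (.cons 677 n4312 (.cons 841 n4313 (.cons 679 n4314 (.cons 800 n4266 (.cons 678 n4306 .nil)))))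
noncomputable def n4316 : Strat := .move 800 n3948 (.cons 841 n724 .nil)
noncomputable def n4317 : Strat := .move 678 n3799 (.cons 679 n4316 .nil)
noncomputable def n4318 : Strat := .move 678 n581 (.cons 637 n3948 .nil)
noncomputable def n4319 : Strat := .move 800 n724 (.cons 677 n4318 .nil)
noncomputable def n4320 : Strat := .move 760 n3785 (.cons 761 n4319 .nil)
noncomputable def n4321 : Strat := .move 759 n4317 (.cons 800 n4251 (.cons 679 n4320 (.cons 678 n4302 .nil)))
noncomputable def n4322 : Strat := .win 760 1 636
noncomputable def n4323 : Strat := .move 637 n4322 (.cons 760 n3966 .nil)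
noncomputable def n4324 : Strat := .move 759 n3948 (.cons 841 n4323 .nil)
noncomputable def n4325 : Strat := .move 759 n724 (.cons 677 n4323 .nil)
noncomputable def n4326 : Strat := .move 760 n738 (.cons 841 n3785 .nil)
noncomputable def n4327 : Strat := .move 801 n4326 (.cons 761 n1872 .nil)
noncomputable def n4328 : Strat := .move 800 n3949 (.cons 677 n4324 (.cons 841 n4325 (.cons 759 n4327 .nil)))
noncomputable def n4329 : Strat := .move 678 n3799 (.cons 679 n4328 .nil)
noncomputable def n4330 : Strat := .move 719 n4301 (.cons 678 n4309 (.cons 675 n4252 (.cons 760 n4315 (.cons 800 n4268 (.cons 676 n4321 (.cons 720 n4329 .nil))))))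
noncomputable def n4331 : Strat := .move 718 n4257 (.cons 719 n4259 (.cons 677 n4269 (.cons 678 n4274 (.cons 760 n4281 (.cons 674 n4283 (.cons 676 n4286 (.cons 714 n4295 (.cons 715 n4330 .nil))))))))
noncomputable def n4332 : Strat := .move 716 n4133 (.cons 839 n4151 (.cons 676 n4155 (.cons 800 n4157 (.cons 675 n4254 (.cons 757 n4331 .nil)))))
noncomputable def n4333 : Strat := .win 797 2 755
noncomputable def n4334 : Strat := .move 800 n4333 (.cons 797 n1391 .nil)
noncomputable def n4335 : Strat := .move 755 n462 (.cons 754 n4334 .nil)
noncomputable def n4336 : Strat := .move 718 n3880 (.cons 715 n809 .nil)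
noncomputable def n4337 : Strat := .move 755 n462 (.cons 754 n4336 .nil)
noncomputable def n4338 : Strat := .move 759 n4205 (.cons 841 n724 .nil)
noncomputable def n4339 : Strat := .move 800 n1391 (.cons 801 n4338 .nil)
noncomputable def n4340 : Strat := .move 718 n809 (.cons 719 n4339 .nil)
noncomputable def n4341 : Strat := .move 676 n4335 (.cons 801 n4337 (.cons 755 n4340 .nil))
noncomputable def n4342 : Strat := .move 718 n809 (.cons 719 n3880 .nil)
noncomputable def n4343 : Strat := .move 755 n462 (.cons 754 n4342 .nil)
noncomputable def n4344 : Strat := .move 674 n812 (.cons 673 n450 .nil)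
noncomputable def n4345 : Strat := .move 715 n165 (.cons 755 n4344 .nil)
noncomputable def n4346 : Strat := .move 718 n809 (.cons 719 n4345 .nil)
noncomputable def n4347 : Strat := .move 760 n562 (.cons 797 n793 .nil)
noncomputable def n4348 : Strat := .move 759 n724 (.cons 677 n4347 .nil)
noncomputable def n4349 : Strat := .move 800 n1391 (.cons 801 n4348 .nil)
noncomputable def n4350 : Strat := .move 718 n809 (.cons 719 n4349 .nil)
noncomputable def n4351 : Strat := .move 800 n1391 (.cons 801 n4333 .nil)
noncomputable def n4352 : Strat := .move 755 n462 (.cons 754 n4351 .nil)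
noncomputable def n4353 : Strat := .move 756 n4341 (.cons 797 n4343 (.cons 754 n4346 (.cons 755 n4350 (.cons 718 n4352 .nil))))
noncomputable def n4354 : Strat := .move 757 n755 (.cons 675 n4353 .nil)
noncomputable def n4355 : Strat := .move 757 n755 (.cons 675 n1551 .nil)
noncomputable def n4356 : Strat := .move 675 n3899 (.cons 757 n3914 .nil)
noncomputable def n4357 : Strat := .move 754 n1766 (.cons 757 n1765 .nil)
noncomputable def n4358 : Strat := .move 755 n1483 (.cons 800 n4357 .nil)
noncomputable def n4359 : Strat := .move 755 n1483 (.cons 800 n3918 .nil)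
noncomputable def n4360 : Strat := .move 837 n1663 (.cons 878 n1448 .nil)
noncomputable def n4361 : Strat := .move 838 n1863 (.cons 675 n4360 .nil)
noncomputable def n4362 : Strat := .move 675 n3911 (.cons 838 n3913 .nil)
noncomputable def n4363 : Strat := .move 715 n4359 (.cons 755 n4361 (.cons 800 n4362 .nil))
noncomputable def n4364 : Strat := .move 756 n4355 (.cons 800 n4356 (.cons 675 n4358 (.cons 757 n4363 .nil)))
noncomputable def n4365 : Strat := .move 841 n560 (.cons 796 n4364 .nil)
noncomputable def n4366 : Strat := .move 800 n1533 (.cons 838 n1303 .nil)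
noncomputable def n4367 : Strat := .move 837 n1461 (.cons 836 n4366 .nil)
noncomputable def n4368 : Strat := .move 755 n1304 (.cons 754 n4367 .nil)
noncomputable def n4369 : Strat := .move 796 n780 (.cons 841 n4368 .nil)
noncomputable def n4370 : Strat := .move 838 n1448 (.cons 800 n1578 .nil)
noncomputable def n4371 : Strat := .move 837 n1461 (.cons 836 n4370 .nil)
noncomputable def n4372 : Strat := .move 757 n755 (.cons 675 n4371 .nil)
noncomputable def n4373 : Strat := .win 715 3 674
noncomputable def n4374 : Strat := .win 757 1 674
noncomputable def n4375 : Strat := .move 675 n4373 (.cons 715 n4374 .nil)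
noncomputable def n4376 : Strat := .move 879 n1552 (.cons 714 n1465 .nil)
noncomputable def n4377 : Strat := .move 838 n4375 (.cons 757 n4376 .nil)
noncomputable def n4378 : Strat := .move 756 n1483 (.cons 800 n4377 .nil)
noncomputable def n4379 : Strat := .move 755 n1304 (.cons 754 n4378 .nil)
noncomputable def n4380 : Strat := .move 715 n1484 (.cons 878 n1631 .nil)
noncomputable def n4381 : Strat := .move 837 n1461 (.cons 836 n4380 .nil)
noncomputable def n4382 : Strat := .move 756 n1483 (.cons 800 n4381 .nil)
noncomputable def n4383 : Strat := .move 755 n1304 (.cons 754 n4382 .nil)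
noncomputable def n4384 : Strat := .move 795 n1401 (.cons 753 n3907 .nil)
noncomputable def n4385 : Strat := .move 754 n1400 (.cons 755 n4384 .nil)
noncomputable def n4386 : Strat := .move 757 n755 (.cons 675 n4385 .nil)
noncomputable def n4387 : Strat := .move 796 n4368 (.cons 755 n4372 (.cons 836 n4379 (.cons 838 n4383 (.cons 800 n4386 .nil))))
noncomputable def n4388 : Strat := .move 796 n780 (.cons 841 n4385 .nil)
noncomputable def n4389 : Strat := .move 757 n755 (.cons 675 n4388 .nil)
noncomputable def n4390 : Strat := .move 796 n780 (.cons 841 n4371 .nil)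
noncomputable def n4391 : Strat := .move 757 n755 (.cons 675 n4390 .nil)
noncomputable def n4392 : Strat := .move 796 n780 (.cons 841 n4379 .nil)
noncomputable def n4393 : Strat := .move 757 n755 (.cons 675 n1648 .nil)
noncomputable def n4394 : Strat := .move 800 n565 (.cons 755 n774 .nil)
noncomputable def n4395 : Strat := .move 715 n1863 (.cons 675 n4360 .nil)
noncomputable def n4396 : Strat := .move 755 n2000 (.cons 879 n1483 .nil)
noncomputable def n4397 : Strat := .move 714 n1932 (.cons 673 n4396 .nil)
noncomputable def n4398 : Strat := .move 715 n1863 (.cons 675 n4397 .nil)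
noncomputable def n4399 : Strat := .move 755 n178 (.cons 754 n2000 .nil)
noncomputable def n4400 : Strat := .move 714 n1932 (.cons 673 n4399 .nil)
noncomputable def n4401 : Strat := .move 715 n1863 (.cons 675 n4400 .nil)
noncomputable def n4402 : Strat := .move 838 n4394 (.cons 755 n4395 (.cons 837 n4398 (.cons 800 n4401 .nil)))
noncomputable def n4403 : Strat := .move 757 n1442 (.cons 879 n1391 .nil)
noncomputable def n4404 : Strat := .move 838 n774 (.cons 837 n4403 .nil)
noncomputable def n4405 : Strat := .move 800 n565 (.cons 755 n4404 .nil)
noncomputable def n4406 : Strat := .move 838 n1442 (.cons 879 n1821 .nil)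
noncomputable def n4407 : Strat := .move 757 n755 (.cons 675 n4406 .nil)
noncomputable def n4408 : Strat := .move 756 n4393 (.cons 757 n4402 (.cons 675 n4405 (.cons 755 n4407 (.cons 800 n4356 .nil))))
noncomputable def n4409 : Strat := .move 797 n4365 (.cons 757 n4369 (.cons 841 n4387 (.cons 800 n4389 (.cons 755 n4391 (.cons 837 n4392 (.cons 796 n4408 .nil))))))
noncomputable def n4410 : Strat := .move 755 n462 (.cons 754 n4333 .nil)
noncomputable def n4411 : Strat := .move 756 n1391 (.cons 801 n4410 .nil)
noncomputable def n4412 : Strat := .move 797 n565 (.cons 755 n4114 .nil)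
noncomputable def n4413 : Strat := .move 756 n1391 (.cons 801 n4412 .nil)
noncomputable def n4414 : Strat := .move 718 n4205 (.cons 841 n724 .nil)
noncomputable def n4415 : Strat := .move 761 n535 (.cons 762 n4015 .nil)
noncomputable def n4416 : Strat := .move 760 n562 (.cons 797 n4415 .nil)
noncomputable def n4417 : Strat := .move 759 n4414 (.cons 677 n4416 .nil)
noncomputable def n4418 : Strat := .move 756 n565 (.cons 755 n4114 .nil)
noncomputable def n4419 : Strat := .win 718 7 676
noncomputable def n4420 : Strat := .move 841 n4419 (.cons 718 n560 .nil)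
noncomputable def n4421 : Strat := .move 759 n559 (.cons 760 n4420 .nil)
noncomputable def n4422 : Strat := .move 797 n4418 (.cons 756 n4421 .nil)
noncomputable def n4423 : Strat := .move 718 n809 (.cons 719 n4338 .nil)
noncomputable def n4424 : Strat := .move 756 n1391 (.cons 801 n4423 .nil)
noncomputable def n4425 : Strat := .move 676 n4411 (.cons 754 n4413 (.cons 756 n4417 (.cons 801 n4422 (.cons 797 n4424 .nil))))
noncomputable def n4426 : Strat := .move 757 n755 (.cons 675 n4425 .nil)
noncomputable def n4427 : Strat := .move 676 n4418 (.cons 756 n4421 .nil)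
noncomputable def n4428 : Strat := .move 796 n780 (.cons 841 n1966 .nil)
noncomputable def n4429 : Strat := .move 759 n559 (.cons 760 n724 .nil)
noncomputable def n4430 : Strat := .move 718 n809 (.cons 719 n4429 .nil)
noncomputable def n4431 : Strat := .move 756 n565 (.cons 755 n4430 .nil)
noncomputable def n4432 : Strat := .move 797 n4427 (.cons 796 n4418 (.cons 756 n4428 (.cons 838 n4431 .nil)))
noncomputable def n4433 : Strat := .move 757 n755 (.cons 675 n4432 .nil)
noncomputable def n4434 : Strat := .move 755 n4333 (.cons 797 n462 .nil)
noncomputable def n4435 : Strat := .move 756 n1391 (.cons 801 n4434 .nil)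
noncomputable def n4436 : Strat := .move 757 n755 (.cons 675 n4435 .nil)
noncomputable def n4437 : Strat := .move 797 n4429 (.cons 677 n4114 .nil)
noncomputable def n4438 : Strat := .move 718 n809 (.cons 719 n4437 .nil)
noncomputable def n4439 : Strat := .move 756 n1391 (.cons 801 n4438 .nil)
noncomputable def n4440 : Strat := .move 757 n755 (.cons 675 n4439 .nil)
noncomputable def n4441 : Strat := .move 760 n3785 (.cons 761 n562 .nil)
noncomputable def n4442 : Strat := .move 759 n724 (.cons 677 n4441 .nil)
noncomputable def n4443 : Strat := .move 719 n3941 (.cons 674 n4442 .nil)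
noncomputable def n4444 : Strat := .win 673 0 673
noncomputable def n4445 : Strat := .move 674 n4444 (.cons 673 n4041 .nil)
noncomputable def n4446 : Strat := .move 676 n4205 (.cons 841 n4445 .nil)
noncomputable def n4447 : Strat := .move 759 n724 (.cons 677 n4446 .nil)
noncomputable def n4448 : Strat := .move 761 n4016 (.cons 762 n4015 .nil)
noncomputable def n4449 : Strat := .move 760 n562 (.cons 797 n4448 .nil)
noncomputable def n4450 : Strat := .move 759 n724 (.cons 677 n4449 .nil)
noncomputable def n4451 : Strat := .move 719 n3941 (.cons 674 n4145 .nil)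
noncomputable def n4452 : Strat := .move 718 n4443 (.cons 761 n4447 (.cons 719 n4450 (.cons 759 n4451 .nil)))
noncomputable def n4453 : Strat := .move 675 n3899 (.cons 757 n4452 .nil)
noncomputable def n4454 : Strat := .move 796 n780 (.cons 841 n3903 .nil)
noncomputable def n4455 : Strat := .move 841 n3759 (.cons 676 n560 .nil)
noncomputable def n4456 : Strat := .move 718 n724 (.cons 677 n4455 .nil)
noncomputable def n4457 : Strat := .move 759 n559 (.cons 760 n4456 .nil)
noncomputable def n4458 : Strat := .move 757 n1391 (.cons 801 n4114 .nil)
noncomputable def n4459 : Strat := .move 756 n565 (.cons 755 n4458 .nil)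
noncomputable def n4460 : Strat := .move 797 n4454 (.cons 755 n4457 (.cons 796 n4459 .nil))
noncomputable def n4461 : Strat := .move 802 n2480 (.cons 760 n2476 .nil)
noncomputable def n4462 : Strat := .move 801 n751 (.cons 756 n4461 .nil)
noncomputable def n4463 : Strat := .move 757 n755 (.cons 675 n4462 .nil)
noncomputable def n4464 : Strat := .move 797 n559 (.cons 760 n4456 .nil)
noncomputable def n4465 : Strat := .move 760 n569 (.cons 882 n3785 .nil)
noncomputable def n4466 : Strat := .move 719 n797 (.cons 678 n4465 .nil)
noncomputable def n4467 : Strat := .move 841 n3759 (.cons 676 n4466 .nil)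
noncomputable def n4468 : Strat := .move 718 n724 (.cons 677 n4467 .nil)
noncomputable def n4469 : Strat := .move 761 n4015 (.cons 801 n535 .nil)
noncomputable def n4470 : Strat := .move 760 n562 (.cons 797 n4469 .nil)
noncomputable def n4471 : Strat := .move 841 n797 (.cons 678 n3759 .nil)
noncomputable def n4472 : Strat := .move 678 n3799 (.cons 679 n3948 .nil)
noncomputable def n4473 : Strat := .move 719 n4471 (.cons 676 n4472 (.cons 678 n4305 (.cons 841 n4264 .nil)))
noncomputable def n4474 : Strat := .move 718 n724 (.cons 677 n4473 .nil)
noncomputable def n4475 : Strat := .move 759 n4464 (.cons 676 n4009 (.cons 797 n4468 (.cons 841 n4470 (.cons 760 n4474 .nil))))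
noncomputable def n4476 : Strat := .move 800 n4426 (.cons 801 n4433 (.cons 718 n4436 (.cons 755 n4440 (.cons 756 n4453 (.cons 675 n4460 (.cons 797 n4463 (.cons 757 n4475 .nil)))))))
noncomputable def n4477 : Strat := .move 756 n809 (.cons 719 n4349 .nil)
noncomputable def n4478 : Strat := .move 674 n812 (.cons 673 n4172 .nil)
noncomputable def n4479 : Strat := .move 715 n3936 (.cons 678 n4478 .nil)
noncomputable def n4480 : Strat := .move 719 n141 (.cons 756 n4242 .nil)
noncomputable def n4481 : Strat := .move 677 n3848 (.cons 678 n3770 .nil)
noncomputable def n4482 : Strat := .move 715 n4481 (.cons 759 n4193 .nil)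
noncomputable def n4483 : Strat := .move 800 n1391 (.cons 801 n4482 .nil)
noncomputable def n4484 : Strat := .move 756 n809 (.cons 719 n4483 .nil)
noncomputable def n4485 : Strat := .move 800 n724 (.cons 677 n4347 .nil)
noncomputable def n4486 : Strat := .move 760 n562 (.cons 797 n4052 .nil)
noncomputable def n4487 : Strat := .move 800 n724 (.cons 677 n4486 .nil)
noncomputable def n4488 : Strat := .win 676 4 675
noncomputable def n4489 : Strat := .move 679 n4488 (.cons 676 n4047 .nil)
noncomputable def n4490 : Strat := .move 678 n4046 (.cons 715 n4489 .nil)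
noncomputable def n4491 : Strat := .move 677 n3849 (.cons 800 n4490 .nil)
noncomputable def n4492 : Strat := .move 759 n4053 (.cons 762 n4485 (.cons 715 n4487 (.cons 760 n4491 .nil)))
noncomputable def n4493 : Strat := .move 718 n4477 (.cons 719 n4479 (.cons 715 n4480 (.cons 760 n4484 (.cons 756 n4492 .nil))))
noncomputable def n4494 : Strat := .move 757 n755 (.cons 675 n4493 .nil)
noncomputable def n4495 : Strat := .move 756 n4341 (.cons 677 n4343 (.cons 715 n4352 (.cons 755 n4350 .nil)))
noncomputable def n4496 : Strat := .move 757 n755 (.cons 675 n4495 .nil)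
noncomputable def n4497 : Strat := .win 797 3 633
noncomputable def n4498 : Strat := .move 634 n4497 (.cons 797 n3864 .nil)
noncomputable def n4499 : Strat := .move 756 n165 (.cons 755 n4498 .nil)
noncomputable def n4500 : Strat := .move 715 n812 (.cons 673 n4499 .nil)
noncomputable def n4501 : Strat := .move 674 n4041 (.cons 719 n4500 .nil)
noncomputable def n4502 : Strat := .move 674 n812 (.cons 673 n4499 .nil)
noncomputable def n4503 : Strat := .move 714 n4167 (.cons 676 n3807 .nil)
noncomputable def n4504 : Strat := .move 677 n3848 (.cons 678 n4503 .nil)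
noncomputable def n4505 : Strat := .move 673 n3806 (.cons 674 n4504 .nil)
noncomputable def n4506 : Strat := .move 715 n4502 (.cons 755 n4505 (.cons 673 n4177 .nil))
noncomputable def n4507 : Strat := .move 719 n4145 (.cons 762 n4147 (.cons 760 n4148 .nil))
noncomputable def n4508 : Strat := .move 718 n4501 (.cons 719 n4506 (.cons 755 n4136 (.cons 674 n4507 .nil)))
noncomputable def n4509 : Strat := .move 675 n3899 (.cons 757 n4508 .nil)
noncomputable def n4510 : Strat := .move 756 n165 (.cons 755 n809 .nil)
noncomputable def n4511 : Strat := .move 719 n3834 (.cons 759 n4292 .nil)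
noncomputable def n4512 : Strat := .move 674 n812 (.cons 673 n4511 .nil)
noncomputable def n4513 : Strat := .move 756 n165 (.cons 755 n4193 .nil)
noncomputable def n4514 : Strat := .move 757 n4510 (.cons 756 n4512 (.cons 719 n4513 .nil))
noncomputable def n4515 : Strat := .move 715 n3851 (.cons 800 n4514 (.cons 760 n4195 .nil))
noncomputable def n4516 : Strat := .move 678 n581 (.cons 637 n3799 .nil)
noncomputable def n4517 : Strat := .move 800 n562 (.cons 797 n4516 .nil)
noncomputable def n4518 : Strat := .move 759 n793 (.cons 715 n4517 .nil)
noncomputable def n4519 : Strat := .move 760 n3785 (.cons 761 n4518 .nil)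
noncomputable def n4520 : Strat := .move 715 n3784 (.cons 759 n3974 .nil)
noncomputable def n4521 : Strat := .move 760 n3785 (.cons 761 n4520 .nil)
noncomputable def n4522 : Strat := .move 797 n1483 (.cons 800 n1305 .nil)
noncomputable def n4523 : Strat := .move 755 n3880 (.cons 715 n4522 .nil)
noncomputable def n4524 : Strat := .move 756 n166 (.cons 757 n4523 .nil)
noncomputable def n4525 : Strat := .move 719 n4519 (.cons 800 n4521 (.cons 760 n4524 (.cons 715 n4039 .nil)))
noncomputable def n4526 : Strat := .move 719 n166 (.cons 757 n4292 .nil)
noncomputable def n4527 : Strat := .move 756 n165 (.cons 755 n4526 .nil)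
noncomputable def n4528 : Strat := .move 715 n4195 (.cons 719 n4022 (.cons 756 n4169 (.cons 673 n4527 .nil)))
noncomputable def n4529 : Strat := .move 677 n3856 (.cons 759 n4200 (.cons 715 n4064 .nil))
noncomputable def n4530 : Strat := .move 677 n3849 (.cons 800 n4168 .nil)
noncomputable def n4531 : Strat := .move 759 n144 (.cons 760 n4530 .nil)
noncomputable def n4532 : Strat := .move 800 n1391 (.cons 801 n724 .nil)
noncomputable def n4533 : Strat := .move 759 n144 (.cons 760 n4532 .nil)
noncomputable def n4534 : Strat := .move 757 n809 (.cons 719 n4533 .nil)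
noncomputable def n4535 : Strat := .move 756 n165 (.cons 755 n4534 .nil)
noncomputable def n4536 : Strat := .move 715 n4195 (.cons 756 n4531 (.cons 673 n4535 .nil))
noncomputable def n4537 : Strat := .move 715 n3851 (.cons 759 n4022 .nil)
noncomputable def n4538 : Strat := .move 837 n1533 (.cons 838 n1461 .nil)
noncomputable def n4539 : Strat := .move 800 n1303 (.cons 756 n4538 .nil)
noncomputable def n4540 : Strat := .move 755 n1304 (.cons 754 n4539 .nil)
noncomputable def n4541 : Strat := .move 796 n780 (.cons 841 n4540 .nil)
noncomputable def n4542 : Strat := .move 795 n1529 (.cons 835 n1401 .nil)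
noncomputable def n4543 : Strat := .move 754 n1400 (.cons 755 n4542 .nil)
noncomputable def n4544 : Strat := .move 836 n1528 (.cons 837 n4543 .nil)
noncomputable def n4545 : Strat := .move 796 n780 (.cons 841 n4544 .nil)
noncomputable def n4546 : Strat := .move 759 n724 (.cons 677 n559 .nil)
noncomputable def n4547 : Strat := .move 757 n1391 (.cons 801 n809 .nil)
noncomputable def n4548 : Strat := .move 756 n565 (.cons 755 n4547 .nil)
noncomputable def n4549 : Strat := .move 800 n4546 (.cons 677 n4548 .nil)
noncomputable def n4550 : Strat := .move 800 n1533 (.cons 838 n4429 .nil)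
noncomputable def n4551 : Strat := .move 837 n1461 (.cons 836 n4550 .nil)
noncomputable def n4552 : Strat := .move 796 n780 (.cons 841 n4551 .nil)
noncomputable def n4553 : Strat := .move 797 n4541 (.cons 756 n4545 (.cons 841 n4549 (.cons 755 n4552 .nil)))
noncomputable def n4554 : Strat := .move 718 n4515 (.cons 677 n4525 (.cons 759 n4528 (.cons 756 n4529 (.cons 678 n4536 (.cons 719 n4537 (.cons 715 n4553 .nil))))))
noncomputable def n4555 : Strat := .move 673 n4043 (.cons 715 n4042 .nil)
noncomputable def n4556 : Strat := .move 674 n4041 (.cons 719 n4555 .nil)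
noncomputable def n4557 : Strat := .move 675 n3899 (.cons 757 n4556 .nil)
noncomputable def n4558 : Strat := .move 800 n562 (.cons 797 n724 .nil)
noncomputable def n4559 : Strat := .move 759 n793 (.cons 715 n4558 .nil)
noncomputable def n4560 : Strat := .move 760 n3785 (.cons 761 n4559 .nil)
noncomputable def n4561 : Strat := .move 719 n4145 (.cons 676 n4560 (.cons 761 n4148 .nil))
noncomputable def n4562 : Strat := .move 675 n3899 (.cons 757 n4561 .nil)
noncomputable def n4563 : Strat := .move 800 n562 (.cons 797 n4017 .nil)
noncomputable def n4564 : Strat := .move 760 n793 (.cons 715 n4563 .nil)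
noncomputable def n4565 : Strat := .move 760 n793 (.cons 715 n4017 .nil)
noncomputable def n4566 : Strat := .move 800 n724 (.cons 677 n4565 .nil)
noncomputable def n4567 : Strat := .move 679 n4048 (.cons 680 n4488 .nil)
noncomputable def n4568 : Strat := .move 678 n4046 (.cons 715 n4567 .nil)
noncomputable def n4569 : Strat := .move 677 n3849 (.cons 800 n4568 .nil)
noncomputable def n4570 : Strat := .move 677 n4167 (.cons 676 n3848 .nil)
noncomputable def n4571 : Strat := .move 714 n3825 (.cons 674 n4570 .nil)
noncomputable def n4572 : Strat := .move 715 n144 (.cons 760 n4571 .nil)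
noncomputable def n4573 : Strat := .move 800 n724 (.cons 677 n4018 .nil)
noncomputable def n4574 : Strat := .move 759 n4485 (.cons 677 n4564 (.cons 797 n4566 (.cons 760 n4569 (.cons 800 n4572 (.cons 715 n4573 .nil)))))
noncomputable def n4575 : Strat := .move 757 n755 (.cons 675 n4574 .nil)
noncomputable def n4576 : Strat := .move 675 n3899 (.cons 757 n4451 .nil)
noncomputable def n4577 : Strat := .move 673 n4134 (.cons 676 n4042 .nil)
noncomputable def n4578 : Strat := .move 674 n4041 (.cons 719 n4577 .nil)
noncomputable def n4579 : Strat := .move 675 n3899 (.cons 757 n4578 .nil)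
noncomputable def n4580 : Strat := .move 797 n4576 (.cons 720 n4579 (.cons 675 n4545 .nil))
noncomputable def n4581 : Strat := .move 718 n4557 (.cons 675 n4529 (.cons 674 n4562 (.cons 719 n4575 (.cons 715 n4580 .nil))))
noncomputable def n4582 : Strat := .move 797 n780 (.cons 841 n4368 .nil)
noncomputable def n4583 : Strat := .move 718 n177 (.cons 756 n3806 .nil)
noncomputable def n4584 : Strat := .move 673 n3807 (.cons 672 n4583 .nil)
noncomputable def n4585 : Strat := .move 714 n178 (.cons 754 n4584 .nil)
noncomputable def n4586 : Strat := .win 673 2 672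
noncomputable def n4587 : Strat := .move 672 n1745 (.cons 713 n4586 .nil)
noncomputable def n4588 : Strat := .move 837 n1727 (.cons 674 n4587 .nil)
noncomputable def n4589 : Strat := .move 714 n178 (.cons 754 n4588 .nil)
noncomputable def n4590 : Strat := .win 837 3 673
noncomputable def n4591 : Strat := .move 718 n177 (.cons 756 n812 .nil)
noncomputable def n4592 : Strat := .move 674 n4590 (.cons 837 n4591 .nil)
noncomputable def n4593 : Strat := .move 714 n178 (.cons 754 n4592 .nil)
noncomputable def n4594 : Strat := .move 718 n177 (.cons 756 n3936 .nil)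
noncomputable def n4595 : Strat := .move 755 n4585 (.cons 718 n4589 (.cons 672 n4593 (.cons 714 n4594 .nil)))
noncomputable def n4596 : Strat := .move 755 n178 (.cons 754 n4588 .nil)
noncomputable def n4597 : Strat := .win 671 2 671
noncomputable def n4598 : Strat := .win 753 4 712
noncomputable def n4599 : Strat := .win 755 4 713
noncomputable def n4600 : Strat := .move 754 n4598 (.cons 753 n4599 .nil)
noncomputable def n4601 : Strat := .move 713 n4597 (.cons 671 n4600 .nil)
noncomputable def n4602 : Strat := .move 672 n4586 (.cons 673 n4601 .nil)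
noncomputable def n4603 : Strat := .win 675 5 672
noncomputable def n4604 : Strat := .win 677 5 673
noncomputable def n4605 : Strat := .move 676 n4603 (.cons 675 n4604 .nil)
noncomputable def n4606 : Strat := .move 713 n4597 (.cons 671 n4605 .nil)
noncomputable def n4607 : Strat := .move 672 n4586 (.cons 673 n4606 .nil)
noncomputable def n4608 : Strat := .move 674 n1743 (.cons 633 n4590 .nil)
noncomputable def n4609 : Strat := .move 673 n3807 (.cons 672 n4608 .nil)
noncomputable def n4610 : Strat := .move 755 n178 (.cons 754 n4609 .nil)
noncomputable def n4611 : Strat := .win 756 1 632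
noncomputable def n4612 : Strat := .win 592 1 591
noncomputable def n4613 : Strat := .move 633 n4611 (.cons 756 n4612 .nil)
noncomputable def n4614 : Strat := .move 674 n4590 (.cons 837 n4613 .nil)
noncomputable def n4615 : Strat := .move 755 n178 (.cons 754 n4614 .nil)
noncomputable def n4616 : Strat := .move 714 n4596 (.cons 837 n4602 (.cons 755 n4607 (.cons 713 n4610 (.cons 672 n4615 .nil))))
noncomputable def n4617 : Strat := .move 718 n4033 (.cons 677 n4256 (.cons 759 n4294 .nil))
noncomputable def n4618 : Strat := .move 718 n3936 (.cons 800 n4505 (.cons 677 n4256 .nil))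
noncomputable def n4619 : Strat := .win 718 4 714
noncomputable def n4620 : Strat := .move 756 n1484 (.cons 878 n4619 .nil)
noncomputable def n4621 : Strat := .move 837 n1727 (.cons 674 n4620 .nil)
noncomputable def n4622 : Strat := .move 714 n178 (.cons 754 n4621 .nil)
noncomputable def n4623 : Strat := .move 633 n4612 (.cons 592 n4611 .nil)
noncomputable def n4624 : Strat := .move 674 n4590 (.cons 837 n4623 .nil)
noncomputable def n4625 : Strat := .move 714 n178 (.cons 754 n4624 .nil)
noncomputable def n4626 : Strat := .win 672 7 672
noncomputable def n4627 : Strat := .move 837 n4626 (.cons 672 n1727 .nil)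
noncomputable def n4628 : Strat := .move 713 n4605 (.cons 677 n4627 .nil)
noncomputable def n4629 : Strat := .move 714 n178 (.cons 754 n4628 .nil)
noncomputable def n4630 : Strat := .move 755 n4622 (.cons 718 n4625 (.cons 714 n4594 (.cons 756 n4629 .nil)))
noncomputable def n4631 : Strat := .win 753 5 712
noncomputable def n4632 : Strat := .move 754 n4631 (.cons 753 n3917 .nil)
noncomputable def n4633 : Strat := .move 756 n4619 (.cons 718 n4632 .nil)
noncomputable def n4634 : Strat := .move 719 n3834 (.cons 759 n4260 .nil)
noncomputable def n4635 : Strat := .move 718 n177 (.cons 756 n4634 .nil)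
noncomputable def n4636 : Strat := .win 718 2 673
noncomputable def n4637 : Strat := .move 674 n4590 (.cons 837 n4636 .nil)
noncomputable def n4638 : Strat := .move 673 n3807 (.cons 672 n4637 .nil)
noncomputable def n4639 : Strat := .move 714 n178 (.cons 754 n4638 .nil)
noncomputable def n4640 : Strat := .move 755 n4585 (.cons 672 n4633 (.cons 714 n4635 (.cons 756 n4639 (.cons 718 n4589 .nil))))
noncomputable def n4641 : Strat := .win 837 7 672
noncomputable def n4642 : Strat := .move 713 n4641 (.cons 837 n4597 .nil)
noncomputable def n4643 : Strat := .move 672 n4586 (.cons 673 n4642 .nil)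
noncomputable def n4644 : Strat := .move 755 n178 (.cons 754 n4643 .nil)
noncomputable def n4645 : Strat := .move 677 n3848 (.cons 678 n4167 .nil)
noncomputable def n4646 : Strat := .move 718 n177 (.cons 756 n4645 .nil)
noncomputable def n4647 : Strat := .move 755 n178 (.cons 754 n4646 .nil)
noncomputable def n4648 : Strat := .move 718 n3848 (.cons 678 n3935 .nil)
noncomputable def n4649 : Strat := .move 677 n4167 (.cons 676 n4648 .nil)
noncomputable def n4650 : Strat := .move 714 n4644 (.cons 837 n4647 (.cons 755 n4649 .nil))
noncomputable def n4651 : Strat := .move 715 n4595 (.cons 718 n4616 (.cons 714 n4617 (.cons 755 n4618 (.cons 673 n4630 (.cons 677 n4640 (.cons 674 n4650 .nil))))))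
noncomputable def n4652 : Strat := .move 715 n1863 (.cons 675 n4619 .nil)
noncomputable def n4653 : Strat := .move 838 n4652 (.cons 718 n4376 .nil)
noncomputable def n4654 : Strat := .move 756 n1483 (.cons 800 n4653 .nil)
noncomputable def n4655 : Strat := .move 755 n1304 (.cons 754 n4654 .nil)
noncomputable def n4656 : Strat := .move 797 n780 (.cons 841 n4655 .nil)
noncomputable def n4657 : Strat := .move 800 n1533 (.cons 838 n565 .nil)
noncomputable def n4658 : Strat := .move 838 n1663 (.cons 878 n1448 .nil)
noncomputable def n4659 : Strat := .move 715 n1631 (.cons 674 n4658 .nil)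
noncomputable def n4660 : Strat := .win 755 3 714
noncomputable def n4661 : Strat := .move 878 n4660 (.cons 755 n1469 .nil)
noncomputable def n4662 : Strat := .move 715 n1631 (.cons 674 n4661 .nil)
noncomputable def n4663 : Strat := .move 756 n4657 (.cons 755 n4659 (.cons 838 n4662 .nil))
noncomputable def n4664 : Strat := .move 837 n1461 (.cons 836 n4663 .nil)
noncomputable def n4665 : Strat := .move 797 n780 (.cons 841 n4664 .nil)
noncomputable def n4666 : Strat := .move 797 n780 (.cons 841 n4385 .nil)
noncomputable def n4667 : Strat := .move 797 n780 (.cons 841 n4551 .nil)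
noncomputable def n4668 : Strat := .move 800 n4245 (.cons 759 n4299 .nil)
noncomputable def n4669 : Strat := .move 715 n3844 (.cons 677 n812 .nil)
noncomputable def n4670 : Strat := .move 678 n3799 (.cons 679 n4669 .nil)
noncomputable def n4671 : Strat := .move 674 n3928 (.cons 675 n4670 .nil)
noncomputable def n4672 : Strat := .move 715 n812 (.cons 673 n3784 .nil)
noncomputable def n4673 : Strat := .move 674 n3928 (.cons 675 n4672 .nil)
noncomputable def n4674 : Strat := .move 760 n3785 (.cons 761 n4673 .nil)
noncomputable def n4675 : Strat := .move 719 n4147 (.cons 715 n4668 (.cons 759 n4671 (.cons 678 n4674 .nil)))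
noncomputable def n4676 : Strat := .move 674 n3928 (.cons 675 n4669 .nil)
noncomputable def n4677 : Strat := .move 678 n3799 (.cons 679 n4676 .nil)
noncomputable def n4678 : Strat := .move 719 n4262 (.cons 673 n4560 (.cons 760 n4677 (.cons 715 n4268 .nil)))
noncomputable def n4679 : Strat := .move 760 n3785 (.cons 761 n793 .nil)
noncomputable def n4680 : Strat := .move 800 n797 (.cons 678 n3759 .nil)
noncomputable def n4681 : Strat := .move 759 n4679 (.cons 715 n4680 .nil)
noncomputable def n4682 : Strat := .move 715 n3834 (.cons 759 n4260 .nil)
noncomputable def n4683 : Strat := .move 719 n4299 (.cons 720 n4681 (.cons 676 n4682 (.cons 760 n4264 .nil)))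
noncomputable def n4684 : Strat := .move 841 n3749 (.cons 797 n4683 .nil)
noncomputable def n4685 : Strat := .move 715 n4260 (.cons 673 n4292 .nil)
noncomputable def n4686 : Strat := .move 719 n4299 (.cons 720 n4685 (.cons 674 n173 .nil))
noncomputable def n4687 : Strat := .move 841 n3749 (.cons 797 n4686 .nil)
noncomputable def n4688 : Strat := .win 756 1 673
noncomputable def n4689 : Strat := .move 837 n4688 (.cons 756 n1461 .nil)
noncomputable def n4690 : Strat := .move 674 n812 (.cons 673 n4689 .nil)
noncomputable def n4691 : Strat := .move 800 n4481 (.cons 759 n4538 .nil)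
noncomputable def n4692 : Strat := .move 715 n4690 (.cons 674 n4691 (.cons 836 n4571 .nil))
noncomputable def n4693 : Strat := .move 797 n780 (.cons 841 n4692 .nil)
noncomputable def n4694 : Strat := .move 718 n4667 (.cons 797 n4675 (.cons 841 n4678 (.cons 677 n4684 (.cons 759 n4687 (.cons 760 n4693 .nil)))))
noncomputable def n4695 : Strat := .move 796 n4582 (.cons 797 n4651 (.cons 837 n4656 (.cons 754 n4665 (.cons 800 n4666 (.cons 755 n4694 .nil)))))
noncomputable def n4696 : Strat := .move 716 n4354 (.cons 797 n4151 (.cons 718 n4409 (.cons 715 n4476 (.cons 755 n4494 (.cons 674 n4496 (.cons 800 n4509 (.cons 675 n4554 (.cons 756 n4581 (.cons 757 n4695 .nil)))))))))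
noncomputable def n4697 : Strat := .win 713 5 672
noncomputable def n4698 : Strat := .move 676 n4604 (.cons 677 n4697 .nil)
noncomputable def n4699 : Strat := .move 714 n3807 (.cons 672 n4698 .nil)
noncomputable def n4700 : Strat := .move 673 n3806 (.cons 674 n4699 .nil)
noncomputable def n4701 : Strat := .move 715 n4502 (.cons 673 n4177 (.cons 756 n4700 .nil))
noncomputable def n4702 : Strat := .move 718 n4501 (.cons 719 n4701 (.cons 755 n4136 (.cons 674 n4507 .nil)))
noncomputable def n4703 : Strat := .move 675 n3899 (.cons 757 n4702 .nil)
noncomputable def n4704 : Strat := .win 838 1 715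
noncomputable def n4705 : Strat := .move 921 n1193 (.cons 756 n611 .nil)
noncomputable def n4706 : Strat := .move 797 n1105 (.cons 841 n4705 .nil)
noncomputable def n4707 : Strat := .move 880 n1505 (.cons 920 n4706 .nil)
noncomputable def n4708 : Strat := .move 879 n4704 (.cons 838 n4707 .nil)
noncomputable def n4709 : Strat := .move 839 n1538 (.cons 676 n4708 .nil)
noncomputable def n4710 : Strat := .move 757 n755 (.cons 675 n4709 .nil)
noncomputable def n4711 : Strat := .move 718 n165 (.cons 755 n812 .nil)
noncomputable def n4712 : Strat := .move 674 n449 (.cons 839 n4711 .nil)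
noncomputable def n4713 : Strat := .move 754 n1765 (.cons 753 n3917 .nil)
noncomputable def n4714 : Strat := .move 755 n4619 (.cons 718 n4713 .nil)
noncomputable def n4715 : Strat := .move 675 n1771 (.cons 634 n3911 .nil)
noncomputable def n4716 : Strat := .move 674 n449 (.cons 839 n4715 .nil)
noncomputable def n4717 : Strat := .move 756 n4712 (.cons 674 n4714 (.cons 755 n4716 .nil))
noncomputable def n4718 : Strat := .move 797 n560 (.cons 796 n4717 .nil)
noncomputable def n4719 : Strat := .move 714 n4167 (.cons 676 n3808 .nil)
noncomputable def n4720 : Strat := .move 677 n3848 (.cons 678 n4719 .nil)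
noncomputable def n4721 : Strat := .move 718 n4179 (.cons 679 n4256 (.cons 719 n4720 .nil))
noncomputable def n4722 : Strat := .move 756 n449 (.cons 839 n165 .nil)
noncomputable def n4723 : Strat := .move 674 n812 (.cons 673 n4722 .nil)
noncomputable def n4724 : Strat := .move 718 n4723 (.cons 674 n4511 .nil)
noncomputable def n4725 : Strat := .move 797 n560 (.cons 796 n4724 .nil)
noncomputable def n4726 : Strat := .move 672 n4597 (.cons 671 n4586 .nil)
noncomputable def n4727 : Strat := .move 713 n4726 (.cons 673 n4600 .nil)
noncomputable def n4728 : Strat := .move 718 n179 (.cons 754 n4645 .nil)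
noncomputable def n4729 : Strat := .move 713 n4726 (.cons 673 n4605 .nil)
noncomputable def n4730 : Strat := .move 714 n4727 (.cons 713 n4728 (.cons 755 n4729 .nil))
noncomputable def n4731 : Strat := .move 797 n560 (.cons 796 n4730 .nil)
noncomputable def n4732 : Strat := .move 674 n1771 (.cons 634 n449 .nil)
noncomputable def n4733 : Strat := .move 675 n3911 (.cons 838 n4732 .nil)
noncomputable def n4734 : Strat := .move 756 n4714 (.cons 755 n4733 .nil)
noncomputable def n4735 : Strat := .move 797 n560 (.cons 796 n4734 .nil)
noncomputable def n4736 : Strat := .move 713 n4600 (.cons 755 n4605 .nil)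
noncomputable def n4737 : Strat := .move 714 n3807 (.cons 672 n4736 .nil)
noncomputable def n4738 : Strat := .win 714 2 672
noncomputable def n4739 : Strat := .win 675 0 672
noncomputable def n4740 : Strat := .win 671 0 671
noncomputable def n4741 : Strat := .move 674 n4739 (.cons 675 n4740 .nil)
noncomputable def n4742 : Strat := .move 672 n4738 (.cons 714 n4741 .nil)
noncomputable def n4743 : Strat := .move 672 n4739 (.cons 675 n4740 .nil)
noncomputable def n4744 : Strat := .move 756 n1789 (.cons 632 n449 .nil)
noncomputable def n4745 : Strat := .move 674 n4743 (.cons 671 n4744 .nil)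
noncomputable def n4746 : Strat := .move 797 n560 (.cons 796 n4745 .nil)
noncomputable def n4747 : Strat := .move 674 n1789 (.cons 632 n449 .nil)
noncomputable def n4748 : Strat := .move 838 n1788 (.cons 714 n1863 .nil)
noncomputable def n4749 : Strat := .move 756 n4747 (.cons 839 n4748 .nil)
noncomputable def n4750 : Strat := .move 797 n560 (.cons 796 n4749 .nil)
noncomputable def n4751 : Strat := .move 672 n4740 (.cons 671 n4738 .nil)
noncomputable def n4752 : Strat := .move 674 n4751 (.cons 714 n4744 .nil)
noncomputable def n4753 : Strat := .move 797 n560 (.cons 796 n4752 .nil)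
noncomputable def n4754 : Strat := .move 673 n4737 (.cons 713 n4742 (.cons 714 n4746 (.cons 672 n4750 (.cons 675 n4753 .nil))))
noncomputable def n4755 : Strat := .move 841 n4718 (.cons 797 n4721 (.cons 714 n4725 (.cons 674 n4731 (.cons 673 n4735 (.cons 718 n4754 .nil)))))
noncomputable def n4756 : Strat := .move 714 n178 (.cons 754 n3808 .nil)
noncomputable def n4757 : Strat := .move 755 n177 (.cons 756 n4756 .nil)
noncomputable def n4758 : Strat := .move 714 n4167 (.cons 676 n179 .nil)
noncomputable def n4759 : Strat := .move 760 n3784 (.cons 759 n4758 .nil)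
noncomputable def n4760 : Strat := .move 677 n3848 (.cons 678 n4759 .nil)
noncomputable def n4761 : Strat := .move 718 n4720 (.cons 677 n4757 (.cons 673 n4760 (.cons 714 n4179 .nil)))
noncomputable def n4762 : Strat := .move 796 n1783 (.cons 837 n780 .nil)
noncomputable def n4763 : Strat := .move 797 n449 (.cons 839 n4762 .nil)
noncomputable def n4764 : Strat := .move 756 n165 (.cons 755 n4763 .nil)
noncomputable def n4765 : Strat := .move 674 n812 (.cons 673 n4764 .nil)
noncomputable def n4766 : Strat := .move 797 n1771 (.cons 634 n449 .nil)
noncomputable def n4767 : Strat := .move 675 n4041 (.cons 719 n4766 .nil)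
noncomputable def n4768 : Strat := .move 756 n165 (.cons 755 n4767 .nil)
noncomputable def n4769 : Strat := .move 674 n812 (.cons 673 n4768 .nil)
noncomputable def n4770 : Strat := .move 677 n3848 (.cons 678 n4758 .nil)
noncomputable def n4771 : Strat := .move 677 n3848 (.cons 678 n4255 .nil)
noncomputable def n4772 : Strat := .move 674 n812 (.cons 673 n4771 .nil)
noncomputable def n4773 : Strat := .move 718 n4765 (.cons 841 n4769 (.cons 674 n4770 (.cons 755 n4772 .nil)))
noncomputable def n4774 : Strat := .move 718 n4256 (.cons 675 n4179 (.cons 719 n4765 .nil))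
noncomputable def n4775 : Strat := .move 718 n3806 (.cons 674 n4645 .nil)
noncomputable def n4776 : Strat := .move 673 n3807 (.cons 672 n4775 .nil)
noncomputable def n4777 : Strat := .move 713 n4603 (.cons 675 n4726 .nil)
noncomputable def n4778 : Strat := .move 676 n4604 (.cons 677 n4777 .nil)
noncomputable def n4779 : Strat := .move 713 n4603 (.cons 675 n4600 .nil)
noncomputable def n4780 : Strat := .move 676 n4604 (.cons 677 n4779 .nil)
noncomputable def n4781 : Strat := .move 718 n3806 (.cons 674 n4511 .nil)
noncomputable def n4782 : Strat := .move 673 n3807 (.cons 672 n4781 .nil)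
noncomputable def n4783 : Strat := .win 796 3 632
noncomputable def n4784 : Strat := .move 633 n4783 (.cons 796 n4612 .nil)
noncomputable def n4785 : Strat := .move 755 n178 (.cons 754 n4784 .nil)
noncomputable def n4786 : Strat := .move 674 n4636 (.cons 718 n4785 .nil)
noncomputable def n4787 : Strat := .move 673 n3807 (.cons 672 n4786 .nil)
noncomputable def n4788 : Strat := .move 714 n4776 (.cons 674 n4778 (.cons 673 n4780 (.cons 676 n4782 (.cons 677 n4787 .nil))))
noncomputable def n4789 : Strat := .move 718 n4765 (.cons 841 n4769 (.cons 674 n4770 (.cons 756 n4720 .nil)))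
noncomputable def n4790 : Strat := .win 674 0 674
noncomputable def n4791 : Strat := .move 675 n4303 (.cons 720 n4790 .nil)
noncomputable def n4792 : Strat := .move 719 n3834 (.cons 759 n4791 .nil)
noncomputable def n4793 : Strat := .move 676 n4158 (.cons 714 n4792 .nil)
noncomputable def n4794 : Strat := .move 677 n3848 (.cons 678 n4793 .nil)
noncomputable def n4795 : Strat := .move 675 n3911 (.cons 838 n4041 .nil)
noncomputable def n4796 : Strat := .move 674 n449 (.cons 839 n4795 .nil)
noncomputable def n4797 : Strat := .move 838 n1296 (.cons 880 n1863 .nil)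
noncomputable def n4798 : Strat := .move 839 n1105 (.cons 841 n4797 .nil)
noncomputable def n4799 : Strat := .move 674 n1771 (.cons 634 n4041 .nil)
noncomputable def n4800 : Strat := .move 675 n3911 (.cons 838 n4799 .nil)
noncomputable def n4801 : Strat := .move 674 n449 (.cons 839 n4762 .nil)
noncomputable def n4802 : Strat := .move 797 n4796 (.cons 674 n4798 (.cons 839 n4800 (.cons 838 n4801 .nil)))
noncomputable def n4803 : Strat := .move 756 n165 (.cons 755 n4802 .nil)
noncomputable def n4804 : Strat := .move 718 n4794 (.cons 760 n4770 (.cons 714 n4179 (.cons 677 n4803 .nil)))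
noncomputable def n4805 : Strat := .move 718 n4256 (.cons 719 n4720 (.cons 673 n4794 (.cons 674 n4179 .nil)))
noncomputable def n4806 : Strat := .move 795 n1401 (.cons 753 n1399 .nil)
noncomputable def n4807 : Strat := .move 754 n1400 (.cons 755 n4806 .nil)
noncomputable def n4808 : Strat := .move 796 n780 (.cons 841 n4807 .nil)
noncomputable def n4809 : Strat := .move 755 n4713 (.cons 714 n4716 .nil)
noncomputable def n4810 : Strat := .move 880 n1417 (.cons 921 n1490 .nil)
noncomputable def n4811 : Strat := .move 839 n1297 (.cons 674 n4810 .nil)
noncomputable def n4812 : Strat := .move 838 n1863 (.cons 675 n4400 .nil)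
noncomputable def n4813 : Strat := .move 673 n1789 (.cons 632 n4751 .nil)
noncomputable def n4814 : Strat := .move 674 n449 (.cons 839 n4813 .nil)
noncomputable def n4815 : Strat := .move 756 n4809 (.cons 675 n4811 (.cons 839 n4812 (.cons 838 n4814 .nil)))
noncomputable def n4816 : Strat := .move 838 n1663 (.cons 878 n1863 .nil)
noncomputable def n4817 : Strat := .move 756 n1631 (.cons 674 n4816 .nil)
noncomputable def n4818 : Strat := .move 837 n1461 (.cons 836 n4817 .nil)
noncomputable def n4819 : Strat := .move 796 n780 (.cons 841 n4818 .nil)
noncomputable def n4820 : Strat := .move 797 n4808 (.cons 796 n4815 (.cons 754 n4819 .nil))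
noncomputable def n4821 : Strat := .move 718 n177 (.cons 756 n4511 .nil)
noncomputable def n4822 : Strat := .move 755 n178 (.cons 754 n4821 .nil)
noncomputable def n4823 : Strat := .win 797 6 632
noncomputable def n4824 : Strat := .win 591 6 591
noncomputable def n4825 : Strat := .move 632 n4823 (.cons 797 n4824 .nil)
noncomputable def n4826 : Strat := .move 756 n4619 (.cons 718 n4825 .nil)
noncomputable def n4827 : Strat := .move 673 n3807 (.cons 672 n4826 .nil)
noncomputable def n4828 : Strat := .move 755 n178 (.cons 754 n4827 .nil)
noncomputable def n4829 : Strat := .move 714 n4647 (.cons 756 n4778 (.cons 676 n4822 (.cons 677 n4828 .nil)))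
noncomputable def n4830 : Strat := .move 715 n4755 (.cons 675 n4761 (.cons 679 n4773 (.cons 714 n4774 (.cons 756 n4788 (.cons 761 n4789 (.cons 673 n4804 (.cons 755 n4805 (.cons 718 n4820 (.cons 674 n4829 .nil)))))))))
noncomputable def n4831 : Strat := .move 718 n4165 (.cons 839 n4514 (.cons 757 n4720 (.cons 674 n4198 .nil)))
noncomputable def n4832 : Strat := .move 757 n1538 (.cons 676 n143 .nil)
noncomputable def n4833 : Strat := .move 756 n1297 (.cons 674 n4810 .nil)
noncomputable def n4834 : Strat := .move 797 n560 (.cons 796 n4833 .nil)
noncomputable def n4835 : Strat := .move 880 n1505 (.cons 920 n1808 .nil)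
noncomputable def n4836 : Strat := .move 879 n4704 (.cons 838 n4835 .nil)
noncomputable def n4837 : Strat := .move 757 n1538 (.cons 676 n4836 .nil)
noncomputable def n4838 : Strat := .move 841 n4832 (.cons 757 n4834 (.cons 674 n4837 .nil))
noncomputable def n4839 : Strat := .move 841 n560 (.cons 796 n4833 .nil)
noncomputable def n4840 : Strat := .move 797 n4839 (.cons 796 n4833 (.cons 756 n1946 .nil))
noncomputable def n4841 : Strat := .move 714 n4604 (.cons 677 n4727 .nil)
noncomputable def n4842 : Strat := .move 676 n4206 (.cons 757 n4841 .nil)
noncomputable def n4843 : Strat := .move 839 n4838 (.cons 757 n4840 (.cons 797 n4832 (.cons 674 n4842 .nil)))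
noncomputable def n4844 : Strat := .move 714 n178 (.cons 754 n4645 .nil)
noncomputable def n4845 : Strat := .move 755 n177 (.cons 756 n4844 .nil)
noncomputable def n4846 : Strat := .move 714 n4167 (.cons 676 n4727 .nil)
noncomputable def n4847 : Strat := .move 677 n3848 (.cons 678 n4846 .nil)
noncomputable def n4848 : Strat := .move 719 n3834 (.cons 759 n4236 .nil)
noncomputable def n4849 : Strat := .move 676 n4158 (.cons 714 n4848 .nil)
noncomputable def n4850 : Strat := .move 677 n3848 (.cons 678 n4849 .nil)
noncomputable def n4851 : Strat := .move 718 n4198 (.cons 880 n4845 (.cons 756 n4847 (.cons 755 n4850 (.cons 676 n4220 .nil))))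
noncomputable def n4852 : Strat := .move 879 n1505 (.cons 920 n4704 .nil)
noncomputable def n4853 : Strat := .move 880 n1808 (.cons 756 n4852 .nil)
noncomputable def n4854 : Strat := .move 757 n143 (.cons 674 n4853 .nil)
noncomputable def n4855 : Strat := .move 757 n1538 (.cons 676 n4853 .nil)
noncomputable def n4856 : Strat := .move 797 n1946 (.cons 795 n4833 .nil)
noncomputable def n4857 : Strat := .move 839 n4832 (.cons 676 n4854 (.cons 674 n4855 (.cons 757 n4856 .nil)))
noncomputable def n4858 : Strat := .move 757 n809 (.cons 719 n4170 .nil)
noncomputable def n4859 : Strat := .move 674 n812 (.cons 673 n4858 .nil)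
noncomputable def n4860 : Strat := .move 756 n165 (.cons 755 n4859 .nil)
noncomputable def n4861 : Strat := .move 757 n143 (.cons 674 n4511 .nil)
noncomputable def n4862 : Strat := .move 674 n812 (.cons 673 n4203 .nil)
noncomputable def n4863 : Strat := .move 839 n4861 (.cons 757 n4512 (.cons 677 n4862 (.cons 674 n4179 .nil)))
noncomputable def n4864 : Strat := .move 757 n450 (.cons 633 n4170 .nil)
noncomputable def n4865 : Strat := .move 756 n165 (.cons 755 n4864 .nil)
noncomputable def n4866 : Strat := .move 674 n812 (.cons 673 n4865 .nil)
noncomputable def n4867 : Strat := .move 718 n4860 (.cons 674 n4220 (.cons 756 n4863 (.cons 719 n4866 (.cons 757 n4757 .nil))))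
noncomputable def n4868 : Strat := .move 718 n812 (.cons 673 n4511 .nil)
noncomputable def n4869 : Strat := .move 674 n4203 (.cons 757 n4868 .nil)
noncomputable def n4870 : Strat := .move 797 n780 (.cons 841 n1104 .nil)
noncomputable def n4871 : Strat := .move 838 n2501 (.cons 795 n1449 .nil)
noncomputable def n4872 : Strat := .win 838 2 795
noncomputable def n4873 : Strat := .win 797 0 795
noncomputable def n4874 : Strat := .move 795 n4872 (.cons 838 n4873 .nil)
noncomputable def n4875 : Strat := .win 797 4 795
noncomputable def n4876 : Strat := .win 838 5 795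
noncomputable def n4877 : Strat := .move 836 n4875 (.cons 797 n4876 .nil)
noncomputable def n4878 : Strat := .move 797 n1461 (.cons 836 n1104 .nil)
noncomputable def n4879 : Strat := .move 837 n4871 (.cons 836 n4874 (.cons 795 n4877 (.cons 838 n4878 .nil)))
noncomputable def n4880 : Strat := .move 718 n3808 (.cons 672 n4645 .nil)
noncomputable def n4881 : Strat := .move 714 n4879 (.cons 837 n4880 .nil)
noncomputable def n4882 : Strat := .move 755 n1727 (.cons 674 n178 .nil)
noncomputable def n4883 : Strat := .move 837 n4871 (.cons 836 n4882 .nil)
noncomputable def n4884 : Strat := .move 714 n4880 (.cons 718 n4883 (.cons 674 n4727 .nil))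
noncomputable def n4885 : Strat := .move 797 n1461 (.cons 836 n780 .nil)
noncomputable def n4886 : Strat := .move 837 n4885 (.cons 841 n4877 (.cons 836 n4882 .nil))
noncomputable def n4887 : Strat := .move 714 n4880 (.cons 718 n4886 (.cons 674 n4727 .nil))
noncomputable def n4888 : Strat := .move 796 n4870 (.cons 841 n4881 (.cons 797 n4884 (.cons 795 n4887 .nil)))
noncomputable def n4889 : Strat := .move 839 n4832 (.cons 676 n4869 (.cons 674 n4842 (.cons 757 n4888 .nil)))
noncomputable def n4890 : Strat := .move 715 n4831 (.cons 718 n4843 (.cons 757 n4761 (.cons 674 n4851 (.cons 755 n4857 (.cons 676 n4867 (.cons 756 n4889 .nil))))))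
noncomputable def n4891 : Strat := .move 755 n462 (.cons 754 n4619 .nil)
noncomputable def n4892 : Strat := .move 756 n1813 (.cons 880 n4891 .nil)
noncomputable def n4893 : Strat := .move 839 n143 (.cons 674 n4892 .nil)
noncomputable def n4894 : Strat := .move 757 n755 (.cons 675 n4893 .nil)
noncomputable def n4895 : Strat := .move 839 n143 (.cons 674 n4853 .nil)
noncomputable def n4896 : Strat := .move 757 n755 (.cons 675 n4895 .nil)
noncomputable def n4897 : Strat := .move 674 n4170 (.cons 839 n4868 .nil)
noncomputable def n4898 : Strat := .move 757 n755 (.cons 675 n4897 .nil)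
noncomputable def n4899 : Strat := .move 718 n4510 (.cons 756 n4512 (.cons 719 n4513 .nil))
noncomputable def n4900 : Strat := .move 757 n755 (.cons 675 n4899 .nil)
noncomputable def n4901 : Strat := .move 674 n812 (.cons 673 n4041 .nil)
noncomputable def n4902 : Strat := .move 674 n812 (.cons 673 n4030 .nil)
noncomputable def n4903 : Strat := .move 756 n165 (.cons 755 n4902 .nil)
noncomputable def n4904 : Strat := .move 797 n3911 (.cons 838 n4799 .nil)
noncomputable def n4905 : Strat := .move 756 n165 (.cons 755 n4904 .nil)
noncomputable def n4906 : Strat := .move 756 n165 (.cons 755 n4511 .nil)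
noncomputable def n4907 : Strat := .move 675 n4901 (.cons 719 n4903 (.cons 673 n4905 (.cons 674 n4906 .nil)))
noncomputable def n4908 : Strat := .move 714 n178 (.cons 754 n4511 .nil)
noncomputable def n4909 : Strat := .move 755 n177 (.cons 756 n4908 .nil)
noncomputable def n4910 : Strat := .move 718 n4907 (.cons 675 n4757 (.cons 755 n4256 (.cons 674 n4909 .nil)))
noncomputable def n4911 : Strat := .move 756 n3911 (.cons 838 n4619 .nil)
noncomputable def n4912 : Strat := .move 755 n1304 (.cons 754 n4911 .nil)
noncomputable def n4913 : Strat := .move 796 n780 (.cons 841 n4912 .nil)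
noncomputable def n4914 : Strat := .move 756 n3911 (.cons 838 n165 .nil)
noncomputable def n4915 : Strat := .move 718 n4914 (.cons 755 n4511 .nil)
noncomputable def n4916 : Strat := .move 797 n4808 (.cons 753 n4913 (.cons 755 n3909 (.cons 796 n4915 .nil)))
noncomputable def n4917 : Strat := .move 675 n3899 (.cons 757 n4916 .nil)
noncomputable def n4918 : Strat := .move 715 n4894 (.cons 675 n4867 (.cons 718 n4896 (.cons 756 n4898 (.cons 839 n4900 (.cons 757 n4910 (.cons 674 n4917 .nil))))))
noncomputable def n4919 : Strat := .move 839 n1538 (.cons 676 n4870 .nil)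
noncomputable def n4920 : Strat := .move 838 n1539 (.cons 879 n3750 .nil)
noncomputable def n4921 : Strat := .move 839 n1538 (.cons 676 n4920 .nil)
noncomputable def n4922 : Strat := .move 839 n1538 (.cons 676 n143 .nil)
noncomputable def n4923 : Strat := .move 673 n4636 (.cons 718 n4751 .nil)
noncomputable def n4924 : Strat := .move 674 n4170 (.cons 839 n4923 .nil)
noncomputable def n4925 : Strat := .move 673 n4636 (.cons 718 n3807 .nil)
noncomputable def n4926 : Strat := .move 755 n4590 (.cons 837 n178 .nil)
noncomputable def n4927 : Strat := .move 674 n4925 (.cons 672 n4926 .nil)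
noncomputable def n4928 : Strat := .move 837 n4885 (.cons 841 n4882 .nil)
noncomputable def n4929 : Strat := .move 714 n4927 (.cons 674 n4727 (.cons 754 n4880 (.cons 672 n4928 .nil)))
noncomputable def n4930 : Strat := .win 679 4 675
noncomputable def n4931 : Strat := .win 718 5 674
noncomputable def n4932 : Strat := .move 678 n4930 (.cons 679 n4931 .nil)
noncomputable def n4933 : Strat := .move 677 n4158 (.cons 714 n4932 .nil)
noncomputable def n4934 : Strat := .move 676 n4159 (.cons 839 n4933 .nil)
noncomputable def n4935 : Strat := .move 715 n4922 (.cons 676 n4924 (.cons 839 n4929 (.cons 674 n4934 .nil)))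
noncomputable def n4936 : Strat := .move 796 n4919 (.cons 797 n4921 (.cons 839 n4666 (.cons 795 n4935 .nil)))
noncomputable def n4937 : Strat := .move 757 n755 (.cons 675 n4936 .nil)
noncomputable def n4938 : Strat := .move 716 n4703 (.cons 715 n4710 (.cons 797 n4157 (.cons 757 n4830 (.cons 675 n4890 (.cons 676 n4918 (.cons 756 n4937 .nil))))))
noncomputable def n4939 : Strat := .win 794 5 753
noncomputable def n4940 : Strat := .move 795 n4939 (.cons 794 n1399 .nil)
noncomputable def n4941 : Strat := .move 796 n1461 (.cons 836 n4940 .nil)
noncomputable def n4942 : Strat := .move 837 n1533 (.cons 838 n4941 .nil)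
noncomputable def n4943 : Strat := .move 756 n565 (.cons 755 n4942 .nil)
noncomputable def n4944 : Strat := .move 800 n2465 (.cons 801 n4943 (.cons 755 n1836 (.cons 756 n4126 .nil)))
noncomputable def n4945 : Strat := .move 796 n780 (.cons 841 n4383 .nil)
noncomputable def n4946 : Strat := .move 800 n774 (.cons 837 n1835 .nil)
noncomputable def n4947 : Strat := .move 756 n1674 (.cons 715 n1553 .nil)
noncomputable def n4948 : Strat := .move 879 n1381 (.cons 920 n4947 .nil)
noncomputable def n4949 : Strat := .move 837 n1448 (.cons 800 n4948 .nil)
noncomputable def n4950 : Strat := .move 839 n1650 (.cons 919 n1298 .nil)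
noncomputable def n4951 : Strat := .move 756 n1551 (.cons 800 n1553 (.cons 754 n1644 (.cons 755 n4950 .nil)))
noncomputable def n4952 : Strat := .move 879 n1381 (.cons 920 n4951 .nil)
noncomputable def n4953 : Strat := .move 715 n2698 (.cons 919 n451 .nil)
noncomputable def n4954 : Strat := .move 756 n1553 (.cons 754 n4953 .nil)
noncomputable def n4955 : Strat := .move 879 n1381 (.cons 920 n4954 .nil)
noncomputable def n4956 : Strat := .move 800 n774 (.cons 837 n2023 .nil)
noncomputable def n4957 : Strat := .move 838 n4946 (.cons 839 n4949 (.cons 837 n4952 (.cons 800 n4955 (.cons 756 n4956 .nil))))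
noncomputable def n4958 : Strat := .move 757 n1404 (.cons 755 n1532 (.cons 841 n4944 (.cons 839 n4945 (.cons 796 n4957 .nil))))
noncomputable def n4959 : Strat := .move 839 n937 (.cons 802 n2022 .nil)
noncomputable def n4960 : Strat := .move 801 n1406 (.cons 757 n4959 .nil)
noncomputable def n4961 : Strat := .move 756 n565 (.cons 755 n4960 .nil)
noncomputable def n4962 : Strat := .move 920 n689 (.cons 961 n1673 .nil)
noncomputable def n4963 : Strat := .move 879 n4962 (.cons 757 n1650 .nil)
noncomputable def n4964 : Strat := .move 839 n1298 (.cons 674 n1418 (.cons 880 n4963 .nil))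
noncomputable def n4965 : Strat := .move 756 n565 (.cons 755 n4964 .nil)
noncomputable def n4966 : Strat := .move 838 n774 (.cons 837 n4965 .nil)
noncomputable def n4967 : Strat := .move 800 n1409 (.cons 838 n4961 (.cons 756 n1614 (.cons 839 n1621 (.cons 801 n4966 .nil))))
noncomputable def n4968 : Strat := .move 801 n937 (.cons 802 n1406 .nil)
noncomputable def n4969 : Strat := .move 800 n565 (.cons 755 n4968 .nil)
noncomputable def n4970 : Strat := .move 801 n937 (.cons 802 n2022 .nil)
noncomputable def n4971 : Strat := .move 800 n565 (.cons 755 n4970 .nil)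
noncomputable def n4972 : Strat := .move 715 n1297 (.cons 674 n1972 .nil)
noncomputable def n4973 : Strat := .move 880 n1417 (.cons 921 n4972 .nil)
noncomputable def n4974 : Strat := .move 756 n4969 (.cons 757 n4971 (.cons 800 n4973 .nil))
noncomputable def n4975 : Strat := .move 839 n1946 (.cons 796 n4974 .nil)
noncomputable def n4976 : Strat := .move 796 n1403 (.cons 755 n1531 (.cons 839 n1536 .nil))
noncomputable def n4977 : Strat := .move 797 n4958 (.cons 796 n4967 (.cons 838 n4975 (.cons 755 n1532 (.cons 839 n1537 (.cons 841 n4976 .nil)))))
noncomputable def n4978 : Strat := .move 800 n1412 (.cons 801 n4123 .nil)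
noncomputable def n4979 : Strat := .move 841 n560 (.cons 796 n4978 .nil)
noncomputable def n4980 : Strat := .move 838 n1448 (.cons 800 n3901 .nil)
noncomputable def n4981 : Strat := .move 837 n1461 (.cons 836 n4980 .nil)
noncomputable def n4982 : Strat := .move 796 n4981 (.cons 837 n1403 (.cons 755 n1531 (.cons 839 n1536 .nil)))
noncomputable def n4983 : Strat := .move 839 n435 (.cons 801 n1298 .nil)
noncomputable def n4984 : Strat := .move 838 n774 (.cons 837 n4983 .nil)
noncomputable def n4985 : Strat := .move 800 n565 (.cons 755 n4984 .nil)
noncomputable def n4986 : Strat := .move 839 n1297 (.cons 674 n4797 .nil)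
noncomputable def n4987 : Strat := .move 755 n4619 (.cons 718 n3918 .nil)
noncomputable def n4988 : Strat := .move 839 n4797 (.cons 675 n1491 (.cons 880 n4987 .nil))
noncomputable def n4989 : Strat := .move 839 n1297 (.cons 674 n1491 .nil)
noncomputable def n4990 : Strat := .move 634 n3864 (.cons 593 n3912 .nil)
noncomputable def n4991 : Strat := .move 675 n3911 (.cons 838 n4990 .nil)
noncomputable def n4992 : Strat := .move 718 n812 (.cons 673 n165 .nil)
noncomputable def n4993 : Strat := .move 674 n449 (.cons 839 n4992 .nil)
noncomputable def n4994 : Strat := .move 716 n4986 (.cons 674 n4988 (.cons 675 n4989 (.cons 839 n4991 (.cons 838 n4993 .nil))))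
noncomputable def n4995 : Strat := .move 755 n178 (.cons 754 n4619 .nil)
noncomputable def n4996 : Strat := .move 714 n1932 (.cons 673 n4995 .nil)
noncomputable def n4997 : Strat := .move 836 n1700 (.cons 839 n1670 .nil)
noncomputable def n4998 : Strat := .move 837 n1663 (.cons 878 n4997 .nil)
noncomputable def n4999 : Strat := .move 838 n4996 (.cons 714 n4998 .nil)
noncomputable def n5000 : Strat := .move 838 n1863 (.cons 675 n4998 .nil)
noncomputable def n5001 : Strat := .move 675 n3911 (.cons 838 n4987 .nil)
noncomputable def n5002 : Strat := .move 716 n4988 (.cons 675 n4999 (.cons 714 n5000 (.cons 839 n5001 (.cons 838 n4987 .nil))))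
noncomputable def n5003 : Strat := .move 839 n1296 (.cons 880 n1297 .nil)
noncomputable def n5004 : Strat := .move 838 n1863 (.cons 675 n5003 .nil)
noncomputable def n5005 : Strat := .move 716 n4987 (.cons 753 n5004 .nil)
noncomputable def n5006 : Strat := .move 716 n4809 (.cons 675 n4811 (.cons 839 n4812 (.cons 838 n4814 .nil)))
noncomputable def n5007 : Strat := .move 716 n1863 (.cons 675 n5003 .nil)
noncomputable def n5008 : Strat := .move 716 n1863 (.cons 675 n4998 .nil)
noncomputable def n5009 : Strat := .move 674 n4636 (.cons 718 n1789 .nil)
noncomputable def n5010 : Strat := .move 673 n1788 (.cons 714 n5009 .nil)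
noncomputable def n5011 : Strat := .move 716 n5003 (.cons 674 n4998 (.cons 839 n5010 .nil))
noncomputable def n5012 : Strat := .move 675 n1782 (.cons 716 n1771 .nil)
noncomputable def n5013 : Strat := .move 674 n1789 (.cons 632 n5012 .nil)
noncomputable def n5014 : Strat := .move 673 n1788 (.cons 714 n5013 .nil)
noncomputable def n5015 : Strat := .move 839 n1297 (.cons 674 n1296 .nil)
noncomputable def n5016 : Strat := .move 838 n5007 (.cons 674 n5008 (.cons 675 n5011 (.cons 839 n5014 (.cons 716 n5015 .nil))))
noncomputable def n5017 : Strat := .move 675 n3911 (.cons 838 n1771 .nil)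
noncomputable def n5018 : Strat := .move 674 n812 (.cons 673 n5017 .nil)
noncomputable def n5019 : Strat := .move 718 n165 (.cons 755 n5018 .nil)
noncomputable def n5020 : Strat := .move 716 n5004 (.cons 674 n5000 (.cons 839 n5019 (.cons 838 n4993 .nil)))
noncomputable def n5021 : Strat := .win 838 7 673
noncomputable def n5022 : Strat := .move 714 n3807 (.cons 672 n5021 .nil)
noncomputable def n5023 : Strat := .move 673 n3806 (.cons 674 n5022 .nil)
noncomputable def n5024 : Strat := .move 718 n165 (.cons 755 n5023 .nil)
noncomputable def n5025 : Strat := .move 675 n4041 (.cons 719 n1771 .nil)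
noncomputable def n5026 : Strat := .move 674 n812 (.cons 673 n5025 .nil)
noncomputable def n5027 : Strat := .move 718 n165 (.cons 755 n5026 .nil)
noncomputable def n5028 : Strat := .move 716 n4991 (.cons 674 n5001 (.cons 675 n5024 (.cons 838 n5027 .nil)))
noncomputable def n5029 : Strat := .win 673 7 632
noncomputable def n5030 : Strat := .win 591 7 591
noncomputable def n5031 : Strat := .win 593 3 592
noncomputable def n5032 : Strat := .win 675 3 633
noncomputable def n5033 : Strat := .move 634 n5031 (.cons 593 n5032 .nil)
noncomputable def n5034 : Strat := .move 633 n5030 (.cons 591 n5033 .nil)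
noncomputable def n5035 : Strat := .move 632 n5029 (.cons 673 n5034 .nil)
noncomputable def n5036 : Strat := .move 674 n449 (.cons 839 n5035 .nil)
noncomputable def n5037 : Strat := .move 715 n4994 (.cons 674 n5002 (.cons 673 n5005 (.cons 718 n5006 (.cons 755 n5016 (.cons 714 n5020 (.cons 839 n5028 (.cons 716 n5036 (.cons 675 n4811 .nil))))))))
noncomputable def n5038 : Strat := .move 800 n565 (.cons 755 n4126 .nil)
noncomputable def n5039 : Strat := .move 800 n565 (.cons 755 n1874 .nil)
noncomputable def n5040 : Strat := .move 800 n774 (.cons 837 n4983 .nil)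
noncomputable def n5041 : Strat := .move 715 n1663 (.cons 878 n3425 .nil)
noncomputable def n5042 : Strat := .move 837 n1448 (.cons 800 n5041 .nil)
noncomputable def n5043 : Strat := .move 715 n5007 (.cons 674 n5008 (.cons 675 n5011 (.cons 839 n5014 (.cons 716 n5015 .nil))))
noncomputable def n5044 : Strat := .move 839 n1298 (.cons 674 n2637 (.cons 880 n1650 .nil))
noncomputable def n5045 : Strat := .move 920 n1675 (.cons 960 n1680 .nil)
noncomputable def n5046 : Strat := .move 919 n1676 (.cons 878 n5045 .nil)
noncomputable def n5047 : Strat := .move 839 n689 (.cons 961 n1650 .nil)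
noncomputable def n5048 : Strat := .move 920 n1677 (.cons 878 n2184 (.cons 960 n5047 (.cons 919 n2241 .nil)))
noncomputable def n5049 : Strat := .move 839 n1298 (.cons 674 n1650 .nil)
noncomputable def n5050 : Strat := .move 880 n634 (.cons 921 n2192 .nil)
noncomputable def n5051 : Strat := .move 674 n449 (.cons 839 n2260 .nil)
noncomputable def n5052 : Strat := .move 715 n5003 (.cons 674 n5050 (.cons 880 n5051 (.cons 839 n3425 .nil)))
noncomputable def n5053 : Strat := .move 879 n5044 (.cons 839 n5046 (.cons 880 n5048 (.cons 921 n5049 (.cons 878 n5052 .nil))))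
noncomputable def n5054 : Strat := .move 838 n5040 (.cons 839 n5042 (.cons 800 n5043 (.cons 715 n4956 (.cons 837 n5053 .nil))))
noncomputable def n5055 : Strat := .move 716 n4619 (.cons 718 n3918 .nil)
noncomputable def n5056 : Strat := .move 839 n1297 (.cons 674 n5055 .nil)
noncomputable def n5057 : Strat := .move 632 n5030 (.cons 591 n5029 .nil)
noncomputable def n5058 : Strat := .move 633 n5033 (.cons 675 n5057 .nil)
noncomputable def n5059 : Strat := .move 674 n449 (.cons 839 n5058 .nil)
noncomputable def n5060 : Strat := .move 715 n5056 (.cons 674 n5055 (.cons 714 n5059 .nil))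
noncomputable def n5061 : Strat := .move 755 n1483 (.cons 800 n5060 .nil)
noncomputable def n5062 : Strat := .move 755 n4619 (.cons 718 n1483 .nil)
noncomputable def n5063 : Strat := .move 716 n3911 (.cons 838 n5062 .nil)
noncomputable def n5064 : Strat := .move 800 n774 (.cons 837 n565 .nil)
noncomputable def n5065 : Strat := .move 838 n5064 (.cons 755 n4360 (.cons 837 n3102 .nil))
noncomputable def n5066 : Strat := .move 674 n1771 (.cons 634 n5065 .nil)
noncomputable def n5067 : Strat := .win 716 2 673
noncomputable def n5068 : Strat := .move 718 n5067 (.cons 716 n4134 .nil)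
noncomputable def n5069 : Strat := .move 673 n1789 (.cons 632 n5068 .nil)
noncomputable def n5070 : Strat := .move 674 n1771 (.cons 634 n5069 .nil)
noncomputable def n5071 : Strat := .move 675 n5063 (.cons 716 n5066 (.cons 838 n5070 .nil))
noncomputable def n5072 : Strat := .move 837 n1448 (.cons 800 n1663 .nil)
noncomputable def n5073 : Strat := .move 838 n5072 (.cons 837 n5014 .nil)
noncomputable def n5074 : Strat := .move 675 n3911 (.cons 838 n5062 .nil)
noncomputable def n5075 : Strat := .move 755 n1483 (.cons 800 n4619 .nil)
noncomputable def n5076 : Strat := .move 716 n5074 (.cons 755 n4361 (.cons 800 n5001 (.cons 838 n5075 .nil)))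
noncomputable def n5077 : Strat := .move 755 n1483 (.cons 800 n5055 .nil)
noncomputable def n5078 : Strat := .move 716 n4619 (.cons 718 n4991 .nil)
noncomputable def n5079 : Strat := .move 755 n1483 (.cons 800 n5078 .nil)
noncomputable def n5080 : Strat := .move 878 n1427 (.cons 919 n2276 .nil)
noncomputable def n5081 : Strat := .move 879 n2207 (.cons 755 n5080 .nil)
noncomputable def n5082 : Strat := .move 714 n1932 (.cons 673 n5081 .nil)
noncomputable def n5083 : Strat := .move 714 n2000 (.cons 879 n1932 .nil)
noncomputable def n5084 : Strat := .move 755 n1483 (.cons 800 n5083 .nil)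
noncomputable def n5085 : Strat := .move 838 n4394 (.cons 800 n5082 (.cons 755 n5072 (.cons 837 n5084 .nil)))
noncomputable def n5086 : Strat := .move 715 n5071 (.cons 755 n5073 (.cons 800 n5028 (.cons 674 n5076 (.cons 675 n5077 (.cons 714 n5079 (.cons 716 n5085 .nil))))))
noncomputable def n5087 : Strat := .move 756 n4985 (.cons 800 n5037 (.cons 880 n5038 (.cons 837 n5039 (.cons 755 n5054 (.cons 838 n5061 (.cons 839 n5086 .nil))))))
noncomputable def n5088 : Strat := .move 797 n4979 (.cons 841 n4982 (.cons 839 n1537 (.cons 837 n1404 (.cons 755 n1532 (.cons 796 n5087 .nil)))))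
noncomputable def n5089 : Strat := .move 715 n4619 (.cons 718 n1297 .nil)
noncomputable def n5090 : Strat := .move 756 n1483 (.cons 800 n5089 .nil)
noncomputable def n5091 : Strat := .move 755 n1304 (.cons 754 n5090 .nil)
noncomputable def n5092 : Strat := .move 839 n1104 (.cons 795 n5091 .nil)
noncomputable def n5093 : Strat := .move 796 n780 (.cons 841 n5092 .nil)
noncomputable def n5094 : Strat := .move 674 n449 (.cons 839 n812 .nil)
noncomputable def n5095 : Strat := .move 756 n165 (.cons 755 n5094 .nil)
noncomputable def n5096 : Strat := .move 675 n1771 (.cons 634 n4041 .nil)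
noncomputable def n5097 : Strat := .move 674 n449 (.cons 839 n5096 .nil)
noncomputable def n5098 : Strat := .move 756 n165 (.cons 755 n5097 .nil)
noncomputable def n5099 : Strat := .move 718 n5095 (.cons 755 n4036 (.cons 673 n5098 (.cons 674 n3936 .nil)))
noncomputable def n5100 : Strat := .move 755 n1483 (.cons 800 n4713 .nil)
noncomputable def n5101 : Strat := .move 673 n1789 (.cons 632 n4743 .nil)
noncomputable def n5102 : Strat := .move 674 n449 (.cons 839 n5101 .nil)
noncomputable def n5103 : Strat := .move 756 n5100 (.cons 800 n4814 (.cons 714 n5102 .nil))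
noncomputable def n5104 : Strat := .move 718 n4036 (.cons 800 n4256 (.cons 674 n3936 (.cons 759 n4294 .nil)))
noncomputable def n5105 : Strat := .move 718 n5098 (.cons 634 n3936 .nil)
noncomputable def n5106 : Strat := .move 674 n449 (.cons 839 n5025 .nil)
noncomputable def n5107 : Strat := .move 756 n165 (.cons 755 n5106 .nil)
noncomputable def n5108 : Strat := .move 718 n4723 (.cons 755 n4256 (.cons 673 n5107 (.cons 674 n4770 .nil)))
noncomputable def n5109 : Strat := .move 759 n144 (.cons 760 n3998 .nil)
noncomputable def n5110 : Strat := .move 718 n5095 (.cons 839 n5109 .nil)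
noncomputable def n5111 : Strat := .move 756 n4619 (.cons 718 n1483 .nil)
noncomputable def n5112 : Strat := .move 755 n178 (.cons 754 n5111 .nil)
noncomputable def n5113 : Strat := .win 632 6 632
noncomputable def n5114 : Strat := .move 756 n5113 (.cons 632 n1483 .nil)
noncomputable def n5115 : Strat := .move 673 n3807 (.cons 672 n5114 .nil)
noncomputable def n5116 : Strat := .move 755 n178 (.cons 754 n5115 .nil)
noncomputable def n5117 : Strat := .move 714 n5112 (.cons 800 n4647 (.cons 755 n4649 (.cons 718 n5116 .nil)))
noncomputable def n5118 : Strat := .move 715 n5099 (.cons 718 n5103 (.cons 755 n5104 (.cons 673 n5105 (.cons 800 n5108 (.cons 675 n5110 (.cons 674 n5117 .nil))))))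
noncomputable def n5119 : Strat := .move 715 n4619 (.cons 718 n2788 .nil)
noncomputable def n5120 : Strat := .move 756 n1483 (.cons 800 n5119 .nil)
noncomputable def n5121 : Strat := .move 755 n1304 (.cons 754 n5120 .nil)
noncomputable def n5122 : Strat := .move 796 n780 (.cons 841 n5121 .nil)
noncomputable def n5123 : Strat := .move 797 n5093 (.cons 796 n5118 (.cons 800 n1404 (.cons 839 n5122 (.cons 755 n1532 .nil))))
noncomputable def n5124 : Strat := .move 802 n1413 (.cons 803 n573 .nil)
noncomputable def n5125 : Strat := .move 801 n1406 (.cons 757 n5124 .nil)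
noncomputable def n5126 : Strat := .move 756 n565 (.cons 755 n5125 .nil)
noncomputable def n5127 : Strat := .move 800 n4120 (.cons 760 n5126 .nil)
noncomputable def n5128 : Strat := .move 841 n560 (.cons 796 n5127 .nil)
noncomputable def n5129 : Strat := .move 757 n462 (.cons 754 n4342 .nil)
noncomputable def n5130 : Strat := .move 755 n1483 (.cons 800 n5129 .nil)
noncomputable def n5131 : Strat := .move 801 n1406 (.cons 757 n2022 .nil)
noncomputable def n5132 : Strat := .move 800 n565 (.cons 755 n5131 .nil)
noncomputable def n5133 : Strat := .move 839 n1297 (.cons 674 n1973 .nil)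
noncomputable def n5134 : Strat := .move 755 n4619 (.cons 718 n4357 .nil)
noncomputable def n5135 : Strat := .move 674 n812 (.cons 673 n449 .nil)
noncomputable def n5136 : Strat := .move 718 n165 (.cons 755 n5135 .nil)
noncomputable def n5137 : Strat := .move 715 n5133 (.cons 921 n5134 (.cons 757 n5136 .nil))
noncomputable def n5138 : Strat := .move 715 n4619 (.cons 718 n3918 .nil)
noncomputable def n5139 : Strat := .move 755 n1483 (.cons 800 n5138 .nil)
noncomputable def n5140 : Strat := .move 800 n1391 (.cons 801 n4546 .nil)
noncomputable def n5141 : Strat := .move 718 n809 (.cons 719 n5140 .nil)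
noncomputable def n5142 : Strat := .move 757 n4110 (.cons 839 n5141 .nil)
noncomputable def n5143 : Strat := .move 756 n5130 (.cons 715 n5132 (.cons 800 n5137 (.cons 757 n5139 (.cons 755 n5142 .nil))))
noncomputable def n5144 : Strat := .move 797 n5128 (.cons 796 n5143 (.cons 755 n1532 (.cons 839 n5122 .nil)))
noncomputable def n5145 : Strat := .move 756 n1813 (.cons 880 n4335 .nil)
noncomputable def n5146 : Strat := .move 715 n143 (.cons 674 n5145 .nil)
noncomputable def n5147 : Strat := .move 839 n1538 (.cons 676 n5146 .nil)
noncomputable def n5148 : Strat := .move 757 n755 (.cons 675 n5147 .nil)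
noncomputable def n5149 : Strat := .move 674 n450 (.cons 633 n4170 .nil)
noncomputable def n5150 : Strat := .move 839 n1813 (.cons 880 n143 .nil)
noncomputable def n5151 : Strat := .move 715 n5149 (.cons 839 n4344 (.cons 633 n5150 (.cons 674 n3936 .nil)))
noncomputable def n5152 : Strat := .move 718 n809 (.cons 719 n5151 .nil)
noncomputable def n5153 : Strat := .move 715 n1813 (.cons 880 n143 .nil)
noncomputable def n5154 : Strat := .move 839 n4334 (.cons 801 n5153 .nil)
noncomputable def n5155 : Strat := .move 755 n462 (.cons 754 n5154 .nil)
noncomputable def n5156 : Strat := .move 756 n4343 (.cons 755 n5152 (.cons 718 n5155 (.cons 715 n4352 .nil)))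
noncomputable def n5157 : Strat := .move 757 n755 (.cons 675 n5156 .nil)
noncomputable def n5158 : Strat := .move 801 n937 (.cons 802 n751 .nil)
noncomputable def n5159 : Strat := .move 801 n753 (.cons 761 n937 .nil)
noncomputable def n5160 : Strat := .move 760 n1611 (.cons 759 n5159 .nil)
noncomputable def n5161 : Strat := .move 756 n565 (.cons 755 n809 .nil)
noncomputable def n5162 : Strat := .move 718 n5161 (.cons 719 n4546 .nil)
noncomputable def n5163 : Strat := .move 800 n5158 (.cons 756 n5160 (.cons 802 n2465 (.cons 801 n5162 .nil)))
noncomputable def n5164 : Strat := .move 797 n1946 (.cons 796 n5163 .nil)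
noncomputable def n5165 : Strat := .move 839 n1538 (.cons 676 n5164 .nil)
noncomputable def n5166 : Strat := .move 757 n755 (.cons 675 n5165 .nil)
noncomputable def n5167 : Strat := .move 755 n462 (.cons 754 n3880 .nil)
noncomputable def n5168 : Strat := .move 718 n809 (.cons 719 n5167 .nil)
noncomputable def n5169 : Strat := .move 756 n4341 (.cons 797 n5168 (.cons 719 n4352 (.cons 755 n4350 .nil)))
noncomputable def n5170 : Strat := .move 757 n755 (.cons 675 n5169 .nil)
noncomputable def n5171 : Strat := .move 839 n1538 (.cons 676 n1812 .nil)
noncomputable def n5172 : Strat := .move 757 n755 (.cons 675 n5171 .nil)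
noncomputable def n5173 : Strat := .move 714 n4602 (.cons 753 n4776 (.cons 672 n4649 .nil))
noncomputable def n5174 : Strat := .move 718 n812 (.cons 673 n3936 .nil)
noncomputable def n5175 : Strat := .move 674 n4170 (.cons 839 n5174 .nil)
noncomputable def n5176 : Strat := .move 715 n4922 (.cons 674 n4934 (.cons 839 n5173 (.cons 676 n5175 .nil)))
noncomputable def n5177 : Strat := .move 757 n755 (.cons 675 n5176 .nil)
noncomputable def n5178 : Strat := .move 716 n4157 (.cons 757 n5123 (.cons 675 n5144 (.cons 718 n5148 (.cons 676 n5157 (.cons 715 n5166 (.cons 839 n5170 (.cons 755 n5172 (.cons 756 n5177 .nil))))))))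
noncomputable def n5179 : Strat := .move 677 n3848 (.cons 678 n4158 .nil)
noncomputable def n5180 : Strat := .move 715 n4344 (.cons 633 n5179 .nil)
noncomputable def n5181 : Strat := .move 718 n809 (.cons 719 n5180 .nil)
noncomputable def n5182 : Strat := .move 676 n4335 (.cons 800 n4337 (.cons 755 n5181 .nil))
noncomputable def n5183 : Strat := .move 756 n5182 (.cons 801 n4343 (.cons 755 n4350 (.cons 718 n4352 .nil)))
noncomputable def n5184 : Strat := .move 759 n144 (.cons 760 n724 .nil)
noncomputable def n5185 : Strat := .move 715 n5149 (.cons 839 n5184 .nil)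
noncomputable def n5186 : Strat := .move 718 n809 (.cons 719 n5185 .nil)
noncomputable def n5187 : Strat := .move 800 n1391 (.cons 801 n5186 .nil)
noncomputable def n5188 : Strat := .move 756 n4352 (.cons 801 n4343 (.cons 755 n5187 .nil))
noncomputable def n5189 : Strat := .move 757 n4132 (.cons 839 n5183 (.cons 676 n5188 (.cons 800 n4156 .nil)))
noncomputable def n5190 : Strat := .move 757 n755 (.cons 675 n5183 .nil)
noncomputable def n5191 : Strat := .move 757 n755 (.cons 675 n5188 .nil)
noncomputable def n5192 : Strat := .move 718 n3851 (.cons 800 n4769 .nil)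
noncomputable def n5193 : Strat := .move 718 n3851 (.cons 678 n4256 (.cons 759 n4294 .nil))
noncomputable def n5194 : Strat := .move 673 n5113 (.cons 632 n3807 .nil)
noncomputable def n5195 : Strat := .move 797 n1483 (.cons 800 n5194 .nil)
noncomputable def n5196 : Strat := .move 756 n4619 (.cons 718 n5195 .nil)
noncomputable def n5197 : Strat := .move 755 n178 (.cons 754 n5196 .nil)
noncomputable def n5198 : Strat := .move 714 n5197 (.cons 800 n4647 (.cons 756 n4778 .nil))
noncomputable def n5199 : Strat := .move 718 n3851 (.cons 760 n4720 (.cons 677 n4757 .nil))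
noncomputable def n5200 : Strat := .move 718 n4769 (.cons 674 n4770 (.cons 755 n4256 .nil))
noncomputable def n5201 : Strat := .move 838 n1863 (.cons 675 n5064 .nil)
noncomputable def n5202 : Strat := .win 796 2 754
noncomputable def n5203 : Strat := .move 754 n5202 (.cons 796 n3917 .nil)
noncomputable def n5204 : Strat := .move 755 n1483 (.cons 800 n5203 .nil)
noncomputable def n5205 : Strat := .move 756 n5201 (.cons 800 n4716 (.cons 675 n5204 .nil))
noncomputable def n5206 : Strat := .move 754 n1765 (.cons 753 n5202 .nil)
noncomputable def n5207 : Strat := .move 755 n1483 (.cons 800 n5206 .nil)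
noncomputable def n5208 : Strat := .move 756 n5204 (.cons 714 n5207 (.cons 755 n4811 .nil))
noncomputable def n5209 : Strat := .move 756 n1863 (.cons 675 n5064 .nil)
noncomputable def n5210 : Strat := .move 756 n1663 (.cons 878 n1863 .nil)
noncomputable def n5211 : Strat := .move 837 n1448 (.cons 800 n5210 .nil)
noncomputable def n5212 : Strat := .move 756 n1863 (.cons 675 n5204 .nil)
noncomputable def n5213 : Strat := .move 755 n2000 (.cons 879 n178 .nil)
noncomputable def n5214 : Strat := .move 714 n1932 (.cons 673 n5213 .nil)
noncomputable def n5215 : Strat := .move 756 n1863 (.cons 675 n5214 .nil)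
noncomputable def n5216 : Strat := .move 838 n5209 (.cons 755 n5211 (.cons 756 n1826 (.cons 837 n5212 (.cons 800 n5215 .nil))))
noncomputable def n5217 : Strat := .move 713 n4598 (.cons 753 n4726 .nil)
noncomputable def n5218 : Strat := .move 754 n4599 (.cons 755 n5217 .nil)
noncomputable def n5219 : Strat := .move 713 n4603 (.cons 675 n4597 .nil)
noncomputable def n5220 : Strat := .move 676 n4604 (.cons 677 n5219 .nil)
noncomputable def n5221 : Strat := .move 672 n4586 (.cons 673 n5220 .nil)
noncomputable def n5222 : Strat := .move 713 n4603 (.cons 675 n4598 .nil)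
noncomputable def n5223 : Strat := .move 676 n4604 (.cons 677 n5222 .nil)
noncomputable def n5224 : Strat := .move 754 n4599 (.cons 755 n5223 .nil)
noncomputable def n5225 : Strat := .move 837 n1727 (.cons 674 n1461 .nil)
noncomputable def n5226 : Strat := .win 838 6 673
noncomputable def n5227 : Strat := .move 673 n5226 (.cons 838 n3807 .nil)
noncomputable def n5228 : Strat := .move 796 n5225 (.cons 836 n5227 .nil)
noncomputable def n5229 : Strat := .move 755 n178 (.cons 754 n5228 .nil)
noncomputable def n5230 : Strat := .move 714 n5218 (.cons 753 n5221 (.cons 672 n5224 (.cons 713 n5229 .nil)))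
noncomputable def n5231 : Strat := .move 756 n5201 (.cons 675 n5207 (.cons 755 n4361 (.cons 800 n4716 .nil)))
noncomputable def n5232 : Strat := .move 756 n1483 (.cons 800 n5194 .nil)
noncomputable def n5233 : Strat := .move 755 n178 (.cons 754 n5232 .nil)
noncomputable def n5234 : Strat := .move 755 n178 (.cons 754 n4729 .nil)
noncomputable def n5235 : Strat := .move 714 n5233 (.cons 632 n5234 (.cons 755 n4607 (.cons 672 n5224 .nil)))
noncomputable def n5236 : Strat := .move 756 n4361 (.cons 675 n4811 (.cons 838 n4814 .nil))
noncomputable def n5237 : Strat := .move 797 n5205 (.cons 675 n5208 (.cons 674 n5216 (.cons 756 n5230 (.cons 714 n5231 (.cons 838 n5235 (.cons 755 n5236 .nil))))))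
noncomputable def n5238 : Strat := .move 755 n178 (.cons 754 n4584 .nil)
noncomputable def n5239 : Strat := .move 838 n2000 (.cons 879 n1863 .nil)
noncomputable def n5240 : Strat := .move 797 n1483 (.cons 800 n5239 .nil)
noncomputable def n5241 : Strat := .move 756 n4619 (.cons 718 n5240 .nil)
noncomputable def n5242 : Strat := .move 755 n178 (.cons 754 n5241 .nil)
noncomputable def n5243 : Strat := .win 752 4 711
noncomputable def n5244 : Strat := .win 754 4 712
noncomputable def n5245 : Strat := .move 753 n5243 (.cons 752 n5244 .nil)
noncomputable def n5246 : Strat := .win 674 5 671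
noncomputable def n5247 : Strat := .move 675 n5246 (.cons 674 n4138 .nil)
noncomputable def n5248 : Strat := .move 712 n5245 (.cons 754 n5247 .nil)
noncomputable def n5249 : Strat := .move 713 n4597 (.cons 671 n5248 .nil)
noncomputable def n5250 : Strat := .move 672 n4586 (.cons 673 n5249 .nil)
noncomputable def n5251 : Strat := .move 718 n165 (.cons 755 n3806 .nil)
noncomputable def n5252 : Strat := .move 797 n5021 (.cons 838 n5075 .nil)
noncomputable def n5253 : Strat := .move 674 n449 (.cons 839 n4636 .nil)
noncomputable def n5254 : Strat := .move 797 n5021 (.cons 838 n5253 .nil)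
noncomputable def n5255 : Strat := .win 755 6 632
noncomputable def n5256 : Strat := .move 632 n5255 (.cons 755 n4824 .nil)
noncomputable def n5257 : Strat := .move 797 n5021 (.cons 838 n5256 .nil)
noncomputable def n5258 : Strat := .move 756 n5251 (.cons 674 n5252 (.cons 755 n5254 (.cons 718 n5257 .nil)))
noncomputable def n5259 : Strat := .move 673 n3807 (.cons 672 n5258 .nil)
noncomputable def n5260 : Strat := .move 714 n5238 (.cons 674 n5197 (.cons 673 n5242 (.cons 756 n4787 (.cons 755 n5250 (.cons 754 n5259 .nil)))))
noncomputable def n5261 : Strat := .win 670 2 670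
noncomputable def n5262 : Strat := .win 672 2 671
noncomputable def n5263 : Strat := .move 671 n5261 (.cons 670 n5262 .nil)
noncomputable def n5264 : Strat := .move 712 n5263 (.cons 672 n5245 .nil)
noncomputable def n5265 : Strat := .move 713 n4603 (.cons 675 n5264 .nil)
noncomputable def n5266 : Strat := .move 676 n4604 (.cons 677 n5265 .nil)
noncomputable def n5267 : Strat := .move 714 n4647 (.cons 677 n5242 (.cons 718 n4780 (.cons 755 n5266 (.cons 754 n4649 .nil))))
noncomputable def n5268 : Strat := .move 715 n5192 (.cons 755 n5193 (.cons 674 n5198 (.cons 675 n5199 (.cons 800 n5200 (.cons 718 n5237 (.cons 677 n5260 (.cons 673 n5267 .nil)))))))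
noncomputable def n5269 : Strat := .move 716 n4133 (.cons 675 n5189 (.cons 839 n5190 (.cons 676 n5191 (.cons 800 n4157 (.cons 757 n5268 .nil)))))
noncomputable def n5270 : Strat := .move 716 n755 (.cons 675 n1538 .nil)
noncomputable def n5271 : Strat := .move 716 n1538 (.cons 676 n4153 .nil)
noncomputable def n5272 : Strat := .move 716 n755 (.cons 675 n4153 .nil)
noncomputable def n5273 : Strat := .move 801 n752 (.cons 838 n751 .nil)
noncomputable def n5274 : Strat := .move 838 n1105 (.cons 841 n2085 .nil)
noncomputable def n5275 : Strat := .move 715 n1297 (.cons 674 n1813 .nil)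
noncomputable def n5276 : Strat := .move 756 n565 (.cons 755 n5275 .nil)
noncomputable def n5277 : Strat := .move 797 n5274 (.cons 841 n5276 (.cons 715 n1946 .nil))
noncomputable def n5278 : Strat := .move 800 n1103 (.cons 802 n5273 (.cons 801 n5277 (.cons 838 n5158 .nil)))
noncomputable def n5279 : Strat := .move 757 n5270 (.cons 675 n5271 (.cons 676 n5272 (.cons 716 n5278 .nil)))
noncomputable def n5280 : Strat := .move 757 n1538 (.cons 676 n4153 .nil)
noncomputable def n5281 : Strat := .move 757 n1538 (.cons 676 n4708 .nil)
noncomputable def n5282 : Strat := .move 801 n752 (.cons 838 n2022 .nil)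
noncomputable def n5283 : Strat := .move 756 n565 (.cons 755 n5282 .nil)
noncomputable def n5284 : Strat := .move 715 n1490 (.cons 838 n1297 .nil)
noncomputable def n5285 : Strat := .move 880 n1417 (.cons 921 n5284 .nil)
noncomputable def n5286 : Strat := .move 756 n565 (.cons 755 n5285 .nil)
noncomputable def n5287 : Strat := .move 756 n565 (.cons 755 n5160 .nil)
noncomputable def n5288 : Strat := .move 800 n1103 (.cons 802 n5283 (.cons 801 n5286 (.cons 838 n5287 .nil)))
noncomputable def n5289 : Strat := .move 797 n1946 (.cons 796 n5288 .nil)
noncomputable def n5290 : Strat := .move 760 n793 (.cons 715 n562 .nil)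
noncomputable def n5291 : Strat := .move 718 n4205 (.cons 841 n5290 .nil)
noncomputable def n5292 : Strat := .move 718 n724 (.cons 677 n5290 .nil)
noncomputable def n5293 : Strat := .move 797 n559 (.cons 760 n1105 .nil)
noncomputable def n5294 : Strat := .move 759 n4414 (.cons 677 n5291 (.cons 841 n5292 (.cons 718 n5293 .nil)))
noncomputable def n5295 : Strat := .move 676 n4206 (.cons 757 n5294 .nil)
noncomputable def n5296 : Strat := .move 800 n1103 (.cons 801 n5295 .nil)
noncomputable def n5297 : Strat := .move 716 n5280 (.cons 715 n5281 (.cons 757 n5289 (.cons 756 n5296 .nil)))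
noncomputable def n5298 : Strat := .move 756 n461 (.cons 715 n4434 .nil)
noncomputable def n5299 : Strat := .move 880 n5298 (.cons 797 n1810 .nil)
noncomputable def n5300 : Strat := .move 800 n1103 (.cons 801 n5299 .nil)
noncomputable def n5301 : Strat := .move 757 n5270 (.cons 675 n5271 (.cons 676 n5272 (.cons 716 n5300 .nil)))
noncomputable def n5302 : Strat := .move 715 n1972 (.cons 757 n1490 .nil)
noncomputable def n5303 : Strat := .move 880 n1417 (.cons 921 n5302 .nil)
noncomputable def n5304 : Strat := .move 756 n565 (.cons 755 n5303 .nil)
noncomputable def n5305 : Strat := .move 797 n1946 (.cons 795 n5304 .nil)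
noncomputable def n5306 : Strat := .move 757 n751 (.cons 756 n5270 .nil)
noncomputable def n5307 : Strat := .move 801 n937 (.cons 802 n5306 .nil)
noncomputable def n5308 : Strat := .move 800 n1103 (.cons 801 n5305 (.cons 838 n5307 .nil))
noncomputable def n5309 : Strat := .move 800 n1303 (.cons 756 n1117 .nil)
noncomputable def n5310 : Strat := .move 755 n1304 (.cons 754 n5309 .nil)
noncomputable def n5311 : Strat := .move 796 n1104 (.cons 795 n5310 .nil)
noncomputable def n5312 : Strat := .move 796 n780 (.cons 841 n5310 .nil)
noncomputable def n5313 : Strat := .move 838 n435 (.cons 801 n1299 .nil)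
noncomputable def n5314 : Strat := .move 756 n565 (.cons 755 n4970 .nil)
noncomputable def n5315 : Strat := .move 800 n5313 (.cons 756 n1103 (.cons 838 n5314 (.cons 801 n5286 .nil)))
noncomputable def n5316 : Strat := .move 797 n1946 (.cons 841 n5311 (.cons 795 n5312 (.cons 796 n5315 .nil)))
noncomputable def n5317 : Strat := .move 800 n1946 (.cons 841 n1299 .nil)
noncomputable def n5318 : Strat := .move 841 n560 (.cons 796 n2008 .nil)
noncomputable def n5319 : Strat := .move 800 n565 (.cons 755 n1298 .nil)
noncomputable def n5320 : Strat := .move 757 n1538 (.cons 676 n1441 .nil)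
noncomputable def n5321 : Strat := .move 757 n1539 (.cons 879 n1538 .nil)
noncomputable def n5322 : Strat := .move 757 n1539 (.cons 879 n1441 .nil)
noncomputable def n5323 : Strat := .move 716 n5320 (.cons 675 n5321 (.cons 676 n5322 (.cons 757 n2328 .nil)))
noncomputable def n5324 : Strat := .move 800 n565 (.cons 755 n5323 .nil)
noncomputable def n5325 : Strat := .move 879 n2007 (.cons 716 n4962 (.cons 920 n2313 .nil))
noncomputable def n5326 : Strat := .move 800 n565 (.cons 755 n5325 .nil)
noncomputable def n5327 : Strat := .move 756 n5319 (.cons 880 n5324 (.cons 715 n5326 (.cons 755 n1418 .nil)))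
noncomputable def n5328 : Strat := .move 756 n1483 (.cons 800 n1298 .nil)
noncomputable def n5329 : Strat := .move 755 n1304 (.cons 754 n5328 .nil)
noncomputable def n5330 : Strat := .move 796 n1104 (.cons 795 n5329 .nil)
noncomputable def n5331 : Strat := .move 838 n5317 (.cons 756 n1946 (.cons 795 n5318 (.cons 796 n5327 (.cons 841 n5330 .nil))))
noncomputable def n5332 : Strat := .move 800 n565 (.cons 755 n5285 .nil)
noncomputable def n5333 : Strat := .move 716 n1538 (.cons 676 n755 .nil)
noncomputable def n5334 : Strat := .move 757 n461 (.cons 715 n5333 .nil)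
noncomputable def n5335 : Strat := .move 880 n1417 (.cons 921 n5334 .nil)
noncomputable def n5336 : Strat := .move 757 n1813 (.cons 880 n5333 .nil)
noncomputable def n5337 : Strat := .move 715 n1297 (.cons 674 n5336 .nil)
noncomputable def n5338 : Strat := .move 756 n5332 (.cons 838 n5335 (.cons 921 n5337 (.cons 715 n2160 .nil)))
noncomputable def n5339 : Strat := .move 797 n5331 (.cons 756 n1946 (.cons 796 n5338 .nil))
noncomputable def n5340 : Strat := .win 797 7 756
noncomputable def n5341 : Strat := .move 921 n611 (.cons 962 n5340 .nil)
noncomputable def n5342 : Strat := .move 880 n461 (.cons 715 n5341 .nil)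
noncomputable def n5343 : Strat := .move 880 n461 (.cons 715 n1810 .nil)
noncomputable def n5344 : Strat := .move 800 n1391 (.cons 801 n4410 .nil)
noncomputable def n5345 : Strat := .move 756 n5342 (.cons 797 n5343 (.cons 921 n5344 .nil))
noncomputable def n5346 : Strat := .move 757 n5270 (.cons 716 n5345 .nil)
noncomputable def n5347 : Strat := .move 757 n755 (.cons 675 n1538 .nil)
noncomputable def n5348 : Strat := .move 757 n755 (.cons 675 n4153 .nil)
noncomputable def n5349 : Strat := .move 759 n724 (.cons 677 n4053 .nil)
noncomputable def n5350 : Strat := .move 719 n4260 (.cons 673 n4292 .nil)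
noncomputable def n5351 : Strat := .move 714 n4000 (.cons 756 n4570 .nil)
noncomputable def n5352 : Strat := .move 715 n4100 (.cons 714 n5350 (.cons 674 n5351 .nil))
noncomputable def n5353 : Strat := .move 759 n4679 (.cons 715 n4471 .nil)
noncomputable def n5354 : Strat := .move 719 n4682 (.cons 715 n4299 (.cons 675 n5353 (.cons 761 n4264 .nil)))
noncomputable def n5355 : Strat := .move 759 n724 (.cons 677 n4471 .nil)
noncomputable def n5356 : Strat := .move 678 n3799 (.cons 679 n3949 .nil)
noncomputable def n5357 : Strat := .move 719 n5355 (.cons 759 n4299 (.cons 676 n5356 .nil))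
noncomputable def n5358 : Strat := .move 715 n5184 (.cons 677 n4100 .nil)
noncomputable def n5359 : Strat := .move 718 n5349 (.cons 759 n5352 (.cons 677 n5354 (.cons 715 n5357 (.cons 719 n5358 .nil))))
noncomputable def n5360 : Strat := .move 800 n1103 (.cons 801 n5359 .nil)
noncomputable def n5361 : Strat := .move 716 n5347 (.cons 676 n5348 (.cons 675 n5280 (.cons 757 n5360 .nil)))
noncomputable def n5362 : Strat := .move 756 n1297 (.cons 674 n4797 .nil)
noncomputable def n5363 : Strat := .move 756 n1297 (.cons 674 n1491 .nil)
noncomputable def n5364 : Strat := .move 714 n4727 (.cons 713 n4880 (.cons 673 n4736 .nil))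
noncomputable def n5365 : Strat := .move 756 n4797 (.cons 675 n1491 (.cons 880 n4714 .nil))
noncomputable def n5366 : Strat := .move 715 n5362 (.cons 675 n5363 (.cons 756 n5364 (.cons 674 n5365 .nil)))
noncomputable def n5367 : Strat := .move 797 n1946 (.cons 796 n5366 .nil)
noncomputable def n5368 : Strat := .move 716 n5347 (.cons 757 n5367 (.cons 675 n5280 (.cons 676 n5348 .nil)))
noncomputable def n5369 : Strat := .move 759 n724 (.cons 677 n5290 .nil)
noncomputable def n5370 : Strat := .move 759 n793 (.cons 715 n562 .nil)
noncomputable def n5371 : Strat := .move 760 n3785 (.cons 761 n5370 .nil)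
noncomputable def n5372 : Strat := .move 719 n5371 (.cons 760 n4264 .nil)
noncomputable def n5373 : Strat := .move 759 n724 (.cons 677 n4486 .nil)
noncomputable def n5374 : Strat := .move 677 n3770 (.cons 759 n4490 .nil)
noncomputable def n5375 : Strat := .move 718 n5369 (.cons 797 n5349 (.cons 759 n4686 (.cons 677 n5372 (.cons 715 n5373 (.cons 760 n5374 .nil)))))
noncomputable def n5376 : Strat := .move 797 n1105 (.cons 841 n4429 .nil)
noncomputable def n5377 : Strat := .move 718 n4556 (.cons 674 n5369 (.cons 715 n5376 .nil))
noncomputable def n5378 : Strat := .move 675 n3899 (.cons 757 n5377 .nil)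
noncomputable def n5379 : Strat := .move 716 n5347 (.cons 757 n5375 (.cons 675 n5295 (.cons 676 n5378 .nil)))
noncomputable def n5380 : Strat := .move 800 n1103 (.cons 801 n5379 .nil)
noncomputable def n5381 : Strat := .move 838 n435 (.cons 801 n2008 .nil)
noncomputable def n5382 : Strat := .move 800 n5381 (.cons 801 n4120 .nil)
noncomputable def n5383 : Strat := .move 841 n560 (.cons 796 n5382 .nil)
noncomputable def n5384 : Strat := .move 880 n1505 (.cons 920 n4705 .nil)
noncomputable def n5385 : Strat := .move 879 n4704 (.cons 838 n5384 .nil)
noncomputable def n5386 : Strat := .move 716 n1538 (.cons 676 n5385 .nil)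
noncomputable def n5387 : Strat := .move 716 n755 (.cons 675 n5385 .nil)
noncomputable def n5388 : Strat := .move 838 n1381 (.cons 920 n2314 .nil)
noncomputable def n5389 : Strat := .move 838 n1381 (.cons 920 n3618 .nil)
noncomputable def n5390 : Strat := .move 838 n2313 (.cons 841 n1553 .nil)
noncomputable def n5391 : Strat := .move 880 n195 (.cons 877 n1417 .nil)
noncomputable def n5392 : Strat := .move 838 n1427 (.cons 919 n488 .nil)
noncomputable def n5393 : Strat := .move 878 n5391 (.cons 921 n5392 .nil)
noncomputable def n5394 : Strat := .move 756 n1551 (.cons 800 n5390 (.cons 754 n1644 (.cons 755 n5393 .nil)))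
noncomputable def n5395 : Strat := .move 879 n5388 (.cons 919 n5389 (.cons 920 n5394 (.cons 838 n5384 .nil)))
noncomputable def n5396 : Strat := .move 757 n5270 (.cons 675 n5386 (.cons 676 n5387 (.cons 716 n5395 .nil)))
noncomputable def n5397 : Strat := .move 797 n5383 (.cons 841 n5311 (.cons 800 n1946 (.cons 796 n5396 .nil)))
noncomputable def n5398 : Strat := .move 839 n5279 (.cons 675 n5297 (.cons 796 n5301 (.cons 674 n5308 (.cons 757 n5316 (.cons 801 n5339 (.cons 838 n5346 (.cons 797 n5361 (.cons 800 n5368 (.cons 756 n5380 (.cons 715 n5397 .nil))))))))))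
noncomputable def n5399 : Strat := .move 756 n1813 (.cons 880 n809 .nil)
noncomputable def n5400 : Strat := .move 718 n5399 (.cons 719 n5184 .nil)
noncomputable def n5401 : Strat := .move 715 n143 (.cons 674 n5400 .nil)
noncomputable def n5402 : Strat := .move 800 n437 (.cons 801 n5401 .nil)
noncomputable def n5403 : Strat := .move 839 n4131 (.cons 838 n1812 (.cons 879 n5402 .nil))
noncomputable def n5404 : Strat := .move 715 n143 (.cons 674 n4853 .nil)
noncomputable def n5405 : Strat := .move 839 n1538 (.cons 676 n5404 .nil)
noncomputable def n5406 : Strat := .move 757 n4132 (.cons 839 n4493 (.cons 676 n5403 (.cons 800 n5405 .nil)))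
noncomputable def n5407 : Strat := .move 757 n755 (.cons 675 n5403 .nil)
noncomputable def n5408 : Strat := .move 837 n1449 (.cons 836 n1090 .nil)
noncomputable def n5409 : Strat := .move 838 n1539 (.cons 879 n5408 .nil)
noncomputable def n5410 : Strat := .move 839 n1538 (.cons 676 n5409 .nil)
noncomputable def n5411 : Strat := .move 757 n755 (.cons 675 n5410 .nil)
noncomputable def n5412 : Strat := .move 757 n755 (.cons 675 n5405 .nil)
noncomputable def n5413 : Strat := .move 677 n4046 (.cons 715 n4225 .nil)
noncomputable def n5414 : Strat := .move 678 n3799 (.cons 679 n5413 .nil)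
noncomputable def n5415 : Strat := .move 715 n3844 (.cons 677 n4260 .nil)
noncomputable def n5416 : Strat := .move 678 n3799 (.cons 679 n5415 .nil)
noncomputable def n5417 : Strat := .move 678 n3799 (.cons 679 n4308 .nil)
noncomputable def n5418 : Strat := .move 719 n4028 (.cons 759 n5414 (.cons 678 n4560 (.cons 761 n5416 (.cons 715 n5417 .nil))))
noncomputable def n5419 : Strat := .move 800 n724 (.cons 677 n5290 .nil)
noncomputable def n5420 : Strat := .move 673 n3806 (.cons 674 n4503 .nil)
noncomputable def n5421 : Strat := .move 677 n3848 (.cons 678 n5420 .nil)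
noncomputable def n5422 : Strat := .move 715 n144 (.cons 760 n5421 .nil)
noncomputable def n5423 : Strat := .move 759 n5419 (.cons 760 n4569 (.cons 800 n5422 (.cons 677 n4564 (.cons 715 n4573 .nil))))
noncomputable def n5424 : Strat := .move 761 n4015 (.cons 801 n4051 .nil)
noncomputable def n5425 : Strat := .move 760 n562 (.cons 797 n5424 .nil)
noncomputable def n5426 : Strat := .move 759 n724 (.cons 677 n5425 .nil)
noncomputable def n5427 : Strat := .move 759 n724 (.cons 677 n4467 .nil)
noncomputable def n5428 : Strat := .move 841 n3759 (.cons 676 n561 .nil)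
noncomputable def n5429 : Strat := .move 759 n724 (.cons 677 n5428 .nil)
noncomputable def n5430 : Strat := .move 759 n562 (.cons 797 n4471 .nil)
noncomputable def n5431 : Strat := .move 760 n3785 (.cons 761 n5430 .nil)
noncomputable def n5432 : Strat := .move 759 n3948 (.cons 841 n562 .nil)
noncomputable def n5433 : Strat := .move 678 n3799 (.cons 679 n5432 .nil)
noncomputable def n5434 : Strat := .move 760 n3785 (.cons 761 n5433 .nil)
noncomputable def n5435 : Strat := .move 759 n562 (.cons 797 n4246 .nil)
noncomputable def n5436 : Strat := .move 760 n3785 (.cons 761 n5435 .nil)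
noncomputable def n5437 : Strat := .move 719 n5431 (.cons 676 n5434 (.cons 760 n4266 (.cons 678 n5436 .nil)))
noncomputable def n5438 : Strat := .move 719 n4471 (.cons 676 n4244 (.cons 678 n4305 (.cons 841 n4264 .nil)))
noncomputable def n5439 : Strat := .move 759 n724 (.cons 677 n5438 .nil)
noncomputable def n5440 : Strat := .move 720 n170 (.cons 680 n4144 .nil)
noncomputable def n5441 : Strat := .move 679 n171 (.cons 678 n5440 .nil)
noncomputable def n5442 : Strat := .move 675 n3941 (.cons 674 n5441 .nil)
noncomputable def n5443 : Strat := .move 678 n738 (.cons 841 n3799 .nil)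
noncomputable def n5444 : Strat := .move 801 n1872 (.cons 838 n5443 .nil)
noncomputable def n5445 : Strat := .move 760 n3785 (.cons 761 n5444 .nil)
noncomputable def n5446 : Strat := .move 719 n4308 (.cons 762 n5442 (.cons 675 n4251 (.cons 720 n5445 .nil)))
noncomputable def n5447 : Strat := .move 800 n5426 (.cons 797 n5427 (.cons 761 n5429 (.cons 677 n5437 (.cons 760 n5439 (.cons 759 n5446 .nil)))))
noncomputable def n5448 : Strat := .move 800 n562 (.cons 797 n4471 .nil)
noncomputable def n5449 : Strat := .move 759 n793 (.cons 715 n5448 .nil)
noncomputable def n5450 : Strat := .move 760 n3785 (.cons 761 n5449 .nil)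
noncomputable def n5451 : Strat := .move 800 n562 (.cons 797 n4246 .nil)
noncomputable def n5452 : Strat := .move 759 n793 (.cons 715 n5451 .nil)
noncomputable def n5453 : Strat := .move 760 n3785 (.cons 761 n5452 .nil)
noncomputable def n5454 : Strat := .move 719 n5450 (.cons 797 n3970 (.cons 760 n4266 (.cons 678 n5453 .nil)))
noncomputable def n5455 : Strat := .move 719 n5414 (.cons 678 n4268 (.cons 760 n4266 .nil))
noncomputable def n5456 : Strat := .win 763 0 718
noncomputable def n5457 : Strat := .win 761 0 717
noncomputable def n5458 : Strat := .move 762 n5456 (.cons 763 n5457 .nil)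
noncomputable def n5459 : Strat := .win 681 5 677
noncomputable def n5460 : Strat := .win 679 5 676
noncomputable def n5461 : Strat := .move 680 n5459 (.cons 681 n5460 .nil)
noncomputable def n5462 : Strat := .move 721 n5458 (.cons 761 n5461 .nil)
noncomputable def n5463 : Strat := .move 720 n4144 (.cons 676 n5462 .nil)
noncomputable def n5464 : Strat := .move 675 n3941 (.cons 674 n5463 .nil)
noncomputable def n5465 : Strat := .move 760 n793 (.cons 715 n4558 .nil)
noncomputable def n5466 : Strat := .move 760 n793 (.cons 715 n5451 .nil)
noncomputable def n5467 : Strat := .move 715 n812 (.cons 673 n144 .nil)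
noncomputable def n5468 : Strat := .move 674 n3928 (.cons 675 n5467 .nil)
noncomputable def n5469 : Strat := .move 759 n5465 (.cons 677 n5466 (.cons 797 n4306 (.cons 800 n5468 .nil)))
noncomputable def n5470 : Strat := .move 719 n4560 (.cons 759 n4268 (.cons 760 n5464 (.cons 761 n5469 .nil)))
noncomputable def n5471 : Strat := .move 679 n4047 (.cons 719 n4488 .nil)
noncomputable def n5472 : Strat := .move 678 n4046 (.cons 715 n5471 .nil)
noncomputable def n5473 : Strat := .move 679 n4488 (.cons 676 n4048 .nil)
noncomputable def n5474 : Strat := .move 678 n4046 (.cons 715 n5473 .nil)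
noncomputable def n5475 : Strat := .move 677 n5472 (.cons 719 n5474 (.cons 678 n4054 (.cons 715 n4064 .nil)))
noncomputable def n5476 : Strat := .move 675 n3941 (.cons 674 n4560 .nil)
noncomputable def n5477 : Strat := .move 678 n3799 (.cons 679 n4026 .nil)
noncomputable def n5478 : Strat := .move 760 n3785 (.cons 761 n5477 .nil)
noncomputable def n5479 : Strat := .move 719 n5476 (.cons 760 n4677 (.cons 674 n5478 (.cons 715 n4039 .nil)))
noncomputable def n5480 : Strat := .move 800 n724 (.cons 677 n5428 .nil)
noncomputable def n5481 : Strat := .move 719 n569 (.cons 882 n797 .nil)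
noncomputable def n5482 : Strat := .move 841 n3759 (.cons 676 n5481 .nil)
noncomputable def n5483 : Strat := .move 800 n562 (.cons 797 n5482 .nil)
noncomputable def n5484 : Strat := .move 760 n793 (.cons 715 n5483 .nil)
noncomputable def n5485 : Strat := .move 759 n5419 (.cons 715 n5480 (.cons 760 n4491 (.cons 800 n5422 (.cons 677 n5484 .nil))))
noncomputable def n5486 : Strat := .move 719 n3928 (.cons 675 n3785 .nil)
noncomputable def n5487 : Strat := .move 760 n3784 (.cons 759 n5486 .nil)
noncomputable def n5488 : Strat := .move 674 n812 (.cons 673 n5487 .nil)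
noncomputable def n5489 : Strat := .move 714 n3807 (.cons 672 n4570 .nil)
noncomputable def n5490 : Strat := .move 673 n3806 (.cons 674 n5489 .nil)
noncomputable def n5491 : Strat := .move 715 n3851 (.cons 677 n5488 (.cons 759 n5490 .nil))
noncomputable def n5492 : Strat := .win 677 2 676
noncomputable def n5493 : Strat := .win 675 2 675
noncomputable def n5494 : Strat := .move 676 n5492 (.cons 677 n5493 .nil)
noncomputable def n5495 : Strat := .move 721 n5458 (.cons 761 n5494 .nil)
noncomputable def n5496 : Strat := .move 720 n170 (.cons 680 n5495 .nil)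
noncomputable def n5497 : Strat := .move 679 n171 (.cons 678 n5496 .nil)
noncomputable def n5498 : Strat := .move 676 n4158 (.cons 714 n4791 .nil)
noncomputable def n5499 : Strat := .move 677 n3848 (.cons 678 n5498 .nil)
noncomputable def n5500 : Strat := .move 720 n4232 (.cons 721 n5493 .nil)
noncomputable def n5501 : Strat := .move 676 n4158 (.cons 714 n5500 .nil)
noncomputable def n5502 : Strat := .move 677 n3848 (.cons 678 n5501 .nil)
noncomputable def n5503 : Strat := .move 715 n3962 (.cons 675 n5421 (.cons 673 n5499 (.cons 674 n5502 .nil)))
noncomputable def n5504 : Strat := .move 678 n4227 (.cons 722 n4046 .nil)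
noncomputable def n5505 : Strat := .move 677 n4228 (.cons 676 n5504 .nil)
noncomputable def n5506 : Strat := .move 721 n5458 (.cons 761 n5505 .nil)
noncomputable def n5507 : Strat := .move 721 n5459 (.cons 681 n5458 .nil)
noncomputable def n5508 : Strat := .move 680 n5460 (.cons 679 n5507 .nil)
noncomputable def n5509 : Strat := .move 720 n3993 (.cons 679 n5506 (.cons 678 n5508 .nil))
noncomputable def n5510 : Strat := .move 719 n4266 (.cons 678 n5464 (.cons 676 n4677 (.cons 674 n5497 (.cons 679 n5503 (.cons 675 n5509 .nil)))))
noncomputable def n5511 : Strat := .move 718 n5418 (.cons 719 n5423 (.cons 715 n5447 (.cons 677 n5454 (.cons 759 n5455 (.cons 678 n5470 (.cons 674 n5475 (.cons 676 n5479 (.cons 761 n5485 (.cons 679 n5491 (.cons 760 n5510 .nil))))))))))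
noncomputable def n5512 : Strat := .move 716 n4133 (.cons 675 n5406 (.cons 839 n4494 (.cons 676 n5407 (.cons 801 n5411 (.cons 800 n5412 (.cons 757 n5511 .nil))))))
noncomputable def n5513 : Strat := .move 801 n1406 (.cons 757 n1872 .nil)
noncomputable def n5514 : Strat := .move 756 n565 (.cons 755 n5513 .nil)
noncomputable def n5515 : Strat := .move 800 n1412 (.cons 756 n1385 (.cons 839 n4117 (.cons 837 n5514 (.cons 801 n1433 (.cons 838 n5126 .nil)))))
noncomputable def n5516 : Strat := .move 841 n560 (.cons 796 n5515 .nil)
noncomputable def n5517 : Strat := .move 755 n1304 (.cons 754 n1534 .nil)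
noncomputable def n5518 : Strat := .move 837 n1461 (.cons 836 n5517 .nil)
noncomputable def n5519 : Strat := .move 796 n1403 (.cons 755 n1531 (.cons 795 n5518 .nil))
noncomputable def n5520 : Strat := .move 756 n1483 (.cons 800 n4380 .nil)
noncomputable def n5521 : Strat := .move 837 n1461 (.cons 836 n5520 .nil)
noncomputable def n5522 : Strat := .move 755 n1304 (.cons 754 n5521 .nil)
noncomputable def n5523 : Strat := .move 796 n780 (.cons 841 n5522 .nil)
noncomputable def n5524 : Strat := .move 879 n1382 (.cons 920 n1914 .nil)
noncomputable def n5525 : Strat := .move 839 n435 (.cons 801 n5524 .nil)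
noncomputable def n5526 : Strat := .move 838 n774 (.cons 837 n5525 .nil)
noncomputable def n5527 : Strat := .move 756 n565 (.cons 755 n1959 .nil)
noncomputable def n5528 : Strat := .move 838 n774 (.cons 837 n5527 .nil)
noncomputable def n5529 : Strat := .move 800 n1412 (.cons 756 n5526 (.cons 880 n1409 (.cons 837 n4113 (.cons 801 n5528 (.cons 839 n4117 .nil)))))
noncomputable def n5530 : Strat := .move 797 n5516 (.cons 841 n5519 (.cons 839 n5523 (.cons 837 n1404 (.cons 755 n1532 (.cons 796 n5529 .nil)))))
noncomputable def n5531 : Strat := .move 797 n1611 (.cons 759 n1407 .nil)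
noncomputable def n5532 : Strat := .move 760 n753 (.cons 761 n5531 .nil)
noncomputable def n5533 : Strat := .move 801 n1132 (.cons 839 n5532 .nil)
noncomputable def n5534 : Strat := .move 839 n1538 (.cons 676 n437 .nil)
noncomputable def n5535 : Strat := .move 757 n755 (.cons 675 n5534 .nil)
noncomputable def n5536 : Strat := .move 802 n2478 (.cons 762 n2476 .nil)
noncomputable def n5537 : Strat := .move 761 n2479 (.cons 760 n5536 .nil)
noncomputable def n5538 : Strat := .move 838 n775 (.cons 839 n1307 .nil)
noncomputable def n5539 : Strat := .move 801 n1132 (.cons 839 n5537 (.cons 802 n5538 .nil))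
noncomputable def n5540 : Strat := .move 838 n436 (.cons 837 n1539 .nil)
noncomputable def n5541 : Strat := .move 839 n1538 (.cons 676 n5540 .nil)
noncomputable def n5542 : Strat := .move 757 n755 (.cons 675 n5541 .nil)
noncomputable def n5543 : Strat := .move 716 n5535 (.cons 757 n5539 (.cons 837 n4436 (.cons 801 n5542 .nil)))
noncomputable def n5544 : Strat := .move 757 n1538 (.cons 676 n437 .nil)
noncomputable def n5545 : Strat := .move 797 n1611 (.cons 759 n1105 .nil)
noncomputable def n5546 : Strat := .move 760 n753 (.cons 761 n5545 .nil)
noncomputable def n5547 : Strat := .move 801 n937 (.cons 802 n5546 .nil)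
noncomputable def n5548 : Strat := .move 757 n1538 (.cons 676 n5540 .nil)
noncomputable def n5549 : Strat := .move 839 n5544 (.cons 838 n5547 (.cons 801 n5548 .nil))
noncomputable def n5550 : Strat := .move 759 n562 (.cons 797 n724 .nil)
noncomputable def n5551 : Strat := .move 760 n5550 (.cons 677 n5159 .nil)
noncomputable def n5552 : Strat := .move 838 n1539 (.cons 879 n435 .nil)
noncomputable def n5553 : Strat := .move 797 n4429 (.cons 677 n1105 .nil)
noncomputable def n5554 : Strat := .move 718 n1117 (.cons 838 n5551 (.cons 802 n5552 (.cons 801 n5553 .nil)))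
noncomputable def n5555 : Strat := .move 797 n2022 (.cons 759 n1105 .nil)
noncomputable def n5556 : Strat := .move 801 n937 (.cons 802 n5555 .nil)
noncomputable def n5557 : Strat := .move 839 n437 (.cons 801 n5540 (.cons 837 n5554 (.cons 838 n5556 .nil)))
noncomputable def n5558 : Strat := .move 757 n755 (.cons 675 n5557 .nil)
noncomputable def n5559 : Strat := .move 839 n937 (.cons 802 n5546 .nil)
noncomputable def n5560 : Strat := .move 797 n1611 (.cons 759 n4428 .nil)
noncomputable def n5561 : Strat := .move 760 n753 (.cons 761 n5560 .nil)
noncomputable def n5562 : Strat := .move 801 n1132 (.cons 838 n5559 (.cons 839 n5561 .nil))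
noncomputable def n5563 : Strat := .move 716 n5535 (.cons 839 n4453 (.cons 801 n5542 (.cons 675 n5549 (.cons 676 n5558 (.cons 757 n5562 .nil)))))
noncomputable def n5564 : Strat := .move 797 n559 (.cons 760 n4455 .nil)
noncomputable def n5565 : Strat := .move 718 n724 (.cons 677 n5564 .nil)
noncomputable def n5566 : Strat := .move 678 n3799 (.cons 679 n4323 .nil)
noncomputable def n5567 : Strat := .move 719 n4471 (.cons 676 n4472 (.cons 678 n4305 (.cons 841 n5566 .nil)))
noncomputable def n5568 : Strat := .move 718 n724 (.cons 677 n5567 .nil)
noncomputable def n5569 : Strat := .move 796 n1950 (.cons 756 n1966 .nil)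
noncomputable def n5570 : Strat := .move 797 n559 (.cons 760 n5569 .nil)
noncomputable def n5571 : Strat := .move 718 n724 (.cons 677 n5570 .nil)
noncomputable def n5572 : Strat := .move 759 n5565 (.cons 797 n5568 (.cons 760 n4474 (.cons 841 n5571 (.cons 718 n4009 .nil))))
noncomputable def n5573 : Strat := .move 757 n1538 (.cons 676 n1539 .nil)
noncomputable def n5574 : Strat := .move 838 n436 (.cons 837 n5573 .nil)
noncomputable def n5575 : Strat := .move 757 n1538 (.cons 676 n1830 .nil)
noncomputable def n5576 : Strat := .move 839 n5544 (.cons 757 n437 (.cons 837 n1103 (.cons 801 n5574 (.cons 838 n5575 .nil))))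
noncomputable def n5577 : Strat := .move 716 n5535 (.cons 757 n5572 (.cons 676 n4436 (.cons 675 n5576 .nil)))
noncomputable def n5578 : Strat := .move 761 n4051 (.cons 719 n4016 .nil)
noncomputable def n5579 : Strat := .move 760 n562 (.cons 797 n5578 .nil)
noncomputable def n5580 : Strat := .move 718 n724 (.cons 677 n5579 .nil)
noncomputable def n5581 : Strat := .move 759 n4009 (.cons 797 n4468 (.cons 841 n5580 (.cons 760 n4474 .nil)))
noncomputable def n5582 : Strat := .move 797 n4418 (.cons 879 n1951 (.cons 756 n4428 .nil))
noncomputable def n5583 : Strat := .move 757 n755 (.cons 675 n5582 .nil)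
noncomputable def n5584 : Strat := .move 796 n780 (.cons 841 n1304 .nil)
noncomputable def n5585 : Strat := .move 755 n1303 (.cons 756 n5584 .nil)
noncomputable def n5586 : Strat := .move 757 n809 (.cons 719 n1442 .nil)
noncomputable def n5587 : Strat := .move 718 n4429 (.cons 677 n5586 .nil)
noncomputable def n5588 : Strat := .move 756 n565 (.cons 755 n5587 .nil)
noncomputable def n5589 : Strat := .move 838 n774 (.cons 837 n5588 .nil)
noncomputable def n5590 : Strat := .move 839 n1104 (.cons 795 n5321 .nil)
noncomputable def n5591 : Strat := .move 796 n780 (.cons 841 n5590 .nil)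
noncomputable def n5592 : Strat := .move 838 n774 (.cons 837 n5591 .nil)
noncomputable def n5593 : Strat := .move 797 n5585 (.cons 796 n5589 (.cons 755 n5592 .nil))
noncomputable def n5594 : Strat := .move 716 n5542 (.cons 757 n5581 (.cons 676 n5583 (.cons 675 n5593 .nil)))
noncomputable def n5595 : Strat := .move 716 n4426 (.cons 801 n4433 (.cons 718 n4436 (.cons 755 n4440 (.cons 756 n4453 (.cons 675 n4460 (.cons 797 n4463 (.cons 757 n4475 .nil)))))))
noncomputable def n5596 : Strat := .move 796 n780 (.cons 841 n4538 .nil)
noncomputable def n5597 : Strat := .move 796 n1104 (.cons 795 n1950 .nil)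
noncomputable def n5598 : Strat := .move 839 n435 (.cons 801 n5597 .nil)
noncomputable def n5599 : Strat := .move 838 n774 (.cons 837 n5598 .nil)
noncomputable def n5600 : Strat := .move 797 n5596 (.cons 837 n4454 (.cons 841 n5599 (.cons 796 n1614 .nil)))
noncomputable def n5601 : Strat := .win 844 0 799
noncomputable def n5602 : Strat := .move 761 n2479 (.cons 760 n2478 .nil)
noncomputable def n5603 : Strat := .move 843 n5601 (.cons 844 n5602 .nil)
noncomputable def n5604 : Strat := .move 802 n573 (.cons 839 n5603 .nil)
noncomputable def n5605 : Strat := .move 839 n752 (.cons 838 n5306 .nil)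
noncomputable def n5606 : Strat := .move 801 n1132 (.cons 838 n5604 (.cons 839 n5537 (.cons 802 n5605 .nil)))
noncomputable def n5607 : Strat := .move 716 n5320 (.cons 675 n5321 (.cons 676 n5322 (.cons 757 n5597 .nil)))
noncomputable def n5608 : Strat := .move 879 n626 (.cons 878 n3721 .nil)
noncomputable def n5609 : Strat := .move 841 n560 (.cons 796 n5608 .nil)
noncomputable def n5610 : Strat := .move 879 n3721 (.cons 961 n2007 (.cons 757 n2313 .nil))
noncomputable def n5611 : Strat := .move 756 n565 (.cons 755 n5610 .nil)
noncomputable def n5612 : Strat := .move 797 n1946 (.cons 841 n5607 (.cons 795 n5609 (.cons 796 n5611 .nil)))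
noncomputable def n5613 : Strat := .move 838 n436 (.cons 837 n5612 .nil)
noncomputable def n5614 : Strat := .move 839 n437 (.cons 837 n1103 (.cons 801 n5613 (.cons 838 n5307 .nil)))
noncomputable def n5615 : Strat := .move 839 n937 (.cons 802 n5306 .nil)
noncomputable def n5616 : Strat := .move 757 n755 (.cons 675 n751 .nil)
noncomputable def n5617 : Strat := .move 839 n5616 (.cons 757 n5546 .nil)
noncomputable def n5618 : Strat := .move 797 n1611 (.cons 759 n1951 .nil)
noncomputable def n5619 : Strat := .move 760 n753 (.cons 761 n5618 .nil)
noncomputable def n5620 : Strat := .move 839 n5347 (.cons 675 n5546 .nil)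
noncomputable def n5621 : Strat := .move 716 n5617 (.cons 757 n5619 (.cons 761 n5616 (.cons 756 n5620 .nil)))
noncomputable def n5622 : Strat := .move 801 n5615 (.cons 802 n5621 (.cons 757 n5559 (.cons 839 n5532 .nil)))
noncomputable def n5623 : Strat := .move 800 n5533 (.cons 759 n5543 (.cons 756 n5563 (.cons 761 n5577 (.cons 801 n5594 (.cons 839 n5595 (.cons 757 n5600 (.cons 797 n5606 (.cons 760 n5614 (.cons 838 n5622 .nil)))))))))
noncomputable def n5624 : Strat := .move 715 n4619 (.cons 718 n3911 .nil)
noncomputable def n5625 : Strat := .move 756 n1483 (.cons 800 n5624 .nil)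
noncomputable def n5626 : Strat := .move 755 n1304 (.cons 754 n5625 .nil)
noncomputable def n5627 : Strat := .move 796 n3901 (.cons 795 n5626 (.cons 755 n3908 .nil))
noncomputable def n5628 : Strat := .move 716 n3899 (.cons 757 n5627 .nil)
noncomputable def n5629 : Strat := .move 716 n3899 (.cons 757 n3909 .nil)
noncomputable def n5630 : Strat := .move 796 n780 (.cons 841 n5626 .nil)
noncomputable def n5631 : Strat := .move 716 n3899 (.cons 757 n5630 .nil)
noncomputable def n5632 : Strat := .move 757 n1770 (.cons 716 n4010 .nil)
noncomputable def n5633 : Strat := .move 838 n774 (.cons 837 n5632 .nil)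
noncomputable def n5634 : Strat := .move 756 n4373 (.cons 715 n565 .nil)
noncomputable def n5635 : Strat := .move 716 n4374 (.cons 757 n5634 .nil)
noncomputable def n5636 : Strat := .move 838 n774 (.cons 837 n5635 .nil)
noncomputable def n5637 : Strat := .win 716 6 675
noncomputable def n5638 : Strat := .move 757 n5637 (.cons 716 n2465 .nil)
noncomputable def n5639 : Strat := .move 756 n1406 (.cons 757 n565 .nil)
noncomputable def n5640 : Strat := .move 801 n775 (.cons 839 n5639 .nil)
noncomputable def n5641 : Strat := .move 838 n774 (.cons 837 n5640 .nil)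
noncomputable def n5642 : Strat := .move 757 n1770 (.cons 716 n2023 .nil)
noncomputable def n5643 : Strat := .move 838 n774 (.cons 837 n5642 .nil)
noncomputable def n5644 : Strat := .move 800 n5633 (.cons 801 n5636 (.cons 838 n5638 (.cons 716 n5641 (.cons 756 n5643 (.cons 757 n4126 .nil)))))
noncomputable def n5645 : Strat := .move 675 n1404 (.cons 841 n5628 (.cons 755 n5629 (.cons 795 n5631 (.cons 796 n5644 .nil))))
noncomputable def n5646 : Strat := .move 839 n1957 (.cons 715 n1650 .nil)
noncomputable def n5647 : Strat := .move 879 n1430 (.cons 920 n5646 .nil)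
noncomputable def n5648 : Strat := .move 756 n565 (.cons 755 n5647 .nil)
noncomputable def n5649 : Strat := .move 838 n774 (.cons 837 n5648 .nil)
noncomputable def n5650 : Strat := .move 800 n1409 (.cons 838 n1621 (.cons 756 n1614 (.cons 801 n5649 .nil)))
noncomputable def n5651 : Strat := .move 839 n435 (.cons 801 n1451 .nil)
noncomputable def n5652 : Strat := .move 838 n774 (.cons 837 n5651 .nil)
noncomputable def n5653 : Strat := .move 800 n5652 (.cons 838 n1621 (.cons 756 n1614 (.cons 801 n4118 .nil)))
noncomputable def n5654 : Strat := .move 797 n5645 (.cons 796 n5650 (.cons 839 n1537 (.cons 837 n1404 (.cons 755 n1532 (.cons 841 n5653 .nil)))))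
noncomputable def n5655 : Strat := .move 838 n435 (.cons 801 n1300 .nil)
noncomputable def n5656 : Strat := .move 797 n565 (.cons 755 n1105 .nil)
noncomputable def n5657 : Strat := .move 756 n1406 (.cons 757 n5656 .nil)
noncomputable def n5658 : Strat := .move 801 n937 (.cons 802 n5657 .nil)
noncomputable def n5659 : Strat := .move 838 n436 (.cons 837 n1300 .nil)
noncomputable def n5660 : Strat := .move 800 n437 (.cons 837 n5655 (.cons 838 n5658 (.cons 801 n5659 .nil)))
noncomputable def n5661 : Strat := .move 757 n1538 (.cons 676 n5402 .nil)
noncomputable def n5662 : Strat := .move 715 n1813 (.cons 880 n3865 .nil)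
noncomputable def n5663 : Strat := .move 715 n1813 (.cons 880 n4335 .nil)
noncomputable def n5664 : Strat := .move 921 n5340 (.cons 797 n611 .nil)
noncomputable def n5665 : Strat := .move 880 n461 (.cons 715 n5664 .nil)
noncomputable def n5666 : Strat := .move 800 n1391 (.cons 801 n5665 .nil)
noncomputable def n5667 : Strat := .move 756 n5662 (.cons 718 n5663 (.cons 755 n5666 (.cons 715 n4335 .nil)))
noncomputable def n5668 : Strat := .move 757 n1538 (.cons 676 n5667 .nil)
noncomputable def n5669 : Strat := .move 677 n3770 (.cons 759 n3848 .nil)
noncomputable def n5670 : Strat := .move 718 n4510 (.cons 719 n5669 .nil)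
noncomputable def n5671 : Strat := .move 800 n1117 (.cons 838 n1830 (.cons 802 n444 (.cons 801 n5670 .nil)))
noncomputable def n5672 : Strat := .move 715 n143 (.cons 674 n5671 .nil)
noncomputable def n5673 : Strat := .move 757 n1538 (.cons 676 n5672 .nil)
noncomputable def n5674 : Strat := .move 800 n437 (.cons 837 n5655 (.cons 838 n5547 (.cons 801 n5659 .nil)))
noncomputable def n5675 : Strat := .move 757 n1538 (.cons 676 n751 .nil)
noncomputable def n5676 : Strat := .move 801 n937 (.cons 802 n5675 .nil)
noncomputable def n5677 : Strat := .move 838 n774 (.cons 837 n1951 .nil)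
noncomputable def n5678 : Strat := .move 757 n809 (.cons 719 n1538 .nil)
noncomputable def n5679 : Strat := .move 718 n4429 (.cons 677 n5678 .nil)
noncomputable def n5680 : Strat := .move 756 n565 (.cons 755 n5679 .nil)
noncomputable def n5681 : Strat := .move 797 n1946 (.cons 795 n5677 (.cons 796 n5680 .nil))
noncomputable def n5682 : Strat := .move 800 n437 (.cons 837 n1103 (.cons 838 n5676 (.cons 801 n5681 .nil)))
noncomputable def n5683 : Strat := .move 760 n753 (.cons 761 n562 .nil)
noncomputable def n5684 : Strat := .move 759 n5683 (.cons 797 n4414 .nil)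
noncomputable def n5685 : Strat := .move 801 n937 (.cons 802 n5684 .nil)
noncomputable def n5686 : Strat := .move 796 n1461 (.cons 836 n780 .nil)
noncomputable def n5687 : Strat := .move 837 n1533 (.cons 838 n5686 .nil)
noncomputable def n5688 : Strat := .move 759 n559 (.cons 760 n4414 .nil)
noncomputable def n5689 : Strat := .move 797 n1105 (.cons 841 n1831 (.cons 795 n5687 (.cons 796 n5688 .nil)))
noncomputable def n5690 : Strat := .move 800 n437 (.cons 838 n5685 (.cons 801 n5689 .nil))
noncomputable def n5691 : Strat := .move 676 n4206 (.cons 757 n5690 .nil)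
noncomputable def n5692 : Strat := .move 839 n5280 (.cons 676 n5660 (.cons 755 n5661 (.cons 674 n5668 (.cons 880 n5673 (.cons 757 n5674 (.cons 715 n5682 (.cons 756 n5691 .nil)))))))
noncomputable def n5693 : Strat := .move 756 n4343 (.cons 715 n5344 (.cons 754 n4346 (.cons 755 n4350 .nil)))
noncomputable def n5694 : Strat := .move 757 n755 (.cons 675 n5693 .nil)
noncomputable def n5695 : Strat := .move 839 n1538 (.cons 676 n5667 .nil)
noncomputable def n5696 : Strat := .move 757 n755 (.cons 675 n5695 .nil)
noncomputable def n5697 : Strat := .move 839 n1538 (.cons 676 n5402 .nil)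
noncomputable def n5698 : Strat := .move 757 n755 (.cons 675 n5697 .nil)
noncomputable def n5699 : Strat := .move 755 n4619 (.cons 718 n462 .nil)
noncomputable def n5700 : Strat := .move 756 n1813 (.cons 880 n5699 .nil)
noncomputable def n5701 : Strat := .move 715 n143 (.cons 674 n5700 .nil)
noncomputable def n5702 : Strat := .move 839 n1538 (.cons 676 n5701 .nil)
noncomputable def n5703 : Strat := .move 757 n755 (.cons 675 n5702 .nil)
noncomputable def n5704 : Strat := .move 715 n5075 (.cons 800 n4993 (.cons 755 n4361 .nil))
noncomputable def n5705 : Strat := .move 838 n1863 (.cons 675 n4996 .nil)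
noncomputable def n5706 : Strat := .move 715 n4993 (.cons 674 n5705 (.cons 718 n5004 .nil))
noncomputable def n5707 : Strat := .move 673 n1789 (.cons 632 n4636 .nil)
noncomputable def n5708 : Strat := .move 674 n449 (.cons 839 n5707 .nil)
noncomputable def n5709 : Strat := .move 715 n4361 (.cons 838 n5708 .nil)
noncomputable def n5710 : Strat := .move 756 n5704 (.cons 715 n5038 (.cons 839 n5139 (.cons 800 n5706 (.cons 755 n5709 .nil))))
noncomputable def n5711 : Strat := .move 797 n3906 (.cons 755 n1532 (.cons 836 n5122 (.cons 837 n1404 (.cons 796 n5710 .nil))))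
noncomputable def n5712 : Strat := .move 839 n1538 (.cons 676 n1104 .nil)
noncomputable def n5713 : Strat := .move 757 n755 (.cons 675 n5712 .nil)
noncomputable def n5714 : Strat := .move 796 n780 (.cons 841 n5713 .nil)
noncomputable def n5715 : Strat := .move 800 n4010 (.cons 755 n5273 (.cons 801 n1831 .nil))
noncomputable def n5716 : Strat := .move 839 n1538 (.cons 676 n5715 .nil)
noncomputable def n5717 : Strat := .move 757 n755 (.cons 675 n5716 .nil)
noncomputable def n5718 : Strat := .move 757 n755 (.cons 675 n4541 .nil)
noncomputable def n5719 : Strat := .move 756 n809 (.cons 719 n565 .nil)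
noncomputable def n5720 : Strat := .move 718 n5719 (.cons 755 n4546 .nil)
noncomputable def n5721 : Strat := .move 838 n435 (.cons 801 n774 .nil)
noncomputable def n5722 : Strat := .move 800 n4010 (.cons 755 n5273 (.cons 801 n5720 (.cons 756 n5721 .nil)))
noncomputable def n5723 : Strat := .move 839 n1538 (.cons 676 n5722 .nil)
noncomputable def n5724 : Strat := .move 757 n755 (.cons 675 n5723 .nil)
noncomputable def n5725 : Strat := .move 797 n5714 (.cons 841 n5717 (.cons 795 n5718 (.cons 796 n5724 (.cons 757 n1404 .nil))))
noncomputable def n5726 : Strat := .move 719 n4145 (.cons 676 n4560 (.cons 760 n4148 .nil))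
noncomputable def n5727 : Strat := .move 713 n4138 (.cons 676 n4726 .nil)
noncomputable def n5728 : Strat := .move 713 n4139 (.cons 712 n4138 .nil)
noncomputable def n5729 : Strat := .move 674 n812 (.cons 673 n5728 .nil)
noncomputable def n5730 : Strat := .move 713 n4138 (.cons 676 n4600 .nil)
noncomputable def n5731 : Strat := .move 714 n3825 (.cons 674 n5727 (.cons 672 n5729 (.cons 673 n5730 .nil)))
noncomputable def n5732 : Strat := .move 715 n3936 (.cons 677 n5731 .nil)
noncomputable def n5733 : Strat := .move 719 n3941 (.cons 674 n4560 .nil)
noncomputable def n5734 : Strat := .move 718 n4136 (.cons 674 n5726 (.cons 719 n5732 (.cons 676 n5733 .nil)))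
noncomputable def n5735 : Strat := .move 675 n3899 (.cons 757 n5734 .nil)
noncomputable def n5736 : Strat := .move 716 n4157 (.cons 675 n5692 (.cons 839 n5694 (.cons 674 n5696 (.cons 755 n5698 (.cons 719 n5703 (.cons 757 n5711 (.cons 718 n5148 (.cons 715 n5725 (.cons 756 n5735 .nil)))))))))
noncomputable def n5737 : Strat := .move 797 n560 (.cons 796 n1383 .nil)
noncomputable def n5738 : Strat := .win 880 1 756
noncomputable def n5739 : Strat := .move 920 n5738 (.cons 880 n689 .nil)
noncomputable def n5740 : Strat := .move 757 n1380 (.cons 716 n5739 .nil)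
noncomputable def n5741 : Strat := .move 879 n626 (.cons 878 n5740 .nil)
noncomputable def n5742 : Strat := .move 797 n560 (.cons 796 n4120 .nil)
noncomputable def n5743 : Strat := .move 841 n5737 (.cons 797 n5741 (.cons 879 n5742 .nil))
noncomputable def n5744 : Strat := .move 838 n436 (.cons 837 n5743 .nil)
noncomputable def n5745 : Strat := .move 839 n437 (.cons 838 n5547 (.cons 801 n5744 .nil))
noncomputable def n5746 : Strat := .move 760 n753 (.cons 761 n776 .nil)
noncomputable def n5747 : Strat := .move 802 n573 (.cons 839 n2476 .nil)
noncomputable def n5748 : Strat := .move 760 n753 (.cons 761 n5747 .nil)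
noncomputable def n5749 : Strat := .move 801 n5746 (.cons 838 n5748 (.cons 760 n776 (.cons 839 n5537 .nil)))
noncomputable def n5750 : Strat := .move 839 n1104 (.cons 795 n1103 .nil)
noncomputable def n5751 : Strat := .move 796 n780 (.cons 841 n5750 .nil)
noncomputable def n5752 : Strat := .move 796 n1461 (.cons 836 n4807 .nil)
noncomputable def n5753 : Strat := .move 837 n1533 (.cons 838 n5752 .nil)
noncomputable def n5754 : Strat := .move 797 n1948 (.cons 801 n5596 (.cons 796 n5749 (.cons 837 n5751 (.cons 838 n1404 (.cons 841 n5753 .nil)))))
noncomputable def n5755 : Strat := .move 839 n1103 (.cons 801 n5379 .nil)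
noncomputable def n5756 : Strat := .move 797 n774 (.cons 837 n1947 .nil)
noncomputable def n5757 : Strat := .move 797 n560 (.cons 796 n5608 .nil)
noncomputable def n5758 : Strat := .move 841 n5757 (.cons 961 n5742 (.cons 797 n5741 .nil))
noncomputable def n5759 : Strat := .move 839 n435 (.cons 801 n5758 .nil)
noncomputable def n5760 : Strat := .move 839 n435 (.cons 801 n436 .nil)
noncomputable def n5761 : Strat := .win 797 4 796
noncomputable def n5762 : Strat := .move 837 n5761 (.cons 797 n2301 .nil)
noncomputable def n5763 : Strat := .move 797 n774 (.cons 837 n4457 .nil)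
noncomputable def n5764 : Strat := .move 838 n5756 (.cons 837 n5759 (.cons 797 n5760 (.cons 801 n5762 (.cons 839 n5763 .nil))))
noncomputable def n5765 : Strat := .move 841 n5757 (.cons 797 n5741 (.cons 961 n5742 .nil))
noncomputable def n5766 : Strat := .move 838 n436 (.cons 837 n5765 .nil)
noncomputable def n5767 : Strat := .win 923 3 759
noncomputable def n5768 : Strat := .move 882 n117 (.cons 719 n5767 .nil)
noncomputable def n5769 : Strat := .move 719 n569 (.cons 882 n568 .nil)
noncomputable def n5770 : Strat := .move 841 n5768 (.cons 923 n5769 (.cons 719 n3760 .nil))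
noncomputable def n5771 : Strat := .move 759 n562 (.cons 797 n5770 .nil)
noncomputable def n5772 : Strat := .move 760 n753 (.cons 761 n5771 .nil)
noncomputable def n5773 : Strat := .move 801 n937 (.cons 802 n5772 .nil)
noncomputable def n5774 : Strat := .move 839 n437 (.cons 801 n5766 (.cons 837 n1103 (.cons 838 n5773 .nil)))
noncomputable def n5775 : Strat := .move 718 n724 (.cons 677 n4205 .nil)
noncomputable def n5776 : Strat := .move 797 n559 (.cons 760 n4428 .nil)
noncomputable def n5777 : Strat := .move 716 n4051 (.cons 719 n793 .nil)
noncomputable def n5778 : Strat := .move 761 n4016 (.cons 762 n5777 .nil)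
noncomputable def n5779 : Strat := .move 760 n562 (.cons 797 n5778 .nil)
noncomputable def n5780 : Strat := .move 718 n724 (.cons 677 n5779 .nil)
noncomputable def n5781 : Strat := .move 676 n5775 (.cons 718 n5776 (.cons 841 n5780 .nil))
noncomputable def n5782 : Strat := .move 797 n559 (.cons 760 n5596 .nil)
noncomputable def n5783 : Strat := .move 716 n3785 (.cons 761 n793 .nil)
noncomputable def n5784 : Strat := .move 760 n569 (.cons 882 n5783 .nil)
noncomputable def n5785 : Strat := .move 719 n797 (.cons 678 n5784 .nil)
noncomputable def n5786 : Strat := .move 841 n3759 (.cons 676 n5785 .nil)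
noncomputable def n5787 : Strat := .move 718 n724 (.cons 677 n5786 .nil)
noncomputable def n5788 : Strat := .move 716 n3941 (.cons 674 n3899 .nil)
noncomputable def n5789 : Strat := .move 675 n4303 (.cons 720 n5788 .nil)
noncomputable def n5790 : Strat := .move 676 n4205 (.cons 841 n5789 .nil)
noncomputable def n5791 : Strat := .win 716 5 675
noncomputable def n5792 : Strat := .win 681 4 677
noncomputable def n5793 : Strat := .win 720 5 676
noncomputable def n5794 : Strat := .move 680 n5792 (.cons 681 n5793 .nil)
noncomputable def n5795 : Strat := .move 679 n5791 (.cons 716 n5794 .nil)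
noncomputable def n5796 : Strat := .move 678 n3948 (.cons 841 n5795 .nil)
noncomputable def n5797 : Strat := .move 675 n4144 (.cons 676 n5788 .nil)
noncomputable def n5798 : Strat := .move 720 n5797 (.cons 675 n5462 .nil)
noncomputable def n5799 : Strat := .move 719 n4311 (.cons 678 n5790 (.cons 676 n5796 (.cons 841 n5798 .nil)))
noncomputable def n5800 : Strat := .move 718 n724 (.cons 677 n5799 .nil)
noncomputable def n5801 : Strat := .move 759 n5781 (.cons 718 n5782 (.cons 797 n5787 (.cons 841 n5780 (.cons 760 n5800 .nil))))
noncomputable def n5802 : Strat := .move 841 n3759 (.cons 676 n5768 .nil)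
noncomputable def n5803 : Strat := .move 718 n724 (.cons 677 n5802 .nil)
noncomputable def n5804 : Strat := .move 759 n562 (.cons 797 n5803 .nil)
noncomputable def n5805 : Strat := .move 760 n753 (.cons 761 n5804 .nil)
noncomputable def n5806 : Strat := .move 757 n1538 (.cons 676 n755 .nil)
noncomputable def n5807 : Strat := .move 718 n793 (.cons 715 n724 .nil)
noncomputable def n5808 : Strat := .move 716 n5806 (.cons 675 n5807 .nil)
noncomputable def n5809 : Strat := .move 759 n562 (.cons 797 n5808 .nil)
noncomputable def n5810 : Strat := .move 760 n753 (.cons 761 n5809 .nil)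
noncomputable def n5811 : Strat := .move 839 n937 (.cons 802 n5810 .nil)
noncomputable def n5812 : Strat := .win 761 5 758
noncomputable def n5813 : Strat := .win 763 5 759
noncomputable def n5814 : Strat := .move 762 n5812 (.cons 761 n5813 .nil)
noncomputable def n5815 : Strat := .move 803 n2472 (.cons 841 n5814 .nil)
noncomputable def n5816 : Strat := .move 802 n573 (.cons 839 n5815 .nil)
noncomputable def n5817 : Strat := .move 844 n2474 (.cons 843 n2473 .nil)
noncomputable def n5818 : Strat := .move 803 n2472 (.cons 841 n5817 .nil)
noncomputable def n5819 : Strat := .move 802 n573 (.cons 839 n5818 .nil)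
noncomputable def n5820 : Strat := .move 801 n5559 (.cons 839 n5805 (.cons 841 n5811 (.cons 760 n5816 (.cons 761 n5819 .nil))))
noncomputable def n5821 : Strat := .move 841 n560 (.cons 796 n1385 .nil)
noncomputable def n5822 : Strat := .move 797 n5821 (.cons 838 n1404 (.cons 796 n5526 (.cons 839 n5596 (.cons 841 n5753 .nil))))
noncomputable def n5823 : Strat := .move 801 n937 (.cons 802 n5810 .nil)
noncomputable def n5824 : Strat := .move 801 n752 (.cons 838 n5810 .nil)
noncomputable def n5825 : Strat := .win 838 5 796
noncomputable def n5826 : Strat := .move 797 n4429 (.cons 677 n1814 .nil)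
noncomputable def n5827 : Strat := .move 837 n5825 (.cons 838 n5826 .nil)
noncomputable def n5828 : Strat := .move 718 n5369 (.cons 760 n5374 (.cons 759 n4686 (.cons 677 n5372 (.cons 715 n5827 .nil))))
noncomputable def n5829 : Strat := .move 757 n755 (.cons 675 n1539 .nil)
noncomputable def n5830 : Strat := .move 838 n436 (.cons 837 n5829 .nil)
noncomputable def n5831 : Strat := .move 716 n5347 (.cons 757 n5828 (.cons 675 n5574 (.cons 676 n5830 .nil)))
noncomputable def n5832 : Strat := .move 839 n1103 (.cons 838 n5823 (.cons 802 n5824 (.cons 801 n5831 .nil)))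
noncomputable def n5833 : Strat := .move 797 n3721 (.cons 961 n2007 (.cons 757 n1914 .nil))
noncomputable def n5834 : Strat := .win 797 3 756
noncomputable def n5835 : Strat := .move 920 n5834 (.cons 797 n689 .nil)
noncomputable def n5836 : Strat := .move 757 n1380 (.cons 716 n5835 .nil)
noncomputable def n5837 : Strat := .move 879 n5833 (.cons 797 n5740 (.cons 880 n5836 (.cons 757 n1914 .nil)))
noncomputable def n5838 : Strat := .move 838 n435 (.cons 801 n5837 .nil)
noncomputable def n5839 : Strat := .move 838 n436 (.cons 837 n5837 .nil)
noncomputable def n5840 : Strat := .move 839 n437 (.cons 837 n5838 (.cons 801 n5839 (.cons 838 n5773 .nil)))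
noncomputable def n5841 : Strat := .move 760 n569 (.cons 882 n4448 .nil)
noncomputable def n5842 : Strat := .move 719 n797 (.cons 678 n5841 .nil)
noncomputable def n5843 : Strat := .move 841 n3759 (.cons 676 n5842 .nil)
noncomputable def n5844 : Strat := .move 759 n724 (.cons 677 n5843 .nil)
noncomputable def n5845 : Strat := .move 719 n4299 (.cons 720 n5353 (.cons 676 n4682 (.cons 760 n4264 .nil)))
noncomputable def n5846 : Strat := .move 760 n3784 (.cons 759 n753 .nil)
noncomputable def n5847 : Strat := .move 715 n5846 (.cons 761 n4202 .nil)
noncomputable def n5848 : Strat := .move 801 n937 (.cons 802 n5847 .nil)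
noncomputable def n5849 : Strat := .move 757 n143 (.cons 674 n755 .nil)
noncomputable def n5850 : Strat := .move 715 n5846 (.cons 761 n5849 .nil)
noncomputable def n5851 : Strat := .move 801 n937 (.cons 802 n5850 .nil)
noncomputable def n5852 : Strat := .move 716 n5347 (.cons 757 n5845 (.cons 675 n5848 (.cons 676 n5851 .nil)))
noncomputable def n5853 : Strat := .move 838 n436 (.cons 837 n5321 .nil)
noncomputable def n5854 : Strat := .move 757 n1539 (.cons 879 n755 .nil)
noncomputable def n5855 : Strat := .move 838 n436 (.cons 837 n5854 .nil)
noncomputable def n5856 : Strat := .move 716 n5347 (.cons 675 n5853 (.cons 676 n5855 (.cons 757 n5845 .nil)))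
noncomputable def n5857 : Strat := .move 839 n437 (.cons 837 n1103 (.cons 838 n5852 (.cons 801 n5856 .nil)))
noncomputable def n5858 : Strat := .move 759 n724 (.cons 677 n5786 .nil)
noncomputable def n5859 : Strat := .move 675 n3941 (.cons 674 n3899 .nil)
noncomputable def n5860 : Strat := .move 719 n4318 (.cons 841 n5859 .nil)
noncomputable def n5861 : Strat := .move 716 n793 (.cons 715 n5860 .nil)
noncomputable def n5862 : Strat := .move 760 n4017 (.cons 801 n5778 (.cons 761 n5861 .nil))
noncomputable def n5863 : Strat := .move 759 n724 (.cons 677 n5862 .nil)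
noncomputable def n5864 : Strat := .move 676 n4158 (.cons 714 n4159 .nil)
noncomputable def n5865 : Strat := .move 757 n755 (.cons 675 n5864 .nil)
noncomputable def n5866 : Strat := .move 715 n3848 (.cons 678 n5865 .nil)
noncomputable def n5867 : Strat := .move 839 n1538 (.cons 676 n1117 .nil)
noncomputable def n5868 : Strat := .move 757 n755 (.cons 675 n5867 .nil)
noncomputable def n5869 : Strat := .move 757 n4170 (.cons 839 n755 .nil)
noncomputable def n5870 : Strat := .move 674 n812 (.cons 673 n5869 .nil)
noncomputable def n5871 : Strat := .move 715 n3848 (.cons 678 n5870 .nil)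
noncomputable def n5872 : Strat := .move 716 n4200 (.cons 672 n5866 (.cons 715 n5868 (.cons 676 n5871 .nil)))
noncomputable def n5873 : Strat := .move 677 n3770 (.cons 759 n5872 .nil)
noncomputable def n5874 : Strat := .move 882 n5767 (.cons 923 n117 .nil)
noncomputable def n5875 : Strat := .move 760 n753 (.cons 761 n5874 .nil)
noncomputable def n5876 : Strat := .move 801 n1872 (.cons 838 n5124 (.cons 802 n5875 .nil))
noncomputable def n5877 : Strat := .move 841 n3759 (.cons 676 n5876 .nil)
noncomputable def n5878 : Strat := .move 759 n724 (.cons 677 n5877 .nil)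
noncomputable def n5879 : Strat := .move 677 n4200 (.cons 672 n5866 (.cons 715 n5868 (.cons 676 n5871 .nil)))
noncomputable def n5880 : Strat := .move 839 n752 (.cons 838 n4202 .nil)
noncomputable def n5881 : Strat := .move 839 n752 (.cons 838 n4204 .nil)
noncomputable def n5882 : Strat := .move 839 n4206 (.cons 757 n752 .nil)
noncomputable def n5883 : Strat := .move 677 n4158 (.cons 714 n3848 .nil)
noncomputable def n5884 : Strat := .move 676 n5882 (.cons 838 n5883 .nil)
noncomputable def n5885 : Strat := .move 715 n5880 (.cons 839 n4571 (.cons 676 n5881 (.cons 674 n5884 .nil)))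
noncomputable def n5886 : Strat := .move 802 n573 (.cons 839 n2480 .nil)
noncomputable def n5887 : Strat := .move 801 n1132 (.cons 802 n5885 (.cons 838 n5886 (.cons 839 n4461 .nil)))
noncomputable def n5888 : Strat := .move 719 n3941 (.cons 674 n173 .nil)
noncomputable def n5889 : Strat := .move 675 n3899 (.cons 757 n5888 .nil)
noncomputable def n5890 : Strat := .move 719 n4268 (.cons 761 n4677 (.cons 674 n4039 .nil))
noncomputable def n5891 : Strat := .move 716 n4576 (.cons 719 n5879 (.cons 674 n5868 (.cons 675 n5887 (.cons 676 n5889 (.cons 757 n5890 .nil)))))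
noncomputable def n5892 : Strat := .move 718 n5844 (.cons 677 n5857 (.cons 801 n5858 (.cons 676 n5863 (.cons 719 n5873 (.cons 678 n5878 (.cons 759 n5891 .nil))))))
noncomputable def n5893 : Strat := .move 800 n5745 (.cons 759 n5754 (.cons 837 n5755 (.cons 802 n5764 (.cons 795 n5774 (.cons 801 n5801 (.cons 838 n5820 (.cons 760 n5822 (.cons 841 n5832 (.cons 796 n5840 (.cons 797 n5892 .nil))))))))))
noncomputable def n5894 : Strat := .move 798 n4129 (.cons 797 n4332 (.cons 839 n4696 (.cons 800 n4938 (.cons 716 n4977 (.cons 757 n5088 (.cons 838 n5178 (.cons 841 n5269 (.cons 837 n5398 (.cons 755 n5512 (.cons 760 n5530 (.cons 715 n5623 (.cons 674 n5654 (.cons 879 n5736 (.cons 756 n5893 .nil))))))))))))))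
noncomputable def n5895 : Strat := .move 717 n3670 (.cons 839 n3680 (.cons 716 n3780 (.cons 800 n3781 (.cons 676 n4068 (.cons 677 n4085 (.cons 757 n4106 (.cons 756 n4109 (.cons 758 n5894 .nil))))))))
noncomputable def n5896 : Strat := .move 799 n126 (.cons 800 n212 (.cons 839 n349 (.cons 798 n413 (.cons 841 n459 (.cons 717 n707 (.cons 922 n881 (.cons 757 n1017 (.cons 759 n1096 (.cons 882 n1125 (.cons 880 n1148 (.cons 716 n1203 (.cons 718 n1244 (.cons 921 n1333 (.cons 923 n1379 (.cons 758 n3669 (.cons 881 n5895 .nil))))))))))))))))

end Vale.Agent.Snaky.R2_0
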