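import Vale.Agent.Snaky.Assemble

namespace Vale.Agent.Snaky.R2_1

open Vale.Agent.Snaky

noncomputable def n0 : Strat := .win 716 7 716
noncomputable def n1 : Strat := .win 798 7 757
noncomputable def n2 : Strat := .win 718 3 717
noncomputable def n3 : Strat := .win 800 3 758
noncomputable def n4 : Strat := .move 759 n2 (.cons 718 n3 .nil)
noncomputable def n5 : Strat := .move 922 n1 (.cons 798 n4 .nil)
noncomputable def n6 : Strat := .move 757 n0 (.cons 716 n5 .nil)
noncomputable def n7 : Strat := .win 921 1 757
noncomputable def n8 : Strat := .win 839 1 716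
noncomputable def n9 : Strat := .win 923 6 758
noncomputable def n10 : Strat := .win 841 6 717
noncomputable def n11 : Strat := .move 882 n9 (.cons 923 n10 .nil)
noncomputable def n12 : Strat := .move 717 n8 (.cons 839 n11 .nil)
noncomputable def n13 : Strat := .move 880 n7 (.cons 921 n12 .nil)
noncomputable def n14 : Strat := .move 758 n6 (.cons 757 n13 .nil)
noncomputable def n15 : Strat := .win 757 7 757
noncomputable def n16 : Strat := .win 839 7 798
noncomputable def n17 : Strat := .win 759 3 758
noncomputable def n18 : Strat := .win 841 3 799
noncomputable def n19 : Strat := .move 800 n17 (.cons 759 n18 .nil)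
noncomputable def n20 : Strat := .move 963 n16 (.cons 839 n19 .nil)
noncomputable def n21 : Strat := .move 798 n15 (.cons 757 n20 .nil)
noncomputable def n22 : Strat := .win 921 1 798
noncomputable def n23 : Strat := .win 1003 1 839
noncomputable def n24 : Strat := .move 962 n22 (.cons 921 n23 .nil)
noncomputable def n25 : Strat := .move 963 n16 (.cons 839 n24 .nil)
noncomputable def n26 : Strat := .move 798 n15 (.cons 757 n25 .nil)
noncomputable def n27 : Strat := .win 962 1 798
noncomputable def n28 : Strat := .win 880 1 757
noncomputable def n29 : Strat := .move 758 n28 (.cons 880 n4 .nil)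
noncomputable def n30 : Strat := .move 921 n27 (.cons 962 n29 .nil)
noncomputable def n31 : Strat := .move 922 n21 (.cons 841 n26 (.cons 798 n30 .nil))
noncomputable def n32 : Strat := .move 798 n15 (.cons 757 n16 .nil)
noncomputable def n33 : Strat := .move 963 n18 (.cons 841 n32 .nil)
noncomputable def n34 : Strat := .move 800 n17 (.cons 759 n33 .nil)
noncomputable def n35 : Strat := .win 923 6 799
noncomputable def n36 : Strat := .win 1005 6 840
noncomputable def n37 : Strat := .move 964 n35 (.cons 923 n36 .nil)
noncomputable def n38 : Strat := .move 963 n16 (.cons 839 n37 .nil)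
noncomputable def n39 : Strat := .move 798 n15 (.cons 757 n38 .nil)
noncomputable def n40 : Strat := .move 963 n18 (.cons 841 n37 .nil)
noncomputable def n41 : Strat := .move 800 n17 (.cons 759 n40 .nil)
noncomputable def n42 : Strat := .win 964 6 799
noncomputable def n43 : Strat := .win 758 6 758
noncomputable def n44 : Strat := .win 842 0 797
noncomputable def n45 : Strat := .win 796 0 796
noncomputable def n46 : Strat := .move 797 n44 (.cons 842 n45 .nil)
noncomputable def n47 : Strat := .win 843 2 798
noncomputable def n48 : Strat := .win 797 0 797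
noncomputable def n49 : Strat := .move 842 n47 (.cons 843 n48 .nil)
noncomputable def n50 : Strat := .win 760 3 759
noncomputable def n51 : Strat := .win 838 4 797
noncomputable def n52 : Strat := .win 802 4 798
noncomputable def n53 : Strat := .move 839 n51 (.cons 838 n52 .nil)
noncomputable def n54 : Strat := .move 801 n50 (.cons 760 n53 .nil)
noncomputable def n55 : Strat := .move 841 n46 (.cons 796 n49 (.cons 842 n54 .nil))
noncomputable def n56 : Strat := .move 882 n43 (.cons 758 n55 .nil)
noncomputable def n57 : Strat := .move 923 n42 (.cons 964 n56 .nil)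
noncomputable def n58 : Strat := .move 798 n15 (.cons 757 n57 .nil)
noncomputable def n59 : Strat := .move 800 n17 (.cons 759 n58 .nil)
noncomputable def n60 : Strat := .move 922 n34 (.cons 800 n39 (.cons 839 n41 (.cons 963 n59 .nil)))
noncomputable def n61 : Strat := .win 882 6 758
noncomputable def n62 : Strat := .move 758 n61 (.cons 882 n4 .nil)
noncomputable def n63 : Strat := .move 923 n42 (.cons 964 n62 .nil)
noncomputable def n64 : Strat := .move 963 n18 (.cons 841 n24 .nil)
noncomputable def n65 : Strat := .move 800 n17 (.cons 759 n64 .nil)
noncomputable def n66 : Strat := .move 921 n28 (.cons 880 n27 .nil)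
noncomputable def n67 : Strat := .move 758 n61 (.cons 882 n66 .nil)
noncomputable def n68 : Strat := .move 923 n42 (.cons 964 n67 .nil)
noncomputable def n69 : Strat := .move 922 n63 (.cons 923 n65 (.cons 800 n68 .nil))
noncomputable def n70 : Strat := .move 841 n44 (.cons 842 n45 .nil)
noncomputable def n71 : Strat := .win 801 4 797
noncomputable def n72 : Strat := .win 837 4 796
noncomputable def n73 : Strat := .move 838 n71 (.cons 801 n72 .nil)
noncomputable def n74 : Strat := .move 801 n52 (.cons 802 n51 .nil)
noncomputable def n75 : Strat := .win 880 7 756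
noncomputable def n76 : Strat := .win 755 2 755
noncomputable def n77 : Strat := .move 756 n75 (.cons 880 n76 .nil)
noncomputable def n78 : Strat := .move 839 n73 (.cons 837 n74 (.cons 801 n77 .nil))
noncomputable def n79 : Strat := .move 797 n70 (.cons 796 n78 .nil)
noncomputable def n80 : Strat := .move 921 n27 (.cons 962 n79 .nil)
noncomputable def n81 : Strat := .move 923 n42 (.cons 964 n80 .nil)
noncomputable def n82 : Strat := .move 800 n17 (.cons 759 n81 .nil)
noncomputable def n83 : Strat := .move 798 n15 (.cons 757 n82 .nil)
noncomputable def n84 : Strat := .move 922 n21 (.cons 963 n83 (.cons 759 n39 (.cons 798 n65 .nil)))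
noncomputable def n85 : Strat := .win 757 7 716
noncomputable def n86 : Strat := .win 675 7 675
noncomputable def n87 : Strat := .move 716 n85 (.cons 757 n86 .nil)
noncomputable def n88 : Strat := .move 717 n8 (.cons 839 n87 .nil)
noncomputable def n89 : Strat := .move 880 n7 (.cons 921 n88 .nil)
noncomputable def n90 : Strat := .move 923 n61 (.cons 882 n42 .nil)
noncomputable def n91 : Strat := .move 922 n1 (.cons 798 n90 .nil)
noncomputable def n92 : Strat := .move 757 n0 (.cons 716 n91 .nil)
noncomputable def n93 : Strat := .move 758 n89 (.cons 880 n92 (.cons 757 n13 .nil))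
noncomputable def n94 : Strat := .move 757 n0 (.cons 716 n1 .nil)
noncomputable def n95 : Strat := .move 758 n28 (.cons 880 n94 .nil)
noncomputable def n96 : Strat := .move 921 n27 (.cons 962 n95 .nil)
noncomputable def n97 : Strat := .move 758 n28 (.cons 880 n61 .nil)
noncomputable def n98 : Strat := .move 923 n42 (.cons 964 n97 .nil)
noncomputable def n99 : Strat := .move 921 n27 (.cons 962 n98 .nil)
noncomputable def n100 : Strat := .move 922 n96 (.cons 716 n99 (.cons 921 n39 .nil))
noncomputable def n101 : Strat := .win 759 3 717
noncomputable def n102 : Strat := .win 677 3 676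
noncomputable def n103 : Strat := .move 718 n101 (.cons 759 n102 .nil)
noncomputable def n104 : Strat := .move 717 n8 (.cons 839 n103 .nil)
noncomputable def n105 : Strat := .move 880 n7 (.cons 921 n104 .nil)
noncomputable def n106 : Strat := .move 717 n10 (.cons 841 n87 .nil)
noncomputable def n107 : Strat := .move 882 n9 (.cons 923 n106 .nil)
noncomputable def n108 : Strat := .win 801 0 756
noncomputable def n109 : Strat := .win 755 0 755
noncomputable def n110 : Strat := .move 800 n108 (.cons 801 n109 .nil)
noncomputable def n111 : Strat := .win 760 4 756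
noncomputable def n112 : Strat := .win 796 4 755
noncomputable def n113 : Strat := .move 797 n111 (.cons 760 n112 .nil)
noncomputable def n114 : Strat := .win 761 4 757
noncomputable def n115 : Strat := .win 797 4 756
noncomputable def n116 : Strat := .move 760 n114 (.cons 761 n115 .nil)
noncomputable def n117 : Strat := .win 839 7 715
noncomputable def n118 : Strat := .win 714 2 714
noncomputable def n119 : Strat := .move 715 n117 (.cons 839 n118 .nil)
noncomputable def n120 : Strat := .move 798 n113 (.cons 796 n116 (.cons 760 n119 .nil))
noncomputable def n121 : Strat := .move 756 n110 (.cons 755 n120 .nil)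
noncomputable def n122 : Strat := .move 882 n9 (.cons 923 n121 .nil)
noncomputable def n123 : Strat := .move 880 n7 (.cons 921 n122 .nil)
noncomputable def n124 : Strat := .move 759 n2 (.cons 718 n123 .nil)
noncomputable def n125 : Strat := .move 757 n0 (.cons 716 n124 .nil)
noncomputable def n126 : Strat := .move 758 n105 (.cons 759 n13 (.cons 921 n107 (.cons 717 n125 .nil)))
noncomputable def n127 : Strat := .move 881 n14 (.cons 882 n31 (.cons 880 n60 (.cons 839 n69 (.cons 758 n84 (.cons 800 n93 (.cons 841 n100 (.cons 922 n126 .nil)))))))
noncomputable def n128 : Strat := .win 717 1 716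
noncomputable def n129 : Strat := .win 920 1 756
noncomputable def n130 : Strat := .win 842 4 838
noncomputable def n131 : Strat := .win 878 5 837
noncomputable def n132 : Strat := .move 841 n130 (.cons 842 n131 .nil)
noncomputable def n133 : Strat := .move 879 n129 (.cons 920 n132 .nil)
noncomputable def n134 : Strat := .move 839 n128 (.cons 717 n133 .nil)
noncomputable def n135 : Strat := .move 880 n7 (.cons 921 n134 .nil)
noncomputable def n136 : Strat := .win 796 5 755
noncomputable def n137 : Strat := .move 797 n111 (.cons 760 n136 .nil)
noncomputable def n138 : Strat := .move 759 n2 (.cons 718 n137 .nil)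
noncomputable def n139 : Strat := .move 798 n135 (.cons 880 n138 .nil)
noncomputable def n140 : Strat := .move 757 n0 (.cons 716 n139 .nil)
noncomputable def n141 : Strat := .move 717 n86 (.cons 675 n103 .nil)
noncomputable def n142 : Strat := .move 716 n85 (.cons 757 n141 .nil)
noncomputable def n143 : Strat := .win 842 5 838
noncomputable def n144 : Strat := .move 841 n143 (.cons 842 n131 .nil)
noncomputable def n145 : Strat := .win 839 1 756
noncomputable def n146 : Strat := .win 919 4 878
noncomputable def n147 : Strat := .move 920 n145 (.cons 839 n146 .nil)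
noncomputable def n148 : Strat := .move 798 n116 (.cons 797 n147 .nil)
noncomputable def n149 : Strat := .move 879 n144 (.cons 878 n148 .nil)
noncomputable def n150 : Strat := .move 759 n2 (.cons 718 n149 .nil)
noncomputable def n151 : Strat := .move 757 n0 (.cons 716 n150 .nil)
noncomputable def n152 : Strat := .move 882 n9 (.cons 923 n151 .nil)
noncomputable def n153 : Strat := .move 880 n7 (.cons 921 n152 .nil)
noncomputable def n154 : Strat := .move 758 n140 (.cons 880 n142 (.cons 716 n13 (.cons 717 n153 .nil)))
noncomputable def n155 : Strat := .move 717 n10 (.cons 841 n103 .nil)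
noncomputable def n156 : Strat := .move 882 n9 (.cons 923 n155 .nil)
noncomputable def n157 : Strat := .move 758 n92 (.cons 922 n142 (.cons 757 n156 .nil))
noncomputable def n158 : Strat := .win 922 7 757
noncomputable def n159 : Strat := .move 798 n158 (.cons 922 n138 .nil)
noncomputable def n160 : Strat := .move 757 n0 (.cons 716 n159 .nil)
noncomputable def n161 : Strat := .move 880 n7 (.cons 921 n8 .nil)
noncomputable def n162 : Strat := .move 717 n10 (.cons 841 n161 .nil)
noncomputable def n163 : Strat := .move 882 n106 (.cons 717 n160 (.cons 757 n162 .nil))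
noncomputable def n164 : Strat := .move 882 n106 (.cons 757 n155 (.cons 717 n160 .nil))
noncomputable def n165 : Strat := .move 717 n8 (.cons 839 n10 .nil)
noncomputable def n166 : Strat := .move 880 n7 (.cons 921 n165 .nil)
noncomputable def n167 : Strat := .move 879 n144 (.cons 878 n147 .nil)
noncomputable def n168 : Strat := .move 798 n158 (.cons 922 n167 .nil)
noncomputable def n169 : Strat := .move 757 n0 (.cons 716 n168 .nil)
noncomputable def n170 : Strat := .move 880 n7 (.cons 921 n169 .nil)
noncomputable def n171 : Strat := .move 882 n106 (.cons 841 n89 (.cons 716 n166 (.cons 717 n170 .nil)))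
noncomputable def n172 : Strat := .move 758 n163 (.cons 880 n164 (.cons 759 n171 (.cons 717 n160 (.cons 798 n89 (.cons 716 n105 .nil)))))
noncomputable def n173 : Strat := .move 922 n1 (.cons 798 n66 .nil)
noncomputable def n174 : Strat := .move 757 n0 (.cons 716 n173 .nil)
noncomputable def n175 : Strat := .move 758 n89 (.cons 757 n105 (.cons 717 n174 (.cons 921 n160 .nil)))
noncomputable def n176 : Strat := .move 921 n27 (.cons 962 n97 .nil)
noncomputable def n177 : Strat := .move 923 n42 (.cons 964 n176 .nil)
noncomputable def n178 : Strat := .move 922 n177 (.cons 882 n26 (.cons 921 n39 .nil))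
noncomputable def n179 : Strat := .win 878 0 878
noncomputable def n180 : Strat := .win 924 2 879
noncomputable def n181 : Strat := .move 880 n179 (.cons 878 n180 .nil)
noncomputable def n182 : Strat := .win 918 5 877
noncomputable def n183 : Strat := .win 882 4 878
noncomputable def n184 : Strat := .move 919 n182 (.cons 918 n183 .nil)
noncomputable def n185 : Strat := .win 959 4 918
noncomputable def n186 : Strat := .win 961 4 919
noncomputable def n187 : Strat := .move 960 n185 (.cons 959 n186 .nil)
noncomputable def n188 : Strat := .move 919 n182 (.cons 918 n187 .nil)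
noncomputable def n189 : Strat := .move 919 n183 (.cons 882 n187 .nil)
noncomputable def n190 : Strat := .win 960 4 919
noncomputable def n191 : Strat := .win 1043 3 879
noncomputable def n192 : Strat := .win 839 3 838
noncomputable def n193 : Strat := .move 1002 n191 (.cons 1043 n192 .nil)
noncomputable def n194 : Strat := .move 961 n190 (.cons 960 n193 .nil)
noncomputable def n195 : Strat := .move 920 n184 (.cons 882 n188 (.cons 918 n189 (.cons 919 n194 .nil)))
noncomputable def n196 : Strat := .move 880 n179 (.cons 878 n195 .nil)
noncomputable def n197 : Strat := .move 880 n180 (.cons 924 n195 .nil)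
noncomputable def n198 : Strat := .win 878 2 878
noncomputable def n199 : Strat := .win 882 5 878
noncomputable def n200 : Strat := .move 919 n199 (.cons 882 n187 .nil)
noncomputable def n201 : Strat := .move 920 n198 (.cons 878 n200 .nil)
noncomputable def n202 : Strat := .move 879 n181 (.cons 924 n196 (.cons 878 n197 (.cons 880 n201 .nil)))
noncomputable def n203 : Strat := .move 921 n27 (.cons 962 n202 .nil)
noncomputable def n204 : Strat := .move 923 n42 (.cons 964 n203 .nil)
noncomputable def n205 : Strat := .move 758 n28 (.cons 880 n142 .nil)
noncomputable def n206 : Strat := .move 921 n27 (.cons 962 n205 .nil)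
noncomputable def n207 : Strat := .move 758 n61 (.cons 882 n142 .nil)
noncomputable def n208 : Strat := .move 923 n42 (.cons 964 n207 .nil)
noncomputable def n209 : Strat := .move 922 n68 (.cons 758 n204 (.cons 923 n206 (.cons 921 n208 .nil)))
noncomputable def n210 : Strat := .move 922 n27 (.cons 962 n90 .nil)
noncomputable def n211 : Strat := .move 921 n28 (.cons 880 n210 .nil)
noncomputable def n212 : Strat := .move 759 n2 (.cons 718 n211 .nil)
noncomputable def n213 : Strat := .move 758 n13 (.cons 880 n156 (.cons 882 n105 (.cons 717 n212 .nil)))
noncomputable def n214 : Strat := .move 963 n36 (.cons 1005 n24 .nil)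
noncomputable def n215 : Strat := .move 964 n35 (.cons 923 n214 .nil)
noncomputable def n216 : Strat := .move 922 n39 (.cons 798 n204 (.cons 923 n26 (.cons 839 n215 .nil)))
noncomputable def n217 : Strat := .move 881 n93 (.cons 922 n154 (.cons 880 n157 (.cons 923 n172 (.cons 882 n175 (.cons 717 n178 (.cons 798 n209 (.cons 757 n213 (.cons 758 n216 .nil))))))))
noncomputable def n218 : Strat := .win 963 3 799
noncomputable def n219 : Strat := .move 842 n48 (.cons 797 n47 .nil)
noncomputable def n220 : Strat := .move 798 n15 (.cons 757 n219 .nil)
noncomputable def n221 : Strat := .move 841 n218 (.cons 963 n220 .nil)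
noncomputable def n222 : Strat := .move 800 n17 (.cons 759 n221 .nil)
noncomputable def n223 : Strat := .move 922 n65 (.cons 962 n222 (.cons 963 n30 (.cons 800 n96 .nil)))
noncomputable def n224 : Strat := .move 758 n61 (.cons 882 n94 .nil)
noncomputable def n225 : Strat := .move 923 n42 (.cons 964 n224 .nil)
noncomputable def n226 : Strat := .move 922 n63 (.cons 718 n225 (.cons 758 n222 .nil))
noncomputable def n227 : Strat := .win 879 2 879
noncomputable def n228 : Strat := .win 925 2 880
noncomputable def n229 : Strat := .move 880 n227 (.cons 879 n228 .nil)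
noncomputable def n230 : Strat := .win 882 6 800
noncomputable def n231 : Strat := .win 966 0 921
noncomputable def n232 : Strat := .move 965 n230 (.cons 882 n231 .nil)
noncomputable def n233 : Strat := .move 924 n229 (.cons 925 n232 .nil)
noncomputable def n234 : Strat := .move 841 n46 (.cons 796 n49 (.cons 842 n233 .nil))
noncomputable def n235 : Strat := .move 798 n15 (.cons 757 n234 .nil)
noncomputable def n236 : Strat := .move 800 n17 (.cons 759 n235 .nil)
noncomputable def n237 : Strat := .move 921 n27 (.cons 962 n236 .nil)
noncomputable def n238 : Strat := .move 923 n42 (.cons 964 n237 .nil)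
noncomputable def n239 : Strat := .move 922 n63 (.cons 923 n30 (.cons 718 n177 (.cons 758 n238 .nil)))
noncomputable def n240 : Strat := .win 717 6 717
noncomputable def n241 : Strat := .move 879 n143 (.cons 842 n131 .nil)
noncomputable def n242 : Strat := .move 880 n7 (.cons 921 n241 .nil)
noncomputable def n243 : Strat := .move 841 n240 (.cons 717 n242 .nil)
noncomputable def n244 : Strat := .move 882 n9 (.cons 923 n243 .nil)
noncomputable def n245 : Strat := .move 757 n0 (.cons 716 n244 .nil)
noncomputable def n246 : Strat := .move 759 n2 (.cons 718 n245 .nil)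
noncomputable def n247 : Strat := .move 800 n109 (.cons 755 n108 .nil)
noncomputable def n248 : Strat := .win 798 4 756
noncomputable def n249 : Strat := .win 803 0 758
noncomputable def n250 : Strat := .win 801 0 757
noncomputable def n251 : Strat := .move 802 n249 (.cons 803 n250 .nil)
noncomputable def n252 : Strat := .win 721 5 717
noncomputable def n253 : Strat := .win 719 5 716
noncomputable def n254 : Strat := .move 720 n252 (.cons 721 n253 .nil)
noncomputable def n255 : Strat := .move 761 n251 (.cons 801 n254 .nil)
noncomputable def n256 : Strat := .move 760 n248 (.cons 798 n255 .nil)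
noncomputable def n257 : Strat := .move 797 n112 (.cons 796 n256 .nil)
noncomputable def n258 : Strat := .win 800 0 755
noncomputable def n259 : Strat := .win 797 4 755
noncomputable def n260 : Strat := .win 795 4 754
noncomputable def n261 : Strat := .move 796 n259 (.cons 797 n260 .nil)
noncomputable def n262 : Strat := .move 755 n258 (.cons 800 n261 .nil)
noncomputable def n263 : Strat := .move 756 n247 (.cons 800 n257 (.cons 801 n262 .nil))
noncomputable def n264 : Strat := .move 757 n0 (.cons 716 n263 .nil)
noncomputable def n265 : Strat := .move 759 n2 (.cons 718 n264 .nil)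
noncomputable def n266 : Strat := .win 843 4 839
noncomputable def n267 : Strat := .win 879 5 838
noncomputable def n268 : Strat := .move 842 n266 (.cons 843 n267 .nil)
noncomputable def n269 : Strat := .move 841 n240 (.cons 717 n268 .nil)
noncomputable def n270 : Strat := .move 882 n9 (.cons 923 n269 .nil)
noncomputable def n271 : Strat := .move 880 n7 (.cons 921 n270 .nil)
noncomputable def n272 : Strat := .move 758 n246 (.cons 882 n265 (.cons 759 n271 .nil))
noncomputable def n273 : Strat := .move 798 n15 (.cons 757 n177 .nil)
noncomputable def n274 : Strat := .move 963 n23 (.cons 1003 n37 .nil)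
noncomputable def n275 : Strat := .move 962 n22 (.cons 921 n274 .nil)
noncomputable def n276 : Strat := .move 922 n273 (.cons 923 n96 (.cons 921 n225 (.cons 757 n177 (.cons 758 n275 .nil))))
noncomputable def n277 : Strat := .move 841 n218 (.cons 963 n49 .nil)
noncomputable def n278 : Strat := .move 800 n17 (.cons 759 n277 .nil)
noncomputable def n279 : Strat := .move 798 n15 (.cons 757 n278 .nil)
noncomputable def n280 : Strat := .move 922 n279 (.cons 800 n215 (.cons 963 n238 .nil))
noncomputable def n281 : Strat := .move 881 n69 (.cons 923 n223 (.cons 962 n226 (.cons 963 n239 (.cons 922 n272 (.cons 841 n276 (.cons 758 n280 .nil))))))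
noncomputable def n282 : Strat := .move 797 n136 (.cons 796 n111 .nil)
noncomputable def n283 : Strat := .move 759 n2 (.cons 718 n282 .nil)
noncomputable def n284 : Strat := .move 757 n0 (.cons 716 n283 .nil)
noncomputable def n285 : Strat := .win 757 4 756
noncomputable def n286 : Strat := .move 760 n114 (.cons 761 n285 .nil)
noncomputable def n287 : Strat := .move 797 n136 (.cons 796 n286 .nil)
noncomputable def n288 : Strat := .move 759 n2 (.cons 718 n287 .nil)
noncomputable def n289 : Strat := .win 715 7 715
noncomputable def n290 : Strat := .win 754 0 754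
noncomputable def n291 : Strat := .move 755 n258 (.cons 800 n290 .nil)
noncomputable def n292 : Strat := .move 756 n289 (.cons 715 n291 .nil)
noncomputable def n293 : Strat := .move 839 n128 (.cons 717 n292 .nil)
noncomputable def n294 : Strat := .move 880 n7 (.cons 921 n293 .nil)
noncomputable def n295 : Strat := .move 757 n0 (.cons 716 n294 .nil)
noncomputable def n296 : Strat := .win 800 5 756
noncomputable def n297 : Strat := .move 797 n296 (.cons 800 n136 .nil)
noncomputable def n298 : Strat := .move 760 n114 (.cons 761 n297 .nil)
noncomputable def n299 : Strat := .move 717 n8 (.cons 839 n298 .nil)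
noncomputable def n300 : Strat := .move 880 n7 (.cons 921 n299 .nil)
noncomputable def n301 : Strat := .move 759 n2 (.cons 718 n300 .nil)
noncomputable def n302 : Strat := .move 798 n284 (.cons 716 n288 (.cons 759 n295 (.cons 757 n301 .nil)))
noncomputable def n303 : Strat := .win 839 6 674
noncomputable def n304 : Strat := .win 633 6 633
noncomputable def n305 : Strat := .move 674 n303 (.cons 839 n304 .nil)
noncomputable def n306 : Strat := .move 715 n118 (.cons 714 n305 .nil)
noncomputable def n307 : Strat := .move 798 n111 (.cons 760 n306 .nil)
noncomputable def n308 : Strat := .move 797 n112 (.cons 796 n307 .nil)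
noncomputable def n309 : Strat := .move 756 n247 (.cons 800 n308 .nil)
noncomputable def n310 : Strat := .move 759 n2 (.cons 718 n309 .nil)
noncomputable def n311 : Strat := .move 757 n0 (.cons 716 n310 .nil)
noncomputable def n312 : Strat := .move 758 n302 (.cons 757 n105 (.cons 880 n142 (.cons 759 n89 (.cons 717 n311 .nil))))
noncomputable def n313 : Strat := .move 922 n39 (.cons 798 n63 (.cons 923 n26 .nil))
noncomputable def n314 : Strat := .win 963 7 798
noncomputable def n315 : Strat := .win 837 5 796
noncomputable def n316 : Strat := .move 838 n315 (.cons 837 n71 .nil)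
noncomputable def n317 : Strat := .move 839 n314 (.cons 963 n316 .nil)
noncomputable def n318 : Strat := .move 798 n15 (.cons 757 n317 .nil)
noncomputable def n319 : Strat := .move 800 n17 (.cons 759 n318 .nil)
noncomputable def n320 : Strat := .move 879 n179 (.cons 878 n180 .nil)
noncomputable def n321 : Strat := .move 924 n227 (.cons 879 n228 .nil)
noncomputable def n322 : Strat := .win 839 1 797
noncomputable def n323 : Strat := .move 961 n322 (.cons 839 n190 .nil)
noncomputable def n324 : Strat := .move 919 n182 (.cons 918 n199 .nil)
noncomputable def n325 : Strat := .move 920 n323 (.cons 960 n324 .nil)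
noncomputable def n326 : Strat := .move 800 n17 (.cons 759 n325 .nil)
noncomputable def n327 : Strat := .move 880 n320 (.cons 878 n321 (.cons 879 n326 .nil))
noncomputable def n328 : Strat := .move 798 n15 (.cons 757 n327 .nil)
noncomputable def n329 : Strat := .move 923 n42 (.cons 964 n328 .nil)
noncomputable def n330 : Strat := .move 921 n27 (.cons 962 n329 .nil)
noncomputable def n331 : Strat := .move 922 n319 (.cons 798 n275 (.cons 963 n330 .nil))
noncomputable def n332 : Strat := .win 758 1 757
noncomputable def n333 : Strat := .move 880 n332 (.cons 758 n320 .nil)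
noncomputable def n334 : Strat := .move 923 n42 (.cons 964 n333 .nil)
noncomputable def n335 : Strat := .move 921 n27 (.cons 962 n334 .nil)
noncomputable def n336 : Strat := .move 800 n17 (.cons 759 n335 .nil)
noncomputable def n337 : Strat := .move 963 n23 (.cons 1003 n62 .nil)
noncomputable def n338 : Strat := .move 962 n22 (.cons 921 n337 .nil)
noncomputable def n339 : Strat := .move 923 n42 (.cons 964 n338 .nil)
noncomputable def n340 : Strat := .move 922 n336 (.cons 923 n30 (.cons 880 n339 (.cons 758 n275 (.cons 921 n63 .nil))))
noncomputable def n341 : Strat := .win 962 1 839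
noncomputable def n342 : Strat := .win 1044 1 880
noncomputable def n343 : Strat := .win 1046 6 881
noncomputable def n344 : Strat := .win 964 6 840
noncomputable def n345 : Strat := .move 1005 n343 (.cons 1046 n344 .nil)
noncomputable def n346 : Strat := .move 1004 n342 (.cons 1044 n345 .nil)
noncomputable def n347 : Strat := .move 1003 n341 (.cons 962 n346 .nil)
noncomputable def n348 : Strat := .move 758 n2 (.cons 718 n347 .nil)
noncomputable def n349 : Strat := .move 759 n3 (.cons 800 n348 .nil)
noncomputable def n350 : Strat := .move 963 n16 (.cons 839 n349 .nil)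
noncomputable def n351 : Strat := .move 798 n15 (.cons 757 n350 .nil)
noncomputable def n352 : Strat := .move 838 n71 (.cons 801 n315 .nil)
noncomputable def n353 : Strat := .move 800 n17 (.cons 759 n352 .nil)
noncomputable def n354 : Strat := .move 839 n314 (.cons 963 n353 .nil)
noncomputable def n355 : Strat := .move 798 n15 (.cons 757 n354 .nil)
noncomputable def n356 : Strat := .move 922 n39 (.cons 798 n63 (.cons 923 n351 (.cons 964 n355 .nil)))
noncomputable def n357 : Strat := .move 881 n100 (.cons 922 n312 (.cons 880 n313 (.cons 839 n276 (.cons 758 n331 (.cons 757 n340 (.cons 921 n356 .nil))))))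
noncomputable def n358 : Strat := .move 922 n3 (.cons 800 n90 .nil)
noncomputable def n359 : Strat := .move 759 n2 (.cons 718 n358 .nil)
noncomputable def n360 : Strat := .move 758 n6 (.cons 922 n125 (.cons 798 n359 (.cons 759 n92 .nil)))
noncomputable def n361 : Strat := .move 759 n2 (.cons 718 n122 .nil)
noncomputable def n362 : Strat := .move 757 n0 (.cons 716 n361 .nil)
noncomputable def n363 : Strat := .move 758 n7 (.cons 921 n362 .nil)
noncomputable def n364 : Strat := .win 839 4 838
noncomputable def n365 : Strat := .move 879 n131 (.cons 878 n364 .nil)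
noncomputable def n366 : Strat := .move 842 n266 (.cons 843 n365 .nil)
noncomputable def n367 : Strat := .win 882 5 838
noncomputable def n368 : Strat := .move 879 n131 (.cons 878 n367 .nil)
noncomputable def n369 : Strat := .move 842 n266 (.cons 843 n368 .nil)
noncomputable def n370 : Strat := .win 964 7 799
noncomputable def n371 : Strat := .win 924 0 879
noncomputable def n372 : Strat := .move 923 n370 (.cons 964 n371 .nil)
noncomputable def n373 : Strat := .win 837 2 837
noncomputable def n374 : Strat := .win 839 2 796
noncomputable def n375 : Strat := .win 798 0 796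
noncomputable def n376 : Strat := .move 796 n374 (.cons 839 n375 .nil)
noncomputable def n377 : Strat := .win 962 6 797
noncomputable def n378 : Strat := .win 756 6 756
noncomputable def n379 : Strat := .move 921 n377 (.cons 962 n378 .nil)
noncomputable def n380 : Strat := .move 797 n376 (.cons 798 n379 .nil)
noncomputable def n381 : Strat := .move 920 n146 (.cons 919 n380 .nil)
noncomputable def n382 : Strat := .move 838 n373 (.cons 837 n381 .nil)
noncomputable def n383 : Strat := .move 882 n372 (.cons 924 n382 .nil)
noncomputable def n384 : Strat := .move 879 n131 (.cons 878 n383 .nil)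
noncomputable def n385 : Strat := .win 879 4 838
noncomputable def n386 : Strat := .win 797 2 797
noncomputable def n387 : Strat := .win 802 5 798
noncomputable def n388 : Strat := .win 756 2 756
noncomputable def n389 : Strat := .win 716 6 716
noncomputable def n390 : Strat := .move 757 n388 (.cons 756 n389 .nil)
noncomputable def n391 : Strat := .move 800 n51 (.cons 838 n390 .nil)
noncomputable def n392 : Strat := .move 801 n387 (.cons 802 n391 .nil)
noncomputable def n393 : Strat := .move 798 n386 (.cons 797 n392 .nil)
noncomputable def n394 : Strat := .move 839 n385 (.cons 879 n393 .nil)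
noncomputable def n395 : Strat := .move 842 n266 (.cons 843 n394 .nil)
noncomputable def n396 : Strat := .win 798 2 797
noncomputable def n397 : Strat := .win 796 2 796
noncomputable def n398 : Strat := .win 882 0 837
noncomputable def n399 : Strat := .win 836 0 836
noncomputable def n400 : Strat := .move 837 n398 (.cons 882 n399 .nil)
noncomputable def n401 : Strat := .move 838 n397 (.cons 796 n400 .nil)
noncomputable def n402 : Strat := .move 797 n396 (.cons 798 n401 .nil)
noncomputable def n403 : Strat := .win 800 5 797
noncomputable def n404 : Strat := .move 838 n403 (.cons 800 n400 .nil)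
noncomputable def n405 : Strat := .move 801 n387 (.cons 802 n404 .nil)
noncomputable def n406 : Strat := .win 800 2 756
noncomputable def n407 : Strat := .move 801 n406 (.cons 800 n387 .nil)
noncomputable def n408 : Strat := .move 756 n289 (.cons 715 n407 .nil)
noncomputable def n409 : Strat := .move 757 n389 (.cons 716 n408 .nil)
noncomputable def n410 : Strat := .move 798 n386 (.cons 797 n409 .nil)
noncomputable def n411 : Strat := .move 839 n393 (.cons 801 n402 (.cons 797 n405 (.cons 838 n410 .nil)))
noncomputable def n412 : Strat := .move 842 n266 (.cons 843 n411 .nil)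
noncomputable def n413 : Strat := .move 841 n366 (.cons 839 n369 (.cons 842 n384 (.cons 878 n395 (.cons 879 n412 .nil))))
noncomputable def n414 : Strat := .move 798 n115 (.cons 797 n114 .nil)
noncomputable def n415 : Strat := .move 756 n108 (.cons 801 n109 .nil)
noncomputable def n416 : Strat := .win 802 0 757
noncomputable def n417 : Strat := .win 756 0 756
noncomputable def n418 : Strat := .move 801 n416 (.cons 802 n417 .nil)
noncomputable def n419 : Strat := .win 841 3 718
noncomputable def n420 : Strat := .win 720 5 716
noncomputable def n421 : Strat := .move 719 n419 (.cons 841 n420 .nil)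
noncomputable def n422 : Strat := .move 800 n415 (.cons 755 n418 (.cons 801 n421 .nil))
noncomputable def n423 : Strat := .move 760 n414 (.cons 761 n422 .nil)
noncomputable def n424 : Strat := .move 882 n9 (.cons 923 n423 .nil)
noncomputable def n425 : Strat := .move 757 n0 (.cons 716 n424 .nil)
noncomputable def n426 : Strat := .move 759 n2 (.cons 718 n425 .nil)
noncomputable def n427 : Strat := .move 758 n7 (.cons 921 n426 .nil)
noncomputable def n428 : Strat := .win 839 3 798
noncomputable def n429 : Strat := .win 1003 3 839
noncomputable def n430 : Strat := .move 962 n428 (.cons 839 n429 .nil)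
noncomputable def n431 : Strat := .move 921 n332 (.cons 758 n430 .nil)
noncomputable def n432 : Strat := .move 842 n266 (.cons 843 n364 .nil)
noncomputable def n433 : Strat := .move 841 n131 (.cons 878 n432 .nil)
noncomputable def n434 : Strat := .move 923 n43 (.cons 758 n371 .nil)
noncomputable def n435 : Strat := .win 838 2 837
noncomputable def n436 : Strat := .win 836 2 836
noncomputable def n437 : Strat := .win 918 4 877
noncomputable def n438 : Strat := .win 920 4 878
noncomputable def n439 : Strat := .move 919 n437 (.cons 918 n438 .nil)
noncomputable def n440 : Strat := .move 878 n436 (.cons 836 n439 .nil)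
noncomputable def n441 : Strat := .move 837 n435 (.cons 838 n440 .nil)
noncomputable def n442 : Strat := .move 882 n434 (.cons 924 n441 .nil)
noncomputable def n443 : Strat := .move 923 n371 (.cons 924 n370 .nil)
noncomputable def n444 : Strat := .move 841 n143 (.cons 842 n443 .nil)
noncomputable def n445 : Strat := .move 923 n43 (.cons 758 n370 .nil)
noncomputable def n446 : Strat := .move 841 n143 (.cons 842 n445 .nil)
noncomputable def n447 : Strat := .win 755 7 755
noncomputable def n448 : Strat := .move 796 n447 (.cons 755 n374 .nil)
noncomputable def n449 : Strat := .move 920 n146 (.cons 919 n448 .nil)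
noncomputable def n450 : Strat := .win 757 3 756
noncomputable def n451 : Strat := .move 798 n450 (.cons 757 n45 .nil)
noncomputable def n452 : Strat := .move 920 n146 (.cons 919 n451 .nil)
noncomputable def n453 : Strat := .win 756 3 715
noncomputable def n454 : Strat := .win 758 7 716
noncomputable def n455 : Strat := .move 716 n453 (.cons 756 n454 .nil)
noncomputable def n456 : Strat := .win 798 3 756
noncomputable def n457 : Strat := .move 920 n456 (.cons 798 n146 .nil)
noncomputable def n458 : Strat := .move 757 n455 (.cons 758 n457 .nil)
noncomputable def n459 : Strat := .move 797 n376 (.cons 798 n449 (.cons 839 n452 (.cons 796 n458 .nil)))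
noncomputable def n460 : Strat := .move 838 n373 (.cons 837 n459 .nil)
noncomputable def n461 : Strat := .move 841 n143 (.cons 842 n460 .nil)
noncomputable def n462 : Strat := .move 882 n434 (.cons 758 n444 (.cons 924 n446 (.cons 923 n461 .nil)))
noncomputable def n463 : Strat := .move 879 n433 (.cons 841 n442 (.cons 878 n462 .nil))
noncomputable def n464 : Strat := .move 880 n363 (.cons 758 n413 (.cons 839 n427 (.cons 882 n431 (.cons 921 n463 .nil))))
noncomputable def n465 : Strat := .move 922 n3 (.cons 800 n94 .nil)
noncomputable def n466 : Strat := .move 759 n2 (.cons 718 n465 .nil)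
noncomputable def n467 : Strat := .move 882 n9 (.cons 923 n466 .nil)
noncomputable def n468 : Strat := .move 922 n3 (.cons 800 n66 .nil)
noncomputable def n469 : Strat := .move 759 n2 (.cons 718 n468 .nil)
noncomputable def n470 : Strat := .move 882 n9 (.cons 923 n469 .nil)
noncomputable def n471 : Strat := .move 920 n146 (.cons 919 n145 .nil)
noncomputable def n472 : Strat := .move 879 n471 (.cons 839 n144 .nil)
noncomputable def n473 : Strat := .move 880 n7 (.cons 921 n472 .nil)
noncomputable def n474 : Strat := .move 798 n158 (.cons 922 n473 .nil)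
noncomputable def n475 : Strat := .move 757 n0 (.cons 716 n474 .nil)
noncomputable def n476 : Strat := .move 882 n9 (.cons 923 n475 .nil)
noncomputable def n477 : Strat := .move 759 n2 (.cons 718 n121 .nil)
noncomputable def n478 : Strat := .move 757 n0 (.cons 716 n477 .nil)
noncomputable def n479 : Strat := .move 880 n7 (.cons 921 n478 .nil)
noncomputable def n480 : Strat := .move 882 n9 (.cons 923 n479 .nil)
noncomputable def n481 : Strat := .move 922 n3 (.cons 800 n1 .nil)
noncomputable def n482 : Strat := .move 759 n2 (.cons 718 n481 .nil)
noncomputable def n483 : Strat := .move 757 n0 (.cons 716 n482 .nil)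
noncomputable def n484 : Strat := .move 758 n467 (.cons 757 n470 (.cons 759 n476 (.cons 922 n480 (.cons 882 n483 .nil))))
noncomputable def n485 : Strat := .win 963 1 799
noncomputable def n486 : Strat := .move 798 n15 (.cons 757 n46 .nil)
noncomputable def n487 : Strat := .move 841 n485 (.cons 963 n486 .nil)
noncomputable def n488 : Strat := .move 800 n17 (.cons 759 n487 .nil)
noncomputable def n489 : Strat := .move 923 n42 (.cons 964 n488 .nil)
noncomputable def n490 : Strat := .win 919 5 878
noncomputable def n491 : Strat := .win 880 1 797
noncomputable def n492 : Strat := .move 961 n491 (.cons 880 n190 .nil)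
noncomputable def n493 : Strat := .move 839 n314 (.cons 963 n492 .nil)
noncomputable def n494 : Strat := .move 798 n15 (.cons 757 n493 .nil)
noncomputable def n495 : Strat := .move 920 n490 (.cons 919 n494 .nil)
noncomputable def n496 : Strat := .move 921 n27 (.cons 962 n495 .nil)
noncomputable def n497 : Strat := .move 923 n42 (.cons 964 n496 .nil)
noncomputable def n498 : Strat := .win 965 6 800
noncomputable def n499 : Strat := .win 879 0 879
noncomputable def n500 : Strat := .move 880 n228 (.cons 925 n499 .nil)
noncomputable def n501 : Strat := .move 924 n498 (.cons 965 n500 .nil)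
noncomputable def n502 : Strat := .move 841 n485 (.cons 963 n501 .nil)
noncomputable def n503 : Strat := .move 800 n17 (.cons 759 n502 .nil)
noncomputable def n504 : Strat := .move 923 n42 (.cons 964 n503 .nil)
noncomputable def n505 : Strat := .move 798 n15 (.cons 757 n55 .nil)
noncomputable def n506 : Strat := .move 800 n17 (.cons 759 n505 .nil)
noncomputable def n507 : Strat := .move 923 n42 (.cons 964 n506 .nil)
noncomputable def n508 : Strat := .move 882 n489 (.cons 841 n497 (.cons 798 n504 (.cons 923 n34 (.cons 963 n507 .nil))))
noncomputable def n509 : Strat := .move 923 n46 (.cons 796 n49 (.cons 842 n54 .nil))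
noncomputable def n510 : Strat := .move 798 n15 (.cons 757 n509 .nil)
noncomputable def n511 : Strat := .move 841 n218 (.cons 963 n510 .nil)
noncomputable def n512 : Strat := .move 800 n17 (.cons 759 n511 .nil)
noncomputable def n513 : Strat := .win 803 4 799
noncomputable def n514 : Strat := .win 839 4 798
noncomputable def n515 : Strat := .move 802 n513 (.cons 803 n514 .nil)
noncomputable def n516 : Strat := .win 923 3 759
noncomputable def n517 : Strat := .win 842 1 718
noncomputable def n518 : Strat := .win 678 1 677
noncomputable def n519 : Strat := .move 719 n517 (.cons 842 n518 .nil)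
noncomputable def n520 : Strat := .move 760 n516 (.cons 923 n519 .nil)
noncomputable def n521 : Strat := .move 801 n515 (.cons 839 n520 .nil)
noncomputable def n522 : Strat := .move 921 n27 (.cons 962 n521 .nil)
noncomputable def n523 : Strat := .move 841 n218 (.cons 963 n522 .nil)
noncomputable def n524 : Strat := .move 800 n17 (.cons 759 n523 .nil)
noncomputable def n525 : Strat := .move 801 n51 (.cons 838 n52 .nil)
noncomputable def n526 : Strat := .win 837 0 837
noncomputable def n527 : Strat := .move 838 n71 (.cons 801 n526 .nil)
noncomputable def n528 : Strat := .move 797 n70 (.cons 796 n77 .nil)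
noncomputable def n529 : Strat := .move 839 n525 (.cons 802 n527 (.cons 838 n528 .nil))
noncomputable def n530 : Strat := .move 921 n27 (.cons 962 n529 .nil)
noncomputable def n531 : Strat := .move 798 n15 (.cons 757 n530 .nil)
noncomputable def n532 : Strat := .move 800 n17 (.cons 759 n531 .nil)
noncomputable def n533 : Strat := .move 882 n512 (.cons 800 n26 (.cons 798 n524 (.cons 963 n532 (.cons 839 n222 .nil))))
noncomputable def n534 : Strat := .move 963 n18 (.cons 841 n16 .nil)
noncomputable def n535 : Strat := .move 800 n17 (.cons 759 n534 .nil)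
noncomputable def n536 : Strat := .move 798 n15 (.cons 757 n535 .nil)
noncomputable def n537 : Strat := .move 922 n508 (.cons 964 n533 (.cons 798 n65 (.cons 962 n536 (.cons 963 n83 (.cons 759 n39 .nil)))))
noncomputable def n538 : Strat := .move 922 n21 (.cons 841 n26 (.cons 798 n65 (.cons 963 n30 .nil)))
noncomputable def n539 : Strat := .move 922 n34 (.cons 800 n39 (.cons 798 n41 (.cons 963 n225 .nil)))
noncomputable def n540 : Strat := .move 922 n63 (.cons 882 n65 (.cons 759 n177 .nil))
noncomputable def n541 : Strat := .move 881 n360 (.cons 922 n464 (.cons 800 n178 (.cons 964 n484 (.cons 758 n537 (.cons 923 n538 (.cons 921 n539 (.cons 839 n540 .nil)))))))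
noncomputable def n542 : Strat := .win 880 1 716
noncomputable def n543 : Strat := .win 798 1 675
noncomputable def n544 : Strat := .win 716 7 675
noncomputable def n545 : Strat := .win 634 7 634
noncomputable def n546 : Strat := .move 675 n544 (.cons 716 n545 .nil)
noncomputable def n547 : Strat := .move 676 n543 (.cons 798 n546 .nil)
noncomputable def n548 : Strat := .move 839 n542 (.cons 880 n547 .nil)
noncomputable def n549 : Strat := .move 882 n10 (.cons 841 n9 .nil)
noncomputable def n550 : Strat := .move 881 n85 (.cons 757 n549 .nil)
noncomputable def n551 : Strat := .move 716 n86 (.cons 675 n550 .nil)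
noncomputable def n552 : Strat := .win 882 6 717
noncomputable def n553 : Strat := .win 800 6 676
noncomputable def n554 : Strat := .move 841 n552 (.cons 882 n553 .nil)
noncomputable def n555 : Strat := .move 676 n543 (.cons 798 n554 .nil)
noncomputable def n556 : Strat := .move 839 n542 (.cons 880 n555 .nil)
noncomputable def n557 : Strat := .move 717 n548 (.cons 839 n551 (.cons 716 n556 .nil))
noncomputable def n558 : Strat := .move 798 n144 (.cons 878 n147 .nil)
noncomputable def n559 : Strat := .win 797 3 756
noncomputable def n560 : Strat := .move 798 n559 (.cons 797 n145 .nil)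
noncomputable def n561 : Strat := .move 920 n146 (.cons 919 n560 .nil)
noncomputable def n562 : Strat := .move 838 n373 (.cons 837 n561 .nil)
noncomputable def n563 : Strat := .move 841 n131 (.cons 878 n143 .nil)
noncomputable def n564 : Strat := .move 879 n558 (.cons 841 n441 (.cons 878 n562 (.cons 920 n563 .nil)))
noncomputable def n565 : Strat := .move 757 n0 (.cons 716 n564 .nil)
noncomputable def n566 : Strat := .move 882 n9 (.cons 923 n565 .nil)
noncomputable def n567 : Strat := .move 880 n7 (.cons 921 n566 .nil)
noncomputable def n568 : Strat := .move 922 n42 (.cons 964 n66 .nil)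
noncomputable def n569 : Strat := .move 923 n61 (.cons 882 n568 .nil)
noncomputable def n570 : Strat := .move 881 n92 (.cons 922 n567 (.cons 798 n569 (.cons 882 n174 .nil)))
noncomputable def n571 : Strat := .win 718 3 676
noncomputable def n572 : Strat := .win 636 3 635
noncomputable def n573 : Strat := .move 677 n571 (.cons 718 n572 .nil)
noncomputable def n574 : Strat := .move 676 n553 (.cons 800 n573 .nil)
noncomputable def n575 : Strat := .move 841 n552 (.cons 882 n574 .nil)
noncomputable def n576 : Strat := .win 881 7 716
noncomputable def n577 : Strat := .win 719 4 715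
noncomputable def n578 : Strat := .win 755 5 714
noncomputable def n579 : Strat := .move 756 n577 (.cons 719 n578 .nil)
noncomputable def n580 : Strat := .move 718 n102 (.cons 677 n579 .nil)
noncomputable def n581 : Strat := .move 757 n576 (.cons 881 n580 .nil)
noncomputable def n582 : Strat := .move 716 n86 (.cons 675 n581 .nil)
noncomputable def n583 : Strat := .move 717 n551 (.cons 716 n575 (.cons 882 n582 .nil))
noncomputable def n584 : Strat := .move 676 n543 (.cons 798 n553 .nil)
noncomputable def n585 : Strat := .move 841 n552 (.cons 882 n584 .nil)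
noncomputable def n586 : Strat := .move 839 n542 (.cons 880 n585 .nil)
noncomputable def n587 : Strat := .move 716 n86 (.cons 675 n586 .nil)
noncomputable def n588 : Strat := .move 676 n553 (.cons 800 n546 .nil)
noncomputable def n589 : Strat := .move 841 n552 (.cons 882 n588 .nil)
noncomputable def n590 : Strat := .win 801 5 797
noncomputable def n591 : Strat := .move 800 n315 (.cons 837 n590 .nil)
noncomputable def n592 : Strat := .move 797 n396 (.cons 798 n397 .nil)
noncomputable def n593 : Strat := .move 842 n387 (.cons 802 n592 .nil)
noncomputable def n594 : Strat := .move 801 n403 (.cons 800 n593 .nil)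
noncomputable def n595 : Strat := .win 842 2 797
noncomputable def n596 : Strat := .win 836 5 795
noncomputable def n597 : Strat := .win 877 4 836
noncomputable def n598 : Strat := .win 879 4 837
noncomputable def n599 : Strat := .move 878 n597 (.cons 877 n598 .nil)
noncomputable def n600 : Strat := .move 837 n596 (.cons 836 n599 .nil)
noncomputable def n601 : Strat := .move 798 n595 (.cons 842 n600 .nil)
noncomputable def n602 : Strat := .move 797 n397 (.cons 796 n601 .nil)
noncomputable def n603 : Strat := .move 838 n591 (.cons 837 n594 (.cons 800 n602 .nil))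
noncomputable def n604 : Strat := .move 841 n552 (.cons 882 n603 .nil)
noncomputable def n605 : Strat := .move 839 n542 (.cons 880 n604 .nil)
noncomputable def n606 : Strat := .move 717 n587 (.cons 839 n589 (.cons 841 n548 (.cons 716 n556 (.cons 676 n605 .nil))))
noncomputable def n607 : Strat := .move 676 n543 (.cons 798 n573 .nil)
noncomputable def n608 : Strat := .move 839 n542 (.cons 880 n607 .nil)
noncomputable def n609 : Strat := .move 717 n548 (.cons 839 n582 (.cons 716 n608 .nil))
noncomputable def n610 : Strat := .move 838 n591 (.cons 800 n602 (.cons 837 n594 .nil))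
noncomputable def n611 : Strat := .move 841 n552 (.cons 882 n610 .nil)
noncomputable def n612 : Strat := .move 839 n542 (.cons 880 n611 .nil)
noncomputable def n613 : Strat := .move 717 n556 (.cons 839 n575 (.cons 882 n608 (.cons 676 n612 .nil)))
noncomputable def n614 : Strat := .move 758 n557 (.cons 717 n570 (.cons 839 n583 (.cons 757 n606 (.cons 882 n609 (.cons 716 n613 .nil)))))
noncomputable def n615 : Strat := .move 801 n50 (.cons 760 n515 .nil)
noncomputable def n616 : Strat := .move 841 n485 (.cons 963 n615 .nil)
noncomputable def n617 : Strat := .move 800 n17 (.cons 759 n616 .nil)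
noncomputable def n618 : Strat := .win 1045 3 881
noncomputable def n619 : Strat := .win 841 3 840
noncomputable def n620 : Strat := .move 1004 n618 (.cons 1045 n619 .nil)
noncomputable def n621 : Strat := .move 963 n16 (.cons 839 n620 .nil)
noncomputable def n622 : Strat := .move 798 n15 (.cons 757 n621 .nil)
noncomputable def n623 : Strat := .move 920 n490 (.cons 919 n622 .nil)
noncomputable def n624 : Strat := .move 921 n27 (.cons 962 n623 .nil)
noncomputable def n625 : Strat := .move 800 n17 (.cons 759 n527 .nil)
noncomputable def n626 : Strat := .move 839 n314 (.cons 963 n625 .nil)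
noncomputable def n627 : Strat := .move 798 n15 (.cons 757 n626 .nil)
noncomputable def n628 : Strat := .move 921 n27 (.cons 962 n627 .nil)
noncomputable def n629 : Strat := .move 882 n617 (.cons 800 n624 (.cons 963 n506 (.cons 841 n628 (.cons 839 n488 .nil))))
noncomputable def n630 : Strat := .move 923 n42 (.cons 964 n629 .nil)
noncomputable def n631 : Strat := .move 798 n15 (.cons 757 n534 .nil)
noncomputable def n632 : Strat := .move 800 n17 (.cons 759 n631 .nil)
noncomputable def n633 : Strat := .move 839 n52 (.cons 802 n51 .nil)
noncomputable def n634 : Strat := .win 843 0 798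
noncomputable def n635 : Strat := .win 841 0 797
noncomputable def n636 : Strat := .win 754 2 754
noncomputable def n637 : Strat := .win 756 2 755
noncomputable def n638 : Strat := .move 755 n636 (.cons 754 n637 .nil)
noncomputable def n639 : Strat := .win 836 4 795
noncomputable def n640 : Strat := .win 838 4 796
noncomputable def n641 : Strat := .move 837 n639 (.cons 836 n640 .nil)
noncomputable def n642 : Strat := .move 796 n638 (.cons 756 n641 .nil)
noncomputable def n643 : Strat := .move 797 n635 (.cons 841 n642 .nil)
noncomputable def n644 : Strat := .move 842 n634 (.cons 843 n643 .nil)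
noncomputable def n645 : Strat := .win 842 0 798
noncomputable def n646 : Strat := .win 844 0 799
noncomputable def n647 : Strat := .move 843 n645 (.cons 842 n646 .nil)
noncomputable def n648 : Strat := .move 802 n514 (.cons 839 n647 .nil)
noncomputable def n649 : Strat := .move 801 n633 (.cons 839 n644 (.cons 838 n648 .nil))
noncomputable def n650 : Strat := .move 798 n15 (.cons 757 n649 .nil)
noncomputable def n651 : Strat := .move 800 n17 (.cons 759 n650 .nil)
noncomputable def n652 : Strat := .move 922 n630 (.cons 800 n39 (.cons 798 n41 (.cons 964 n632 (.cons 963 n651 .nil))))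
noncomputable def n653 : Strat := .win 922 3 758
noncomputable def n654 : Strat := .win 802 2 757
noncomputable def n655 : Strat := .move 801 n654 (.cons 802 n417 .nil)
noncomputable def n656 : Strat := .move 800 n653 (.cons 922 n655 .nil)
noncomputable def n657 : Strat := .move 759 n2 (.cons 718 n656 .nil)
noncomputable def n658 : Strat := .move 757 n0 (.cons 716 n657 .nil)
noncomputable def n659 : Strat := .move 758 n658 (.cons 800 n107 (.cons 757 n359 .nil))
noncomputable def n660 : Strat := .win 800 1 799
noncomputable def n661 : Strat := .win 1004 3 840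
noncomputable def n662 : Strat := .move 841 n660 (.cons 800 n661 .nil)
noncomputable def n663 : Strat := .move 963 n662 (.cons 800 n24 .nil)
noncomputable def n664 : Strat := .move 882 n43 (.cons 758 n663 .nil)
noncomputable def n665 : Strat := .move 923 n42 (.cons 964 n664 .nil)
noncomputable def n666 : Strat := .move 922 n39 (.cons 923 n26 (.cons 963 n225 (.cons 757 n665 .nil)))
noncomputable def n667 : Strat := .move 1004 n619 (.cons 841 n618 .nil)
noncomputable def n668 : Strat := .move 882 n43 (.cons 758 n667 .nil)
noncomputable def n669 : Strat := .move 963 n23 (.cons 1003 n668 .nil)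
noncomputable def n670 : Strat := .move 962 n22 (.cons 921 n669 .nil)
noncomputable def n671 : Strat := .move 923 n42 (.cons 964 n670 .nil)
noncomputable def n672 : Strat := .move 922 n41 (.cons 923 n65 (.cons 759 n665 (.cons 841 n339 (.cons 963 n63 (.cons 800 n671 .nil)))))
noncomputable def n673 : Strat := .move 758 n2 (.cons 718 n94 .nil)
noncomputable def n674 : Strat := .move 759 n3 (.cons 800 n673 .nil)
noncomputable def n675 : Strat := .move 882 n222 (.cons 798 n65 (.cons 841 n26 (.cons 963 n674 .nil)))
noncomputable def n676 : Strat := .move 841 n45 (.cons 796 n44 .nil)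
noncomputable def n677 : Strat := .win 841 0 796
noncomputable def n678 : Strat := .move 796 n677 (.cons 841 n638 .nil)
noncomputable def n679 : Strat := .move 796 n639 (.cons 836 n638 .nil)
noncomputable def n680 : Strat := .move 837 n640 (.cons 838 n679 .nil)
noncomputable def n681 : Strat := .move 801 n634 (.cons 843 n53 .nil)
noncomputable def n682 : Strat := .move 842 n635 (.cons 841 n681 .nil)
noncomputable def n683 : Strat := .move 797 n676 (.cons 842 n678 (.cons 841 n680 (.cons 796 n682 .nil)))
noncomputable def n684 : Strat := .move 798 n15 (.cons 757 n683 .nil)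
noncomputable def n685 : Strat := .move 800 n17 (.cons 759 n684 .nil)
noncomputable def n686 : Strat := .move 921 n27 (.cons 962 n685 .nil)
noncomputable def n687 : Strat := .move 922 n675 (.cons 759 n26 (.cons 757 n65 (.cons 962 n632 (.cons 963 n686 .nil))))
noncomputable def n688 : Strat := .move 923 n42 (.cons 964 n632 .nil)
noncomputable def n689 : Strat := .win 839 4 797
noncomputable def n690 : Strat := .move 843 n646 (.cons 844 n645 .nil)
noncomputable def n691 : Strat := .win 762 5 758
noncomputable def n692 : Strat := .win 760 5 757
noncomputable def n693 : Strat := .move 761 n691 (.cons 762 n692 .nil)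
noncomputable def n694 : Strat := .move 802 n690 (.cons 842 n693 .nil)
noncomputable def n695 : Strat := .move 801 n689 (.cons 839 n694 .nil)
noncomputable def n696 : Strat := .move 838 n72 (.cons 837 n695 .nil)
noncomputable def n697 : Strat := .move 837 n640 (.cons 838 n639 .nil)
noncomputable def n698 : Strat := .move 796 n677 (.cons 841 n697 .nil)
noncomputable def n699 : Strat := .move 797 n676 (.cons 841 n696 (.cons 842 n698 .nil))
noncomputable def n700 : Strat := .move 800 n17 (.cons 759 n699 .nil)
noncomputable def n701 : Strat := .move 798 n15 (.cons 757 n700 .nil)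
noncomputable def n702 : Strat := .move 922 n688 (.cons 798 n65 (.cons 800 n26 (.cons 963 n701 .nil)))
noncomputable def n703 : Strat := .move 756 n109 (.cons 755 n108 .nil)
noncomputable def n704 : Strat := .win 719 3 718
noncomputable def n705 : Strat := .move 798 n114 (.cons 761 n115 .nil)
noncomputable def n706 : Strat := .move 760 n704 (.cons 719 n705 .nil)
noncomputable def n707 : Strat := .move 841 n240 (.cons 717 n706 .nil)
noncomputable def n708 : Strat := .move 800 n655 (.cons 802 n703 (.cons 801 n707 .nil))
noncomputable def n709 : Strat := .move 882 n9 (.cons 923 n708 .nil)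
noncomputable def n710 : Strat := .move 759 n2 (.cons 718 n709 .nil)
noncomputable def n711 : Strat := .move 757 n0 (.cons 716 n710 .nil)
noncomputable def n712 : Strat := .move 797 n248 (.cons 798 n112 .nil)
noncomputable def n713 : Strat := .move 882 n419 (.cons 841 n9 .nil)
noncomputable def n714 : Strat := .move 719 n420 (.cons 720 n713 .nil)
noncomputable def n715 : Strat := .move 760 n712 (.cons 796 n705 (.cons 798 n714 .nil))
noncomputable def n716 : Strat := .move 756 n109 (.cons 755 n715 .nil)
noncomputable def n717 : Strat := .win 762 4 758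
noncomputable def n718 : Strat := .win 798 4 757
noncomputable def n719 : Strat := .move 761 n717 (.cons 762 n718 .nil)
noncomputable def n720 : Strat := .win 841 1 677
noncomputable def n721 : Strat := .win 637 1 636
noncomputable def n722 : Strat := .move 678 n720 (.cons 841 n721 .nil)
noncomputable def n723 : Strat := .move 719 n420 (.cons 720 n722 .nil)
noncomputable def n724 : Strat := .move 760 n705 (.cons 797 n719 (.cons 761 n723 .nil))
noncomputable def n725 : Strat := .move 801 n654 (.cons 802 n724 .nil)
noncomputable def n726 : Strat := .move 800 n655 (.cons 802 n703 (.cons 801 n716 (.cons 756 n725 .nil)))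
noncomputable def n727 : Strat := .move 759 n2 (.cons 718 n726 .nil)
noncomputable def n728 : Strat := .move 757 n0 (.cons 716 n727 .nil)
noncomputable def n729 : Strat := .move 760 n115 (.cons 797 n114 .nil)
noncomputable def n730 : Strat := .move 797 n111 (.cons 760 n45 .nil)
noncomputable def n731 : Strat := .win 800 3 718
noncomputable def n732 : Strat := .move 719 n420 (.cons 720 n731 .nil)
noncomputable def n733 : Strat := .move 760 n114 (.cons 761 n732 .nil)
noncomputable def n734 : Strat := .win 800 0 797
noncomputable def n735 : Strat := .move 842 n734 (.cons 800 n47 .nil)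
noncomputable def n736 : Strat := .move 797 n45 (.cons 796 n735 .nil)
noncomputable def n737 : Strat := .move 798 n729 (.cons 761 n730 (.cons 797 n733 (.cons 760 n736 .nil)))
noncomputable def n738 : Strat := .move 757 n0 (.cons 716 n737 .nil)
noncomputable def n739 : Strat := .move 759 n2 (.cons 718 n738 .nil)
noncomputable def n740 : Strat := .move 882 n240 (.cons 717 n739 .nil)
noncomputable def n741 : Strat := .move 717 n552 (.cons 882 n103 .nil)
noncomputable def n742 : Strat := .move 717 n552 (.cons 882 n87 .nil)
noncomputable def n743 : Strat := .move 801 n417 (.cons 756 n654 .nil)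
noncomputable def n744 : Strat := .move 756 n112 (.cons 796 n109 .nil)
noncomputable def n745 : Strat := .win 756 4 755
noncomputable def n746 : Strat := .move 796 n745 (.cons 756 n375 .nil)
noncomputable def n747 : Strat := .move 798 n44 (.cons 842 n111 .nil)
noncomputable def n748 : Strat := .move 797 n744 (.cons 755 n746 (.cons 796 n747 .nil))
noncomputable def n749 : Strat := .move 719 n518 (.cons 678 n420 .nil)
noncomputable def n750 : Strat := .move 760 n414 (.cons 761 n749 .nil)
noncomputable def n751 : Strat := .move 801 n654 (.cons 802 n750 .nil)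
noncomputable def n752 : Strat := .move 800 n743 (.cons 802 n703 (.cons 801 n748 (.cons 756 n751 .nil)))
noncomputable def n753 : Strat := .move 757 n0 (.cons 716 n752 .nil)
noncomputable def n754 : Strat := .move 759 n2 (.cons 718 n753 .nil)
noncomputable def n755 : Strat := .move 841 n740 (.cons 720 n741 (.cons 759 n742 (.cons 882 n754 .nil)))
noncomputable def n756 : Strat := .move 758 n711 (.cons 759 n107 (.cons 757 n156 (.cons 717 n728 (.cons 923 n755 (.cons 841 n142 .nil)))))
noncomputable def n757 : Strat := .move 881 n60 (.cons 758 n652 (.cons 800 n157 (.cons 798 n659 (.cons 759 n666 (.cons 757 n672 (.cons 923 n687 (.cons 841 n313 (.cons 882 n702 (.cons 922 n756 .nil)))))))))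
noncomputable def n758 : Strat := .move 756 n110 (.cons 755 n306 .nil)
noncomputable def n759 : Strat := .move 797 n136 (.cons 796 n758 .nil)
noncomputable def n760 : Strat := .win 676 1 675
noncomputable def n761 : Strat := .move 717 n760 (.cons 676 n542 .nil)
noncomputable def n762 : Strat := .move 800 n51 (.cons 838 n417 .nil)
noncomputable def n763 : Strat := .move 839 n761 (.cons 880 n762 .nil)
noncomputable def n764 : Strat := .move 801 n416 (.cons 802 n763 .nil)
noncomputable def n765 : Strat := .move 760 n114 (.cons 761 n764 .nil)
noncomputable def n766 : Strat := .move 798 n137 (.cons 760 n759 (.cons 796 n729 (.cons 797 n765 .nil)))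
noncomputable def n767 : Strat := .move 759 n2 (.cons 718 n766 .nil)
noncomputable def n768 : Strat := .move 757 n0 (.cons 716 n767 .nil)
noncomputable def n769 : Strat := .win 800 0 756
noncomputable def n770 : Strat := .move 801 n416 (.cons 802 n769 .nil)
noncomputable def n771 : Strat := .move 755 n290 (.cons 754 n258 .nil)
noncomputable def n772 : Strat := .move 756 n110 (.cons 755 n770 (.cons 801 n771 (.cons 800 n119 .nil)))
noncomputable def n773 : Strat := .move 760 n114 (.cons 761 n772 .nil)
noncomputable def n774 : Strat := .move 756 n110 (.cons 755 n119 .nil)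
noncomputable def n775 : Strat := .move 797 n136 (.cons 796 n774 .nil)
noncomputable def n776 : Strat := .move 798 n137 (.cons 797 n773 (.cons 760 n775 .nil))
noncomputable def n777 : Strat := .move 880 n7 (.cons 921 n776 .nil)
noncomputable def n778 : Strat := .move 759 n2 (.cons 718 n777 .nil)
noncomputable def n779 : Strat := .move 757 n0 (.cons 716 n778 .nil)
noncomputable def n780 : Strat := .move 758 n105 (.cons 759 n89 (.cons 921 n768 (.cons 717 n779 (.cons 839 n265 .nil))))
noncomputable def n781 : Strat := .move 923 n42 (.cons 964 n320 .nil)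
noncomputable def n782 : Strat := .move 880 n332 (.cons 758 n781 .nil)
noncomputable def n783 : Strat := .move 921 n27 (.cons 962 n782 .nil)
noncomputable def n784 : Strat := .move 922 n65 (.cons 1003 n41 (.cons 841 n783 .nil))
noncomputable def n785 : Strat := .move 922 n26 (.cons 921 n39 (.cons 798 n783 .nil))
noncomputable def n786 : Strat := .move 922 n536 (.cons 759 n39 (.cons 839 n41 (.cons 963 n701 .nil)))
noncomputable def n787 : Strat := .move 881 n31 (.cons 922 n780 (.cons 800 n175 (.cons 880 n702 (.cons 757 n784 (.cons 759 n785 (.cons 921 n786 .nil))))))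
noncomputable def n788 : Strat := .move 717 n86 (.cons 675 n161 .nil)
noncomputable def n789 : Strat := .move 716 n85 (.cons 757 n788 .nil)
noncomputable def n790 : Strat := .move 716 n85 (.cons 757 n271 .nil)
noncomputable def n791 : Strat := .move 758 n789 (.cons 675 n790 (.cons 880 n92 (.cons 757 n13 .nil)))
noncomputable def n792 : Strat := .move 963 n23 (.cons 1003 n19 .nil)
noncomputable def n793 : Strat := .move 962 n22 (.cons 921 n792 .nil)
noncomputable def n794 : Strat := .move 923 n42 (.cons 964 n793 .nil)
noncomputable def n795 : Strat := .move 923 n46 (.cons 796 n49 (.cons 842 n615 .nil))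
noncomputable def n796 : Strat := .move 798 n15 (.cons 757 n795 .nil)
noncomputable def n797 : Strat := .move 841 n218 (.cons 963 n796 .nil)
noncomputable def n798 : Strat := .move 800 n17 (.cons 759 n797 .nil)
noncomputable def n799 : Strat := .move 882 n798 (.cons 800 n26 (.cons 798 n524 (.cons 963 n532 (.cons 839 n222 .nil))))
noncomputable def n800 : Strat := .move 922 n39 (.cons 963 n83 (.cons 839 n794 (.cons 964 n799 (.cons 923 n21 .nil))))
noncomputable def n801 : Strat := .win 839 7 839
noncomputable def n802 : Strat := .win 1045 7 880
noncomputable def n803 : Strat := .move 1004 n801 (.cons 839 n802 .nil)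
noncomputable def n804 : Strat := .move 963 n18 (.cons 841 n803 .nil)
noncomputable def n805 : Strat := .move 800 n17 (.cons 759 n804 .nil)
noncomputable def n806 : Strat := .move 880 n332 (.cons 758 n805 .nil)
noncomputable def n807 : Strat := .move 921 n27 (.cons 962 n806 .nil)
noncomputable def n808 : Strat := .move 882 n43 (.cons 758 n615 .nil)
noncomputable def n809 : Strat := .move 841 n218 (.cons 963 n808 .nil)
noncomputable def n810 : Strat := .move 800 n17 (.cons 759 n809 .nil)
noncomputable def n811 : Strat := .move 923 n42 (.cons 964 n810 .nil)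
noncomputable def n812 : Strat := .move 922 n177 (.cons 923 n807 (.cons 921 n811 (.cons 758 n65 .nil)))
noncomputable def n813 : Strat := .move 922 n39 (.cons 1005 n536 (.cons 757 n41 (.cons 963 n225 .nil)))
noncomputable def n814 : Strat := .move 921 n27 (.cons 962 n222 .nil)
noncomputable def n815 : Strat := .win 756 7 756
noncomputable def n816 : Strat := .move 797 n815 (.cons 756 n70 .nil)
noncomputable def n817 : Strat := .move 839 n74 (.cons 838 n816 .nil)
noncomputable def n818 : Strat := .move 880 n332 (.cons 758 n817 .nil)
noncomputable def n819 : Strat := .move 921 n27 (.cons 962 n818 .nil)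
noncomputable def n820 : Strat := .move 800 n17 (.cons 759 n819 .nil)
noncomputable def n821 : Strat := .move 798 n15 (.cons 757 n820 .nil)
noncomputable def n822 : Strat := .move 922 n21 (.cons 798 n807 (.cons 759 n26 (.cons 839 n814 (.cons 963 n821 .nil))))
noncomputable def n823 : Strat := .move 922 n177 (.cons 964 n96 (.cons 962 n225 (.cons 758 n794 .nil)))
noncomputable def n824 : Strat := .move 922 n99 (.cons 882 n26 (.cons 921 n39 .nil))
noncomputable def n825 : Strat := .move 758 n7 (.cons 921 n12 .nil)
noncomputable def n826 : Strat := .move 882 n526 (.cons 837 n9 .nil)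
noncomputable def n827 : Strat := .win 800 5 796
noncomputable def n828 : Strat := .move 837 n827 (.cons 800 n399 .nil)
noncomputable def n829 : Strat := .win 800 4 797
noncomputable def n830 : Strat := .move 801 n829 (.cons 800 n387 .nil)
noncomputable def n831 : Strat := .move 838 n400 (.cons 836 n826 (.cons 882 n828 (.cons 837 n830 .nil)))
noncomputable def n832 : Strat := .move 758 n128 (.cons 717 n831 .nil)
noncomputable def n833 : Strat := .move 798 n386 (.cons 797 n832 .nil)
noncomputable def n834 : Strat := .move 800 n388 (.cons 756 n51 .nil)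
noncomputable def n835 : Strat := .move 801 n387 (.cons 802 n834 .nil)
noncomputable def n836 : Strat := .move 757 n389 (.cons 716 n835 .nil)
noncomputable def n837 : Strat := .move 798 n386 (.cons 797 n836 .nil)
noncomputable def n838 : Strat := .move 801 n403 (.cons 800 n387 .nil)
noncomputable def n839 : Strat := .move 838 n526 (.cons 837 n838 .nil)
noncomputable def n840 : Strat := .move 882 n9 (.cons 923 n839 .nil)
noncomputable def n841 : Strat := .move 758 n128 (.cons 717 n840 .nil)
noncomputable def n842 : Strat := .move 758 n128 (.cons 717 n402 .nil)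
noncomputable def n843 : Strat := .move 839 n833 (.cons 923 n837 (.cons 798 n841 (.cons 838 n410 (.cons 800 n842 .nil))))
noncomputable def n844 : Strat := .move 842 n266 (.cons 843 n843 .nil)
noncomputable def n845 : Strat := .move 882 n143 (.cons 842 n445 .nil)
noncomputable def n846 : Strat := .move 879 n131 (.cons 878 n845 .nil)
noncomputable def n847 : Strat := .move 758 n9 (.cons 923 n240 .nil)
noncomputable def n848 : Strat := .move 758 n240 (.cons 717 n0 .nil)
noncomputable def n849 : Strat := .move 757 n848 (.cons 716 n560 .nil)
noncomputable def n850 : Strat := .move 920 n146 (.cons 919 n849 .nil)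
noncomputable def n851 : Strat := .move 838 n373 (.cons 837 n850 .nil)
noncomputable def n852 : Strat := .move 882 n445 (.cons 758 n372 (.cons 964 n847 (.cons 923 n851 .nil)))
noncomputable def n853 : Strat := .move 879 n131 (.cons 878 n852 .nil)
noncomputable def n854 : Strat := .move 841 n366 (.cons 879 n844 (.cons 843 n846 (.cons 842 n853 .nil)))
noncomputable def n855 : Strat := .move 758 n7 (.cons 921 n270 .nil)
noncomputable def n856 : Strat := .move 758 n7 (.cons 921 n88 .nil)
noncomputable def n857 : Strat := .win 882 2 837
noncomputable def n858 : Strat := .move 839 n597 (.cons 877 n827 .nil)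
noncomputable def n859 : Strat := .move 838 n857 (.cons 882 n858 .nil)
noncomputable def n860 : Strat := .move 837 n436 (.cons 836 n859 .nil)
noncomputable def n861 : Strat := .win 839 5 836
noncomputable def n862 : Strat := .win 919 4 877
noncomputable def n863 : Strat := .win 917 4 876
noncomputable def n864 : Strat := .move 918 n862 (.cons 919 n863 .nil)
noncomputable def n865 : Strat := .move 877 n861 (.cons 839 n864 .nil)
noncomputable def n866 : Strat := .win 960 3 796
noncomputable def n867 : Strat := .win 756 1 755
noncomputable def n868 : Strat := .move 797 n866 (.cons 960 n867 .nil)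
noncomputable def n869 : Strat := .move 919 n437 (.cons 918 n868 .nil)
noncomputable def n870 : Strat := .move 838 n857 (.cons 882 n869 .nil)
noncomputable def n871 : Strat := .move 837 n436 (.cons 836 n870 .nil)
noncomputable def n872 : Strat := .move 878 n860 (.cons 837 n865 (.cons 877 n871 .nil))
noncomputable def n873 : Strat := .move 842 n266 (.cons 843 n367 .nil)
noncomputable def n874 : Strat := .move 841 n131 (.cons 878 n873 .nil)
noncomputable def n875 : Strat := .move 837 n398 (.cons 882 n827 .nil)
noncomputable def n876 : Strat := .win 921 6 756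
noncomputable def n877 : Strat := .win 715 6 715
noncomputable def n878 : Strat := .move 756 n876 (.cons 921 n877 .nil)
noncomputable def n879 : Strat := .move 797 n397 (.cons 796 n878 .nil)
noncomputable def n880 : Strat := .move 838 n400 (.cons 836 n875 (.cons 837 n879 .nil))
noncomputable def n881 : Strat := .move 841 n130 (.cons 842 n880 .nil)
noncomputable def n882 : Strat := .move 838 n875 (.cons 837 n879 .nil)
noncomputable def n883 : Strat := .move 841 n130 (.cons 842 n882 .nil)
noncomputable def n884 : Strat := .win 962 3 798
noncomputable def n885 : Strat := .move 797 n378 (.cons 756 n397 .nil)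
noncomputable def n886 : Strat := .move 921 n884 (.cons 962 n885 .nil)
noncomputable def n887 : Strat := .move 838 n400 (.cons 836 n875 (.cons 837 n886 .nil))
noncomputable def n888 : Strat := .move 841 n130 (.cons 842 n887 .nil)
noncomputable def n889 : Strat := .move 837 n399 (.cons 836 n827 .nil)
noncomputable def n890 : Strat := .win 716 1 715
noncomputable def n891 : Strat := .move 757 n890 (.cons 716 n129 .nil)
noncomputable def n892 : Strat := .win 797 6 756
noncomputable def n893 : Strat := .move 757 n289 (.cons 715 n890 .nil)
noncomputable def n894 : Strat := .move 756 n892 (.cons 797 n893 .nil)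
noncomputable def n895 : Strat := .win 961 1 797
noncomputable def n896 : Strat := .win 757 1 756
noncomputable def n897 : Strat := .move 920 n895 (.cons 961 n896 .nil)
noncomputable def n898 : Strat := .move 920 n895 (.cons 961 n184 .nil)
noncomputable def n899 : Strat := .move 798 n891 (.cons 920 n894 (.cons 716 n897 (.cons 757 n898 .nil)))
noncomputable def n900 : Strat := .move 921 n884 (.cons 962 n899 .nil)
noncomputable def n901 : Strat := .move 838 n400 (.cons 882 n889 (.cons 836 n875 (.cons 837 n900 .nil)))
noncomputable def n902 : Strat := .move 757 n389 (.cons 716 n129 .nil)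
noncomputable def n903 : Strat := .move 797 n815 (.cons 756 n45 .nil)
noncomputable def n904 : Strat := .move 798 n902 (.cons 920 n903 .nil)
noncomputable def n905 : Strat := .move 921 n884 (.cons 962 n904 .nil)
noncomputable def n906 : Strat := .move 841 n130 (.cons 842 n905 .nil)
noncomputable def n907 : Strat := .win 798 3 797
noncomputable def n908 : Strat := .win 1002 3 838
noncomputable def n909 : Strat := .move 961 n907 (.cons 798 n908 .nil)
noncomputable def n910 : Strat := .win 961 3 797
noncomputable def n911 : Strat := .move 798 n910 (.cons 961 n896 .nil)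
noncomputable def n912 : Strat := .win 960 1 796
noncomputable def n913 : Strat := .move 919 n912 (.cons 960 n183 .nil)
noncomputable def n914 : Strat := .move 920 n909 (.cons 1002 n911 (.cons 798 n913 .nil))
noncomputable def n915 : Strat := .move 797 n397 (.cons 796 n914 .nil)
noncomputable def n916 : Strat := .move 838 n400 (.cons 836 n875 (.cons 837 n915 (.cons 882 n889 .nil)))
noncomputable def n917 : Strat := .move 841 n130 (.cons 842 n916 .nil)
noncomputable def n918 : Strat := .win 798 1 797
noncomputable def n919 : Strat := .move 961 n918 (.cons 798 n908 .nil)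
noncomputable def n920 : Strat := .move 798 n895 (.cons 961 n896 .nil)
noncomputable def n921 : Strat := .move 920 n919 (.cons 1002 n920 (.cons 798 n184 .nil))
noncomputable def n922 : Strat := .move 921 n884 (.cons 962 n921 .nil)
noncomputable def n923 : Strat := .move 838 n400 (.cons 836 n875 (.cons 837 n922 (.cons 882 n889 .nil)))
noncomputable def n924 : Strat := .move 841 n130 (.cons 842 n923 .nil)
noncomputable def n925 : Strat := .move 839 n881 (.cons 836 n883 (.cons 715 n888 (.cons 841 n901 (.cons 838 n906 (.cons 921 n917 (.cons 797 n924 .nil))))))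
noncomputable def n926 : Strat := .move 879 n433 (.cons 841 n872 (.cons 839 n874 (.cons 878 n925 .nil)))
noncomputable def n927 : Strat := .move 880 n825 (.cons 921 n854 (.cons 839 n855 (.cons 923 n856 (.cons 717 n431 (.cons 758 n926 .nil)))))
noncomputable def n928 : Strat := .move 881 n791 (.cons 758 n800 (.cons 798 n812 (.cons 880 n813 (.cons 923 n822 (.cons 839 n823 (.cons 841 n824 (.cons 922 n927 .nil)))))))
noncomputable def n929 : Strat := .move 922 n17 (.cons 759 n64 .nil)
noncomputable def n930 : Strat := .win 758 3 717
noncomputable def n931 : Strat := .win 677 1 676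
noncomputable def n932 : Strat := .move 718 n930 (.cons 758 n931 .nil)
noncomputable def n933 : Strat := .move 759 n653 (.cons 922 n932 .nil)
noncomputable def n934 : Strat := .win 719 1 718
noncomputable def n935 : Strat := .win 761 5 757
noncomputable def n936 : Strat := .move 760 n934 (.cons 719 n935 .nil)
noncomputable def n937 : Strat := .move 801 n515 (.cons 839 n936 .nil)
noncomputable def n938 : Strat := .move 921 n27 (.cons 962 n332 .nil)
noncomputable def n939 : Strat := .move 880 n267 (.cons 879 n938 .nil)
noncomputable def n940 : Strat := .move 882 n937 (.cons 801 n939 .nil)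
noncomputable def n941 : Strat := .move 842 n47 (.cons 843 n940 .nil)
noncomputable def n942 : Strat := .move 798 n15 (.cons 757 n941 .nil)
noncomputable def n943 : Strat := .win 882 3 759
noncomputable def n944 : Strat := .move 760 n935 (.cons 761 n943 .nil)
noncomputable def n945 : Strat := .move 801 n515 (.cons 839 n944 .nil)
noncomputable def n946 : Strat := .move 842 n47 (.cons 843 n945 .nil)
noncomputable def n947 : Strat := .move 798 n15 (.cons 757 n946 .nil)
noncomputable def n948 : Strat := .move 923 n42 (.cons 964 n947 .nil)
noncomputable def n949 : Strat := .move 923 n42 (.cons 964 n808 .nil)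
noncomputable def n950 : Strat := .move 880 n385 (.cons 879 n938 .nil)
noncomputable def n951 : Strat := .move 839 n352 (.cons 837 n525 (.cons 801 n950 .nil))
noncomputable def n952 : Strat := .move 842 n47 (.cons 843 n951 .nil)
noncomputable def n953 : Strat := .move 798 n15 (.cons 757 n952 .nil)
noncomputable def n954 : Strat := .move 841 n225 (.cons 923 n942 (.cons 758 n948 (.cons 757 n949 (.cons 882 n953 .nil))))
noncomputable def n955 : Strat := .move 922 n64 (.cons 963 n954 (.cons 921 n33 (.cons 841 n318 .nil)))
noncomputable def n956 : Strat := .move 757 n0 (.cons 716 n655 .nil)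
noncomputable def n957 : Strat := .move 759 n2 (.cons 718 n956 .nil)
noncomputable def n958 : Strat := .win 798 2 756
noncomputable def n959 : Strat := .move 756 n109 (.cons 755 n958 .nil)
noncomputable def n960 : Strat := .move 801 n654 (.cons 802 n959 .nil)
noncomputable def n961 : Strat := .move 757 n0 (.cons 716 n960 .nil)
noncomputable def n962 : Strat := .move 759 n2 (.cons 718 n107 .nil)
noncomputable def n963 : Strat := .move 882 n9 (.cons 923 n162 .nil)
noncomputable def n964 : Strat := .move 759 n2 (.cons 718 n963 .nil)
noncomputable def n965 : Strat := .move 758 n957 (.cons 759 n961 (.cons 756 n962 (.cons 757 n964 .nil)))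
noncomputable def n966 : Strat := .move 800 n929 (.cons 963 n933 (.cons 759 n955 (.cons 922 n965 .nil)))
noncomputable def n967 : Strat := .move 923 n42 (.cons 964 n617 .nil)
noncomputable def n968 : Strat := .win 841 1 799
noncomputable def n969 : Strat := .move 800 n968 (.cons 841 n24 .nil)
noncomputable def n970 : Strat := .move 963 n969 (.cons 841 n24 (.cons 962 n662 .nil))
noncomputable def n971 : Strat := .move 923 n42 (.cons 964 n970 .nil)
noncomputable def n972 : Strat := .win 926 2 881
noncomputable def n973 : Strat := .win 880 2 880
noncomputable def n974 : Strat := .move 925 n972 (.cons 926 n973 .nil)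
noncomputable def n975 : Strat := .win 841 6 800
noncomputable def n976 : Strat := .move 965 n231 (.cons 966 n975 .nil)
noncomputable def n977 : Strat := .move 924 n500 (.cons 879 n974 (.cons 925 n976 .nil))
noncomputable def n978 : Strat := .move 920 n490 (.cons 919 n977 .nil)
noncomputable def n979 : Strat := .move 921 n27 (.cons 962 n978 .nil)
noncomputable def n980 : Strat := .move 800 n17 (.cons 759 n979 .nil)
noncomputable def n981 : Strat := .move 923 n42 (.cons 964 n980 .nil)
noncomputable def n982 : Strat := .move 882 n967 (.cons 923 n34 (.cons 759 n971 (.cons 841 n497 (.cons 963 n981 .nil))))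
noncomputable def n983 : Strat := .move 879 n180 (.cons 924 n179 .nil)
noncomputable def n984 : Strat := .move 924 n228 (.cons 925 n227 .nil)
noncomputable def n985 : Strat := .move 880 n983 (.cons 878 n984 (.cons 924 n325 .nil))
noncomputable def n986 : Strat := .move 798 n15 (.cons 757 n985 .nil)
noncomputable def n987 : Strat := .move 800 n17 (.cons 759 n986 .nil)
noncomputable def n988 : Strat := .move 923 n42 (.cons 964 n987 .nil)
noncomputable def n989 : Strat := .move 921 n27 (.cons 962 n988 .nil)
noncomputable def n990 : Strat := .move 922 n982 (.cons 963 n989 (.cons 798 n65 (.cons 962 n34 (.cons 759 n39 .nil))))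
noncomputable def n991 : Strat := .move 757 n0 (.cons 716 n135 .nil)
noncomputable def n992 : Strat := .move 880 n8 (.cons 839 n103 .nil)
noncomputable def n993 : Strat := .move 839 n542 (.cons 880 n760 .nil)
noncomputable def n994 : Strat := .move 717 n992 (.cons 839 n103 (.cons 718 n993 .nil))
noncomputable def n995 : Strat := .move 757 n0 (.cons 716 n994 .nil)
noncomputable def n996 : Strat := .move 719 n731 (.cons 800 n420 .nil)
noncomputable def n997 : Strat := .move 841 n240 (.cons 717 n996 .nil)
noncomputable def n998 : Strat := .move 882 n9 (.cons 923 n997 .nil)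
noncomputable def n999 : Strat := .move 760 n114 (.cons 761 n998 .nil)
noncomputable def n1000 : Strat := .move 759 n2 (.cons 718 n999 .nil)
noncomputable def n1001 : Strat := .move 757 n0 (.cons 716 n1000 .nil)
noncomputable def n1002 : Strat := .move 715 n118 (.cons 714 n117 .nil)
noncomputable def n1003 : Strat := .move 756 n291 (.cons 754 n110 (.cons 800 n1002 .nil))
noncomputable def n1004 : Strat := .move 760 n114 (.cons 761 n1003 .nil)
noncomputable def n1005 : Strat := .move 759 n2 (.cons 718 n1004 .nil)
noncomputable def n1006 : Strat := .move 880 n7 (.cons 921 n1005 .nil)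
noncomputable def n1007 : Strat := .move 757 n0 (.cons 716 n1006 .nil)
noncomputable def n1008 : Strat := .move 798 n991 (.cons 757 n13 (.cons 921 n995 (.cons 839 n1001 (.cons 717 n1007 .nil))))
noncomputable def n1009 : Strat := .move 760 n421 (.cons 720 n719 .nil)
noncomputable def n1010 : Strat := .move 800 n415 (.cons 755 n655 (.cons 801 n1009 .nil))
noncomputable def n1011 : Strat := .move 882 n9 (.cons 923 n1010 .nil)
noncomputable def n1012 : Strat := .move 880 n7 (.cons 921 n1011 .nil)
noncomputable def n1013 : Strat := .move 757 n0 (.cons 716 n1012 .nil)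
noncomputable def n1014 : Strat := .move 759 n2 (.cons 718 n1013 .nil)
noncomputable def n1015 : Strat := .move 758 n1008 (.cons 717 n1014 (.cons 882 n105 (.cons 718 n13 (.cons 921 n107 .nil))))
noncomputable def n1016 : Strat := .move 798 n38 (.cons 1005 n25 (.cons 839 n63 .nil))
noncomputable def n1017 : Strat := .move 922 n1016 (.cons 964 n65 (.cons 800 n177 (.cons 921 n41 .nil)))
noncomputable def n1018 : Strat := .move 882 n106 (.cons 675 n155 (.cons 841 n174 .nil))
noncomputable def n1019 : Strat := .move 758 n1018 (.cons 716 n105 (.cons 880 n483 (.cons 759 n89 .nil)))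
noncomputable def n1020 : Strat := .move 758 n658 (.cons 759 n13 .nil)
noncomputable def n1021 : Strat := .move 921 n27 (.cons 962 n333 .nil)
noncomputable def n1022 : Strat := .move 923 n42 (.cons 964 n1021 .nil)
noncomputable def n1023 : Strat := .move 922 n1022 (.cons 921 n34 .nil)
noncomputable def n1024 : Strat := .move 800 n64 (.cons 963 n954 (.cons 921 n33 (.cons 841 n318 .nil)))
noncomputable def n1025 : Strat := .win 839 6 798
noncomputable def n1026 : Strat := .win 800 3 799
noncomputable def n1027 : Strat := .win 882 3 840
noncomputable def n1028 : Strat := .move 1004 n1027 (.cons 882 n802 .nil)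
noncomputable def n1029 : Strat := .move 841 n1026 (.cons 800 n1028 .nil)
noncomputable def n1030 : Strat := .move 963 n1025 (.cons 839 n1029 .nil)
noncomputable def n1031 : Strat := .move 798 n15 (.cons 757 n1030 .nil)
noncomputable def n1032 : Strat := .move 880 n332 (.cons 758 n1031 .nil)
noncomputable def n1033 : Strat := .move 921 n27 (.cons 962 n1032 .nil)
noncomputable def n1034 : Strat := .move 922 n1024 (.cons 798 n68 (.cons 758 n39 (.cons 923 n1033 .nil)))
noncomputable def n1035 : Strat := .win 798 6 757
noncomputable def n1036 : Strat := .move 922 n1035 (.cons 798 n90 .nil)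
noncomputable def n1037 : Strat := .move 757 n0 (.cons 716 n1036 .nil)
noncomputable def n1038 : Strat := .move 759 n653 (.cons 922 n2 .nil)
noncomputable def n1039 : Strat := .move 800 n71 (.cons 801 n1038 .nil)
noncomputable def n1040 : Strat := .win 878 4 837
noncomputable def n1041 : Strat := .move 841 n130 (.cons 842 n1040 .nil)
noncomputable def n1042 : Strat := .move 920 n910 (.cons 961 n146 .nil)
noncomputable def n1043 : Strat := .move 879 n1041 (.cons 878 n1042 .nil)
noncomputable def n1044 : Strat := .move 798 n1039 (.cons 800 n1043 .nil)
noncomputable def n1045 : Strat := .move 838 n526 (.cons 837 n1044 .nil)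
noncomputable def n1046 : Strat := .move 882 n9 (.cons 923 n1045 .nil)
noncomputable def n1047 : Strat := .win 798 1 756
noncomputable def n1048 : Strat := .move 920 n146 (.cons 919 n1047 .nil)
noncomputable def n1049 : Strat := .move 879 n1041 (.cons 878 n1048 .nil)
noncomputable def n1050 : Strat := .move 838 n526 (.cons 837 n1049 .nil)
noncomputable def n1051 : Strat := .move 882 n9 (.cons 923 n1050 .nil)
noncomputable def n1052 : Strat := .move 757 n0 (.cons 716 n1051 .nil)
noncomputable def n1053 : Strat := .win 922 6 757
noncomputable def n1054 : Strat := .move 798 n1053 (.cons 922 n133 .nil)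
noncomputable def n1055 : Strat := .move 757 n0 (.cons 716 n1054 .nil)
noncomputable def n1056 : Strat := .move 842 n385 (.cons 879 n266 .nil)
noncomputable def n1057 : Strat := .move 879 n130 (.cons 842 n1040 .nil)
noncomputable def n1058 : Strat := .win 922 1 758
noncomputable def n1059 : Strat := .win 718 1 717
noncomputable def n1060 : Strat := .move 759 n1058 (.cons 922 n1059 .nil)
noncomputable def n1061 : Strat := .move 800 n590 (.cons 801 n1060 .nil)
noncomputable def n1062 : Strat := .move 841 n1056 (.cons 843 n1057 (.cons 879 n1061 .nil))
noncomputable def n1063 : Strat := .move 838 n526 (.cons 837 n1062 .nil)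
noncomputable def n1064 : Strat := .move 882 n9 (.cons 923 n1063 .nil)
noncomputable def n1065 : Strat := .move 839 n1037 (.cons 757 n1046 (.cons 922 n1052 (.cons 923 n1055 (.cons 798 n1064 .nil))))
noncomputable def n1066 : Strat := .move 880 n104 (.cons 717 n1065 (.cons 759 n12 (.cons 839 n270 .nil)))
noncomputable def n1067 : Strat := .win 635 6 635
noncomputable def n1068 : Strat := .move 676 n543 (.cons 798 n1067 .nil)
noncomputable def n1069 : Strat := .move 839 n542 (.cons 880 n1068 .nil)
noncomputable def n1070 : Strat := .move 717 n10 (.cons 841 n1069 .nil)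
noncomputable def n1071 : Strat := .move 882 n9 (.cons 923 n1070 .nil)
noncomputable def n1072 : Strat := .move 800 n653 (.cons 922 n1071 .nil)
noncomputable def n1073 : Strat := .move 759 n2 (.cons 718 n1072 .nil)
noncomputable def n1074 : Strat := .move 758 n1066 (.cons 882 n6 (.cons 922 n107 (.cons 757 n1073 .nil)))
noncomputable def n1075 : Strat := .move 757 n0 (.cons 716 n481 .nil)
noncomputable def n1076 : Strat := .move 759 n2 (.cons 718 n1075 .nil)
noncomputable def n1077 : Strat := .move 758 n359 (.cons 964 n1076 (.cons 759 n92 (.cons 922 n107 .nil)))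
noncomputable def n1078 : Strat := .move 922 n96 (.cons 716 n99 (.cons 921 n225 (.cons 758 n39 .nil)))
noncomputable def n1079 : Strat := .move 881 n966 (.cons 758 n990 (.cons 922 n1015 (.cons 757 n1017 (.cons 923 n1019 (.cons 798 n1020 (.cons 882 n1023 (.cons 759 n1034 (.cons 921 n1074 (.cons 839 n1077 (.cons 841 n1078 .nil))))))))))
noncomputable def n1080 : Strat := .move 716 n86 (.cons 675 n85 .nil)
noncomputable def n1081 : Strat := .move 881 n9 (.cons 923 n1080 .nil)
noncomputable def n1082 : Strat := .move 717 n10 (.cons 841 n1081 .nil)
noncomputable def n1083 : Strat := .move 760 n704 (.cons 719 n719 .nil)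
noncomputable def n1084 : Strat := .move 800 n1058 (.cons 922 n1083 .nil)
noncomputable def n1085 : Strat := .move 759 n2 (.cons 718 n1084 .nil)
noncomputable def n1086 : Strat := .move 757 n0 (.cons 716 n415 .nil)
noncomputable def n1087 : Strat := .move 800 n1058 (.cons 922 n1086 .nil)
noncomputable def n1088 : Strat := .move 759 n2 (.cons 718 n1087 .nil)
noncomputable def n1089 : Strat := .move 797 n734 (.cons 800 n45 .nil)
noncomputable def n1090 : Strat := .move 842 n47 (.cons 843 n1089 .nil)
noncomputable def n1091 : Strat := .move 798 n158 (.cons 922 n1090 .nil)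
noncomputable def n1092 : Strat := .move 757 n0 (.cons 716 n1091 .nil)
noncomputable def n1093 : Strat := .move 760 n704 (.cons 719 n414 .nil)
noncomputable def n1094 : Strat := .move 800 n415 (.cons 755 n655 (.cons 801 n1093 .nil))
noncomputable def n1095 : Strat := .move 757 n0 (.cons 716 n1094 .nil)
noncomputable def n1096 : Strat := .move 759 n2 (.cons 718 n1095 .nil)
noncomputable def n1097 : Strat := .win 839 2 797
noncomputable def n1098 : Strat := .move 842 n1097 (.cons 839 n47 .nil)
noncomputable def n1099 : Strat := .move 797 n45 (.cons 796 n1098 .nil)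
noncomputable def n1100 : Strat := .move 798 n158 (.cons 922 n1099 .nil)
noncomputable def n1101 : Strat := .move 757 n0 (.cons 716 n1100 .nil)
noncomputable def n1102 : Strat := .move 841 n1085 (.cons 762 n1088 (.cons 759 n1092 (.cons 922 n1096 (.cons 800 n1101 .nil))))
noncomputable def n1103 : Strat := .move 881 n9 (.cons 923 n1102 .nil)
noncomputable def n1104 : Strat := .move 881 n1085 (.cons 762 n1088 (.cons 759 n1092 (.cons 922 n1096 (.cons 800 n1101 .nil))))
noncomputable def n1105 : Strat := .move 841 n240 (.cons 717 n1104 .nil)
noncomputable def n1106 : Strat := .win 881 6 758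
noncomputable def n1107 : Strat := .win 800 7 758
noncomputable def n1108 : Strat := .move 923 n1106 (.cons 881 n1107 .nil)
noncomputable def n1109 : Strat := .move 841 n240 (.cons 717 n1108 .nil)
noncomputable def n1110 : Strat := .win 760 0 715
noncomputable def n1111 : Strat := .win 714 0 714
noncomputable def n1112 : Strat := .move 759 n1110 (.cons 760 n1111 .nil)
noncomputable def n1113 : Strat := .win 757 7 674
noncomputable def n1114 : Strat := .win 673 2 673
noncomputable def n1115 : Strat := .move 674 n1113 (.cons 757 n1114 .nil)
noncomputable def n1116 : Strat := .move 715 n1112 (.cons 714 n1115 .nil)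
noncomputable def n1117 : Strat := .move 798 n760 (.cons 676 n1116 .nil)
noncomputable def n1118 : Strat := .move 839 n542 (.cons 880 n1117 .nil)
noncomputable def n1119 : Strat := .move 718 n102 (.cons 677 n1118 .nil)
noncomputable def n1120 : Strat := .move 716 n86 (.cons 675 n1119 .nil)
noncomputable def n1121 : Strat := .move 717 n10 (.cons 841 n1120 .nil)
noncomputable def n1122 : Strat := .move 798 n158 (.cons 922 n137 .nil)
noncomputable def n1123 : Strat := .move 759 n2 (.cons 718 n1122 .nil)
noncomputable def n1124 : Strat := .move 757 n0 (.cons 716 n1123 .nil)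
noncomputable def n1125 : Strat := .move 881 n9 (.cons 923 n1124 .nil)
noncomputable def n1126 : Strat := .move 882 n1082 (.cons 717 n1103 (.cons 923 n1105 (.cons 716 n1109 (.cons 881 n1121 (.cons 841 n1125 .nil)))))
noncomputable def n1127 : Strat := .win 881 3 717
noncomputable def n1128 : Strat := .win 761 2 716
noncomputable def n1129 : Strat := .win 715 0 715
noncomputable def n1130 : Strat := .move 760 n1128 (.cons 761 n1129 .nil)
noncomputable def n1131 : Strat := .move 759 n1127 (.cons 881 n1130 .nil)
noncomputable def n1132 : Strat := .move 718 n102 (.cons 677 n1131 .nil)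
noncomputable def n1133 : Strat := .move 716 n86 (.cons 675 n1132 .nil)
noncomputable def n1134 : Strat := .move 839 n542 (.cons 880 n543 .nil)
noncomputable def n1135 : Strat := .move 676 n553 (.cons 800 n1134 .nil)
noncomputable def n1136 : Strat := .move 841 n552 (.cons 882 n1135 .nil)
noncomputable def n1137 : Strat := .move 717 n1133 (.cons 761 n575 (.cons 718 n1136 .nil))
noncomputable def n1138 : Strat := .move 717 n10 (.cons 841 n1080 .nil)
noncomputable def n1139 : Strat := .move 882 n9 (.cons 923 n1138 .nil)
noncomputable def n1140 : Strat := .move 841 n240 (.cons 717 n1085 .nil)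
noncomputable def n1141 : Strat := .move 882 n9 (.cons 923 n1140 .nil)
noncomputable def n1142 : Strat := .move 881 n160 (.cons 922 n1139 (.cons 757 n1141 .nil))
noncomputable def n1143 : Strat := .move 881 n101 (.cons 759 n85 .nil)
noncomputable def n1144 : Strat := .move 716 n86 (.cons 675 n1143 .nil)
noncomputable def n1145 : Strat := .move 718 n102 (.cons 677 n1144 .nil)
noncomputable def n1146 : Strat := .move 717 n1145 (.cons 759 n589 (.cons 716 n1136 .nil))
noncomputable def n1147 : Strat := .move 882 n10 (.cons 841 n1120 .nil)
noncomputable def n1148 : Strat := .win 720 4 716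
noncomputable def n1149 : Strat := .win 756 4 715
noncomputable def n1150 : Strat := .move 719 n1148 (.cons 720 n1149 .nil)
noncomputable def n1151 : Strat := .win 674 7 674
noncomputable def n1152 : Strat := .move 715 n1151 (.cons 674 n1112 .nil)
noncomputable def n1153 : Strat := .move 757 n1150 (.cons 756 n1152 .nil)
noncomputable def n1154 : Strat := .move 798 n760 (.cons 676 n1153 .nil)
noncomputable def n1155 : Strat := .move 839 n542 (.cons 880 n1154 .nil)
noncomputable def n1156 : Strat := .move 718 n102 (.cons 677 n1155 .nil)
noncomputable def n1157 : Strat := .move 716 n86 (.cons 675 n1156 .nil)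
noncomputable def n1158 : Strat := .win 755 4 714
noncomputable def n1159 : Strat := .move 756 n577 (.cons 719 n1158 .nil)
noncomputable def n1160 : Strat := .win 798 7 674
noncomputable def n1161 : Strat := .move 674 n1160 (.cons 798 n1114 .nil)
noncomputable def n1162 : Strat := .move 757 n1159 (.cons 755 n1150 (.cons 719 n1161 .nil))
noncomputable def n1163 : Strat := .move 715 n1112 (.cons 714 n1162 .nil)
noncomputable def n1164 : Strat := .move 839 n542 (.cons 880 n1163 .nil)
noncomputable def n1165 : Strat := .move 841 n552 (.cons 882 n1164 .nil)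
noncomputable def n1166 : Strat := .move 718 n102 (.cons 677 n1165 .nil)
noncomputable def n1167 : Strat := .move 716 n86 (.cons 675 n1166 .nil)
noncomputable def n1168 : Strat := .move 717 n1147 (.cons 841 n1157 (.cons 839 n589 (.cons 716 n1136 (.cons 676 n1167 .nil))))
noncomputable def n1169 : Strat := .move 757 n576 (.cons 881 n579 .nil)
noncomputable def n1170 : Strat := .move 718 n102 (.cons 677 n1169 .nil)
noncomputable def n1171 : Strat := .move 716 n86 (.cons 675 n1170 .nil)
noncomputable def n1172 : Strat := .win 841 6 676
noncomputable def n1173 : Strat := .move 800 n1172 (.cons 841 n1067 .nil)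
noncomputable def n1174 : Strat := .win 594 6 594
noncomputable def n1175 : Strat := .win 800 6 635
noncomputable def n1176 : Strat := .move 635 n1174 (.cons 594 n1175 .nil)
noncomputable def n1177 : Strat := .move 676 n1173 (.cons 841 n1176 (.cons 800 n1134 .nil))
noncomputable def n1178 : Strat := .move 759 n1127 (.cons 881 n1177 .nil)
noncomputable def n1179 : Strat := .move 718 n102 (.cons 677 n1178 .nil)
noncomputable def n1180 : Strat := .win 713 0 713
noncomputable def n1181 : Strat := .win 759 0 714
noncomputable def n1182 : Strat := .move 714 n1180 (.cons 713 n1181 .nil)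
noncomputable def n1183 : Strat := .move 715 n1151 (.cons 674 n1182 .nil)
noncomputable def n1184 : Strat := .move 718 n1150 (.cons 756 n1183 .nil)
noncomputable def n1185 : Strat := .move 798 n760 (.cons 676 n1184 .nil)
noncomputable def n1186 : Strat := .move 839 n542 (.cons 880 n1185 .nil)
noncomputable def n1187 : Strat := .move 757 n576 (.cons 881 n1186 .nil)
noncomputable def n1188 : Strat := .move 716 n86 (.cons 675 n1187 .nil)
noncomputable def n1189 : Strat := .win 879 1 715
noncomputable def n1190 : Strat := .move 800 n71 (.cons 801 n315 .nil)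
noncomputable def n1191 : Strat := .move 838 n1189 (.cons 879 n1190 .nil)
noncomputable def n1192 : Strat := .move 798 n760 (.cons 676 n1191 .nil)
noncomputable def n1193 : Strat := .move 839 n542 (.cons 880 n1192 .nil)
noncomputable def n1194 : Strat := .move 757 n576 (.cons 881 n1193 .nil)
noncomputable def n1195 : Strat := .move 716 n86 (.cons 675 n1194 .nil)
noncomputable def n1196 : Strat := .move 717 n1171 (.cons 716 n1179 (.cons 677 n1188 (.cons 718 n1195 (.cons 881 n608 .nil))))
noncomputable def n1197 : Strat := .win 676 6 676
noncomputable def n1198 : Strat := .win 678 3 677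
noncomputable def n1199 : Strat := .win 721 4 717
noncomputable def n1200 : Strat := .win 757 4 716
noncomputable def n1201 : Strat := .move 720 n1199 (.cons 721 n1200 .nil)
noncomputable def n1202 : Strat := .move 719 n1198 (.cons 678 n1201 .nil)
noncomputable def n1203 : Strat := .move 800 n1197 (.cons 676 n1202 .nil)
noncomputable def n1204 : Strat := .move 841 n552 (.cons 882 n1203 .nil)
noncomputable def n1205 : Strat := .move 759 n1127 (.cons 881 n1204 .nil)
noncomputable def n1206 : Strat := .move 718 n102 (.cons 677 n1205 .nil)
noncomputable def n1207 : Strat := .move 839 n542 (.cons 880 n584 .nil)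
noncomputable def n1208 : Strat := .move 841 n552 (.cons 882 n1207 .nil)
noncomputable def n1209 : Strat := .move 881 n101 (.cons 759 n549 .nil)
noncomputable def n1210 : Strat := .move 718 n102 (.cons 677 n1209 .nil)
noncomputable def n1211 : Strat := .win 716 2 716
noncomputable def n1212 : Strat := .win 762 2 717
noncomputable def n1213 : Strat := .move 761 n1211 (.cons 716 n1212 .nil)
noncomputable def n1214 : Strat := .move 716 n1129 (.cons 715 n1128 .nil)
noncomputable def n1215 : Strat := .move 761 n1212 (.cons 762 n718 .nil)
noncomputable def n1216 : Strat := .win 756 5 715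
noncomputable def n1217 : Strat := .move 719 n1148 (.cons 720 n1216 .nil)
noncomputable def n1218 : Strat := .win 719 5 715
noncomputable def n1219 : Strat := .move 756 n578 (.cons 755 n1218 .nil)
noncomputable def n1220 : Strat := .win 716 0 715
noncomputable def n1221 : Strat := .move 756 n118 (.cons 714 n578 .nil)
noncomputable def n1222 : Strat := .move 715 n1220 (.cons 716 n1221 .nil)
noncomputable def n1223 : Strat := .move 839 n760 (.cons 676 n542 .nil)
noncomputable def n1224 : Strat := .move 798 n115 (.cons 797 n1223 .nil)
noncomputable def n1225 : Strat := .move 716 n1129 (.cons 715 n1224 .nil)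
noncomputable def n1226 : Strat := .move 757 n1217 (.cons 720 n1219 (.cons 719 n1222 (.cons 756 n1225 .nil)))
noncomputable def n1227 : Strat := .move 760 n1213 (.cons 762 n1214 (.cons 716 n1215 (.cons 761 n1226 .nil)))
noncomputable def n1228 : Strat := .move 759 n1127 (.cons 881 n1227 .nil)
noncomputable def n1229 : Strat := .move 718 n102 (.cons 677 n1228 .nil)
noncomputable def n1230 : Strat := .move 717 n1206 (.cons 759 n1208 (.cons 800 n1210 (.cons 841 n1229 .nil)))
noncomputable def n1231 : Strat := .move 760 n1129 (.cons 715 n1128 .nil)
noncomputable def n1232 : Strat := .move 759 n1127 (.cons 881 n1231 .nil)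
noncomputable def n1233 : Strat := .move 716 n86 (.cons 675 n1232 .nil)
noncomputable def n1234 : Strat := .move 718 n102 (.cons 677 n1233 .nil)
noncomputable def n1235 : Strat := .move 838 n590 (.cons 801 n315 .nil)
noncomputable def n1236 : Strat := .move 839 n542 (.cons 880 n1235 .nil)
noncomputable def n1237 : Strat := .move 800 n1197 (.cons 676 n1236 .nil)
noncomputable def n1238 : Strat := .move 841 n552 (.cons 882 n1237 .nil)
noncomputable def n1239 : Strat := .move 716 n86 (.cons 675 n1238 .nil)
noncomputable def n1240 : Strat := .move 718 n102 (.cons 677 n1239 .nil)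
noncomputable def n1241 : Strat := .win 881 1 717
noncomputable def n1242 : Strat := .move 759 n1241 (.cons 881 n1202 .nil)
noncomputable def n1243 : Strat := .move 800 n1197 (.cons 676 n1242 .nil)
noncomputable def n1244 : Strat := .move 841 n552 (.cons 882 n1243 .nil)
noncomputable def n1245 : Strat := .move 718 n102 (.cons 677 n1244 .nil)
noncomputable def n1246 : Strat := .move 717 n1234 (.cons 761 n1145 (.cons 677 n551 (.cons 881 n1240 (.cons 716 n1245 .nil))))
noncomputable def n1247 : Strat := .move 676 n543 (.cons 798 n1176 .nil)
noncomputable def n1248 : Strat := .move 839 n542 (.cons 880 n1247 .nil)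
noncomputable def n1249 : Strat := .move 759 n1127 (.cons 881 n1248 .nil)
noncomputable def n1250 : Strat := .move 718 n102 (.cons 677 n1249 .nil)
noncomputable def n1251 : Strat := .win 838 5 797
noncomputable def n1252 : Strat := .move 801 n1251 (.cons 838 n52 .nil)
noncomputable def n1253 : Strat := .move 800 n1235 (.cons 837 n1252 (.cons 801 n1202 .nil))
noncomputable def n1254 : Strat := .move 839 n542 (.cons 880 n1253 .nil)
noncomputable def n1255 : Strat := .move 841 n552 (.cons 882 n1254 .nil)
noncomputable def n1256 : Strat := .move 759 n1127 (.cons 881 n1255 .nil)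
noncomputable def n1257 : Strat := .move 718 n102 (.cons 677 n1256 .nil)
noncomputable def n1258 : Strat := .move 841 n595 (.cons 842 n552 .nil)
noncomputable def n1259 : Strat := .move 797 n136 (.cons 796 n1258 .nil)
noncomputable def n1260 : Strat := .move 798 n760 (.cons 676 n1259 .nil)
noncomputable def n1261 : Strat := .move 839 n542 (.cons 880 n1260 .nil)
noncomputable def n1262 : Strat := .move 759 n1127 (.cons 881 n1261 .nil)
noncomputable def n1263 : Strat := .move 718 n102 (.cons 677 n1262 .nil)
noncomputable def n1264 : Strat := .move 717 n1136 (.cons 882 n1179 (.cons 880 n575 (.cons 841 n1250 (.cons 676 n1257 (.cons 800 n1263 .nil)))))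
noncomputable def n1265 : Strat := .move 717 n589 (.cons 675 n1208 (.cons 676 n582 .nil))
noncomputable def n1266 : Strat := .win 634 6 634
noncomputable def n1267 : Strat := .win 798 6 675
noncomputable def n1268 : Strat := .move 675 n1266 (.cons 634 n1267 .nil)
noncomputable def n1269 : Strat := .move 716 n576 (.cons 881 n1268 .nil)
noncomputable def n1270 : Strat := .win 759 0 756
noncomputable def n1271 : Strat := .move 756 n109 (.cons 755 n1270 .nil)
noncomputable def n1272 : Strat := .move 801 n654 (.cons 802 n1271 .nil)
noncomputable def n1273 : Strat := .move 718 n931 (.cons 677 n1218 .nil)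
noncomputable def n1274 : Strat := .move 759 n108 (.cons 801 n1273 .nil)
noncomputable def n1275 : Strat := .move 756 n109 (.cons 755 n1274 .nil)
noncomputable def n1276 : Strat := .win 759 4 756
noncomputable def n1277 : Strat := .move 797 n1276 (.cons 759 n70 .nil)
noncomputable def n1278 : Strat := .move 760 n935 (.cons 761 n1277 .nil)
noncomputable def n1279 : Strat := .move 798 n388 (.cons 756 n1278 .nil)
noncomputable def n1280 : Strat := .move 801 n654 (.cons 802 n1279 .nil)
noncomputable def n1281 : Strat := .win 675 6 675
noncomputable def n1282 : Strat := .win 879 3 715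
noncomputable def n1283 : Strat := .move 838 n72 (.cons 837 n1282 .nil)
noncomputable def n1284 : Strat := .move 716 n1281 (.cons 675 n1283 .nil)
noncomputable def n1285 : Strat := .move 798 n111 (.cons 760 n1284 .nil)
noncomputable def n1286 : Strat := .move 797 n112 (.cons 796 n1285 .nil)
noncomputable def n1287 : Strat := .move 759 n1273 (.cons 718 n1286 .nil)
noncomputable def n1288 : Strat := .move 756 n109 (.cons 755 n1287 .nil)
noncomputable def n1289 : Strat := .move 760 n1276 (.cons 759 n70 .nil)
noncomputable def n1290 : Strat := .win 795 5 754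
noncomputable def n1291 : Strat := .move 796 n677 (.cons 841 n1290 .nil)
noncomputable def n1292 : Strat := .move 838 n689 (.cons 839 n72 .nil)
noncomputable def n1293 : Strat := .move 797 n1289 (.cons 760 n1291 (.cons 796 n1292 .nil))
noncomputable def n1294 : Strat := .win 759 2 715
noncomputable def n1295 : Strat := .move 760 n1294 (.cons 759 n935 .nil)
noncomputable def n1296 : Strat := .move 715 n1151 (.cons 674 n1295 .nil)
noncomputable def n1297 : Strat := .move 716 n1281 (.cons 675 n1296 .nil)
noncomputable def n1298 : Strat := .move 839 n51 (.cons 838 n1297 .nil)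
noncomputable def n1299 : Strat := .move 797 n72 (.cons 837 n70 .nil)
noncomputable def n1300 : Strat := .move 838 n689 (.cons 839 n1299 .nil)
noncomputable def n1301 : Strat := .move 798 n1278 (.cons 761 n1293 (.cons 797 n1298 (.cons 759 n1300 .nil)))
noncomputable def n1302 : Strat := .move 801 n654 (.cons 802 n1301 .nil)
noncomputable def n1303 : Strat := .move 798 n388 (.cons 756 n1300 .nil)
noncomputable def n1304 : Strat := .move 801 n654 (.cons 802 n1303 .nil)
noncomputable def n1305 : Strat := .move 800 n1272 (.cons 802 n1275 (.cons 755 n1280 (.cons 801 n1288 (.cons 756 n1302 (.cons 759 n1304 .nil)))))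
noncomputable def n1306 : Strat := .move 881 n0 (.cons 716 n657 .nil)
noncomputable def n1307 : Strat := .move 718 n1127 (.cons 881 n931 .nil)
noncomputable def n1308 : Strat := .move 759 n108 (.cons 801 n1307 .nil)
noncomputable def n1309 : Strat := .move 756 n109 (.cons 755 n1308 .nil)
noncomputable def n1310 : Strat := .move 881 n2 (.cons 718 n653 .nil)
noncomputable def n1311 : Strat := .move 756 n109 (.cons 755 n1273 .nil)
noncomputable def n1312 : Strat := .move 756 n109 (.cons 755 n308 .nil)
noncomputable def n1313 : Strat := .move 759 n1310 (.cons 881 n1311 (.cons 718 n1312 .nil))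
noncomputable def n1314 : Strat := .move 842 n635 (.cons 841 n634 .nil)
noncomputable def n1315 : Strat := .move 797 n136 (.cons 796 n1314 .nil)
noncomputable def n1316 : Strat := .move 881 n653 (.cons 922 n1315 .nil)
noncomputable def n1317 : Strat := .move 760 n114 (.cons 761 n723 .nil)
noncomputable def n1318 : Strat := .move 798 n116 (.cons 761 n137 (.cons 760 n1316 (.cons 797 n1317 .nil)))
noncomputable def n1319 : Strat := .move 798 n116 (.cons 761 n137 (.cons 760 n1315 (.cons 797 n1317 .nil)))
noncomputable def n1320 : Strat := .move 759 n1307 (.cons 677 n1310 (.cons 718 n1318 (.cons 881 n1319 .nil)))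
noncomputable def n1321 : Strat := .move 801 n654 (.cons 802 n1320 .nil)
noncomputable def n1322 : Strat := .move 800 n1272 (.cons 759 n1304 (.cons 802 n1309 (.cons 801 n1313 (.cons 756 n1321 .nil))))
noncomputable def n1323 : Strat := .move 757 n1269 (.cons 881 n1305 (.cons 798 n1306 (.cons 716 n1322 .nil)))
noncomputable def n1324 : Strat := .move 797 n595 (.cons 842 n45 .nil)
noncomputable def n1325 : Strat := .move 841 n552 (.cons 882 n1324 .nil)
noncomputable def n1326 : Strat := .move 798 n760 (.cons 676 n1325 .nil)
noncomputable def n1327 : Strat := .move 839 n542 (.cons 880 n1326 .nil)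
noncomputable def n1328 : Strat := .move 718 n102 (.cons 677 n1327 .nil)
noncomputable def n1329 : Strat := .move 716 n86 (.cons 675 n1328 .nil)
noncomputable def n1330 : Strat := .move 798 n760 (.cons 676 n1183 .nil)
noncomputable def n1331 : Strat := .move 839 n542 (.cons 880 n1330 .nil)
noncomputable def n1332 : Strat := .move 757 n576 (.cons 881 n1331 .nil)
noncomputable def n1333 : Strat := .move 716 n86 (.cons 675 n1332 .nil)
noncomputable def n1334 : Strat := .move 717 n1171 (.cons 716 n1263 (.cons 881 n1329 (.cons 677 n1333 .nil)))
noncomputable def n1335 : Strat := .move 717 n582 (.cons 716 n1250 (.cons 881 n1157 (.cons 718 n1333 .nil)))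
noncomputable def n1336 : Strat := .win 839 1 675
noncomputable def n1337 : Strat := .win 635 1 634
noncomputable def n1338 : Strat := .move 798 n1336 (.cons 839 n1337 .nil)
noncomputable def n1339 : Strat := .move 676 n1338 (.cons 798 n554 .nil)
noncomputable def n1340 : Strat := .move 757 n576 (.cons 881 n1339 .nil)
noncomputable def n1341 : Strat := .move 716 n86 (.cons 675 n1340 .nil)
noncomputable def n1342 : Strat := .move 842 n47 (.cons 843 n386 .nil)
noncomputable def n1343 : Strat := .move 798 n1324 (.cons 796 n1342 (.cons 842 n1191 .nil))
noncomputable def n1344 : Strat := .move 841 n552 (.cons 882 n1343 .nil)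
noncomputable def n1345 : Strat := .move 839 n542 (.cons 880 n1344 .nil)
noncomputable def n1346 : Strat := .move 757 n576 (.cons 881 n1345 .nil)
noncomputable def n1347 : Strat := .move 716 n86 (.cons 675 n1346 .nil)
noncomputable def n1348 : Strat := .win 594 1 593
noncomputable def n1349 : Strat := .win 798 1 634
noncomputable def n1350 : Strat := .move 635 n1348 (.cons 594 n1349 .nil)
noncomputable def n1351 : Strat := .move 676 n553 (.cons 800 n1350 .nil)
noncomputable def n1352 : Strat := .move 841 n552 (.cons 882 n1351 .nil)
noncomputable def n1353 : Strat := .move 757 n576 (.cons 881 n1352 .nil)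
noncomputable def n1354 : Strat := .move 716 n86 (.cons 675 n1353 .nil)
noncomputable def n1355 : Strat := .move 801 n52 (.cons 802 n1251 .nil)
noncomputable def n1356 : Strat := .move 839 n542 (.cons 880 n1355 .nil)
noncomputable def n1357 : Strat := .move 800 n1197 (.cons 676 n1356 .nil)
noncomputable def n1358 : Strat := .move 841 n552 (.cons 882 n1357 .nil)
noncomputable def n1359 : Strat := .move 716 n86 (.cons 675 n1358 .nil)
noncomputable def n1360 : Strat := .move 717 n1136 (.cons 841 n1333 (.cons 880 n1341 (.cons 676 n1347 (.cons 839 n1354 (.cons 798 n1359 .nil)))))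
noncomputable def n1361 : Strat := .move 758 n1126 (.cons 757 n1137 (.cons 677 n1142 (.cons 760 n1146 (.cons 881 n1168 (.cons 882 n1196 (.cons 675 n1230 (.cons 798 n1246 (.cons 716 n1264 (.cons 759 n1265 (.cons 717 n1323 (.cons 800 n1334 (.cons 841 n1335 (.cons 718 n1360 .nil)))))))))))))
noncomputable def n1362 : Strat := .move 880 n7 (.cons 921 n268 .nil)
noncomputable def n1363 : Strat := .move 841 n1088 (.cons 757 n1362 .nil)
noncomputable def n1364 : Strat := .move 882 n106 (.cons 717 n1363 (.cons 757 n155 (.cons 841 n483 .nil)))
noncomputable def n1365 : Strat := .move 882 n106 (.cons 716 n166 (.cons 717 n174 .nil))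
noncomputable def n1366 : Strat := .move 882 n10 (.cons 841 n161 .nil)
noncomputable def n1367 : Strat := .move 841 n552 (.cons 882 n1197 .nil)
noncomputable def n1368 : Strat := .move 717 n1366 (.cons 841 n161 (.cons 880 n1367 .nil))
noncomputable def n1369 : Strat := .move 800 n653 (.cons 922 n1368 .nil)
noncomputable def n1370 : Strat := .move 759 n2 (.cons 718 n1369 .nil)
noncomputable def n1371 : Strat := .move 758 n1364 (.cons 759 n1365 (.cons 757 n1370 (.cons 717 n483 (.cons 922 n105 .nil))))
noncomputable def n1372 : Strat := .move 800 n17 (.cons 759 n71 .nil)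
noncomputable def n1373 : Strat := .move 838 n526 (.cons 837 n1372 .nil)
noncomputable def n1374 : Strat := .move 839 n314 (.cons 963 n1373 .nil)
noncomputable def n1375 : Strat := .move 798 n15 (.cons 757 n1374 .nil)
noncomputable def n1376 : Strat := .move 882 n34 (.cons 841 n1375 (.cons 800 n26 (.cons 798 n65 (.cons 963 n532 .nil))))
noncomputable def n1377 : Strat := .move 842 n634 (.cons 843 n635 .nil)
noncomputable def n1378 : Strat := .move 801 n689 (.cons 839 n1377 .nil)
noncomputable def n1379 : Strat := .move 838 n72 (.cons 837 n1378 .nil)
noncomputable def n1380 : Strat := .win 880 6 715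
noncomputable def n1381 : Strat := .win 674 6 674
noncomputable def n1382 : Strat := .move 715 n1380 (.cons 880 n1381 .nil)
noncomputable def n1383 : Strat := .move 756 n76 (.cons 755 n1382 .nil)
noncomputable def n1384 : Strat := .move 839 n71 (.cons 801 n1383 .nil)
noncomputable def n1385 : Strat := .move 838 n72 (.cons 837 n1384 .nil)
noncomputable def n1386 : Strat := .move 797 n676 (.cons 796 n1379 (.cons 841 n1385 .nil))
noncomputable def n1387 : Strat := .move 800 n17 (.cons 759 n1386 .nil)
noncomputable def n1388 : Strat := .move 798 n15 (.cons 757 n1387 .nil)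
noncomputable def n1389 : Strat := .move 922 n1376 (.cons 798 n65 (.cons 800 n26 (.cons 962 n536 (.cons 963 n1388 .nil))))
noncomputable def n1390 : Strat := .move 798 n137 (.cons 796 n729 (.cons 797 n773 (.cons 760 n775 .nil)))
noncomputable def n1391 : Strat := .move 880 n7 (.cons 921 n1390 .nil)
noncomputable def n1392 : Strat := .move 759 n2 (.cons 718 n1391 .nil)
noncomputable def n1393 : Strat := .move 757 n0 (.cons 716 n1392 .nil)
noncomputable def n1394 : Strat := .move 758 n105 (.cons 880 n755 (.cons 718 n89 (.cons 717 n1393 .nil)))
noncomputable def n1395 : Strat := .move 717 n1197 (.cons 676 n552 .nil)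
noncomputable def n1396 : Strat := .move 879 n364 (.cons 839 n131 .nil)
noncomputable def n1397 : Strat := .move 842 n266 (.cons 843 n1396 .nil)
noncomputable def n1398 : Strat := .move 880 n7 (.cons 921 n1397 .nil)
noncomputable def n1399 : Strat := .move 758 n1395 (.cons 717 n1398 .nil)
noncomputable def n1400 : Strat := .move 841 n218 (.cons 963 n1399 .nil)
noncomputable def n1401 : Strat := .move 800 n17 (.cons 759 n1400 .nil)
noncomputable def n1402 : Strat := .move 1005 n344 (.cons 964 n343 .nil)
noncomputable def n1403 : Strat := .move 1004 n342 (.cons 1044 n1402 .nil)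
noncomputable def n1404 : Strat := .move 1003 n341 (.cons 962 n1403 .nil)
noncomputable def n1405 : Strat := .move 963 n18 (.cons 841 n1404 .nil)
noncomputable def n1406 : Strat := .move 800 n17 (.cons 759 n1405 .nil)
noncomputable def n1407 : Strat := .move 800 n1197 (.cons 676 n218 .nil)
noncomputable def n1408 : Strat := .move 841 n552 (.cons 882 n1407 .nil)
noncomputable def n1409 : Strat := .move 717 n86 (.cons 675 n1408 .nil)
noncomputable def n1410 : Strat := .move 716 n85 (.cons 757 n1409 .nil)
noncomputable def n1411 : Strat := .move 758 n28 (.cons 880 n1410 .nil)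
noncomputable def n1412 : Strat := .move 921 n27 (.cons 962 n1411 .nil)
noncomputable def n1413 : Strat := .move 922 n65 (.cons 800 n206 (.cons 962 n1401 (.cons 921 n1406 (.cons 759 n1412 .nil))))
noncomputable def n1414 : Strat := .move 1004 n1027 (.cons 882 n1402 .nil)
noncomputable def n1415 : Strat := .move 841 n1026 (.cons 800 n1414 .nil)
noncomputable def n1416 : Strat := .move 963 n16 (.cons 839 n1415 .nil)
noncomputable def n1417 : Strat := .move 798 n15 (.cons 757 n1416 .nil)
noncomputable def n1418 : Strat := .win 798 6 798
noncomputable def n1419 : Strat := .win 1004 7 839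
noncomputable def n1420 : Strat := .move 839 n1418 (.cons 798 n1419 .nil)
noncomputable def n1421 : Strat := .move 800 n18 (.cons 841 n803 .nil)
noncomputable def n1422 : Strat := .move 1004 n802 (.cons 1045 n1027 .nil)
noncomputable def n1423 : Strat := .move 841 n1026 (.cons 800 n1422 .nil)
noncomputable def n1424 : Strat := .move 841 n1026 (.cons 800 n1056 .nil)
noncomputable def n1425 : Strat := .move 839 n1418 (.cons 798 n1424 .nil)
noncomputable def n1426 : Strat := .move 963 n1420 (.cons 798 n1421 (.cons 839 n1423 (.cons 1004 n1425 .nil)))
noncomputable def n1427 : Strat := .move 880 n332 (.cons 758 n1426 .nil)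
noncomputable def n1428 : Strat := .move 921 n27 (.cons 962 n1427 .nil)
noncomputable def n1429 : Strat := .move 922 n26 (.cons 798 n1412 (.cons 921 n1417 (.cons 757 n1428 (.cons 963 n96 .nil))))
noncomputable def n1430 : Strat := .move 922 n355 (.cons 839 n96 (.cons 757 n30 .nil))
noncomputable def n1431 : Strat := .move 963 n16 (.cons 839 n1404 .nil)
noncomputable def n1432 : Strat := .move 798 n15 (.cons 757 n1431 .nil)
noncomputable def n1433 : Strat := .move 922 n536 (.cons 798 n1406 (.cons 800 n1432 (.cons 963 n701 .nil)))
noncomputable def n1434 : Strat := .win 798 7 798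
noncomputable def n1435 : Strat := .win 880 7 839
noncomputable def n1436 : Strat := .move 1003 n341 (.cons 962 n342 .nil)
noncomputable def n1437 : Strat := .move 1004 n1435 (.cons 880 n1436 .nil)
noncomputable def n1438 : Strat := .move 839 n1434 (.cons 798 n1437 .nil)
noncomputable def n1439 : Strat := .move 963 n18 (.cons 841 n1438 .nil)
noncomputable def n1440 : Strat := .move 800 n17 (.cons 759 n1439 .nil)
noncomputable def n1441 : Strat := .move 758 n7 (.cons 921 n128 .nil)
noncomputable def n1442 : Strat := .move 880 n1419 (.cons 1004 n1441 .nil)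
noncomputable def n1443 : Strat := .move 839 n1434 (.cons 798 n1442 .nil)
noncomputable def n1444 : Strat := .move 963 n18 (.cons 841 n1443 .nil)
noncomputable def n1445 : Strat := .move 800 n17 (.cons 759 n1444 .nil)
noncomputable def n1446 : Strat := .move 1004 n1435 (.cons 880 n1402 .nil)
noncomputable def n1447 : Strat := .move 839 n1434 (.cons 798 n1446 .nil)
noncomputable def n1448 : Strat := .move 963 n23 (.cons 1003 n1447 .nil)
noncomputable def n1449 : Strat := .move 962 n22 (.cons 921 n1448 .nil)
noncomputable def n1450 : Strat := .move 922 n65 (.cons 921 n1440 (.cons 759 n1428 (.cons 962 n1445 (.cons 841 n30 (.cons 800 n1449 .nil)))))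
noncomputable def n1451 : Strat := .move 881 n1371 (.cons 758 n1389 (.cons 922 n1394 (.cons 798 n1413 (.cons 800 n172 (.cons 880 n687 (.cons 759 n1429 (.cons 839 n223 (.cons 841 n1430 (.cons 921 n1433 (.cons 757 n1450 .nil))))))))))
noncomputable def n1452 : Strat := .move 841 n552 (.cons 882 n1356 .nil)
noncomputable def n1453 : Strat := .move 880 n8 (.cons 839 n7 .nil)
noncomputable def n1454 : Strat := .move 881 n101 (.cons 759 n1453 .nil)
noncomputable def n1455 : Strat := .move 718 n102 (.cons 677 n1454 .nil)
noncomputable def n1456 : Strat := .move 718 n102 (.cons 677 n1242 .nil)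
noncomputable def n1457 : Strat := .move 841 n552 (.cons 882 n1456 .nil)
noncomputable def n1458 : Strat := .move 800 n1452 (.cons 841 n1455 (.cons 880 n1457 .nil))
noncomputable def n1459 : Strat := .move 800 n1197 (.cons 676 n1456 .nil)
noncomputable def n1460 : Strat := .move 841 n552 (.cons 882 n1459 .nil)
noncomputable def n1461 : Strat := .move 717 n1136 (.cons 882 n608 (.cons 676 n1458 (.cons 880 n1460 .nil)))
noncomputable def n1462 : Strat := .win 795 2 795
noncomputable def n1463 : Strat := .win 797 2 796
noncomputable def n1464 : Strat := .move 796 n1462 (.cons 795 n1463 .nil)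
noncomputable def n1465 : Strat := .move 837 n827 (.cons 800 n1464 .nil)
noncomputable def n1466 : Strat := .move 798 n596 (.cons 836 n595 .nil)
noncomputable def n1467 : Strat := .move 837 n599 (.cons 879 n1466 .nil)
noncomputable def n1468 : Strat := .move 797 n397 (.cons 796 n1467 .nil)
noncomputable def n1469 : Strat := .move 842 n387 (.cons 802 n396 .nil)
noncomputable def n1470 : Strat := .move 797 n397 (.cons 796 n1469 .nil)
noncomputable def n1471 : Strat := .move 801 n403 (.cons 800 n1470 .nil)
noncomputable def n1472 : Strat := .move 838 n591 (.cons 801 n1465 (.cons 800 n1468 (.cons 837 n1471 .nil)))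
noncomputable def n1473 : Strat := .move 718 n102 (.cons 677 n1472 .nil)
noncomputable def n1474 : Strat := .move 841 n552 (.cons 882 n1473 .nil)
noncomputable def n1475 : Strat := .move 839 n542 (.cons 880 n1474 .nil)
noncomputable def n1476 : Strat := .move 717 n1136 (.cons 882 n608 (.cons 839 n575 (.cons 676 n1475 .nil)))
noncomputable def n1477 : Strat := .move 797 n45 (.cons 796 n595 .nil)
noncomputable def n1478 : Strat := .move 798 n760 (.cons 676 n1477 .nil)
noncomputable def n1479 : Strat := .move 839 n542 (.cons 880 n1478 .nil)
noncomputable def n1480 : Strat := .move 841 n552 (.cons 882 n1479 .nil)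
noncomputable def n1481 : Strat := .move 717 n1480 (.cons 839 n1210 (.cons 841 n1455 .nil))
noncomputable def n1482 : Strat := .move 881 n101 (.cons 759 n569 .nil)
noncomputable def n1483 : Strat := .move 718 n102 (.cons 677 n1482 .nil)
noncomputable def n1484 : Strat := .move 635 n1175 (.cons 800 n1174 .nil)
noncomputable def n1485 : Strat := .move 635 n1349 (.cons 798 n1175 .nil)
noncomputable def n1486 : Strat := .move 635 n1349 (.cons 798 n1174 .nil)
noncomputable def n1487 : Strat := .move 798 n1336 (.cons 839 n729 .nil)
noncomputable def n1488 : Strat := .move 676 n1484 (.cons 594 n1485 (.cons 800 n1486 (.cons 635 n1487 .nil)))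
noncomputable def n1489 : Strat := .move 719 n1148 (.cons 720 n1488 .nil)
noncomputable def n1490 : Strat := .move 676 n1337 (.cons 635 n1336 .nil)
noncomputable def n1491 : Strat := .move 798 n1490 (.cons 839 n729 .nil)
noncomputable def n1492 : Strat := .move 800 n108 (.cons 801 n1491 .nil)
noncomputable def n1493 : Strat := .move 756 n578 (.cons 755 n1492 .nil)
noncomputable def n1494 : Strat := .move 757 n1219 (.cons 755 n1217 (.cons 756 n1489 (.cons 719 n1493 .nil)))
noncomputable def n1495 : Strat := .move 759 n1127 (.cons 881 n1494 .nil)
noncomputable def n1496 : Strat := .move 718 n102 (.cons 677 n1495 .nil)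
noncomputable def n1497 : Strat := .win 675 7 634
noncomputable def n1498 : Strat := .win 593 7 593
noncomputable def n1499 : Strat := .win 677 3 635
noncomputable def n1500 : Strat := .win 595 3 594
noncomputable def n1501 : Strat := .move 636 n1499 (.cons 677 n1500 .nil)
noncomputable def n1502 : Strat := .move 635 n1498 (.cons 593 n1501 .nil)
noncomputable def n1503 : Strat := .move 634 n1497 (.cons 675 n1502 .nil)
noncomputable def n1504 : Strat := .move 676 n543 (.cons 798 n1503 .nil)
noncomputable def n1505 : Strat := .move 839 n542 (.cons 880 n1504 .nil)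
noncomputable def n1506 : Strat := .move 881 n653 (.cons 922 n2 .nil)
noncomputable def n1507 : Strat := .win 760 5 756
noncomputable def n1508 : Strat := .move 797 n1507 (.cons 760 n136 .nil)
noncomputable def n1509 : Strat := .move 759 n1506 (.cons 718 n1508 .nil)
noncomputable def n1510 : Strat := .move 838 n315 (.cons 837 n1509 .nil)
noncomputable def n1511 : Strat := .move 759 n1506 (.cons 718 n137 .nil)
noncomputable def n1512 : Strat := .move 757 n388 (.cons 756 n1511 .nil)
noncomputable def n1513 : Strat := .move 801 n52 (.cons 802 n1512 .nil)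
noncomputable def n1514 : Strat := .move 800 n74 (.cons 802 n316 (.cons 801 n1510 (.cons 838 n1513 .nil)))
noncomputable def n1515 : Strat := .move 798 n760 (.cons 676 n1514 .nil)
noncomputable def n1516 : Strat := .move 839 n542 (.cons 880 n1515 .nil)
noncomputable def n1517 : Strat := .move 717 n1455 (.cons 839 n1483 (.cons 880 n1496 (.cons 881 n608 (.cons 718 n1505 (.cons 677 n1516 .nil)))))
noncomputable def n1518 : Strat := .move 841 n240 (.cons 717 n1362 .nil)
noncomputable def n1519 : Strat := .move 882 n9 (.cons 923 n1518 .nil)
noncomputable def n1520 : Strat := .move 881 n359 (.cons 718 n1519 (.cons 882 n469 .nil))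
noncomputable def n1521 : Strat := .win 757 6 757
noncomputable def n1522 : Strat := .move 798 n1521 (.cons 757 n314 .nil)
noncomputable def n1523 : Strat := .move 963 n1434 (.cons 798 n1419 .nil)
noncomputable def n1524 : Strat := .move 922 n1522 (.cons 757 n1523 (.cons 798 n90 .nil))
noncomputable def n1525 : Strat := .move 839 n128 (.cons 717 n1524 .nil)
noncomputable def n1526 : Strat := .move 880 n7 (.cons 921 n1525 .nil)
noncomputable def n1527 : Strat := .win 759 1 758
noncomputable def n1528 : Strat := .move 800 n1527 (.cons 759 n218 .nil)
noncomputable def n1529 : Strat := .move 963 n1026 (.cons 800 n661 .nil)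
noncomputable def n1530 : Strat := .move 800 n1527 (.cons 759 n486 .nil)
noncomputable def n1531 : Strat := .move 963 n661 (.cons 1004 n16 .nil)
noncomputable def n1532 : Strat := .move 798 n15 (.cons 757 n1531 .nil)
noncomputable def n1533 : Strat := .move 922 n1528 (.cons 759 n1529 (.cons 963 n1530 (.cons 800 n1532 .nil)))
noncomputable def n1534 : Strat := .move 841 n240 (.cons 717 n1533 .nil)
noncomputable def n1535 : Strat := .move 882 n9 (.cons 923 n1534 .nil)
noncomputable def n1536 : Strat := .move 759 n3 (.cons 800 n1523 .nil)
noncomputable def n1537 : Strat := .move 800 n17 (.cons 759 n525 .nil)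
noncomputable def n1538 : Strat := .move 798 n1521 (.cons 757 n1537 .nil)
noncomputable def n1539 : Strat := .move 963 n1419 (.cons 1004 n18 .nil)
noncomputable def n1540 : Strat := .move 800 n17 (.cons 759 n1539 .nil)
noncomputable def n1541 : Strat := .move 922 n1522 (.cons 757 n1536 (.cons 963 n1538 (.cons 798 n1540 .nil)))
noncomputable def n1542 : Strat := .move 839 n128 (.cons 717 n1541 .nil)
noncomputable def n1543 : Strat := .move 880 n7 (.cons 921 n1542 .nil)
noncomputable def n1544 : Strat := .move 800 n18 (.cons 841 n17 .nil)
noncomputable def n1545 : Strat := .move 963 n16 (.cons 839 n1544 .nil)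
noncomputable def n1546 : Strat := .move 798 n15 (.cons 757 n1545 .nil)
noncomputable def n1547 : Strat := .move 922 n42 (.cons 964 n1546 .nil)
noncomputable def n1548 : Strat := .move 923 n61 (.cons 882 n1547 .nil)
noncomputable def n1549 : Strat := .move 880 n7 (.cons 921 n1548 .nil)
noncomputable def n1550 : Strat := .move 881 n1526 (.cons 880 n1535 (.cons 882 n1543 (.cons 839 n1519 (.cons 717 n1549 .nil))))
noncomputable def n1551 : Strat := .win 757 1 634
noncomputable def n1552 : Strat := .move 634 n1497 (.cons 675 n1498 .nil)
noncomputable def n1553 : Strat := .move 635 n1551 (.cons 757 n1552 .nil)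
noncomputable def n1554 : Strat := .move 798 n1336 (.cons 839 n1553 .nil)
noncomputable def n1555 : Strat := .move 676 n553 (.cons 800 n1554 .nil)
noncomputable def n1556 : Strat := .move 841 n552 (.cons 882 n1555 .nil)
noncomputable def n1557 : Strat := .move 717 n1460 (.cons 718 n1556 (.cons 800 n1210 (.cons 841 n1496 .nil)))
noncomputable def n1558 : Strat := .win 759 6 635
noncomputable def n1559 : Strat := .move 635 n1558 (.cons 759 n1501 .nil)
noncomputable def n1560 : Strat := .move 800 n1172 (.cons 841 n1559 .nil)
noncomputable def n1561 : Strat := .move 676 n543 (.cons 798 n1560 .nil)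
noncomputable def n1562 : Strat := .move 839 n542 (.cons 880 n1561 .nil)
noncomputable def n1563 : Strat := .move 839 n543 (.cons 798 n1176 .nil)
noncomputable def n1564 : Strat := .move 635 n1174 (.cons 594 n1551 .nil)
noncomputable def n1565 : Strat := .move 798 n1336 (.cons 839 n1564 .nil)
noncomputable def n1566 : Strat := .move 798 n1336 (.cons 839 n1508 .nil)
noncomputable def n1567 : Strat := .move 800 n1172 (.cons 841 n1566 .nil)
noncomputable def n1568 : Strat := .move 676 n1173 (.cons 841 n1563 (.cons 800 n1565 (.cons 635 n1567 .nil)))
noncomputable def n1569 : Strat := .move 759 n1127 (.cons 881 n1568 .nil)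
noncomputable def n1570 : Strat := .move 718 n102 (.cons 677 n1569 .nil)
noncomputable def n1571 : Strat := .move 841 n45 (.cons 796 n595 .nil)
noncomputable def n1572 : Strat := .win 795 0 795
noncomputable def n1573 : Strat := .win 759 5 755
noncomputable def n1574 : Strat := .move 796 n1572 (.cons 795 n1573 .nil)
noncomputable def n1575 : Strat := .move 838 n72 (.cons 837 n71 .nil)
noncomputable def n1576 : Strat := .move 801 n634 (.cons 843 n52 .nil)
noncomputable def n1577 : Strat := .move 842 n635 (.cons 841 n1576 .nil)
noncomputable def n1578 : Strat := .move 759 n1507 (.cons 760 n1506 .nil)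
noncomputable def n1579 : Strat := .move 838 n72 (.cons 837 n1578 .nil)
noncomputable def n1580 : Strat := .move 800 n1575 (.cons 837 n74 (.cons 838 n1577 (.cons 801 n1579 .nil)))
noncomputable def n1581 : Strat := .move 797 n1571 (.cons 841 n1574 (.cons 796 n1580 .nil))
noncomputable def n1582 : Strat := .move 798 n760 (.cons 676 n1581 .nil)
noncomputable def n1583 : Strat := .move 839 n542 (.cons 880 n1582 .nil)
noncomputable def n1584 : Strat := .move 635 n1558 (.cons 759 n1552 .nil)
noncomputable def n1585 : Strat := .move 800 n1172 (.cons 841 n1584 .nil)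
noncomputable def n1586 : Strat := .move 676 n572 (.cons 636 n1585 .nil)
noncomputable def n1587 : Strat := .move 677 n571 (.cons 718 n1586 .nil)
noncomputable def n1588 : Strat := .move 717 n608 (.cons 718 n1562 (.cons 880 n1570 (.cons 677 n1583 (.cons 676 n1455 (.cons 839 n1587 .nil)))))
noncomputable def n1589 : Strat := .move 882 n9 (.cons 923 n1085 .nil)
noncomputable def n1590 : Strat := .move 880 n7 (.cons 921 n366 .nil)
noncomputable def n1591 : Strat := .move 881 n1589 (.cons 922 n1590 .nil)
noncomputable def n1592 : Strat := .move 798 n15 (.cons 757 n1099 .nil)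
noncomputable def n1593 : Strat := .move 922 n42 (.cons 964 n1592 .nil)
noncomputable def n1594 : Strat := .move 923 n61 (.cons 882 n1593 .nil)
noncomputable def n1595 : Strat := .move 881 n1590 (.cons 842 n569 (.cons 880 n1594 .nil))
noncomputable def n1596 : Strat := .move 882 n9 (.cons 923 n1083 .nil)
noncomputable def n1597 : Strat := .move 800 n653 (.cons 922 n1596 .nil)
noncomputable def n1598 : Strat := .move 759 n2 (.cons 718 n1597 .nil)
noncomputable def n1599 : Strat := .move 757 n729 (.cons 761 n730 (.cons 797 n733 (.cons 760 n736 .nil)))
noncomputable def n1600 : Strat := .win 801 1 718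
noncomputable def n1601 : Strat := .move 719 n1600 (.cons 801 n731 .nil)
noncomputable def n1602 : Strat := .move 760 n114 (.cons 761 n1601 .nil)
noncomputable def n1603 : Strat := .move 842 n47 (.cons 843 n1602 .nil)
noncomputable def n1604 : Strat := .move 760 n285 (.cons 757 n114 .nil)
noncomputable def n1605 : Strat := .move 797 n45 (.cons 796 n1604 .nil)
noncomputable def n1606 : Strat := .move 798 n1599 (.cons 720 n736 (.cons 797 n1603 (.cons 842 n1605 .nil)))
noncomputable def n1607 : Strat := .move 759 n2 (.cons 718 n1606 .nil)
noncomputable def n1608 : Strat := .move 882 n9 (.cons 923 n1607 .nil)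
noncomputable def n1609 : Strat := .move 921 n27 (.cons 962 n28 .nil)
noncomputable def n1610 : Strat := .move 797 n45 (.cons 796 n1609 .nil)
noncomputable def n1611 : Strat := .move 798 n15 (.cons 757 n1610 .nil)
noncomputable def n1612 : Strat := .move 922 n3 (.cons 800 n1611 .nil)
noncomputable def n1613 : Strat := .move 759 n2 (.cons 718 n1612 .nil)
noncomputable def n1614 : Strat := .move 881 n1598 (.cons 759 n569 (.cons 922 n1608 (.cons 882 n1613 .nil)))
noncomputable def n1615 : Strat := .move 842 n47 (.cons 843 n734 .nil)
noncomputable def n1616 : Strat := .move 797 n45 (.cons 796 n1615 .nil)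
noncomputable def n1617 : Strat := .move 842 n47 (.cons 843 n1097 .nil)
noncomputable def n1618 : Strat := .move 797 n45 (.cons 796 n1617 .nil)
noncomputable def n1619 : Strat := .win 921 3 757
noncomputable def n1620 : Strat := .move 880 n1619 (.cons 921 n385 .nil)
noncomputable def n1621 : Strat := .move 839 n386 (.cons 797 n1620 .nil)
noncomputable def n1622 : Strat := .move 842 n47 (.cons 843 n1621 .nil)
noncomputable def n1623 : Strat := .move 881 n1059 (.cons 718 n653 .nil)
noncomputable def n1624 : Strat := .move 759 n1507 (.cons 760 n1623 .nil)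
noncomputable def n1625 : Strat := .move 800 n44 (.cons 842 n1624 .nil)
noncomputable def n1626 : Strat := .move 797 n45 (.cons 796 n1625 .nil)
noncomputable def n1627 : Strat := .win 882 1 718
noncomputable def n1628 : Strat := .move 719 n518 (.cons 678 n1627 .nil)
noncomputable def n1629 : Strat := .move 760 n935 (.cons 761 n1628 .nil)
noncomputable def n1630 : Strat := .move 800 n51 (.cons 838 n1629 .nil)
noncomputable def n1631 : Strat := .move 801 n387 (.cons 802 n1630 .nil)
noncomputable def n1632 : Strat := .move 839 n1620 (.cons 880 n1631 .nil)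
noncomputable def n1633 : Strat := .move 842 n47 (.cons 843 n1632 .nil)
noncomputable def n1634 : Strat := .move 718 n1241 (.cons 881 n931 .nil)
noncomputable def n1635 : Strat := .move 759 n1507 (.cons 760 n1634 .nil)
noncomputable def n1636 : Strat := .win 757 2 756
noncomputable def n1637 : Strat := .move 756 n1636 (.cons 757 n76 .nil)
noncomputable def n1638 : Strat := .move 801 n689 (.cons 839 n1637 .nil)
noncomputable def n1639 : Strat := .move 838 n72 (.cons 837 n1638 .nil)
noncomputable def n1640 : Strat := .move 800 n1624 (.cons 922 n1635 (.cons 759 n1639 .nil))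
noncomputable def n1641 : Strat := .move 797 n45 (.cons 796 n1640 .nil)
noncomputable def n1642 : Strat := .move 798 n1616 (.cons 800 n1618 (.cons 796 n1622 (.cons 843 n1626 (.cons 797 n1633 (.cons 842 n1641 .nil)))))
noncomputable def n1643 : Strat := .move 879 n131 (.cons 878 n143 .nil)
noncomputable def n1644 : Strat := .move 880 n7 (.cons 921 n1643 .nil)
noncomputable def n1645 : Strat := .move 882 n9 (.cons 923 n1644 .nil)
noncomputable def n1646 : Strat := .move 881 n1598 (.cons 922 n1645 (.cons 882 n469 .nil))
noncomputable def n1647 : Strat := .move 963 n1026 (.cons 800 n16 .nil)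
noncomputable def n1648 : Strat := .move 922 n15 (.cons 757 n1647 .nil)
noncomputable def n1649 : Strat := .move 880 n7 (.cons 921 n1396 .nil)
noncomputable def n1650 : Strat := .move 922 n15 (.cons 757 n4 .nil)
noncomputable def n1651 : Strat := .move 881 n1648 (.cons 757 n1649 (.cons 839 n1650 .nil))
noncomputable def n1652 : Strat := .move 842 n47 (.cons 843 n1651 .nil)
noncomputable def n1653 : Strat := .move 798 n1616 (.cons 842 n1641 (.cons 796 n1622 (.cons 797 n1652 .nil)))
noncomputable def n1654 : Strat := .move 797 n734 (.cons 800 n1097 .nil)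
noncomputable def n1655 : Strat := .move 842 n47 (.cons 843 n1654 .nil)
noncomputable def n1656 : Strat := .move 842 n734 (.cons 800 n1097 .nil)
noncomputable def n1657 : Strat := .move 797 n45 (.cons 796 n1656 .nil)
noncomputable def n1658 : Strat := .move 882 n934 (.cons 719 n516 .nil)
noncomputable def n1659 : Strat := .move 760 n935 (.cons 761 n1658 .nil)
noncomputable def n1660 : Strat := .move 800 n51 (.cons 838 n1659 .nil)
noncomputable def n1661 : Strat := .move 801 n387 (.cons 802 n1660 .nil)
noncomputable def n1662 : Strat := .move 839 n1620 (.cons 880 n1661 .nil)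
noncomputable def n1663 : Strat := .move 842 n47 (.cons 843 n1662 .nil)
noncomputable def n1664 : Strat := .win 757 0 756
noncomputable def n1665 : Strat := .move 801 n1664 (.cons 757 n1292 .nil)
noncomputable def n1666 : Strat := .move 756 n76 (.cons 755 n1665 .nil)
noncomputable def n1667 : Strat := .move 759 n1507 (.cons 760 n1666 .nil)
noncomputable def n1668 : Strat := .win 757 5 715
noncomputable def n1669 : Strat := .move 756 n1668 (.cons 757 n76 .nil)
noncomputable def n1670 : Strat := .move 719 n1198 (.cons 678 n1669 .nil)
noncomputable def n1671 : Strat := .move 718 n931 (.cons 677 n1670 .nil)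
noncomputable def n1672 : Strat := .move 759 n1507 (.cons 760 n1671 .nil)
noncomputable def n1673 : Strat := .move 757 n654 (.cons 802 n417 .nil)
noncomputable def n1674 : Strat := .move 801 n1673 (.cons 756 n1292 .nil)
noncomputable def n1675 : Strat := .move 759 n1507 (.cons 760 n1674 .nil)
noncomputable def n1676 : Strat := .win 803 2 758
noncomputable def n1677 : Strat := .win 757 2 757
noncomputable def n1678 : Strat := .move 802 n1676 (.cons 803 n1677 .nil)
noncomputable def n1679 : Strat := .move 801 n689 (.cons 839 n1678 .nil)
noncomputable def n1680 : Strat := .move 838 n72 (.cons 837 n1679 .nil)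
noncomputable def n1681 : Strat := .move 759 n1507 (.cons 760 n1680 .nil)
noncomputable def n1682 : Strat := .move 756 n877 (.cons 715 n76 .nil)
noncomputable def n1683 : Strat := .move 880 n1619 (.cons 921 n1682 .nil)
noncomputable def n1684 : Strat := .move 839 n71 (.cons 801 n1683 .nil)
noncomputable def n1685 : Strat := .move 838 n72 (.cons 837 n1684 .nil)
noncomputable def n1686 : Strat := .move 800 n1667 (.cons 801 n1672 (.cons 755 n1675 (.cons 759 n1639 (.cons 756 n1681 (.cons 757 n1685 .nil)))))
noncomputable def n1687 : Strat := .move 797 n45 (.cons 796 n1686 .nil)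
noncomputable def n1688 : Strat := .move 798 n1616 (.cons 796 n1655 (.cons 800 n1618 (.cons 843 n1657 (.cons 797 n1663 (.cons 842 n1687 .nil)))))
noncomputable def n1689 : Strat := .move 800 n17 (.cons 759 n218 .nil)
noncomputable def n1690 : Strat := .move 922 n15 (.cons 757 n1689 .nil)
noncomputable def n1691 : Strat := .move 923 n42 (.cons 964 n61 .nil)
noncomputable def n1692 : Strat := .move 922 n3 (.cons 800 n1691 .nil)
noncomputable def n1693 : Strat := .move 759 n2 (.cons 718 n1692 .nil)
noncomputable def n1694 : Strat := .move 719 n731 (.cons 800 n1600 .nil)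
noncomputable def n1695 : Strat := .move 760 n114 (.cons 761 n1694 .nil)
noncomputable def n1696 : Strat := .move 759 n2 (.cons 718 n1695 .nil)
noncomputable def n1697 : Strat := .move 882 n9 (.cons 923 n1696 .nil)
noncomputable def n1698 : Strat := .move 922 n15 (.cons 757 n90 .nil)
noncomputable def n1699 : Strat := .move 881 n1690 (.cons 757 n1693 (.cons 922 n1697 (.cons 759 n1648 (.cons 800 n1698 .nil))))
noncomputable def n1700 : Strat := .move 842 n47 (.cons 843 n1699 .nil)
noncomputable def n1701 : Strat := .move 798 n1616 (.cons 800 n1618 (.cons 797 n1700 (.cons 842 n1641 .nil)))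
noncomputable def n1702 : Strat := .move 881 n9 (.cons 923 n1644 .nil)
noncomputable def n1703 : Strat := .win 757 0 757
noncomputable def n1704 : Strat := .move 801 n1676 (.cons 803 n1703 .nil)
noncomputable def n1705 : Strat := .move 801 n514 (.cons 839 n1676 .nil)
noncomputable def n1706 : Strat := .move 801 n514 (.cons 839 n1703 .nil)
noncomputable def n1707 : Strat := .move 761 n249 (.cons 803 n717 .nil)
noncomputable def n1708 : Strat := .move 802 n1704 (.cons 757 n1705 (.cons 803 n1706 (.cons 801 n1707 .nil)))
noncomputable def n1709 : Strat := .move 760 n704 (.cons 719 n1708 .nil)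
noncomputable def n1710 : Strat := .move 800 n1058 (.cons 922 n1709 .nil)
noncomputable def n1711 : Strat := .move 759 n2 (.cons 718 n1710 .nil)
noncomputable def n1712 : Strat := .move 881 n9 (.cons 923 n1711 .nil)
noncomputable def n1713 : Strat := .move 881 n1644 (.cons 921 n1711 .nil)
noncomputable def n1714 : Strat := .move 923 n1107 (.cons 800 n370 .nil)
noncomputable def n1715 : Strat := .move 882 n1702 (.cons 921 n1712 (.cons 923 n1713 (.cons 881 n1714 .nil)))
noncomputable def n1716 : Strat := .move 923 n1106 (.cons 881 n370 .nil)
noncomputable def n1717 : Strat := .move 881 n1059 (.cons 718 n1058 .nil)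
noncomputable def n1718 : Strat := .win 797 5 756
noncomputable def n1719 : Strat := .move 798 n114 (.cons 761 n1718 .nil)
noncomputable def n1720 : Strat := .move 760 n704 (.cons 719 n1719 .nil)
noncomputable def n1721 : Strat := .move 759 n1717 (.cons 881 n1720 .nil)
noncomputable def n1722 : Strat := .move 801 n1676 (.cons 803 n514 .nil)
noncomputable def n1723 : Strat := .move 802 n1706 (.cons 757 n1722 (.cons 839 n1704 (.cons 801 n1707 .nil)))
noncomputable def n1724 : Strat := .move 760 n704 (.cons 719 n1723 .nil)
noncomputable def n1725 : Strat := .move 881 n1058 (.cons 922 n1724 .nil)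
noncomputable def n1726 : Strat := .move 881 n1059 (.cons 718 n1724 .nil)
noncomputable def n1727 : Strat := .move 802 n1677 (.cons 757 n514 .nil)
noncomputable def n1728 : Strat := .move 802 n1677 (.cons 757 n1676 .nil)
noncomputable def n1729 : Strat := .win 760 3 718
noncomputable def n1730 : Strat := .move 719 n1198 (.cons 678 n1729 .nil)
noncomputable def n1731 : Strat := .move 718 n931 (.cons 677 n1730 .nil)
noncomputable def n1732 : Strat := .move 801 n1727 (.cons 839 n1728 (.cons 802 n1731 .nil))
noncomputable def n1733 : Strat := .move 759 n1717 (.cons 718 n1725 (.cons 922 n1726 (.cons 881 n1732 .nil)))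
noncomputable def n1734 : Strat := .move 881 n1059 (.cons 718 n1083 .nil)
noncomputable def n1735 : Strat := .move 759 n1734 (.cons 718 n1720 (.cons 798 n1726 (.cons 761 n1634 .nil)))
noncomputable def n1736 : Strat := .move 802 n1677 (.cons 757 n513 .nil)
noncomputable def n1737 : Strat := .move 839 n52 (.cons 802 n1251 .nil)
noncomputable def n1738 : Strat := .win 839 5 797
noncomputable def n1739 : Strat := .move 922 n218 (.cons 963 n1609 .nil)
noncomputable def n1740 : Strat := .move 879 n131 (.cons 878 n373 .nil)
noncomputable def n1741 : Strat := .move 880 n7 (.cons 921 n1740 .nil)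
noncomputable def n1742 : Strat := .move 797 n72 (.cons 837 n45 .nil)
noncomputable def n1743 : Strat := .move 922 n15 (.cons 757 n218 .nil)
noncomputable def n1744 : Strat := .move 798 n1742 (.cons 796 n1743 .nil)
noncomputable def n1745 : Strat := .move 881 n1739 (.cons 922 n1741 (.cons 880 n1744 .nil))
noncomputable def n1746 : Strat := .move 838 n1738 (.cons 839 n1745 .nil)
noncomputable def n1747 : Strat := .move 801 n1727 (.cons 839 n1736 (.cons 757 n1737 (.cons 802 n1746 .nil)))
noncomputable def n1748 : Strat := .move 802 n514 (.cons 839 n513 .nil)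
noncomputable def n1749 : Strat := .win 759 3 718
noncomputable def n1750 : Strat := .move 719 n518 (.cons 678 n1749 .nil)
noncomputable def n1751 : Strat := .move 760 n935 (.cons 761 n1750 .nil)
noncomputable def n1752 : Strat := .move 797 n76 (.cons 755 n45 .nil)
noncomputable def n1753 : Strat := .move 756 n1636 (.cons 757 n1752 .nil)
noncomputable def n1754 : Strat := .move 798 n1751 (.cons 760 n1753 .nil)
noncomputable def n1755 : Strat := .move 839 n1251 (.cons 838 n1754 .nil)
noncomputable def n1756 : Strat := .move 801 n1727 (.cons 757 n1748 (.cons 839 n1736 (.cons 802 n1755 .nil)))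
noncomputable def n1757 : Strat := .move 800 n1721 (.cons 798 n1733 (.cons 922 n1735 (.cons 759 n1747 (.cons 881 n1756 .nil))))
noncomputable def n1758 : Strat := .move 882 n1108 (.cons 881 n1714 (.cons 800 n1716 (.cons 923 n1757 .nil)))
noncomputable def n1759 : Strat := .move 841 n1591 (.cons 800 n1595 (.cons 879 n1614 (.cons 923 n1642 (.cons 843 n1646 (.cons 882 n1653 (.cons 881 n1688 (.cons 880 n1701 (.cons 798 n1715 (.cons 842 n1758 .nil)))))))))
noncomputable def n1760 : Strat := .move 758 n1461 (.cons 881 n1476 (.cons 800 n1481 (.cons 841 n1517 (.cons 839 n1520 (.cons 718 n1550 (.cons 880 n1557 (.cons 882 n1588 (.cons 717 n1759 .nil))))))))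
noncomputable def n1761 : Strat := .move 881 n101 (.cons 759 n1080 .nil)
noncomputable def n1762 : Strat := .move 718 n102 (.cons 677 n1761 .nil)
noncomputable def n1763 : Strat := .move 881 n85 (.cons 757 n1453 .nil)
noncomputable def n1764 : Strat := .move 716 n86 (.cons 675 n1763 .nil)
noncomputable def n1765 : Strat := .move 717 n1762 (.cons 718 n1764 (.cons 757 n1455 (.cons 881 n1240 .nil)))
noncomputable def n1766 : Strat := .move 759 n1111 (.cons 714 n1110 .nil)
noncomputable def n1767 : Strat := .win 756 4 714
noncomputable def n1768 : Strat := .win 754 4 713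
noncomputable def n1769 : Strat := .move 755 n1767 (.cons 756 n1768 .nil)
noncomputable def n1770 : Strat := .move 714 n1181 (.cons 759 n1769 .nil)
noncomputable def n1771 : Strat := .win 757 4 715
noncomputable def n1772 : Strat := .win 762 0 717
noncomputable def n1773 : Strat := .win 760 0 716
noncomputable def n1774 : Strat := .move 761 n1772 (.cons 762 n1773 .nil)
noncomputable def n1775 : Strat := .win 680 5 676
noncomputable def n1776 : Strat := .win 678 5 675
noncomputable def n1777 : Strat := .move 679 n1775 (.cons 680 n1776 .nil)
noncomputable def n1778 : Strat := .move 720 n1774 (.cons 760 n1777 .nil)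
noncomputable def n1779 : Strat := .move 719 n1771 (.cons 757 n1778 .nil)
noncomputable def n1780 : Strat := .move 756 n1158 (.cons 755 n1779 .nil)
noncomputable def n1781 : Strat := .move 715 n1766 (.cons 760 n1770 (.cons 759 n1780 .nil))
noncomputable def n1782 : Strat := .move 718 n102 (.cons 677 n1781 .nil)
noncomputable def n1783 : Strat := .move 716 n86 (.cons 675 n1782 .nil)
noncomputable def n1784 : Strat := .move 717 n1240 (.cons 718 n589 (.cons 716 n575 (.cons 800 n1783 .nil)))
noncomputable def n1785 : Strat := .move 635 n1498 (.cons 593 n1500 .nil)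
noncomputable def n1786 : Strat := .move 634 n1497 (.cons 675 n1785 .nil)
noncomputable def n1787 : Strat := .move 636 n1499 (.cons 677 n1786 .nil)
noncomputable def n1788 : Strat := .move 881 n7 (.cons 921 n1787 .nil)
noncomputable def n1789 : Strat := .move 880 n8 (.cons 839 n1788 .nil)
noncomputable def n1790 : Strat := .move 676 n553 (.cons 800 n1789 .nil)
noncomputable def n1791 : Strat := .move 841 n552 (.cons 882 n1790 .nil)
noncomputable def n1792 : Strat := .move 717 n1764 (.cons 881 n589 (.cons 716 n1791 (.cons 675 n1358 .nil)))
noncomputable def n1793 : Strat := .move 718 n102 (.cons 677 n101 .nil)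
noncomputable def n1794 : Strat := .move 717 n8 (.cons 839 n1793 .nil)
noncomputable def n1795 : Strat := .move 880 n7 (.cons 921 n1794 .nil)
noncomputable def n1796 : Strat := .move 757 n0 (.cons 716 n1795 .nil)
noncomputable def n1797 : Strat := .move 882 n9 (.cons 923 n165 .nil)
noncomputable def n1798 : Strat := .move 880 n7 (.cons 921 n1797 .nil)
noncomputable def n1799 : Strat := .move 757 n0 (.cons 716 n569 .nil)
noncomputable def n1800 : Strat := .move 759 n2 (.cons 718 n1799 .nil)
noncomputable def n1801 : Strat := .move 881 n1796 (.cons 880 n107 (.cons 716 n1798 (.cons 717 n1800 .nil)))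
noncomputable def n1802 : Strat := .move 717 n8 (.cons 839 n1080 .nil)
noncomputable def n1803 : Strat := .move 880 n7 (.cons 921 n1802 .nil)
noncomputable def n1804 : Strat := .move 963 n36 (.cons 1005 n23 .nil)
noncomputable def n1805 : Strat := .move 962 n22 (.cons 921 n1804 .nil)
noncomputable def n1806 : Strat := .move 964 n35 (.cons 923 n1805 .nil)
noncomputable def n1807 : Strat := .move 717 n86 (.cons 675 n1806 .nil)
noncomputable def n1808 : Strat := .move 716 n85 (.cons 757 n1807 .nil)
noncomputable def n1809 : Strat := .move 922 n3 (.cons 800 n1808 .nil)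
noncomputable def n1810 : Strat := .move 759 n2 (.cons 718 n1809 .nil)
noncomputable def n1811 : Strat := .move 757 n0 (.cons 716 n743 .nil)
noncomputable def n1812 : Strat := .move 800 n653 (.cons 922 n1811 .nil)
noncomputable def n1813 : Strat := .move 759 n2 (.cons 718 n1812 .nil)
noncomputable def n1814 : Strat := .move 881 n469 (.cons 759 n1803 (.cons 880 n1810 (.cons 921 n1813 .nil)))
noncomputable def n1815 : Strat := .move 717 n8 (.cons 839 n549 .nil)
noncomputable def n1816 : Strat := .move 880 n7 (.cons 921 n1815 .nil)
noncomputable def n1817 : Strat := .move 757 n657 (.cons 759 n1816 .nil)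
noncomputable def n1818 : Strat := .move 717 n8 (.cons 839 n1367 .nil)
noncomputable def n1819 : Strat := .move 880 n7 (.cons 921 n1818 .nil)
noncomputable def n1820 : Strat := .move 800 n653 (.cons 922 n1819 .nil)
noncomputable def n1821 : Strat := .move 759 n2 (.cons 718 n1820 .nil)
noncomputable def n1822 : Strat := .win 841 5 797
noncomputable def n1823 : Strat := .move 838 n1822 (.cons 841 n315 .nil)
noncomputable def n1824 : Strat := .move 801 n52 (.cons 802 n1823 .nil)
noncomputable def n1825 : Strat := .move 839 n128 (.cons 717 n1824 .nil)
noncomputable def n1826 : Strat := .move 800 n653 (.cons 922 n1825 .nil)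
noncomputable def n1827 : Strat := .move 759 n2 (.cons 718 n1826 .nil)
noncomputable def n1828 : Strat := .move 880 n7 (.cons 921 n1827 .nil)
noncomputable def n1829 : Strat := .move 881 n1817 (.cons 759 n1798 (.cons 839 n359 (.cons 923 n1821 (.cons 882 n1828 .nil))))
noncomputable def n1830 : Strat := .move 881 n658 (.cons 800 n107 (.cons 757 n359 .nil))
noncomputable def n1831 : Strat := .move 717 n1455 (.cons 718 n589 .nil)
noncomputable def n1832 : Strat := .move 880 n7 (.cons 921 n1813 .nil)
noncomputable def n1833 : Strat := .move 800 n417 (.cons 756 n421 .nil)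
noncomputable def n1834 : Strat := .move 801 n416 (.cons 802 n1833 .nil)
noncomputable def n1835 : Strat := .move 841 n996 (.cons 720 n241 .nil)
noncomputable def n1836 : Strat := .move 880 n7 (.cons 921 n1835 .nil)
noncomputable def n1837 : Strat := .move 800 n717 (.cons 762 n417 .nil)
noncomputable def n1838 : Strat := .move 761 n1837 (.cons 756 n254 .nil)
noncomputable def n1839 : Strat := .move 801 n416 (.cons 802 n1838 .nil)
noncomputable def n1840 : Strat := .move 880 n7 (.cons 921 n255 .nil)
noncomputable def n1841 : Strat := .win 713 2 713
noncomputable def n1842 : Strat := .win 715 2 714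
noncomputable def n1843 : Strat := .move 714 n1841 (.cons 713 n1842 .nil)
noncomputable def n1844 : Strat := .move 755 n258 (.cons 800 n1843 .nil)
noncomputable def n1845 : Strat := .move 796 n260 (.cons 795 n259 .nil)
noncomputable def n1846 : Strat := .move 755 n1843 (.cons 715 n1845 .nil)
noncomputable def n1847 : Strat := .move 756 n110 (.cons 755 n770 (.cons 801 n1844 (.cons 800 n1846 .nil)))
noncomputable def n1848 : Strat := .move 760 n1834 (.cons 801 n1836 (.cons 841 n1839 (.cons 800 n1840 (.cons 719 n1847 .nil))))
noncomputable def n1849 : Strat := .move 759 n2 (.cons 718 n1848 .nil)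
noncomputable def n1850 : Strat := .move 882 n9 (.cons 923 n1849 .nil)
noncomputable def n1851 : Strat := .move 757 n0 (.cons 716 n1850 .nil)
noncomputable def n1852 : Strat := .move 881 n359 (.cons 759 n569 (.cons 923 n1832 (.cons 922 n1851 .nil)))
noncomputable def n1853 : Strat := .move 758 n1765 (.cons 881 n1784 (.cons 718 n1792 (.cons 800 n1801 (.cons 882 n1814 (.cons 716 n1829 (.cons 880 n1830 (.cons 757 n1831 (.cons 717 n1852 .nil))))))))
noncomputable def n1854 : Strat := .move 881 n105 (.cons 759 n13 (.cons 921 n107 (.cons 717 n125 .nil)))
noncomputable def n1855 : Strat := .move 881 n0 (.cons 716 n124 .nil)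
noncomputable def n1856 : Strat := .move 880 n385 (.cons 879 n1619 .nil)
noncomputable def n1857 : Strat := .move 841 n48 (.cons 797 n1856 .nil)
noncomputable def n1858 : Strat := .move 842 n634 (.cons 843 n1857 .nil)
noncomputable def n1859 : Strat := .move 839 n51 (.cons 838 n1858 .nil)
noncomputable def n1860 : Strat := .move 798 n388 (.cons 756 n1859 .nil)
noncomputable def n1861 : Strat := .move 801 n654 (.cons 802 n1860 .nil)
noncomputable def n1862 : Strat := .move 839 n51 (.cons 838 n1278 .nil)
noncomputable def n1863 : Strat := .win 715 2 715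
noncomputable def n1864 : Strat := .move 716 n1863 (.cons 715 n1281 .nil)
noncomputable def n1865 : Strat := .move 759 n115 (.cons 797 n1864 .nil)
noncomputable def n1866 : Strat := .move 760 n935 (.cons 761 n1865 .nil)
noncomputable def n1867 : Strat := .move 798 n1862 (.cons 759 n1859 (.cons 841 n1866 (.cons 797 n1298 .nil)))
noncomputable def n1868 : Strat := .move 801 n654 (.cons 802 n1867 .nil)
noncomputable def n1869 : Strat := .move 800 n1272 (.cons 801 n1288 (.cons 759 n1861 (.cons 756 n1868 .nil)))
noncomputable def n1870 : Strat := .move 718 n1127 (.cons 881 n1218 .nil)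
noncomputable def n1871 : Strat := .move 759 n1307 (.cons 881 n1273 (.cons 677 n1870 (.cons 718 n308 .nil)))
noncomputable def n1872 : Strat := .move 756 n109 (.cons 755 n1871 .nil)
noncomputable def n1873 : Strat := .move 796 n1572 (.cons 795 n677 .nil)
noncomputable def n1874 : Strat := .move 796 n1573 (.cons 759 n1572 .nil)
noncomputable def n1875 : Strat := .move 797 n70 (.cons 796 n1314 (.cons 842 n1873 (.cons 841 n1874 .nil)))
noncomputable def n1876 : Strat := .move 839 n51 (.cons 838 n1875 .nil)
noncomputable def n1877 : Strat := .win 841 4 838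
noncomputable def n1878 : Strat := .move 879 n1877 (.cons 841 n129 .nil)
noncomputable def n1879 : Strat := .move 842 n634 (.cons 843 n1878 .nil)
noncomputable def n1880 : Strat := .move 880 n1619 (.cons 921 n1879 .nil)
noncomputable def n1881 : Strat := .move 839 n51 (.cons 838 n1880 .nil)
noncomputable def n1882 : Strat := .move 718 n931 (.cons 677 n1127 .nil)
noncomputable def n1883 : Strat := .move 759 n115 (.cons 797 n1882 .nil)
noncomputable def n1884 : Strat := .move 760 n935 (.cons 761 n1883 .nil)
noncomputable def n1885 : Strat := .move 798 n1278 (.cons 761 n1876 (.cons 797 n1881 (.cons 842 n1884 .nil)))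
noncomputable def n1886 : Strat := .move 801 n654 (.cons 802 n1885 .nil)
noncomputable def n1887 : Strat := .move 800 n1272 (.cons 802 n1309 (.cons 801 n1872 (.cons 756 n1886 (.cons 759 n1861 .nil))))
noncomputable def n1888 : Strat := .win 801 2 757
noncomputable def n1889 : Strat := .move 760 n1707 (.cons 762 n421 .nil)
noncomputable def n1890 : Strat := .move 882 n9 (.cons 923 n1889 .nil)
noncomputable def n1891 : Strat := .move 802 n1888 (.cons 801 n1890 .nil)
noncomputable def n1892 : Strat := .move 759 n2 (.cons 718 n1891 .nil)
noncomputable def n1893 : Strat := .move 881 n0 (.cons 716 n1892 .nil)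
noncomputable def n1894 : Strat := .move 759 n2 (.cons 718 n703 .nil)
noncomputable def n1895 : Strat := .move 881 n0 (.cons 716 n1894 .nil)
noncomputable def n1896 : Strat := .win 760 2 715
noncomputable def n1897 : Strat := .move 715 n118 (.cons 714 n1896 .nil)
noncomputable def n1898 : Strat := .move 718 n1218 (.cons 719 n931 .nil)
noncomputable def n1899 : Strat := .move 759 n1897 (.cons 760 n1898 .nil)
noncomputable def n1900 : Strat := .move 675 n1266 (.cons 634 n1899 .nil)
noncomputable def n1901 : Strat := .move 756 n109 (.cons 755 n1900 .nil)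
noncomputable def n1902 : Strat := .move 716 n576 (.cons 881 n1901 .nil)
noncomputable def n1903 : Strat := .move 839 n1822 (.cons 841 n315 .nil)
noncomputable def n1904 : Strat := .win 715 3 674
noncomputable def n1905 : Strat := .move 797 n1904 (.cons 715 n1282 .nil)
noncomputable def n1906 : Strat := .move 838 n1903 (.cons 837 n1905 .nil)
noncomputable def n1907 : Strat := .move 675 n1266 (.cons 634 n1906 .nil)
noncomputable def n1908 : Strat := .move 756 n109 (.cons 755 n1907 .nil)
noncomputable def n1909 : Strat := .move 716 n576 (.cons 881 n1908 .nil)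
noncomputable def n1910 : Strat := .move 801 n654 (.cons 802 n1909 .nil)
noncomputable def n1911 : Strat := .move 800 n1272 (.cons 756 n1893 (.cons 802 n1895 (.cons 801 n1902 (.cons 759 n1910 .nil))))
noncomputable def n1912 : Strat := .move 757 n1855 (.cons 881 n1869 (.cons 716 n1887 (.cons 759 n1269 (.cons 798 n1911 .nil))))
noncomputable def n1913 : Strat := .move 841 n552 (.cons 882 n1163 .nil)
noncomputable def n1914 : Strat := .move 839 n542 (.cons 880 n1913 .nil)
noncomputable def n1915 : Strat := .move 718 n102 (.cons 677 n1914 .nil)
noncomputable def n1916 : Strat := .move 716 n86 (.cons 675 n1915 .nil)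
noncomputable def n1917 : Strat := .move 717 n1329 (.cons 839 n589 (.cons 841 n608 (.cons 676 n1916 .nil)))
noncomputable def n1918 : Strat := .move 881 n13 (.cons 880 n107 (.cons 882 n89 (.cons 717 n567 .nil)))
noncomputable def n1919 : Strat := .move 881 n246 (.cons 882 n265 (.cons 759 n271 .nil))
noncomputable def n1920 : Strat := .move 881 n302 (.cons 757 n105 (.cons 880 n142 (.cons 759 n89 (.cons 717 n311 .nil))))
noncomputable def n1921 : Strat := .move 717 n1145 (.cons 675 n1455 (.cons 677 n1764 (.cons 881 n1240 .nil)))
noncomputable def n1922 : Strat := .move 717 n1136 (.cons 880 n575 (.cons 882 n608 (.cons 676 n1257 .nil)))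
noncomputable def n1923 : Strat := .move 881 n711 (.cons 759 n107 (.cons 757 n156 (.cons 717 n728 (.cons 923 n755 (.cons 841 n142 .nil)))))
noncomputable def n1924 : Strat := .move 716 n86 (.cons 675 n1231 .nil)
noncomputable def n1925 : Strat := .move 759 n1127 (.cons 881 n1924 .nil)
noncomputable def n1926 : Strat := .move 718 n102 (.cons 677 n1925 .nil)
noncomputable def n1927 : Strat := .move 717 n575 (.cons 636 n1208 (.cons 841 n1926 .nil))
noncomputable def n1928 : Strat := .move 758 n1854 (.cons 717 n1912 (.cons 881 n1917 (.cons 759 n1918 (.cons 839 n1919 (.cons 841 n1920 (.cons 798 n1921 (.cons 716 n1922 (.cons 880 n1923 (.cons 757 n1927 .nil)))))))))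
noncomputable def n1929 : Strat := .move 758 n608 (.cons 839 n589 (.cons 676 n1916 .nil))
noncomputable def n1930 : Strat := .move 757 n1149 (.cons 756 n1148 .nil)
noncomputable def n1931 : Strat := .move 720 n1200 (.cons 757 n1774 .nil)
noncomputable def n1932 : Strat := .win 761 0 716
noncomputable def n1933 : Strat := .win 800 3 677
noncomputable def n1934 : Strat := .win 679 5 675
noncomputable def n1935 : Strat := .move 678 n1933 (.cons 800 n1934 .nil)
noncomputable def n1936 : Strat := .move 759 n1129 (.cons 715 n1935 .nil)
noncomputable def n1937 : Strat := .move 760 n1932 (.cons 761 n1936 .nil)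
noncomputable def n1938 : Strat := .move 719 n1930 (.cons 756 n1931 (.cons 757 n1937 .nil))
noncomputable def n1939 : Strat := .move 841 n552 (.cons 882 n1938 .nil)
noncomputable def n1940 : Strat := .move 718 n102 (.cons 677 n1939 .nil)
noncomputable def n1941 : Strat := .move 716 n86 (.cons 675 n1940 .nil)
noncomputable def n1942 : Strat := .move 758 n589 (.cons 716 n575 (.cons 676 n1941 (.cons 800 n1783 .nil)))
noncomputable def n1943 : Strat := .win 798 6 633
noncomputable def n1944 : Strat := .win 592 6 592
noncomputable def n1945 : Strat := .move 633 n1943 (.cons 798 n1944 .nil)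
noncomputable def n1946 : Strat := .move 674 n1114 (.cons 673 n1945 .nil)
noncomputable def n1947 : Strat := .move 715 n1112 (.cons 714 n1946 .nil)
noncomputable def n1948 : Strat := .move 756 n578 (.cons 755 n1947 .nil)
noncomputable def n1949 : Strat := .move 719 n1149 (.cons 756 n1148 .nil)
noncomputable def n1950 : Strat := .move 759 n115 (.cons 797 n1129 .nil)
noncomputable def n1951 : Strat := .move 798 n1490 (.cons 839 n1950 .nil)
noncomputable def n1952 : Strat := .move 760 n1932 (.cons 761 n1951 .nil)
noncomputable def n1953 : Strat := .move 719 n1148 (.cons 720 n1952 .nil)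
noncomputable def n1954 : Strat := .move 757 n579 (.cons 719 n1948 (.cons 755 n1949 (.cons 756 n1953 .nil)))
noncomputable def n1955 : Strat := .move 718 n102 (.cons 677 n1954 .nil)
noncomputable def n1956 : Strat := .move 716 n86 (.cons 675 n1955 .nil)
noncomputable def n1957 : Strat := .win 759 0 715
noncomputable def n1958 : Strat := .move 760 n1932 (.cons 761 n1957 .nil)
noncomputable def n1959 : Strat := .move 715 n1112 (.cons 714 n1958 (.cons 760 n1182 (.cons 759 n1161 .nil)))
noncomputable def n1960 : Strat := .move 719 n1148 (.cons 720 n1959 .nil)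
noncomputable def n1961 : Strat := .move 715 n1112 (.cons 714 n1161 .nil)
noncomputable def n1962 : Strat := .move 756 n578 (.cons 755 n1961 .nil)
noncomputable def n1963 : Strat := .move 757 n579 (.cons 756 n1960 (.cons 719 n1962 .nil))
noncomputable def n1964 : Strat := .move 839 n542 (.cons 880 n1963 .nil)
noncomputable def n1965 : Strat := .move 718 n102 (.cons 677 n1964 .nil)
noncomputable def n1966 : Strat := .move 716 n86 (.cons 675 n1965 .nil)
noncomputable def n1967 : Strat := .move 715 n1766 (.cons 759 n1780 (.cons 760 n1770 .nil))
noncomputable def n1968 : Strat := .move 716 n86 (.cons 675 n1967 .nil)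
noncomputable def n1969 : Strat := .move 718 n102 (.cons 677 n1968 .nil)
noncomputable def n1970 : Strat := .move 758 n1157 (.cons 716 n608 (.cons 718 n548 (.cons 880 n1956 (.cons 676 n1966 (.cons 798 n1969 .nil)))))
noncomputable def n1971 : Strat := .move 758 n1136 (.cons 882 n608 (.cons 839 n575 (.cons 676 n1475 .nil)))
noncomputable def n1972 : Strat := .move 716 n86 (.cons 675 n556 .nil)
noncomputable def n1973 : Strat := .move 757 n1324 (.cons 796 n1342 (.cons 842 n1191 .nil))
noncomputable def n1974 : Strat := .move 800 n71 (.cons 801 n72 .nil)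
noncomputable def n1975 : Strat := .win 757 1 715
noncomputable def n1976 : Strat := .move 879 n1975 (.cons 757 n1040 .nil)
noncomputable def n1977 : Strat := .move 838 n1974 (.cons 837 n1976 .nil)
noncomputable def n1978 : Strat := .move 797 n45 (.cons 796 n1977 .nil)
noncomputable def n1979 : Strat := .move 838 n1190 (.cons 837 n1976 .nil)
noncomputable def n1980 : Strat := .move 798 n1973 (.cons 842 n1978 (.cons 797 n1979 (.cons 838 n1477 .nil)))
noncomputable def n1981 : Strat := .move 716 n86 (.cons 675 n1980 .nil)
noncomputable def n1982 : Strat := .move 841 n552 (.cons 882 n1981 .nil)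
noncomputable def n1983 : Strat := .move 839 n542 (.cons 880 n1982 .nil)
noncomputable def n1984 : Strat := .move 758 n1972 (.cons 841 n548 (.cons 716 n556 (.cons 880 n589 (.cons 676 n1983 .nil))))
noncomputable def n1985 : Strat := .move 842 n386 (.cons 797 n47 .nil)
noncomputable def n1986 : Strat := .move 798 n1477 (.cons 842 n1978 (.cons 796 n1985 (.cons 797 n1979 .nil)))
noncomputable def n1987 : Strat := .move 841 n552 (.cons 882 n1986 .nil)
noncomputable def n1988 : Strat := .move 839 n542 (.cons 880 n1987 .nil)
noncomputable def n1989 : Strat := .move 716 n86 (.cons 675 n1988 .nil)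
noncomputable def n1990 : Strat := .move 758 n1916 (.cons 716 n1475 (.cons 841 n1966 (.cons 677 n1989 (.cons 839 n1941 .nil))))
noncomputable def n1991 : Strat := .win 839 0 795
noncomputable def n1992 : Strat := .win 755 2 754
noncomputable def n1993 : Strat := .win 753 2 753
noncomputable def n1994 : Strat := .move 754 n1992 (.cons 755 n1993 .nil)
noncomputable def n1995 : Strat := .move 795 n1991 (.cons 839 n1994 .nil)
noncomputable def n1996 : Strat := .move 796 n677 (.cons 841 n1995 .nil)
noncomputable def n1997 : Strat := .move 756 n76 (.cons 755 n1636 .nil)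
noncomputable def n1998 : Strat := .move 801 n689 (.cons 839 n1997 .nil)
noncomputable def n1999 : Strat := .move 838 n72 (.cons 837 n1998 .nil)
noncomputable def n2000 : Strat := .win 759 5 756
noncomputable def n2001 : Strat := .move 760 n2000 (.cons 759 n935 .nil)
noncomputable def n2002 : Strat := .move 801 n53 (.cons 838 n2001 .nil)
noncomputable def n2003 : Strat := .move 841 n44 (.cons 842 n2002 .nil)
noncomputable def n2004 : Strat := .win 676 7 676
noncomputable def n2005 : Strat := .move 718 n931 (.cons 677 n2004 .nil)
noncomputable def n2006 : Strat := .move 759 n1507 (.cons 760 n2005 .nil)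
noncomputable def n2007 : Strat := .move 841 n44 (.cons 842 n2006 .nil)
noncomputable def n2008 : Strat := .move 800 n1999 (.cons 837 n2003 (.cons 838 n2007 .nil))
noncomputable def n2009 : Strat := .move 841 n45 (.cons 796 n1615 .nil)
noncomputable def n2010 : Strat := .move 801 n1636 (.cons 757 n2001 .nil)
noncomputable def n2011 : Strat := .move 756 n76 (.cons 755 n2010 .nil)
noncomputable def n2012 : Strat := .move 801 n689 (.cons 839 n2001 .nil)
noncomputable def n2013 : Strat := .move 838 n72 (.cons 837 n2012 .nil)
noncomputable def n2014 : Strat := .move 800 n1999 (.cons 838 n2011 (.cons 755 n2013 (.cons 801 n680 .nil)))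
noncomputable def n2015 : Strat := .move 797 n1996 (.cons 796 n2008 (.cons 755 n2009 (.cons 841 n2014 .nil)))
noncomputable def n2016 : Strat := .win 676 3 675
noncomputable def n2017 : Strat := .move 839 n2016 (.cons 676 n1191 .nil)
noncomputable def n2018 : Strat := .move 757 n1281 (.cons 675 n2017 .nil)
noncomputable def n2019 : Strat := .win 757 6 675
noncomputable def n2020 : Strat := .win 719 2 674
noncomputable def n2021 : Strat := .win 672 0 672
noncomputable def n2022 : Strat := .win 676 0 673
noncomputable def n2023 : Strat := .move 673 n2021 (.cons 672 n2022 .nil)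
noncomputable def n2024 : Strat := .move 674 n2020 (.cons 719 n2023 .nil)
noncomputable def n2025 : Strat := .win 678 5 674
noncomputable def n2026 : Strat := .win 800 1 676
noncomputable def n2027 : Strat := .move 759 n2026 (.cons 800 n1110 .nil)
noncomputable def n2028 : Strat := .move 677 n2025 (.cons 678 n2027 .nil)
noncomputable def n2029 : Strat := .win 674 2 673
noncomputable def n2030 : Strat := .win 672 2 672
noncomputable def n2031 : Strat := .move 755 n1768 (.cons 754 n1767 .nil)
noncomputable def n2032 : Strat := .move 714 n2030 (.cons 672 n2031 .nil)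
noncomputable def n2033 : Strat := .move 673 n2029 (.cons 674 n2032 .nil)
noncomputable def n2034 : Strat := .move 715 n2028 (.cons 677 n2033 .nil)
noncomputable def n2035 : Strat := .win 676 2 675
noncomputable def n2036 : Strat := .move 720 n2035 (.cons 676 n1774 .nil)
noncomputable def n2037 : Strat := .move 720 n2035 (.cons 676 n1777 .nil)
noncomputable def n2038 : Strat := .win 677 5 674
noncomputable def n2039 : Strat := .move 715 n2038 (.cons 677 n1958 .nil)
noncomputable def n2040 : Strat := .move 678 n1934 (.cons 679 n2039 .nil)
noncomputable def n2041 : Strat := .move 719 n2036 (.cons 760 n2037 (.cons 720 n2040 .nil))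
noncomputable def n2042 : Strat := .move 718 n2024 (.cons 719 n2034 (.cons 674 n2041 .nil))
noncomputable def n2043 : Strat := .move 675 n2019 (.cons 757 n2042 .nil)
noncomputable def n2044 : Strat := .win 880 7 715
noncomputable def n2045 : Strat := .move 718 n1158 (.cons 755 n577 .nil)
noncomputable def n2046 : Strat := .move 756 n2044 (.cons 880 n2045 .nil)
noncomputable def n2047 : Strat := .move 715 n1151 (.cons 674 n2046 .nil)
noncomputable def n2048 : Strat := .move 839 n1191 (.cons 800 n2047 .nil)
noncomputable def n2049 : Strat := .move 757 n1281 (.cons 675 n2048 .nil)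
noncomputable def n2050 : Strat := .move 839 n2016 (.cons 676 n2047 .nil)
noncomputable def n2051 : Strat := .move 757 n1281 (.cons 675 n2050 .nil)
noncomputable def n2052 : Strat := .move 759 n1110 (.cons 760 n2026 .nil)
noncomputable def n2053 : Strat := .move 677 n2025 (.cons 678 n2052 .nil)
noncomputable def n2054 : Strat := .move 839 n1151 (.cons 674 n2016 .nil)
noncomputable def n2055 : Strat := .move 757 n577 (.cons 719 n2054 .nil)
noncomputable def n2056 : Strat := .move 756 n1158 (.cons 755 n2055 .nil)
noncomputable def n2057 : Strat := .move 715 n2053 (.cons 678 n2056 .nil)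
noncomputable def n2058 : Strat := .move 673 n2030 (.cons 672 n2029 .nil)
noncomputable def n2059 : Strat := .move 714 n2058 (.cons 674 n2031 .nil)
noncomputable def n2060 : Strat := .move 800 n931 (.cons 677 n2059 .nil)
noncomputable def n2061 : Strat := .move 759 n1110 (.cons 760 n2060 .nil)
noncomputable def n2062 : Strat := .move 757 n1151 (.cons 674 n2016 .nil)
noncomputable def n2063 : Strat := .win 841 7 676
noncomputable def n2064 : Strat := .win 757 3 675
noncomputable def n2065 : Strat := .move 676 n2063 (.cons 841 n2064 .nil)
noncomputable def n2066 : Strat := .move 839 n2062 (.cons 676 n1115 (.cons 674 n2065 (.cons 757 n74 .nil)))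
noncomputable def n2067 : Strat := .move 800 n931 (.cons 677 n2066 .nil)
noncomputable def n2068 : Strat := .move 759 n1110 (.cons 760 n2067 .nil)
noncomputable def n2069 : Strat := .move 839 n2044 (.cons 880 n2016 .nil)
noncomputable def n2070 : Strat := .move 757 n577 (.cons 719 n2069 .nil)
noncomputable def n2071 : Strat := .move 756 n1158 (.cons 755 n2070 .nil)
noncomputable def n2072 : Strat := .move 715 n2056 (.cons 757 n2061 (.cons 755 n2068 (.cons 674 n2071 .nil)))
noncomputable def n2073 : Strat := .win 676 5 673
noncomputable def n2074 : Strat := .move 714 n2073 (.cons 676 n2058 .nil)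
noncomputable def n2075 : Strat := .move 677 n2025 (.cons 678 n2074 .nil)
noncomputable def n2076 : Strat := .win 839 7 674
noncomputable def n2077 : Strat := .win 756 6 633
noncomputable def n2078 : Strat := .move 633 n2077 (.cons 756 n1944 .nil)
noncomputable def n2079 : Strat := .move 757 n2076 (.cons 839 n2078 .nil)
noncomputable def n2080 : Strat := .move 674 n1114 (.cons 673 n2079 .nil)
noncomputable def n2081 : Strat := .move 715 n2053 (.cons 760 n2075 (.cons 677 n2080 .nil))
noncomputable def n2082 : Strat := .move 719 n1932 (.cons 761 n2059 .nil)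
noncomputable def n2083 : Strat := .move 760 n1957 (.cons 759 n2082 .nil)
noncomputable def n2084 : Strat := .move 715 n2053 (.cons 678 n2061 (.cons 677 n2083 (.cons 759 n2075 .nil)))
noncomputable def n2085 : Strat := .win 714 5 673
noncomputable def n2086 : Strat := .win 839 3 675
noncomputable def n2087 : Strat := .move 757 n1149 (.cons 756 n2086 .nil)
noncomputable def n2088 : Strat := .move 719 n1958 (.cons 759 n2087 .nil)
noncomputable def n2089 : Strat := .move 676 n2085 (.cons 714 n2088 .nil)
noncomputable def n2090 : Strat := .move 677 n2025 (.cons 678 n2089 .nil)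
noncomputable def n2091 : Strat := .move 674 n2076 (.cons 839 n1114 .nil)
noncomputable def n2092 : Strat := .move 757 n577 (.cons 719 n2091 .nil)
noncomputable def n2093 : Strat := .move 756 n1158 (.cons 755 n2092 .nil)
noncomputable def n2094 : Strat := .move 715 n2056 (.cons 755 n2090 (.cons 756 n2075 (.cons 676 n2093 .nil)))
noncomputable def n2095 : Strat := .move 715 n2056 (.cons 757 n2075 (.cons 676 n2093 (.cons 674 n2071 .nil)))
noncomputable def n2096 : Strat := .move 715 n2093 (.cons 757 n2053 .nil)
noncomputable def n2097 : Strat := .move 837 n827 (.cons 800 n596 .nil)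
noncomputable def n2098 : Strat := .move 838 n1189 (.cons 879 n2097 .nil)
noncomputable def n2099 : Strat := .move 839 n2016 (.cons 676 n2098 .nil)
noncomputable def n2100 : Strat := .move 757 n1149 (.cons 756 n2099 .nil)
noncomputable def n2101 : Strat := .move 720 n1772 (.cons 762 n1777 .nil)
noncomputable def n2102 : Strat := .move 761 n1773 (.cons 760 n2101 .nil)
noncomputable def n2103 : Strat := .move 719 n2100 (.cons 757 n2102 .nil)
noncomputable def n2104 : Strat := .move 715 n2025 (.cons 678 n2052 .nil)
noncomputable def n2105 : Strat := .move 715 n2025 (.cons 678 n2074 .nil)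
noncomputable def n2106 : Strat := .win 759 1 676
noncomputable def n2107 : Strat := .move 802 n514 (.cons 839 n690 .nil)
noncomputable def n2108 : Strat := .win 719 7 677
noncomputable def n2109 : Strat := .move 842 n2108 (.cons 719 n634 .nil)
noncomputable def n2110 : Strat := .move 760 n935 (.cons 761 n2109 .nil)
noncomputable def n2111 : Strat := .move 801 n633 (.cons 838 n2107 (.cons 802 n2110 .nil))
noncomputable def n2112 : Strat := .move 800 n2106 (.cons 759 n2111 .nil)
noncomputable def n2113 : Strat := .move 677 n2104 (.cons 759 n2105 (.cons 715 n2112 .nil))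
noncomputable def n2114 : Strat := .move 718 n2057 (.cons 678 n2072 (.cons 719 n2081 (.cons 757 n2084 (.cons 800 n2094 (.cons 759 n2095 (.cons 676 n2096 (.cons 715 n2103 (.cons 756 n2113 .nil))))))))
noncomputable def n2115 : Strat := .win 675 2 674
noncomputable def n2116 : Strat := .move 719 n2115 (.cons 675 n1958 .nil)
noncomputable def n2117 : Strat := .move 674 n1114 (.cons 673 n2116 .nil)
noncomputable def n2118 : Strat := .move 715 n2053 (.cons 677 n2117 (.cons 760 n2075 .nil))
noncomputable def n2119 : Strat := .move 715 n2053 (.cons 677 n2033 .nil)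
noncomputable def n2120 : Strat := .win 841 3 677
noncomputable def n2121 : Strat := .move 678 n2120 (.cons 841 n1934 .nil)
noncomputable def n2122 : Strat := .move 759 n1129 (.cons 715 n2121 .nil)
noncomputable def n2123 : Strat := .move 760 n1932 (.cons 761 n2122 .nil)
noncomputable def n2124 : Strat := .win 674 2 674
noncomputable def n2125 : Strat := .move 675 n2124 (.cons 674 n2037 .nil)
noncomputable def n2126 : Strat := .move 674 n2115 (.cons 675 n1114 .nil)
noncomputable def n2127 : Strat := .move 715 n1957 (.cons 759 n2126 .nil)
noncomputable def n2128 : Strat := .move 760 n1932 (.cons 761 n2127 .nil)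
noncomputable def n2129 : Strat := .move 800 n2123 (.cons 760 n2125 (.cons 678 n2128 .nil))
noncomputable def n2130 : Strat := .move 675 n2124 (.cons 674 n2036 .nil)
noncomputable def n2131 : Strat := .move 715 n1957 (.cons 759 n2059 .nil)
noncomputable def n2132 : Strat := .move 760 n1932 (.cons 761 n2131 .nil)
noncomputable def n2133 : Strat := .win 800 1 636
noncomputable def n2134 : Strat := .win 596 1 595
noncomputable def n2135 : Strat := .move 637 n2133 (.cons 800 n2134 .nil)
noncomputable def n2136 : Strat := .move 759 n1129 (.cons 715 n2135 .nil)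
noncomputable def n2137 : Strat := .move 678 n1934 (.cons 679 n2136 .nil)
noncomputable def n2138 : Strat := .move 760 n1932 (.cons 761 n2137 .nil)
noncomputable def n2139 : Strat := .move 719 n2129 (.cons 759 n2130 (.cons 675 n2132 (.cons 674 n2138 (.cons 760 n2125 .nil))))
noncomputable def n2140 : Strat := .move 715 n2038 (.cons 677 n2126 .nil)
noncomputable def n2141 : Strat := .move 678 n1934 (.cons 679 n2140 .nil)
noncomputable def n2142 : Strat := .move 715 n2038 (.cons 677 n2059 .nil)
noncomputable def n2143 : Strat := .move 678 n1934 (.cons 679 n2142 .nil)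
noncomputable def n2144 : Strat := .win 715 5 674
noncomputable def n2145 : Strat := .win 801 7 636
noncomputable def n2146 : Strat := .win 595 6 595
noncomputable def n2147 : Strat := .move 636 n2145 (.cons 801 n2146 .nil)
noncomputable def n2148 : Strat := .move 760 n1932 (.cons 761 n2147 .nil)
noncomputable def n2149 : Strat := .move 677 n2144 (.cons 715 n2148 .nil)
noncomputable def n2150 : Strat := .move 678 n1934 (.cons 679 n2149 .nil)
noncomputable def n2151 : Strat := .move 719 n2141 (.cons 678 n2130 (.cons 675 n2143 (.cons 674 n2150 .nil)))
noncomputable def n2152 : Strat := .move 755 n1767 (.cons 756 n2116 .nil)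
noncomputable def n2153 : Strat := .move 674 n1114 (.cons 673 n2152 .nil)
noncomputable def n2154 : Strat := .win 676 5 672
noncomputable def n2155 : Strat := .win 712 5 671
noncomputable def n2156 : Strat := .move 713 n2154 (.cons 676 n2155 .nil)
noncomputable def n2157 : Strat := .move 714 n2031 (.cons 756 n2156 .nil)
noncomputable def n2158 : Strat := .move 675 n2020 (.cons 719 n2157 .nil)
noncomputable def n2159 : Strat := .move 674 n1114 (.cons 673 n2158 .nil)
noncomputable def n2160 : Strat := .move 714 n2073 (.cons 676 n2031 .nil)
noncomputable def n2161 : Strat := .move 677 n2026 (.cons 800 n2160 .nil)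
noncomputable def n2162 : Strat := .move 759 n1110 (.cons 760 n2161 .nil)
noncomputable def n2163 : Strat := .move 715 n2153 (.cons 759 n2159 (.cons 755 n2117 (.cons 675 n2061 (.cons 674 n2162 .nil))))
noncomputable def n2164 : Strat := .move 677 n2025 (.cons 678 n2160 .nil)
noncomputable def n2165 : Strat := .move 719 n1934 (.cons 679 n2115 .nil)
noncomputable def n2166 : Strat := .move 678 n2038 (.cons 677 n2165 .nil)
noncomputable def n2167 : Strat := .move 755 n1767 (.cons 756 n2166 .nil)
noncomputable def n2168 : Strat := .move 674 n1114 (.cons 673 n2167 .nil)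
noncomputable def n2169 : Strat := .move 715 n2075 (.cons 674 n2164 (.cons 678 n2159 (.cons 676 n2168 .nil)))
noncomputable def n2170 : Strat := .move 715 n2025 (.cons 678 n2160 .nil)
noncomputable def n2171 : Strat := .move 677 n2104 (.cons 760 n2170 (.cons 715 n2112 .nil))
noncomputable def n2172 : Strat := .move 715 n2038 (.cons 677 n1957 .nil)
noncomputable def n2173 : Strat := .move 760 n1932 (.cons 761 n2172 .nil)
noncomputable def n2174 : Strat := .move 678 n1934 (.cons 679 n2173 .nil)
noncomputable def n2175 : Strat := .win 801 6 636
noncomputable def n2176 : Strat := .move 636 n2175 (.cons 801 n2146 .nil)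
noncomputable def n2177 : Strat := .move 677 n2026 (.cons 800 n2176 .nil)
noncomputable def n2178 : Strat := .move 759 n1129 (.cons 715 n2177 .nil)
noncomputable def n2179 : Strat := .move 760 n1932 (.cons 761 n2178 .nil)
noncomputable def n2180 : Strat := .move 675 n2035 (.cons 676 n2124 .nil)
noncomputable def n2181 : Strat := .move 720 n1772 (.cons 762 n2180 .nil)
noncomputable def n2182 : Strat := .move 761 n1773 (.cons 760 n2181 .nil)
noncomputable def n2183 : Strat := .move 678 n1934 (.cons 679 n2182 .nil)
noncomputable def n2184 : Strat := .move 719 n2174 (.cons 678 n2179 (.cons 715 n2183 (.cons 761 n2141 .nil)))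
noncomputable def n2185 : Strat := .move 759 n2120 (.cons 841 n931 .nil)
noncomputable def n2186 : Strat := .win 760 1 636
noncomputable def n2187 : Strat := .move 637 n2186 (.cons 760 n2134 .nil)
noncomputable def n2188 : Strat := .move 759 n2120 (.cons 841 n2187 .nil)
noncomputable def n2189 : Strat := .move 759 n931 (.cons 677 n2187 .nil)
noncomputable def n2190 : Strat := .move 760 n720 (.cons 841 n1932 .nil)
noncomputable def n2191 : Strat := .move 801 n2190 (.cons 761 n633 .nil)
noncomputable def n2192 : Strat := .move 800 n2185 (.cons 677 n2188 (.cons 841 n2189 (.cons 759 n2191 .nil)))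
noncomputable def n2193 : Strat := .move 678 n1934 (.cons 679 n2192 .nil)
noncomputable def n2194 : Strat := .move 719 n2183 (.cons 678 n2130 (.cons 760 n2125 (.cons 675 n2102 (.cons 720 n2193 .nil))))
noncomputable def n2195 : Strat := .move 718 n2118 (.cons 719 n2119 (.cons 677 n2139 (.cons 759 n2151 (.cons 678 n2163 (.cons 760 n2169 (.cons 674 n2171 (.cons 714 n2184 (.cons 715 n2194 .nil))))))))
noncomputable def n2196 : Strat := .move 716 n2018 (.cons 839 n2043 (.cons 676 n2049 (.cons 800 n2051 (.cons 675 n2114 (.cons 757 n2195 .nil)))))
noncomputable def n2197 : Strat := .win 715 4 714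
noncomputable def n2198 : Strat := .move 718 n577 (.cons 719 n2197 .nil)
noncomputable def n2199 : Strat := .move 755 n290 (.cons 754 n2198 .nil)
noncomputable def n2200 : Strat := .win 801 2 756
noncomputable def n2201 : Strat := .win 797 2 755
noncomputable def n2202 : Strat := .move 800 n2200 (.cons 801 n2201 .nil)
noncomputable def n2203 : Strat := .move 755 n290 (.cons 754 n2202 .nil)
noncomputable def n2204 : Strat := .move 760 n1718 (.cons 797 n1129 .nil)
noncomputable def n2205 : Strat := .move 759 n931 (.cons 677 n2204 .nil)
noncomputable def n2206 : Strat := .move 800 n2200 (.cons 801 n2205 .nil)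
noncomputable def n2207 : Strat := .move 718 n577 (.cons 719 n2206 .nil)
noncomputable def n2208 : Strat := .move 756 n2199 (.cons 715 n2203 (.cons 755 n2207 .nil))
noncomputable def n2209 : Strat := .move 757 n2017 (.cons 839 n2208 (.cons 800 n2050 .nil))
noncomputable def n2210 : Strat := .move 757 n1281 (.cons 675 n2208 .nil)
noncomputable def n2211 : Strat := .win 634 3 633
noncomputable def n2212 : Strat := .move 797 n2211 (.cons 634 n303 .nil)
noncomputable def n2213 : Strat := .move 675 n2020 (.cons 719 n2212 .nil)
noncomputable def n2214 : Strat := .move 756 n1158 (.cons 755 n2213 .nil)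
noncomputable def n2215 : Strat := .move 674 n1114 (.cons 673 n2214 .nil)
noncomputable def n2216 : Strat := .move 718 n2053 (.cons 678 n2215 .nil)
noncomputable def n2217 : Strat := .move 678 n1934 (.cons 679 n2038 .nil)
noncomputable def n2218 : Strat := .move 719 n2115 (.cons 675 n2217 .nil)
noncomputable def n2219 : Strat := .move 674 n1114 (.cons 673 n2218 .nil)
noncomputable def n2220 : Strat := .move 718 n2053 (.cons 678 n2153 (.cons 759 n2219 .nil))
noncomputable def n2221 : Strat := .move 718 n2053 (.cons 677 n2117 (.cons 759 n2219 .nil))
noncomputable def n2222 : Strat := .move 673 n2029 (.cons 674 n2030 .nil)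
noncomputable def n2223 : Strat := .move 714 n2073 (.cons 676 n2222 .nil)
noncomputable def n2224 : Strat := .move 677 n2025 (.cons 678 n2223 .nil)
noncomputable def n2225 : Strat := .move 714 n2073 (.cons 676 n1769 .nil)
noncomputable def n2226 : Strat := .move 677 n2025 (.cons 678 n2225 .nil)
noncomputable def n2227 : Strat := .move 718 n2117 (.cons 675 n2224 (.cons 674 n2226 .nil))
noncomputable def n2228 : Strat := .move 714 n1768 (.cons 754 n2222 .nil)
noncomputable def n2229 : Strat := .move 755 n1767 (.cons 756 n2228 .nil)
noncomputable def n2230 : Strat := .move 718 n2053 (.cons 800 n2224 (.cons 677 n2229 .nil))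
noncomputable def n2231 : Strat := .move 677 n2026 (.cons 800 n2225 .nil)
noncomputable def n2232 : Strat := .move 759 n1110 (.cons 760 n2231 .nil)
noncomputable def n2233 : Strat := .move 718 n2215 (.cons 634 n2153 (.cons 674 n2232 (.cons 755 n2117 .nil)))
noncomputable def n2234 : Strat := .move 718 n2215 (.cons 755 n2219 (.cons 673 n2226 .nil))
noncomputable def n2235 : Strat := .win 718 4 714
noncomputable def n2236 : Strat := .win 800 2 755
noncomputable def n2237 : Strat := .win 632 6 632
noncomputable def n2238 : Strat := .move 673 n2237 (.cons 632 n2030 .nil)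
noncomputable def n2239 : Strat := .move 797 n2236 (.cons 800 n2238 .nil)
noncomputable def n2240 : Strat := .move 756 n2235 (.cons 718 n2239 .nil)
noncomputable def n2241 : Strat := .move 755 n1768 (.cons 754 n2240 .nil)
noncomputable def n2242 : Strat := .move 718 n2025 (.cons 678 n1769 .nil)
noncomputable def n2243 : Strat := .move 677 n2073 (.cons 676 n2242 .nil)
noncomputable def n2244 : Strat := .win 671 2 671
noncomputable def n2245 : Strat := .win 673 2 672
noncomputable def n2246 : Strat := .move 672 n2244 (.cons 671 n2245 .nil)
noncomputable def n2247 : Strat := .win 675 5 672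
noncomputable def n2248 : Strat := .win 677 5 673
noncomputable def n2249 : Strat := .move 676 n2247 (.cons 675 n2248 .nil)
noncomputable def n2250 : Strat := .move 713 n2246 (.cons 673 n2249 .nil)
noncomputable def n2251 : Strat := .move 755 n1768 (.cons 754 n2250 .nil)
noncomputable def n2252 : Strat := .win 755 4 713
noncomputable def n2253 : Strat := .win 753 4 712
noncomputable def n2254 : Strat := .move 713 n2253 (.cons 753 n2246 .nil)
noncomputable def n2255 : Strat := .move 754 n2252 (.cons 755 n2254 .nil)
noncomputable def n2256 : Strat := .move 718 n2025 (.cons 678 n2027 .nil)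
noncomputable def n2257 : Strat := .move 677 n2073 (.cons 676 n2256 .nil)
noncomputable def n2258 : Strat := .move 839 n2243 (.cons 678 n2251 (.cons 677 n2255 (.cons 755 n2257 .nil)))
noncomputable def n2259 : Strat := .move 713 n2247 (.cons 675 n2246 .nil)
noncomputable def n2260 : Strat := .move 676 n2248 (.cons 677 n2259 .nil)
noncomputable def n2261 : Strat := .win 673 7 673
noncomputable def n2262 : Strat := .win 675 3 674
noncomputable def n2263 : Strat := .move 838 n2261 (.cons 673 n2262 .nil)
noncomputable def n2264 : Strat := .move 797 n2236 (.cons 800 n2263 .nil)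
noncomputable def n2265 : Strat := .move 756 n2235 (.cons 718 n2264 .nil)
noncomputable def n2266 : Strat := .move 755 n1768 (.cons 754 n2265 .nil)
noncomputable def n2267 : Strat := .move 677 n2025 (.cons 678 n2073 .nil)
noncomputable def n2268 : Strat := .move 718 n1767 (.cons 756 n2267 .nil)
noncomputable def n2269 : Strat := .move 755 n1768 (.cons 754 n2268 .nil)
noncomputable def n2270 : Strat := .move 714 n2241 (.cons 797 n2258 (.cons 756 n2260 (.cons 672 n2266 (.cons 673 n2269 .nil))))
noncomputable def n2271 : Strat := .move 800 n72 (.cons 837 n76 .nil)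
noncomputable def n2272 : Strat := .move 838 n2262 (.cons 675 n2271 .nil)
noncomputable def n2273 : Strat := .win 796 2 754
noncomputable def n2274 : Strat := .win 714 4 713
noncomputable def n2275 : Strat := .move 754 n2273 (.cons 796 n2274 .nil)
noncomputable def n2276 : Strat := .move 755 n2236 (.cons 800 n2275 .nil)
noncomputable def n2277 : Strat := .win 878 1 714
noncomputable def n2278 : Strat := .win 800 4 796
noncomputable def n2279 : Strat := .move 837 n2277 (.cons 878 n2278 .nil)
noncomputable def n2280 : Strat := .move 838 n2262 (.cons 675 n2279 .nil)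
noncomputable def n2281 : Strat := .win 838 3 674
noncomputable def n2282 : Strat := .move 675 n2211 (.cons 634 n2281 .nil)
noncomputable def n2283 : Strat := .move 674 n303 (.cons 839 n2282 .nil)
noncomputable def n2284 : Strat := .move 756 n2272 (.cons 837 n2276 (.cons 755 n2280 (.cons 800 n2283 .nil)))
noncomputable def n2285 : Strat := .move 756 n2236 (.cons 800 n2238 .nil)
noncomputable def n2286 : Strat := .move 755 n1768 (.cons 754 n2285 .nil)
noncomputable def n2287 : Strat := .move 713 n2247 (.cons 675 n2253 .nil)
noncomputable def n2288 : Strat := .move 676 n2248 (.cons 677 n2287 .nil)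
noncomputable def n2289 : Strat := .move 754 n2252 (.cons 755 n2288 .nil)
noncomputable def n2290 : Strat := .move 714 n2286 (.cons 632 n2251 (.cons 755 n2260 (.cons 672 n2289 .nil)))
noncomputable def n2291 : Strat := .win 632 7 632
noncomputable def n2292 : Strat := .win 671 0 671
noncomputable def n2293 : Strat := .win 714 2 672
noncomputable def n2294 : Strat := .move 672 n2292 (.cons 671 n2293 .nil)
noncomputable def n2295 : Strat := .move 673 n2291 (.cons 632 n2294 .nil)
noncomputable def n2296 : Strat := .move 674 n303 (.cons 839 n2295 .nil)
noncomputable def n2297 : Strat := .move 756 n2272 (.cons 755 n2280 (.cons 838 n2296 .nil))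
noncomputable def n2298 : Strat := .win 879 7 714
noncomputable def n2299 : Strat := .move 755 n2298 (.cons 879 n1768 .nil)
noncomputable def n2300 : Strat := .move 714 n2261 (.cons 673 n2299 .nil)
noncomputable def n2301 : Strat := .move 838 n2262 (.cons 675 n2300 .nil)
noncomputable def n2302 : Strat := .move 756 n2283 (.cons 838 n2296 (.cons 674 n2301 .nil))
noncomputable def n2303 : Strat := .move 713 n2247 (.cons 675 n2244 .nil)
noncomputable def n2304 : Strat := .move 676 n2248 (.cons 677 n2303 .nil)
noncomputable def n2305 : Strat := .move 672 n2245 (.cons 673 n2304 .nil)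
noncomputable def n2306 : Strat := .win 674 3 673
noncomputable def n2307 : Strat := .move 837 n2306 (.cons 674 n639 .nil)
noncomputable def n2308 : Strat := .win 838 6 673
noncomputable def n2309 : Strat := .move 673 n2308 (.cons 838 n2030 .nil)
noncomputable def n2310 : Strat := .move 796 n2307 (.cons 836 n2309 .nil)
noncomputable def n2311 : Strat := .move 755 n1768 (.cons 754 n2310 .nil)
noncomputable def n2312 : Strat := .move 714 n2255 (.cons 753 n2305 (.cons 672 n2289 (.cons 713 n2311 .nil)))
noncomputable def n2313 : Strat := .move 838 n1380 (.cons 880 n2262 .nil)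
noncomputable def n2314 : Strat := .move 839 n1381 (.cons 674 n2313 .nil)
noncomputable def n2315 : Strat := .win 753 0 753
noncomputable def n2316 : Strat := .move 754 n2315 (.cons 753 n2273 .nil)
noncomputable def n2317 : Strat := .move 755 n2236 (.cons 800 n2316 .nil)
noncomputable def n2318 : Strat := .move 674 n303 (.cons 839 n2317 .nil)
noncomputable def n2319 : Strat := .move 756 n2272 (.cons 837 n2314 (.cons 838 n2318 .nil))
noncomputable def n2320 : Strat := .move 756 n2280 (.cons 838 n2296 .nil)
noncomputable def n2321 : Strat := .move 754 n2315 (.cons 753 n2274 .nil)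
noncomputable def n2322 : Strat := .move 755 n2236 (.cons 800 n2321 .nil)
noncomputable def n2323 : Strat := .win 921 7 756
noncomputable def n2324 : Strat := .win 838 6 715
noncomputable def n2325 : Strat := .move 880 n2323 (.cons 921 n2324 .nil)
noncomputable def n2326 : Strat := .move 839 n1381 (.cons 674 n2325 .nil)
noncomputable def n2327 : Strat := .move 756 n2276 (.cons 796 n2322 (.cons 755 n2326 .nil))
noncomputable def n2328 : Strat := .move 797 n2284 (.cons 838 n2290 (.cons 754 n2297 (.cons 800 n2302 (.cons 756 n2312 (.cons 714 n2319 (.cons 755 n2320 (.cons 675 n2327 .nil)))))))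
noncomputable def n2329 : Strat := .move 718 n1767 (.cons 756 n2029 .nil)
noncomputable def n2330 : Strat := .move 673 n2030 (.cons 672 n2329 .nil)
noncomputable def n2331 : Strat := .move 755 n1768 (.cons 754 n2330 .nil)
noncomputable def n2332 : Strat := .move 838 n2298 (.cons 879 n2262 .nil)
noncomputable def n2333 : Strat := .move 797 n2236 (.cons 800 n2332 .nil)
noncomputable def n2334 : Strat := .move 756 n2235 (.cons 718 n2333 .nil)
noncomputable def n2335 : Strat := .move 755 n1768 (.cons 754 n2334 .nil)
noncomputable def n2336 : Strat := .win 718 2 673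
noncomputable def n2337 : Strat := .win 796 3 632
noncomputable def n2338 : Strat := .win 592 1 591
noncomputable def n2339 : Strat := .move 633 n2337 (.cons 796 n2338 .nil)
noncomputable def n2340 : Strat := .move 755 n1768 (.cons 754 n2339 .nil)
noncomputable def n2341 : Strat := .move 674 n2336 (.cons 718 n2340 .nil)
noncomputable def n2342 : Strat := .move 673 n2030 (.cons 672 n2341 .nil)
noncomputable def n2343 : Strat := .win 752 4 711
noncomputable def n2344 : Strat := .win 754 4 712
noncomputable def n2345 : Strat := .move 753 n2343 (.cons 752 n2344 .nil)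
noncomputable def n2346 : Strat := .win 674 5 671
noncomputable def n2347 : Strat := .move 675 n2346 (.cons 674 n2154 .nil)
noncomputable def n2348 : Strat := .move 712 n2345 (.cons 754 n2347 .nil)
noncomputable def n2349 : Strat := .move 713 n2244 (.cons 671 n2348 .nil)
noncomputable def n2350 : Strat := .move 672 n2245 (.cons 673 n2349 .nil)
noncomputable def n2351 : Strat := .move 718 n1158 (.cons 755 n2029 .nil)
noncomputable def n2352 : Strat := .win 838 7 673
noncomputable def n2353 : Strat := .move 755 n2236 (.cons 800 n2235 .nil)
noncomputable def n2354 : Strat := .move 797 n2352 (.cons 838 n2353 .nil)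
noncomputable def n2355 : Strat := .move 674 n303 (.cons 839 n2336 .nil)
noncomputable def n2356 : Strat := .move 797 n2352 (.cons 838 n2355 .nil)
noncomputable def n2357 : Strat := .win 755 6 632
noncomputable def n2358 : Strat := .win 591 6 591
noncomputable def n2359 : Strat := .move 632 n2357 (.cons 755 n2358 .nil)
noncomputable def n2360 : Strat := .move 797 n2352 (.cons 838 n2359 .nil)
noncomputable def n2361 : Strat := .move 756 n2351 (.cons 674 n2354 (.cons 755 n2356 (.cons 718 n2360 .nil)))
noncomputable def n2362 : Strat := .move 673 n2030 (.cons 672 n2361 .nil)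
noncomputable def n2363 : Strat := .move 714 n2331 (.cons 674 n2241 (.cons 673 n2335 (.cons 756 n2342 (.cons 755 n2350 (.cons 754 n2362 .nil)))))
noncomputable def n2364 : Strat := .move 754 n2253 (.cons 753 n2252 .nil)
noncomputable def n2365 : Strat := .move 713 n2247 (.cons 675 n2364 .nil)
noncomputable def n2366 : Strat := .move 676 n2248 (.cons 677 n2365 .nil)
noncomputable def n2367 : Strat := .win 670 2 670
noncomputable def n2368 : Strat := .win 672 2 671
noncomputable def n2369 : Strat := .move 671 n2367 (.cons 670 n2368 .nil)
noncomputable def n2370 : Strat := .move 712 n2369 (.cons 672 n2345 .nil)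
noncomputable def n2371 : Strat := .move 713 n2247 (.cons 675 n2370 .nil)
noncomputable def n2372 : Strat := .move 676 n2248 (.cons 677 n2371 .nil)
noncomputable def n2373 : Strat := .move 714 n2269 (.cons 677 n2335 (.cons 718 n2366 (.cons 755 n2372 (.cons 754 n2257 .nil))))
noncomputable def n2374 : Strat := .move 715 n2216 (.cons 634 n2220 (.cons 755 n2221 (.cons 800 n2227 (.cons 675 n2230 (.cons 678 n2233 (.cons 759 n2234 (.cons 674 n2270 (.cons 718 n2328 (.cons 677 n2363 (.cons 673 n2373 .nil))))))))))
noncomputable def n2375 : Strat := .move 716 n2018 (.cons 675 n2209 (.cons 839 n2210 (.cons 800 n2051 (.cons 757 n2374 .nil))))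
noncomputable def n2376 : Strat := .move 800 n637 (.cons 756 n640 .nil)
noncomputable def n2377 : Strat := .move 837 n639 (.cons 836 n2376 .nil)
noncomputable def n2378 : Strat := .move 755 n636 (.cons 754 n2377 .nil)
noncomputable def n2379 : Strat := .move 796 n677 (.cons 841 n2378 .nil)
noncomputable def n2380 : Strat := .move 838 n1282 (.cons 879 n72 .nil)
noncomputable def n2381 : Strat := .move 716 n1281 (.cons 675 n2380 .nil)
noncomputable def n2382 : Strat := .move 757 n2200 (.cons 801 n2381 .nil)
noncomputable def n2383 : Strat := .move 756 n76 (.cons 755 n2382 .nil)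
noncomputable def n2384 : Strat := .move 800 n2007 (.cons 842 n2383 .nil)
noncomputable def n2385 : Strat := .win 879 6 714
noncomputable def n2386 : Strat := .win 673 6 673
noncomputable def n2387 : Strat := .move 838 n2385 (.cons 879 n2386 .nil)
noncomputable def n2388 : Strat := .win 756 3 714
noncomputable def n2389 : Strat := .move 715 n2388 (.cons 756 n2306 .nil)
noncomputable def n2390 : Strat := .win 919 3 755
noncomputable def n2391 : Strat := .win 715 3 714
noncomputable def n2392 : Strat := .move 756 n2390 (.cons 919 n2391 .nil)
noncomputable def n2393 : Strat := .win 920 6 755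
noncomputable def n2394 : Strat := .win 838 6 714
noncomputable def n2395 : Strat := .move 879 n2393 (.cons 920 n2394 .nil)
noncomputable def n2396 : Strat := .move 878 n2389 (.cons 674 n2392 (.cons 756 n2395 .nil))
noncomputable def n2397 : Strat := .win 633 3 632
noncomputable def n2398 : Strat := .win 715 3 673
noncomputable def n2399 : Strat := .move 674 n2397 (.cons 633 n2398 .nil)
noncomputable def n2400 : Strat := .move 673 n2308 (.cons 838 n2399 .nil)
noncomputable def n2401 : Strat := .win 631 7 631
noncomputable def n2402 : Strat := .win 713 7 672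
noncomputable def n2403 : Strat := .move 672 n2401 (.cons 631 n2402 .nil)
noncomputable def n2404 : Strat := .move 673 n2399 (.cons 715 n2403 .nil)
noncomputable def n2405 : Strat := .move 714 n2387 (.cons 673 n2396 (.cons 879 n2400 (.cons 838 n2404 .nil)))
noncomputable def n2406 : Strat := .move 837 n639 (.cons 836 n2405 .nil)
noncomputable def n2407 : Strat := .move 755 n636 (.cons 754 n2406 .nil)
noncomputable def n2408 : Strat := .move 796 n677 (.cons 841 n2407 .nil)
noncomputable def n2409 : Strat := .move 714 n2385 (.cons 879 n2386 .nil)
noncomputable def n2410 : Strat := .move 838 n2278 (.cons 800 n2409 .nil)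
noncomputable def n2411 : Strat := .move 755 n636 (.cons 754 n2410 .nil)
noncomputable def n2412 : Strat := .move 837 n639 (.cons 836 n2411 .nil)
noncomputable def n2413 : Strat := .move 796 n677 (.cons 841 n2412 .nil)
noncomputable def n2414 : Strat := .move 796 n636 (.cons 754 n2377 .nil)
noncomputable def n2415 : Strat := .move 837 n639 (.cons 836 n2410 .nil)
noncomputable def n2416 : Strat := .move 796 n636 (.cons 754 n2415 .nil)
noncomputable def n2417 : Strat := .win 757 0 754
noncomputable def n2418 : Strat := .move 754 n2315 (.cons 753 n2417 .nil)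
noncomputable def n2419 : Strat := .move 756 n2236 (.cons 800 n2418 .nil)
noncomputable def n2420 : Strat := .move 796 n636 (.cons 754 n2406 .nil)
noncomputable def n2421 : Strat := .move 675 n2281 (.cons 838 n2019 .nil)
noncomputable def n2422 : Strat := .move 716 n2235 (.cons 718 n2421 .nil)
noncomputable def n2423 : Strat := .move 714 n2261 (.cons 673 n2298 .nil)
noncomputable def n2424 : Strat := .move 838 n2262 (.cons 675 n2423 .nil)
noncomputable def n2425 : Strat := .move 716 n2235 (.cons 718 n2424 .nil)
noncomputable def n2426 : Strat := .win 837 1 673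
noncomputable def n2427 : Strat := .win 633 1 632
noncomputable def n2428 : Strat := .move 796 n2426 (.cons 837 n2427 .nil)
noncomputable def n2429 : Strat := .win 796 1 673
noncomputable def n2430 : Strat := .move 837 n2277 (.cons 878 n2429 .nil)
noncomputable def n2431 : Strat := .move 838 n2430 (.cons 796 n2423 .nil)
noncomputable def n2432 : Strat := .win 757 6 633
noncomputable def n2433 : Strat := .win 796 1 632
noncomputable def n2434 : Strat := .move 633 n2432 (.cons 757 n2433 .nil)
noncomputable def n2435 : Strat := .win 591 7 591
noncomputable def n2436 : Strat := .win 673 7 632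
noncomputable def n2437 : Strat := .move 632 n2435 (.cons 591 n2436 .nil)
noncomputable def n2438 : Strat := .move 633 n2432 (.cons 757 n2437 .nil)
noncomputable def n2439 : Strat := .move 674 n2428 (.cons 633 n2431 (.cons 837 n2434 (.cons 796 n2438 .nil)))
noncomputable def n2440 : Strat := .win 593 1 592
noncomputable def n2441 : Strat := .win 674 3 633
noncomputable def n2442 : Strat := .move 634 n2440 (.cons 593 n2441 .nil)
noncomputable def n2443 : Strat := .move 675 n2019 (.cons 757 n2442 .nil)
noncomputable def n2444 : Strat := .move 716 n2235 (.cons 718 n2443 .nil)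
noncomputable def n2445 : Strat := .move 715 n2422 (.cons 757 n2425 (.cons 675 n2439 (.cons 838 n2444 .nil)))
noncomputable def n2446 : Strat := .move 756 n2236 (.cons 800 n2445 .nil)
noncomputable def n2447 : Strat := .move 755 n2414 (.cons 756 n2416 (.cons 796 n2419 (.cons 800 n2420 (.cons 754 n2446 .nil))))
noncomputable def n2448 : Strat := .move 797 n2379 (.cons 796 n2384 (.cons 800 n2408 (.cons 756 n2413 (.cons 837 n2009 (.cons 841 n2447 .nil)))))
noncomputable def n2449 : Strat := .move 754 n1993 (.cons 753 n1992 .nil)
noncomputable def n2450 : Strat := .move 795 n1991 (.cons 839 n2449 .nil)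
noncomputable def n2451 : Strat := .move 838 n2278 (.cons 800 n2450 .nil)
noncomputable def n2452 : Strat := .move 837 n639 (.cons 836 n2451 .nil)
noncomputable def n2453 : Strat := .move 796 n677 (.cons 841 n2452 .nil)
noncomputable def n2454 : Strat := .move 841 n45 (.cons 796 n1617 .nil)
noncomputable def n2455 : Strat := .win 835 4 794
noncomputable def n2456 : Strat := .win 837 4 795
noncomputable def n2457 : Strat := .move 836 n2455 (.cons 835 n2456 .nil)
noncomputable def n2458 : Strat := .move 795 n1991 (.cons 839 n2457 .nil)
noncomputable def n2459 : Strat := .move 796 n636 (.cons 754 n2458 .nil)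
noncomputable def n2460 : Strat := .move 755 n637 (.cons 756 n2459 .nil)
noncomputable def n2461 : Strat := .move 759 n1507 (.cons 760 n2460 .nil)
noncomputable def n2462 : Strat := .move 839 n1572 (.cons 795 n74 .nil)
noncomputable def n2463 : Strat := .move 796 n636 (.cons 754 n2462 .nil)
noncomputable def n2464 : Strat := .move 755 n637 (.cons 756 n2463 .nil)
noncomputable def n2465 : Strat := .move 800 n1385 (.cons 801 n680 (.cons 756 n2013 (.cons 838 n2461 (.cons 837 n2464 .nil))))
noncomputable def n2466 : Strat := .move 760 n935 (.cons 761 n2000 .nil)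
noncomputable def n2467 : Strat := .move 801 n689 (.cons 839 n2466 .nil)
noncomputable def n2468 : Strat := .move 838 n72 (.cons 837 n2467 .nil)
noncomputable def n2469 : Strat := .move 841 n44 (.cons 842 n2468 .nil)
noncomputable def n2470 : Strat := .move 841 n44 (.cons 842 n1385 .nil)
noncomputable def n2471 : Strat := .move 800 n2469 (.cons 842 n2013 (.cons 761 n2470 (.cons 838 n2007 .nil)))
noncomputable def n2472 : Strat := .move 797 n2453 (.cons 800 n2454 (.cons 841 n2465 (.cons 796 n2471 (.cons 839 n2379 .nil))))
noncomputable def n2473 : Strat := .move 800 n676 (.cons 841 n2011 .nil)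
noncomputable def n2474 : Strat := .move 801 n634 (.cons 843 n1997 .nil)
noncomputable def n2475 : Strat := .move 842 n635 (.cons 841 n2474 .nil)
noncomputable def n2476 : Strat := .move 800 n2007 (.cons 842 n2011 (.cons 759 n2475 .nil))
noncomputable def n2477 : Strat := .win 878 3 714
noncomputable def n2478 : Strat := .move 837 n2477 (.cons 878 n639 .nil)
noncomputable def n2479 : Strat := .move 715 n1381 (.cons 674 n2478 .nil)
noncomputable def n2480 : Strat := .move 756 n2236 (.cons 800 n2479 .nil)
noncomputable def n2481 : Strat := .move 755 n636 (.cons 754 n2480 .nil)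
noncomputable def n2482 : Strat := .move 839 n1572 (.cons 795 n2481 .nil)
noncomputable def n2483 : Strat := .win 674 1 673
noncomputable def n2484 : Strat := .move 715 n2477 (.cons 878 n2483 .nil)
noncomputable def n2485 : Strat := .move 837 n639 (.cons 836 n2484 .nil)
noncomputable def n2486 : Strat := .move 756 n2236 (.cons 800 n2485 .nil)
noncomputable def n2487 : Strat := .move 755 n636 (.cons 754 n2486 .nil)
noncomputable def n2488 : Strat := .move 836 n2456 (.cons 837 n2455 .nil)
noncomputable def n2489 : Strat := .move 795 n1991 (.cons 839 n2488 .nil)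
noncomputable def n2490 : Strat := .win 757 7 715
noncomputable def n2491 : Strat := .move 880 n2490 (.cons 757 n2323 .nil)
noncomputable def n2492 : Strat := .move 715 n1381 (.cons 674 n2491 .nil)
noncomputable def n2493 : Strat := .move 839 n1572 (.cons 795 n2492 .nil)
noncomputable def n2494 : Strat := .move 756 n2236 (.cons 800 n2493 .nil)
noncomputable def n2495 : Strat := .move 755 n636 (.cons 754 n2494 .nil)
noncomputable def n2496 : Strat := .move 796 n2482 (.cons 795 n2487 (.cons 755 n2489 (.cons 836 n2495 .nil)))
noncomputable def n2497 : Strat := .move 797 n2473 (.cons 796 n2476 (.cons 841 n2496 (.cons 800 n1996 (.cons 755 n2009 .nil))))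
noncomputable def n2498 : Strat := .move 800 n44 (.cons 842 n2006 .nil)
noncomputable def n2499 : Strat := .move 841 n45 (.cons 796 n2498 .nil)
noncomputable def n2500 : Strat := .move 755 n636 (.cons 754 n2376 .nil)
noncomputable def n2501 : Strat := .move 837 n639 (.cons 836 n2500 .nil)
noncomputable def n2502 : Strat := .move 796 n1995 (.cons 795 n2501 (.cons 755 n2489 .nil))
noncomputable def n2503 : Strat := .move 718 n2004 (.cons 676 n931 .nil)
noncomputable def n2504 : Strat := .move 759 n1507 (.cons 760 n2503 .nil)
noncomputable def n2505 : Strat := .move 756 n76 (.cons 755 n2504 .nil)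
noncomputable def n2506 : Strat := .move 838 n72 (.cons 837 n2505 .nil)
noncomputable def n2507 : Strat := .move 841 n44 (.cons 842 n2506 .nil)
noncomputable def n2508 : Strat := .win 716 3 715
noncomputable def n2509 : Strat := .win 920 3 756
noncomputable def n2510 : Strat := .move 757 n2508 (.cons 716 n2509 .nil)
noncomputable def n2511 : Strat := .move 880 n876 (.cons 921 n877 .nil)
noncomputable def n2512 : Strat := .win 841 4 837
noncomputable def n2513 : Strat := .win 919 1 755
noncomputable def n2514 : Strat := .move 878 n2512 (.cons 841 n2513 .nil)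
noncomputable def n2515 : Strat := .move 839 n1382 (.cons 674 n2511 (.cons 880 n2514 .nil))
noncomputable def n2516 : Strat := .move 879 n2510 (.cons 920 n2515 .nil)
noncomputable def n2517 : Strat := .move 756 n76 (.cons 755 n2516 .nil)
noncomputable def n2518 : Strat := .move 838 n72 (.cons 837 n2517 .nil)
noncomputable def n2519 : Strat := .win 757 3 715
noncomputable def n2520 : Strat := .move 716 n2519 (.cons 757 n2262 .nil)
noncomputable def n2521 : Strat := .move 839 n1380 (.cons 880 n1381 .nil)
noncomputable def n2522 : Strat := .move 715 n2520 (.cons 675 n2521 .nil)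
noncomputable def n2523 : Strat := .win 878 1 755
noncomputable def n2524 : Strat := .move 919 n912 (.cons 960 n2523 .nil)
noncomputable def n2525 : Strat := .move 920 n450 (.cons 757 n2524 .nil)
noncomputable def n2526 : Strat := .win 880 6 756
noncomputable def n2527 : Strat := .move 921 n377 (.cons 962 n2526 .nil)
noncomputable def n2528 : Strat := .move 920 n2524 (.cons 878 n2527 .nil)
noncomputable def n2529 : Strat := .move 879 n2510 (.cons 920 n2522 (.cons 716 n2525 (.cons 757 n2528 .nil)))
noncomputable def n2530 : Strat := .move 756 n76 (.cons 755 n2529 .nil)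
noncomputable def n2531 : Strat := .move 838 n72 (.cons 837 n2530 .nil)
noncomputable def n2532 : Strat := .move 800 n2507 (.cons 842 n2518 (.cons 841 n2531 (.cons 755 n2007 .nil)))
noncomputable def n2533 : Strat := .move 797 n1996 (.cons 755 n2499 (.cons 841 n2502 (.cons 796 n2532 .nil)))
noncomputable def n2534 : Strat := .move 796 n677 (.cons 841 n2489 .nil)
noncomputable def n2535 : Strat := .move 796 n2489 (.cons 839 n2412 (.cons 837 n1995 .nil))
noncomputable def n2536 : Strat := .move 802 n513 (.cons 803 n693 .nil)
noncomputable def n2537 : Strat := .move 801 n689 (.cons 839 n2536 .nil)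
noncomputable def n2538 : Strat := .move 838 n72 (.cons 837 n2537 .nil)
noncomputable def n2539 : Strat := .move 757 n890 (.cons 716 n2509 .nil)
noncomputable def n2540 : Strat := .move 879 n1040 (.cons 878 n2539 .nil)
noncomputable def n2541 : Strat := .move 839 n71 (.cons 801 n2540 .nil)
noncomputable def n2542 : Strat := .move 838 n72 (.cons 837 n2541 .nil)
noncomputable def n2543 : Strat := .move 841 n2468 (.cons 839 n2006 (.cons 759 n2538 (.cons 760 n2542 .nil)))
noncomputable def n2544 : Strat := .move 841 n44 (.cons 842 n2540 .nil)
noncomputable def n2545 : Strat := .move 839 n71 (.cons 801 n2544 .nil)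
noncomputable def n2546 : Strat := .move 838 n72 (.cons 837 n2545 .nil)
noncomputable def n2547 : Strat := .move 800 n2469 (.cons 842 n2543 (.cons 839 n2007 (.cons 760 n2546 (.cons 841 n2013 .nil))))
noncomputable def n2548 : Strat := .move 797 n2534 (.cons 841 n2535 (.cons 839 n2413 (.cons 836 n2009 (.cons 796 n2547 .nil))))
noncomputable def n2549 : Strat := .move 719 n1627 (.cons 882 n518 .nil)
noncomputable def n2550 : Strat := .move 760 n935 (.cons 761 n2549 .nil)
noncomputable def n2551 : Strat := .move 841 n48 (.cons 797 n2550 .nil)
noncomputable def n2552 : Strat := .move 842 n634 (.cons 843 n2551 .nil)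
noncomputable def n2553 : Strat := .move 801 n53 (.cons 839 n2552 .nil)
noncomputable def n2554 : Strat := .move 842 n634 (.cons 843 n2550 .nil)
noncomputable def n2555 : Strat := .move 841 n53 (.cons 838 n1748 (.cons 839 n2554 .nil))
noncomputable def n2556 : Strat := .move 761 n692 (.cons 760 n691 .nil)
noncomputable def n2557 : Strat := .move 802 n646 (.cons 844 n2556 .nil)
noncomputable def n2558 : Strat := .move 843 n645 (.cons 842 n2557 .nil)
noncomputable def n2559 : Strat := .move 716 n2016 (.cons 676 n1281 .nil)
noncomputable def n2560 : Strat := .move 757 n388 (.cons 756 n2559 .nil)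
noncomputable def n2561 : Strat := .move 839 n51 (.cons 838 n2560 .nil)
noncomputable def n2562 : Strat := .move 760 n935 (.cons 761 n2561 .nil)
noncomputable def n2563 : Strat := .move 842 n634 (.cons 843 n2562 .nil)
noncomputable def n2564 : Strat := .move 801 n2555 (.cons 839 n2558 (.cons 802 n2563 (.cons 760 n53 .nil)))
noncomputable def n2565 : Strat := .move 842 n634 (.cons 843 n53 .nil)
noncomputable def n2566 : Strat := .move 757 n388 (.cons 756 n1281 .nil)
noncomputable def n2567 : Strat := .move 718 n1129 (.cons 715 n931 .nil)
noncomputable def n2568 : Strat := .move 716 n2566 (.cons 675 n2567 .nil)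
noncomputable def n2569 : Strat := .move 759 n1718 (.cons 797 n2568 .nil)
noncomputable def n2570 : Strat := .move 760 n935 (.cons 761 n2569 .nil)
noncomputable def n2571 : Strat := .move 842 n634 (.cons 843 n2570 .nil)
noncomputable def n2572 : Strat := .move 801 n2565 (.cons 838 n2571 (.cons 843 n53 .nil))
noncomputable def n2573 : Strat := .move 759 n1507 (.cons 760 n931 .nil)
noncomputable def n2574 : Strat := .move 718 n577 (.cons 719 n2573 .nil)
noncomputable def n2575 : Strat := .move 716 n1281 (.cons 675 n2574 .nil)
noncomputable def n2576 : Strat := .move 757 n2200 (.cons 801 n2575 .nil)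
noncomputable def n2577 : Strat := .move 756 n76 (.cons 755 n2576 .nil)
noncomputable def n2578 : Strat := .move 797 n676 (.cons 841 n2577 .nil)
noncomputable def n2579 : Strat := .move 882 n704 (.cons 719 n516 .nil)
noncomputable def n2580 : Strat := .move 841 n2004 (.cons 676 n2579 .nil)
noncomputable def n2581 : Strat := .move 718 n931 (.cons 677 n2580 .nil)
noncomputable def n2582 : Strat := .move 759 n1718 (.cons 797 n2581 .nil)
noncomputable def n2583 : Strat := .move 760 n935 (.cons 761 n2582 .nil)
noncomputable def n2584 : Strat := .move 801 n53 (.cons 839 n2583 .nil)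
noncomputable def n2585 : Strat := .move 841 n48 (.cons 797 n2561 .nil)
noncomputable def n2586 : Strat := .move 842 n634 (.cons 843 n2585 .nil)
noncomputable def n2587 : Strat := .move 797 n635 (.cons 841 n1997 .nil)
noncomputable def n2588 : Strat := .move 842 n634 (.cons 843 n2587 .nil)
noncomputable def n2589 : Strat := .move 801 n53 (.cons 838 n648 (.cons 802 n2586 (.cons 839 n2588 .nil)))
noncomputable def n2590 : Strat := .move 797 n1507 (.cons 760 n676 .nil)
noncomputable def n2591 : Strat := .move 841 n2004 (.cons 676 n49 .nil)
noncomputable def n2592 : Strat := .move 718 n931 (.cons 677 n2591 .nil)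
noncomputable def n2593 : Strat := .win 882 3 718
noncomputable def n2594 : Strat := .move 716 n1932 (.cons 761 n1129 .nil)
noncomputable def n2595 : Strat := .move 760 n2593 (.cons 882 n2594 .nil)
noncomputable def n2596 : Strat := .move 719 n1198 (.cons 678 n2595 .nil)
noncomputable def n2597 : Strat := .move 841 n2004 (.cons 676 n2596 .nil)
noncomputable def n2598 : Strat := .move 718 n931 (.cons 677 n2597 .nil)
noncomputable def n2599 : Strat := .win 719 0 716
noncomputable def n2600 : Strat := .move 716 n2599 (.cons 719 n1129 .nil)
noncomputable def n2601 : Strat := .move 761 n1212 (.cons 762 n2600 .nil)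
noncomputable def n2602 : Strat := .move 760 n1718 (.cons 797 n2601 .nil)
noncomputable def n2603 : Strat := .move 718 n931 (.cons 677 n2602 .nil)
noncomputable def n2604 : Strat := .move 759 n2590 (.cons 796 n2592 (.cons 797 n2598 (.cons 841 n2603 .nil)))
noncomputable def n2605 : Strat := .move 800 n2553 (.cons 797 n2564 (.cons 841 n2572 (.cons 839 n2578 (.cons 842 n2584 (.cons 760 n2589 (.cons 801 n2604 .nil))))))
noncomputable def n2606 : Strat := .move 797 n45 (.cons 796 n734 .nil)
noncomputable def n2607 : Strat := .move 842 n47 (.cons 843 n2606 .nil)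
noncomputable def n2608 : Strat := .win 838 1 715
noncomputable def n2609 : Strat := .win 880 4 838
noncomputable def n2610 : Strat := .move 879 n2608 (.cons 838 n2609 .nil)
noncomputable def n2611 : Strat := .move 757 n2016 (.cons 676 n2610 .nil)
noncomputable def n2612 : Strat := .move 839 n386 (.cons 797 n2611 .nil)
noncomputable def n2613 : Strat := .move 842 n47 (.cons 843 n2612 .nil)
noncomputable def n2614 : Strat := .move 757 n1189 (.cons 879 n2016 .nil)
noncomputable def n2615 : Strat := .move 839 n71 (.cons 801 n2614 .nil)
noncomputable def n2616 : Strat := .move 838 n72 (.cons 837 n2615 .nil)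
noncomputable def n2617 : Strat := .move 800 n2468 (.cons 761 n2616 (.cons 838 n2504 .nil))
noncomputable def n2618 : Strat := .move 797 n45 (.cons 796 n2617 .nil)
noncomputable def n2619 : Strat := .move 838 n829 (.cons 800 n2614 .nil)
noncomputable def n2620 : Strat := .move 801 n387 (.cons 802 n2619 .nil)
noncomputable def n2621 : Strat := .move 879 n1975 (.cons 757 n2609 .nil)
noncomputable def n2622 : Strat := .move 838 n829 (.cons 800 n2621 .nil)
noncomputable def n2623 : Strat := .move 801 n387 (.cons 802 n2622 .nil)
noncomputable def n2624 : Strat := .move 879 n1040 (.cons 878 n2609 .nil)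
noncomputable def n2625 : Strat := .move 838 n829 (.cons 800 n2624 .nil)
noncomputable def n2626 : Strat := .move 801 n387 (.cons 802 n2625 .nil)
noncomputable def n2627 : Strat := .win 756 7 715
noncomputable def n2628 : Strat := .move 715 n2627 (.cons 756 n1151 .nil)
noncomputable def n2629 : Strat := .move 880 n385 (.cons 879 n2628 .nil)
noncomputable def n2630 : Strat := .move 757 n2016 (.cons 676 n2629 .nil)
noncomputable def n2631 : Strat := .move 757 n388 (.cons 756 n2016 .nil)
noncomputable def n2632 : Strat := .move 800 n51 (.cons 838 n2631 .nil)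
noncomputable def n2633 : Strat := .move 801 n387 (.cons 802 n2632 .nil)
noncomputable def n2634 : Strat := .move 839 n2620 (.cons 800 n2611 (.cons 676 n2623 (.cons 757 n2626 (.cons 838 n2630 (.cons 879 n2633 .nil)))))
noncomputable def n2635 : Strat := .move 842 n47 (.cons 843 n2634 .nil)
noncomputable def n2636 : Strat := .move 841 n2607 (.cons 800 n2613 (.cons 842 n2618 (.cons 797 n2635 .nil)))
noncomputable def n2637 : Strat := .move 879 n129 (.cons 920 n2608 .nil)
noncomputable def n2638 : Strat := .move 880 n2627 (.cons 756 n2637 .nil)
noncomputable def n2639 : Strat := .move 715 n1151 (.cons 674 n2638 .nil)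
noncomputable def n2640 : Strat := .win 879 1 756
noncomputable def n2641 : Strat := .move 920 n895 (.cons 961 n2640 .nil)
noncomputable def n2642 : Strat := .move 921 n884 (.cons 962 n2641 .nil)
noncomputable def n2643 : Strat := .move 880 n2627 (.cons 756 n2642 .nil)
noncomputable def n2644 : Strat := .move 715 n1151 (.cons 674 n2643 .nil)
noncomputable def n2645 : Strat := .move 801 n388 (.cons 756 n51 .nil)
noncomputable def n2646 : Strat := .move 756 n2044 (.cons 880 n577 .nil)
noncomputable def n2647 : Strat := .move 759 n1110 (.cons 760 n931 .nil)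
noncomputable def n2648 : Strat := .move 718 n2646 (.cons 719 n2647 .nil)
noncomputable def n2649 : Strat := .move 715 n1151 (.cons 674 n2648 .nil)
noncomputable def n2650 : Strat := .move 800 n352 (.cons 837 n2645 (.cons 801 n2649 .nil))
noncomputable def n2651 : Strat := .move 839 n1191 (.cons 837 n2639 (.cons 838 n2644 (.cons 879 n2650 .nil)))
noncomputable def n2652 : Strat := .move 757 n1281 (.cons 675 n2651 .nil)
noncomputable def n2653 : Strat := .move 839 n2016 (.cons 676 n2644 .nil)
noncomputable def n2654 : Strat := .move 757 n1281 (.cons 675 n2653 .nil)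
noncomputable def n2655 : Strat := .move 839 n2016 (.cons 676 n2650 .nil)
noncomputable def n2656 : Strat := .move 757 n1281 (.cons 675 n2655 .nil)
noncomputable def n2657 : Strat := .move 838 n72 (.cons 837 n2504 .nil)
noncomputable def n2658 : Strat := .move 841 n44 (.cons 842 n2657 .nil)
noncomputable def n2659 : Strat := .move 841 n44 (.cons 842 n2504 .nil)
noncomputable def n2660 : Strat := .move 800 n2469 (.cons 761 n2658 (.cons 838 n2659 (.cons 841 n2468 (.cons 759 n1379 .nil))))
noncomputable def n2661 : Strat := .win 796 4 795
noncomputable def n2662 : Strat := .win 835 5 794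
noncomputable def n2663 : Strat := .move 836 n2661 (.cons 796 n2662 .nil)
noncomputable def n2664 : Strat := .move 837 n2278 (.cons 800 n2663 .nil)
noncomputable def n2665 : Strat := .move 800 n72 (.cons 837 n2467 .nil)
noncomputable def n2666 : Strat := .move 756 n2262 (.cons 675 n2521 .nil)
noncomputable def n2667 : Strat := .move 836 n2662 (.cons 835 n2661 .nil)
noncomputable def n2668 : Strat := .move 837 n2277 (.cons 878 n2667 .nil)
noncomputable def n2669 : Strat := .move 756 n2262 (.cons 675 n2668 .nil)
noncomputable def n2670 : Strat := .move 719 n1958 (.cons 759 n2126 .nil)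
noncomputable def n2671 : Strat := .move 714 n2222 (.cons 672 n2267 .nil)
noncomputable def n2672 : Strat := .move 719 n1958 (.cons 759 n2217 .nil)
noncomputable def n2673 : Strat := .move 718 n2670 (.cons 719 n2671 (.cons 673 n2672 .nil))
noncomputable def n2674 : Strat := .move 756 n2521 (.cons 674 n2668 .nil)
noncomputable def n2675 : Strat := .move 715 n2666 (.cons 880 n2669 (.cons 756 n2673 (.cons 675 n2674 .nil)))
noncomputable def n2676 : Strat := .move 718 n2028 (.cons 677 n2670 (.cons 760 n2671 .nil))
noncomputable def n2677 : Strat := .win 756 7 673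
noncomputable def n2678 : Strat := .move 714 n2677 (.cons 756 n2030 .nil)
noncomputable def n2679 : Strat := .move 673 n2029 (.cons 674 n2678 .nil)
noncomputable def n2680 : Strat := .move 718 n2679 (.cons 673 n2028 .nil)
noncomputable def n2681 : Strat := .move 756 n2261 (.cons 673 n2262 .nil)
noncomputable def n2682 : Strat := .move 673 n2677 (.cons 756 n2030 .nil)
noncomputable def n2683 : Strat := .win 756 3 674
noncomputable def n2684 : Strat := .win 713 5 672
noncomputable def n2685 : Strat := .move 676 n2684 (.cons 713 n2248 .nil)
noncomputable def n2686 : Strat := .move 675 n2683 (.cons 756 n2685 .nil)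
noncomputable def n2687 : Strat := .move 714 n2681 (.cons 675 n2682 (.cons 673 n2686 (.cons 756 n2250 .nil)))
noncomputable def n2688 : Strat := .move 715 n2666 (.cons 756 n2676 (.cons 675 n2680 (.cons 674 n2687 .nil)))
noncomputable def n2689 : Strat := .move 838 n2664 (.cons 796 n2665 (.cons 800 n2675 (.cons 837 n2688 .nil)))
noncomputable def n2690 : Strat := .move 797 n2009 (.cons 796 n2660 (.cons 800 n2534 (.cons 841 n2689 .nil)))
noncomputable def n2691 : Strat := .move 756 n577 (.cons 719 n2206 .nil)
noncomputable def n2692 : Strat := .move 674 n1114 (.cons 673 n2078 .nil)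
noncomputable def n2693 : Strat := .move 715 n2028 (.cons 800 n2692 .nil)
noncomputable def n2694 : Strat := .move 720 n1775 (.cons 680 n1774 .nil)
noncomputable def n2695 : Strat := .move 679 n1776 (.cons 678 n2694 .nil)
noncomputable def n2696 : Strat := .move 719 n1149 (.cons 756 n2695 .nil)
noncomputable def n2697 : Strat := .move 797 n70 (.cons 796 n1283 .nil)
noncomputable def n2698 : Strat := .move 800 n2200 (.cons 801 n2697 .nil)
noncomputable def n2699 : Strat := .move 756 n577 (.cons 719 n2698 .nil)
noncomputable def n2700 : Strat := .move 800 n931 (.cons 677 n2204 .nil)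
noncomputable def n2701 : Strat := .move 715 n2025 (.cons 678 n1110 .nil)
noncomputable def n2702 : Strat := .move 677 n2026 (.cons 800 n2701 .nil)
noncomputable def n2703 : Strat := .move 761 n1212 (.cons 762 n2599 .nil)
noncomputable def n2704 : Strat := .move 760 n1718 (.cons 797 n2703 .nil)
noncomputable def n2705 : Strat := .move 800 n931 (.cons 677 n2704 .nil)
noncomputable def n2706 : Strat := .move 677 n2073 (.cons 676 n2025 .nil)
noncomputable def n2707 : Strat := .move 714 n2058 (.cons 674 n2706 .nil)
noncomputable def n2708 : Strat := .move 715 n1110 (.cons 760 n2707 .nil)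
noncomputable def n2709 : Strat := .win 676 4 675
noncomputable def n2710 : Strat := .win 719 5 675
noncomputable def n2711 : Strat := .move 679 n2709 (.cons 676 n2710 .nil)
noncomputable def n2712 : Strat := .move 678 n2144 (.cons 715 n2711 .nil)
noncomputable def n2713 : Strat := .move 677 n2026 (.cons 800 n2712 .nil)
noncomputable def n2714 : Strat := .move 760 n1129 (.cons 715 n2703 .nil)
noncomputable def n2715 : Strat := .move 759 n2700 (.cons 797 n2702 (.cons 715 n2705 (.cons 800 n2708 (.cons 760 n2713 (.cons 677 n2714 .nil)))))
noncomputable def n2716 : Strat := .move 718 n2691 (.cons 719 n2693 (.cons 715 n2696 (.cons 760 n2699 (.cons 756 n2715 .nil))))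
noncomputable def n2717 : Strat := .move 757 n1281 (.cons 675 n2716 .nil)
noncomputable def n2718 : Strat := .move 716 n2018 (.cons 675 n2636 (.cons 676 n2652 (.cons 838 n2654 (.cons 879 n2656 (.cons 757 n2690 (.cons 839 n2717 .nil))))))
noncomputable def n2719 : Strat := .move 755 n636 (.cons 754 n2409 .nil)
noncomputable def n2720 : Strat := .move 839 n1572 (.cons 795 n2719 .nil)
noncomputable def n2721 : Strat := .move 838 n2278 (.cons 800 n2720 .nil)
noncomputable def n2722 : Strat := .move 837 n639 (.cons 836 n2721 .nil)
noncomputable def n2723 : Strat := .win 715 1 714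
noncomputable def n2724 : Strat := .move 756 n2723 (.cons 715 n2390 .nil)
noncomputable def n2725 : Strat := .move 878 n597 (.cons 877 n2724 .nil)
noncomputable def n2726 : Strat := .move 839 n1572 (.cons 795 n2725 .nil)
noncomputable def n2727 : Strat := .move 838 n2278 (.cons 800 n2726 .nil)
noncomputable def n2728 : Strat := .move 837 n639 (.cons 836 n2727 .nil)
noncomputable def n2729 : Strat := .move 796 n1995 (.cons 753 n2722 (.cons 795 n2501 (.cons 754 n2728 .nil)))
noncomputable def n2730 : Strat := .move 801 n53 (.cons 838 n1748 (.cons 839 n1997 .nil))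
noncomputable def n2731 : Strat := .move 841 n44 (.cons 842 n2730 .nil)
noncomputable def n2732 : Strat := .move 801 n689 (.cons 839 n1314 .nil)
noncomputable def n2733 : Strat := .move 838 n72 (.cons 837 n2732 .nil)
noncomputable def n2734 : Strat := .win 839 4 837
noncomputable def n2735 : Strat := .move 878 n2734 (.cons 839 n2513 .nil)
noncomputable def n2736 : Strat := .move 879 n2510 (.cons 920 n2735 .nil)
noncomputable def n2737 : Strat := .move 841 n44 (.cons 842 n2736 .nil)
noncomputable def n2738 : Strat := .move 756 n76 (.cons 755 n2737 .nil)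
noncomputable def n2739 : Strat := .move 838 n72 (.cons 837 n2738 .nil)
noncomputable def n2740 : Strat := .move 800 n1999 (.cons 837 n2731 (.cons 755 n2733 (.cons 838 n2475 (.cons 801 n2739 .nil))))
noncomputable def n2741 : Strat := .move 797 n1996 (.cons 795 n2009 (.cons 841 n2729 (.cons 796 n2740 .nil)))
noncomputable def n2742 : Strat := .move 718 n1158 (.cons 755 n1114 .nil)
noncomputable def n2743 : Strat := .move 674 n303 (.cons 839 n2742 .nil)
noncomputable def n2744 : Strat := .move 755 n2235 (.cons 718 n2321 .nil)
noncomputable def n2745 : Strat := .move 675 n2281 (.cons 838 n2744 .nil)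
noncomputable def n2746 : Strat := .move 838 n2262 (.cons 675 n2521 .nil)
noncomputable def n2747 : Strat := .move 756 n2743 (.cons 674 n2745 (.cons 718 n2746 .nil))
noncomputable def n2748 : Strat := .move 756 n2746 (.cons 838 n2296 (.cons 839 n2301 .nil))
noncomputable def n2749 : Strat := .move 756 n2235 (.cons 718 n2263 .nil)
noncomputable def n2750 : Strat := .move 755 n1768 (.cons 754 n2749 .nil)
noncomputable def n2751 : Strat := .move 714 n2750 (.cons 755 n2260 (.cons 673 n2269 .nil))
noncomputable def n2752 : Strat := .move 756 n303 (.cons 839 n2281 .nil)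
noncomputable def n2753 : Strat := .move 675 n2020 (.cons 719 n2752 .nil)
noncomputable def n2754 : Strat := .move 674 n1114 (.cons 673 n2753 .nil)
noncomputable def n2755 : Strat := .move 719 n1934 (.cons 679 n1958 .nil)
noncomputable def n2756 : Strat := .move 678 n2038 (.cons 677 n2755 .nil)
noncomputable def n2757 : Strat := .move 714 n2030 (.cons 672 n2267 .nil)
noncomputable def n2758 : Strat := .move 673 n2029 (.cons 674 n2757 .nil)
noncomputable def n2759 : Strat := .move 718 n2754 (.cons 674 n2756 (.cons 719 n2758 .nil))
noncomputable def n2760 : Strat := .move 713 n2244 (.cons 671 n2364 .nil)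
noncomputable def n2761 : Strat := .move 672 n2245 (.cons 673 n2760 .nil)
noncomputable def n2762 : Strat := .move 718 n2029 (.cons 674 n2267 .nil)
noncomputable def n2763 : Strat := .move 673 n2030 (.cons 672 n2762 .nil)
noncomputable def n2764 : Strat := .move 714 n2761 (.cons 713 n2763 (.cons 672 n2366 .nil))
noncomputable def n2765 : Strat := .move 674 n1114 (.cons 673 n2282 .nil)
noncomputable def n2766 : Strat := .move 718 n1158 (.cons 755 n2765 .nil)
noncomputable def n2767 : Strat := .move 837 n596 (.cons 836 n2277 .nil)
noncomputable def n2768 : Strat := .move 839 n1380 (.cons 880 n2767 .nil)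
noncomputable def n2769 : Strat := .move 838 n2262 (.cons 675 n2768 .nil)
noncomputable def n2770 : Strat := .move 756 n2743 (.cons 839 n2766 (.cons 674 n2769 .nil))
noncomputable def n2771 : Strat := .move 756 n2314 (.cons 839 n2744 .nil)
noncomputable def n2772 : Strat := .move 674 n303 (.cons 839 n1114 .nil)
noncomputable def n2773 : Strat := .move 756 n1158 (.cons 755 n2772 .nil)
noncomputable def n2774 : Strat := .move 756 n1158 (.cons 755 n2326 .nil)
noncomputable def n2775 : Strat := .move 714 n1768 (.cons 754 n2267 .nil)
noncomputable def n2776 : Strat := .move 755 n1767 (.cons 756 n2775 .nil)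
noncomputable def n2777 : Strat := .move 718 n2773 (.cons 673 n2774 (.cons 674 n2776 (.cons 756 n2224 .nil)))
noncomputable def n2778 : Strat := .move 715 n2747 (.cons 718 n2748 (.cons 674 n2751 (.cons 755 n2759 (.cons 756 n2764 (.cons 714 n2770 (.cons 673 n2771 (.cons 675 n2777 .nil)))))))
noncomputable def n2779 : Strat := .move 795 n1993 (.cons 753 n2457 .nil)
noncomputable def n2780 : Strat := .move 754 n1992 (.cons 755 n2779 .nil)
noncomputable def n2781 : Strat := .move 796 n677 (.cons 841 n2780 .nil)
noncomputable def n2782 : Strat := .move 797 n1996 (.cons 796 n2778 (.cons 755 n2534 (.cons 839 n2781 .nil)))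
noncomputable def n2783 : Strat := .move 757 n577 (.cons 719 n2076 .nil)
noncomputable def n2784 : Strat := .move 674 n1114 (.cons 673 n2783 .nil)
noncomputable def n2785 : Strat := .move 756 n1158 (.cons 755 n2784 .nil)
noncomputable def n2786 : Strat := .move 718 n2056 (.cons 757 n2224 (.cons 676 n2785 (.cons 674 n2071 .nil)))
noncomputable def n2787 : Strat := .move 718 n2224 (.cons 677 n2229 (.cons 714 n2756 .nil))
noncomputable def n2788 : Strat := .move 713 n2246 (.cons 673 n2364 .nil)
noncomputable def n2789 : Strat := .move 714 n2073 (.cons 676 n2788 .nil)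
noncomputable def n2790 : Strat := .move 677 n2025 (.cons 678 n2789 .nil)
noncomputable def n2791 : Strat := .move 719 n1771 (.cons 757 n1958 .nil)
noncomputable def n2792 : Strat := .move 756 n1158 (.cons 755 n2791 .nil)
noncomputable def n2793 : Strat := .move 718 n2071 (.cons 839 n2226 (.cons 756 n2790 (.cons 755 n2090 (.cons 676 n2792 .nil))))
noncomputable def n2794 : Strat := .move 757 n2016 (.cons 676 n1151 .nil)
noncomputable def n2795 : Strat := .move 757 n2016 (.cons 676 n2638 .nil)
noncomputable def n2796 : Strat := .move 796 n677 (.cons 841 n1572 .nil)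
noncomputable def n2797 : Strat := .move 756 n1381 (.cons 674 n2325 .nil)
noncomputable def n2798 : Strat := .move 797 n2796 (.cons 795 n1571 (.cons 841 n2797 .nil))
noncomputable def n2799 : Strat := .move 839 n2794 (.cons 674 n2795 (.cons 757 n2798 .nil))
noncomputable def n2800 : Strat := .move 839 n1151 (.cons 674 n2046 .nil)
noncomputable def n2801 : Strat := .move 756 n1158 (.cons 755 n577 .nil)
noncomputable def n2802 : Strat := .move 674 n1114 (.cons 673 n2672 .nil)
noncomputable def n2803 : Strat := .move 674 n304 (.cons 633 n1114 .nil)
noncomputable def n2804 : Strat := .move 756 n1158 (.cons 755 n2803 .nil)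
noncomputable def n2805 : Strat := .move 718 n2801 (.cons 756 n2802 (.cons 719 n2804 .nil))
noncomputable def n2806 : Strat := .move 718 n1114 (.cons 673 n2672 .nil)
noncomputable def n2807 : Strat := .move 674 n2076 (.cons 839 n2806 .nil)
noncomputable def n2808 : Strat := .move 839 n1151 (.cons 674 n2638 .nil)
noncomputable def n2809 : Strat := .move 755 n2235 (.cons 718 n290 .nil)
noncomputable def n2810 : Strat := .move 718 n577 (.cons 719 n1158 .nil)
noncomputable def n2811 : Strat := .win 755 0 754
noncomputable def n2812 : Strat := .win 712 0 712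
noncomputable def n2813 : Strat := .move 713 n2253 (.cons 753 n2812 .nil)
noncomputable def n2814 : Strat := .move 754 n2811 (.cons 755 n2813 .nil)
noncomputable def n2815 : Strat := .move 839 n2044 (.cons 880 n1189 .nil)
noncomputable def n2816 : Strat := .win 797 7 673
noncomputable def n2817 : Strat := .move 673 n2816 (.cons 797 n2030 .nil)
noncomputable def n2818 : Strat := .move 838 n2815 (.cons 879 n2817 .nil)
noncomputable def n2819 : Strat := .move 756 n2809 (.cons 754 n2810 (.cons 718 n2814 (.cons 755 n2818 .nil)))
noncomputable def n2820 : Strat := .move 713 n2244 (.cons 671 n2812 .nil)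
noncomputable def n2821 : Strat := .move 756 n2810 (.cons 755 n2820 .nil)
noncomputable def n2822 : Strat := .move 672 n2245 (.cons 673 n2821 .nil)
noncomputable def n2823 : Strat := .win 756 0 712
noncomputable def n2824 : Strat := .move 712 n2823 (.cons 756 n2369 .nil)
noncomputable def n2825 : Strat := .move 712 n2823 (.cons 756 n2345 .nil)
noncomputable def n2826 : Strat := .move 713 n2246 (.cons 673 n2824 (.cons 671 n2825 .nil))
noncomputable def n2827 : Strat := .move 718 n1769 (.cons 754 n1159 (.cons 756 n2672 .nil))
noncomputable def n2828 : Strat := .move 714 n2255 (.cons 671 n2819 (.cons 754 n2822 (.cons 755 n2826 (.cons 672 n2827 .nil))))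
noncomputable def n2829 : Strat := .move 757 n2800 (.cons 839 n2805 (.cons 756 n2807 (.cons 718 n2808 (.cons 674 n2828 .nil))))
noncomputable def n2830 : Strat := .move 714 n2248 (.cons 677 n2788 .nil)
noncomputable def n2831 : Strat := .move 676 n2064 (.cons 757 n2830 .nil)
noncomputable def n2832 : Strat := .move 674 n1113 (.cons 757 n2806 .nil)
noncomputable def n2833 : Strat := .move 797 n677 (.cons 841 n1572 .nil)
noncomputable def n2834 : Strat := .move 718 n2222 (.cons 672 n2267 .nil)
noncomputable def n2835 : Strat := .move 797 n639 (.cons 836 n677 .nil)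
noncomputable def n2836 : Strat := .win 797 4 795
noncomputable def n2837 : Strat := .win 838 5 795
noncomputable def n2838 : Strat := .move 836 n2836 (.cons 797 n2837 .nil)
noncomputable def n2839 : Strat := .move 755 n2306 (.cons 674 n1768 .nil)
noncomputable def n2840 : Strat := .move 837 n2835 (.cons 841 n2838 (.cons 836 n2839 .nil))
noncomputable def n2841 : Strat := .move 714 n2834 (.cons 718 n2840 (.cons 674 n2788 .nil))
noncomputable def n2842 : Strat := .move 838 n1462 (.cons 795 n596 .nil)
noncomputable def n2843 : Strat := .move 837 n2842 (.cons 836 n2839 .nil)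
noncomputable def n2844 : Strat := .move 714 n2834 (.cons 718 n2843 (.cons 674 n2788 .nil))
noncomputable def n2845 : Strat := .move 796 n2833 (.cons 795 n2841 (.cons 797 n2844 .nil))
noncomputable def n2846 : Strat := .move 839 n2794 (.cons 674 n2831 (.cons 676 n2832 (.cons 757 n2845 .nil)))
noncomputable def n2847 : Strat := .move 715 n2786 (.cons 757 n2787 (.cons 674 n2793 (.cons 755 n2799 (.cons 676 n2829 (.cons 756 n2846 .nil)))))
noncomputable def n2848 : Strat := .win 797 3 633
noncomputable def n2849 : Strat := .move 634 n2848 (.cons 797 n2440 .nil)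
noncomputable def n2850 : Strat := .move 756 n1158 (.cons 755 n2849 .nil)
noncomputable def n2851 : Strat := .move 715 n1114 (.cons 673 n2850 .nil)
noncomputable def n2852 : Strat := .move 674 n2020 (.cons 719 n2851 .nil)
noncomputable def n2853 : Strat := .move 719 n2036 (.cons 720 n2040 (.cons 760 n2037 .nil))
noncomputable def n2854 : Strat := .move 674 n1114 (.cons 673 n2850 .nil)
noncomputable def n2855 : Strat := .move 714 n2073 (.cons 676 n2030 .nil)
noncomputable def n2856 : Strat := .move 677 n2025 (.cons 678 n2855 .nil)
noncomputable def n2857 : Strat := .move 673 n2029 (.cons 674 n2856 .nil)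
noncomputable def n2858 : Strat := .move 715 n2854 (.cons 755 n2857 (.cons 673 n2164 .nil))
noncomputable def n2859 : Strat := .move 719 n2124 (.cons 674 n2036 .nil)
noncomputable def n2860 : Strat := .move 718 n2852 (.cons 674 n2853 (.cons 719 n2858 (.cons 715 n2859 .nil)))
noncomputable def n2861 : Strat := .move 675 n2019 (.cons 757 n2860 .nil)
noncomputable def n2862 : Strat := .move 921 n815 (.cons 756 n884 .nil)
noncomputable def n2863 : Strat := .move 797 n1873 (.cons 841 n2862 .nil)
noncomputable def n2864 : Strat := .move 880 n129 (.cons 920 n2863 .nil)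
noncomputable def n2865 : Strat := .move 879 n2608 (.cons 838 n2864 .nil)
noncomputable def n2866 : Strat := .move 839 n2016 (.cons 676 n2865 .nil)
noncomputable def n2867 : Strat := .move 757 n1281 (.cons 675 n2866 .nil)
noncomputable def n2868 : Strat := .move 715 n2800 (.cons 839 n2805 (.cons 756 n2807 (.cons 718 n2808 (.cons 674 n2828 .nil))))
noncomputable def n2869 : Strat := .move 757 n1281 (.cons 675 n2868 .nil)
noncomputable def n2870 : Strat := .move 842 n2609 (.cons 880 n47 .nil)
noncomputable def n2871 : Strat := .move 879 n2608 (.cons 838 n2870 .nil)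
noncomputable def n2872 : Strat := .win 797 0 796
noncomputable def n2873 : Strat := .move 837 n1462 (.cons 795 n596 .nil)
noncomputable def n2874 : Strat := .move 796 n2872 (.cons 797 n2873 .nil)
noncomputable def n2875 : Strat := .move 838 n1189 (.cons 879 n2874 .nil)
noncomputable def n2876 : Strat := .move 841 n1477 (.cons 797 n2871 (.cons 842 n2875 .nil))
noncomputable def n2877 : Strat := .move 839 n2016 (.cons 676 n2876 .nil)
noncomputable def n2878 : Strat := .move 757 n1281 (.cons 675 n2877 .nil)
noncomputable def n2879 : Strat := .move 716 n2051 (.cons 757 n2782 (.cons 675 n2847 (.cons 839 n2861 (.cons 715 n2867 (.cons 676 n2869 (.cons 756 n2878 .nil))))))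
noncomputable def n2880 : Strat := .move 798 n2015 (.cons 797 n2196 (.cons 841 n2375 (.cons 839 n2448 (.cons 757 n2472 (.cons 838 n2497 (.cons 801 n2533 (.cons 756 n2548 (.cons 837 n2605 (.cons 755 n2718 (.cons 759 n2741 (.cons 800 n2879 .nil)))))))))))
noncomputable def n2881 : Strat := .move 717 n1929 (.cons 839 n1942 (.cons 841 n1970 (.cons 716 n1971 (.cons 718 n1984 (.cons 676 n1990 (.cons 758 n2880 .nil))))))
noncomputable def n2882 : Strat := .move 882 n9 (.cons 923 n105 .nil)
noncomputable def n2883 : Strat := .move 758 n13 (.cons 923 n1370 (.cons 921 n1073 (.cons 841 n2882 (.cons 880 n359 (.cons 882 n469 .nil)))))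
noncomputable def n2884 : Strat := .win 798 4 797
noncomputable def n2885 : Strat := .move 801 n52 (.cons 802 n2884 .nil)
noncomputable def n2886 : Strat := .move 838 n315 (.cons 837 n2885 .nil)
noncomputable def n2887 : Strat := .move 801 n2884 (.cons 798 n1822 .nil)
noncomputable def n2888 : Strat := .move 838 n315 (.cons 837 n2887 .nil)
noncomputable def n2889 : Strat := .move 961 n918 (.cons 798 n190 .nil)
noncomputable def n2890 : Strat := .move 920 n2889 (.cons 960 n324 .nil)
noncomputable def n2891 : Strat := .move 880 n983 (.cons 878 n984 (.cons 924 n2890 .nil))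
noncomputable def n2892 : Strat := .move 923 n42 (.cons 964 n2891 .nil)
noncomputable def n2893 : Strat := .move 801 n52 (.cons 802 n1822 .nil)
noncomputable def n2894 : Strat := .move 838 n315 (.cons 837 n2893 .nil)
noncomputable def n2895 : Strat := .move 839 n2886 (.cons 802 n2888 (.cons 838 n2892 (.cons 798 n2894 .nil)))
noncomputable def n2896 : Strat := .move 921 n27 (.cons 962 n2895 .nil)
noncomputable def n2897 : Strat := .move 800 n17 (.cons 759 n2896 .nil)
noncomputable def n2898 : Strat := .move 922 n65 (.cons 962 n41 (.cons 963 n2897 (.cons 841 n275 .nil)))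
noncomputable def n2899 : Strat := .move 676 n545 (.cons 634 n573 .nil)
noncomputable def n2900 : Strat := .move 675 n544 (.cons 716 n2899 .nil)
noncomputable def n2901 : Strat := .move 717 n10 (.cons 841 n2900 .nil)
noncomputable def n2902 : Strat := .move 882 n9 (.cons 923 n2901 .nil)
noncomputable def n2903 : Strat := .move 717 n8 (.cons 839 n2900 .nil)
noncomputable def n2904 : Strat := .move 880 n7 (.cons 921 n2903 .nil)
noncomputable def n2905 : Strat := .move 882 n9 (.cons 923 n1362 .nil)
noncomputable def n2906 : Strat := .move 963 n1026 (.cons 800 n24 .nil)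
noncomputable def n2907 : Strat := .move 922 n42 (.cons 964 n2906 .nil)
noncomputable def n2908 : Strat := .move 923 n61 (.cons 882 n2907 .nil)
noncomputable def n2909 : Strat := .move 880 n1419 (.cons 1004 n1056 .nil)
noncomputable def n2910 : Strat := .move 839 n1434 (.cons 798 n2909 .nil)
noncomputable def n2911 : Strat := .move 963 n1026 (.cons 800 n2910 .nil)
noncomputable def n2912 : Strat := .move 922 n42 (.cons 964 n2911 .nil)
noncomputable def n2913 : Strat := .move 923 n61 (.cons 882 n2912 .nil)
noncomputable def n2914 : Strat := .move 841 n2905 (.cons 882 n1590 (.cons 880 n2908 (.cons 921 n2913 .nil)))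
noncomputable def n2915 : Strat := .move 758 n13 (.cons 880 n2902 (.cons 882 n2904 (.cons 717 n2914 .nil)))
noncomputable def n2916 : Strat := .move 797 n136 (.cons 796 n1507 .nil)
noncomputable def n2917 : Strat := .move 760 n114 (.cons 761 n1718 .nil)
noncomputable def n2918 : Strat := .move 676 n1172 (.cons 841 n1067 .nil)
noncomputable def n2919 : Strat := .move 676 n1336 (.cons 839 n1172 .nil)
noncomputable def n2920 : Strat := .move 676 n1336 (.cons 839 n1067 .nil)
noncomputable def n2921 : Strat := .move 839 n542 (.cons 880 n525 .nil)
noncomputable def n2922 : Strat := .move 717 n2918 (.cons 635 n2919 (.cons 841 n2920 (.cons 676 n2921 .nil)))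
noncomputable def n2923 : Strat := .move 760 n114 (.cons 761 n2922 .nil)
noncomputable def n2924 : Strat := .move 839 n761 (.cons 880 n525 .nil)
noncomputable def n2925 : Strat := .move 841 n44 (.cons 842 n2924 .nil)
noncomputable def n2926 : Strat := .move 797 n136 (.cons 796 n2925 .nil)
noncomputable def n2927 : Strat := .move 798 n2916 (.cons 796 n2917 (.cons 797 n2923 (.cons 760 n2926 .nil)))
noncomputable def n2928 : Strat := .move 800 n653 (.cons 922 n2927 .nil)
noncomputable def n2929 : Strat := .move 759 n2 (.cons 718 n2928 .nil)
noncomputable def n2930 : Strat := .move 717 n10 (.cons 841 n548 .nil)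
noncomputable def n2931 : Strat := .move 882 n9 (.cons 923 n2930 .nil)
noncomputable def n2932 : Strat := .move 758 n1073 (.cons 882 n2929 (.cons 718 n2931 (.cons 841 n359 .nil)))
noncomputable def n2933 : Strat := .move 882 n155 (.cons 717 n469 (.cons 759 n162 .nil))
noncomputable def n2934 : Strat := .move 676 n1067 (.cons 635 n1172 .nil)
noncomputable def n2935 : Strat := .move 800 n653 (.cons 922 n2934 .nil)
noncomputable def n2936 : Strat := .move 717 n8 (.cons 839 n2935 .nil)
noncomputable def n2937 : Strat := .move 880 n7 (.cons 921 n2936 .nil)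
noncomputable def n2938 : Strat := .move 759 n2 (.cons 718 n2937 .nil)
noncomputable def n2939 : Strat := .move 758 n156 (.cons 717 n470 (.cons 759 n963 (.cons 923 n2933 (.cons 882 n2938 .nil))))
noncomputable def n2940 : Strat := .move 882 n9 (.cons 923 n240 .nil)
noncomputable def n2941 : Strat := .move 758 n2940 (.cons 717 n1590 .nil)
noncomputable def n2942 : Strat := .move 880 n266 (.cons 843 n365 .nil)
noncomputable def n2943 : Strat := .win 798 2 798
noncomputable def n2944 : Strat := .win 800 2 799
noncomputable def n2945 : Strat := .win 882 4 840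
noncomputable def n2946 : Strat := .move 844 n2944 (.cons 800 n2945 .nil)
noncomputable def n2947 : Strat := .move 843 n2943 (.cons 798 n2946 .nil)
noncomputable def n2948 : Strat := .move 798 n45 (.cons 796 n734 .nil)
noncomputable def n2949 : Strat := .move 798 n45 (.cons 796 n1097 .nil)
noncomputable def n2950 : Strat := .move 798 n734 (.cons 800 n1097 .nil)
noncomputable def n2951 : Strat := .move 880 n131 (.cons 878 n364 .nil)
noncomputable def n2952 : Strat := .move 880 n364 (.cons 839 n367 .nil)
noncomputable def n2953 : Strat := .move 880 n131 (.cons 878 n367 .nil)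
noncomputable def n2954 : Strat := .move 839 n397 (.cons 796 n1040 .nil)
noncomputable def n2955 : Strat := .move 837 n827 (.cons 800 n398 .nil)
noncomputable def n2956 : Strat := .move 839 n397 (.cons 796 n2955 .nil)
noncomputable def n2957 : Strat := .win 1001 1 837
noncomputable def n2958 : Strat := .win 919 1 796
noncomputable def n2959 : Strat := .move 960 n2957 (.cons 1001 n2958 .nil)
noncomputable def n2960 : Strat := .win 1003 6 838
noncomputable def n2961 : Strat := .win 921 6 797
noncomputable def n2962 : Strat := .move 962 n2960 (.cons 1003 n2961 .nil)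
noncomputable def n2963 : Strat := .move 961 n2959 (.cons 919 n2962 .nil)
noncomputable def n2964 : Strat := .win 796 7 755
noncomputable def n2965 : Strat := .win 714 7 714
noncomputable def n2966 : Strat := .move 755 n2964 (.cons 796 n2965 .nil)
noncomputable def n2967 : Strat := .move 756 n2524 (.cons 878 n2966 .nil)
noncomputable def n2968 : Strat := .win 837 7 796
noncomputable def n2969 : Strat := .move 796 n2968 (.cons 837 n447 .nil)
noncomputable def n2970 : Strat := .move 961 n2962 (.cons 921 n2969 .nil)
noncomputable def n2971 : Strat := .move 920 n2963 (.cons 961 n2967 (.cons 919 n2970 .nil))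
noncomputable def n2972 : Strat := .move 839 n1040 (.cons 878 n2955 .nil)
noncomputable def n2973 : Strat := .move 838 n2954 (.cons 878 n2956 (.cons 839 n2971 (.cons 796 n2972 .nil)))
noncomputable def n2974 : Strat := .move 879 n2951 (.cons 878 n2952 (.cons 839 n2953 (.cons 880 n2973 .nil)))
noncomputable def n2975 : Strat := .move 797 n2948 (.cons 800 n2949 (.cons 796 n2950 (.cons 798 n2974 .nil)))
noncomputable def n2976 : Strat := .move 842 n2942 (.cons 880 n2947 (.cons 843 n2975 .nil))
noncomputable def n2977 : Strat := .move 921 n332 (.cons 758 n884 .nil)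
noncomputable def n2978 : Strat := .move 839 n385 (.cons 879 n2977 .nil)
noncomputable def n2979 : Strat := .move 842 n266 (.cons 843 n2978 .nil)
noncomputable def n2980 : Strat := .move 758 n7 (.cons 921 n104 .nil)
noncomputable def n2981 : Strat := .move 676 n545 (.cons 634 n553 .nil)
noncomputable def n2982 : Strat := .move 675 n544 (.cons 716 n2981 .nil)
noncomputable def n2983 : Strat := .move 717 n102 (.cons 677 n2982 .nil)
noncomputable def n2984 : Strat := .move 718 n101 (.cons 759 n2983 .nil)
noncomputable def n2985 : Strat := .move 758 n7 (.cons 921 n2984 .nil)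
noncomputable def n2986 : Strat := .move 842 n266 (.cons 843 n2985 .nil)
noncomputable def n2987 : Strat := .move 880 n2979 (.cons 879 n2980 (.cons 921 n366 (.cons 839 n2986 .nil)))
noncomputable def n2988 : Strat := .move 760 n296 (.cons 800 n114 .nil)
noncomputable def n2989 : Strat := .move 797 n45 (.cons 796 n2988 .nil)
noncomputable def n2990 : Strat := .move 798 n736 (.cons 797 n1603 (.cons 800 n1099 (.cons 842 n2989 .nil)))
noncomputable def n2991 : Strat := .move 759 n2 (.cons 718 n2990 .nil)
noncomputable def n2992 : Strat := .move 758 n240 (.cons 717 n2991 .nil)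
noncomputable def n2993 : Strat := .win 844 4 840
noncomputable def n2994 : Strat := .move 843 n2943 (.cons 798 n2993 .nil)
noncomputable def n2995 : Strat := .win 803 5 799
noncomputable def n2996 : Strat := .win 839 5 798
noncomputable def n2997 : Strat := .win 800 3 759
noncomputable def n2998 : Strat := .move 760 n934 (.cons 719 n2997 .nil)
noncomputable def n2999 : Strat := .move 801 n2996 (.cons 839 n2998 .nil)
noncomputable def n3000 : Strat := .move 802 n2995 (.cons 803 n2999 .nil)
noncomputable def n3001 : Strat := .move 843 n2993 (.cons 844 n3000 .nil)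
noncomputable def n3002 : Strat := .move 798 n47 (.cons 843 n2606 .nil)
noncomputable def n3003 : Strat := .move 838 n1040 (.cons 878 n526 .nil)
noncomputable def n3004 : Strat := .move 801 n387 (.cons 802 n2998 .nil)
noncomputable def n3005 : Strat := .move 879 n3003 (.cons 837 n3004 .nil)
noncomputable def n3006 : Strat := .move 797 n397 (.cons 796 n396 .nil)
noncomputable def n3007 : Strat := .move 838 n526 (.cons 837 n3006 .nil)
noncomputable def n3008 : Strat := .move 839 n3005 (.cons 879 n3004 (.cons 801 n3007 .nil))
noncomputable def n3009 : Strat := .move 842 n2994 (.cons 798 n3001 (.cons 844 n3002 (.cons 843 n3008 .nil)))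
noncomputable def n3010 : Strat := .move 923 n370 (.cons 964 n3009 .nil)
noncomputable def n3011 : Strat := .move 882 n445 (.cons 923 n2992 (.cons 758 n3010 .nil))
noncomputable def n3012 : Strat := .move 880 n7 (.cons 921 n2982 .nil)
noncomputable def n3013 : Strat := .move 717 n102 (.cons 677 n3012 .nil)
noncomputable def n3014 : Strat := .move 718 n101 (.cons 759 n3013 .nil)
noncomputable def n3015 : Strat := .move 758 n2940 (.cons 717 n2905 (.cons 923 n741 (.cons 882 n3014 .nil)))
noncomputable def n3016 : Strat := .move 758 n2940 (.cons 717 n1645 (.cons 923 n741 (.cons 882 n105 .nil)))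
noncomputable def n3017 : Strat := .move 798 n736 (.cons 800 n1099 (.cons 797 n1603 (.cons 842 n2989 .nil)))
noncomputable def n3018 : Strat := .move 759 n2 (.cons 718 n3017 .nil)
noncomputable def n3019 : Strat := .move 882 n9 (.cons 923 n3018 .nil)
noncomputable def n3020 : Strat := .move 758 n2940 (.cons 882 n105 (.cons 717 n3019 .nil))
noncomputable def n3021 : Strat := .move 717 n1197 (.cons 676 n161 .nil)
noncomputable def n3022 : Strat := .move 800 n2940 (.cons 882 n3021 (.cons 717 n1596 .nil))
noncomputable def n3023 : Strat := .move 758 n2 (.cons 718 n3022 .nil)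
noncomputable def n3024 : Strat := .win 798 5 757
noncomputable def n3025 : Strat := .move 761 n717 (.cons 762 n3024 .nil)
noncomputable def n3026 : Strat := .move 719 n2593 (.cons 882 n518 .nil)
noncomputable def n3027 : Strat := .move 760 n3025 (.cons 762 n3026 .nil)
noncomputable def n3028 : Strat := .move 801 n1737 (.cons 839 n3027 .nil)
noncomputable def n3029 : Strat := .move 800 n1059 (.cons 718 n3028 .nil)
noncomputable def n3030 : Strat := .move 758 n2 (.cons 718 n2940 .nil)
noncomputable def n3031 : Strat := .win 800 1 717
noncomputable def n3032 : Strat := .move 718 n930 (.cons 758 n3031 .nil)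
noncomputable def n3033 : Strat := .move 882 n240 (.cons 717 n9 .nil)
noncomputable def n3034 : Strat := .move 758 n114 (.cons 761 n3033 .nil)
noncomputable def n3035 : Strat := .move 760 n296 (.cons 800 n3034 .nil)
noncomputable def n3036 : Strat := .move 798 n45 (.cons 796 n3035 .nil)
noncomputable def n3037 : Strat := .move 717 n552 (.cons 882 n993 .nil)
noncomputable def n3038 : Strat := .move 758 n114 (.cons 761 n3037 .nil)
noncomputable def n3039 : Strat := .move 760 n296 (.cons 800 n3038 .nil)
noncomputable def n3040 : Strat := .move 798 n45 (.cons 796 n3039 .nil)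
noncomputable def n3041 : Strat := .move 839 n397 (.cons 796 n826 .nil)
noncomputable def n3042 : Strat := .move 880 n131 (.cons 878 n7 .nil)
noncomputable def n3043 : Strat := .move 839 n1040 (.cons 878 n397 .nil)
noncomputable def n3044 : Strat := .move 921 n377 (.cons 962 n28 .nil)
noncomputable def n3045 : Strat := .move 920 n3044 (.cons 880 n448 .nil)
noncomputable def n3046 : Strat := .move 879 n3042 (.cons 921 n3043 (.cons 878 n3045 .nil))
noncomputable def n3047 : Strat := .move 879 n373 (.cons 837 n131 .nil)
noncomputable def n3048 : Strat := .move 880 n7 (.cons 921 n3047 .nil)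
noncomputable def n3049 : Strat := .move 882 n9 (.cons 923 n3048 .nil)
noncomputable def n3050 : Strat := .move 838 n3041 (.cons 837 n3046 (.cons 839 n3049 .nil))
noncomputable def n3051 : Strat := .move 800 n1197 (.cons 676 n1453 .nil)
noncomputable def n3052 : Strat := .move 717 n552 (.cons 882 n3051 .nil)
noncomputable def n3053 : Strat := .move 675 n545 (.cons 634 n544 .nil)
noncomputable def n3054 : Strat := .move 676 n553 (.cons 800 n3053 .nil)
noncomputable def n3055 : Strat := .move 717 n8 (.cons 839 n3054 .nil)
noncomputable def n3056 : Strat := .move 880 n7 (.cons 921 n3055 .nil)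
noncomputable def n3057 : Strat := .move 758 n2940 (.cons 717 n3050 (.cons 923 n3052 (.cons 882 n3056 .nil)))
noncomputable def n3058 : Strat := .win 920 7 755
noncomputable def n3059 : Strat := .win 837 6 714
noncomputable def n3060 : Strat := .move 714 n3059 (.cons 837 n2386 .nil)
noncomputable def n3061 : Strat := .move 755 n3058 (.cons 920 n3060 .nil)
noncomputable def n3062 : Strat := .move 921 n378 (.cons 756 n332 .nil)
noncomputable def n3063 : Strat := .move 880 n131 (.cons 878 n3062 .nil)
noncomputable def n3064 : Strat := .move 879 n3061 (.cons 755 n3063 .nil)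
noncomputable def n3065 : Strat := .move 838 n374 (.cons 839 n3064 .nil)
noncomputable def n3066 : Strat := .move 796 n375 (.cons 798 n3065 .nil)
noncomputable def n3067 : Strat := .move 839 n397 (.cons 796 n875 .nil)
noncomputable def n3068 : Strat := .move 800 n1507 (.cons 760 n72 .nil)
noncomputable def n3069 : Strat := .move 798 n45 (.cons 796 n3068 .nil)
noncomputable def n3070 : Strat := .move 796 n375 (.cons 798 n374 .nil)
noncomputable def n3071 : Strat := .move 798 n1507 (.cons 760 n72 .nil)
noncomputable def n3072 : Strat := .win 798 5 756
noncomputable def n3073 : Strat := .move 719 n518 (.cons 678 n2593 .nil)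
noncomputable def n3074 : Strat := .move 760 n3072 (.cons 798 n3073 .nil)
noncomputable def n3075 : Strat := .move 801 n1738 (.cons 839 n3074 .nil)
noncomputable def n3076 : Strat := .move 839 n315 (.cons 837 n590 .nil)
noncomputable def n3077 : Strat := .move 800 n3071 (.cons 837 n3075 (.cons 760 n3076 .nil))
noncomputable def n3078 : Strat := .move 838 n3067 (.cons 839 n3069 (.cons 800 n3070 (.cons 796 n3077 .nil)))
noncomputable def n3079 : Strat := .win 798 4 796
noncomputable def n3080 : Strat := .win 839 5 796
noncomputable def n3081 : Strat := .move 837 n3079 (.cons 798 n3080 .nil)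
noncomputable def n3082 : Strat := .move 800 n3076 (.cons 801 n3081 (.cons 839 n3071 (.cons 837 n3075 .nil)))
noncomputable def n3083 : Strat := .move 837 n398 (.cons 882 n599 .nil)
noncomputable def n3084 : Strat := .move 758 n240 (.cons 717 n9 .nil)
noncomputable def n3085 : Strat := .move 760 n704 (.cons 719 n3072 .nil)
noncomputable def n3086 : Strat := .move 882 n3084 (.cons 923 n3085 .nil)
noncomputable def n3087 : Strat := .move 800 n590 (.cons 801 n3086 .nil)
noncomputable def n3088 : Strat := .move 839 n591 (.cons 800 n3083 (.cons 837 n3087 .nil))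
noncomputable def n3089 : Strat := .win 880 5 837
noncomputable def n3090 : Strat := .move 878 n3089 (.cons 880 n2734 .nil)
noncomputable def n3091 : Strat := .move 880 n378 (.cons 756 n332 .nil)
noncomputable def n3092 : Strat := .move 921 n377 (.cons 962 n3091 .nil)
noncomputable def n3093 : Strat := .win 880 4 878
noncomputable def n3094 : Strat := .move 919 n3093 (.cons 880 n912 .nil)
noncomputable def n3095 : Strat := .move 882 n3084 (.cons 923 n3094 .nil)
noncomputable def n3096 : Strat := .move 920 n3092 (.cons 921 n3095 (.cons 758 n2963 .nil))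
noncomputable def n3097 : Strat := .win 1001 3 837
noncomputable def n3098 : Strat := .win 920 1 796
noncomputable def n3099 : Strat := .move 960 n3097 (.cons 1001 n3098 .nil)
noncomputable def n3100 : Strat := .move 919 n867 (.cons 756 n3099 .nil)
noncomputable def n3101 : Strat := .move 878 n2734 (.cons 839 n3100 .nil)
noncomputable def n3102 : Strat := .move 879 n3090 (.cons 839 n3063 (.cons 878 n3096 (.cons 880 n3101 .nil)))
noncomputable def n3103 : Strat := .move 879 n131 (.cons 878 n3062 .nil)
noncomputable def n3104 : Strat := .move 758 n7 (.cons 921 n3033 .nil)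
noncomputable def n3105 : Strat := .move 882 n373 (.cons 837 n443 .nil)
noncomputable def n3106 : Strat := .move 879 n131 (.cons 878 n3105 .nil)
noncomputable def n3107 : Strat := .move 880 n3103 (.cons 756 n3104 (.cons 758 n3106 .nil))
noncomputable def n3108 : Strat := .move 800 n590 (.cons 801 n315 .nil)
noncomputable def n3109 : Strat := .move 758 n128 (.cons 717 n7 .nil)
noncomputable def n3110 : Strat := .move 839 n3108 (.cons 837 n3109 .nil)
noncomputable def n3111 : Strat := .move 798 n72 (.cons 837 n1507 .nil)
noncomputable def n3112 : Strat := .move 837 n3080 (.cons 839 n3079 .nil)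
noncomputable def n3113 : Strat := .move 839 n877 (.cons 715 n590 .nil)
noncomputable def n3114 : Strat := .move 798 n76 (.cons 755 n1507 .nil)
noncomputable def n3115 : Strat := .move 756 n3113 (.cons 801 n3114 .nil)
noncomputable def n3116 : Strat := .move 839 n590 (.cons 801 n315 .nil)
noncomputable def n3117 : Strat := .move 800 n3111 (.cons 760 n3112 (.cons 837 n3115 (.cons 798 n3116 .nil)))
noncomputable def n3118 : Strat := .move 837 n597 (.cons 877 n399 .nil)
noncomputable def n3119 : Strat := .move 878 n598 (.cons 879 n3118 .nil)
noncomputable def n3120 : Strat := .move 839 n3109 (.cons 921 n3119 .nil)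
noncomputable def n3121 : Strat := .move 962 n429 (.cons 1003 n428 .nil)
noncomputable def n3122 : Strat := .move 921 n332 (.cons 758 n3121 .nil)
noncomputable def n3123 : Strat := .move 880 n3110 (.cons 921 n3117 (.cons 800 n3120 (.cons 837 n3122 (.cons 839 n3103 .nil))))
noncomputable def n3124 : Strat := .move 838 n3082 (.cons 678 n3088 (.cons 837 n3102 (.cons 839 n3107 (.cons 882 n3123 .nil))))
noncomputable def n3125 : Strat := .move 797 n3036 (.cons 923 n3040 (.cons 798 n3057 (.cons 882 n3066 (.cons 758 n3078 (.cons 796 n3124 .nil)))))
noncomputable def n3126 : Strat := .move 759 n3023 (.cons 758 n3029 (.cons 800 n3030 (.cons 882 n3032 (.cons 718 n3125 .nil))))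
noncomputable def n3127 : Strat := .move 841 n2941 (.cons 758 n2976 (.cons 882 n2987 (.cons 880 n3011 (.cons 839 n3015 (.cons 843 n3016 (.cons 879 n3020 (.cons 842 n3126 .nil)))))))
noncomputable def n3128 : Strat := .move 881 n2883 (.cons 758 n2898 (.cons 800 n213 (.cons 880 n672 (.cons 841 n340 (.cons 759 n2915 (.cons 923 n1450 (.cons 921 n2932 (.cons 882 n784 (.cons 964 n2939 (.cons 922 n3127 .nil))))))))))
noncomputable def n3129 : Strat := .move 838 n2884 (.cons 798 n1822 .nil)
noncomputable def n3130 : Strat := .move 801 n52 (.cons 802 n3129 .nil)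
noncomputable def n3131 : Strat := .move 881 n389 (.cons 716 n158 .nil)
noncomputable def n3132 : Strat := .move 757 n388 (.cons 756 n3131 .nil)
noncomputable def n3133 : Strat := .move 797 n635 (.cons 841 n1637 .nil)
noncomputable def n3134 : Strat := .move 842 n634 (.cons 843 n3133 .nil)
noncomputable def n3135 : Strat := .move 797 n635 (.cons 841 n2466 .nil)
noncomputable def n3136 : Strat := .move 842 n634 (.cons 843 n3135 .nil)
noncomputable def n3137 : Strat := .move 798 n3132 (.cons 716 n3134 (.cons 757 n3136 .nil))
noncomputable def n3138 : Strat := .move 801 n52 (.cons 802 n3137 .nil)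
noncomputable def n3139 : Strat := .move 757 n2509 (.cons 920 n890 .nil)
noncomputable def n3140 : Strat := .move 879 n1040 (.cons 878 n3139 .nil)
noncomputable def n3141 : Strat := .move 798 n44 (.cons 842 n3140 .nil)
noncomputable def n3142 : Strat := .move 797 n397 (.cons 796 n3141 .nil)
noncomputable def n3143 : Strat := .move 715 n1381 (.cons 674 n1380 .nil)
noncomputable def n3144 : Strat := .move 756 n76 (.cons 755 n3143 .nil)
noncomputable def n3145 : Strat := .move 798 n44 (.cons 842 n3144 .nil)
noncomputable def n3146 : Strat := .move 797 n397 (.cons 796 n3145 .nil)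
noncomputable def n3147 : Strat := .win 844 2 799
noncomputable def n3148 : Strat := .move 843 n2943 (.cons 798 n3147 .nil)
noncomputable def n3149 : Strat := .move 842 n2609 (.cons 880 n3148 .nil)
noncomputable def n3150 : Strat := .move 879 n1040 (.cons 878 n3149 .nil)
noncomputable def n3151 : Strat := .move 880 n130 (.cons 842 n879 .nil)
noncomputable def n3152 : Strat := .move 879 n1040 (.cons 878 n3151 .nil)
noncomputable def n3153 : Strat := .move 920 n910 (.cons 961 n450 .nil)
noncomputable def n3154 : Strat := .move 756 n76 (.cons 755 n2511 .nil)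
noncomputable def n3155 : Strat := .move 798 n3139 (.cons 716 n3153 (.cons 920 n3154 .nil))
noncomputable def n3156 : Strat := .move 879 n1040 (.cons 878 n3155 .nil)
noncomputable def n3157 : Strat := .move 797 n397 (.cons 796 n3156 .nil)
noncomputable def n3158 : Strat := .move 841 n3142 (.cons 920 n3146 (.cons 797 n3150 (.cons 798 n3152 (.cons 842 n3157 .nil))))
noncomputable def n3159 : Strat := .move 838 n315 (.cons 837 n3158 .nil)
noncomputable def n3160 : Strat := .move 800 n2886 (.cons 798 n2894 (.cons 802 n2888 (.cons 837 n3130 (.cons 838 n3138 (.cons 801 n3159 .nil)))))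
noncomputable def n3161 : Strat := .move 800 n315 (.cons 837 n3158 .nil)
noncomputable def n3162 : Strat := .win 798 5 795
noncomputable def n3163 : Strat := .win 878 4 836
noncomputable def n3164 : Strat := .win 876 4 835
noncomputable def n3165 : Strat := .move 877 n3163 (.cons 878 n3164 .nil)
noncomputable def n3166 : Strat := .move 836 n3162 (.cons 798 n3165 .nil)
noncomputable def n3167 : Strat := .win 796 2 795
noncomputable def n3168 : Strat := .win 794 2 794
noncomputable def n3169 : Strat := .move 795 n3167 (.cons 796 n3168 .nil)
noncomputable def n3170 : Strat := .move 836 n3162 (.cons 798 n3169 .nil)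
noncomputable def n3171 : Strat := .win 755 6 755
noncomputable def n3172 : Strat := .win 961 7 796
noncomputable def n3173 : Strat := .move 920 n3171 (.cons 755 n3172 .nil)
noncomputable def n3174 : Strat := .move 879 n2512 (.cons 841 n3173 .nil)
noncomputable def n3175 : Strat := .move 796 n1462 (.cons 795 n3174 .nil)
noncomputable def n3176 : Strat := .move 878 n597 (.cons 877 n3175 .nil)
noncomputable def n3177 : Strat := .move 837 n3166 (.cons 878 n3170 (.cons 798 n3176 .nil))
noncomputable def n3178 : Strat := .move 837 n827 (.cons 800 n3176 .nil)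
noncomputable def n3179 : Strat := .move 837 n827 (.cons 800 n3166 .nil)
noncomputable def n3180 : Strat := .move 837 n827 (.cons 800 n3170 .nil)
noncomputable def n3181 : Strat := .move 800 n3139 (.cons 716 n3153 (.cons 920 n3154 .nil))
noncomputable def n3182 : Strat := .move 798 n595 (.cons 842 n3181 .nil)
noncomputable def n3183 : Strat := .move 797 n397 (.cons 796 n3182 .nil)
noncomputable def n3184 : Strat := .move 841 n1040 (.cons 878 n3183 .nil)
noncomputable def n3185 : Strat := .win 880 1 756
noncomputable def n3186 : Strat := .move 920 n910 (.cons 961 n3185 .nil)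
noncomputable def n3187 : Strat := .move 757 n890 (.cons 716 n3186 .nil)
noncomputable def n3188 : Strat := .move 797 n2796 (.cons 795 n1571 (.cons 796 n3153 .nil))
noncomputable def n3189 : Strat := .move 755 n2965 (.cons 714 n2236 .nil)
noncomputable def n3190 : Strat := .move 756 n1382 (.cons 674 n2511 (.cons 880 n3189 .nil))
noncomputable def n3191 : Strat := .move 920 n910 (.cons 961 n3190 .nil)
noncomputable def n3192 : Strat := .move 841 n595 (.cons 842 n3191 .nil)
noncomputable def n3193 : Strat := .move 796 n1572 (.cons 795 n447 .nil)
noncomputable def n3194 : Strat := .move 920 n910 (.cons 961 n3193 .nil)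
noncomputable def n3195 : Strat := .move 797 n2796 (.cons 795 n1571 (.cons 796 n3192 (.cons 841 n3194 .nil)))
noncomputable def n3196 : Strat := .move 755 n2236 (.cons 800 n290 .nil)
noncomputable def n3197 : Strat := .move 756 n3196 (.cons 754 n3143 .nil)
noncomputable def n3198 : Strat := .move 797 n1873 (.cons 841 n3197 .nil)
noncomputable def n3199 : Strat := .move 881 n158 (.cons 922 n3198 .nil)
noncomputable def n3200 : Strat := .move 757 n890 (.cons 716 n3199 .nil)
noncomputable def n3201 : Strat := .move 798 n3187 (.cons 716 n3188 (.cons 757 n3195 (.cons 920 n3200 .nil)))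
noncomputable def n3202 : Strat := .move 798 n595 (.cons 842 n2539 .nil)
noncomputable def n3203 : Strat := .move 797 n397 (.cons 796 n3202 .nil)
noncomputable def n3204 : Strat := .move 841 n1040 (.cons 878 n3203 .nil)
noncomputable def n3205 : Strat := .win 876 5 835
noncomputable def n3206 : Strat := .win 880 5 836
noncomputable def n3207 : Strat := .move 877 n3205 (.cons 876 n3206 .nil)
noncomputable def n3208 : Strat := .move 878 n2512 (.cons 841 n3207 .nil)
noncomputable def n3209 : Strat := .win 881 7 757
noncomputable def n3210 : Strat := .win 963 6 798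
noncomputable def n3211 : Strat := .move 921 n3210 (.cons 963 n884 .nil)
noncomputable def n3212 : Strat := .move 880 n289 (.cons 715 n3211 .nil)
noncomputable def n3213 : Strat := .move 797 n2965 (.cons 714 n2236 .nil)
noncomputable def n3214 : Strat := .move 755 n290 (.cons 754 n3213 .nil)
noncomputable def n3215 : Strat := .move 756 n3212 (.cons 880 n3214 .nil)
noncomputable def n3216 : Strat := .move 922 n3209 (.cons 881 n3215 .nil)
noncomputable def n3217 : Strat := .move 757 n890 (.cons 716 n3216 .nil)
noncomputable def n3218 : Strat := .move 797 n450 (.cons 757 n3193 .nil)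
noncomputable def n3219 : Strat := .move 920 n910 (.cons 961 n3218 .nil)
noncomputable def n3220 : Strat := .move 919 n2523 (.cons 878 n912 .nil)
noncomputable def n3221 : Strat := .move 756 n2526 (.cons 880 n3220 .nil)
noncomputable def n3222 : Strat := .move 921 n377 (.cons 962 n3221 .nil)
noncomputable def n3223 : Strat := .move 797 n3193 (.cons 795 n3222 .nil)
noncomputable def n3224 : Strat := .move 920 n910 (.cons 961 n3223 .nil)
noncomputable def n3225 : Strat := .move 798 n3187 (.cons 920 n3217 (.cons 716 n3219 (.cons 757 n3224 .nil)))
noncomputable def n3226 : Strat := .move 879 n3184 (.cons 878 n3201 (.cons 880 n3204 (.cons 798 n3208 (.cons 841 n3225 .nil))))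
noncomputable def n3227 : Strat := .move 838 n3161 (.cons 800 n3177 (.cons 798 n3178 (.cons 796 n3179 (.cons 878 n3180 (.cons 837 n3226 .nil)))))
noncomputable def n3228 : Strat := .move 800 n315 (.cons 837 n2885 .nil)
noncomputable def n3229 : Strat := .move 841 n1463 (.cons 797 n598 .nil)
noncomputable def n3230 : Strat := .move 878 n597 (.cons 877 n3229 .nil)
noncomputable def n3231 : Strat := .move 796 n1462 (.cons 795 n3230 .nil)
noncomputable def n3232 : Strat := .move 837 n3166 (.cons 877 n3170 (.cons 836 n3231 .nil))
noncomputable def n3233 : Strat := .move 800 n315 (.cons 837 n2893 .nil)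
noncomputable def n3234 : Strat := .move 800 n590 (.cons 801 n3142 .nil)
noncomputable def n3235 : Strat := .move 842 n396 (.cons 798 n2624 .nil)
noncomputable def n3236 : Strat := .move 797 n397 (.cons 796 n3235 .nil)
noncomputable def n3237 : Strat := .move 800 n590 (.cons 801 n3150 .nil)
noncomputable def n3238 : Strat := .move 798 n44 (.cons 842 n1635 .nil)
noncomputable def n3239 : Strat := .move 797 n397 (.cons 796 n3238 .nil)
noncomputable def n3240 : Strat := .move 800 n590 (.cons 801 n3239 .nil)
noncomputable def n3241 : Strat := .move 798 n3139 (.cons 716 n3153 (.cons 920 n3144 .nil))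
noncomputable def n3242 : Strat := .move 879 n1040 (.cons 878 n3241 .nil)
noncomputable def n3243 : Strat := .move 797 n397 (.cons 796 n3242 .nil)
noncomputable def n3244 : Strat := .move 800 n590 (.cons 801 n3243 .nil)
noncomputable def n3245 : Strat := .move 842 n2609 (.cons 880 n387 .nil)
noncomputable def n3246 : Strat := .move 801 n403 (.cons 800 n3245 .nil)
noncomputable def n3247 : Strat := .move 879 n1040 (.cons 878 n3246 .nil)
noncomputable def n3248 : Strat := .move 797 n397 (.cons 796 n3247 .nil)
noncomputable def n3249 : Strat := .move 841 n3234 (.cons 800 n3236 (.cons 797 n3237 (.cons 879 n3240 (.cons 842 n3244 (.cons 798 n3248 .nil)))))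
noncomputable def n3250 : Strat := .move 838 n3228 (.cons 800 n3232 (.cons 798 n3233 (.cons 837 n3249 .nil)))
noncomputable def n3251 : Strat := .move 797 n2000 (.cons 759 n1637 .nil)
noncomputable def n3252 : Strat := .move 760 n935 (.cons 761 n3251 .nil)
noncomputable def n3253 : Strat := .move 879 n129 (.cons 920 n1877 .nil)
noncomputable def n3254 : Strat := .move 880 n3253 (.cons 841 n3211 .nil)
noncomputable def n3255 : Strat := .move 922 n3209 (.cons 881 n3254 .nil)
noncomputable def n3256 : Strat := .move 757 n388 (.cons 756 n3255 .nil)
noncomputable def n3257 : Strat := .move 842 n634 (.cons 843 n3256 .nil)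
noncomputable def n3258 : Strat := .move 798 n3134 (.cons 842 n3252 (.cons 797 n3257 (.cons 757 n3136 .nil)))
noncomputable def n3259 : Strat := .move 801 n52 (.cons 802 n3258 .nil)
noncomputable def n3260 : Strat := .move 880 n130 (.cons 842 n886 .nil)
noncomputable def n3261 : Strat := .move 879 n1040 (.cons 878 n3260 .nil)
noncomputable def n3262 : Strat := .move 798 n1507 (.cons 760 n3153 .nil)
noncomputable def n3263 : Strat := .move 759 n1634 (.cons 677 n1623 (.cons 881 n3262 .nil))
noncomputable def n3264 : Strat := .move 879 n1040 (.cons 878 n3263 .nil)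
noncomputable def n3265 : Strat := .move 797 n397 (.cons 796 n3264 .nil)
noncomputable def n3266 : Strat := .move 841 n3146 (.cons 674 n3239 (.cons 797 n3150 (.cons 798 n3261 (.cons 842 n3265 .nil))))
noncomputable def n3267 : Strat := .move 838 n315 (.cons 837 n3266 .nil)
noncomputable def n3268 : Strat := .move 800 n2886 (.cons 837 n3130 (.cons 798 n2894 (.cons 802 n2888 (.cons 838 n3259 (.cons 801 n3267 .nil)))))
noncomputable def n3269 : Strat := .move 880 n877 (.cons 715 n2323 .nil)
noncomputable def n3270 : Strat := .move 756 n76 (.cons 755 n3269 .nil)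
noncomputable def n3271 : Strat := .move 797 n676 (.cons 841 n3270 .nil)
noncomputable def n3272 : Strat := .move 798 n71 (.cons 801 n3271 .nil)
noncomputable def n3273 : Strat := .move 838 n315 (.cons 837 n3272 .nil)
noncomputable def n3274 : Strat := .move 797 n2000 (.cons 759 n676 .nil)
noncomputable def n3275 : Strat := .move 760 n935 (.cons 761 n3274 .nil)
noncomputable def n3276 : Strat := .move 798 n3132 (.cons 756 n3275 .nil)
noncomputable def n3277 : Strat := .move 801 n52 (.cons 802 n3276 .nil)
noncomputable def n3278 : Strat := .move 838 n315 (.cons 837 n2884 .nil)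
noncomputable def n3279 : Strat := .move 801 n52 (.cons 802 n3278 .nil)
noncomputable def n3280 : Strat := .move 798 n676 (.cons 841 n3270 .nil)
noncomputable def n3281 : Strat := .move 841 n397 (.cons 796 n3141 .nil)
noncomputable def n3282 : Strat := .move 841 n44 (.cons 842 n3140 .nil)
noncomputable def n3283 : Strat := .move 798 n3282 (.cons 841 n3270 .nil)
noncomputable def n3284 : Strat := .move 798 n76 (.cons 755 n3269 .nil)
noncomputable def n3285 : Strat := .move 879 n2508 (.cons 716 n2511 .nil)
noncomputable def n3286 : Strat := .move 920 n2524 (.cons 878 n2966 .nil)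
noncomputable def n3287 : Strat := .move 879 n2508 (.cons 716 n3286 .nil)
noncomputable def n3288 : Strat := .win 716 3 674
noncomputable def n3289 : Strat := .move 675 n2211 (.cons 634 n3288 .nil)
noncomputable def n3290 : Strat := .win 714 7 673
noncomputable def n3291 : Strat := .move 673 n2291 (.cons 632 n3290 .nil)
noncomputable def n3292 : Strat := .move 674 n3289 (.cons 716 n3291 .nil)
noncomputable def n3293 : Strat := .move 715 n1380 (.cons 880 n3292 .nil)
noncomputable def n3294 : Strat := .win 879 6 756
noncomputable def n3295 : Strat := .move 921 n3294 (.cons 879 n884 .nil)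
noncomputable def n3296 : Strat := .move 880 n877 (.cons 715 n3295 .nil)
noncomputable def n3297 : Strat := .move 757 n3285 (.cons 880 n3287 (.cons 879 n3293 (.cons 716 n3296 .nil)))
noncomputable def n3298 : Strat := .win 881 6 716
noncomputable def n3299 : Strat := .move 757 n3298 (.cons 881 n1189 .nil)
noncomputable def n3300 : Strat := .move 716 n2262 (.cons 675 n3299 .nil)
noncomputable def n3301 : Strat := .move 715 n1381 (.cons 674 n3300 .nil)
noncomputable def n3302 : Strat := .move 798 n76 (.cons 755 n3301 .nil)
noncomputable def n3303 : Strat := .move 757 n129 (.cons 920 n890 .nil)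
noncomputable def n3304 : Strat := .move 920 n910 (.cons 961 n896 .nil)
noncomputable def n3305 : Strat := .win 877 5 836
noncomputable def n3306 : Strat := .move 878 n3305 (.cons 877 n2513 .nil)
noncomputable def n3307 : Strat := .move 879 n3303 (.cons 716 n3304 (.cons 920 n3306 .nil))
noncomputable def n3308 : Strat := .move 880 n2323 (.cons 921 n3307 .nil)
noncomputable def n3309 : Strat := .move 798 n76 (.cons 755 n3308 .nil)
noncomputable def n3310 : Strat := .move 798 n3269 (.cons 921 n1382 (.cons 880 n3301 (.cons 715 n3308 .nil)))
noncomputable def n3311 : Strat := .move 756 n3284 (.cons 798 n3297 (.cons 880 n3302 (.cons 715 n3309 (.cons 755 n3310 .nil))))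
noncomputable def n3312 : Strat := .move 880 n130 (.cons 842 n878 .nil)
noncomputable def n3313 : Strat := .move 879 n1040 (.cons 878 n3312 .nil)
noncomputable def n3314 : Strat := .move 841 n397 (.cons 796 n3313 .nil)
noncomputable def n3315 : Strat := .move 797 n3280 (.cons 756 n3281 (.cons 796 n3283 (.cons 841 n3311 (.cons 798 n3314 .nil))))
noncomputable def n3316 : Strat := .move 838 n315 (.cons 837 n3315 .nil)
noncomputable def n3317 : Strat := .move 800 n3273 (.cons 838 n3277 (.cons 798 n2894 (.cons 841 n3279 (.cons 801 n3316 .nil))))
noncomputable def n3318 : Strat := .move 800 n590 (.cons 801 n3146 .nil)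
noncomputable def n3319 : Strat := .move 800 n590 (.cons 801 n3261 .nil)
noncomputable def n3320 : Strat := .win 798 2 755
noncomputable def n3321 : Strat := .move 755 n2965 (.cons 714 n3320 .nil)
noncomputable def n3322 : Strat := .move 756 n2511 (.cons 715 n3321 .nil)
noncomputable def n3323 : Strat := .move 879 n1040 (.cons 878 n3322 .nil)
noncomputable def n3324 : Strat := .move 797 n397 (.cons 796 n3323 .nil)
noncomputable def n3325 : Strat := .move 800 n590 (.cons 801 n3324 .nil)
noncomputable def n3326 : Strat := .move 841 n3318 (.cons 800 n3236 (.cons 880 n3240 (.cons 797 n3237 (.cons 798 n3319 (.cons 842 n3325 .nil)))))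
noncomputable def n3327 : Strat := .move 796 n1462 (.cons 795 n3229 .nil)
noncomputable def n3328 : Strat := .move 878 n597 (.cons 877 n3327 .nil)
noncomputable def n3329 : Strat := .move 837 n3166 (.cons 877 n3170 (.cons 798 n3328 .nil))
noncomputable def n3330 : Strat := .move 837 n827 (.cons 800 n3328 .nil)
noncomputable def n3331 : Strat := .move 838 n3228 (.cons 801 n3179 (.cons 837 n3326 (.cons 800 n3329 (.cons 798 n3330 .nil))))
noncomputable def n3332 : Strat := .move 716 n3298 (.cons 881 n1281 .nil)
noncomputable def n3333 : Strat := .move 757 n388 (.cons 756 n3332 .nil)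
noncomputable def n3334 : Strat := .move 841 n48 (.cons 797 n3333 .nil)
noncomputable def n3335 : Strat := .move 842 n634 (.cons 843 n3334 .nil)
noncomputable def n3336 : Strat := .move 798 n3335 (.cons 841 n3132 (.cons 757 n2552 .nil))
noncomputable def n3337 : Strat := .move 801 n52 (.cons 802 n3336 .nil)
noncomputable def n3338 : Strat := .move 798 n3139 (.cons 716 n3153 (.cons 920 n1635 .nil))
noncomputable def n3339 : Strat := .move 879 n1040 (.cons 878 n3338 .nil)
noncomputable def n3340 : Strat := .move 797 n397 (.cons 796 n3339 .nil)
noncomputable def n3341 : Strat := .move 841 n3142 (.cons 797 n3150 (.cons 878 n3239 (.cons 798 n3261 (.cons 842 n3340 .nil))))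
noncomputable def n3342 : Strat := .move 838 n315 (.cons 837 n3341 .nil)
noncomputable def n3343 : Strat := .move 800 n2886 (.cons 798 n2894 (.cons 802 n2888 (.cons 837 n3130 (.cons 838 n3337 (.cons 801 n3342 .nil)))))
noncomputable def n3344 : Strat := .move 716 n1281 (.cons 675 n3298 .nil)
noncomputable def n3345 : Strat := .win 797 1 714
noncomputable def n3346 : Strat := .move 878 n3345 (.cons 797 n597 .nil)
noncomputable def n3347 : Strat := .move 756 n2044 (.cons 880 n3346 .nil)
noncomputable def n3348 : Strat := .move 715 n1151 (.cons 674 n3347 .nil)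
noncomputable def n3349 : Strat := .move 837 n596 (.cons 836 n3348 .nil)
noncomputable def n3350 : Strat := .move 838 n1189 (.cons 879 n3349 .nil)
noncomputable def n3351 : Strat := .move 716 n1281 (.cons 675 n3350 .nil)
noncomputable def n3352 : Strat := .move 716 n3298 (.cons 881 n3350 .nil)
noncomputable def n3353 : Strat := .win 797 7 756
noncomputable def n3354 : Strat := .move 756 n289 (.cons 715 n3353 .nil)
noncomputable def n3355 : Strat := .move 921 n884 (.cons 962 n3354 .nil)
noncomputable def n3356 : Strat := .move 880 n133 (.cons 879 n3355 .nil)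
noncomputable def n3357 : Strat := .move 881 n158 (.cons 922 n3356 .nil)
noncomputable def n3358 : Strat := .move 757 n3344 (.cons 881 n3351 (.cons 675 n3352 (.cons 716 n3357 .nil)))
noncomputable def n3359 : Strat := .move 756 n2390 (.cons 919 n2723 .nil)
noncomputable def n3360 : Strat := .move 878 n597 (.cons 877 n3359 .nil)
noncomputable def n3361 : Strat := .move 797 n677 (.cons 841 n3360 .nil)
noncomputable def n3362 : Strat := .move 796 n1462 (.cons 795 n3361 .nil)
noncomputable def n3363 : Strat := .move 837 n596 (.cons 836 n3362 .nil)
noncomputable def n3364 : Strat := .win 714 6 714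
noncomputable def n3365 : Strat := .move 879 n2393 (.cons 920 n3364 .nil)
noncomputable def n3366 : Strat := .win 713 7 713
noncomputable def n3367 : Strat := .win 797 2 754
noncomputable def n3368 : Strat := .move 754 n3366 (.cons 713 n3367 .nil)
noncomputable def n3369 : Strat := .move 755 n3365 (.cons 714 n3368 .nil)
noncomputable def n3370 : Strat := .move 878 n597 (.cons 877 n3369 .nil)
noncomputable def n3371 : Strat := .move 796 n1462 (.cons 795 n3370 .nil)
noncomputable def n3372 : Strat := .move 837 n596 (.cons 836 n3371 .nil)
noncomputable def n3373 : Strat := .win 880 0 878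
noncomputable def n3374 : Strat := .move 923 n42 (.cons 964 n3373 .nil)
noncomputable def n3375 : Strat := .move 922 n314 (.cons 963 n3374 .nil)
noncomputable def n3376 : Strat := .move 881 n398 (.cons 882 n3375 .nil)
noncomputable def n3377 : Strat := .move 879 n2512 (.cons 841 n3376 .nil)
noncomputable def n3378 : Strat := .move 878 n597 (.cons 877 n3377 .nil)
noncomputable def n3379 : Strat := .move 837 n596 (.cons 836 n3378 .nil)
noncomputable def n3380 : Strat := .move 714 n2386 (.cons 673 n2385 .nil)
noncomputable def n3381 : Strat := .move 755 n636 (.cons 754 n3380 .nil)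
noncomputable def n3382 : Strat := .move 797 n677 (.cons 841 n3381 .nil)
noncomputable def n3383 : Strat := .move 796 n1462 (.cons 795 n3382 .nil)
noncomputable def n3384 : Strat := .move 837 n596 (.cons 836 n3383 .nil)
noncomputable def n3385 : Strat := .move 842 n47 (.cons 843 n2609 .nil)
noncomputable def n3386 : Strat := .move 879 n1040 (.cons 878 n3385 .nil)
noncomputable def n3387 : Strat := .move 837 n1462 (.cons 795 n599 .nil)
noncomputable def n3388 : Strat := .move 796 n2872 (.cons 797 n3387 .nil)
noncomputable def n3389 : Strat := .move 841 n1477 (.cons 797 n3386 (.cons 842 n3388 .nil))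
noncomputable def n3390 : Strat := .win 756 7 714
noncomputable def n3391 : Strat := .move 714 n3390 (.cons 756 n2386 .nil)
noncomputable def n3392 : Strat := .move 879 n3058 (.cons 920 n3391 .nil)
noncomputable def n3393 : Strat := .move 755 n636 (.cons 754 n3392 .nil)
noncomputable def n3394 : Strat := .move 796 n1572 (.cons 795 n3393 .nil)
noncomputable def n3395 : Strat := .win 841 2 797
noncomputable def n3396 : Strat := .win 755 7 714
noncomputable def n3397 : Strat := .move 714 n3396 (.cons 755 n2261 .nil)
noncomputable def n3398 : Strat := .move 715 n1381 (.cons 674 n3397 .nil)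
noncomputable def n3399 : Strat := .move 920 n910 (.cons 961 n2524 .nil)
noncomputable def n3400 : Strat := .move 879 n3398 (.cons 715 n3399 .nil)
noncomputable def n3401 : Strat := .move 880 n876 (.cons 921 n3306 .nil)
noncomputable def n3402 : Strat := .move 920 n377 (.cons 962 n910 .nil)
noncomputable def n3403 : Strat := .move 921 n2526 (.cons 880 n3402 .nil)
noncomputable def n3404 : Strat := .move 879 n3401 (.cons 880 n3399 (.cons 919 n3403 .nil))
noncomputable def n3405 : Strat := .move 756 n3269 (.cons 921 n3143 (.cons 880 n3400 (.cons 715 n3404 .nil)))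
noncomputable def n3406 : Strat := .move 842 n3395 (.cons 841 n3405 .nil)
noncomputable def n3407 : Strat := .move 797 n1873 (.cons 841 n3394 (.cons 795 n1571 (.cons 796 n3406 .nil)))
noncomputable def n3408 : Strat := .move 838 n3363 (.cons 841 n3372 (.cons 796 n3379 (.cons 877 n3384 (.cons 836 n3389 (.cons 837 n3407 .nil)))))
noncomputable def n3409 : Strat := .move 717 n2016 (.cons 676 n2047 .nil)
noncomputable def n3410 : Strat := .move 716 n1281 (.cons 675 n3409 .nil)
noncomputable def n3411 : Strat := .move 716 n3298 (.cons 881 n3409 .nil)
noncomputable def n3412 : Strat := .move 921 n884 (.cons 962 n3210 .nil)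
noncomputable def n3413 : Strat := .win 838 4 837
noncomputable def n3414 : Strat := .move 878 n3413 (.cons 838 n3305 .nil)
noncomputable def n3415 : Strat := .move 841 n130 (.cons 842 n3414 .nil)
noncomputable def n3416 : Strat := .move 879 n129 (.cons 920 n3415 .nil)
noncomputable def n3417 : Strat := .move 880 n3412 (.cons 921 n3416 .nil)
noncomputable def n3418 : Strat := .move 922 n3209 (.cons 881 n3417 .nil)
noncomputable def n3419 : Strat := .move 757 n3344 (.cons 881 n3410 (.cons 675 n3411 (.cons 716 n3418 .nil)))
noncomputable def n3420 : Strat := .move 757 n389 (.cons 716 n158 .nil)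
noncomputable def n3421 : Strat := .move 881 n398 (.cons 882 n3420 .nil)
noncomputable def n3422 : Strat := .move 837 n596 (.cons 836 n3421 .nil)
noncomputable def n3423 : Strat := .move 837 n398 (.cons 882 n3420 .nil)
noncomputable def n3424 : Strat := .move 837 n398 (.cons 882 n3371 .nil)
noncomputable def n3425 : Strat := .move 881 n3423 (.cons 922 n3424 (.cons 882 n3420 .nil))
noncomputable def n3426 : Strat := .win 675 1 674
noncomputable def n3427 : Strat := .move 716 n3426 (.cons 675 n3298 .nil)
noncomputable def n3428 : Strat := .move 879 n890 (.cons 716 n2509 .nil)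
noncomputable def n3429 : Strat := .move 756 n877 (.cons 715 n2323 .nil)
noncomputable def n3430 : Strat := .move 921 n884 (.cons 962 n815 .nil)
noncomputable def n3431 : Strat := .win 881 6 757
noncomputable def n3432 : Strat := .move 922 n3210 (.cons 963 n3431 .nil)
noncomputable def n3433 : Strat := .move 921 n884 (.cons 962 n3432 .nil)
noncomputable def n3434 : Strat := .move 879 n129 (.cons 920 n3433 .nil)
noncomputable def n3435 : Strat := .move 878 n2513 (.cons 919 n3305 .nil)
noncomputable def n3436 : Strat := .move 879 n129 (.cons 920 n3435 .nil)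
noncomputable def n3437 : Strat := .move 756 n877 (.cons 715 n3436 .nil)
noncomputable def n3438 : Strat := .move 880 n3429 (.cons 715 n3430 (.cons 756 n3434 (.cons 921 n3437 .nil)))
noncomputable def n3439 : Strat := .move 797 n3427 (.cons 675 n3428 (.cons 716 n3438 .nil))
noncomputable def n3440 : Strat := .move 716 n1281 (.cons 675 n1189 .nil)
noncomputable def n3441 : Strat := .move 922 n3431 (.cons 881 n3412 .nil)
noncomputable def n3442 : Strat := .move 921 n892 (.cons 797 n3210 .nil)
noncomputable def n3443 : Strat := .move 756 n289 (.cons 715 n3442 .nil)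
noncomputable def n3444 : Strat := .move 879 n129 (.cons 920 n3443 .nil)
noncomputable def n3445 : Strat := .move 922 n3431 (.cons 881 n3444 .nil)
noncomputable def n3446 : Strat := .move 755 n2965 (.cons 714 n290 .nil)
noncomputable def n3447 : Strat := .move 797 n3435 (.cons 877 n3446 .nil)
noncomputable def n3448 : Strat := .move 756 n289 (.cons 715 n3447 .nil)
noncomputable def n3449 : Strat := .move 879 n129 (.cons 920 n3448 .nil)
noncomputable def n3450 : Strat := .move 880 n3441 (.cons 881 n3355 (.cons 962 n3445 (.cons 921 n3449 .nil)))
noncomputable def n3451 : Strat := .move 757 n3439 (.cons 881 n3440 (.cons 879 n3344 (.cons 675 n3131 (.cons 716 n3450 .nil))))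
noncomputable def n3452 : Strat := .move 838 n3422 (.cons 757 n3372 (.cons 836 n3425 (.cons 837 n3451 .nil)))
noncomputable def n3453 : Strat := .move 755 n2393 (.cons 920 n3364 .nil)
noncomputable def n3454 : Strat := .move 920 n3171 (.cons 755 n910 .nil)
noncomputable def n3455 : Strat := .move 755 n3364 (.cons 714 n3368 .nil)
noncomputable def n3456 : Strat := .move 757 n3185 (.cons 880 n890 .nil)
noncomputable def n3457 : Strat := .move 920 n910 (.cons 961 n3456 .nil)
noncomputable def n3458 : Strat := .move 796 n3453 (.cons 714 n3454 (.cons 920 n3455 (.cons 755 n3457 .nil)))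
noncomputable def n3459 : Strat := .move 879 n2512 (.cons 841 n3458 .nil)
noncomputable def n3460 : Strat := .move 878 n597 (.cons 877 n3459 .nil)
noncomputable def n3461 : Strat := .move 837 n596 (.cons 836 n3460 .nil)
noncomputable def n3462 : Strat := .move 879 n3453 (.cons 714 n3454 (.cons 920 n3455 (.cons 755 n3457 .nil)))
noncomputable def n3463 : Strat := .move 878 n597 (.cons 877 n3462 .nil)
noncomputable def n3464 : Strat := .move 796 n1462 (.cons 795 n3463 .nil)
noncomputable def n3465 : Strat := .move 837 n596 (.cons 836 n3464 .nil)
noncomputable def n3466 : Strat := .move 879 n2512 (.cons 841 n3457 .nil)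
noncomputable def n3467 : Strat := .move 878 n597 (.cons 877 n3466 .nil)
noncomputable def n3468 : Strat := .move 837 n596 (.cons 836 n3467 .nil)
noncomputable def n3469 : Strat := .move 841 n595 (.cons 842 n2540 .nil)
noncomputable def n3470 : Strat := .move 797 n1873 (.cons 841 n3394 (.cons 795 n1571 (.cons 796 n3469 .nil)))
noncomputable def n3471 : Strat := .move 838 n3384 (.cons 795 n3461 (.cons 841 n3465 (.cons 797 n3468 (.cons 879 n3363 (.cons 837 n3470 .nil)))))
noncomputable def n3472 : Strat := .win 841 5 837
noncomputable def n3473 : Strat := .move 878 n3472 (.cons 841 n3305 .nil)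
noncomputable def n3474 : Strat := .move 879 n129 (.cons 920 n3473 .nil)
noncomputable def n3475 : Strat := .move 841 n131 (.cons 878 n130 .nil)
noncomputable def n3476 : Strat := .move 879 n129 (.cons 920 n3475 .nil)
noncomputable def n3477 : Strat := .move 756 n3353 (.cons 797 n289 .nil)
noncomputable def n3478 : Strat := .move 921 n884 (.cons 962 n3477 .nil)
noncomputable def n3479 : Strat := .move 882 n3474 (.cons 877 n3476 (.cons 879 n3478 .nil))
noncomputable def n3480 : Strat := .move 920 n2640 (.cons 879 n895 .nil)
noncomputable def n3481 : Strat := .move 921 n884 (.cons 962 n3480 .nil)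
noncomputable def n3482 : Strat := .move 880 n3479 (.cons 877 n3481 (.cons 879 n3355 (.cons 921 n133 .nil)))
noncomputable def n3483 : Strat := .move 881 n158 (.cons 922 n3482 .nil)
noncomputable def n3484 : Strat := .move 716 n1281 (.cons 675 n2644 .nil)
noncomputable def n3485 : Strat := .move 757 n3344 (.cons 675 n3131 (.cons 716 n3483 (.cons 881 n3484 .nil)))
noncomputable def n3486 : Strat := .move 837 n398 (.cons 882 n596 .nil)
noncomputable def n3487 : Strat := .move 879 n2509 (.cons 920 n1040 .nil)
noncomputable def n3488 : Strat := .move 838 n3486 (.cons 836 n3487 .nil)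
noncomputable def n3489 : Strat := .move 797 n45 (.cons 796 n3488 .nil)
noncomputable def n3490 : Strat := .move 838 n1040 (.cons 878 n3486 .nil)
noncomputable def n3491 : Strat := .move 879 n2609 (.cons 880 n3490 .nil)
noncomputable def n3492 : Strat := .move 842 n47 (.cons 843 n3491 .nil)
noncomputable def n3493 : Strat := .move 841 n1985 (.cons 843 n1477 (.cons 842 n3489 (.cons 797 n3492 .nil)))
noncomputable def n3494 : Strat := .move 881 n158 (.cons 922 n3493 .nil)
noncomputable def n3495 : Strat := .move 717 n2016 (.cons 676 n2876 .nil)
noncomputable def n3496 : Strat := .move 716 n1281 (.cons 675 n3495 .nil)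
noncomputable def n3497 : Strat := .move 757 n3344 (.cons 716 n3494 (.cons 881 n3496 .nil))
noncomputable def n3498 : Strat := .move 755 n636 (.cons 754 n3060 .nil)
noncomputable def n3499 : Strat := .move 879 n2509 (.cons 920 n3498 .nil)
noncomputable def n3500 : Strat := .move 757 n3427 (.cons 675 n3428 (.cons 716 n3499 .nil))
noncomputable def n3501 : Strat := .move 796 n1572 (.cons 795 n3500 .nil)
noncomputable def n3502 : Strat := .move 879 n129 (.cons 920 n3446 .nil)
noncomputable def n3503 : Strat := .move 756 n877 (.cons 715 n3502 .nil)
noncomputable def n3504 : Strat := .move 921 n895 (.cons 961 n884 .nil)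
noncomputable def n3505 : Strat := .move 920 n2640 (.cons 879 n3504 .nil)
noncomputable def n3506 : Strat := .move 881 n1053 (.cons 922 n3505 .nil)
noncomputable def n3507 : Strat := .move 880 n3430 (.cons 962 n3429 (.cons 921 n3503 (.cons 756 n3506 .nil)))
noncomputable def n3508 : Strat := .move 757 n3427 (.cons 675 n3428 (.cons 716 n3507 .nil))
noncomputable def n3509 : Strat := .move 797 n1873 (.cons 795 n1571 (.cons 841 n3501 (.cons 796 n3508 .nil)))
noncomputable def n3510 : Strat := .move 880 n3430 (.cons 962 n3429 (.cons 921 n3503 (.cons 756 n2642 .nil)))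
noncomputable def n3511 : Strat := .move 757 n3427 (.cons 675 n3428 (.cons 716 n3510 .nil))
noncomputable def n3512 : Strat := .move 797 n1873 (.cons 795 n1571 (.cons 796 n3511 .nil))
noncomputable def n3513 : Strat := .move 838 n3384 (.cons 841 n3422 (.cons 836 n3509 (.cons 837 n3512 .nil)))
noncomputable def n3514 : Strat := .move 878 n2391 (.cons 715 n2390 .nil)
noncomputable def n3515 : Strat := .win 918 1 754
noncomputable def n3516 : Strat := .win 838 4 836
noncomputable def n3517 : Strat := .move 877 n3515 (.cons 918 n3516 .nil)
noncomputable def n3518 : Strat := .move 878 n2390 (.cons 919 n3517 .nil)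
noncomputable def n3519 : Strat := .move 880 n2324 (.cons 838 n2323 .nil)
noncomputable def n3520 : Strat := .move 715 n2483 (.cons 674 n3519 .nil)
noncomputable def n3521 : Strat := .move 756 n3514 (.cons 919 n2484 (.cons 715 n3518 (.cons 878 n3520 .nil)))
noncomputable def n3522 : Strat := .move 755 n636 (.cons 754 n3521 .nil)
noncomputable def n3523 : Strat := .move 837 n639 (.cons 836 n3522 .nil)
noncomputable def n3524 : Strat := .move 796 n1572 (.cons 795 n3523 .nil)
noncomputable def n3525 : Strat := .move 878 n598 (.cons 879 n597 .nil)
noncomputable def n3526 : Strat := .move 837 n596 (.cons 836 n3525 .nil)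
noncomputable def n3527 : Strat := .move 880 n877 (.cons 715 n876 .nil)
noncomputable def n3528 : Strat := .move 755 n290 (.cons 754 n2965 .nil)
noncomputable def n3529 : Strat := .move 756 n1382 (.cons 674 n3527 (.cons 880 n3528 .nil))
noncomputable def n3530 : Strat := .move 757 n890 (.cons 716 n3529 .nil)
noncomputable def n3531 : Strat := .move 879 n1040 (.cons 878 n3530 .nil)
noncomputable def n3532 : Strat := .move 757 n158 (.cons 922 n389 .nil)
noncomputable def n3533 : Strat := .move 881 n398 (.cons 882 n3532 .nil)
noncomputable def n3534 : Strat := .move 837 n596 (.cons 836 n3533 .nil)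
noncomputable def n3535 : Strat := .move 838 n3526 (.cons 836 n3531 (.cons 879 n3534 .nil))
noncomputable def n3536 : Strat := .move 841 n595 (.cons 842 n3535 .nil)
noncomputable def n3537 : Strat := .move 797 n1873 (.cons 841 n3524 (.cons 795 n1571 (.cons 796 n3536 .nil)))
noncomputable def n3538 : Strat := .move 797 n1572 (.cons 795 n677 .nil)
noncomputable def n3539 : Strat := .move 797 n1572 (.cons 795 n3523 .nil)
noncomputable def n3540 : Strat := .move 797 n677 (.cons 841 n3523 .nil)
noncomputable def n3541 : Strat := .move 838 n596 (.cons 836 n1462 .nil)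
noncomputable def n3542 : Strat := .move 922 n15 (.cons 757 n314 .nil)
noncomputable def n3543 : Strat := .move 881 n398 (.cons 882 n3542 .nil)
noncomputable def n3544 : Strat := .move 838 n596 (.cons 836 n3543 .nil)
noncomputable def n3545 : Strat := .move 838 n1462 (.cons 795 n3543 .nil)
noncomputable def n3546 : Strat := .move 755 n2477 (.cons 878 n290 .nil)
noncomputable def n3547 : Strat := .move 756 n2044 (.cons 880 n3546 .nil)
noncomputable def n3548 : Strat := .move 715 n1151 (.cons 674 n3547 .nil)
noncomputable def n3549 : Strat := .move 716 n1281 (.cons 675 n3548 .nil)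
noncomputable def n3550 : Strat := .move 715 n2477 (.cons 878 n2044 .nil)
noncomputable def n3551 : Strat := .move 756 n290 (.cons 754 n3550 .nil)
noncomputable def n3552 : Strat := .win 756 0 754
noncomputable def n3553 : Strat := .win 878 7 713
noncomputable def n3554 : Strat := .win 631 6 631
noncomputable def n3555 : Strat := .win 714 7 672
noncomputable def n3556 : Strat := .move 672 n3554 (.cons 631 n3555 .nil)
noncomputable def n3557 : Strat := .move 713 n3553 (.cons 878 n3556 .nil)
noncomputable def n3558 : Strat := .move 754 n3552 (.cons 756 n3557 .nil)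
noncomputable def n3559 : Strat := .win 795 1 672
noncomputable def n3560 : Strat := .win 877 1 713
noncomputable def n3561 : Strat := .move 836 n3559 (.cons 795 n3560 .nil)
noncomputable def n3562 : Strat := .move 673 n3561 (.cons 877 n2399 .nil)
noncomputable def n3563 : Strat := .win 836 1 713
noncomputable def n3564 : Strat := .move 877 n3515 (.cons 918 n3563 .nil)
noncomputable def n3565 : Strat := .win 754 7 713
noncomputable def n3566 : Strat := .win 672 7 672
noncomputable def n3567 : Strat := .move 713 n3565 (.cons 754 n3566 .nil)
noncomputable def n3568 : Strat := .move 878 n3564 (.cons 836 n3567 .nil)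
noncomputable def n3569 : Strat := .move 714 n3562 (.cons 673 n3568 (.cons 877 n2404 .nil))
noncomputable def n3570 : Strat := .move 756 n2477 (.cons 878 n2044 .nil)
noncomputable def n3571 : Strat := .move 715 n2306 (.cons 674 n3570 .nil)
noncomputable def n3572 : Strat := .move 673 n3561 (.cons 877 n2403 .nil)
noncomputable def n3573 : Strat := .move 714 n3571 (.cons 715 n3572 .nil)
noncomputable def n3574 : Strat := .move 756 n289 (.cons 715 n290 .nil)
noncomputable def n3575 : Strat := .move 880 n3574 (.cons 754 n3211 .nil)
noncomputable def n3576 : Strat := .move 922 n3209 (.cons 881 n3575 .nil)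
noncomputable def n3577 : Strat := .move 755 n3551 (.cons 880 n3558 (.cons 756 n3569 (.cons 754 n3573 (.cons 878 n3576 .nil))))
noncomputable def n3578 : Strat := .move 757 n3344 (.cons 881 n3549 (.cons 675 n3131 (.cons 716 n3577 .nil)))
noncomputable def n3579 : Strat := .move 837 n3541 (.cons 795 n3544 (.cons 836 n3545 (.cons 838 n3578 .nil)))
noncomputable def n3580 : Strat := .move 796 n3538 (.cons 841 n3539 (.cons 795 n3540 (.cons 797 n3579 .nil)))
noncomputable def n3581 : Strat := .move 879 n3058 (.cons 920 n3364 .nil)
noncomputable def n3582 : Strat := .move 838 n2409 (.cons 673 n3581 (.cons 879 n2725 .nil))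
noncomputable def n3583 : Strat := .move 755 n636 (.cons 754 n3582 .nil)
noncomputable def n3584 : Strat := .move 837 n639 (.cons 836 n3583 .nil)
noncomputable def n3585 : Strat := .move 796 n1572 (.cons 795 n3584 .nil)
noncomputable def n3586 : Strat := .move 838 n2540 (.cons 879 n3534 (.cons 757 n3526 .nil))
noncomputable def n3587 : Strat := .move 841 n595 (.cons 842 n3586 .nil)
noncomputable def n3588 : Strat := .move 797 n1873 (.cons 841 n3585 (.cons 795 n1571 (.cons 796 n3587 .nil)))
noncomputable def n3589 : Strat := .move 798 n3358 (.cons 757 n3408 (.cons 797 n3419 (.cons 841 n3452 (.cons 881 n3471 (.cons 838 n3485 (.cons 756 n3497 (.cons 878 n3513 (.cons 920 n3537 (.cons 879 n3580 (.cons 880 n3588 .nil))))))))))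
noncomputable def n3590 : Strat := .move 798 n3384 (.cons 841 n3422 (.cons 836 n3509 (.cons 837 n3512 .nil)))
noncomputable def n3591 : Strat := .move 879 n3139 (.cons 716 n3153 (.cons 920 n3154 .nil))
noncomputable def n3592 : Strat := .move 798 n44 (.cons 842 n3591 .nil)
noncomputable def n3593 : Strat := .move 797 n397 (.cons 796 n3592 .nil)
noncomputable def n3594 : Strat := .move 800 n590 (.cons 801 n3593 .nil)
noncomputable def n3595 : Strat := .win 921 3 798
noncomputable def n3596 : Strat := .win 881 4 839
noncomputable def n3597 : Strat := .win 801 5 798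
noncomputable def n3598 : Strat := .move 802 n2995 (.cons 803 n3597 .nil)
noncomputable def n3599 : Strat := .move 843 n3596 (.cons 881 n3598 .nil)
noncomputable def n3600 : Strat := .move 962 n3595 (.cons 921 n3599 .nil)
noncomputable def n3601 : Strat := .move 880 n385 (.cons 879 n3600 .nil)
noncomputable def n3602 : Strat := .move 842 n396 (.cons 798 n3601 .nil)
noncomputable def n3603 : Strat := .move 797 n397 (.cons 796 n3602 .nil)
noncomputable def n3604 : Strat := .move 879 n3139 (.cons 716 n3153 (.cons 920 n3144 .nil))
noncomputable def n3605 : Strat := .move 798 n44 (.cons 842 n3604 .nil)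
noncomputable def n3606 : Strat := .move 797 n397 (.cons 796 n3605 .nil)
noncomputable def n3607 : Strat := .move 800 n590 (.cons 801 n3606 .nil)
noncomputable def n3608 : Strat := .move 718 n931 (.cons 677 n1241 .nil)
noncomputable def n3609 : Strat := .move 798 n1507 (.cons 760 n3144 .nil)
noncomputable def n3610 : Strat := .move 759 n1623 (.cons 922 n3608 (.cons 881 n3609 .nil))
noncomputable def n3611 : Strat := .move 797 n397 (.cons 796 n3610 .nil)
noncomputable def n3612 : Strat := .move 800 n590 (.cons 801 n3611 .nil)
noncomputable def n3613 : Strat := .move 798 n48 (.cons 797 n47 .nil)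
noncomputable def n3614 : Strat := .move 879 n2609 (.cons 880 n3613 .nil)
noncomputable def n3615 : Strat := .move 881 n218 (.cons 963 n17 .nil)
noncomputable def n3616 : Strat := .move 881 n1521 (.cons 757 n218 .nil)
noncomputable def n3617 : Strat := .move 881 n1521 (.cons 757 n17 .nil)
noncomputable def n3618 : Strat := .move 922 n3615 (.cons 759 n3616 (.cons 963 n3617 (.cons 881 n3211 .nil)))
noncomputable def n3619 : Strat := .move 880 n385 (.cons 879 n3618 .nil)
noncomputable def n3620 : Strat := .move 798 n47 (.cons 843 n3619 .nil)
noncomputable def n3621 : Strat := .move 798 n48 (.cons 797 n3619 .nil)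
noncomputable def n3622 : Strat := .move 880 n385 (.cons 879 n3596 .nil)
noncomputable def n3623 : Strat := .move 843 n3147 (.cons 844 n3622 .nil)
noncomputable def n3624 : Strat := .move 842 n3614 (.cons 797 n3620 (.cons 879 n3613 (.cons 843 n3621 (.cons 798 n3623 .nil))))
noncomputable def n3625 : Strat := .move 800 n590 (.cons 801 n3624 .nil)
noncomputable def n3626 : Strat := .move 716 n3426 (.cons 675 n1189 .nil)
noncomputable def n3627 : Strat := .move 756 n2323 (.cons 921 n877 .nil)
noncomputable def n3628 : Strat := .move 755 n290 (.cons 754 n2236 .nil)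
noncomputable def n3629 : Strat := .move 756 n877 (.cons 715 n3628 .nil)
noncomputable def n3630 : Strat := .move 880 n2862 (.cons 962 n3627 (.cons 756 n3505 (.cons 921 n3629 .nil)))
noncomputable def n3631 : Strat := .move 757 n3626 (.cons 675 n3428 (.cons 716 n3630 (.cons 879 n3427 .nil)))
noncomputable def n3632 : Strat := .move 798 n595 (.cons 842 n3631 .nil)
noncomputable def n3633 : Strat := .move 797 n397 (.cons 796 n3632 .nil)
noncomputable def n3634 : Strat := .move 843 n2943 (.cons 798 n3622 .nil)
noncomputable def n3635 : Strat := .move 842 n387 (.cons 802 n3634 .nil)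
noncomputable def n3636 : Strat := .move 801 n403 (.cons 800 n3635 .nil)
noncomputable def n3637 : Strat := .move 800 n3147 (.cons 844 n590 .nil)
noncomputable def n3638 : Strat := .move 843 n3596 (.cons 881 n3637 .nil)
noncomputable def n3639 : Strat := .move 921 n884 (.cons 962 n3638 .nil)
noncomputable def n3640 : Strat := .move 880 n385 (.cons 879 n3639 .nil)
noncomputable def n3641 : Strat := .win 886 0 841
noncomputable def n3642 : Strat := .win 884 0 840
noncomputable def n3643 : Strat := .move 885 n3641 (.cons 886 n3642 .nil)
noncomputable def n3644 : Strat := .move 844 n2944 (.cons 800 n3643 .nil)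
noncomputable def n3645 : Strat := .move 843 n3596 (.cons 881 n3644 .nil)
noncomputable def n3646 : Strat := .move 880 n385 (.cons 879 n3645 .nil)
noncomputable def n3647 : Strat := .move 842 n838 (.cons 800 n3601 (.cons 802 n3640 (.cons 801 n3646 .nil)))
noncomputable def n3648 : Strat := .move 797 n397 (.cons 796 n3647 .nil)
noncomputable def n3649 : Strat := .move 841 n3594 (.cons 800 n3603 (.cons 921 n3607 (.cons 842 n3612 (.cons 880 n3240 (.cons 796 n3625 (.cons 801 n3633 (.cons 797 n3636 (.cons 798 n3648 .nil))))))))
noncomputable def n3650 : Strat := .move 838 n3228 (.cons 800 n3590 (.cons 798 n3233 (.cons 837 n3649 .nil)))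
noncomputable def n3651 : Strat := .move 800 n315 (.cons 837 n71 .nil)
noncomputable def n3652 : Strat := .move 797 n1873 (.cons 841 n3270 .nil)
noncomputable def n3653 : Strat := .move 800 n71 (.cons 801 n3652 .nil)
noncomputable def n3654 : Strat := .move 838 n2097 (.cons 836 n3651 (.cons 837 n3653 (.cons 800 n3384 .nil)))
noncomputable def n3655 : Strat := .move 878 n3305 (.cons 877 n3472 .nil)
noncomputable def n3656 : Strat := .move 879 n129 (.cons 920 n3655 .nil)
noncomputable def n3657 : Strat := .move 921 n884 (.cons 962 n3353 .nil)
noncomputable def n3658 : Strat := .move 756 n289 (.cons 715 n3657 .nil)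
noncomputable def n3659 : Strat := .move 880 n3656 (.cons 841 n3481 (.cons 920 n3658 .nil))
noncomputable def n3660 : Strat := .move 881 n158 (.cons 922 n3659 .nil)
noncomputable def n3661 : Strat := .move 757 n3344 (.cons 716 n3660 (.cons 881 n3351 .nil))
noncomputable def n3662 : Strat := .move 838 n1189 (.cons 879 n3651 .nil)
noncomputable def n3663 : Strat := .move 716 n1281 (.cons 675 n3662 .nil)
noncomputable def n3664 : Strat := .move 878 n2512 (.cons 841 n3305 .nil)
noncomputable def n3665 : Strat := .move 838 n315 (.cons 837 n3664 .nil)
noncomputable def n3666 : Strat := .move 879 n129 (.cons 920 n3665 .nil)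
noncomputable def n3667 : Strat := .move 880 n3412 (.cons 962 n3666 .nil)
noncomputable def n3668 : Strat := .move 801 n52 (.cons 802 n388 .nil)
noncomputable def n3669 : Strat := .move 800 n74 (.cons 801 n3667 (.cons 838 n3668 .nil))
noncomputable def n3670 : Strat := .move 922 n3209 (.cons 881 n3669 .nil)
noncomputable def n3671 : Strat := .move 757 n3344 (.cons 881 n3663 (.cons 675 n3131 (.cons 716 n3670 .nil)))
noncomputable def n3672 : Strat := .move 797 n2796 (.cons 795 n1383 .nil)
noncomputable def n3673 : Strat := .move 800 n71 (.cons 801 n3672 .nil)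
noncomputable def n3674 : Strat := .move 838 n1189 (.cons 879 n3673 .nil)
noncomputable def n3675 : Strat := .move 716 n1281 (.cons 675 n3674 .nil)
noncomputable def n3676 : Strat := .move 797 n2323 (.cons 921 n2796 .nil)
noncomputable def n3677 : Strat := .move 756 n289 (.cons 715 n3676 .nil)
noncomputable def n3678 : Strat := .move 880 n3658 (.cons 962 n3677 (.cons 756 n3656 .nil))
noncomputable def n3679 : Strat := .move 881 n158 (.cons 922 n3678 .nil)
noncomputable def n3680 : Strat := .move 757 n3344 (.cons 675 n3131 (.cons 881 n3675 (.cons 716 n3679 .nil)))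
noncomputable def n3681 : Strat := .move 801 n52 (.cons 802 n3132 .nil)
noncomputable def n3682 : Strat := .move 755 n637 (.cons 756 n636 .nil)
noncomputable def n3683 : Strat := .move 796 n1572 (.cons 795 n3682 .nil)
noncomputable def n3684 : Strat := .move 796 n677 (.cons 841 n3682 .nil)
noncomputable def n3685 : Strat := .move 797 n1873 (.cons 841 n3683 (.cons 795 n3684 (.cons 796 n3144 .nil)))
noncomputable def n3686 : Strat := .move 838 n315 (.cons 837 n3685 .nil)
noncomputable def n3687 : Strat := .move 800 n316 (.cons 837 n74 (.cons 838 n3681 (.cons 801 n3686 .nil)))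
noncomputable def n3688 : Strat := .move 800 n2201 (.cons 797 n2200 .nil)
noncomputable def n3689 : Strat := .move 755 n290 (.cons 754 n3688 .nil)
noncomputable def n3690 : Strat := .move 756 n2044 (.cons 880 n3689 .nil)
noncomputable def n3691 : Strat := .move 715 n1151 (.cons 674 n3690 .nil)
noncomputable def n3692 : Strat := .move 716 n1281 (.cons 675 n3691 .nil)
noncomputable def n3693 : Strat := .move 880 n3658 (.cons 756 n3656 .nil)
noncomputable def n3694 : Strat := .move 881 n158 (.cons 922 n3693 .nil)
noncomputable def n3695 : Strat := .move 757 n3131 (.cons 922 n3344 (.cons 881 n3692 (.cons 716 n3694 .nil)))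
noncomputable def n3696 : Strat := .move 878 n2513 (.cons 919 n2512 .nil)
noncomputable def n3697 : Strat := .move 879 n2509 (.cons 920 n3696 .nil)
noncomputable def n3698 : Strat := .move 756 n76 (.cons 755 n3697 .nil)
noncomputable def n3699 : Strat := .move 757 n3427 (.cons 675 n3428 (.cons 716 n3698 .nil))
noncomputable def n3700 : Strat := .move 796 n1572 (.cons 795 n638 .nil)
noncomputable def n3701 : Strat := .move 757 n3427 (.cons 716 n3700 .nil)
noncomputable def n3702 : Strat := .move 797 n1873 (.cons 796 n3699 (.cons 841 n3701 .nil))
noncomputable def n3703 : Strat := .move 800 n71 (.cons 801 n3702 .nil)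
noncomputable def n3704 : Strat := .move 838 n2097 (.cons 837 n3703 (.cons 800 n3384 .nil))
noncomputable def n3705 : Strat := .move 716 n1281 (.cons 675 n2098 .nil)
noncomputable def n3706 : Strat := .move 755 n2201 (.cons 797 n290 .nil)
noncomputable def n3707 : Strat := .move 756 n289 (.cons 715 n3706 .nil)
noncomputable def n3708 : Strat := .move 880 n3707 (.cons 756 n3505 .nil)
noncomputable def n3709 : Strat := .move 800 n71 (.cons 801 n3708 .nil)
noncomputable def n3710 : Strat := .move 837 n596 (.cons 836 n398 .nil)
noncomputable def n3711 : Strat := .move 838 n2097 (.cons 837 n3709 (.cons 800 n3710 .nil))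
noncomputable def n3712 : Strat := .move 881 n158 (.cons 922 n3711 .nil)
noncomputable def n3713 : Strat := .move 757 n3344 (.cons 675 n3131 (.cons 881 n3705 (.cons 716 n3712 .nil)))
noncomputable def n3714 : Strat := .win 841 1 717
noncomputable def n3715 : Strat := .move 718 n3714 (.cons 841 n931 .nil)
noncomputable def n3716 : Strat := .move 881 n653 (.cons 922 n3715 .nil)
noncomputable def n3717 : Strat := .move 759 n1718 (.cons 797 n3716 .nil)
noncomputable def n3718 : Strat := .move 760 n935 (.cons 761 n3717 .nil)
noncomputable def n3719 : Strat := .move 801 n52 (.cons 802 n3718 .nil)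
noncomputable def n3720 : Strat := .move 922 n314 (.cons 963 n17 .nil)
noncomputable def n3721 : Strat := .move 920 n3185 (.cons 880 n910 .nil)
noncomputable def n3722 : Strat := .move 920 n559 (.cons 797 n3185 .nil)
noncomputable def n3723 : Strat := .move 920 n559 (.cons 797 n910 .nil)
noncomputable def n3724 : Strat := .move 877 n3206 (.cons 880 n3205 .nil)
noncomputable def n3725 : Strat := .move 878 n2512 (.cons 841 n3724 .nil)
noncomputable def n3726 : Strat := .move 879 n3721 (.cons 961 n3722 (.cons 880 n3723 (.cons 920 n3725 .nil)))
noncomputable def n3727 : Strat := .move 757 n389 (.cons 716 n3726 .nil)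
noncomputable def n3728 : Strat := .move 881 n3542 (.cons 757 n3720 (.cons 963 n3420 (.cons 922 n3727 .nil)))
noncomputable def n3729 : Strat := .move 838 n315 (.cons 837 n3728 .nil)
noncomputable def n3730 : Strat := .move 800 n316 (.cons 838 n3719 (.cons 801 n3729 .nil))
noncomputable def n3731 : Strat := .move 798 n3654 (.cons 800 n3661 (.cons 797 n3671 (.cons 837 n3680 (.cons 879 n3687 (.cons 838 n3695 (.cons 880 n3704 (.cons 841 n3713 (.cons 756 n3730 .nil))))))))
noncomputable def n3732 : Strat := .move 797 n867 (.cons 756 n866 .nil)
noncomputable def n3733 : Strat := .move 919 n437 (.cons 918 n3732 .nil)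
noncomputable def n3734 : Strat := .move 880 n399 (.cons 836 n3733 .nil)
noncomputable def n3735 : Strat := .move 881 n398 (.cons 882 n3734 .nil)
noncomputable def n3736 : Strat := .move 879 n2512 (.cons 841 n3735 .nil)
noncomputable def n3737 : Strat := .move 878 n597 (.cons 877 n3736 .nil)
noncomputable def n3738 : Strat := .win 880 0 836
noncomputable def n3739 : Strat := .move 881 n398 (.cons 882 n3738 .nil)
noncomputable def n3740 : Strat := .move 836 n3162 (.cons 798 n3739 .nil)
noncomputable def n3741 : Strat := .move 798 n314 (.cons 963 n15 .nil)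
noncomputable def n3742 : Strat := .move 922 n3374 (.cons 880 n3741 .nil)
noncomputable def n3743 : Strat := .move 881 n398 (.cons 882 n3742 .nil)
noncomputable def n3744 : Strat := .move 879 n2512 (.cons 841 n3743 .nil)
noncomputable def n3745 : Strat := .move 878 n597 (.cons 877 n3744 .nil)
noncomputable def n3746 : Strat := .move 837 n3166 (.cons 798 n3737 (.cons 878 n3740 (.cons 836 n3745 .nil)))
noncomputable def n3747 : Strat := .move 837 n827 (.cons 800 n3737 .nil)
noncomputable def n3748 : Strat := .move 716 n1189 (.cons 879 n1281 .nil)
noncomputable def n3749 : Strat := .move 879 n1040 (.cons 878 n3721 .nil)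
noncomputable def n3750 : Strat := .move 841 n49 (.cons 797 n3749 .nil)
noncomputable def n3751 : Strat := .move 881 n158 (.cons 922 n3750 .nil)
noncomputable def n3752 : Strat := .move 757 n3748 (.cons 675 n3131 (.cons 716 n3751 .nil))
noncomputable def n3753 : Strat := .move 879 n129 (.cons 920 n1041 .nil)
noncomputable def n3754 : Strat := .move 880 n3211 (.cons 962 n3753 .nil)
noncomputable def n3755 : Strat := .move 922 n3209 (.cons 881 n3754 .nil)
noncomputable def n3756 : Strat := .move 757 n3748 (.cons 716 n3755 (.cons 879 n3344 .nil))
noncomputable def n3757 : Strat := .move 841 n44 (.cons 842 n1383 .nil)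
noncomputable def n3758 : Strat := .move 841 n44 (.cons 842 n1635 .nil)
noncomputable def n3759 : Strat := .move 797 n3757 (.cons 756 n3758 (.cons 841 n3144 .nil))
noncomputable def n3760 : Strat := .move 920 n450 (.cons 757 n910 .nil)
noncomputable def n3761 : Strat := .move 879 n1040 (.cons 878 n3760 .nil)
noncomputable def n3762 : Strat := .move 841 n44 (.cons 842 n3761 .nil)
noncomputable def n3763 : Strat := .move 756 n76 (.cons 755 n3301 .nil)
noncomputable def n3764 : Strat := .move 797 n3762 (.cons 842 n3699 (.cons 757 n3758 (.cons 841 n3763 .nil)))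
noncomputable def n3765 : Strat := .move 755 n290 (.cons 754 n2201 .nil)
noncomputable def n3766 : Strat := .move 756 n289 (.cons 715 n3765 .nil)
noncomputable def n3767 : Strat := .move 880 n3211 (.cons 962 n3766 .nil)
noncomputable def n3768 : Strat := .move 922 n3209 (.cons 881 n3767 .nil)
noncomputable def n3769 : Strat := .move 757 n3748 (.cons 675 n3131 (.cons 716 n3768 .nil))
noncomputable def n3770 : Strat := .move 797 n3757 (.cons 880 n3762 (.cons 841 n3270 .nil))
noncomputable def n3771 : Strat := .move 798 n3752 (.cons 797 n3756 (.cons 879 n3759 (.cons 880 n3764 (.cons 841 n3769 (.cons 881 n3770 .nil)))))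
noncomputable def n3772 : Strat := .move 800 n2885 (.cons 798 n2893 (.cons 802 n2887 (.cons 801 n3771 .nil)))
noncomputable def n3773 : Strat := .move 838 n3228 (.cons 800 n3746 (.cons 798 n3747 (.cons 837 n3772 .nil)))
noncomputable def n3774 : Strat := .move 880 n385 (.cons 879 n835 .nil)
noncomputable def n3775 : Strat := .move 842 n47 (.cons 843 n3774 .nil)
noncomputable def n3776 : Strat := .move 801 n388 (.cons 756 n52 .nil)
noncomputable def n3777 : Strat := .move 759 n1507 (.cons 760 n1059 .nil)
noncomputable def n3778 : Strat := .move 800 n525 (.cons 802 n2645 (.cons 838 n3776 (.cons 801 n3777 .nil)))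
noncomputable def n3779 : Strat := .move 797 n45 (.cons 796 n3778 .nil)
noncomputable def n3780 : Strat := .move 841 n1985 (.cons 843 n1477 (.cons 797 n3775 (.cons 842 n3779 .nil)))
noncomputable def n3781 : Strat := .move 881 n158 (.cons 922 n3780 .nil)
noncomputable def n3782 : Strat := .move 797 n2796 (.cons 795 n70 (.cons 841 n1383 .nil))
noncomputable def n3783 : Strat := .move 800 n71 (.cons 801 n3782 .nil)
noncomputable def n3784 : Strat := .move 838 n1189 (.cons 879 n3783 .nil)
noncomputable def n3785 : Strat := .move 716 n1281 (.cons 675 n3784 .nil)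
noncomputable def n3786 : Strat := .move 757 n3344 (.cons 716 n3781 (.cons 881 n3785 .nil))
noncomputable def n3787 : Strat := .move 880 n133 (.cons 842 n3481 (.cons 879 n3355 .nil))
noncomputable def n3788 : Strat := .move 881 n158 (.cons 922 n3787 .nil)
noncomputable def n3789 : Strat := .move 715 n1151 (.cons 674 n2627 .nil)
noncomputable def n3790 : Strat := .move 880 n129 (.cons 920 n3789 .nil)
noncomputable def n3791 : Strat := .move 879 n2608 (.cons 838 n3790 .nil)
noncomputable def n3792 : Strat := .move 716 n1281 (.cons 675 n3791 .nil)
noncomputable def n3793 : Strat := .move 757 n3344 (.cons 716 n3788 (.cons 881 n3792 .nil))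
noncomputable def n3794 : Strat := .move 715 n1381 (.cons 674 n3519 .nil)
noncomputable def n3795 : Strat := .move 756 n2236 (.cons 800 n3794 .nil)
noncomputable def n3796 : Strat := .move 755 n636 (.cons 754 n3795 .nil)
noncomputable def n3797 : Strat := .move 796 n1572 (.cons 795 n3796 .nil)
noncomputable def n3798 : Strat := .move 801 n52 (.cons 802 n2001 .nil)
noncomputable def n3799 : Strat := .move 838 n71 (.cons 801 n1383 .nil)
noncomputable def n3800 : Strat := .move 715 n2324 (.cons 838 n1381 .nil)
noncomputable def n3801 : Strat := .move 880 n2323 (.cons 921 n3800 .nil)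
noncomputable def n3802 : Strat := .move 756 n76 (.cons 755 n3801 .nil)
noncomputable def n3803 : Strat := .move 800 n74 (.cons 838 n3798 (.cons 802 n3799 (.cons 801 n3802 .nil)))
noncomputable def n3804 : Strat := .move 841 n595 (.cons 842 n3803 .nil)
noncomputable def n3805 : Strat := .move 797 n1571 (.cons 841 n3797 (.cons 796 n3804 .nil))
noncomputable def n3806 : Strat := .move 880 n133 (.cons 842 n3658 .nil)
noncomputable def n3807 : Strat := .move 881 n158 (.cons 922 n3806 .nil)
noncomputable def n3808 : Strat := .move 757 n3131 (.cons 881 n3692 (.cons 716 n3807 .nil))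
noncomputable def n3809 : Strat := .move 838 n71 (.cons 801 n3140 .nil)
noncomputable def n3810 : Strat := .move 800 n74 (.cons 802 n3809 (.cons 838 n1624 .nil))
noncomputable def n3811 : Strat := .move 797 n45 (.cons 796 n3810 .nil)
noncomputable def n3812 : Strat := .move 842 n47 (.cons 843 n1631 .nil)
noncomputable def n3813 : Strat := .move 841 n1985 (.cons 843 n1477 (.cons 842 n3811 (.cons 797 n3812 .nil)))
noncomputable def n3814 : Strat := .move 921 n3210 (.cons 963 n3353 .nil)
noncomputable def n3815 : Strat := .move 756 n289 (.cons 715 n3814 .nil)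
noncomputable def n3816 : Strat := .move 800 n2200 (.cons 801 n3706 .nil)
noncomputable def n3817 : Strat := .move 756 n289 (.cons 715 n3816 .nil)
noncomputable def n3818 : Strat := .move 880 n3412 (.cons 962 n3815 (.cons 921 n3817 .nil))
noncomputable def n3819 : Strat := .move 922 n3209 (.cons 881 n3818 .nil)
noncomputable def n3820 : Strat := .move 757 n3344 (.cons 881 n3692 (.cons 675 n3131 (.cons 716 n3819 .nil)))
noncomputable def n3821 : Strat := .move 717 n2016 (.cons 676 n2809 .nil)
noncomputable def n3822 : Strat := .move 756 n2044 (.cons 880 n3821 .nil)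
noncomputable def n3823 : Strat := .move 715 n1151 (.cons 674 n3822 .nil)
noncomputable def n3824 : Strat := .move 716 n1281 (.cons 675 n3823 .nil)
noncomputable def n3825 : Strat := .win 921 6 798
noncomputable def n3826 : Strat := .move 963 n3825 (.cons 921 n3416 .nil)
noncomputable def n3827 : Strat := .move 880 n3826 (.cons 838 n3412 (.cons 963 n3416 .nil))
noncomputable def n3828 : Strat := .move 922 n3209 (.cons 881 n3827 .nil)
noncomputable def n3829 : Strat := .move 757 n3344 (.cons 881 n3824 (.cons 675 n3131 (.cons 716 n3828 .nil)))
noncomputable def n3830 : Strat := .move 798 n3786 (.cons 800 n3793 (.cons 881 n3805 (.cons 842 n3680 (.cons 838 n3808 (.cons 756 n3813 (.cons 841 n3820 (.cons 797 n3829 .nil)))))))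
noncomputable def n3831 : Strat := .move 841 n590 (.cons 801 n3142 .nil)
noncomputable def n3832 : Strat := .move 800 n315 (.cons 837 n3831 .nil)
noncomputable def n3833 : Strat := .move 841 n397 (.cons 796 n591 .nil)
noncomputable def n3834 : Strat := .move 881 n3738 (.cons 880 n398 .nil)
noncomputable def n3835 : Strat := .move 836 n3164 (.cons 876 n3834 .nil)
noncomputable def n3836 : Strat := .move 877 n3163 (.cons 878 n3835 .nil)
noncomputable def n3837 : Strat := .move 796 n1462 (.cons 795 n3836 .nil)
noncomputable def n3838 : Strat := .move 837 n827 (.cons 800 n3837 .nil)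
noncomputable def n3839 : Strat := .move 919 n437 (.cons 918 n866 .nil)
noncomputable def n3840 : Strat := .move 880 n399 (.cons 836 n3839 .nil)
noncomputable def n3841 : Strat := .move 881 n398 (.cons 882 n3840 .nil)
noncomputable def n3842 : Strat := .move 879 n2512 (.cons 841 n3841 .nil)
noncomputable def n3843 : Strat := .move 878 n597 (.cons 877 n3842 .nil)
noncomputable def n3844 : Strat := .move 837 n827 (.cons 800 n3843 .nil)
noncomputable def n3845 : Strat := .win 841 2 796
noncomputable def n3846 : Strat := .move 837 n1462 (.cons 795 n3836 .nil)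
noncomputable def n3847 : Strat := .move 796 n3845 (.cons 841 n3846 .nil)
noncomputable def n3848 : Strat := .move 842 n387 (.cons 802 n2624 .nil)
noncomputable def n3849 : Strat := .move 801 n403 (.cons 800 n3848 .nil)
noncomputable def n3850 : Strat := .move 841 n397 (.cons 796 n3849 .nil)
noncomputable def n3851 : Strat := .move 797 n3833 (.cons 841 n3838 (.cons 796 n3844 (.cons 800 n3847 (.cons 837 n3850 .nil))))
noncomputable def n3852 : Strat := .move 801 n387 (.cons 802 n2624 .nil)
noncomputable def n3853 : Strat := .move 842 n396 (.cons 798 n3852 .nil)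
noncomputable def n3854 : Strat := .move 797 n397 (.cons 796 n3853 .nil)
noncomputable def n3855 : Strat := .move 797 n397 (.cons 796 n3849 .nil)
noncomputable def n3856 : Strat := .move 800 n590 (.cons 801 n3340 .nil)
noncomputable def n3857 : Strat := .move 800 n3139 (.cons 716 n3153 (.cons 920 n1635 .nil))
noncomputable def n3858 : Strat := .move 879 n1040 (.cons 878 n3857 .nil)
noncomputable def n3859 : Strat := .move 798 n595 (.cons 842 n3858 .nil)
noncomputable def n3860 : Strat := .move 797 n397 (.cons 796 n3859 .nil)
noncomputable def n3861 : Strat := .move 841 n3234 (.cons 800 n3854 (.cons 797 n3237 (.cons 879 n3240 (.cons 798 n3855 (.cons 842 n3856 (.cons 801 n3860 .nil))))))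
noncomputable def n3862 : Strat := .move 838 n3832 (.cons 800 n3232 (.cons 798 n3851 (.cons 841 n3179 (.cons 878 n3180 (.cons 837 n3861 .nil)))))
noncomputable def n3863 : Strat := .win 798 4 795
noncomputable def n3864 : Strat := .move 836 n3863 (.cons 798 n3165 .nil)
noncomputable def n3865 : Strat := .move 797 n3845 (.cons 841 n3864 .nil)
noncomputable def n3866 : Strat := .move 796 n1462 (.cons 795 n3865 .nil)
noncomputable def n3867 : Strat := .move 837 n827 (.cons 800 n3866 .nil)
noncomputable def n3868 : Strat := .move 798 n596 (.cons 836 n3460 .nil)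
noncomputable def n3869 : Strat := .move 837 n827 (.cons 800 n3868 .nil)
noncomputable def n3870 : Strat := .move 798 n639 (.cons 836 n3381 .nil)
noncomputable def n3871 : Strat := .move 797 n3845 (.cons 841 n3870 .nil)
noncomputable def n3872 : Strat := .move 796 n1462 (.cons 795 n3871 .nil)
noncomputable def n3873 : Strat := .move 837 n827 (.cons 800 n3872 .nil)
noncomputable def n3874 : Strat := .move 798 n3384 (.cons 795 n3461 (.cons 841 n3465 (.cons 797 n3468 (.cons 879 n3363 (.cons 837 n3470 .nil)))))
noncomputable def n3875 : Strat := .move 800 n71 (.cons 801 n1383 .nil)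
noncomputable def n3876 : Strat := .move 798 n595 (.cons 842 n3875 .nil)
noncomputable def n3877 : Strat := .move 797 n397 (.cons 796 n3876 .nil)
noncomputable def n3878 : Strat := .move 798 n595 (.cons 842 n2540 .nil)
noncomputable def n3879 : Strat := .move 797 n397 (.cons 796 n3878 .nil)
noncomputable def n3880 : Strat := .move 800 n590 (.cons 801 n3157 .nil)
noncomputable def n3881 : Strat := .move 841 n3877 (.cons 800 n3879 (.cons 842 n3880 (.cons 798 n3849 .nil)))
noncomputable def n3882 : Strat := .move 838 n3867 (.cons 795 n3869 (.cons 877 n3873 (.cons 800 n3874 (.cons 797 n3179 (.cons 837 n3881 (.cons 798 n3178 .nil))))))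
noncomputable def n3883 : Strat := .move 716 n3298 (.cons 881 n3662 .nil)
noncomputable def n3884 : Strat := .move 838 n2097 (.cons 836 n3651 (.cons 837 n3709 (.cons 800 n3710 .nil)))
noncomputable def n3885 : Strat := .move 881 n158 (.cons 922 n3884 .nil)
noncomputable def n3886 : Strat := .move 757 n3344 (.cons 675 n3883 (.cons 716 n3885 (.cons 881 n3663 .nil)))
noncomputable def n3887 : Strat := .move 797 n2000 (.cons 759 n3700 .nil)
noncomputable def n3888 : Strat := .move 760 n935 (.cons 761 n3887 .nil)
noncomputable def n3889 : Strat := .move 842 n634 (.cons 843 n3888 .nil)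
noncomputable def n3890 : Strat := .move 801 n52 (.cons 802 n3889 .nil)
noncomputable def n3891 : Strat := .move 880 n2323 (.cons 921 n877 .nil)
noncomputable def n3892 : Strat := .move 756 n76 (.cons 755 n3891 .nil)
noncomputable def n3893 : Strat := .move 838 n72 (.cons 837 n3892 .nil)
noncomputable def n3894 : Strat := .move 837 n639 (.cons 836 n3682 .nil)
noncomputable def n3895 : Strat := .move 796 n1572 (.cons 795 n3894 .nil)
noncomputable def n3896 : Strat := .move 796 n1572 (.cons 795 n639 .nil)
noncomputable def n3897 : Strat := .move 837 n640 (.cons 838 n3896 .nil)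
noncomputable def n3898 : Strat := .move 715 n1381 (.cons 674 n2324 .nil)
noncomputable def n3899 : Strat := .move 880 n2323 (.cons 921 n3898 .nil)
noncomputable def n3900 : Strat := .move 756 n76 (.cons 755 n3899 .nil)
noncomputable def n3901 : Strat := .move 797 n3893 (.cons 838 n3895 (.cons 756 n3897 (.cons 837 n3900 .nil)))
noncomputable def n3902 : Strat := .move 800 n316 (.cons 838 n3890 (.cons 801 n3901 .nil))
noncomputable def n3903 : Strat := .move 880 n3412 (.cons 921 n3817 .nil)
noncomputable def n3904 : Strat := .move 922 n3209 (.cons 881 n3903 .nil)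
noncomputable def n3905 : Strat := .move 757 n3131 (.cons 881 n3692 (.cons 716 n3904 .nil))
noncomputable def n3906 : Strat := .win 838 5 796
noncomputable def n3907 : Strat := .move 922 n3431 (.cons 881 n3211 .nil)
noncomputable def n3908 : Strat := .move 921 n3210 (.cons 963 n895 .nil)
noncomputable def n3909 : Strat := .move 920 n2640 (.cons 879 n3908 .nil)
noncomputable def n3910 : Strat := .move 922 n3431 (.cons 881 n3909 .nil)
noncomputable def n3911 : Strat := .move 878 n436 (.cons 836 n3305 .nil)
noncomputable def n3912 : Strat := .move 879 n129 (.cons 920 n3911 .nil)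
noncomputable def n3913 : Strat := .move 881 n1053 (.cons 922 n3912 .nil)
noncomputable def n3914 : Strat := .move 880 n3907 (.cons 881 n2642 (.cons 962 n3910 (.cons 921 n3913 .nil)))
noncomputable def n3915 : Strat := .move 837 n3906 (.cons 838 n3914 .nil)
noncomputable def n3916 : Strat := .move 800 n74 (.cons 838 n3668 (.cons 802 n316 (.cons 801 n3915 .nil)))
noncomputable def n3917 : Strat := .move 757 n3344 (.cons 881 n3663 (.cons 675 n3131 (.cons 716 n3916 .nil)))
noncomputable def n3918 : Strat := .move 838 n2278 (.cons 800 n2719 .nil)
noncomputable def n3919 : Strat := .move 837 n639 (.cons 836 n3918 .nil)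
noncomputable def n3920 : Strat := .move 796 n1572 (.cons 795 n3919 .nil)
noncomputable def n3921 : Strat := .move 838 n72 (.cons 837 n3763 .nil)
noncomputable def n3922 : Strat := .move 801 n52 (.cons 802 n1997 .nil)
noncomputable def n3923 : Strat := .move 800 n1575 (.cons 801 n3921 (.cons 837 n74 (.cons 838 n3922 .nil)))
noncomputable def n3924 : Strat := .move 801 n52 (.cons 802 n2466 .nil)
noncomputable def n3925 : Strat := .move 800 n637 (.cons 756 n3924 .nil)
noncomputable def n3926 : Strat := .move 755 n636 (.cons 754 n3925 .nil)
noncomputable def n3927 : Strat := .move 796 n1572 (.cons 795 n3926 .nil)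
noncomputable def n3928 : Strat := .move 801 n52 (.cons 802 n1636 .nil)
noncomputable def n3929 : Strat := .move 757 n1189 (.cons 879 n3298 .nil)
noncomputable def n3930 : Strat := .move 716 n2262 (.cons 675 n3929 .nil)
noncomputable def n3931 : Strat := .move 715 n1381 (.cons 674 n3930 .nil)
noncomputable def n3932 : Strat := .move 838 n72 (.cons 837 n3931 .nil)
noncomputable def n3933 : Strat := .move 756 n1575 (.cons 837 n74 (.cons 838 n3928 (.cons 801 n3932 .nil)))
noncomputable def n3934 : Strat := .move 800 n3933 (.cons 757 n1575 (.cons 838 n3798 (.cons 801 n3897 .nil)))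
noncomputable def n3935 : Strat := .move 797 n3920 (.cons 796 n3923 (.cons 800 n3585 (.cons 838 n3927 (.cons 755 n3934 .nil))))
noncomputable def n3936 : Strat := .move 880 n884 (.cons 962 n3210 .nil)
noncomputable def n3937 : Strat := .move 880 n3210 (.cons 963 n3480 .nil)
noncomputable def n3938 : Strat := .move 880 n884 (.cons 962 n3480 .nil)
noncomputable def n3939 : Strat := .move 879 n910 (.cons 961 n559 .nil)
noncomputable def n3940 : Strat := .move 838 n1190 (.cons 837 n3939 .nil)
noncomputable def n3941 : Strat := .move 837 n596 (.cons 836 n827 .nil)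
noncomputable def n3942 : Strat := .move 838 n3941 (.cons 800 n3939 .nil)
noncomputable def n3943 : Strat := .move 838 n910 (.cons 961 n559 .nil)
noncomputable def n3944 : Strat := .win 923 2 878
noncomputable def n3945 : Strat := .win 876 0 876
noncomputable def n3946 : Strat := .win 919 2 877
noncomputable def n3947 : Strat := .move 877 n3945 (.cons 876 n3946 .nil)
noncomputable def n3948 : Strat := .move 878 n3944 (.cons 923 n3947 .nil)
noncomputable def n3949 : Strat := .move 879 n3943 (.cons 797 n3948 .nil)
noncomputable def n3950 : Strat := .win 962 0 918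
noncomputable def n3951 : Strat := .win 964 0 919
noncomputable def n3952 : Strat := .move 963 n3950 (.cons 962 n3951 .nil)
noncomputable def n3953 : Strat := .win 876 2 876
noncomputable def n3954 : Strat := .win 878 2 877
noncomputable def n3955 : Strat := .move 877 n3953 (.cons 876 n3954 .nil)
noncomputable def n3956 : Strat := .move 918 n3952 (.cons 964 n3955 .nil)
noncomputable def n3957 : Strat := .win 965 0 920
noncomputable def n3958 : Strat := .win 963 0 919
noncomputable def n3959 : Strat := .move 964 n3957 (.cons 965 n3958 .nil)
noncomputable def n3960 : Strat := .win 879 2 878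
noncomputable def n3961 : Strat := .win 877 2 877
noncomputable def n3962 : Strat := .move 878 n3960 (.cons 879 n3961 .nil)
noncomputable def n3963 : Strat := .move 923 n3959 (.cons 963 n3962 .nil)
noncomputable def n3964 : Strat := .win 958 4 917
noncomputable def n3965 : Strat := .win 960 4 918
noncomputable def n3966 : Strat := .move 959 n3964 (.cons 958 n3965 .nil)
noncomputable def n3967 : Strat := .move 918 n3952 (.cons 964 n3966 .nil)
noncomputable def n3968 : Strat := .move 918 n3955 (.cons 878 n3966 .nil)
noncomputable def n3969 : Strat := .move 919 n3956 (.cons 918 n3963 (.cons 878 n3967 (.cons 964 n3968 .nil)))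
noncomputable def n3970 : Strat := .move 960 n186 (.cons 961 n185 .nil)
noncomputable def n3971 : Strat := .move 923 n3959 (.cons 963 n3970 .nil)
noncomputable def n3972 : Strat := .move 919 n3956 (.cons 918 n3971 (.cons 964 n3968 .nil))
noncomputable def n3973 : Strat := .move 920 n3940 (.cons 801 n3942 (.cons 837 n3949 (.cons 838 n3969 (.cons 879 n3972 .nil))))
noncomputable def n3974 : Strat := .move 921 n3936 (.cons 962 n3937 (.cons 963 n3938 (.cons 880 n3973 .nil)))
noncomputable def n3975 : Strat := .move 922 n3209 (.cons 881 n3974 .nil)
noncomputable def n3976 : Strat := .move 757 n3344 (.cons 881 n3705 (.cons 675 n3131 (.cons 716 n3975 .nil)))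
noncomputable def n3977 : Strat := .move 798 n3886 (.cons 757 n3902 (.cons 800 n3452 (.cons 838 n3905 (.cons 797 n3917 (.cons 880 n3935 (.cons 756 n3976 .nil))))))
noncomputable def n3978 : Strat := .move 798 n15 (.cons 757 n314 .nil)
noncomputable def n3979 : Strat := .move 963 n1434 (.cons 798 n24 .nil)
noncomputable def n3980 : Strat := .move 800 n17 (.cons 759 n316 .nil)
noncomputable def n3981 : Strat := .move 798 n15 (.cons 757 n3980 .nil)
noncomputable def n3982 : Strat := .move 922 n3978 (.cons 757 n3979 (.cons 798 n65 (.cons 963 n3981 .nil)))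
noncomputable def n3983 : Strat := .move 798 n44 (.cons 842 n3777 .nil)
noncomputable def n3984 : Strat := .move 797 n397 (.cons 796 n3983 .nil)
noncomputable def n3985 : Strat := .move 800 n590 (.cons 801 n3984 .nil)
noncomputable def n3986 : Strat := .win 880 4 839
noncomputable def n3987 : Strat := .move 843 n2993 (.cons 844 n3986 .nil)
noncomputable def n3988 : Strat := .move 842 n396 (.cons 798 n3987 .nil)
noncomputable def n3989 : Strat := .move 797 n397 (.cons 796 n3988 .nil)
noncomputable def n3990 : Strat := .move 797 n3072 (.cons 798 n397 .nil)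
noncomputable def n3991 : Strat := .move 760 n704 (.cons 719 n3990 .nil)
noncomputable def n3992 : Strat := .move 759 n1059 (.cons 718 n3991 .nil)
noncomputable def n3993 : Strat := .move 800 n590 (.cons 801 n3992 .nil)
noncomputable def n3994 : Strat := .move 843 n3986 (.cons 880 n2943 .nil)
noncomputable def n3995 : Strat := .move 842 n387 (.cons 802 n3994 .nil)
noncomputable def n3996 : Strat := .move 801 n403 (.cons 800 n3995 .nil)
noncomputable def n3997 : Strat := .move 842 n387 (.cons 802 n3987 .nil)
noncomputable def n3998 : Strat := .move 801 n403 (.cons 800 n3997 .nil)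
noncomputable def n3999 : Strat := .move 841 n3985 (.cons 718 n594 (.cons 800 n3989 (.cons 842 n3993 (.cons 797 n3996 (.cons 798 n3998 .nil)))))
noncomputable def n4000 : Strat := .move 882 n526 (.cons 837 n3999 .nil)
noncomputable def n4001 : Strat := .move 836 n3738 (.cons 880 n3162 .nil)
noncomputable def n4002 : Strat := .move 837 n398 (.cons 882 n4001 .nil)
noncomputable def n4003 : Strat := .move 882 n3985 (.cons 718 n594 (.cons 800 n3989 (.cons 842 n3993 (.cons 797 n3996 (.cons 798 n3998 .nil)))))
noncomputable def n4004 : Strat := .move 843 n3986 (.cons 880 n3598 .nil)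
noncomputable def n4005 : Strat := .move 842 n396 (.cons 798 n4004 .nil)
noncomputable def n4006 : Strat := .move 797 n397 (.cons 796 n4005 .nil)
noncomputable def n4007 : Strat := .move 756 n3143 (.cons 880 n3628 .nil)
noncomputable def n4008 : Strat := .move 757 n389 (.cons 716 n4007 .nil)
noncomputable def n4009 : Strat := .move 798 n595 (.cons 842 n4008 .nil)
noncomputable def n4010 : Strat := .move 797 n397 (.cons 796 n4009 .nil)
noncomputable def n4011 : Strat := .move 843 n2943 (.cons 798 n3986 .nil)
noncomputable def n4012 : Strat := .move 842 n387 (.cons 802 n4011 .nil)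
noncomputable def n4013 : Strat := .move 801 n403 (.cons 800 n4012 .nil)
noncomputable def n4014 : Strat := .move 798 n3777 (.cons 718 n3144 .nil)
noncomputable def n4015 : Strat := .move 797 n397 (.cons 796 n4014 .nil)
noncomputable def n4016 : Strat := .move 800 n590 (.cons 801 n4015 .nil)
noncomputable def n4017 : Strat := .move 844 n2945 (.cons 882 n3643 .nil)
noncomputable def n4018 : Strat := .move 843 n3986 (.cons 880 n4017 .nil)
noncomputable def n4019 : Strat := .move 842 n387 (.cons 802 n4018 .nil)
noncomputable def n4020 : Strat := .move 801 n403 (.cons 800 n4019 .nil)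
noncomputable def n4021 : Strat := .move 841 n4003 (.cons 800 n4006 (.cons 801 n4010 (.cons 796 n4013 (.cons 842 n4016 (.cons 880 n3985 (.cons 798 n4020 .nil))))))
noncomputable def n4022 : Strat := .move 838 n4000 (.cons 800 n4002 (.cons 798 n3233 (.cons 837 n4021 .nil)))
noncomputable def n4023 : Strat := .move 800 n17 (.cons 759 n2894 .nil)
noncomputable def n4024 : Strat := .move 922 n65 (.cons 800 n275 (.cons 962 n41 (.cons 963 n4023 .nil)))
noncomputable def n4025 : Strat := .move 797 n2796 (.cons 795 n70 (.cons 841 n77 .nil))
noncomputable def n4026 : Strat := .move 921 n27 (.cons 962 n4025 .nil)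
noncomputable def n4027 : Strat := .move 801 n52 (.cons 802 n4026 .nil)
noncomputable def n4028 : Strat := .move 800 n17 (.cons 759 n4027 .nil)
noncomputable def n4029 : Strat := .move 798 n15 (.cons 757 n4028 .nil)
noncomputable def n4030 : Strat := .move 922 n3978 (.cons 757 n3979 (.cons 963 n4029 (.cons 798 n65 .nil)))
noncomputable def n4031 : Strat := .move 922 n3978 (.cons 757 n3979 (.cons 798 n275 (.cons 963 n3981 .nil)))
noncomputable def n4032 : Strat := .move 880 n815 (.cons 756 n2796 .nil)
noncomputable def n4033 : Strat := .move 838 n398 (.cons 882 n2278 .nil)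
noncomputable def n4034 : Strat := .move 837 n639 (.cons 836 n4033 .nil)
noncomputable def n4035 : Strat := .move 796 n1572 (.cons 795 n4034 .nil)
noncomputable def n4036 : Strat := .move 756 n76 (.cons 755 n75 .nil)
noncomputable def n4037 : Strat := .move 800 n525 (.cons 802 n73 (.cons 838 n4036 .nil))
noncomputable def n4038 : Strat := .move 841 n595 (.cons 842 n4037 .nil)
noncomputable def n4039 : Strat := .move 797 n4032 (.cons 841 n4035 (.cons 796 n4038 .nil))
noncomputable def n4040 : Strat := .move 921 n27 (.cons 962 n4039 .nil)
noncomputable def n4041 : Strat := .move 922 n314 (.cons 963 n4040 .nil)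
noncomputable def n4042 : Strat := .move 797 n2796 (.cons 795 n70 (.cons 841 n3144 .nil))
noncomputable def n4043 : Strat := .move 800 n71 (.cons 801 n4042 .nil)
noncomputable def n4044 : Strat := .move 838 n2955 (.cons 800 n3486 (.cons 882 n2097 (.cons 837 n4043 .nil)))
noncomputable def n4045 : Strat := .move 757 n389 (.cons 716 n4044 .nil)
noncomputable def n4046 : Strat := .move 798 n3542 (.cons 757 n4041 (.cons 963 n3420 (.cons 922 n4045 .nil)))
noncomputable def n4047 : Strat := .move 800 n17 (.cons 759 n3978 .nil)
noncomputable def n4048 : Strat := .move 838 n315 (.cons 837 n3782 .nil)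
noncomputable def n4049 : Strat := .move 798 n15 (.cons 757 n4048 .nil)
noncomputable def n4050 : Strat := .move 800 n17 (.cons 759 n4049 .nil)
noncomputable def n4051 : Strat := .move 922 n4047 (.cons 798 n65 (.cons 963 n4050 (.cons 759 n3978 .nil)))
noncomputable def n4052 : Strat := .move 920 n895 (.cons 961 n324 .nil)
noncomputable def n4053 : Strat := .move 880 n815 (.cons 756 n4052 .nil)
noncomputable def n4054 : Strat := .move 797 n1873 (.cons 795 n1571 (.cons 796 n4053 .nil))
noncomputable def n4055 : Strat := .move 921 n27 (.cons 962 n4054 .nil)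
noncomputable def n4056 : Strat := .move 798 n15 (.cons 757 n4055 .nil)
noncomputable def n4057 : Strat := .move 922 n3978 (.cons 798 n275 (.cons 963 n4056 .nil))
noncomputable def n4058 : Strat := .move 881 n3982 (.cons 922 n4022 (.cons 798 n4024 (.cons 838 n4030 (.cons 841 n4031 (.cons 759 n4046 (.cons 801 n4051 (.cons 800 n4057 .nil)))))))
noncomputable def n4059 : Strat := .move 796 n1572 (.cons 795 n2487 .nil)
noncomputable def n4060 : Strat := .move 881 n653 (.cons 922 n1059 .nil)
noncomputable def n4061 : Strat := .move 759 n1507 (.cons 760 n4060 .nil)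
noncomputable def n4062 : Strat := .move 841 n44 (.cons 842 n4061 .nil)
noncomputable def n4063 : Strat := .move 841 n44 (.cons 842 n3798 .nil)
noncomputable def n4064 : Strat := .move 801 n52 (.cons 802 n634 .nil)
noncomputable def n4065 : Strat := .move 842 n635 (.cons 841 n4064 .nil)
noncomputable def n4066 : Strat := .move 800 n4062 (.cons 922 n4063 (.cons 841 n3798 (.cons 759 n4065 .nil)))
noncomputable def n4067 : Strat := .move 797 n1571 (.cons 841 n4059 (.cons 796 n4066 .nil))
noncomputable def n4068 : Strat := .move 881 n1053 (.cons 922 n133 .nil)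
noncomputable def n4069 : Strat := .move 922 n3210 (.cons 963 n3480 .nil)
noncomputable def n4070 : Strat := .move 921 n884 (.cons 962 n4069 .nil)
noncomputable def n4071 : Strat := .win 881 5 837
noncomputable def n4072 : Strat := .move 878 n3305 (.cons 877 n4071 .nil)
noncomputable def n4073 : Strat := .move 841 n130 (.cons 842 n4072 .nil)
noncomputable def n4074 : Strat := .move 879 n129 (.cons 920 n4073 .nil)
noncomputable def n4075 : Strat := .move 880 n4068 (.cons 881 n4070 (.cons 879 n3441 (.cons 922 n4074 .nil)))
noncomputable def n4076 : Strat := .move 757 n3131 (.cons 881 n3824 (.cons 716 n4075 .nil))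
noncomputable def n4077 : Strat := .move 796 n1572 (.cons 795 n2481 .nil)
noncomputable def n4078 : Strat := .move 756 n76 (.cons 755 n3928 .nil)
noncomputable def n4079 : Strat := .move 715 n2490 (.cons 757 n1381 .nil)
noncomputable def n4080 : Strat := .move 880 n2323 (.cons 921 n4079 .nil)
noncomputable def n4081 : Strat := .move 756 n76 (.cons 755 n4080 .nil)
noncomputable def n4082 : Strat := .move 800 n3798 (.cons 761 n4078 (.cons 801 n4081 .nil))
noncomputable def n4083 : Strat := .move 841 n595 (.cons 842 n4082 .nil)
noncomputable def n4084 : Strat := .move 797 n1571 (.cons 841 n4077 (.cons 796 n4083 .nil))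
noncomputable def n4085 : Strat := .move 800 n1624 (.cons 922 n3798 (.cons 759 n3922 .nil))
noncomputable def n4086 : Strat := .move 841 n595 (.cons 842 n4085 .nil)
noncomputable def n4087 : Strat := .move 797 n1571 (.cons 842 n1873 (.cons 796 n4086 (.cons 841 n3927 .nil)))
noncomputable def n4088 : Strat := .move 717 n2016 (.cons 676 n2644 .nil)
noncomputable def n4089 : Strat := .move 716 n1281 (.cons 675 n4088 .nil)
noncomputable def n4090 : Strat := .move 757 n3131 (.cons 922 n3344 (.cons 716 n3788 (.cons 881 n4089 .nil)))
noncomputable def n4091 : Strat := .move 881 n15 (.cons 757 n314 .nil)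
noncomputable def n4092 : Strat := .move 880 n983 (.cons 878 n984 (.cons 924 n4052 .nil))
noncomputable def n4093 : Strat := .move 923 n42 (.cons 964 n4092 .nil)
noncomputable def n4094 : Strat := .move 921 n27 (.cons 962 n4093 .nil)
noncomputable def n4095 : Strat := .move 881 n314 (.cons 963 n4094 .nil)
noncomputable def n4096 : Strat := .move 881 n15 (.cons 757 n4094 .nil)
noncomputable def n4097 : Strat := .move 880 n385 (.cons 879 n3412 .nil)
noncomputable def n4098 : Strat := .move 842 n47 (.cons 843 n4097 .nil)
noncomputable def n4099 : Strat := .move 801 n50 (.cons 760 n52 .nil)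
noncomputable def n4100 : Strat := .move 800 n485 (.cons 963 n4099 .nil)
noncomputable def n4101 : Strat := .move 882 n370 (.cons 964 n4100 .nil)
noncomputable def n4102 : Strat := .move 964 n3958 (.cons 963 n3957 .nil)
noncomputable def n4103 : Strat := .move 878 n3961 (.cons 877 n3960 .nil)
noncomputable def n4104 : Strat := .move 919 n4102 (.cons 965 n4103 .nil)
noncomputable def n4105 : Strat := .win 964 0 920
noncomputable def n4106 : Strat := .move 965 n231 (.cons 966 n4105 .nil)
noncomputable def n4107 : Strat := .win 962 4 920
noncomputable def n4108 : Strat := .move 961 n4107 (.cons 962 n190 .nil)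
noncomputable def n4109 : Strat := .move 924 n4106 (.cons 964 n4108 .nil)
noncomputable def n4110 : Strat := .move 919 n4103 (.cons 879 n187 .nil)
noncomputable def n4111 : Strat := .move 920 n4104 (.cons 919 n4109 (.cons 965 n4110 .nil))
noncomputable def n4112 : Strat := .move 920 n198 (.cons 878 n895 .nil)
noncomputable def n4113 : Strat := .move 879 n180 (.cons 924 n4112 .nil)
noncomputable def n4114 : Strat := .move 880 n884 (.cons 962 n4113 .nil)
noncomputable def n4115 : Strat := .move 880 n3210 (.cons 963 n4113 .nil)
noncomputable def n4116 : Strat := .move 921 n3936 (.cons 880 n4111 (.cons 963 n4114 (.cons 962 n4115 .nil)))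
noncomputable def n4117 : Strat := .win 882 7 799
noncomputable def n4118 : Strat := .move 964 n3957 (.cons 965 n4117 .nil)
noncomputable def n4119 : Strat := .move 920 n895 (.cons 961 n4118 .nil)
noncomputable def n4120 : Strat := .move 880 n884 (.cons 962 n4119 .nil)
noncomputable def n4121 : Strat := .win 920 0 920
noncomputable def n4122 : Strat := .win 967 2 922
noncomputable def n4123 : Strat := .win 924 0 921
noncomputable def n4124 : Strat := .move 966 n4122 (.cons 967 n4123 .nil)
noncomputable def n4125 : Strat := .move 965 n4121 (.cons 920 n4124 .nil)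
noncomputable def n4126 : Strat := .move 964 n4117 (.cons 882 n4125 .nil)
noncomputable def n4127 : Strat := .move 880 n227 (.cons 879 n884 .nil)
noncomputable def n4128 : Strat := .win 800 6 800
noncomputable def n4129 : Strat := .move 965 n4128 (.cons 800 n231 .nil)
noncomputable def n4130 : Strat := .move 924 n4127 (.cons 962 n4129 .nil)
noncomputable def n4131 : Strat := .move 882 n370 (.cons 964 n4130 .nil)
noncomputable def n4132 : Strat := .move 921 n4114 (.cons 878 n4120 (.cons 880 n4126 (.cons 920 n4131 .nil)))
noncomputable def n4133 : Strat := .move 880 n3210 (.cons 963 n884 .nil)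
noncomputable def n4134 : Strat := .move 880 n227 (.cons 879 n3210 .nil)
noncomputable def n4135 : Strat := .win 967 0 922
noncomputable def n4136 : Strat := .win 965 0 921
noncomputable def n4137 : Strat := .move 966 n4135 (.cons 967 n4136 .nil)
noncomputable def n4138 : Strat := .win 963 4 921
noncomputable def n4139 : Strat := .win 961 4 920
noncomputable def n4140 : Strat := .move 962 n4138 (.cons 963 n4139 .nil)
noncomputable def n4141 : Strat := .move 925 n4137 (.cons 965 n4140 .nil)
noncomputable def n4142 : Strat := .move 921 n4133 (.cons 962 n4134 (.cons 963 n4127 (.cons 880 n4141 .nil)))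
noncomputable def n4143 : Strat := .move 882 n498 (.cons 965 n485 .nil)
noncomputable def n4144 : Strat := .move 882 n50 (.cons 760 n498 .nil)
noncomputable def n4145 : Strat := .move 801 n52 (.cons 802 n4144 .nil)
noncomputable def n4146 : Strat := .move 882 n50 (.cons 760 n485 .nil)
noncomputable def n4147 : Strat := .move 801 n52 (.cons 802 n4146 .nil)
noncomputable def n4148 : Strat := .move 797 n2000 (.cons 759 n45 .nil)
noncomputable def n4149 : Strat := .move 801 n935 (.cons 761 n52 .nil)
noncomputable def n4150 : Strat := .move 760 n4148 (.cons 796 n4149 .nil)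
noncomputable def n4151 : Strat := .move 800 n4143 (.cons 963 n4145 (.cons 965 n4147 (.cons 882 n4150 .nil)))
noncomputable def n4152 : Strat := .move 921 n4127 (.cons 962 n232 .nil)
noncomputable def n4153 : Strat := .move 801 n52 (.cons 802 n944 .nil)
noncomputable def n4154 : Strat := .move 800 n4145 (.cons 801 n4152 (.cons 965 n4153 (.cons 882 n4150 .nil)))
noncomputable def n4155 : Strat := .win 880 3 798
noncomputable def n4156 : Strat := .move 921 n4139 (.cons 961 n4155 .nil)
noncomputable def n4157 : Strat := .move 962 n4138 (.cons 963 n4156 .nil)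
noncomputable def n4158 : Strat := .win 968 0 923
noncomputable def n4159 : Strat := .win 966 0 922
noncomputable def n4160 : Strat := .move 967 n4158 (.cons 968 n4159 .nil)
noncomputable def n4161 : Strat := .win 886 5 882
noncomputable def n4162 : Strat := .win 884 5 881
noncomputable def n4163 : Strat := .move 885 n4161 (.cons 886 n4162 .nil)
noncomputable def n4164 : Strat := .move 926 n4160 (.cons 966 n4163 .nil)
noncomputable def n4165 : Strat := .move 925 n4157 (.cons 962 n4164 .nil)
noncomputable def n4166 : Strat := .move 924 n4142 (.cons 967 n4151 (.cons 963 n4154 (.cons 965 n4165 .nil)))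
noncomputable def n4167 : Strat := .move 923 n4101 (.cons 882 n4116 (.cons 963 n4132 (.cons 964 n4166 .nil)))
noncomputable def n4168 : Strat := .move 841 n1985 (.cons 797 n4098 (.cons 843 n1477 (.cons 842 n4167 .nil)))
noncomputable def n4169 : Strat := .move 922 n4091 (.cons 757 n4095 (.cons 963 n4096 (.cons 881 n4168 .nil)))
noncomputable def n4170 : Strat := .move 798 n3808 (.cons 757 n4067 (.cons 797 n4076 (.cons 881 n4084 (.cons 841 n3905 (.cons 715 n4087 (.cons 755 n4090 (.cons 756 n4169 .nil)))))))
noncomputable def n4171 : Strat := .move 836 n3162 (.cons 798 n3738 .nil)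
noncomputable def n4172 : Strat := .move 881 n398 (.cons 882 n4171 .nil)
noncomputable def n4173 : Strat := .move 796 n1462 (.cons 795 n3173 .nil)
noncomputable def n4174 : Strat := .move 879 n2512 (.cons 841 n4173 .nil)
noncomputable def n4175 : Strat := .move 878 n597 (.cons 877 n4174 .nil)
noncomputable def n4176 : Strat := .move 837 n3166 (.cons 876 n4172 (.cons 798 n4175 .nil))
noncomputable def n4177 : Strat := .move 802 n3597 (.cons 801 n2995 .nil)
noncomputable def n4178 : Strat := .move 843 n2943 (.cons 798 n4177 .nil)
noncomputable def n4179 : Strat := .move 842 n2609 (.cons 880 n4178 .nil)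
noncomputable def n4180 : Strat := .move 879 n1040 (.cons 878 n4179 .nil)
noncomputable def n4181 : Strat := .move 843 n2943 (.cons 798 n3644 .nil)
noncomputable def n4182 : Strat := .move 842 n2609 (.cons 880 n4181 .nil)
noncomputable def n4183 : Strat := .move 879 n1040 (.cons 878 n4182 .nil)
noncomputable def n4184 : Strat := .move 881 n3986 (.cons 880 n4017 .nil)
noncomputable def n4185 : Strat := .move 843 n2943 (.cons 798 n4184 .nil)
noncomputable def n4186 : Strat := .move 842 n387 (.cons 802 n4185 .nil)
noncomputable def n4187 : Strat := .move 801 n403 (.cons 800 n4186 .nil)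
noncomputable def n4188 : Strat := .move 842 n838 (.cons 801 n4181 (.cons 800 n4178 .nil))
noncomputable def n4189 : Strat := .move 879 n1040 (.cons 878 n4188 .nil)
noncomputable def n4190 : Strat := .move 881 n17 (.cons 759 n218 .nil)
noncomputable def n4191 : Strat := .move 800 n590 (.cons 801 n4190 .nil)
noncomputable def n4192 : Strat := .move 881 n15 (.cons 757 n218 .nil)
noncomputable def n4193 : Strat := .move 757 n890 (.cons 716 n3209 .nil)
noncomputable def n4194 : Strat := .win 881 1 798
noncomputable def n4195 : Strat := .move 962 n4194 (.cons 881 n4155 .nil)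
noncomputable def n4196 : Strat := .move 881 n218 (.cons 963 n27 .nil)
noncomputable def n4197 : Strat := .win 880 6 798
noncomputable def n4198 : Strat := .win 881 3 799
noncomputable def n4199 : Strat := .move 963 n4197 (.cons 880 n4198 .nil)
noncomputable def n4200 : Strat := .move 921 n4195 (.cons 880 n4196 (.cons 881 n4133 (.cons 962 n4199 .nil)))
noncomputable def n4201 : Strat := .move 757 n890 (.cons 716 n3721 .nil)
noncomputable def n4202 : Strat := .move 798 n4192 (.cons 963 n4193 (.cons 757 n4200 (.cons 881 n4201 .nil)))
noncomputable def n4203 : Strat := .move 879 n1040 (.cons 878 n4202 .nil)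
noncomputable def n4204 : Strat := .move 800 n590 (.cons 801 n4203 .nil)
noncomputable def n4205 : Strat := .move 757 n3209 (.cons 881 n890 .nil)
noncomputable def n4206 : Strat := .move 881 n314 (.cons 963 n27 .nil)
noncomputable def n4207 : Strat := .win 881 7 798
noncomputable def n4208 : Strat := .move 963 n4197 (.cons 880 n4207 .nil)
noncomputable def n4209 : Strat := .move 921 n4195 (.cons 880 n4206 (.cons 881 n4133 (.cons 962 n4208 .nil)))
noncomputable def n4210 : Strat := .move 920 n910 (.cons 961 n4209 .nil)
noncomputable def n4211 : Strat := .move 798 n4091 (.cons 963 n4205 (.cons 757 n4210 (.cons 881 n4201 .nil)))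
noncomputable def n4212 : Strat := .move 879 n1040 (.cons 878 n4211 .nil)
noncomputable def n4213 : Strat := .move 882 n485 (.cons 963 n370 .nil)
noncomputable def n4214 : Strat := .win 882 1 799
noncomputable def n4215 : Strat := .move 963 n4214 (.cons 882 n1418 .nil)
noncomputable def n4216 : Strat := .move 879 n180 (.cons 924 n1040 .nil)
noncomputable def n4217 : Strat := .move 923 n4213 (.cons 964 n4215 (.cons 963 n4216 .nil))
noncomputable def n4218 : Strat := .move 880 n884 (.cons 962 n4217 .nil)
noncomputable def n4219 : Strat := .move 800 n590 (.cons 801 n4218 .nil)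
noncomputable def n4220 : Strat := .move 798 n3210 (.cons 963 n3303 .nil)
noncomputable def n4221 : Strat := .move 879 n1040 (.cons 878 n4220 .nil)
noncomputable def n4222 : Strat := .move 880 n884 (.cons 962 n4221 .nil)
noncomputable def n4223 : Strat := .move 923 n4213 (.cons 964 n4216 .nil)
noncomputable def n4224 : Strat := .move 880 n884 (.cons 962 n4223 .nil)
noncomputable def n4225 : Strat := .move 800 n590 (.cons 801 n4224 .nil)
noncomputable def n4226 : Strat := .move 800 n590 (.cons 801 n4213 .nil)
noncomputable def n4227 : Strat := .move 961 n907 (.cons 798 n190 .nil)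
noncomputable def n4228 : Strat := .move 920 n4118 (.cons 882 n4227 .nil)
noncomputable def n4229 : Strat := .move 879 n1040 (.cons 878 n4228 .nil)
noncomputable def n4230 : Strat := .move 879 n198 (.cons 878 n4227 .nil)
noncomputable def n4231 : Strat := .move 919 n4102 (.cons 965 n187 .nil)
noncomputable def n4232 : Strat := .move 920 n4230 (.cons 879 n4231 (.cons 960 n4104 .nil))
noncomputable def n4233 : Strat := .move 800 n590 (.cons 801 n4143 .nil)
noncomputable def n4234 : Strat := .move 800 n590 (.cons 801 n232 .nil)
noncomputable def n4235 : Strat := .move 800 n4214 (.cons 882 n590 .nil)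
noncomputable def n4236 : Strat := .win 925 4 921
noncomputable def n4237 : Strat := .move 962 n4236 (.cons 925 n4139 .nil)
noncomputable def n4238 : Strat := .move 963 n4235 (.cons 801 n4237 .nil)
noncomputable def n4239 : Strat := .move 924 n4233 (.cons 800 n4141 (.cons 963 n4234 (.cons 965 n4238 .nil)))
noncomputable def n4240 : Strat := .move 923 n4226 (.cons 963 n4229 (.cons 882 n4232 (.cons 964 n4239 .nil)))
noncomputable def n4241 : Strat := .win 924 4 920
noncomputable def n4242 : Strat := .win 920 4 919
noncomputable def n4243 : Strat := .win 959 5 918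
noncomputable def n4244 : Strat := .move 960 n4242 (.cons 920 n4243 .nil)
noncomputable def n4245 : Strat := .move 961 n4241 (.cons 924 n4244 .nil)
noncomputable def n4246 : Strat := .move 923 n4226 (.cons 800 n4245 .nil)
noncomputable def n4247 : Strat := .move 962 n4155 (.cons 880 n4246 .nil)
noncomputable def n4248 : Strat := .move 798 n896 (.cons 757 n895 .nil)
noncomputable def n4249 : Strat := .move 879 n1040 (.cons 878 n4248 .nil)
noncomputable def n4250 : Strat := .move 961 n190 (.cons 960 n918 .nil)
noncomputable def n4251 : Strat := .move 923 n4118 (.cons 882 n4250 .nil)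
noncomputable def n4252 : Strat := .move 879 n180 (.cons 924 n198 .nil)
noncomputable def n4253 : Strat := .move 923 n4252 (.cons 878 n4118 .nil)
noncomputable def n4254 : Strat := .move 920 n4249 (.cons 879 n4251 (.cons 961 n4253 .nil))
noncomputable def n4255 : Strat := .move 880 n884 (.cons 962 n4254 .nil)
noncomputable def n4256 : Strat := .move 798 n895 (.cons 961 n3210 .nil)
noncomputable def n4257 : Strat := .move 880 n4252 (.cons 878 n4256 .nil)
noncomputable def n4258 : Strat := .move 920 n4230 (.cons 879 n4231 (.cons 960 n4257 (.cons 961 n4104 .nil)))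
noncomputable def n4259 : Strat := .win 880 2 879
noncomputable def n4260 : Strat := .move 879 n4259 (.cons 880 n1040 .nil)
noncomputable def n4261 : Strat := .move 924 n4260 (.cons 878 n4143 .nil)
noncomputable def n4262 : Strat := .move 800 n590 (.cons 801 n4261 .nil)
noncomputable def n4263 : Strat := .move 923 n4226 (.cons 963 n4229 (.cons 882 n4258 (.cons 964 n4262 .nil)))
noncomputable def n4264 : Strat := .move 921 n4219 (.cons 882 n4222 (.cons 798 n4225 (.cons 880 n4240 (.cons 879 n4247 (.cons 963 n4255 (.cons 962 n4263 .nil))))))
noncomputable def n4265 : Strat := .move 800 n590 (.cons 801 n17 .nil)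
noncomputable def n4266 : Strat := .move 923 n180 (.cons 924 n42 .nil)
noncomputable def n4267 : Strat := .move 879 n1040 (.cons 878 n4266 .nil)
noncomputable def n4268 : Strat := .move 798 n895 (.cons 961 n1521 .nil)
noncomputable def n4269 : Strat := .move 920 n4268 (.cons 757 n324 .nil)
noncomputable def n4270 : Strat := .move 880 n4267 (.cons 879 n4269 .nil)
noncomputable def n4271 : Strat := .move 921 n27 (.cons 962 n4270 .nil)
noncomputable def n4272 : Strat := .move 881 n4265 (.cons 800 n4271 .nil)
noncomputable def n4273 : Strat := .move 922 n4191 (.cons 759 n4204 (.cons 800 n4212 (.cons 881 n4264 (.cons 963 n4272 .nil))))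
noncomputable def n4274 : Strat := .move 841 n3237 (.cons 800 n4180 (.cons 801 n4183 (.cons 879 n4187 (.cons 798 n3849 (.cons 880 n4189 (.cons 842 n4273 .nil))))))
noncomputable def n4275 : Strat := .move 837 n827 (.cons 800 n4175 .nil)
noncomputable def n4276 : Strat := .move 838 n3179 (.cons 800 n4176 (.cons 877 n3228 (.cons 837 n4274 (.cons 798 n4275 .nil))))
noncomputable def n4277 : Strat := .move 963 n23 (.cons 1003 n1419 .nil)
noncomputable def n4278 : Strat := .win 882 0 879
noncomputable def n4279 : Strat := .move 924 n4278 (.cons 882 n228 .nil)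
noncomputable def n4280 : Strat := .move 879 n179 (.cons 878 n4279 .nil)
noncomputable def n4281 : Strat := .move 923 n42 (.cons 964 n4280 .nil)
noncomputable def n4282 : Strat := .move 880 n4277 (.cons 963 n4281 .nil)
noncomputable def n4283 : Strat := .move 962 n22 (.cons 921 n4282 .nil)
noncomputable def n4284 : Strat := .move 881 n65 (.cons 963 n4023 (.cons 841 n4283 .nil))
noncomputable def n4285 : Strat := .move 963 n36 (.cons 1005 n1437 .nil)
noncomputable def n4286 : Strat := .move 964 n35 (.cons 923 n4285 .nil)
noncomputable def n4287 : Strat := .move 963 n23 (.cons 1003 n1446 .nil)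
noncomputable def n4288 : Strat := .move 962 n22 (.cons 921 n4287 .nil)
noncomputable def n4289 : Strat := .win 923 3 881
noncomputable def n4290 : Strat := .win 1087 6 922
noncomputable def n4291 : Strat := .win 1005 6 881
noncomputable def n4292 : Strat := .move 1046 n4290 (.cons 1087 n4291 .nil)
noncomputable def n4293 : Strat := .move 1045 n4289 (.cons 923 n4292 .nil)
noncomputable def n4294 : Strat := .move 882 n619 (.cons 841 n4293 .nil)
noncomputable def n4295 : Strat := .move 1004 n1435 (.cons 880 n4294 .nil)
noncomputable def n4296 : Strat := .move 963 n23 (.cons 1003 n4295 .nil)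
noncomputable def n4297 : Strat := .move 962 n22 (.cons 921 n4296 .nil)
noncomputable def n4298 : Strat := .win 920 2 878
noncomputable def n4299 : Strat := .move 878 n3373 (.cons 880 n4298 .nil)
noncomputable def n4300 : Strat := .move 961 n908 (.cons 1002 n190 .nil)
noncomputable def n4301 : Strat := .move 920 n4300 (.cons 960 n184 .nil)
noncomputable def n4302 : Strat := .move 880 n180 (.cons 924 n4301 .nil)
noncomputable def n4303 : Strat := .move 879 n181 (.cons 924 n4299 (.cons 880 n201 (.cons 878 n4302 .nil)))
noncomputable def n4304 : Strat := .move 923 n42 (.cons 964 n4303 .nil)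
noncomputable def n4305 : Strat := .move 921 n27 (.cons 962 n4304 .nil)
noncomputable def n4306 : Strat := .move 963 n36 (.cons 1005 n1419 .nil)
noncomputable def n4307 : Strat := .move 837 n399 (.cons 836 n398 .nil)
noncomputable def n4308 : Strat := .move 841 n397 (.cons 796 n130 .nil)
noncomputable def n4309 : Strat := .move 797 n4308 (.cons 842 n878 .nil)
noncomputable def n4310 : Strat := .move 838 n4307 (.cons 882 n4309 .nil)
noncomputable def n4311 : Strat := .win 838 0 837
noncomputable def n4312 : Strat := .move 837 n436 (.cons 836 n4311 .nil)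
noncomputable def n4313 : Strat := .move 919 n438 (.cons 920 n437 .nil)
noncomputable def n4314 : Strat := .move 882 n4312 (.cons 838 n4313 .nil)
noncomputable def n4315 : Strat := .move 878 n3305 (.cons 877 n4314 .nil)
noncomputable def n4316 : Strat := .move 879 n3655 (.cons 878 n4310 (.cons 841 n4315 .nil))
noncomputable def n4317 : Strat := .move 880 n4306 (.cons 963 n4316 .nil)
noncomputable def n4318 : Strat := .move 964 n35 (.cons 923 n4317 .nil)
noncomputable def n4319 : Strat := .move 881 n275 (.cons 921 n4286 (.cons 923 n4288 (.cons 964 n4297 (.cons 1003 n4305 (.cons 962 n4318 .nil)))))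
noncomputable def n4320 : Strat := .move 962 n23 (.cons 1003 n37 .nil)
noncomputable def n4321 : Strat := .move 963 n18 (.cons 841 n4320 .nil)
noncomputable def n4322 : Strat := .move 881 n17 (.cons 759 n4321 .nil)
noncomputable def n4323 : Strat := .move 838 n315 (.cons 837 n1822 .nil)
noncomputable def n4324 : Strat := .move 801 n52 (.cons 802 n4323 .nil)
noncomputable def n4325 : Strat := .move 1004 n342 (.cons 1044 n1435 .nil)
noncomputable def n4326 : Strat := .move 1003 n341 (.cons 962 n4325 .nil)
noncomputable def n4327 : Strat := .move 963 n36 (.cons 1005 n4326 .nil)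
noncomputable def n4328 : Strat := .move 964 n35 (.cons 923 n4327 .nil)
noncomputable def n4329 : Strat := .move 838 n315 (.cons 837 n4328 .nil)
noncomputable def n4330 : Strat := .move 881 n17 (.cons 759 n4329 .nil)
noncomputable def n4331 : Strat := .move 800 n4322 (.cons 881 n4324 (.cons 841 n4330 .nil))
noncomputable def n4332 : Strat := .move 962 n4155 (.cons 880 n4194 .nil)
noncomputable def n4333 : Strat := .win 881 6 799
noncomputable def n4334 : Strat := .win 963 2 921
noncomputable def n4335 : Strat := .move 966 n4123 (.cons 924 n4334 .nil)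
noncomputable def n4336 : Strat := .move 965 n4121 (.cons 920 n4335 .nil)
noncomputable def n4337 : Strat := .move 964 n4333 (.cons 881 n4336 .nil)
noncomputable def n4338 : Strat := .move 919 n3958 (.cons 963 n4103 .nil)
noncomputable def n4339 : Strat := .move 920 n3957 (.cons 965 n4338 .nil)
noncomputable def n4340 : Strat := .move 964 n4333 (.cons 881 n4339 .nil)
noncomputable def n4341 : Strat := .move 880 n228 (.cons 925 n227 .nil)
noncomputable def n4342 : Strat := .move 924 n4341 (.cons 879 n232 .nil)
noncomputable def n4343 : Strat := .move 841 n218 (.cons 963 n4342 .nil)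
noncomputable def n4344 : Strat := .move 800 n17 (.cons 759 n4343 .nil)
noncomputable def n4345 : Strat := .move 881 n42 (.cons 964 n4344 .nil)
noncomputable def n4346 : Strat := .move 880 n1419 (.cons 1004 n320 .nil)
noncomputable def n4347 : Strat := .move 963 n18 (.cons 841 n4346 .nil)
noncomputable def n4348 : Strat := .move 800 n17 (.cons 759 n4347 .nil)
noncomputable def n4349 : Strat := .move 881 n42 (.cons 964 n4348 .nil)
noncomputable def n4350 : Strat := .move 966 n4123 (.cons 924 n4122 .nil)
noncomputable def n4351 : Strat := .move 965 n4121 (.cons 920 n4350 .nil)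
noncomputable def n4352 : Strat := .move 964 n4333 (.cons 881 n4351 .nil)
noncomputable def n4353 : Strat := .move 964 n3957 (.cons 965 n4338 .nil)
noncomputable def n4354 : Strat := .move 880 n180 (.cons 924 n4300 .nil)
noncomputable def n4355 : Strat := .move 879 n198 (.cons 878 n4354 .nil)
noncomputable def n4356 : Strat := .move 919 n3958 (.cons 963 n187 .nil)
noncomputable def n4357 : Strat := .move 964 n3957 (.cons 965 n4356 .nil)
noncomputable def n4358 : Strat := .move 920 n4353 (.cons 963 n4355 (.cons 879 n4357 .nil))
noncomputable def n4359 : Strat := .move 919 n3961 (.cons 877 n187 .nil)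
noncomputable def n4360 : Strat := .move 878 n3960 (.cons 879 n4359 .nil)
noncomputable def n4361 : Strat := .win 880 5 877
noncomputable def n4362 : Strat := .move 881 n4361 (.cons 880 n199 .nil)
noncomputable def n4363 : Strat := .move 918 n3955 (.cons 878 n4362 .nil)
noncomputable def n4364 : Strat := .move 919 n185 (.cons 959 n4363 .nil)
noncomputable def n4365 : Strat := .move 960 n186 (.cons 961 n4364 .nil)
noncomputable def n4366 : Strat := .move 918 n3966 (.cons 960 n4362 .nil)
noncomputable def n4367 : Strat := .move 919 n3961 (.cons 877 n4366 .nil)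
noncomputable def n4368 : Strat := .move 878 n3960 (.cons 879 n4367 .nil)
noncomputable def n4369 : Strat := .move 800 n17 (.cons 759 n200 .nil)
noncomputable def n4370 : Strat := .move 880 n984 (.cons 879 n324 .nil)
noncomputable def n4371 : Strat := .move 800 n17 (.cons 759 n4370 .nil)
noncomputable def n4372 : Strat := .move 880 n984 (.cons 879 n1539 .nil)
noncomputable def n4373 : Strat := .move 800 n17 (.cons 759 n4372 .nil)
noncomputable def n4374 : Strat := .move 881 n4369 (.cons 959 n4371 (.cons 800 n200 (.cons 919 n4373 .nil)))
noncomputable def n4375 : Strat := .move 880 n180 (.cons 924 n184 .nil)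
noncomputable def n4376 : Strat := .move 879 n198 (.cons 878 n4375 .nil)
noncomputable def n4377 : Strat := .move 800 n218 (.cons 963 n17 .nil)
noncomputable def n4378 : Strat := .move 880 n130 (.cons 842 n180 .nil)
noncomputable def n4379 : Strat := .move 841 n4377 (.cons 759 n4378 .nil)
noncomputable def n4380 : Strat := .move 879 n198 (.cons 878 n4379 .nil)
noncomputable def n4381 : Strat := .move 880 n324 (.cons 882 n1539 .nil)
noncomputable def n4382 : Strat := .move 800 n17 (.cons 759 n4381 .nil)
noncomputable def n4383 : Strat := .move 919 n199 (.cons 882 n3961 .nil)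
noncomputable def n4384 : Strat := .move 878 n3960 (.cons 879 n4383 .nil)
noncomputable def n4385 : Strat := .move 800 n17 (.cons 759 n4384 .nil)
noncomputable def n4386 : Strat := .move 881 n4376 (.cons 918 n4380 (.cons 879 n4382 (.cons 880 n4385 .nil)))
noncomputable def n4387 : Strat := .move 920 n4355 (.cons 924 n4360 (.cons 879 n4365 (.cons 961 n4368 (.cons 878 n4374 (.cons 960 n4386 .nil)))))
noncomputable def n4388 : Strat := .move 923 n4337 (.cons 966 n4340 (.cons 920 n4345 (.cons 965 n4349 (.cons 963 n4352 (.cons 881 n4358 (.cons 964 n4387 .nil))))))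
noncomputable def n4389 : Strat := .move 881 n27 (.cons 962 n41 .nil)
noncomputable def n4390 : Strat := .move 962 n4155 (.cons 880 n4245 .nil)
noncomputable def n4391 : Strat := .move 925 n4138 (.cons 963 n4137 .nil)
noncomputable def n4392 : Strat := .move 924 n4139 (.cons 961 n4391 .nil)
noncomputable def n4393 : Strat := .move 962 n4155 (.cons 880 n4392 .nil)
noncomputable def n4394 : Strat := .move 879 n198 (.cons 878 n4300 .nil)
noncomputable def n4395 : Strat := .move 841 n130 (.cons 842 n4117 .nil)
noncomputable def n4396 : Strat := .move 964 n3957 (.cons 965 n4395 .nil)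
noncomputable def n4397 : Strat := .move 879 n198 (.cons 878 n4396 .nil)
noncomputable def n4398 : Strat := .move 920 n4394 (.cons 879 n4357 (.cons 960 n4397 .nil))
noncomputable def n4399 : Strat := .move 880 n884 (.cons 962 n4398 .nil)
noncomputable def n4400 : Strat := .win 877 0 877
noncomputable def n4401 : Strat := .move 878 n4298 (.cons 920 n4400 .nil)
noncomputable def n4402 : Strat := .move 879 n180 (.cons 924 n4401 .nil)
noncomputable def n4403 : Strat := .move 880 n884 (.cons 962 n4402 .nil)
noncomputable def n4404 : Strat := .move 924 n4107 (.cons 962 n4106 .nil)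
noncomputable def n4405 : Strat := .move 878 n3960 (.cons 879 n4404 .nil)
noncomputable def n4406 : Strat := .move 961 n190 (.cons 960 n4405 .nil)
noncomputable def n4407 : Strat := .win 963 0 918
noncomputable def n4408 : Strat := .win 917 0 917
noncomputable def n4409 : Strat := .move 918 n4407 (.cons 963 n4408 .nil)
noncomputable def n4410 : Strat := .move 919 n4103 (.cons 879 n4409 .nil)
noncomputable def n4411 : Strat := .move 962 n4241 (.cons 924 n4410 .nil)
noncomputable def n4412 : Strat := .move 961 n190 (.cons 960 n4411 .nil)
noncomputable def n4413 : Strat := .move 920 n4353 (.cons 963 n4406 (.cons 965 n4412 (.cons 879 n4357 .nil)))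
noncomputable def n4414 : Strat := .move 923 n4390 (.cons 962 n4358 (.cons 920 n4393 (.cons 924 n4399 (.cons 961 n4403 (.cons 880 n4413 .nil)))))
noncomputable def n4415 : Strat := .move 921 n4332 (.cons 962 n4388 (.cons 880 n4389 (.cons 881 n4414 .nil)))
noncomputable def n4416 : Strat := .move 879 n2512 (.cons 841 n3453 .nil)
noncomputable def n4417 : Strat := .move 796 n1462 (.cons 795 n4416 .nil)
noncomputable def n4418 : Strat := .move 878 n597 (.cons 877 n4417 .nil)
noncomputable def n4419 : Strat := .move 837 n827 (.cons 800 n4418 .nil)
noncomputable def n4420 : Strat := .move 836 n3738 (.cons 880 n3169 .nil)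
noncomputable def n4421 : Strat := .move 881 n398 (.cons 882 n4420 .nil)
noncomputable def n4422 : Strat := .win 923 0 878
noncomputable def n4423 : Strat := .move 880 n4422 (.cons 923 n399 .nil)
noncomputable def n4424 : Strat := .move 881 n398 (.cons 882 n4423 .nil)
noncomputable def n4425 : Strat := .move 879 n2512 (.cons 841 n4424 .nil)
noncomputable def n4426 : Strat := .move 878 n597 (.cons 877 n4425 .nil)
noncomputable def n4427 : Strat := .move 837 n4418 (.cons 841 n4421 (.cons 795 n4426 .nil))
noncomputable def n4428 : Strat := .move 841 n4191 (.cons 801 n3152 .nil)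
noncomputable def n4429 : Strat := .move 837 n827 (.cons 800 n4421 .nil)
noncomputable def n4430 : Strat := .move 838 n4419 (.cons 878 n3233 (.cons 800 n4427 (.cons 837 n4428 (.cons 841 n4429 .nil))))
noncomputable def n4431 : Strat := .move 838 n315 (.cons 837 n590 .nil)
noncomputable def n4432 : Strat := .move 841 n218 (.cons 963 n4431 .nil)
noncomputable def n4433 : Strat := .move 800 n17 (.cons 759 n4432 .nil)
noncomputable def n4434 : Strat := .move 881 n41 (.cons 800 n215 (.cons 1005 n4433 (.cons 963 n4023 .nil)))
noncomputable def n4435 : Strat := .win 879 0 878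
noncomputable def n4436 : Strat := .move 923 n4435 (.cons 879 n42 .nil)
noncomputable def n4437 : Strat := .move 878 n597 (.cons 877 n4436 .nil)
noncomputable def n4438 : Strat := .move 921 n27 (.cons 962 n4437 .nil)
noncomputable def n4439 : Strat := .move 880 n399 (.cons 836 n4438 .nil)
noncomputable def n4440 : Strat := .move 881 n398 (.cons 882 n4439 .nil)
noncomputable def n4441 : Strat := .move 837 n827 (.cons 800 n4440 .nil)
noncomputable def n4442 : Strat := .move 837 n398 (.cons 882 n4439 .nil)
noncomputable def n4443 : Strat := .move 964 n36 (.cons 1005 n35 .nil)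
noncomputable def n4444 : Strat := .move 963 n23 (.cons 1003 n4443 .nil)
noncomputable def n4445 : Strat := .move 837 n398 (.cons 882 n4444 .nil)
noncomputable def n4446 : Strat := .move 795 n3168 (.cons 794 n3167 .nil)
noncomputable def n4447 : Strat := .move 836 n3738 (.cons 880 n4446 .nil)
noncomputable def n4448 : Strat := .move 837 n398 (.cons 882 n4447 .nil)
noncomputable def n4449 : Strat := .move 962 n4445 (.cons 964 n4448 (.cons 882 n274 .nil))
noncomputable def n4450 : Strat := .move 963 n1419 (.cons 1004 n23 .nil)
noncomputable def n4451 : Strat := .move 962 n22 (.cons 921 n4450 .nil)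
noncomputable def n4452 : Strat := .move 880 n399 (.cons 836 n4451 .nil)
noncomputable def n4453 : Strat := .move 837 n398 (.cons 882 n4452 .nil)
noncomputable def n4454 : Strat := .move 837 n398 (.cons 882 n4420 .nil)
noncomputable def n4455 : Strat := .move 881 n4442 (.cons 921 n4449 (.cons 882 n275 (.cons 964 n4453 (.cons 962 n4454 .nil))))
noncomputable def n4456 : Strat := .win 756 3 755
noncomputable def n4457 : Strat := .move 797 n4456 (.cons 756 n866 .nil)
noncomputable def n4458 : Strat := .win 797 3 755
noncomputable def n4459 : Strat := .move 756 n4458 (.cons 797 n2391 .nil)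
noncomputable def n4460 : Strat := .move 755 n4459 (.cons 715 n3365 .nil)
noncomputable def n4461 : Strat := .win 797 3 796
noncomputable def n4462 : Strat := .win 1000 1 836
noncomputable def n4463 : Strat := .win 918 1 795
noncomputable def n4464 : Strat := .move 959 n4462 (.cons 1000 n4463 .nil)
noncomputable def n4465 : Strat := .move 960 n4461 (.cons 797 n4464 .nil)
noncomputable def n4466 : Strat := .win 1002 6 837
noncomputable def n4467 : Strat := .win 920 6 796
noncomputable def n4468 : Strat := .move 961 n4466 (.cons 1002 n4467 .nil)
noncomputable def n4469 : Strat := .move 960 n4464 (.cons 918 n4468 .nil)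
noncomputable def n4470 : Strat := .move 919 n4457 (.cons 960 n4460 (.cons 756 n4465 (.cons 797 n4469 .nil)))
noncomputable def n4471 : Strat := .move 796 n1462 (.cons 795 n4470 .nil)
noncomputable def n4472 : Strat := .move 878 n597 (.cons 877 n4471 .nil)
noncomputable def n4473 : Strat := .move 837 n827 (.cons 800 n4472 .nil)
noncomputable def n4474 : Strat := .move 881 n398 (.cons 882 n4452 .nil)
noncomputable def n4475 : Strat := .move 837 n827 (.cons 800 n4474 .nil)
noncomputable def n4476 : Strat := .win 918 0 918
noncomputable def n4477 : Strat := .move 919 n3951 (.cons 964 n4476 .nil)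
noncomputable def n4478 : Strat := .win 965 2 920
noncomputable def n4479 : Strat := .win 919 0 919
noncomputable def n4480 : Strat := .move 964 n4478 (.cons 965 n4479 .nil)
noncomputable def n4481 : Strat := .win 797 6 797
noncomputable def n4482 : Strat := .win 1044 7 879
noncomputable def n4483 : Strat := .win 961 6 838
noncomputable def n4484 : Strat := .move 1003 n4482 (.cons 1044 n4483 .nil)
noncomputable def n4485 : Strat := .move 879 n4481 (.cons 797 n4484 .nil)
noncomputable def n4486 : Strat := .move 963 n4477 (.cons 918 n4480 (.cons 964 n4485 .nil))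
noncomputable def n4487 : Strat := .move 879 n4484 (.cons 961 n3948 .nil)
noncomputable def n4488 : Strat := .move 879 n4481 (.cons 797 n3948 .nil)
noncomputable def n4489 : Strat := .move 963 n3951 (.cons 964 n4476 .nil)
noncomputable def n4490 : Strat := .move 961 n190 (.cons 960 n4241 .nil)
noncomputable def n4491 : Strat := .move 923 n3959 (.cons 963 n4490 .nil)
noncomputable def n4492 : Strat := .move 918 n4407 (.cons 963 n3955 .nil)
noncomputable def n4493 : Strat := .move 919 n4489 (.cons 918 n4491 (.cons 964 n4492 (.cons 963 n3968 .nil)))
noncomputable def n4494 : Strat := .move 920 n4486 (.cons 919 n4485 (.cons 797 n4487 (.cons 1003 n4488 (.cons 879 n4493 .nil))))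
noncomputable def n4495 : Strat := .move 962 n4194 (.cons 881 n4494 .nil)
noncomputable def n4496 : Strat := .move 962 n4155 (.cons 880 n4494 .nil)
noncomputable def n4497 : Strat := .move 964 n3958 (.cons 963 n35 .nil)
noncomputable def n4498 : Strat := .move 881 n199 (.cons 882 n4497 .nil)
noncomputable def n4499 : Strat := .win 797 1 796
noncomputable def n4500 : Strat := .move 878 n3944 (.cons 923 n3961 .nil)
noncomputable def n4501 : Strat := .move 879 n4499 (.cons 797 n4500 .nil)
noncomputable def n4502 : Strat := .move 960 n185 (.cons 959 n4501 .nil)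
noncomputable def n4503 : Strat := .move 918 n4361 (.cons 880 n3955 .nil)
noncomputable def n4504 : Strat := .move 881 n199 (.cons 882 n4503 .nil)
noncomputable def n4505 : Strat := .move 919 n4498 (.cons 882 n4502 (.cons 923 n4504 .nil))
noncomputable def n4506 : Strat := .move 919 n3958 (.cons 963 n3962 .nil)
noncomputable def n4507 : Strat := .move 964 n3957 (.cons 965 n4506 .nil)
noncomputable def n4508 : Strat := .move 919 n3958 (.cons 963 n3970 .nil)
noncomputable def n4509 : Strat := .move 964 n3957 (.cons 965 n4508 .nil)
noncomputable def n4510 : Strat := .move 919 n4499 (.cons 797 n185 .nil)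
noncomputable def n4511 : Strat := .move 960 n186 (.cons 961 n4510 .nil)
noncomputable def n4512 : Strat := .move 879 n198 (.cons 878 n4511 .nil)
noncomputable def n4513 : Strat := .move 923 n4507 (.cons 879 n4509 (.cons 964 n4512 (.cons 919 n4355 .nil)))
noncomputable def n4514 : Strat := .move 797 n912 (.cons 960 n867 .nil)
noncomputable def n4515 : Strat := .move 879 n3944 (.cons 923 n4514 .nil)
noncomputable def n4516 : Strat := .move 919 n3961 (.cons 877 n4515 .nil)
noncomputable def n4517 : Strat := .move 879 n3944 (.cons 923 n3947 .nil)
noncomputable def n4518 : Strat := .move 964 n3957 (.cons 965 n4333 .nil)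
noncomputable def n4519 : Strat := .move 923 n3960 (.cons 879 n4518 .nil)
noncomputable def n4520 : Strat := .move 919 n3961 (.cons 877 n4498 .nil)
noncomputable def n4521 : Strat := .move 879 n3097 (.cons 1001 n4499 .nil)
noncomputable def n4522 : Strat := .move 960 n185 (.cons 959 n4521 .nil)
noncomputable def n4523 : Strat := .move 919 n3961 (.cons 877 n4522 .nil)
noncomputable def n4524 : Strat := .move 878 n4516 (.cons 797 n4517 (.cons 919 n4519 (.cons 879 n4520 (.cons 923 n4523 .nil))))
noncomputable def n4525 : Strat := .move 964 n3958 (.cons 963 n4333 .nil)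
noncomputable def n4526 : Strat := .move 923 n3960 (.cons 879 n4525 .nil)
noncomputable def n4527 : Strat := .move 878 n3961 (.cons 877 n4526 .nil)
noncomputable def n4528 : Strat := .move 923 n3960 (.cons 879 n3959 .nil)
noncomputable def n4529 : Strat := .move 878 n3961 (.cons 877 n4528 .nil)
noncomputable def n4530 : Strat := .move 923 n186 (.cons 961 n3960 .nil)
noncomputable def n4531 : Strat := .move 960 n185 (.cons 959 n4530 .nil)
noncomputable def n4532 : Strat := .move 878 n3961 (.cons 877 n4531 .nil)
noncomputable def n4533 : Strat := .move 919 n4498 (.cons 882 n4527 (.cons 881 n4529 (.cons 964 n4532 (.cons 923 n4504 .nil))))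
noncomputable def n4534 : Strat := .move 964 n4333 (.cons 881 n3957 .nil)
noncomputable def n4535 : Strat := .move 923 n4534 (.cons 881 n4355 .nil)
noncomputable def n4536 : Strat := .move 878 n3961 (.cons 877 n4522 .nil)
noncomputable def n4537 : Strat := .move 880 n1419 (.cons 1004 n182 .nil)
noncomputable def n4538 : Strat := .move 963 n3951 (.cons 964 n4537 .nil)
noncomputable def n4539 : Strat := .move 881 n199 (.cons 882 n4538 .nil)
noncomputable def n4540 : Strat := .move 919 n4504 (.cons 880 n4536 (.cons 877 n4539 .nil))
noncomputable def n4541 : Strat := .move 923 n3970 (.cons 959 n4363 .nil)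
noncomputable def n4542 : Strat := .move 918 n3964 (.cons 958 n3953 .nil)
noncomputable def n4543 : Strat := .move 877 n3954 (.cons 878 n4542 .nil)
noncomputable def n4544 : Strat := .move 959 n3965 (.cons 960 n4543 .nil)
noncomputable def n4545 : Strat := .move 919 n4498 (.cons 964 n4541 (.cons 881 n4544 .nil))
noncomputable def n4546 : Strat := .win 923 4 919
noncomputable def n4547 : Strat := .move 961 n2957 (.cons 1001 n4546 .nil)
noncomputable def n4548 : Strat := .move 879 n4499 (.cons 797 n4547 .nil)
noncomputable def n4549 : Strat := .move 960 n185 (.cons 959 n4548 .nil)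
noncomputable def n4550 : Strat := .move 918 n4361 (.cons 880 n3966 .nil)
noncomputable def n4551 : Strat := .move 881 n199 (.cons 882 n4550 .nil)
noncomputable def n4552 : Strat := .move 919 n4498 (.cons 882 n4549 (.cons 923 n4551 .nil))
noncomputable def n4553 : Strat := .move 919 n4498 (.cons 964 n4504 (.cons 882 n4527 (.cons 881 n4529 .nil)))
noncomputable def n4554 : Strat := .move 923 n186 (.cons 961 n198 .nil)
noncomputable def n4555 : Strat := .move 879 n4499 (.cons 797 n4554 .nil)
noncomputable def n4556 : Strat := .move 960 n185 (.cons 959 n4555 .nil)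
noncomputable def n4557 : Strat := .move 919 n4502 (.cons 960 n4504 (.cons 877 n4556 (.cons 878 n4549 .nil)))
noncomputable def n4558 : Strat := .move 920 n4505 (.cons 881 n4513 (.cons 880 n4524 (.cons 797 n4533 (.cons 919 n4535 (.cons 923 n4540 (.cons 879 n4545 (.cons 878 n4552 (.cons 960 n4553 (.cons 964 n4557 .nil)))))))))
noncomputable def n4559 : Strat := .move 921 n4332 (.cons 880 n4495 (.cons 881 n4496 (.cons 962 n4558 .nil)))
noncomputable def n4560 : Strat := .move 838 n4441 (.cons 800 n4455 (.cons 881 n4473 (.cons 879 n4475 (.cons 837 n4559 .nil))))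
noncomputable def n4561 : Strat := .move 881 n17 (.cons 759 n64 .nil)
noncomputable def n4562 : Strat := .move 1004 n1435 (.cons 880 n345 .nil)
noncomputable def n4563 : Strat := .move 963 n23 (.cons 1003 n4562 .nil)
noncomputable def n4564 : Strat := .move 962 n22 (.cons 921 n4563 .nil)
noncomputable def n4565 : Strat := .move 881 n17 (.cons 759 n4564 .nil)
noncomputable def n4566 : Strat := .move 800 n4561 (.cons 963 n2894 (.cons 841 n4565 .nil))
noncomputable def n4567 : Strat := .move 879 n4422 (.cons 923 n2512 .nil)
noncomputable def n4568 : Strat := .move 880 n399 (.cons 836 n4567 .nil)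
noncomputable def n4569 : Strat := .move 878 n597 (.cons 877 n4568 .nil)
noncomputable def n4570 : Strat := .move 881 n398 (.cons 882 n4569 .nil)
noncomputable def n4571 : Strat := .move 837 n827 (.cons 800 n4570 .nil)
noncomputable def n4572 : Strat := .move 837 n4570 (.cons 881 n4418 (.cons 841 n4421 .nil))
noncomputable def n4573 : Strat := .move 878 n2512 (.cons 841 n4400 .nil)
noncomputable def n4574 : Strat := .move 841 n1040 (.cons 878 n130 .nil)
noncomputable def n4575 : Strat := .move 841 n130 (.cons 842 n397 .nil)
noncomputable def n4576 : Strat := .move 797 n378 (.cons 756 n4575 .nil)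
noncomputable def n4577 : Strat := .move 923 n4298 (.cons 920 n180 .nil)
noncomputable def n4578 : Strat := .move 878 n4400 (.cons 877 n4577 .nil)
noncomputable def n4579 : Strat := .move 879 n4573 (.cons 877 n4574 (.cons 878 n4576 (.cons 841 n4578 .nil)))
noncomputable def n4580 : Strat := .move 880 n884 (.cons 962 n4579 .nil)
noncomputable def n4581 : Strat := .move 800 n17 (.cons 759 n2893 .nil)
noncomputable def n4582 : Strat := .move 881 n27 (.cons 962 n4581 .nil)
noncomputable def n4583 : Strat := .move 880 n130 (.cons 842 n885 .nil)
noncomputable def n4584 : Strat := .move 800 n590 (.cons 801 n4583 .nil)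
noncomputable def n4585 : Strat := .move 841 n1040 (.cons 878 n4584 .nil)
noncomputable def n4586 : Strat := .move 841 n1040 (.cons 878 n4583 .nil)
noncomputable def n4587 : Strat := .move 881 n42 (.cons 964 n17 .nil)
noncomputable def n4588 : Strat := .move 923 n4587 (.cons 759 n4378 .nil)
noncomputable def n4589 : Strat := .move 800 n590 (.cons 801 n4588 .nil)
noncomputable def n4590 : Strat := .move 841 n1040 (.cons 878 n4589 .nil)
noncomputable def n4591 : Strat := .move 877 n3946 (.cons 919 n3945 .nil)
noncomputable def n4592 : Strat := .move 920 n3944 (.cons 923 n4591 .nil)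
noncomputable def n4593 : Strat := .move 878 n2512 (.cons 841 n4592 .nil)
noncomputable def n4594 : Strat := .win 880 0 877
noncomputable def n4595 : Strat := .move 877 n4594 (.cons 880 n3205 .nil)
noncomputable def n4596 : Strat := .move 923 n180 (.cons 924 n4298 .nil)
noncomputable def n4597 : Strat := .move 880 n4400 (.cons 877 n4596 .nil)
noncomputable def n4598 : Strat := .win 881 0 878
noncomputable def n4599 : Strat := .move 880 n4598 (.cons 881 n180 .nil)
noncomputable def n4600 : Strat := .move 923 n4298 (.cons 920 n4599 .nil)
noncomputable def n4601 : Strat := .move 878 n4595 (.cons 880 n4592 (.cons 876 n4597 (.cons 877 n4600 .nil)))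
noncomputable def n4602 : Strat := .move 964 n4117 (.cons 882 n4333 .nil)
noncomputable def n4603 : Strat := .move 841 n130 (.cons 842 n4602 .nil)
noncomputable def n4604 : Strat := .move 923 n180 (.cons 924 n4603 .nil)
noncomputable def n4605 : Strat := .move 961 n190 (.cons 960 n908 .nil)
noncomputable def n4606 : Strat := .move 920 n4518 (.cons 881 n4605 .nil)
noncomputable def n4607 : Strat := .move 923 n180 (.cons 924 n4606 .nil)
noncomputable def n4608 : Strat := .move 880 n4576 (.cons 796 n4604 (.cons 841 n4607 .nil))
noncomputable def n4609 : Strat := .move 879 n4585 (.cons 800 n4586 (.cons 756 n4590 (.cons 880 n4593 (.cons 841 n4601 (.cons 878 n4608 .nil)))))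
noncomputable def n4610 : Strat := .move 921 n4332 (.cons 881 n4580 (.cons 880 n4582 (.cons 962 n4609 .nil)))
noncomputable def n4611 : Strat := .move 838 n4571 (.cons 800 n4572 (.cons 881 n4419 (.cons 841 n4429 (.cons 837 n4610 .nil))))
noncomputable def n4612 : Strat := .move 837 n597 (.cons 877 n4417 .nil)
noncomputable def n4613 : Strat := .move 879 n2512 (.cons 841 n3207 .nil)
noncomputable def n4614 : Strat := .move 837 n597 (.cons 877 n4471 .nil)
noncomputable def n4615 : Strat := .win 837 1 714
noncomputable def n4616 : Strat := .move 715 n1380 (.cons 880 n4615 .nil)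
noncomputable def n4617 : Strat := .move 756 n2513 (.cons 919 n4616 .nil)
noncomputable def n4618 : Strat := .move 960 n3098 (.cons 920 n3097 .nil)
noncomputable def n4619 : Strat := .move 919 n867 (.cons 756 n4618 .nil)
noncomputable def n4620 : Strat := .move 921 n377 (.cons 962 n3944 .nil)
noncomputable def n4621 : Strat := .win 794 0 794
noncomputable def n4622 : Strat := .win 837 2 795
noncomputable def n4623 : Strat := .move 795 n4621 (.cons 794 n4622 .nil)
noncomputable def n4624 : Strat := .move 796 n447 (.cons 755 n4623 .nil)
noncomputable def n4625 : Strat := .move 920 n4620 (.cons 923 n4624 .nil)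
noncomputable def n4626 : Strat := .move 797 n4617 (.cons 715 n4619 (.cons 756 n4625 .nil))
noncomputable def n4627 : Strat := .move 879 n2512 (.cons 841 n4626 .nil)
noncomputable def n4628 : Strat := .move 919 n4456 (.cons 756 n866 .nil)
noncomputable def n4629 : Strat := .move 797 n3845 (.cons 841 n4628 .nil)
noncomputable def n4630 : Strat := .move 796 n1462 (.cons 795 n4629 .nil)
noncomputable def n4631 : Strat := .move 837 n597 (.cons 877 n4630 .nil)
noncomputable def n4632 : Strat := .move 878 n4612 (.cons 837 n4613 (.cons 841 n4614 (.cons 877 n4627 (.cons 879 n4631 .nil))))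
noncomputable def n4633 : Strat := .move 841 n1040 (.cons 878 n3260 .nil)
noncomputable def n4634 : Strat := .move 841 n397 (.cons 796 n3312 .nil)
noncomputable def n4635 : Strat := .move 842 n387 (.cons 802 n2609 .nil)
noncomputable def n4636 : Strat := .move 801 n403 (.cons 800 n4635 .nil)
noncomputable def n4637 : Strat := .move 841 n397 (.cons 796 n4636 .nil)
noncomputable def n4638 : Strat := .move 920 n447 (.cons 755 n2963 .nil)
noncomputable def n4639 : Strat := .move 796 n3845 (.cons 841 n4638 .nil)
noncomputable def n4640 : Strat := .move 880 n884 (.cons 962 n378 .nil)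
noncomputable def n4641 : Strat := .win 920 6 797
noncomputable def n4642 : Strat := .move 962 n4155 (.cons 880 n4641 .nil)
noncomputable def n4643 : Strat := .move 961 n4546 (.cons 923 n2957 .nil)
noncomputable def n4644 : Strat := .move 960 n2958 (.cons 919 n4643 .nil)
noncomputable def n4645 : Strat := .move 920 n377 (.cons 962 n4644 .nil)
noncomputable def n4646 : Strat := .move 716 n2262 (.cons 675 n2519 .nil)
noncomputable def n4647 : Strat := .move 714 n2261 (.cons 673 n3396 .nil)
noncomputable def n4648 : Strat := .move 715 n4646 (.cons 757 n4647 .nil)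
noncomputable def n4649 : Strat := .move 756 n2526 (.cons 880 n4648 .nil)
noncomputable def n4650 : Strat := .move 921 n4640 (.cons 756 n4642 (.cons 880 n4645 (.cons 962 n4649 .nil)))
noncomputable def n4651 : Strat := .move 797 n4634 (.cons 921 n4637 (.cons 880 n4639 (.cons 841 n4650 .nil)))
noncomputable def n4652 : Strat := .move 921 n3944 (.cons 923 n4591 .nil)
noncomputable def n4653 : Strat := .move 878 n2512 (.cons 841 n4652 .nil)
noncomputable def n4654 : Strat := .move 919 n3961 (.cons 877 n912 .nil)
noncomputable def n4655 : Strat := .move 878 n3944 (.cons 923 n4654 .nil)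
noncomputable def n4656 : Strat := .move 797 n377 (.cons 962 n4655 .nil)
noncomputable def n4657 : Strat := .move 962 n4484 (.cons 961 n3948 .nil)
noncomputable def n4658 : Strat := .move 878 n867 (.cons 756 n3961 .nil)
noncomputable def n4659 : Strat := .move 919 n912 (.cons 960 n4658 .nil)
noncomputable def n4660 : Strat := .move 797 n377 (.cons 962 n4659 .nil)
noncomputable def n4661 : Strat := .move 962 n4481 (.cons 797 n4484 .nil)
noncomputable def n4662 : Strat := .move 878 n3944 (.cons 923 n4661 .nil)
noncomputable def n4663 : Strat := .move 878 n3944 (.cons 923 n4591 .nil)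
noncomputable def n4664 : Strat := .move 921 n4656 (.cons 797 n4657 (.cons 923 n4660 (.cons 919 n4662 (.cons 878 n4661 (.cons 962 n4663 .nil)))))
noncomputable def n4665 : Strat := .move 797 n397 (.cons 796 n2963 .nil)
noncomputable def n4666 : Strat := .move 841 n1040 (.cons 878 n4665 .nil)
noncomputable def n4667 : Strat := .move 796 n447 (.cons 755 n3845 .nil)
noncomputable def n4668 : Strat := .move 921 n377 (.cons 962 n4667 .nil)
noncomputable def n4669 : Strat := .move 796 n447 (.cons 755 n2963 .nil)
noncomputable def n4670 : Strat := .move 961 n2957 (.cons 1001 n2962 .nil)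
noncomputable def n4671 : Strat := .move 960 n2958 (.cons 919 n4670 .nil)
noncomputable def n4672 : Strat := .move 796 n3845 (.cons 841 n447 .nil)
noncomputable def n4673 : Strat := .move 797 n4668 (.cons 841 n4669 (.cons 796 n4671 (.cons 921 n4672 .nil)))
noncomputable def n4674 : Strat := .move 921 n3944 (.cons 923 n4661 .nil)
noncomputable def n4675 : Strat := .move 878 n2512 (.cons 841 n4674 .nil)
noncomputable def n4676 : Strat := .move 841 n397 (.cons 796 n1040 .nil)
noncomputable def n4677 : Strat := .move 755 n2965 (.cons 714 n2964 .nil)
noncomputable def n4678 : Strat := .move 756 n2523 (.cons 878 n4677 .nil)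
noncomputable def n4679 : Strat := .move 919 n912 (.cons 960 n4678 .nil)
noncomputable def n4680 : Strat := .move 919 n867 (.cons 756 n912 .nil)
noncomputable def n4681 : Strat := .move 878 n2512 (.cons 841 n4680 .nil)
noncomputable def n4682 : Strat := .move 797 n4676 (.cons 841 n4679 (.cons 878 n4672 (.cons 796 n4681 .nil)))
noncomputable def n4683 : Strat := .move 920 n4653 (.cons 841 n4664 (.cons 877 n4666 (.cons 878 n4673 (.cons 919 n4675 (.cons 921 n4682 .nil)))))
noncomputable def n4684 : Strat := .move 962 n4155 (.cons 880 n4481 .nil)
noncomputable def n4685 : Strat := .move 877 n4594 (.cons 880 n3945 .nil)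
noncomputable def n4686 : Strat := .move 878 n3944 (.cons 923 n4685 .nil)
noncomputable def n4687 : Strat := .move 921 n4684 (.cons 962 n4686 (.cons 880 n4656 .nil))
noncomputable def n4688 : Strat := .move 921 n377 (.cons 962 n4659 .nil)
noncomputable def n4689 : Strat := .move 756 n2526 (.cons 880 n4677 .nil)
noncomputable def n4690 : Strat := .move 921 n377 (.cons 962 n4689 .nil)
noncomputable def n4691 : Strat := .move 961 n2960 (.cons 1003 n2959 .nil)
noncomputable def n4692 : Strat := .move 962 n2961 (.cons 921 n4691 .nil)
noncomputable def n4693 : Strat := .move 797 n3222 (.cons 880 n4688 (.cons 878 n4690 (.cons 921 n4679 (.cons 756 n4692 .nil))))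
noncomputable def n4694 : Strat := .win 880 3 838
noncomputable def n4695 : Strat := .win 1042 1 878
noncomputable def n4696 : Strat := .win 960 1 837
noncomputable def n4697 : Strat := .move 1001 n4695 (.cons 1042 n4696 .nil)
noncomputable def n4698 : Strat := .move 1002 n4694 (.cons 880 n4697 .nil)
noncomputable def n4699 : Strat := .win 1044 6 879
noncomputable def n4700 : Strat := .win 962 6 838
noncomputable def n4701 : Strat := .move 1003 n4699 (.cons 1044 n4700 .nil)
noncomputable def n4702 : Strat := .move 1002 n4694 (.cons 880 n4701 .nil)
noncomputable def n4703 : Strat := .move 961 n2959 (.cons 919 n4698 (.cons 1001 n4702 .nil))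
noncomputable def n4704 : Strat := .move 715 n1380 (.cons 880 n4646 .nil)
noncomputable def n4705 : Strat := .move 756 n4677 (.cons 796 n4704 .nil)
noncomputable def n4706 : Strat := .move 797 n4679 (.cons 756 n4703 (.cons 919 n4705 .nil))
noncomputable def n4707 : Strat := .move 878 n3944 (.cons 923 n4400 .nil)
noncomputable def n4708 : Strat := .move 880 n884 (.cons 962 n4707 .nil)
noncomputable def n4709 : Strat := .move 962 n4155 (.cons 880 n4484 .nil)
noncomputable def n4710 : Strat := .move 921 n4708 (.cons 880 n4657 (.cons 877 n4709 (.cons 962 n4686 .nil)))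
noncomputable def n4711 : Strat := .move 919 n185 (.cons 959 n4499 .nil)
noncomputable def n4712 : Strat := .move 960 n186 (.cons 961 n4711 .nil)
noncomputable def n4713 : Strat := .move 924 n4259 (.cons 880 n4106 .nil)
noncomputable def n4714 : Strat := .move 923 n4712 (.cons 960 n4713 .nil)
noncomputable def n4715 : Strat := .move 921 n4684 (.cons 962 n4714 (.cons 880 n4661 (.cons 797 n4709 .nil)))
noncomputable def n4716 : Strat := .move 923 n198 (.cons 878 n4354 .nil)
noncomputable def n4717 : Strat := .move 921 n4684 (.cons 880 n4662 (.cons 962 n4716 .nil))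
noncomputable def n4718 : Strat := .move 921 n4546 (.cons 923 n4711 .nil)
noncomputable def n4719 : Strat := .move 960 n2957 (.cons 1001 n4718 .nil)
noncomputable def n4720 : Strat := .move 797 n2959 (.cons 919 n878 .nil)
noncomputable def n4721 : Strat := .move 880 n908 (.cons 1002 n4720 .nil)
noncomputable def n4722 : Strat := .move 880 n908 (.cons 1002 n3305 .nil)
noncomputable def n4723 : Strat := .move 797 n867 (.cons 756 n912 .nil)
noncomputable def n4724 : Strat := .win 1043 7 878
noncomputable def n4725 : Strat := .move 1002 n4724 (.cons 1043 n4694 .nil)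
noncomputable def n4726 : Strat := .move 919 n4723 (.cons 960 n4725 .nil)
noncomputable def n4727 : Strat := .move 878 n3724 (.cons 876 n4722 (.cons 880 n4652 (.cons 877 n4726 .nil)))
noncomputable def n4728 : Strat := .win 1083 1 919
noncomputable def n4729 : Strat := .win 1001 1 878
noncomputable def n4730 : Strat := .move 1042 n4728 (.cons 1083 n4729 .nil)
noncomputable def n4731 : Strat := .win 1085 6 920
noncomputable def n4732 : Strat := .win 1003 6 879
noncomputable def n4733 : Strat := .move 1044 n4731 (.cons 1085 n4732 .nil)
noncomputable def n4734 : Strat := .move 1043 n4730 (.cons 1001 n4733 .nil)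
noncomputable def n4735 : Strat := .move 1002 n4694 (.cons 880 n4734 .nil)
noncomputable def n4736 : Strat := .move 961 n4719 (.cons 923 n4721 (.cons 921 n4698 (.cons 1001 n4727 (.cons 960 n4735 .nil))))
noncomputable def n4737 : Strat := .move 920 n4687 (.cons 880 n4664 (.cons 923 n4693 (.cons 921 n4706 (.cons 797 n4710 (.cons 878 n4715 (.cons 919 n4717 (.cons 962 n4736 .nil)))))))
noncomputable def n4738 : Strat := .move 879 n4633 (.cons 878 n4651 (.cons 842 n3208 (.cons 880 n4683 (.cons 841 n4737 .nil))))
noncomputable def n4739 : Strat := .move 838 n4419 (.cons 800 n4632 (.cons 841 n4473 (.cons 878 n3233 (.cons 837 n4738 .nil))))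
noncomputable def n4740 : Strat := .move 922 n4284 (.cons 800 n4319 (.cons 921 n4331 (.cons 838 n4415 (.cons 962 n4430 (.cons 880 n4434 (.cons 841 n4560 (.cons 923 n4566 (.cons 963 n4611 (.cons 881 n4739 .nil)))))))))
noncomputable def n4741 : Strat := .move 798 n639 (.cons 836 n2719 .nil)
noncomputable def n4742 : Strat := .move 797 n3845 (.cons 841 n4741 .nil)
noncomputable def n4743 : Strat := .move 796 n1462 (.cons 795 n4742 .nil)
noncomputable def n4744 : Strat := .move 837 n827 (.cons 800 n4743 .nil)
noncomputable def n4745 : Strat := .move 797 n3845 (.cons 841 n2724 .nil)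
noncomputable def n4746 : Strat := .move 878 n597 (.cons 877 n4745 .nil)
noncomputable def n4747 : Strat := .move 796 n1462 (.cons 795 n4746 .nil)
noncomputable def n4748 : Strat := .move 837 n4743 (.cons 796 n3166 (.cons 836 n4747 .nil))
noncomputable def n4749 : Strat := .move 798 n44 (.cons 842 n3761 .nil)
noncomputable def n4750 : Strat := .move 797 n397 (.cons 796 n4749 .nil)
noncomputable def n4751 : Strat := .move 841 n590 (.cons 801 n4750 .nil)
noncomputable def n4752 : Strat := .move 798 n44 (.cons 842 n3760 .nil)
noncomputable def n4753 : Strat := .move 797 n397 (.cons 796 n4752 .nil)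
noncomputable def n4754 : Strat := .move 841 n1040 (.cons 878 n4753 .nil)
noncomputable def n4755 : Strat := .move 798 n676 (.cons 841 n2539 .nil)
noncomputable def n4756 : Strat := .move 798 n2539 (.cons 920 n3758 .nil)
noncomputable def n4757 : Strat := .move 920 n447 (.cons 755 n910 .nil)
noncomputable def n4758 : Strat := .move 796 n1572 (.cons 795 n4757 .nil)
noncomputable def n4759 : Strat := .move 796 n636 (.cons 754 n1572 .nil)
noncomputable def n4760 : Strat := .move 755 n637 (.cons 756 n4759 .nil)
noncomputable def n4761 : Strat := .move 757 n890 (.cons 716 n4760 .nil)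
noncomputable def n4762 : Strat := .move 798 n2539 (.cons 757 n4758 (.cons 920 n4761 .nil))
noncomputable def n4763 : Strat := .move 798 n676 (.cons 841 n4761 (.cons 796 n3758 .nil))
noncomputable def n4764 : Strat := .move 798 n1572 (.cons 795 n4757 .nil)
noncomputable def n4765 : Strat := .move 796 n3845 (.cons 841 n4764 .nil)
noncomputable def n4766 : Strat := .move 797 n4755 (.cons 796 n4756 (.cons 841 n4762 (.cons 920 n4763 (.cons 757 n4765 (.cons 798 n4639 .nil)))))
noncomputable def n4767 : Strat := .move 841 n1040 (.cons 878 n218 .nil)
noncomputable def n4768 : Strat := .move 881 n17 (.cons 759 n4767 .nil)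
noncomputable def n4769 : Strat := .move 921 n4663 (.cons 878 n4661 .nil)
noncomputable def n4770 : Strat := .move 797 n4620 (.cons 923 n4680 .nil)
noncomputable def n4771 : Strat := .move 878 n2512 (.cons 841 n4770 .nil)
noncomputable def n4772 : Strat := .move 797 n4667 (.cons 841 n2963 .nil)
noncomputable def n4773 : Strat := .move 841 n1040 (.cons 878 n397 .nil)
noncomputable def n4774 : Strat := .move 756 n3220 (.cons 960 n4677 .nil)
noncomputable def n4775 : Strat := .move 797 n4773 (.cons 796 n4681 (.cons 878 n4667 (.cons 841 n4774 .nil)))
noncomputable def n4776 : Strat := .move 878 n3944 (.cons 923 n2512 .nil)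
noncomputable def n4777 : Strat := .move 921 n4776 (.cons 841 n4661 .nil)
noncomputable def n4778 : Strat := .move 920 n4653 (.cons 841 n4769 (.cons 876 n4771 (.cons 878 n4772 (.cons 921 n4775 (.cons 919 n4777 .nil)))))
noncomputable def n4779 : Strat := .move 962 n23 (.cons 1003 n22 .nil)
noncomputable def n4780 : Strat := .move 963 n18 (.cons 841 n4779 .nil)
noncomputable def n4781 : Strat := .move 881 n17 (.cons 759 n4780 .nil)
noncomputable def n4782 : Strat := .move 962 n22 (.cons 921 n4444 .nil)
noncomputable def n4783 : Strat := .move 881 n17 (.cons 759 n4782 .nil)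
noncomputable def n4784 : Strat := .move 922 n4768 (.cons 881 n4778 (.cons 878 n4781 (.cons 841 n4783 .nil)))
noncomputable def n4785 : Strat := .move 841 n1040 (.cons 878 n3239 .nil)
noncomputable def n4786 : Strat := .move 757 n559 (.cons 797 n890 .nil)
noncomputable def n4787 : Strat := .move 798 n910 (.cons 961 n4786 .nil)
noncomputable def n4788 : Strat := .move 922 n3946 (.cons 919 n3944 .nil)
noncomputable def n4789 : Strat := .move 877 n3945 (.cons 876 n4788 .nil)
noncomputable def n4790 : Strat := .move 922 n4194 (.cons 881 n3944 .nil)
noncomputable def n4791 : Strat := .move 962 n4481 (.cons 797 n4790 .nil)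
noncomputable def n4792 : Strat := .move 921 n4789 (.cons 877 n4791 (.cons 923 n4661 .nil))
noncomputable def n4793 : Strat := .move 1002 n4697 (.cons 960 n4701 .nil)
noncomputable def n4794 : Strat := .move 961 n907 (.cons 798 n4793 .nil)
noncomputable def n4795 : Strat := .move 919 n912 (.cons 960 n867 .nil)
noncomputable def n4796 : Strat := .move 797 n377 (.cons 962 n4795 .nil)
noncomputable def n4797 : Strat := .move 881 n27 (.cons 962 n17 .nil)
noncomputable def n4798 : Strat := .move 922 n3944 (.cons 923 n4797 .nil)
noncomputable def n4799 : Strat := .move 921 n4789 (.cons 877 n4796 (.cons 919 n4798 .nil))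
noncomputable def n4800 : Strat := .move 920 n4787 (.cons 798 n4792 (.cons 797 n4794 (.cons 961 n4799 .nil)))
noncomputable def n4801 : Strat := .move 878 n2512 (.cons 841 n4800 .nil)
noncomputable def n4802 : Strat := .move 757 n890 (.cons 716 n559 .nil)
noncomputable def n4803 : Strat := .move 798 n910 (.cons 961 n4802 .nil)
noncomputable def n4804 : Strat := .move 798 n450 (.cons 757 n3193 .nil)
noncomputable def n4805 : Strat := .move 756 n2508 (.cons 716 n3220 .nil)
noncomputable def n4806 : Strat := .move 757 n456 (.cons 798 n4805 .nil)
noncomputable def n4807 : Strat := .move 797 n4804 (.cons 798 n4679 (.cons 755 n4806 .nil))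
noncomputable def n4808 : Strat := .move 1002 n4695 (.cons 1042 n4701 .nil)
noncomputable def n4809 : Strat := .move 1001 n4696 (.cons 960 n4808 .nil)
noncomputable def n4810 : Strat := .move 961 n907 (.cons 798 n4809 .nil)
noncomputable def n4811 : Strat := .move 797 n377 (.cons 962 n4680 .nil)
noncomputable def n4812 : Strat := .move 922 n3944 (.cons 923 n4194 .nil)
noncomputable def n4813 : Strat := .move 962 n4481 (.cons 797 n4812 .nil)
noncomputable def n4814 : Strat := .move 878 n4789 (.cons 877 n4811 (.cons 919 n4813 .nil))
noncomputable def n4815 : Strat := .move 922 n4797 (.cons 759 n4663 .nil)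
noncomputable def n4816 : Strat := .move 960 n185 (.cons 959 n4499 .nil)
noncomputable def n4817 : Strat := .move 881 n199 (.cons 882 n17 .nil)
noncomputable def n4818 : Strat := .move 919 n4816 (.cons 797 n4817 .nil)
noncomputable def n4819 : Strat := .move 923 n198 (.cons 878 n4587 .nil)
noncomputable def n4820 : Strat := .move 922 n4663 (.cons 878 n4818 (.cons 919 n4819 .nil))
noncomputable def n4821 : Strat := .move 921 n4814 (.cons 919 n4661 (.cons 797 n4815 (.cons 962 n4820 .nil)))
noncomputable def n4822 : Strat := .move 920 n4803 (.cons 961 n4807 (.cons 797 n4810 (.cons 798 n4821 .nil)))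
noncomputable def n4823 : Strat := .move 881 n17 (.cons 759 n3978 .nil)
noncomputable def n4824 : Strat := .move 878 n2512 (.cons 841 n4591 .nil)
noncomputable def n4825 : Strat := .move 960 n4546 (.cons 923 n2957 .nil)
noncomputable def n4826 : Strat := .move 961 n907 (.cons 798 n4825 .nil)
noncomputable def n4827 : Strat := .move 921 n4776 (.cons 841 n4663 (.cons 923 n4824 (.cons 878 n4826 .nil)))
noncomputable def n4828 : Strat := .move 921 n3946 (.cons 919 n3944 .nil)
noncomputable def n4829 : Strat := .move 877 n3205 (.cons 876 n4828 .nil)
noncomputable def n4830 : Strat := .move 878 n2512 (.cons 841 n4829 .nil)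
noncomputable def n4831 : Strat := .move 920 n4827 (.cons 878 n4794 (.cons 1001 n4830 .nil))
noncomputable def n4832 : Strat := .move 922 n4823 (.cons 881 n4831 (.cons 798 n4768 .nil))
noncomputable def n4833 : Strat := .move 879 n4754 (.cons 878 n4766 (.cons 798 n4784 (.cons 920 n4785 (.cons 796 n4801 (.cons 841 n4822 (.cons 797 n4832 .nil))))))
noncomputable def n4834 : Strat := .move 800 n4751 (.cons 841 n2885 (.cons 798 n2893 (.cons 801 n4833 .nil)))
noncomputable def n4835 : Strat := .move 838 n4744 (.cons 800 n4748 (.cons 798 n3233 (.cons 841 n3228 (.cons 837 n4834 .nil))))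
noncomputable def n4836 : Strat := .move 839 n3160 (.cons 801 n3227 (.cons 921 n3250 (.cons 716 n3268 (.cons 843 n3317 (.cons 920 n3331 (.cons 755 n3343 (.cons 800 n3589 (.cons 878 n3650 (.cons 842 n3731 (.cons 796 n3773 (.cons 837 n3830 (.cons 756 n3862 (.cons 881 n3882 (.cons 841 n3977 (.cons 879 n4058 (.cons 838 n4170 (.cons 797 n4276 (.cons 798 n4740 (.cons 880 n4835 .nil)))))))))))))))))))
noncomputable def n4837 : Strat := .move 799 n127 (.cons 800 n217 (.cons 839 n281 (.cons 841 n357 (.cons 717 n541 (.cons 759 n614 (.cons 880 n757 (.cons 882 n787 (.cons 718 n928 (.cons 797 n1079 (.cons 921 n1361 (.cons 923 n1451 (.cons 716 n1760 (.cons 798 n1853 (.cons 922 n1928 (.cons 881 n2881 (.cons 757 n3128 (.cons 758 n4836 .nil)))))))))))))))))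

end Vale.Agent.Snaky.R2_1
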