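import Vale.Agent.Snaky.Assemble

namespace Vale.Agent.Snaky.R2_2

open Vale.Agent.Snaky

noncomputable def n0 : Strat := .win 675 7 675
noncomputable def n1 : Strat := .win 757 7 716
noncomputable def n2 : Strat := .win 677 3 676
noncomputable def n3 : Strat := .win 759 3 717
noncomputable def n4 : Strat := .move 718 n2 (.cons 677 n3 .nil)
noncomputable def n5 : Strat := .move 881 n1 (.cons 757 n4 .nil)
noncomputable def n6 : Strat := .move 716 n0 (.cons 675 n5 .nil)
noncomputable def n7 : Strat := .win 880 1 716
noncomputable def n8 : Strat := .win 798 1 675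
noncomputable def n9 : Strat := .win 882 6 717
noncomputable def n10 : Strat := .win 800 6 676
noncomputable def n11 : Strat := .move 841 n9 (.cons 882 n10 .nil)
noncomputable def n12 : Strat := .move 676 n8 (.cons 798 n11 .nil)
noncomputable def n13 : Strat := .move 839 n7 (.cons 880 n12 .nil)
noncomputable def n14 : Strat := .move 717 n6 (.cons 759 n13 .nil)
noncomputable def n15 : Strat := .win 716 7 716
noncomputable def n16 : Strat := .win 798 7 757
noncomputable def n17 : Strat := .win 718 3 717
noncomputable def n18 : Strat := .win 800 3 758
noncomputable def n19 : Strat := .move 759 n17 (.cons 718 n18 .nil)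
noncomputable def n20 : Strat := .move 922 n16 (.cons 798 n19 .nil)
noncomputable def n21 : Strat := .move 757 n15 (.cons 716 n20 .nil)
noncomputable def n22 : Strat := .win 921 1 757
noncomputable def n23 : Strat := .win 839 1 716
noncomputable def n24 : Strat := .move 716 n0 (.cons 675 n1 .nil)
noncomputable def n25 : Strat := .move 717 n23 (.cons 839 n24 .nil)
noncomputable def n26 : Strat := .move 880 n22 (.cons 921 n25 .nil)
noncomputable def n27 : Strat := .win 717 1 716
noncomputable def n28 : Strat := .win 923 6 758
noncomputable def n29 : Strat := .win 837 0 837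
noncomputable def n30 : Strat := .win 883 2 838
noncomputable def n31 : Strat := .move 838 n29 (.cons 837 n30 .nil)
noncomputable def n32 : Strat := .move 882 n28 (.cons 923 n31 .nil)
noncomputable def n33 : Strat := .move 839 n27 (.cons 717 n32 .nil)
noncomputable def n34 : Strat := .move 880 n22 (.cons 921 n33 .nil)
noncomputable def n35 : Strat := .move 881 n21 (.cons 800 n26 (.cons 716 n34 .nil))
noncomputable def n36 : Strat := .move 839 n7 (.cons 880 n8 .nil)
noncomputable def n37 : Strat := .move 676 n10 (.cons 800 n36 .nil)
noncomputable def n38 : Strat := .move 841 n9 (.cons 882 n37 .nil)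
noncomputable def n39 : Strat := .win 841 6 717
noncomputable def n40 : Strat := .move 882 n39 (.cons 841 n28 .nil)
noncomputable def n41 : Strat := .move 881 n3 (.cons 759 n40 .nil)
noncomputable def n42 : Strat := .move 718 n2 (.cons 677 n41 .nil)
noncomputable def n43 : Strat := .move 880 n23 (.cons 839 n22 .nil)
noncomputable def n44 : Strat := .move 881 n3 (.cons 759 n43 .nil)
noncomputable def n45 : Strat := .move 718 n2 (.cons 677 n44 .nil)
noncomputable def n46 : Strat := .move 717 n38 (.cons 798 n42 (.cons 841 n45 .nil))
noncomputable def n47 : Strat := .move 881 n1 (.cons 757 n40 .nil)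
noncomputable def n48 : Strat := .move 716 n0 (.cons 675 n47 .nil)
noncomputable def n49 : Strat := .win 716 7 675
noncomputable def n50 : Strat := .win 634 7 634
noncomputable def n51 : Strat := .move 675 n49 (.cons 716 n50 .nil)
noncomputable def n52 : Strat := .move 676 n8 (.cons 798 n51 .nil)
noncomputable def n53 : Strat := .move 839 n7 (.cons 880 n52 .nil)
noncomputable def n54 : Strat := .move 717 n13 (.cons 839 n48 (.cons 841 n53 .nil))
noncomputable def n55 : Strat := .move 676 n10 (.cons 800 n51 .nil)
noncomputable def n56 : Strat := .move 841 n9 (.cons 882 n55 .nil)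
noncomputable def n57 : Strat := .win 760 0 715
noncomputable def n58 : Strat := .win 714 0 714
noncomputable def n59 : Strat := .move 759 n57 (.cons 760 n58 .nil)
noncomputable def n60 : Strat := .win 719 4 715
noncomputable def n61 : Strat := .win 755 4 714
noncomputable def n62 : Strat := .move 756 n60 (.cons 719 n61 .nil)
noncomputable def n63 : Strat := .win 720 4 716
noncomputable def n64 : Strat := .win 756 4 715
noncomputable def n65 : Strat := .move 719 n63 (.cons 720 n64 .nil)
noncomputable def n66 : Strat := .win 798 7 674
noncomputable def n67 : Strat := .win 673 2 673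
noncomputable def n68 : Strat := .move 674 n66 (.cons 798 n67 .nil)
noncomputable def n69 : Strat := .move 757 n62 (.cons 755 n65 (.cons 719 n68 .nil))
noncomputable def n70 : Strat := .move 715 n59 (.cons 714 n69 .nil)
noncomputable def n71 : Strat := .move 839 n7 (.cons 880 n70 .nil)
noncomputable def n72 : Strat := .move 718 n2 (.cons 677 n71 .nil)
noncomputable def n73 : Strat := .move 716 n0 (.cons 675 n72 .nil)
noncomputable def n74 : Strat := .move 717 n13 (.cons 800 n53 (.cons 839 n56 (.cons 676 n73 .nil)))
noncomputable def n75 : Strat := .win 881 3 717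
noncomputable def n76 : Strat := .win 761 2 716
noncomputable def n77 : Strat := .win 715 0 715
noncomputable def n78 : Strat := .move 760 n76 (.cons 761 n77 .nil)
noncomputable def n79 : Strat := .move 759 n75 (.cons 881 n78 .nil)
noncomputable def n80 : Strat := .move 718 n2 (.cons 677 n79 .nil)
noncomputable def n81 : Strat := .move 716 n0 (.cons 675 n80 .nil)
noncomputable def n82 : Strat := .win 718 3 676
noncomputable def n83 : Strat := .win 636 3 635
noncomputable def n84 : Strat := .move 677 n82 (.cons 718 n83 .nil)
noncomputable def n85 : Strat := .move 676 n10 (.cons 800 n84 .nil)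
noncomputable def n86 : Strat := .move 841 n9 (.cons 882 n85 .nil)
noncomputable def n87 : Strat := .move 717 n81 (.cons 715 n56 (.cons 716 n86 .nil))
noncomputable def n88 : Strat := .win 881 7 716
noncomputable def n89 : Strat := .win 755 5 714
noncomputable def n90 : Strat := .move 756 n60 (.cons 719 n89 .nil)
noncomputable def n91 : Strat := .move 757 n88 (.cons 881 n90 .nil)
noncomputable def n92 : Strat := .move 718 n2 (.cons 677 n91 .nil)
noncomputable def n93 : Strat := .move 716 n0 (.cons 675 n92 .nil)
noncomputable def n94 : Strat := .move 676 n8 (.cons 798 n84 .nil)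
noncomputable def n95 : Strat := .move 839 n7 (.cons 880 n94 .nil)
noncomputable def n96 : Strat := .move 717 n93 (.cons 718 n53 (.cons 716 n95 .nil))
noncomputable def n97 : Strat := .win 880 1 757
noncomputable def n98 : Strat := .win 962 1 798
noncomputable def n99 : Strat := .move 921 n97 (.cons 880 n98 .nil)
noncomputable def n100 : Strat := .move 922 n16 (.cons 798 n99 .nil)
noncomputable def n101 : Strat := .move 757 n15 (.cons 716 n100 .nil)
noncomputable def n102 : Strat := .move 922 n18 (.cons 800 n99 .nil)
noncomputable def n103 : Strat := .move 759 n17 (.cons 718 n102 .nil)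
noncomputable def n104 : Strat := .win 801 0 756
noncomputable def n105 : Strat := .win 755 0 755
noncomputable def n106 : Strat := .move 800 n104 (.cons 801 n105 .nil)
noncomputable def n107 : Strat := .win 760 4 756
noncomputable def n108 : Strat := .win 796 4 755
noncomputable def n109 : Strat := .move 797 n107 (.cons 760 n108 .nil)
noncomputable def n110 : Strat := .win 761 4 757
noncomputable def n111 : Strat := .win 797 4 756
noncomputable def n112 : Strat := .move 760 n110 (.cons 761 n111 .nil)
noncomputable def n113 : Strat := .win 839 7 715
noncomputable def n114 : Strat := .win 714 2 714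
noncomputable def n115 : Strat := .move 715 n113 (.cons 839 n114 .nil)
noncomputable def n116 : Strat := .move 798 n109 (.cons 796 n112 (.cons 760 n115 .nil))
noncomputable def n117 : Strat := .move 756 n106 (.cons 755 n116 .nil)
noncomputable def n118 : Strat := .move 880 n22 (.cons 921 n117 .nil)
noncomputable def n119 : Strat := .move 759 n17 (.cons 718 n118 .nil)
noncomputable def n120 : Strat := .move 757 n15 (.cons 716 n119 .nil)
noncomputable def n121 : Strat := .move 881 n21 (.cons 759 n101 (.cons 798 n103 (.cons 922 n120 .nil)))
noncomputable def n122 : Strat := .move 758 n14 (.cons 676 n35 (.cons 757 n46 (.cons 759 n54 (.cons 881 n74 (.cons 880 n87 (.cons 882 n96 (.cons 717 n121 .nil)))))))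
noncomputable def n123 : Strat := .move 881 n3 (.cons 759 n1 .nil)
noncomputable def n124 : Strat := .move 716 n0 (.cons 675 n123 .nil)
noncomputable def n125 : Strat := .move 717 n2 (.cons 677 n124 .nil)
noncomputable def n126 : Strat := .win 676 1 675
noncomputable def n127 : Strat := .win 842 2 797
noncomputable def n128 : Strat := .win 796 0 796
noncomputable def n129 : Strat := .move 797 n127 (.cons 842 n128 .nil)
noncomputable def n130 : Strat := .move 841 n9 (.cons 882 n129 .nil)
noncomputable def n131 : Strat := .move 798 n126 (.cons 676 n130 .nil)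
noncomputable def n132 : Strat := .move 839 n7 (.cons 880 n131 .nil)
noncomputable def n133 : Strat := .move 716 n0 (.cons 675 n132 .nil)
noncomputable def n134 : Strat := .move 717 n2 (.cons 677 n133 .nil)
noncomputable def n135 : Strat := .move 717 n124 (.cons 881 n133 (.cons 716 n44 .nil))
noncomputable def n136 : Strat := .move 717 n2 (.cons 677 n44 .nil)
noncomputable def n137 : Strat := .win 964 6 799
noncomputable def n138 : Strat := .win 882 6 758
noncomputable def n139 : Strat := .move 923 n137 (.cons 964 n138 .nil)
noncomputable def n140 : Strat := .move 922 n16 (.cons 798 n139 .nil)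
noncomputable def n141 : Strat := .move 757 n15 (.cons 716 n140 .nil)
noncomputable def n142 : Strat := .move 880 n22 (.cons 921 n141 .nil)
noncomputable def n143 : Strat := .move 881 n3 (.cons 759 n142 .nil)
noncomputable def n144 : Strat := .move 718 n125 (.cons 881 n134 (.cons 677 n135 (.cons 716 n136 (.cons 717 n143 .nil))))
noncomputable def n145 : Strat := .move 797 n128 (.cons 796 n127 .nil)
noncomputable def n146 : Strat := .move 841 n9 (.cons 882 n145 .nil)
noncomputable def n147 : Strat := .move 798 n126 (.cons 676 n146 .nil)
noncomputable def n148 : Strat := .move 839 n7 (.cons 880 n147 .nil)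
noncomputable def n149 : Strat := .move 717 n95 (.cons 676 n45 (.cons 839 n42 (.cons 677 n148 .nil)))
noncomputable def n150 : Strat := .win 1003 1 839
noncomputable def n151 : Strat := .win 921 1 798
noncomputable def n152 : Strat := .move 962 n150 (.cons 1003 n151 .nil)
noncomputable def n153 : Strat := .win 1005 6 840
noncomputable def n154 : Strat := .win 923 6 799
noncomputable def n155 : Strat := .move 964 n153 (.cons 1005 n154 .nil)
noncomputable def n156 : Strat := .move 963 n152 (.cons 921 n155 .nil)
noncomputable def n157 : Strat := .move 717 n2 (.cons 677 n156 .nil)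
noncomputable def n158 : Strat := .move 718 n3 (.cons 759 n157 .nil)
noncomputable def n159 : Strat := .move 922 n16 (.cons 798 n158 .nil)
noncomputable def n160 : Strat := .move 757 n15 (.cons 716 n159 .nil)
noncomputable def n161 : Strat := .move 717 n23 (.cons 839 n4 .nil)
noncomputable def n162 : Strat := .move 880 n22 (.cons 921 n161 .nil)
noncomputable def n163 : Strat := .win 922 7 757
noncomputable def n164 : Strat := .win 796 5 755
noncomputable def n165 : Strat := .move 797 n107 (.cons 760 n164 .nil)
noncomputable def n166 : Strat := .move 759 n17 (.cons 718 n165 .nil)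
noncomputable def n167 : Strat := .move 798 n163 (.cons 922 n166 .nil)
noncomputable def n168 : Strat := .move 757 n15 (.cons 716 n167 .nil)
noncomputable def n169 : Strat := .move 881 n26 (.cons 880 n160 (.cons 757 n162 (.cons 717 n101 (.cons 921 n168 .nil))))
noncomputable def n170 : Strat := .move 881 n28 (.cons 923 n24 .nil)
noncomputable def n171 : Strat := .move 882 n39 (.cons 841 n170 .nil)
noncomputable def n172 : Strat := .move 760 n77 (.cons 715 n76 .nil)
noncomputable def n173 : Strat := .move 759 n75 (.cons 881 n172 .nil)
noncomputable def n174 : Strat := .move 716 n0 (.cons 675 n173 .nil)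
noncomputable def n175 : Strat := .move 718 n2 (.cons 677 n174 .nil)
noncomputable def n176 : Strat := .move 718 n2 (.cons 677 n132 .nil)
noncomputable def n177 : Strat := .move 716 n0 (.cons 675 n176 .nil)
noncomputable def n178 : Strat := .move 717 n171 (.cons 757 n175 (.cons 675 n42 (.cons 881 n177 .nil)))
noncomputable def n179 : Strat := .move 717 n39 (.cons 841 n24 .nil)
noncomputable def n180 : Strat := .move 882 n28 (.cons 923 n179 .nil)
noncomputable def n181 : Strat := .move 717 n23 (.cons 839 n40 .nil)
noncomputable def n182 : Strat := .move 880 n22 (.cons 921 n181 .nil)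
noncomputable def n183 : Strat := .move 881 n26 (.cons 717 n101 (.cons 921 n180 (.cons 757 n182 .nil)))
noncomputable def n184 : Strat := .move 717 n39 (.cons 841 n43 .nil)
noncomputable def n185 : Strat := .move 759 n17 (.cons 718 n112 .nil)
noncomputable def n186 : Strat := .move 798 n163 (.cons 922 n185 .nil)
noncomputable def n187 : Strat := .move 757 n15 (.cons 716 n186 .nil)
noncomputable def n188 : Strat := .move 880 n22 (.cons 921 n187 .nil)
noncomputable def n189 : Strat := .move 882 n184 (.cons 717 n188 (.cons 880 n179 .nil))
noncomputable def n190 : Strat := .move 839 n27 (.cons 717 n185 .nil)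
noncomputable def n191 : Strat := .move 880 n22 (.cons 921 n190 .nil)
noncomputable def n192 : Strat := .move 798 n163 (.cons 922 n191 .nil)
noncomputable def n193 : Strat := .move 757 n15 (.cons 716 n192 .nil)
noncomputable def n194 : Strat := .move 881 n189 (.cons 882 n193 (.cons 880 n168 (.cons 757 n162 (.cons 759 n26 .nil))))
noncomputable def n195 : Strat := .move 882 n28 (.cons 923 n188 .nil)
noncomputable def n196 : Strat := .win 842 5 838
noncomputable def n197 : Strat := .win 878 5 837
noncomputable def n198 : Strat := .move 841 n196 (.cons 842 n197 .nil)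
noncomputable def n199 : Strat := .win 839 2 838
noncomputable def n200 : Strat := .win 837 2 837
noncomputable def n201 : Strat := .move 838 n199 (.cons 839 n200 .nil)
noncomputable def n202 : Strat := .win 884 2 839
noncomputable def n203 : Strat := .win 838 2 838
noncomputable def n204 : Strat := .move 839 n202 (.cons 884 n203 .nil)
noncomputable def n205 : Strat := .win 843 5 839
noncomputable def n206 : Strat := .win 841 5 838
noncomputable def n207 : Strat := .move 842 n205 (.cons 843 n206 .nil)
noncomputable def n208 : Strat := .move 883 n201 (.cons 837 n204 (.cons 839 n207 .nil))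
noncomputable def n209 : Strat := .win 841 5 837
noncomputable def n210 : Strat := .win 836 2 836
noncomputable def n211 : Strat := .win 838 2 837
noncomputable def n212 : Strat := .move 837 n210 (.cons 836 n211 .nil)
noncomputable def n213 : Strat := .move 878 n209 (.cons 841 n212 .nil)
noncomputable def n214 : Strat := .win 918 4 877
noncomputable def n215 : Strat := .win 920 4 878
noncomputable def n216 : Strat := .move 919 n214 (.cons 918 n215 .nil)
noncomputable def n217 : Strat := .move 878 n212 (.cons 838 n216 .nil)
noncomputable def n218 : Strat := .move 879 n198 (.cons 878 n208 (.cons 842 n213 (.cons 841 n217 .nil)))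
noncomputable def n219 : Strat := .move 882 n28 (.cons 923 n218 .nil)
noncomputable def n220 : Strat := .move 880 n22 (.cons 921 n219 .nil)
noncomputable def n221 : Strat := .move 759 n17 (.cons 718 n220 .nil)
noncomputable def n222 : Strat := .move 923 n138 (.cons 882 n137 .nil)
noncomputable def n223 : Strat := .move 922 n16 (.cons 798 n222 .nil)
noncomputable def n224 : Strat := .move 757 n15 (.cons 716 n223 .nil)
noncomputable def n225 : Strat := .move 881 n195 (.cons 882 n101 (.cons 757 n221 (.cons 880 n224 .nil)))
noncomputable def n226 : Strat := .move 717 n39 (.cons 841 n4 .nil)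
noncomputable def n227 : Strat := .move 882 n28 (.cons 923 n226 .nil)
noncomputable def n228 : Strat := .move 881 n180 (.cons 882 n160 (.cons 923 n168 (.cons 716 n227 .nil)))
noncomputable def n229 : Strat := .move 717 n23 (.cons 839 n39 .nil)
noncomputable def n230 : Strat := .move 882 n28 (.cons 923 n229 .nil)
noncomputable def n231 : Strat := .move 880 n22 (.cons 921 n230 .nil)
noncomputable def n232 : Strat := .move 841 n197 (.cons 878 n196 .nil)
noncomputable def n233 : Strat := .move 878 n210 (.cons 836 n216 .nil)
noncomputable def n234 : Strat := .move 837 n211 (.cons 838 n233 .nil)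
noncomputable def n235 : Strat := .move 883 n205 (.cons 843 n199 .nil)
noncomputable def n236 : Strat := .move 838 n200 (.cons 837 n235 .nil)
noncomputable def n237 : Strat := .move 842 n206 (.cons 841 n236 .nil)
noncomputable def n238 : Strat := .move 879 n232 (.cons 842 n213 (.cons 841 n234 (.cons 878 n237 .nil)))
noncomputable def n239 : Strat := .move 882 n28 (.cons 923 n238 .nil)
noncomputable def n240 : Strat := .move 880 n22 (.cons 921 n239 .nil)
noncomputable def n241 : Strat := .move 881 n26 (.cons 880 n180 (.cons 675 n231 (.cons 717 n240 .nil)))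
noncomputable def n242 : Strat := .move 759 n58 (.cons 714 n57 .nil)
noncomputable def n243 : Strat := .win 756 4 714
noncomputable def n244 : Strat := .win 754 4 713
noncomputable def n245 : Strat := .win 672 2 672
noncomputable def n246 : Strat := .win 674 2 673
noncomputable def n247 : Strat := .move 673 n245 (.cons 672 n246 .nil)
noncomputable def n248 : Strat := .move 714 n244 (.cons 754 n247 .nil)
noncomputable def n249 : Strat := .move 755 n243 (.cons 756 n248 .nil)
noncomputable def n250 : Strat := .win 759 0 715
noncomputable def n251 : Strat := .win 761 0 716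
noncomputable def n252 : Strat := .win 757 4 715
noncomputable def n253 : Strat := .move 756 n252 (.cons 757 n61 .nil)
noncomputable def n254 : Strat := .move 719 n251 (.cons 761 n253 .nil)
noncomputable def n255 : Strat := .move 760 n250 (.cons 759 n254 .nil)
noncomputable def n256 : Strat := .move 715 n242 (.cons 759 n249 (.cons 714 n255 .nil))
noncomputable def n257 : Strat := .move 718 n2 (.cons 677 n256 .nil)
noncomputable def n258 : Strat := .move 716 n0 (.cons 675 n257 .nil)
noncomputable def n259 : Strat := .move 717 n53 (.cons 716 n95 (.cons 839 n258 .nil))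
noncomputable def n260 : Strat := .move 758 n144 (.cons 716 n149 (.cons 882 n169 (.cons 921 n178 (.cons 796 n183 (.cons 923 n194 (.cons 717 n225 (.cons 880 n228 (.cons 798 n241 (.cons 881 n259 .nil)))))))))
noncomputable def n261 : Strat := .move 881 n3 (.cons 759 n24 .nil)
noncomputable def n262 : Strat := .move 717 n2 (.cons 677 n261 .nil)
noncomputable def n263 : Strat := .move 756 n89 (.cons 755 n60 .nil)
noncomputable def n264 : Strat := .move 757 n88 (.cons 881 n263 .nil)
noncomputable def n265 : Strat := .move 716 n0 (.cons 675 n264 .nil)
noncomputable def n266 : Strat := .move 717 n2 (.cons 677 n265 .nil)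
noncomputable def n267 : Strat := .win 676 6 676
noncomputable def n268 : Strat := .move 757 n64 (.cons 756 n63 .nil)
noncomputable def n269 : Strat := .win 759 3 677
noncomputable def n270 : Strat := .win 679 5 675
noncomputable def n271 : Strat := .move 678 n269 (.cons 759 n270 .nil)
noncomputable def n272 : Strat := .move 719 n268 (.cons 720 n271 .nil)
noncomputable def n273 : Strat := .move 800 n267 (.cons 676 n272 .nil)
noncomputable def n274 : Strat := .move 841 n9 (.cons 882 n273 .nil)
noncomputable def n275 : Strat := .move 716 n0 (.cons 675 n274 .nil)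
noncomputable def n276 : Strat := .move 717 n2 (.cons 677 n275 .nil)
noncomputable def n277 : Strat := .move 717 n261 (.cons 759 n265 (.cons 675 n41 (.cons 881 n275 .nil)))
noncomputable def n278 : Strat := .move 717 n2 (.cons 677 n41 .nil)
noncomputable def n279 : Strat := .win 636 1 635
noncomputable def n280 : Strat := .win 800 1 676
noncomputable def n281 : Strat := .move 677 n279 (.cons 636 n280 .nil)
noncomputable def n282 : Strat := .move 759 n75 (.cons 881 n281 .nil)
noncomputable def n283 : Strat := .move 718 n262 (.cons 759 n266 (.cons 881 n276 (.cons 677 n277 (.cons 675 n278 (.cons 717 n282 .nil)))))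
noncomputable def n284 : Strat := .move 921 n98 (.cons 962 n97 .nil)
noncomputable def n285 : Strat := .move 922 n284 (.cons 880 n139 .nil)
noncomputable def n286 : Strat := .move 676 n50 (.cons 634 n285 .nil)
noncomputable def n287 : Strat := .move 675 n49 (.cons 716 n286 .nil)
noncomputable def n288 : Strat := .move 881 n3 (.cons 759 n287 .nil)
noncomputable def n289 : Strat := .move 718 n2 (.cons 677 n288 .nil)
noncomputable def n290 : Strat := .move 716 n0 (.cons 675 n172 .nil)
noncomputable def n291 : Strat := .move 759 n75 (.cons 881 n290 .nil)
noncomputable def n292 : Strat := .move 718 n2 (.cons 677 n291 .nil)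
noncomputable def n293 : Strat := .move 717 n86 (.cons 841 n289 (.cons 676 n42 (.cons 718 n56 (.cons 882 n292 .nil))))
noncomputable def n294 : Strat := .move 922 n18 (.cons 800 n16 .nil)
noncomputable def n295 : Strat := .move 759 n17 (.cons 718 n294 .nil)
noncomputable def n296 : Strat := .move 757 n15 (.cons 716 n295 .nil)
noncomputable def n297 : Strat := .move 882 n28 (.cons 923 n296 .nil)
noncomputable def n298 : Strat := .move 800 n105 (.cons 755 n104 .nil)
noncomputable def n299 : Strat := .win 797 4 755
noncomputable def n300 : Strat := .win 795 4 754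
noncomputable def n301 : Strat := .win 713 2 713
noncomputable def n302 : Strat := .win 715 2 714
noncomputable def n303 : Strat := .move 714 n301 (.cons 713 n302 .nil)
noncomputable def n304 : Strat := .move 755 n300 (.cons 795 n303 .nil)
noncomputable def n305 : Strat := .move 796 n299 (.cons 797 n304 .nil)
noncomputable def n306 : Strat := .win 800 0 756
noncomputable def n307 : Strat := .win 802 0 757
noncomputable def n308 : Strat := .win 798 4 756
noncomputable def n309 : Strat := .move 797 n308 (.cons 798 n108 .nil)
noncomputable def n310 : Strat := .move 760 n307 (.cons 802 n309 .nil)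
noncomputable def n311 : Strat := .move 801 n306 (.cons 800 n310 .nil)
noncomputable def n312 : Strat := .move 756 n298 (.cons 800 n305 (.cons 755 n311 .nil))
noncomputable def n313 : Strat := .move 759 n17 (.cons 718 n312 .nil)
noncomputable def n314 : Strat := .move 757 n15 (.cons 716 n313 .nil)
noncomputable def n315 : Strat := .move 881 n297 (.cons 800 n101 (.cons 757 n103 (.cons 922 n314 .nil)))
noncomputable def n316 : Strat := .win 922 3 758
noncomputable def n317 : Strat := .win 802 2 757
noncomputable def n318 : Strat := .win 756 0 756
noncomputable def n319 : Strat := .move 801 n317 (.cons 802 n318 .nil)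
noncomputable def n320 : Strat := .move 800 n316 (.cons 922 n319 .nil)
noncomputable def n321 : Strat := .move 759 n17 (.cons 718 n320 .nil)
noncomputable def n322 : Strat := .win 717 6 717
noncomputable def n323 : Strat := .move 879 n196 (.cons 842 n197 .nil)
noncomputable def n324 : Strat := .move 880 n22 (.cons 921 n323 .nil)
noncomputable def n325 : Strat := .move 841 n322 (.cons 717 n324 .nil)
noncomputable def n326 : Strat := .move 882 n28 (.cons 923 n325 .nil)
noncomputable def n327 : Strat := .move 759 n17 (.cons 718 n326 .nil)
noncomputable def n328 : Strat := .move 757 n295 (.cons 759 n100 (.cons 798 n321 (.cons 922 n327 .nil)))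
noncomputable def n329 : Strat := .win 719 3 718
noncomputable def n330 : Strat := .win 762 4 758
noncomputable def n331 : Strat := .win 798 4 757
noncomputable def n332 : Strat := .move 761 n330 (.cons 762 n331 .nil)
noncomputable def n333 : Strat := .move 760 n329 (.cons 719 n332 .nil)
noncomputable def n334 : Strat := .move 841 n322 (.cons 717 n333 .nil)
noncomputable def n335 : Strat := .move 882 n28 (.cons 923 n334 .nil)
noncomputable def n336 : Strat := .move 800 n316 (.cons 922 n335 .nil)
noncomputable def n337 : Strat := .move 759 n17 (.cons 718 n336 .nil)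
noncomputable def n338 : Strat := .win 843 4 839
noncomputable def n339 : Strat := .win 879 5 838
noncomputable def n340 : Strat := .move 842 n338 (.cons 843 n339 .nil)
noncomputable def n341 : Strat := .move 880 n22 (.cons 921 n340 .nil)
noncomputable def n342 : Strat := .move 841 n322 (.cons 717 n341 .nil)
noncomputable def n343 : Strat := .move 882 n28 (.cons 923 n342 .nil)
noncomputable def n344 : Strat := .move 881 n328 (.cons 798 n103 (.cons 962 n337 (.cons 718 n343 .nil)))
noncomputable def n345 : Strat := .move 719 n251 (.cons 761 n268 .nil)
noncomputable def n346 : Strat := .move 760 n250 (.cons 759 n345 .nil)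
noncomputable def n347 : Strat := .move 715 n242 (.cons 759 n249 (.cons 714 n346 .nil))
noncomputable def n348 : Strat := .move 716 n0 (.cons 675 n347 .nil)
noncomputable def n349 : Strat := .move 718 n2 (.cons 677 n348 .nil)
noncomputable def n350 : Strat := .move 717 n56 (.cons 841 n349 (.cons 716 n86 .nil))
noncomputable def n351 : Strat := .move 676 n83 (.cons 636 n285 .nil)
noncomputable def n352 : Strat := .move 677 n82 (.cons 718 n351 .nil)
noncomputable def n353 : Strat := .move 881 n1 (.cons 757 n352 .nil)
noncomputable def n354 : Strat := .move 716 n0 (.cons 675 n353 .nil)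
noncomputable def n355 : Strat := .move 718 n2 (.cons 677 n90 .nil)
noncomputable def n356 : Strat := .move 757 n88 (.cons 881 n355 .nil)
noncomputable def n357 : Strat := .move 716 n0 (.cons 675 n356 .nil)
noncomputable def n358 : Strat := .move 717 n48 (.cons 841 n354 (.cons 757 n86 (.cons 882 n357 .nil)))
noncomputable def n359 : Strat := .move 881 n101 (.cons 716 n343 (.cons 921 n224 .nil))
noncomputable def n360 : Strat := .move 757 n15 (.cons 716 n294 .nil)
noncomputable def n361 : Strat := .move 759 n17 (.cons 718 n360 .nil)
noncomputable def n362 : Strat := .move 801 n307 (.cons 802 n306 .nil)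
noncomputable def n363 : Strat := .move 798 n111 (.cons 797 n110 .nil)
noncomputable def n364 : Strat := .move 760 n362 (.cons 800 n363 .nil)
noncomputable def n365 : Strat := .win 800 0 755
noncomputable def n366 : Strat := .move 755 n365 (.cons 800 n303 .nil)
noncomputable def n367 : Strat := .move 796 n300 (.cons 795 n299 .nil)
noncomputable def n368 : Strat := .move 755 n303 (.cons 715 n367 .nil)
noncomputable def n369 : Strat := .move 756 n106 (.cons 755 n364 (.cons 801 n366 (.cons 800 n368 .nil)))
noncomputable def n370 : Strat := .move 757 n15 (.cons 716 n369 .nil)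
noncomputable def n371 : Strat := .move 759 n17 (.cons 718 n370 .nil)
noncomputable def n372 : Strat := .move 880 n22 (.cons 921 n371 .nil)
noncomputable def n373 : Strat := .move 881 n361 (.cons 798 n103 (.cons 759 n101 (.cons 922 n372 .nil)))
noncomputable def n374 : Strat := .move 758 n283 (.cons 757 n293 (.cons 841 n315 (.cons 716 n344 (.cons 881 n350 (.cons 759 n358 (.cons 718 n359 (.cons 882 n373 .nil)))))))
noncomputable def n375 : Strat := .move 839 n27 (.cons 717 n31 .nil)
noncomputable def n376 : Strat := .move 880 n22 (.cons 921 n375 .nil)
noncomputable def n377 : Strat := .move 881 n28 (.cons 923 n376 .nil)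
noncomputable def n378 : Strat := .move 881 n376 (.cons 883 n296 .nil)
noncomputable def n379 : Strat := .move 881 n28 (.cons 923 n296 .nil)
noncomputable def n380 : Strat := .move 760 n251 (.cons 761 n250 .nil)
noncomputable def n381 : Strat := .move 719 n380 (.cons 759 n253 .nil)
noncomputable def n382 : Strat := .win 759 0 714
noncomputable def n383 : Strat := .move 714 n382 (.cons 759 n247 .nil)
noncomputable def n384 : Strat := .move 755 n244 (.cons 754 n243 .nil)
noncomputable def n385 : Strat := .move 714 n247 (.cons 674 n384 .nil)
noncomputable def n386 : Strat := .move 715 n59 (.cons 714 n381 (.cons 760 n383 (.cons 759 n385 .nil)))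
noncomputable def n387 : Strat := .move 718 n2 (.cons 677 n386 .nil)
noncomputable def n388 : Strat := .move 716 n0 (.cons 675 n387 .nil)
noncomputable def n389 : Strat := .move 717 n95 (.cons 718 n53 (.cons 676 n388 .nil))
noncomputable def n390 : Strat := .move 882 n377 (.cons 923 n378 (.cons 883 n379 (.cons 881 n389 .nil)))
noncomputable def n391 : Strat := .move 717 n45 (.cons 677 n53 (.cons 839 n289 (.cons 880 n292 .nil)))
noncomputable def n392 : Strat := .move 717 n4 (.cons 677 n43 .nil)
noncomputable def n393 : Strat := .move 922 n18 (.cons 800 n222 .nil)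
noncomputable def n394 : Strat := .move 759 n17 (.cons 718 n393 .nil)
noncomputable def n395 : Strat := .move 881 n392 (.cons 880 n394 (.cons 718 n34 .nil))
noncomputable def n396 : Strat := .win 800 6 635
noncomputable def n397 : Strat := .win 594 6 594
noncomputable def n398 : Strat := .move 635 n396 (.cons 800 n397 .nil)
noncomputable def n399 : Strat := .move 676 n8 (.cons 798 n398 .nil)
noncomputable def n400 : Strat := .move 839 n7 (.cons 880 n399 .nil)
noncomputable def n401 : Strat := .move 759 n75 (.cons 881 n400 .nil)
noncomputable def n402 : Strat := .move 718 n2 (.cons 677 n401 .nil)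
noncomputable def n403 : Strat := .win 674 7 674
noncomputable def n404 : Strat := .win 713 0 713
noncomputable def n405 : Strat := .move 714 n404 (.cons 713 n382 .nil)
noncomputable def n406 : Strat := .move 715 n403 (.cons 674 n405 .nil)
noncomputable def n407 : Strat := .move 798 n126 (.cons 676 n406 .nil)
noncomputable def n408 : Strat := .move 839 n7 (.cons 880 n407 .nil)
noncomputable def n409 : Strat := .move 757 n88 (.cons 881 n408 .nil)
noncomputable def n410 : Strat := .move 716 n0 (.cons 675 n409 .nil)
noncomputable def n411 : Strat := .win 757 7 674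
noncomputable def n412 : Strat := .move 674 n411 (.cons 757 n67 .nil)
noncomputable def n413 : Strat := .move 715 n59 (.cons 714 n412 .nil)
noncomputable def n414 : Strat := .move 798 n126 (.cons 676 n413 .nil)
noncomputable def n415 : Strat := .move 839 n7 (.cons 880 n414 .nil)
noncomputable def n416 : Strat := .move 718 n2 (.cons 677 n415 .nil)
noncomputable def n417 : Strat := .move 716 n0 (.cons 675 n416 .nil)
noncomputable def n418 : Strat := .move 717 n357 (.cons 716 n402 (.cons 718 n410 (.cons 881 n417 .nil)))
noncomputable def n419 : Strat := .move 881 n1 (.cons 757 n43 .nil)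
noncomputable def n420 : Strat := .move 716 n0 (.cons 675 n419 .nil)
noncomputable def n421 : Strat := .move 717 n53 (.cons 839 n354 (.cons 716 n95 (.cons 676 n420 (.cons 880 n357 .nil))))
noncomputable def n422 : Strat := .move 882 n28 (.cons 923 n376 .nil)
noncomputable def n423 : Strat := .move 881 n422 (.cons 880 n224 (.cons 882 n101 .nil))
noncomputable def n424 : Strat := .move 798 n110 (.cons 761 n111 .nil)
noncomputable def n425 : Strat := .win 803 0 758
noncomputable def n426 : Strat := .win 801 0 757
noncomputable def n427 : Strat := .move 802 n425 (.cons 803 n426 .nil)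
noncomputable def n428 : Strat := .move 761 n331 (.cons 798 n427 .nil)
noncomputable def n429 : Strat := .move 756 n106 (.cons 755 n362 (.cons 801 n309 .nil))
noncomputable def n430 : Strat := .win 721 5 717
noncomputable def n431 : Strat := .win 719 5 716
noncomputable def n432 : Strat := .move 720 n430 (.cons 721 n431 .nil)
noncomputable def n433 : Strat := .move 761 n427 (.cons 801 n432 .nil)
noncomputable def n434 : Strat := .move 760 n424 (.cons 797 n428 (.cons 761 n429 (.cons 798 n433 .nil)))
noncomputable def n435 : Strat := .move 759 n17 (.cons 718 n434 .nil)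
noncomputable def n436 : Strat := .move 757 n15 (.cons 716 n435 .nil)
noncomputable def n437 : Strat := .move 882 n28 (.cons 923 n436 .nil)
noncomputable def n438 : Strat := .move 881 n296 (.cons 716 n394 (.cons 718 n224 (.cons 922 n437 .nil)))
noncomputable def n439 : Strat := .move 719 n380 (.cons 759 n268 .nil)
noncomputable def n440 : Strat := .move 715 n59 (.cons 714 n439 (.cons 760 n383 (.cons 759 n385 .nil)))
noncomputable def n441 : Strat := .move 716 n0 (.cons 675 n440 .nil)
noncomputable def n442 : Strat := .move 718 n2 (.cons 677 n441 .nil)
noncomputable def n443 : Strat := .move 839 n94 (.cons 798 n442 (.cons 718 n52 .nil))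
noncomputable def n444 : Strat := .move 839 n7 (.cons 880 n442 .nil)
noncomputable def n445 : Strat := .move 717 n417 (.cons 716 n95 (.cons 718 n53 (.cons 676 n73 (.cons 880 n443 (.cons 798 n444 (.cons 839 n349 .nil))))))
noncomputable def n446 : Strat := .move 758 n390 (.cons 757 n391 (.cons 716 n395 (.cons 921 n418 (.cons 839 n315 (.cons 759 n421 (.cons 718 n423 (.cons 880 n438 (.cons 881 n445 .nil))))))))
noncomputable def n447 : Strat := .move 758 n21 (.cons 759 n101 (.cons 798 n103 (.cons 922 n120 .nil)))
noncomputable def n448 : Strat := .move 838 n30 (.cons 883 n29 .nil)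
noncomputable def n449 : Strat := .move 883 n202 (.cons 884 n203 .nil)
noncomputable def n450 : Strat := .win 798 1 756
noncomputable def n451 : Strat := .win 919 4 878
noncomputable def n452 : Strat := .move 920 n450 (.cons 798 n451 .nil)
noncomputable def n453 : Strat := .move 839 n448 (.cons 837 n449 (.cons 883 n452 .nil))
noncomputable def n454 : Strat := .move 879 n198 (.cons 878 n453 .nil)
noncomputable def n455 : Strat := .move 757 n15 (.cons 716 n454 .nil)
noncomputable def n456 : Strat := .move 882 n28 (.cons 923 n455 .nil)
noncomputable def n457 : Strat := .move 880 n22 (.cons 921 n456 .nil)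
noncomputable def n458 : Strat := .move 800 n330 (.cons 762 n318 .nil)
noncomputable def n459 : Strat := .move 761 n458 (.cons 756 n432 .nil)
noncomputable def n460 : Strat := .move 801 n307 (.cons 802 n459 .nil)
noncomputable def n461 : Strat := .move 756 n108 (.cons 796 n106 .nil)
noncomputable def n462 : Strat := .move 797 n308 (.cons 798 n461 .nil)
noncomputable def n463 : Strat := .move 760 n424 (.cons 797 n428 (.cons 798 n460 (.cons 761 n462 .nil)))
noncomputable def n464 : Strat := .move 757 n15 (.cons 716 n463 .nil)
noncomputable def n465 : Strat := .move 759 n17 (.cons 718 n464 .nil)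
noncomputable def n466 : Strat := .move 759 n17 (.cons 718 n218 .nil)
noncomputable def n467 : Strat := .move 882 n28 (.cons 923 n466 .nil)
noncomputable def n468 : Strat := .move 880 n22 (.cons 921 n467 .nil)
noncomputable def n469 : Strat := .move 758 n120 (.cons 759 n457 (.cons 839 n465 (.cons 757 n468 .nil)))
noncomputable def n470 : Strat := .win 757 7 757
noncomputable def n471 : Strat := .win 839 7 798
noncomputable def n472 : Strat := .win 759 3 758
noncomputable def n473 : Strat := .win 841 3 799
noncomputable def n474 : Strat := .move 800 n472 (.cons 759 n473 .nil)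
noncomputable def n475 : Strat := .move 963 n471 (.cons 839 n474 .nil)
noncomputable def n476 : Strat := .move 798 n470 (.cons 757 n475 .nil)
noncomputable def n477 : Strat := .move 757 n15 (.cons 716 n16 .nil)
noncomputable def n478 : Strat := .move 758 n97 (.cons 880 n477 .nil)
noncomputable def n479 : Strat := .move 921 n98 (.cons 962 n478 .nil)
noncomputable def n480 : Strat := .move 758 n97 (.cons 880 n222 .nil)
noncomputable def n481 : Strat := .move 921 n98 (.cons 962 n480 .nil)
noncomputable def n482 : Strat := .move 922 n476 (.cons 841 n479 (.cons 798 n481 .nil))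
noncomputable def n483 : Strat := .move 964 n154 (.cons 923 n153 .nil)
noncomputable def n484 : Strat := .move 963 n473 (.cons 841 n483 .nil)
noncomputable def n485 : Strat := .move 800 n472 (.cons 759 n484 .nil)
noncomputable def n486 : Strat := .move 963 n471 (.cons 839 n483 .nil)
noncomputable def n487 : Strat := .move 798 n470 (.cons 757 n486 .nil)
noncomputable def n488 : Strat := .win 842 0 797
noncomputable def n489 : Strat := .move 841 n488 (.cons 842 n128 .nil)
noncomputable def n490 : Strat := .win 801 4 797
noncomputable def n491 : Strat := .win 837 4 796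
noncomputable def n492 : Strat := .move 838 n490 (.cons 801 n491 .nil)
noncomputable def n493 : Strat := .win 802 4 798
noncomputable def n494 : Strat := .win 838 4 797
noncomputable def n495 : Strat := .move 801 n493 (.cons 802 n494 .nil)
noncomputable def n496 : Strat := .win 880 7 756
noncomputable def n497 : Strat := .win 755 2 755
noncomputable def n498 : Strat := .move 756 n496 (.cons 880 n497 .nil)
noncomputable def n499 : Strat := .move 839 n492 (.cons 837 n495 (.cons 801 n498 .nil))
noncomputable def n500 : Strat := .move 797 n489 (.cons 796 n499 .nil)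
noncomputable def n501 : Strat := .move 921 n98 (.cons 962 n500 .nil)
noncomputable def n502 : Strat := .move 800 n472 (.cons 759 n501 .nil)
noncomputable def n503 : Strat := .move 798 n470 (.cons 757 n502 .nil)
noncomputable def n504 : Strat := .move 922 n476 (.cons 839 n485 (.cons 800 n487 (.cons 963 n503 .nil)))
noncomputable def n505 : Strat := .win 758 1 757
noncomputable def n506 : Strat := .win 963 6 798
noncomputable def n507 : Strat := .win 756 7 756
noncomputable def n508 : Strat := .win 795 0 795
noncomputable def n509 : Strat := .win 841 0 796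
noncomputable def n510 : Strat := .move 796 n508 (.cons 795 n509 .nil)
noncomputable def n511 : Strat := .move 797 n507 (.cons 756 n510 .nil)
noncomputable def n512 : Strat := .move 839 n506 (.cons 963 n511 .nil)
noncomputable def n513 : Strat := .move 798 n470 (.cons 757 n512 .nil)
noncomputable def n514 : Strat := .move 880 n505 (.cons 758 n513 .nil)
noncomputable def n515 : Strat := .move 921 n98 (.cons 962 n514 .nil)
noncomputable def n516 : Strat := .move 922 n515 (.cons 758 n487 (.cons 963 n481 .nil))
noncomputable def n517 : Strat := .move 758 n97 (.cons 880 n19 .nil)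
noncomputable def n518 : Strat := .move 921 n98 (.cons 962 n517 .nil)
noncomputable def n519 : Strat := .move 758 n97 (.cons 880 n138 .nil)
noncomputable def n520 : Strat := .move 923 n137 (.cons 964 n519 .nil)
noncomputable def n521 : Strat := .move 921 n98 (.cons 962 n520 .nil)
noncomputable def n522 : Strat := .move 922 n518 (.cons 758 n485 (.cons 759 n521 .nil))
noncomputable def n523 : Strat := .move 798 n470 (.cons 757 n471 .nil)
noncomputable def n524 : Strat := .move 963 n473 (.cons 841 n523 .nil)
noncomputable def n525 : Strat := .move 800 n472 (.cons 759 n524 .nil)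
noncomputable def n526 : Strat := .win 758 6 758
noncomputable def n527 : Strat := .win 883 5 879
noncomputable def n528 : Strat := .win 919 5 878
noncomputable def n529 : Strat := .move 920 n527 (.cons 883 n528 .nil)
noncomputable def n530 : Strat := .move 921 n98 (.cons 962 n529 .nil)
noncomputable def n531 : Strat := .move 882 n526 (.cons 758 n530 .nil)
noncomputable def n532 : Strat := .move 923 n137 (.cons 964 n531 .nil)
noncomputable def n533 : Strat := .move 798 n470 (.cons 757 n532 .nil)
noncomputable def n534 : Strat := .move 800 n472 (.cons 759 n533 .nil)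
noncomputable def n535 : Strat := .move 922 n525 (.cons 839 n485 (.cons 800 n487 (.cons 963 n534 .nil)))
noncomputable def n536 : Strat := .move 839 n494 (.cons 838 n493 .nil)
noncomputable def n537 : Strat := .win 841 3 759
noncomputable def n538 : Strat := .win 761 5 757
noncomputable def n539 : Strat := .move 760 n537 (.cons 841 n538 .nil)
noncomputable def n540 : Strat := .move 801 n536 (.cons 802 n539 .nil)
noncomputable def n541 : Strat := .move 882 n526 (.cons 758 n540 .nil)
noncomputable def n542 : Strat := .move 923 n137 (.cons 964 n541 .nil)
noncomputable def n543 : Strat := .move 798 n470 (.cons 757 n542 .nil)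
noncomputable def n544 : Strat := .move 800 n472 (.cons 759 n543 .nil)
noncomputable def n545 : Strat := .move 922 n525 (.cons 800 n487 (.cons 839 n485 (.cons 963 n544 .nil)))
noncomputable def n546 : Strat := .move 881 n447 (.cons 922 n469 (.cons 715 n482 (.cons 758 n504 (.cons 800 n516 (.cons 839 n522 (.cons 880 n535 (.cons 921 n545 .nil)))))))
noncomputable def n547 : Strat := .move 717 n39 (.cons 841 n170 .nil)
noncomputable def n548 : Strat := .win 881 6 758
noncomputable def n549 : Strat := .win 800 7 758
noncomputable def n550 : Strat := .move 923 n548 (.cons 881 n549 .nil)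
noncomputable def n551 : Strat := .move 841 n322 (.cons 717 n550 .nil)
noncomputable def n552 : Strat := .move 717 n39 (.cons 841 n95 .nil)
noncomputable def n553 : Strat := .move 883 n203 (.cons 838 n202 .nil)
noncomputable def n554 : Strat := .move 839 n553 (.cons 884 n448 (.cons 838 n452 .nil))
noncomputable def n555 : Strat := .move 879 n198 (.cons 878 n554 .nil)
noncomputable def n556 : Strat := .move 757 n15 (.cons 716 n555 .nil)
noncomputable def n557 : Strat := .move 880 n22 (.cons 921 n556 .nil)
noncomputable def n558 : Strat := .move 881 n28 (.cons 923 n557 .nil)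
noncomputable def n559 : Strat := .move 882 n547 (.cons 716 n551 (.cons 881 n552 (.cons 841 n377 (.cons 717 n558 .nil))))
noncomputable def n560 : Strat := .move 881 n26 (.cons 717 n120 (.cons 921 n180 (.cons 757 n182 .nil)))
noncomputable def n561 : Strat := .move 881 n120 (.cons 759 n457 (.cons 839 n465 (.cons 757 n468 .nil)))
noncomputable def n562 : Strat := .move 882 n39 (.cons 841 n95 .nil)
noncomputable def n563 : Strat := .move 717 n562 (.cons 839 n56 (.cons 841 n95 (.cons 676 n73 .nil)))
noncomputable def n564 : Strat := .move 881 n43 (.cons 921 n24 .nil)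
noncomputable def n565 : Strat := .move 717 n564 (.cons 921 n38 (.cons 880 n56 .nil))
noncomputable def n566 : Strat := .move 717 n86 (.cons 882 n292 (.cons 718 n38 .nil))
noncomputable def n567 : Strat := .win 884 0 839
noncomputable def n568 : Strat := .win 800 6 718
noncomputable def n569 : Strat := .move 883 n567 (.cons 884 n568 .nil)
noncomputable def n570 : Strat := .win 797 2 797
noncomputable def n571 : Strat := .win 843 2 798
noncomputable def n572 : Strat := .move 798 n570 (.cons 797 n571 .nil)
noncomputable def n573 : Strat := .move 842 n569 (.cons 800 n572 .nil)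
noncomputable def n574 : Strat := .move 839 n7 (.cons 880 n573 .nil)
noncomputable def n575 : Strat := .move 841 n9 (.cons 882 n574 .nil)
noncomputable def n576 : Strat := .move 759 n75 (.cons 881 n575 .nil)
noncomputable def n577 : Strat := .move 718 n2 (.cons 677 n576 .nil)
noncomputable def n578 : Strat := .move 717 n38 (.cons 882 n95 (.cons 880 n86 (.cons 676 n577 .nil)))
noncomputable def n579 : Strat := .win 678 3 677
noncomputable def n580 : Strat := .win 721 4 717
noncomputable def n581 : Strat := .win 757 4 716
noncomputable def n582 : Strat := .move 720 n580 (.cons 721 n581 .nil)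
noncomputable def n583 : Strat := .move 719 n579 (.cons 678 n582 .nil)
noncomputable def n584 : Strat := .move 800 n267 (.cons 676 n583 .nil)
noncomputable def n585 : Strat := .move 841 n9 (.cons 882 n584 .nil)
noncomputable def n586 : Strat := .move 759 n75 (.cons 881 n585 .nil)
noncomputable def n587 : Strat := .move 718 n2 (.cons 677 n586 .nil)
noncomputable def n588 : Strat := .move 717 n175 (.cons 881 n56 (.cons 675 n587 .nil))
noncomputable def n589 : Strat := .move 717 n93 (.cons 881 n95 (.cons 718 n410 .nil))
noncomputable def n590 : Strat := .move 758 n559 (.cons 636 n560 (.cons 717 n561 (.cons 881 n563 (.cons 718 n565 (.cons 757 n566 (.cons 716 n578 (.cons 839 n588 (.cons 841 n589 .nil))))))))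
noncomputable def n591 : Strat := .move 717 n86 (.cons 718 n38 (.cons 800 n175 .nil))
noncomputable def n592 : Strat := .move 718 n2 (.cons 677 n56 .nil)
noncomputable def n593 : Strat := .move 676 n8 (.cons 798 n10 .nil)
noncomputable def n594 : Strat := .move 839 n7 (.cons 880 n593 .nil)
noncomputable def n595 : Strat := .move 841 n9 (.cons 882 n594 .nil)
noncomputable def n596 : Strat := .win 801 5 797
noncomputable def n597 : Strat := .win 837 5 796
noncomputable def n598 : Strat := .move 838 n596 (.cons 801 n597 .nil)
noncomputable def n599 : Strat := .win 838 5 797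
noncomputable def n600 : Strat := .move 801 n599 (.cons 838 n493 .nil)
noncomputable def n601 : Strat := .win 759 6 718
noncomputable def n602 : Strat := .move 883 n601 (.cons 759 n567 .nil)
noncomputable def n603 : Strat := .move 800 n598 (.cons 837 n600 (.cons 801 n602 .nil))
noncomputable def n604 : Strat := .move 842 n572 (.cons 843 n603 .nil)
noncomputable def n605 : Strat := .move 718 n2 (.cons 677 n604 .nil)
noncomputable def n606 : Strat := .move 839 n7 (.cons 880 n605 .nil)
noncomputable def n607 : Strat := .move 841 n9 (.cons 882 n606 .nil)
noncomputable def n608 : Strat := .move 717 n592 (.cons 841 n95 (.cons 677 n595 (.cons 676 n607 .nil)))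
noncomputable def n609 : Strat := .move 841 n9 (.cons 882 n593 .nil)
noncomputable def n610 : Strat := .move 839 n7 (.cons 880 n609 .nil)
noncomputable def n611 : Strat := .move 716 n0 (.cons 675 n610 .nil)
noncomputable def n612 : Strat := .move 800 n597 (.cons 837 n596 .nil)
noncomputable def n613 : Strat := .win 800 5 796
noncomputable def n614 : Strat := .win 795 2 795
noncomputable def n615 : Strat := .win 797 2 796
noncomputable def n616 : Strat := .move 796 n614 (.cons 795 n615 .nil)
noncomputable def n617 : Strat := .move 837 n613 (.cons 800 n616 .nil)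
noncomputable def n618 : Strat := .win 877 4 836
noncomputable def n619 : Strat := .win 879 4 837
noncomputable def n620 : Strat := .move 878 n618 (.cons 877 n619 .nil)
noncomputable def n621 : Strat := .move 837 n614 (.cons 795 n620 .nil)
noncomputable def n622 : Strat := .move 796 n615 (.cons 797 n621 .nil)
noncomputable def n623 : Strat := .win 800 5 797
noncomputable def n624 : Strat := .win 802 5 798
noncomputable def n625 : Strat := .win 798 2 797
noncomputable def n626 : Strat := .win 796 2 796
noncomputable def n627 : Strat := .move 797 n625 (.cons 798 n626 .nil)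
noncomputable def n628 : Strat := .move 842 n624 (.cons 802 n627 .nil)
noncomputable def n629 : Strat := .move 801 n623 (.cons 800 n628 .nil)
noncomputable def n630 : Strat := .move 838 n612 (.cons 801 n617 (.cons 800 n622 (.cons 837 n629 .nil)))
noncomputable def n631 : Strat := .move 841 n9 (.cons 882 n630 .nil)
noncomputable def n632 : Strat := .move 839 n7 (.cons 880 n631 .nil)
noncomputable def n633 : Strat := .move 717 n611 (.cons 839 n86 (.cons 841 n53 (.cons 676 n632 .nil)))
noncomputable def n634 : Strat := .move 717 n292 (.cons 715 n95 (.cons 718 n53 .nil))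
noncomputable def n635 : Strat := .move 881 n40 (.cons 841 n43 .nil)
noncomputable def n636 : Strat := .move 717 n635 (.cons 839 n56 (.cons 882 n53 .nil))
noncomputable def n637 : Strat := .move 715 n57 (.cons 760 n58 .nil)
noncomputable def n638 : Strat := .move 716 n0 (.cons 675 n637 .nil)
noncomputable def n639 : Strat := .move 759 n75 (.cons 881 n638 .nil)
noncomputable def n640 : Strat := .move 718 n2 (.cons 677 n639 .nil)
noncomputable def n641 : Strat := .move 841 n9 (.cons 882 n640 .nil)
noncomputable def n642 : Strat := .move 839 n609 (.cons 676 n641 (.cons 841 n94 .nil))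
noncomputable def n643 : Strat := .move 717 n642 (.cons 841 n292 (.cons 760 n86 (.cons 718 n56 .nil)))
noncomputable def n644 : Strat := .move 841 n322 (.cons 717 n340 .nil)
noncomputable def n645 : Strat := .move 880 n22 (.cons 921 n644 .nil)
noncomputable def n646 : Strat := .move 882 n28 (.cons 923 n645 .nil)
noncomputable def n647 : Strat := .move 881 n646 (.cons 717 n103 (.cons 880 n394 .nil))
noncomputable def n648 : Strat := .win 1004 7 839
noncomputable def n649 : Strat := .win 798 7 798
noncomputable def n650 : Strat := .move 963 n648 (.cons 1004 n649 .nil)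
noncomputable def n651 : Strat := .move 839 n553 (.cons 884 n448 (.cons 838 n650 .nil))
noncomputable def n652 : Strat := .move 922 n18 (.cons 800 n651 .nil)
noncomputable def n653 : Strat := .move 759 n17 (.cons 718 n652 .nil)
noncomputable def n654 : Strat := .move 880 n22 (.cons 921 n653 .nil)
noncomputable def n655 : Strat := .move 882 n28 (.cons 923 n654 .nil)
noncomputable def n656 : Strat := .move 759 n102 (.cons 880 n393 (.cons 922 n220 .nil))
noncomputable def n657 : Strat := .move 880 n22 (.cons 921 n238 .nil)
noncomputable def n658 : Strat := .move 882 n28 (.cons 923 n657 .nil)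
noncomputable def n659 : Strat := .move 881 n655 (.cons 880 n394 (.cons 922 n468 (.cons 882 n103 (.cons 718 n656 (.cons 759 n658 .nil)))))
noncomputable def n660 : Strat := .move 758 n46 (.cons 921 n591 (.cons 881 n608 (.cons 841 n391 (.cons 839 n293 (.cons 759 n633 (.cons 882 n634 (.cons 718 n636 (.cons 880 n643 (.cons 676 n647 (.cons 717 n659 .nil))))))))))
noncomputable def n661 : Strat := .move 962 n151 (.cons 921 n150 .nil)
noncomputable def n662 : Strat := .move 963 n153 (.cons 1005 n661 .nil)
noncomputable def n663 : Strat := .move 964 n154 (.cons 923 n662 .nil)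
noncomputable def n664 : Strat := .win 884 4 880
noncomputable def n665 : Strat := .win 920 5 879
noncomputable def n666 : Strat := .move 883 n664 (.cons 884 n665 .nil)
noncomputable def n667 : Strat := .move 921 n98 (.cons 962 n666 .nil)
noncomputable def n668 : Strat := .move 923 n137 (.cons 964 n667 .nil)
noncomputable def n669 : Strat := .move 882 n525 (.cons 757 n485 (.cons 800 n663 (.cons 963 n668 .nil)))
noncomputable def n670 : Strat := .move 963 n473 (.cons 841 n471 .nil)
noncomputable def n671 : Strat := .move 798 n470 (.cons 757 n670 .nil)
noncomputable def n672 : Strat := .move 800 n472 (.cons 759 n671 .nil)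
noncomputable def n673 : Strat := .move 839 n493 (.cons 802 n494 .nil)
noncomputable def n674 : Strat := .win 839 4 797
noncomputable def n675 : Strat := .move 797 n491 (.cons 837 n489 .nil)
noncomputable def n676 : Strat := .move 838 n674 (.cons 839 n675 .nil)
noncomputable def n677 : Strat := .win 839 4 798
noncomputable def n678 : Strat := .win 844 0 799
noncomputable def n679 : Strat := .win 842 0 798
noncomputable def n680 : Strat := .move 843 n678 (.cons 844 n679 .nil)
noncomputable def n681 : Strat := .move 802 n677 (.cons 839 n680 .nil)
noncomputable def n682 : Strat := .win 843 0 798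
noncomputable def n683 : Strat := .win 803 4 799
noncomputable def n684 : Strat := .win 797 0 797
noncomputable def n685 : Strat := .move 841 n683 (.cons 803 n684 .nil)
noncomputable def n686 : Strat := .win 762 5 758
noncomputable def n687 : Strat := .win 760 5 757
noncomputable def n688 : Strat := .move 761 n686 (.cons 762 n687 .nil)
noncomputable def n689 : Strat := .move 802 n685 (.cons 797 n688 .nil)
noncomputable def n690 : Strat := .move 842 n682 (.cons 843 n689 .nil)
noncomputable def n691 : Strat := .move 801 n673 (.cons 802 n676 (.cons 838 n681 (.cons 839 n690 .nil)))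
noncomputable def n692 : Strat := .move 798 n470 (.cons 757 n691 .nil)
noncomputable def n693 : Strat := .move 800 n472 (.cons 759 n692 .nil)
noncomputable def n694 : Strat := .move 922 n669 (.cons 800 n487 (.cons 798 n485 (.cons 964 n672 (.cons 963 n693 .nil))))
noncomputable def n695 : Strat := .move 718 n3 (.cons 759 n2 .nil)
noncomputable def n696 : Strat := .move 717 n39 (.cons 841 n695 .nil)
noncomputable def n697 : Strat := .move 882 n28 (.cons 923 n696 .nil)
noncomputable def n698 : Strat := .move 717 n0 (.cons 675 n156 .nil)
noncomputable def n699 : Strat := .move 716 n1 (.cons 757 n698 .nil)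
noncomputable def n700 : Strat := .move 922 n18 (.cons 800 n699 .nil)
noncomputable def n701 : Strat := .move 759 n17 (.cons 718 n700 .nil)
noncomputable def n702 : Strat := .move 716 n1 (.cons 757 n0 .nil)
noncomputable def n703 : Strat := .move 717 n39 (.cons 841 n702 .nil)
noncomputable def n704 : Strat := .move 882 n28 (.cons 923 n703 .nil)
noncomputable def n705 : Strat := .move 801 n318 (.cons 756 n317 .nil)
noncomputable def n706 : Strat := .move 757 n15 (.cons 716 n705 .nil)
noncomputable def n707 : Strat := .move 800 n316 (.cons 922 n706 .nil)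
noncomputable def n708 : Strat := .move 759 n17 (.cons 718 n707 .nil)
noncomputable def n709 : Strat := .move 758 n697 (.cons 882 n701 (.cons 759 n704 (.cons 717 n394 (.cons 923 n708 .nil))))
noncomputable def n710 : Strat := .move 882 n526 (.cons 758 n667 .nil)
noncomputable def n711 : Strat := .move 923 n137 (.cons 964 n710 .nil)
noncomputable def n712 : Strat := .move 963 n471 (.cons 839 n661 .nil)
noncomputable def n713 : Strat := .move 798 n470 (.cons 757 n712 .nil)
noncomputable def n714 : Strat := .move 922 n487 (.cons 757 n711 (.cons 964 n713 .nil))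
noncomputable def n715 : Strat := .win 963 3 799
noncomputable def n716 : Strat := .move 797 n488 (.cons 842 n128 .nil)
noncomputable def n717 : Strat := .move 798 n470 (.cons 757 n716 .nil)
noncomputable def n718 : Strat := .move 841 n715 (.cons 963 n717 .nil)
noncomputable def n719 : Strat := .move 800 n472 (.cons 759 n718 .nil)
noncomputable def n720 : Strat := .move 963 n473 (.cons 841 n661 .nil)
noncomputable def n721 : Strat := .move 800 n472 (.cons 759 n720 .nil)
noncomputable def n722 : Strat := .move 758 n17 (.cons 718 n477 .nil)
noncomputable def n723 : Strat := .move 759 n18 (.cons 800 n722 .nil)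
noncomputable def n724 : Strat := .move 882 n719 (.cons 800 n713 (.cons 798 n721 (.cons 963 n723 .nil)))
noncomputable def n725 : Strat := .move 841 n128 (.cons 796 n488 .nil)
noncomputable def n726 : Strat := .win 838 4 796
noncomputable def n727 : Strat := .win 836 4 795
noncomputable def n728 : Strat := .win 754 2 754
noncomputable def n729 : Strat := .win 756 2 755
noncomputable def n730 : Strat := .move 755 n728 (.cons 754 n729 .nil)
noncomputable def n731 : Strat := .move 796 n727 (.cons 836 n730 .nil)
noncomputable def n732 : Strat := .move 837 n726 (.cons 838 n731 .nil)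
noncomputable def n733 : Strat := .win 841 0 797
noncomputable def n734 : Strat := .move 801 n682 (.cons 843 n536 .nil)
noncomputable def n735 : Strat := .move 842 n733 (.cons 841 n734 .nil)
noncomputable def n736 : Strat := .move 797 n725 (.cons 841 n732 (.cons 796 n735 .nil))
noncomputable def n737 : Strat := .move 798 n470 (.cons 757 n736 .nil)
noncomputable def n738 : Strat := .move 800 n472 (.cons 759 n737 .nil)
noncomputable def n739 : Strat := .move 922 n724 (.cons 839 n721 (.cons 800 n713 (.cons 962 n672 (.cons 963 n738 .nil))))
noncomputable def n740 : Strat := .move 800 n316 (.cons 922 n705 .nil)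
noncomputable def n741 : Strat := .move 757 n15 (.cons 716 n740 .nil)
noncomputable def n742 : Strat := .move 759 n17 (.cons 718 n741 .nil)
noncomputable def n743 : Strat := .win 635 6 635
noncomputable def n744 : Strat := .move 675 n50 (.cons 634 n49 .nil)
noncomputable def n745 : Strat := .move 676 n743 (.cons 635 n744 .nil)
noncomputable def n746 : Strat := .move 717 n39 (.cons 841 n745 .nil)
noncomputable def n747 : Strat := .move 882 n28 (.cons 923 n746 .nil)
noncomputable def n748 : Strat := .move 800 n316 (.cons 922 n747 .nil)
noncomputable def n749 : Strat := .move 759 n17 (.cons 718 n748 .nil)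
noncomputable def n750 : Strat := .move 758 n742 (.cons 922 n704 (.cons 757 n749 (.cons 716 n337 .nil)))
noncomputable def n751 : Strat := .move 800 n472 (.cons 759 n670 .nil)
noncomputable def n752 : Strat := .move 798 n470 (.cons 757 n751 .nil)
noncomputable def n753 : Strat := .move 838 n674 (.cons 839 n491 .nil)
noncomputable def n754 : Strat := .move 801 n682 (.cons 843 n753 .nil)
noncomputable def n755 : Strat := .move 842 n733 (.cons 841 n754 .nil)
noncomputable def n756 : Strat := .move 797 n725 (.cons 841 n732 (.cons 796 n755 .nil))
noncomputable def n757 : Strat := .move 800 n472 (.cons 759 n756 .nil)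
noncomputable def n758 : Strat := .move 798 n470 (.cons 757 n757 .nil)
noncomputable def n759 : Strat := .move 922 n752 (.cons 841 n487 (.cons 798 n485 (.cons 963 n758 .nil)))
noncomputable def n760 : Strat := .move 922 n485 (.cons 759 n711 (.cons 923 n721 .nil))
noncomputable def n761 : Strat := .move 756 n104 (.cons 801 n105 .nil)
noncomputable def n762 : Strat := .move 801 n318 (.cons 756 n307 .nil)
noncomputable def n763 : Strat := .win 841 3 718
noncomputable def n764 : Strat := .win 720 5 716
noncomputable def n765 : Strat := .move 719 n763 (.cons 841 n764 .nil)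
noncomputable def n766 : Strat := .move 800 n761 (.cons 755 n762 (.cons 801 n765 .nil))
noncomputable def n767 : Strat := .move 760 n424 (.cons 797 n428 (.cons 761 n766 .nil))
noncomputable def n768 : Strat := .move 882 n28 (.cons 923 n767 .nil)
noncomputable def n769 : Strat := .move 759 n17 (.cons 718 n768 .nil)
noncomputable def n770 : Strat := .move 757 n15 (.cons 716 n769 .nil)
noncomputable def n771 : Strat := .move 757 n15 (.cons 716 n767 .nil)
noncomputable def n772 : Strat := .move 759 n17 (.cons 718 n771 .nil)
noncomputable def n773 : Strat := .move 882 n703 (.cons 757 n696 (.cons 717 n772 (.cons 841 n436 .nil)))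
noncomputable def n774 : Strat := .move 760 n307 (.cons 802 n363 .nil)
noncomputable def n775 : Strat := .move 801 n306 (.cons 800 n774 .nil)
noncomputable def n776 : Strat := .move 756 n298 (.cons 801 n366 (.cons 800 n305 (.cons 755 n775 .nil)))
noncomputable def n777 : Strat := .move 757 n15 (.cons 716 n776 .nil)
noncomputable def n778 : Strat := .move 759 n17 (.cons 718 n777 .nil)
noncomputable def n779 : Strat := .move 758 n704 (.cons 757 n697 (.cons 717 n770 (.cons 841 n437 (.cons 923 n773 (.cons 882 n778 .nil)))))
noncomputable def n780 : Strat := .move 881 n535 (.cons 758 n694 (.cons 798 n709 (.cons 759 n714 (.cons 923 n739 (.cons 963 n750 (.cons 882 n759 (.cons 757 n760 (.cons 922 n779 .nil))))))))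
noncomputable def n781 : Strat := .win 839 7 756
noncomputable def n782 : Strat := .move 756 n781 (.cons 839 n497 .nil)
noncomputable def n783 : Strat := .move 797 n489 (.cons 796 n782 .nil)
noncomputable def n784 : Strat := .move 880 n505 (.cons 758 n783 .nil)
noncomputable def n785 : Strat := .move 921 n98 (.cons 962 n784 .nil)
noncomputable def n786 : Strat := .move 800 n472 (.cons 759 n785 .nil)
noncomputable def n787 : Strat := .move 798 n470 (.cons 757 n786 .nil)
noncomputable def n788 : Strat := .move 922 n476 (.cons 841 n713 (.cons 798 n721 (.cons 963 n787 .nil)))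
noncomputable def n789 : Strat := .move 796 n509 (.cons 841 n730 .nil)
noncomputable def n790 : Strat := .move 797 n725 (.cons 842 n789 (.cons 841 n732 (.cons 796 n755 .nil)))
noncomputable def n791 : Strat := .move 800 n472 (.cons 759 n790 .nil)
noncomputable def n792 : Strat := .move 798 n470 (.cons 757 n791 .nil)
noncomputable def n793 : Strat := .move 922 n476 (.cons 841 n713 (.cons 798 n721 (.cons 963 n792 .nil)))
noncomputable def n794 : Strat := .move 717 n23 (.cons 839 n702 .nil)
noncomputable def n795 : Strat := .move 880 n22 (.cons 921 n794 .nil)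
noncomputable def n796 : Strat := .move 758 n103 (.cons 759 n795 (.cons 880 n701 (.cons 921 n708 .nil)))
noncomputable def n797 : Strat := .move 758 n26 (.cons 880 n160 (.cons 757 n162 (.cons 717 n101 (.cons 921 n168 .nil))))
noncomputable def n798 : Strat := .move 842 n571 (.cons 843 n684 .nil)
noncomputable def n799 : Strat := .move 841 n715 (.cons 963 n798 .nil)
noncomputable def n800 : Strat := .move 800 n472 (.cons 759 n799 .nil)
noncomputable def n801 : Strat := .move 798 n475 (.cons 963 n786 (.cons 839 n800 (.cons 841 n712 .nil)))
noncomputable def n802 : Strat := .win 798 6 798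
noncomputable def n803 : Strat := .move 839 n802 (.cons 798 n648 .nil)
noncomputable def n804 : Strat := .move 963 n803 (.cons 798 n483 .nil)
noncomputable def n805 : Strat := .move 880 n505 (.cons 758 n804 .nil)
noncomputable def n806 : Strat := .move 921 n98 (.cons 962 n805 .nil)
noncomputable def n807 : Strat := .move 922 n801 (.cons 755 n721 (.cons 921 n485 (.cons 963 n518 (.cons 800 n806 .nil))))
noncomputable def n808 : Strat := .win 715 7 715
noncomputable def n809 : Strat := .win 754 0 754
noncomputable def n810 : Strat := .move 755 n809 (.cons 754 n365 .nil)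
noncomputable def n811 : Strat := .move 756 n808 (.cons 715 n810 .nil)
noncomputable def n812 : Strat := .move 839 n27 (.cons 717 n811 .nil)
noncomputable def n813 : Strat := .move 880 n22 (.cons 921 n812 .nil)
noncomputable def n814 : Strat := .move 798 n163 (.cons 922 n813 .nil)
noncomputable def n815 : Strat := .move 757 n15 (.cons 716 n814 .nil)
noncomputable def n816 : Strat := .move 677 n83 (.cons 636 n82 .nil)
noncomputable def n817 : Strat := .move 676 n50 (.cons 634 n816 .nil)
noncomputable def n818 : Strat := .move 675 n49 (.cons 716 n817 .nil)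
noncomputable def n819 : Strat := .move 717 n23 (.cons 839 n818 .nil)
noncomputable def n820 : Strat := .move 880 n22 (.cons 921 n819 .nil)
noncomputable def n821 : Strat := .move 963 n153 (.cons 1005 n152 .nil)
noncomputable def n822 : Strat := .move 964 n154 (.cons 923 n821 .nil)
noncomputable def n823 : Strat := .move 922 n16 (.cons 798 n822 .nil)
noncomputable def n824 : Strat := .move 757 n15 (.cons 716 n823 .nil)
noncomputable def n825 : Strat := .move 963 n471 (.cons 839 n155 .nil)
noncomputable def n826 : Strat := .move 798 n470 (.cons 757 n825 .nil)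
noncomputable def n827 : Strat := .move 922 n98 (.cons 962 n826 .nil)
noncomputable def n828 : Strat := .move 921 n97 (.cons 880 n827 .nil)
noncomputable def n829 : Strat := .move 676 n8 (.cons 798 n816 .nil)
noncomputable def n830 : Strat := .move 839 n7 (.cons 880 n829 .nil)
noncomputable def n831 : Strat := .move 717 n0 (.cons 675 n830 .nil)
noncomputable def n832 : Strat := .move 716 n1 (.cons 757 n831 .nil)
noncomputable def n833 : Strat := .move 758 n815 (.cons 757 n820 (.cons 880 n824 (.cons 716 n828 (.cons 921 n832 .nil))))
noncomputable def n834 : Strat := .move 922 n752 (.cons 759 n487 (.cons 839 n485 (.cons 963 n792 .nil)))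
noncomputable def n835 : Strat := .move 758 n361 (.cons 798 n103 (.cons 759 n101 (.cons 922 n372 .nil)))
noncomputable def n836 : Strat := .move 757 n15 (.cons 716 n319 .nil)
noncomputable def n837 : Strat := .move 759 n17 (.cons 718 n836 .nil)
noncomputable def n838 : Strat := .move 880 n27 (.cons 717 n22 .nil)
noncomputable def n839 : Strat := .win 798 4 797
noncomputable def n840 : Strat := .move 838 n839 (.cons 798 n597 .nil)
noncomputable def n841 : Strat := .move 839 n838 (.cons 921 n840 .nil)
noncomputable def n842 : Strat := .move 801 n317 (.cons 802 n841 .nil)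
noncomputable def n843 : Strat := .move 757 n15 (.cons 716 n842 .nil)
noncomputable def n844 : Strat := .move 759 n17 (.cons 718 n843 .nil)
noncomputable def n845 : Strat := .move 756 n105 (.cons 755 n104 .nil)
noncomputable def n846 : Strat := .move 757 n15 (.cons 716 n845 .nil)
noncomputable def n847 : Strat := .move 759 n17 (.cons 718 n846 .nil)
noncomputable def n848 : Strat := .win 841 6 676
noncomputable def n849 : Strat := .move 676 n743 (.cons 635 n848 .nil)
noncomputable def n850 : Strat := .move 717 n43 (.cons 921 n849 .nil)
noncomputable def n851 : Strat := .move 756 n105 (.cons 755 n850 .nil)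
noncomputable def n852 : Strat := .move 757 n15 (.cons 716 n851 .nil)
noncomputable def n853 : Strat := .move 759 n17 (.cons 718 n852 .nil)
noncomputable def n854 : Strat := .win 756 2 756
noncomputable def n855 : Strat := .move 839 n494 (.cons 838 n838 .nil)
noncomputable def n856 : Strat := .move 798 n854 (.cons 756 n855 .nil)
noncomputable def n857 : Strat := .move 801 n317 (.cons 802 n856 .nil)
noncomputable def n858 : Strat := .move 757 n15 (.cons 716 n857 .nil)
noncomputable def n859 : Strat := .move 717 n23 (.cons 839 n849 .nil)
noncomputable def n860 : Strat := .move 880 n22 (.cons 921 n859 .nil)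
noncomputable def n861 : Strat := .move 759 n17 (.cons 718 n860 .nil)
noncomputable def n862 : Strat := .move 800 n837 (.cons 756 n844 (.cons 802 n847 (.cons 801 n853 (.cons 759 n858 (.cons 757 n861 .nil)))))
noncomputable def n863 : Strat := .move 717 n23 (.cons 839 n695 .nil)
noncomputable def n864 : Strat := .move 880 n22 (.cons 921 n863 .nil)
noncomputable def n865 : Strat := .move 758 n862 (.cons 880 n778 (.cons 757 n864 (.cons 759 n795 .nil)))
noncomputable def n866 : Strat := .move 881 n788 (.cons 758 n793 (.cons 798 n796 (.cons 800 n797 (.cons 757 n807 (.cons 759 n833 (.cons 921 n834 (.cons 839 n835 (.cons 922 n865 .nil))))))))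
noncomputable def n867 : Strat := .move 881 n103 (.cons 962 n337 (.cons 759 n34 .nil))
noncomputable def n868 : Strat := .move 717 n38 (.cons 841 n402 (.cons 676 n577 (.cons 880 n86 (.cons 800 n176 .nil))))
noncomputable def n869 : Strat := .move 718 n2 (.cons 677 n38 .nil)
noncomputable def n870 : Strat := .move 798 n571 (.cons 843 n570 .nil)
noncomputable def n871 : Strat := .win 798 2 798
noncomputable def n872 : Strat := .win 885 0 840
noncomputable def n873 : Strat := .win 883 0 839
noncomputable def n874 : Strat := .move 884 n872 (.cons 885 n873 .nil)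
noncomputable def n875 : Strat := .move 843 n871 (.cons 798 n874 .nil)
noncomputable def n876 : Strat := .move 842 n870 (.cons 797 n875 (.cons 843 n603 .nil))
noncomputable def n877 : Strat := .move 718 n2 (.cons 677 n876 .nil)
noncomputable def n878 : Strat := .move 841 n9 (.cons 882 n877 .nil)
noncomputable def n879 : Strat := .move 839 n7 (.cons 880 n878 .nil)
noncomputable def n880 : Strat := .move 717 n869 (.cons 841 n95 (.cons 880 n86 (.cons 677 n595 (.cons 676 n879 .nil))))
noncomputable def n881 : Strat := .move 838 n612 (.cons 800 n622 (.cons 837 n629 .nil))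
noncomputable def n882 : Strat := .move 841 n9 (.cons 882 n881 .nil)
noncomputable def n883 : Strat := .move 839 n7 (.cons 880 n882 .nil)
noncomputable def n884 : Strat := .move 717 n610 (.cons 880 n86 (.cons 882 n95 (.cons 676 n883 .nil)))
noncomputable def n885 : Strat := .win 719 5 715
noncomputable def n886 : Strat := .move 756 n89 (.cons 755 n885 .nil)
noncomputable def n887 : Strat := .win 719 4 716
noncomputable def n888 : Strat := .win 635 1 634
noncomputable def n889 : Strat := .win 839 1 675
noncomputable def n890 : Strat := .move 676 n888 (.cons 635 n889 .nil)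
noncomputable def n891 : Strat := .move 760 n111 (.cons 797 n110 .nil)
noncomputable def n892 : Strat := .move 798 n890 (.cons 839 n891 .nil)
noncomputable def n893 : Strat := .move 720 n887 (.cons 719 n892 .nil)
noncomputable def n894 : Strat := .move 756 n89 (.cons 755 n892 .nil)
noncomputable def n895 : Strat := .move 757 n886 (.cons 756 n893 (.cons 719 n894 .nil))
noncomputable def n896 : Strat := .move 759 n75 (.cons 881 n895 .nil)
noncomputable def n897 : Strat := .move 718 n2 (.cons 677 n896 .nil)
noncomputable def n898 : Strat := .win 757 1 634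
noncomputable def n899 : Strat := .win 595 3 594
noncomputable def n900 : Strat := .win 677 3 635
noncomputable def n901 : Strat := .move 636 n899 (.cons 595 n900 .nil)
noncomputable def n902 : Strat := .move 635 n898 (.cons 757 n901 .nil)
noncomputable def n903 : Strat := .move 798 n889 (.cons 839 n902 .nil)
noncomputable def n904 : Strat := .move 676 n10 (.cons 800 n903 .nil)
noncomputable def n905 : Strat := .move 841 n9 (.cons 882 n904 .nil)
noncomputable def n906 : Strat := .win 593 7 593
noncomputable def n907 : Strat := .win 675 7 634
noncomputable def n908 : Strat := .move 634 n906 (.cons 593 n907 .nil)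
noncomputable def n909 : Strat := .move 635 n898 (.cons 757 n908 .nil)
noncomputable def n910 : Strat := .move 798 n889 (.cons 839 n909 .nil)
noncomputable def n911 : Strat := .move 676 n10 (.cons 800 n910 .nil)
noncomputable def n912 : Strat := .move 841 n9 (.cons 882 n911 .nil)
noncomputable def n913 : Strat := .move 717 n86 (.cons 841 n897 (.cons 718 n905 (.cons 676 n42 (.cons 677 n912 .nil))))
noncomputable def n914 : Strat := .win 757 2 757
noncomputable def n915 : Strat := .win 803 2 758
noncomputable def n916 : Strat := .move 802 n914 (.cons 757 n915 .nil)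
noncomputable def n917 : Strat := .move 757 n318 (.cons 756 n317 .nil)
noncomputable def n918 : Strat := .win 760 5 756
noncomputable def n919 : Strat := .move 797 n918 (.cons 760 n164 .nil)
noncomputable def n920 : Strat := .win 797 5 756
noncomputable def n921 : Strat := .move 760 n920 (.cons 797 n110 .nil)
noncomputable def n922 : Strat := .win 757 0 756
noncomputable def n923 : Strat := .move 797 n497 (.cons 755 n164 .nil)
noncomputable def n924 : Strat := .move 756 n922 (.cons 757 n923 .nil)
noncomputable def n925 : Strat := .move 880 n22 (.cons 921 n27 .nil)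
noncomputable def n926 : Strat := .move 839 n494 (.cons 838 n925 .nil)
noncomputable def n927 : Strat := .move 798 n919 (.cons 796 n921 (.cons 760 n924 (.cons 797 n926 .nil)))
noncomputable def n928 : Strat := .move 802 n915 (.cons 803 n677 .nil)
noncomputable def n929 : Strat := .move 801 n916 (.cons 803 n917 (.cons 802 n927 (.cons 757 n928 .nil)))
noncomputable def n930 : Strat := .move 800 n316 (.cons 922 n929 .nil)
noncomputable def n931 : Strat := .move 759 n17 (.cons 718 n930 .nil)
noncomputable def n932 : Strat := .move 963 n471 (.cons 839 n152 .nil)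
noncomputable def n933 : Strat := .move 798 n470 (.cons 757 n932 .nil)
noncomputable def n934 : Strat := .move 922 n18 (.cons 800 n933 .nil)
noncomputable def n935 : Strat := .move 759 n17 (.cons 718 n934 .nil)
noncomputable def n936 : Strat := .move 717 n126 (.cons 676 n7 .nil)
noncomputable def n937 : Strat := .move 839 n494 (.cons 838 n936 .nil)
noncomputable def n938 : Strat := .move 798 n919 (.cons 796 n921 (.cons 760 n924 (.cons 797 n937 .nil)))
noncomputable def n939 : Strat := .move 801 n916 (.cons 803 n917 (.cons 802 n938 (.cons 757 n928 .nil)))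
noncomputable def n940 : Strat := .move 800 n316 (.cons 922 n939 .nil)
noncomputable def n941 : Strat := .move 759 n17 (.cons 718 n940 .nil)
noncomputable def n942 : Strat := .move 881 n103 (.cons 759 n828 (.cons 962 n931 (.cons 922 n162 (.cons 880 n935 (.cons 921 n941 .nil)))))
noncomputable def n943 : Strat := .move 881 n17 (.cons 718 n102 .nil)
noncomputable def n944 : Strat := .move 881 n102 (.cons 800 n220 (.cons 921 n393 .nil))
noncomputable def n945 : Strat := .move 881 n17 (.cons 718 n220 .nil)
noncomputable def n946 : Strat := .move 881 n17 (.cons 718 n393 .nil)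
noncomputable def n947 : Strat := .win 757 4 756
noncomputable def n948 : Strat := .move 760 n110 (.cons 761 n947 .nil)
noncomputable def n949 : Strat := .move 797 n164 (.cons 796 n948 .nil)
noncomputable def n950 : Strat := .move 800 n918 (.cons 760 n755 .nil)
noncomputable def n951 : Strat := .move 797 n164 (.cons 796 n950 .nil)
noncomputable def n952 : Strat := .move 757 n318 (.cons 756 n307 .nil)
noncomputable def n953 : Strat := .win 677 1 676
noncomputable def n954 : Strat := .win 883 7 718
noncomputable def n955 : Strat := .move 842 n954 (.cons 883 n682 .nil)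
noncomputable def n956 : Strat := .move 718 n953 (.cons 677 n955 .nil)
noncomputable def n957 : Strat := .move 801 n952 (.cons 802 n956 .nil)
noncomputable def n958 : Strat := .move 802 n677 (.cons 839 n915 .nil)
noncomputable def n959 : Strat := .move 801 n958 (.cons 803 n673 (.cons 839 n955 .nil))
noncomputable def n960 : Strat := .move 718 n953 (.cons 677 n959 .nil)
noncomputable def n961 : Strat := .move 757 n318 (.cons 756 n764 .nil)
noncomputable def n962 : Strat := .win 841 1 677
noncomputable def n963 : Strat := .win 637 1 636
noncomputable def n964 : Strat := .move 678 n962 (.cons 841 n963 .nil)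
noncomputable def n965 : Strat := .move 719 n961 (.cons 720 n964 .nil)
noncomputable def n966 : Strat := .win 757 0 757
noncomputable def n967 : Strat := .move 802 n915 (.cons 803 n966 .nil)
noncomputable def n968 : Strat := .move 801 n952 (.cons 802 n965 (.cons 756 n967 (.cons 757 n958 .nil)))
noncomputable def n969 : Strat := .win 882 3 718
noncomputable def n970 : Strat := .move 841 n579 (.cons 678 n969 .nil)
noncomputable def n971 : Strat := .win 841 3 677
noncomputable def n972 : Strat := .move 678 n971 (.cons 841 n963 .nil)
noncomputable def n973 : Strat := .win 757 5 716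
noncomputable def n974 : Strat := .move 720 n580 (.cons 721 n973 .nil)
noncomputable def n975 : Strat := .move 719 n970 (.cons 882 n972 (.cons 678 n974 .nil))
noncomputable def n976 : Strat := .move 718 n953 (.cons 677 n975 .nil)
noncomputable def n977 : Strat := .move 800 n957 (.cons 757 n960 (.cons 883 n968 (.cons 801 n976 .nil)))
noncomputable def n978 : Strat := .move 760 n110 (.cons 761 n977 .nil)
noncomputable def n979 : Strat := .move 842 n682 (.cons 843 n733 .nil)
noncomputable def n980 : Strat := .move 801 n922 (.cons 757 n979 .nil)
noncomputable def n981 : Strat := .move 756 n497 (.cons 755 n980 .nil)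
noncomputable def n982 : Strat := .move 801 n922 (.cons 757 n753 .nil)
noncomputable def n983 : Strat := .move 756 n497 (.cons 755 n982 .nil)
noncomputable def n984 : Strat := .move 841 n579 (.cons 678 n488 .nil)
noncomputable def n985 : Strat := .win 757 5 715
noncomputable def n986 : Strat := .move 756 n985 (.cons 757 n497 .nil)
noncomputable def n987 : Strat := .move 719 n984 (.cons 842 n986 .nil)
noncomputable def n988 : Strat := .move 718 n953 (.cons 677 n987 .nil)
noncomputable def n989 : Strat := .move 800 n981 (.cons 757 n755 (.cons 843 n983 (.cons 801 n988 .nil)))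
noncomputable def n990 : Strat := .move 797 n164 (.cons 796 n989 .nil)
noncomputable def n991 : Strat := .move 798 n949 (.cons 757 n951 (.cons 797 n978 (.cons 760 n990 .nil)))
noncomputable def n992 : Strat := .move 759 n943 (.cons 718 n944 (.cons 800 n945 (.cons 921 n946 (.cons 881 n991 .nil))))
noncomputable def n993 : Strat := .win 757 6 757
noncomputable def n994 : Strat := .win 963 7 798
noncomputable def n995 : Strat := .move 798 n993 (.cons 757 n994 .nil)
noncomputable def n996 : Strat := .move 759 n18 (.cons 800 n650 .nil)
noncomputable def n997 : Strat := .move 963 n473 (.cons 841 n648 .nil)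
noncomputable def n998 : Strat := .move 800 n472 (.cons 759 n997 .nil)
noncomputable def n999 : Strat := .move 801 n494 (.cons 838 n493 .nil)
noncomputable def n1000 : Strat := .move 800 n472 (.cons 759 n999 .nil)
noncomputable def n1001 : Strat := .move 798 n993 (.cons 757 n1000 .nil)
noncomputable def n1002 : Strat := .move 922 n995 (.cons 757 n996 (.cons 798 n998 (.cons 963 n1001 .nil)))
noncomputable def n1003 : Strat := .move 839 n27 (.cons 717 n1002 .nil)
noncomputable def n1004 : Strat := .move 880 n22 (.cons 921 n1003 .nil)
noncomputable def n1005 : Strat := .move 759 n102 (.cons 800 n220 (.cons 921 n393 .nil))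
noncomputable def n1006 : Strat := .win 759 1 758
noncomputable def n1007 : Strat := .move 800 n1006 (.cons 759 n715 .nil)
noncomputable def n1008 : Strat := .win 800 3 799
noncomputable def n1009 : Strat := .win 1004 3 840
noncomputable def n1010 : Strat := .move 963 n1008 (.cons 800 n1009 .nil)
noncomputable def n1011 : Strat := .move 963 n471 (.cons 839 n1009 .nil)
noncomputable def n1012 : Strat := .move 798 n470 (.cons 757 n1011 .nil)
noncomputable def n1013 : Strat := .move 800 n1006 (.cons 759 n717 .nil)
noncomputable def n1014 : Strat := .move 922 n1007 (.cons 759 n1010 (.cons 800 n1012 (.cons 963 n1013 .nil)))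
noncomputable def n1015 : Strat := .move 841 n322 (.cons 717 n1014 .nil)
noncomputable def n1016 : Strat := .move 882 n28 (.cons 923 n1015 .nil)
noncomputable def n1017 : Strat := .move 881 n34 (.cons 839 n343 (.cons 882 n1004 (.cons 717 n1005 (.cons 880 n1016 .nil))))
noncomputable def n1018 : Strat := .move 758 n867 (.cons 921 n868 (.cons 881 n880 (.cons 759 n884 (.cons 839 n344 (.cons 880 n913 (.cons 841 n395 (.cons 800 n149 (.cons 882 n942 (.cons 717 n992 (.cons 718 n1017 .nil))))))))))
noncomputable def n1019 : Strat := .move 757 n88 (.cons 881 n65 .nil)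
noncomputable def n1020 : Strat := .move 718 n2 (.cons 677 n1019 .nil)
noncomputable def n1021 : Strat := .move 716 n0 (.cons 675 n1020 .nil)
noncomputable def n1022 : Strat := .move 841 n55 (.cons 800 n1021 (.cons 716 n37 .nil))
noncomputable def n1023 : Strat := .move 717 n56 (.cons 716 n38 (.cons 882 n1022 (.cons 800 n171 (.cons 841 n357 .nil))))
noncomputable def n1024 : Strat := .move 881 n227 (.cons 882 n708 (.cons 759 n180 .nil))
noncomputable def n1025 : Strat := .win 798 1 634
noncomputable def n1026 : Strat := .win 594 1 593
noncomputable def n1027 : Strat := .move 635 n1025 (.cons 798 n1026 .nil)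
noncomputable def n1028 : Strat := .move 676 n10 (.cons 800 n1027 .nil)
noncomputable def n1029 : Strat := .move 841 n9 (.cons 882 n1028 .nil)
noncomputable def n1030 : Strat := .move 757 n88 (.cons 881 n1029 .nil)
noncomputable def n1031 : Strat := .move 716 n0 (.cons 675 n1030 .nil)
noncomputable def n1032 : Strat := .win 878 4 837
noncomputable def n1033 : Strat := .win 798 1 715
noncomputable def n1034 : Strat := .move 879 n1032 (.cons 878 n1033 .nil)
noncomputable def n1035 : Strat := .move 800 n596 (.cons 801 n597 .nil)
noncomputable def n1036 : Strat := .move 838 n1034 (.cons 798 n1035 .nil)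
noncomputable def n1037 : Strat := .move 841 n9 (.cons 882 n1036 .nil)
noncomputable def n1038 : Strat := .move 839 n7 (.cons 880 n1037 .nil)
noncomputable def n1039 : Strat := .move 757 n88 (.cons 881 n1038 .nil)
noncomputable def n1040 : Strat := .move 716 n0 (.cons 675 n1039 .nil)
noncomputable def n1041 : Strat := .move 717 n38 (.cons 839 n1031 (.cons 841 n410 (.cons 676 n1040 (.cons 798 n56 .nil))))
noncomputable def n1042 : Strat := .move 717 n1022 (.cons 841 n357 (.cons 881 n95 (.cons 718 n410 .nil)))
noncomputable def n1043 : Strat := .move 881 n296 (.cons 716 n394 (.cons 718 n224 (.cons 922 n770 .nil)))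
noncomputable def n1044 : Strat := .move 757 n63 (.cons 720 n64 .nil)
noncomputable def n1045 : Strat := .win 762 0 717
noncomputable def n1046 : Strat := .win 760 0 716
noncomputable def n1047 : Strat := .move 761 n1045 (.cons 762 n1046 .nil)
noncomputable def n1048 : Strat := .move 720 n581 (.cons 757 n1047 .nil)
noncomputable def n1049 : Strat := .move 760 n77 (.cons 715 n251 .nil)
noncomputable def n1050 : Strat := .win 800 3 677
noncomputable def n1051 : Strat := .move 678 n1050 (.cons 800 n270 .nil)
noncomputable def n1052 : Strat := .move 759 n637 (.cons 714 n1049 (.cons 760 n1051 .nil))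
noncomputable def n1053 : Strat := .move 719 n1044 (.cons 756 n1048 (.cons 720 n1052 .nil))
noncomputable def n1054 : Strat := .move 841 n9 (.cons 882 n1053 .nil)
noncomputable def n1055 : Strat := .move 718 n2 (.cons 677 n1054 .nil)
noncomputable def n1056 : Strat := .move 716 n0 (.cons 675 n1055 .nil)
noncomputable def n1057 : Strat := .move 717 n56 (.cons 841 n417 (.cons 716 n38 (.cons 676 n1056 .nil)))
noncomputable def n1058 : Strat := .move 758 n1023 (.cons 757 n591 (.cons 800 n178 (.cons 798 n1024 (.cons 716 n868 (.cons 718 n1041 (.cons 882 n1042 (.cons 717 n1043 (.cons 841 n418 (.cons 881 n1057 .nil)))))))))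
noncomputable def n1059 : Strat := .move 798 n163 (.cons 922 n165 .nil)
noncomputable def n1060 : Strat := .move 759 n17 (.cons 718 n1059 .nil)
noncomputable def n1061 : Strat := .move 757 n15 (.cons 716 n1060 .nil)
noncomputable def n1062 : Strat := .move 676 n848 (.cons 841 n743 .nil)
noncomputable def n1063 : Strat := .move 717 n23 (.cons 839 n1062 .nil)
noncomputable def n1064 : Strat := .move 880 n22 (.cons 921 n1063 .nil)
noncomputable def n1065 : Strat := .move 800 n316 (.cons 922 n1064 .nil)
noncomputable def n1066 : Strat := .move 759 n17 (.cons 718 n1065 .nil)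
noncomputable def n1067 : Strat := .move 758 n1061 (.cons 759 n795 (.cons 716 n1066 .nil))
noncomputable def n1068 : Strat := .move 922 n476 (.cons 800 n713 (.cons 839 n721 (.cons 963 n503 .nil)))
noncomputable def n1069 : Strat := .move 801 n317 (.cons 802 n854 .nil)
noncomputable def n1070 : Strat := .win 801 2 756
noncomputable def n1071 : Strat := .move 756 n105 (.cons 755 n1070 .nil)
noncomputable def n1072 : Strat := .win 756 0 755
noncomputable def n1073 : Strat := .move 842 n684 (.cons 797 n571 .nil)
noncomputable def n1074 : Strat := .move 717 n267 (.cons 676 n9 .nil)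
noncomputable def n1075 : Strat := .move 841 n716 (.cons 796 n1073 (.cons 842 n1074 .nil))
noncomputable def n1076 : Strat := .move 755 n1072 (.cons 756 n1075 .nil)
noncomputable def n1077 : Strat := .move 842 n684 (.cons 797 n682 .nil)
noncomputable def n1078 : Strat := .move 841 n716 (.cons 796 n1077 (.cons 842 n1074 .nil))
noncomputable def n1079 : Strat := .move 801 n317 (.cons 802 n1078 .nil)
noncomputable def n1080 : Strat := .move 800 n1069 (.cons 802 n1071 (.cons 801 n1076 (.cons 756 n1079 .nil)))
noncomputable def n1081 : Strat := .move 798 n163 (.cons 922 n1080 .nil)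
noncomputable def n1082 : Strat := .move 757 n15 (.cons 716 n1081 .nil)
noncomputable def n1083 : Strat := .move 676 n10 (.cons 800 n816 .nil)
noncomputable def n1084 : Strat := .move 841 n9 (.cons 882 n1083 .nil)
noncomputable def n1085 : Strat := .move 717 n23 (.cons 839 n1084 .nil)
noncomputable def n1086 : Strat := .move 880 n22 (.cons 921 n1085 .nil)
noncomputable def n1087 : Strat := .move 758 n795 (.cons 839 n101 (.cons 880 n1082 (.cons 757 n1086 .nil)))
noncomputable def n1088 : Strat := .move 758 n864 (.cons 759 n795 (.cons 839 n465 .nil))
noncomputable def n1089 : Strat := .move 757 n15 (.cons 716 n761 .nil)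
noncomputable def n1090 : Strat := .move 800 n316 (.cons 922 n1089 .nil)
noncomputable def n1091 : Strat := .move 759 n17 (.cons 718 n1090 .nil)
noncomputable def n1092 : Strat := .move 880 n22 (.cons 921 n1091 .nil)
noncomputable def n1093 : Strat := .move 880 n22 (.cons 921 n23 .nil)
noncomputable def n1094 : Strat := .move 717 n39 (.cons 841 n1093 .nil)
noncomputable def n1095 : Strat := .move 882 n696 (.cons 717 n1092 (.cons 759 n1094 .nil))
noncomputable def n1096 : Strat := .move 758 n1095 (.cons 759 n795 (.cons 716 n864 (.cons 839 n708 .nil)))
noncomputable def n1097 : Strat := .move 758 n189 (.cons 882 n193 (.cons 880 n168 (.cons 757 n162 (.cons 759 n26 .nil))))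
noncomputable def n1098 : Strat := .win 1044 1 880
noncomputable def n1099 : Strat := .win 962 1 839
noncomputable def n1100 : Strat := .move 1003 n1098 (.cons 1044 n1099 .nil)
noncomputable def n1101 : Strat := .win 1046 6 881
noncomputable def n1102 : Strat := .win 964 6 840
noncomputable def n1103 : Strat := .move 1005 n1101 (.cons 1046 n1102 .nil)
noncomputable def n1104 : Strat := .move 1004 n1100 (.cons 962 n1103 .nil)
noncomputable def n1105 : Strat := .move 758 n15 (.cons 716 n1104 .nil)
noncomputable def n1106 : Strat := .move 757 n16 (.cons 798 n1105 .nil)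
noncomputable def n1107 : Strat := .move 963 n473 (.cons 841 n1106 .nil)
noncomputable def n1108 : Strat := .move 800 n472 (.cons 759 n1107 .nil)
noncomputable def n1109 : Strat := .move 798 n470 (.cons 757 n1073 .nil)
noncomputable def n1110 : Strat := .move 841 n715 (.cons 963 n1109 .nil)
noncomputable def n1111 : Strat := .move 800 n472 (.cons 759 n1110 .nil)
noncomputable def n1112 : Strat := .move 922 n721 (.cons 759 n479 (.cons 921 n1108 (.cons 962 n1111 .nil)))
noncomputable def n1113 : Strat := .win 758 7 716
noncomputable def n1114 : Strat := .win 675 6 675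
noncomputable def n1115 : Strat := .move 716 n1113 (.cons 758 n1114 .nil)
noncomputable def n1116 : Strat := .move 757 n163 (.cons 922 n1115 .nil)
noncomputable def n1117 : Strat := .win 839 6 716
noncomputable def n1118 : Strat := .move 716 n1114 (.cons 675 n1117 .nil)
noncomputable def n1119 : Strat := .move 757 n163 (.cons 922 n1118 .nil)
noncomputable def n1120 : Strat := .move 963 n471 (.cons 839 n473 .nil)
noncomputable def n1121 : Strat := .move 800 n472 (.cons 759 n1120 .nil)
noncomputable def n1122 : Strat := .move 922 n470 (.cons 757 n1121 .nil)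
noncomputable def n1123 : Strat := .move 716 n1113 (.cons 758 n1117 .nil)
noncomputable def n1124 : Strat := .move 839 n126 (.cons 676 n7 .nil)
noncomputable def n1125 : Strat := .move 676 n889 (.cons 839 n888 .nil)
noncomputable def n1126 : Strat := .move 882 n39 (.cons 841 n1125 .nil)
noncomputable def n1127 : Strat := .move 676 n10 (.cons 800 n888 .nil)
noncomputable def n1128 : Strat := .move 841 n9 (.cons 882 n1127 .nil)
noncomputable def n1129 : Strat := .move 842 n570 (.cons 797 n571 .nil)
noncomputable def n1130 : Strat := .move 841 n9 (.cons 882 n1129 .nil)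
noncomputable def n1131 : Strat := .move 839 n7 (.cons 880 n1130 .nil)
noncomputable def n1132 : Strat := .move 717 n1124 (.cons 880 n1126 (.cons 839 n1128 (.cons 676 n1131 .nil)))
noncomputable def n1133 : Strat := .move 717 n1124 (.cons 880 n890 (.cons 839 n695 .nil))
noncomputable def n1134 : Strat := .move 758 n166 (.cons 759 n1132 (.cons 797 n1133 .nil))
noncomputable def n1135 : Strat := .move 757 n1115 (.cons 758 n1118 (.cons 675 n1123 (.cons 716 n1134 .nil)))
noncomputable def n1136 : Strat := .win 800 0 797
noncomputable def n1137 : Strat := .move 797 n128 (.cons 796 n1136 .nil)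
noncomputable def n1138 : Strat := .move 842 n571 (.cons 843 n1137 .nil)
noncomputable def n1139 : Strat := .move 922 n715 (.cons 963 n472 .nil)
noncomputable def n1140 : Strat := .move 800 n1139 (.cons 759 n999 .nil)
noncomputable def n1141 : Strat := .move 839 n570 (.cons 797 n1140 .nil)
noncomputable def n1142 : Strat := .move 842 n571 (.cons 843 n1141 .nil)
noncomputable def n1143 : Strat := .win 883 0 838
noncomputable def n1144 : Strat := .move 882 n1143 (.cons 883 n29 .nil)
noncomputable def n1145 : Strat := .win 882 0 838
noncomputable def n1146 : Strat := .move 883 n1145 (.cons 882 n567 .nil)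
noncomputable def n1147 : Strat := .win 800 4 797
noncomputable def n1148 : Strat := .move 801 n1147 (.cons 800 n624 .nil)
noncomputable def n1149 : Strat := .move 838 n1144 (.cons 837 n1146 (.cons 883 n1148 .nil))
noncomputable def n1150 : Strat := .win 880 4 838
noncomputable def n1151 : Strat := .move 838 n1032 (.cons 878 n1144 .nil)
noncomputable def n1152 : Strat := .move 879 n1150 (.cons 880 n1151 .nil)
noncomputable def n1153 : Strat := .win 879 4 838
noncomputable def n1154 : Strat := .move 922 n994 (.cons 963 n18 .nil)
noncomputable def n1155 : Strat := .move 758 n27 (.cons 717 n17 .nil)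
noncomputable def n1156 : Strat := .move 759 n1154 (.cons 800 n1155 .nil)
noncomputable def n1157 : Strat := .move 880 n1153 (.cons 879 n1156 .nil)
noncomputable def n1158 : Strat := .move 839 n1140 (.cons 759 n1149 (.cons 800 n1152 (.cons 838 n1157 .nil)))
noncomputable def n1159 : Strat := .move 842 n571 (.cons 843 n1158 .nil)
noncomputable def n1160 : Strat := .move 839 n570 (.cons 797 n1152 .nil)
noncomputable def n1161 : Strat := .move 842 n571 (.cons 843 n1160 .nil)
noncomputable def n1162 : Strat := .win 718 1 717
noncomputable def n1163 : Strat := .move 759 n316 (.cons 922 n1162 .nil)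
noncomputable def n1164 : Strat := .move 800 n488 (.cons 842 n1163 .nil)
noncomputable def n1165 : Strat := .move 797 n128 (.cons 796 n1164 .nil)
noncomputable def n1166 : Strat := .move 800 n316 (.cons 922 n1162 .nil)
noncomputable def n1167 : Strat := .move 800 n1162 (.cons 718 n918 .nil)
noncomputable def n1168 : Strat := .move 839 n7 (.cons 880 n126 .nil)
noncomputable def n1169 : Strat := .move 717 n9 (.cons 882 n1168 .nil)
noncomputable def n1170 : Strat := .move 758 n17 (.cons 718 n1169 .nil)
noncomputable def n1171 : Strat := .move 800 n316 (.cons 922 n918 .nil)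
noncomputable def n1172 : Strat := .move 759 n1166 (.cons 922 n1167 (.cons 800 n1170 (.cons 718 n1171 .nil)))
noncomputable def n1173 : Strat := .move 797 n128 (.cons 796 n1172 .nil)
noncomputable def n1174 : Strat := .move 841 n1138 (.cons 796 n1142 (.cons 797 n1159 (.cons 800 n1161 (.cons 843 n1165 (.cons 842 n1173 .nil)))))
noncomputable def n1175 : Strat := .move 798 n1116 (.cons 758 n1119 (.cons 716 n1122 (.cons 922 n1135 (.cons 757 n1174 .nil))))
noncomputable def n1176 : Strat := .win 880 7 839
noncomputable def n1177 : Strat := .move 1004 n1176 (.cons 880 n1100 .nil)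
noncomputable def n1178 : Strat := .move 839 n649 (.cons 798 n1177 .nil)
noncomputable def n1179 : Strat := .move 963 n473 (.cons 841 n1178 .nil)
noncomputable def n1180 : Strat := .move 800 n472 (.cons 759 n1179 .nil)
noncomputable def n1181 : Strat := .win 839 7 839
noncomputable def n1182 : Strat := .win 1045 7 880
noncomputable def n1183 : Strat := .move 1004 n1181 (.cons 839 n1182 .nil)
noncomputable def n1184 : Strat := .win 882 3 840
noncomputable def n1185 : Strat := .move 1004 n1184 (.cons 882 n1182 .nil)
noncomputable def n1186 : Strat := .move 841 n1008 (.cons 800 n1185 .nil)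
noncomputable def n1187 : Strat := .move 842 n1153 (.cons 879 n338 .nil)
noncomputable def n1188 : Strat := .move 841 n1008 (.cons 800 n1187 .nil)
noncomputable def n1189 : Strat := .move 839 n802 (.cons 798 n1188 .nil)
noncomputable def n1190 : Strat := .move 963 n803 (.cons 798 n1183 (.cons 839 n1186 (.cons 1004 n1189 .nil)))
noncomputable def n1191 : Strat := .move 880 n505 (.cons 758 n1190 .nil)
noncomputable def n1192 : Strat := .move 921 n98 (.cons 962 n1191 .nil)
noncomputable def n1193 : Strat := .win 844 2 799
noncomputable def n1194 : Strat := .move 843 n871 (.cons 798 n1193 .nil)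
noncomputable def n1195 : Strat := .move 798 n684 (.cons 797 n571 .nil)
noncomputable def n1196 : Strat := .win 798 0 797
noncomputable def n1197 : Strat := .move 838 n626 (.cons 796 n597 .nil)
noncomputable def n1198 : Strat := .move 797 n1196 (.cons 798 n1197 .nil)
noncomputable def n1199 : Strat := .move 758 n27 (.cons 717 n22 .nil)
noncomputable def n1200 : Strat := .move 880 n1153 (.cons 879 n1199 .nil)
noncomputable def n1201 : Strat := .move 839 n598 (.cons 837 n600 (.cons 801 n1198 (.cons 838 n1200 .nil)))
noncomputable def n1202 : Strat := .win 880 4 839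
noncomputable def n1203 : Strat := .move 843 n1193 (.cons 844 n1202 .nil)
noncomputable def n1204 : Strat := .move 842 n1194 (.cons 844 n1195 (.cons 843 n1201 (.cons 798 n1203 .nil)))
noncomputable def n1205 : Strat := .move 841 n715 (.cons 963 n1204 .nil)
noncomputable def n1206 : Strat := .move 800 n472 (.cons 759 n1205 .nil)
noncomputable def n1207 : Strat := .move 1004 n1176 (.cons 880 n1103 .nil)
noncomputable def n1208 : Strat := .move 839 n649 (.cons 798 n1207 .nil)
noncomputable def n1209 : Strat := .move 963 n150 (.cons 1003 n1208 .nil)
noncomputable def n1210 : Strat := .move 962 n151 (.cons 921 n1209 .nil)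
noncomputable def n1211 : Strat := .move 922 n721 (.cons 921 n1180 (.cons 759 n1192 (.cons 962 n1206 (.cons 963 n518 (.cons 800 n1210 .nil)))))
noncomputable def n1212 : Strat := .move 881 n1067 (.cons 758 n1068 (.cons 759 n1087 (.cons 922 n1088 (.cons 798 n1096 (.cons 800 n1097 (.cons 880 n739 (.cons 839 n1112 (.cons 921 n1175 (.cons 757 n1211 .nil)))))))))
noncomputable def n1213 : Strat := .move 881 n21 (.cons 798 n227 (.cons 759 n182 .nil))
noncomputable def n1214 : Strat := .move 881 n21 (.cons 922 n231 .nil)
noncomputable def n1215 : Strat := .move 881 n21 (.cons 800 n101 (.cons 757 n103 (.cons 922 n457 .nil)))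
noncomputable def n1216 : Strat := .move 676 n10 (.cons 800 n8 .nil)
noncomputable def n1217 : Strat := .move 841 n9 (.cons 882 n1216 .nil)
noncomputable def n1218 : Strat := .move 839 n7 (.cons 880 n1217 .nil)
noncomputable def n1219 : Strat := .move 718 n2 (.cons 677 n1218 .nil)
noncomputable def n1220 : Strat := .move 716 n0 (.cons 675 n1219 .nil)
noncomputable def n1221 : Strat := .move 717 n1220 (.cons 839 n56 (.cons 841 n95 (.cons 676 n73 .nil)))
noncomputable def n1222 : Strat := .move 922 n18 (.cons 800 n477 .nil)
noncomputable def n1223 : Strat := .move 759 n17 (.cons 718 n1222 .nil)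
noncomputable def n1224 : Strat := .move 881 n1223 (.cons 798 n103 (.cons 759 n180 .nil))
noncomputable def n1225 : Strat := .move 881 n21 (.cons 800 n101 (.cons 757 n162 .nil))
noncomputable def n1226 : Strat := .move 881 n34 (.cons 883 n162 (.cons 880 n394 .nil))
noncomputable def n1227 : Strat := .move 839 n12 (.cons 676 n48 (.cons 882 n94 .nil))
noncomputable def n1228 : Strat := .move 718 n2 (.cons 677 n123 .nil)
noncomputable def n1229 : Strat := .move 716 n0 (.cons 675 n1228 .nil)
noncomputable def n1230 : Strat := .win 881 1 717
noncomputable def n1231 : Strat := .move 759 n1230 (.cons 881 n583 .nil)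
noncomputable def n1232 : Strat := .move 800 n267 (.cons 676 n1231 .nil)
noncomputable def n1233 : Strat := .move 841 n9 (.cons 882 n1232 .nil)
noncomputable def n1234 : Strat := .move 718 n2 (.cons 677 n1233 .nil)
noncomputable def n1235 : Strat := .move 717 n1227 (.cons 841 n1229 (.cons 881 n56 (.cons 716 n1234 .nil)))
noncomputable def n1236 : Strat := .move 758 n1213 (.cons 677 n1214 (.cons 717 n1215 (.cons 881 n1221 (.cons 800 n183 (.cons 839 n1224 (.cons 841 n1225 (.cons 716 n1226 (.cons 880 n1235 .nil))))))))
noncomputable def n1237 : Strat := .move 882 n28 (.cons 923 n39 .nil)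
noncomputable def n1238 : Strat := .move 717 n23 (.cons 839 n1237 .nil)
noncomputable def n1239 : Strat := .move 880 n22 (.cons 921 n1238 .nil)
noncomputable def n1240 : Strat := .move 758 n864 (.cons 880 n21 (.cons 759 n1239 .nil))
noncomputable def n1241 : Strat := .move 922 n487 (.cons 1005 n752 (.cons 798 n721 (.cons 963 n503 .nil)))
noncomputable def n1242 : Strat := .move 758 n864 (.cons 677 n231 (.cons 880 n704 (.cons 717 n457 .nil)))
noncomputable def n1243 : Strat := .move 880 n22 (.cons 921 n229 .nil)
noncomputable def n1244 : Strat := .move 882 n28 (.cons 923 n1243 .nil)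
noncomputable def n1245 : Strat := .move 758 n697 (.cons 677 n1244 (.cons 882 n864 (.cons 717 n103 .nil)))
noncomputable def n1246 : Strat := .move 758 n138 (.cons 882 n477 .nil)
noncomputable def n1247 : Strat := .move 923 n137 (.cons 964 n1246 .nil)
noncomputable def n1248 : Strat := .move 922 n485 (.cons 1005 n672 (.cons 800 n487 (.cons 963 n1247 .nil)))
noncomputable def n1249 : Strat := .move 922 n487 (.cons 798 n481 (.cons 923 n713 .nil))
noncomputable def n1250 : Strat := .move 758 n864 (.cons 880 n21 (.cons 759 n795 .nil))
noncomputable def n1251 : Strat := .move 758 n21 (.cons 759 n101 (.cons 798 n697 .nil))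
noncomputable def n1252 : Strat := .move 881 n1240 (.cons 758 n1241 (.cons 922 n1242 (.cons 798 n1245 (.cons 880 n1248 (.cons 759 n1249 (.cons 923 n1250 (.cons 839 n1251 .nil)))))))
noncomputable def n1253 : Strat := .move 922 n476 (.cons 963 n479 (.cons 798 n521 .nil))
noncomputable def n1254 : Strat := .move 758 n101 (.cons 716 n343 (.cons 921 n224 .nil))
noncomputable def n1255 : Strat := .move 717 n702 (.cons 757 n1237 .nil)
noncomputable def n1256 : Strat := .move 963 n473 (.cons 841 n152 .nil)
noncomputable def n1257 : Strat := .move 800 n472 (.cons 759 n1256 .nil)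
noncomputable def n1258 : Strat := .move 922 n16 (.cons 798 n1257 .nil)
noncomputable def n1259 : Strat := .move 757 n15 (.cons 716 n1258 .nil)
noncomputable def n1260 : Strat := .move 922 n137 (.cons 964 n1257 .nil)
noncomputable def n1261 : Strat := .move 923 n138 (.cons 882 n1260 .nil)
noncomputable def n1262 : Strat := .move 758 n1255 (.cons 882 n1259 (.cons 716 n1016 (.cons 841 n224 (.cons 757 n1261 .nil))))
noncomputable def n1263 : Strat := .move 842 n338 (.cons 843 n1153 .nil)
noncomputable def n1264 : Strat := .win 842 4 838
noncomputable def n1265 : Strat := .move 879 n197 (.cons 878 n1264 .nil)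
noncomputable def n1266 : Strat := .win 879 5 837
noncomputable def n1267 : Strat := .move 800 n1139 (.cons 759 n598 .nil)
noncomputable def n1268 : Strat := .move 878 n1266 (.cons 879 n1267 .nil)
noncomputable def n1269 : Strat := .move 842 n338 (.cons 843 n1267 .nil)
noncomputable def n1270 : Strat := .move 841 n1263 (.cons 843 n1265 (.cons 842 n1268 (.cons 879 n1269 .nil)))
noncomputable def n1271 : Strat := .move 839 n27 (.cons 717 n1270 .nil)
noncomputable def n1272 : Strat := .move 880 n22 (.cons 921 n1271 .nil)
noncomputable def n1273 : Strat := .move 963 n473 (.cons 841 n155 .nil)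
noncomputable def n1274 : Strat := .move 800 n472 (.cons 759 n1273 .nil)
noncomputable def n1275 : Strat := .move 922 n16 (.cons 798 n1274 .nil)
noncomputable def n1276 : Strat := .move 757 n15 (.cons 716 n1275 .nil)
noncomputable def n1277 : Strat := .win 920 1 756
noncomputable def n1278 : Strat := .move 841 n1264 (.cons 842 n197 .nil)
noncomputable def n1279 : Strat := .move 879 n1277 (.cons 920 n1278 .nil)
noncomputable def n1280 : Strat := .move 798 n811 (.cons 756 n1279 .nil)
noncomputable def n1281 : Strat := .move 757 n15 (.cons 716 n1280 .nil)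
noncomputable def n1282 : Strat := .move 839 n27 (.cons 717 n1281 .nil)
noncomputable def n1283 : Strat := .move 880 n22 (.cons 921 n1282 .nil)
noncomputable def n1284 : Strat := .move 758 n101 (.cons 757 n1272 (.cons 880 n1259 (.cons 921 n1276 (.cons 922 n1283 .nil))))
noncomputable def n1285 : Strat := .move 758 n422 (.cons 880 n224 (.cons 882 n101 .nil))
noncomputable def n1286 : Strat := .move 717 n43 (.cons 921 n24 .nil)
noncomputable def n1287 : Strat := .move 882 n28 (.cons 923 n454 .nil)
noncomputable def n1288 : Strat := .move 880 n22 (.cons 921 n1287 .nil)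
noncomputable def n1289 : Strat := .move 757 n15 (.cons 716 n1288 .nil)
noncomputable def n1290 : Strat := .move 758 n1286 (.cons 717 n1289 (.cons 880 n704 (.cons 757 n231 .nil)))
noncomputable def n1291 : Strat := .move 922 n487 (.cons 839 n485 (.cons 964 n752 (.cons 963 n503 .nil)))
noncomputable def n1292 : Strat := .move 921 n98 (.cons 962 n719 .nil)
noncomputable def n1293 : Strat := .move 1004 n1182 (.cons 1045 n1181 .nil)
noncomputable def n1294 : Strat := .move 963 n473 (.cons 841 n1293 .nil)
noncomputable def n1295 : Strat := .move 800 n472 (.cons 759 n1294 .nil)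
noncomputable def n1296 : Strat := .move 880 n505 (.cons 758 n1295 .nil)
noncomputable def n1297 : Strat := .move 921 n98 (.cons 962 n1296 .nil)
noncomputable def n1298 : Strat := .move 756 n497 (.cons 755 n781 .nil)
noncomputable def n1299 : Strat := .move 797 n489 (.cons 796 n1298 .nil)
noncomputable def n1300 : Strat := .move 800 n472 (.cons 759 n1299 .nil)
noncomputable def n1301 : Strat := .move 798 n470 (.cons 757 n1300 .nil)
noncomputable def n1302 : Strat := .move 880 n505 (.cons 758 n1301 .nil)
noncomputable def n1303 : Strat := .move 921 n98 (.cons 962 n1302 .nil)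
noncomputable def n1304 : Strat := .move 922 n476 (.cons 759 n713 (.cons 839 n1292 (.cons 798 n1297 (.cons 963 n1303 .nil))))
noncomputable def n1305 : Strat := .move 922 n521 (.cons 921 n485 (.cons 923 n1297 .nil))
noncomputable def n1306 : Strat := .move 717 n7 (.cons 880 n126 .nil)
noncomputable def n1307 : Strat := .move 839 n495 (.cons 838 n1306 .nil)
noncomputable def n1308 : Strat := .move 758 n138 (.cons 882 n1307 .nil)
noncomputable def n1309 : Strat := .move 923 n137 (.cons 964 n1308 .nil)
noncomputable def n1310 : Strat := .move 800 n472 (.cons 759 n1309 .nil)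
noncomputable def n1311 : Strat := .move 798 n470 (.cons 757 n1310 .nil)
noncomputable def n1312 : Strat := .move 922 n476 (.cons 798 n485 (.cons 800 n487 (.cons 963 n1311 .nil)))
noncomputable def n1313 : Strat := .move 881 n1253 (.cons 839 n1254 (.cons 880 n1262 (.cons 882 n1284 (.cons 841 n1285 (.cons 922 n1290 (.cons 758 n1291 (.cons 923 n1304 (.cons 798 n1305 (.cons 921 n1312 .nil)))))))))
noncomputable def n1314 : Strat := .move 881 n28 (.cons 923 n696 .nil)
noncomputable def n1315 : Strat := .move 881 n28 (.cons 923 n1243 .nil)
noncomputable def n1316 : Strat := .move 717 n39 (.cons 841 n442 .nil)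
noncomputable def n1317 : Strat := .move 881 n28 (.cons 923 n1092 .nil)
noncomputable def n1318 : Strat := .move 882 n1314 (.cons 677 n1315 (.cons 841 n377 (.cons 881 n1316 (.cons 717 n1317 .nil))))
noncomputable def n1319 : Strat := .move 801 n493 (.cons 802 n599 .nil)
noncomputable def n1320 : Strat := .move 839 n7 (.cons 880 n1319 .nil)
noncomputable def n1321 : Strat := .move 800 n267 (.cons 676 n1320 .nil)
noncomputable def n1322 : Strat := .move 841 n9 (.cons 882 n1321 .nil)
noncomputable def n1323 : Strat := .move 717 n48 (.cons 841 n420 (.cons 881 n56 (.cons 675 n1322 .nil)))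
noncomputable def n1324 : Strat := .move 881 n1095 (.cons 759 n795 (.cons 716 n864 (.cons 839 n708 .nil)))
noncomputable def n1325 : Strat := .move 879 n232 (.cons 841 n234 (.cons 878 n237 .nil))
noncomputable def n1326 : Strat := .move 880 n22 (.cons 921 n1325 .nil)
noncomputable def n1327 : Strat := .move 882 n28 (.cons 923 n1326 .nil)
noncomputable def n1328 : Strat := .move 881 n103 (.cons 759 n1327 (.cons 880 n394 .nil))
noncomputable def n1329 : Strat := .move 839 n7 (.cons 880 n598 .nil)
noncomputable def n1330 : Strat := .move 800 n267 (.cons 676 n1329 .nil)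
noncomputable def n1331 : Strat := .move 841 n9 (.cons 882 n1330 .nil)
noncomputable def n1332 : Strat := .move 716 n0 (.cons 675 n1331 .nil)
noncomputable def n1333 : Strat := .move 718 n2 (.cons 677 n1332 .nil)
noncomputable def n1334 : Strat := .move 717 n1333 (.cons 841 n444 (.cons 718 n56 (.cons 716 n86 .nil)))
noncomputable def n1335 : Strat := .move 881 n103 (.cons 759 n795 (.cons 880 n701 (.cons 921 n708 .nil)))
noncomputable def n1336 : Strat := .move 758 n1318 (.cons 718 n1323 (.cons 800 n241 (.cons 923 n1324 (.cons 921 n1024 (.cons 717 n1328 (.cons 881 n1334 (.cons 882 n1335 .nil)))))))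
noncomputable def n1337 : Strat := .move 841 n9 (.cons 882 n267 .nil)
noncomputable def n1338 : Strat := .move 719 n64 (.cons 756 n63 .nil)
noncomputable def n1339 : Strat := .move 757 n88 (.cons 881 n1338 .nil)
noncomputable def n1340 : Strat := .move 716 n0 (.cons 675 n1339 .nil)
noncomputable def n1341 : Strat := .move 800 n1337 (.cons 841 n1340 .nil)
noncomputable def n1342 : Strat := .move 718 n2 (.cons 677 n1341 .nil)
noncomputable def n1343 : Strat := .move 717 n1342 (.cons 841 n357 (.cons 716 n86 (.cons 718 n56 .nil)))
noncomputable def n1344 : Strat := .move 881 n34 (.cons 717 n101 (.cons 880 n224 .nil))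
noncomputable def n1345 : Strat := .move 881 n815 (.cons 757 n820 (.cons 880 n824 (.cons 716 n828 (.cons 921 n832 .nil))))
noncomputable def n1346 : Strat := .move 881 n101 (.cons 757 n658 (.cons 880 n224 .nil))
noncomputable def n1347 : Strat := .move 758 n54 (.cons 839 n358 (.cons 841 n421 (.cons 757 n633 (.cons 880 n1343 (.cons 716 n884 (.cons 676 n1344 (.cons 882 n1345 (.cons 717 n1346 .nil))))))))
noncomputable def n1348 : Strat := .move 838 n597 (.cons 837 n839 .nil)
noncomputable def n1349 : Strat := .move 801 n493 (.cons 802 n1348 .nil)
noncomputable def n1350 : Strat := .win 674 6 674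
noncomputable def n1351 : Strat := .win 880 6 715
noncomputable def n1352 : Strat := .move 715 n1350 (.cons 674 n1351 .nil)
noncomputable def n1353 : Strat := .move 756 n497 (.cons 755 n1352 .nil)
noncomputable def n1354 : Strat := .move 798 n488 (.cons 842 n1353 .nil)
noncomputable def n1355 : Strat := .move 797 n626 (.cons 796 n1354 .nil)
noncomputable def n1356 : Strat := .win 923 7 758
noncomputable def n1357 : Strat := .move 758 n322 (.cons 717 n1356 .nil)
noncomputable def n1358 : Strat := .move 882 n1143 (.cons 883 n1357 .nil)
noncomputable def n1359 : Strat := .move 841 n1355 (.cons 797 n1358 .nil)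
noncomputable def n1360 : Strat := .move 838 n597 (.cons 837 n1359 .nil)
noncomputable def n1361 : Strat := .win 841 5 797
noncomputable def n1362 : Strat := .move 838 n597 (.cons 837 n1361 .nil)
noncomputable def n1363 : Strat := .move 801 n493 (.cons 802 n1362 .nil)
noncomputable def n1364 : Strat := .win 882 1 718
noncomputable def n1365 : Strat := .win 678 1 677
noncomputable def n1366 : Strat := .move 719 n1364 (.cons 882 n1365 .nil)
noncomputable def n1367 : Strat := .move 760 n538 (.cons 761 n1366 .nil)
noncomputable def n1368 : Strat := .move 841 n684 (.cons 797 n1367 .nil)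
noncomputable def n1369 : Strat := .move 842 n682 (.cons 843 n1368 .nil)
noncomputable def n1370 : Strat := .move 798 n494 (.cons 838 n1369 .nil)
noncomputable def n1371 : Strat := .move 801 n493 (.cons 802 n1370 .nil)
noncomputable def n1372 : Strat := .win 757 2 756
noncomputable def n1373 : Strat := .move 756 n497 (.cons 755 n1372 .nil)
noncomputable def n1374 : Strat := .move 797 n733 (.cons 841 n1373 .nil)
noncomputable def n1375 : Strat := .move 842 n682 (.cons 843 n1374 .nil)
noncomputable def n1376 : Strat := .move 796 n509 (.cons 841 n508 .nil)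
noncomputable def n1377 : Strat := .win 759 5 756
noncomputable def n1378 : Strat := .move 760 n1377 (.cons 759 n538 .nil)
noncomputable def n1379 : Strat := .move 797 n1376 (.cons 795 n1378 .nil)
noncomputable def n1380 : Strat := .move 716 n1114 (.cons 675 n1379 .nil)
noncomputable def n1381 : Strat := .move 757 n854 (.cons 756 n1380 .nil)
noncomputable def n1382 : Strat := .win 758 3 757
noncomputable def n1383 : Strat := .win 962 3 798
noncomputable def n1384 : Strat := .move 921 n1382 (.cons 758 n1383 .nil)
noncomputable def n1385 : Strat := .win 921 3 757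
noncomputable def n1386 : Strat := .move 758 n1385 (.cons 921 n27 .nil)
noncomputable def n1387 : Strat := .win 841 4 838
noncomputable def n1388 : Strat := .move 879 n1387 (.cons 841 n1277 .nil)
noncomputable def n1389 : Strat := .move 880 n1384 (.cons 962 n1386 (.cons 758 n1388 .nil))
noncomputable def n1390 : Strat := .move 842 n682 (.cons 843 n1389 .nil)
noncomputable def n1391 : Strat := .move 757 n854 (.cons 756 n1390 .nil)
noncomputable def n1392 : Strat := .move 797 n497 (.cons 755 n1378 .nil)
noncomputable def n1393 : Strat := .move 756 n1372 (.cons 757 n1392 .nil)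
noncomputable def n1394 : Strat := .move 798 n1375 (.cons 842 n1381 (.cons 797 n1391 (.cons 841 n1393 (.cons 756 n1369 .nil))))
noncomputable def n1395 : Strat := .move 801 n493 (.cons 802 n1394 .nil)
noncomputable def n1396 : Strat := .move 800 n1349 (.cons 801 n1360 (.cons 798 n1363 (.cons 837 n1371 (.cons 838 n1395 .nil))))
noncomputable def n1397 : Strat := .move 841 n615 (.cons 797 n619 .nil)
noncomputable def n1398 : Strat := .move 796 n614 (.cons 795 n1397 .nil)
noncomputable def n1399 : Strat := .move 878 n618 (.cons 877 n1398 .nil)
noncomputable def n1400 : Strat := .move 837 n613 (.cons 800 n1399 .nil)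
noncomputable def n1401 : Strat := .move 800 n596 (.cons 801 n1358 .nil)
noncomputable def n1402 : Strat := .win 921 6 756
noncomputable def n1403 : Strat := .win 715 6 715
noncomputable def n1404 : Strat := .move 756 n1402 (.cons 921 n1403 .nil)
noncomputable def n1405 : Strat := .move 797 n626 (.cons 796 n1404 .nil)
noncomputable def n1406 : Strat := .move 880 n1264 (.cons 842 n1405 .nil)
noncomputable def n1407 : Strat := .move 879 n1032 (.cons 878 n1406 .nil)
noncomputable def n1408 : Strat := .move 800 n596 (.cons 801 n1407 .nil)
noncomputable def n1409 : Strat := .move 882 n1143 (.cons 883 n1407 .nil)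
noncomputable def n1410 : Strat := .move 841 n1401 (.cons 882 n1408 (.cons 800 n1409 .nil))
noncomputable def n1411 : Strat := .win 920 6 755
noncomputable def n1412 : Strat := .win 714 6 714
noncomputable def n1413 : Strat := .move 879 n1411 (.cons 920 n1412 .nil)
noncomputable def n1414 : Strat := .win 756 3 755
noncomputable def n1415 : Strat := .win 960 3 796
noncomputable def n1416 : Strat := .move 797 n1414 (.cons 756 n1415 .nil)
noncomputable def n1417 : Strat := .win 797 3 755
noncomputable def n1418 : Strat := .win 715 3 714
noncomputable def n1419 : Strat := .move 756 n1417 (.cons 797 n1418 .nil)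
noncomputable def n1420 : Strat := .win 961 6 796
noncomputable def n1421 : Strat := .win 879 6 755
noncomputable def n1422 : Strat := .move 920 n1420 (.cons 961 n1421 .nil)
noncomputable def n1423 : Strat := .move 919 n1416 (.cons 960 n1419 (.cons 756 n1422 .nil))
noncomputable def n1424 : Strat := .win 879 6 714
noncomputable def n1425 : Strat := .win 674 3 673
noncomputable def n1426 : Strat := .win 756 3 714
noncomputable def n1427 : Strat := .move 715 n1425 (.cons 674 n1426 .nil)
noncomputable def n1428 : Strat := .move 714 n1424 (.cons 879 n1427 .nil)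
noncomputable def n1429 : Strat := .win 672 7 672
noncomputable def n1430 : Strat := .win 754 7 713
noncomputable def n1431 : Strat := .move 713 n1429 (.cons 672 n1430 .nil)
noncomputable def n1432 : Strat := .move 714 n1427 (.cons 756 n1431 .nil)
noncomputable def n1433 : Strat := .move 755 n1413 (.cons 714 n1423 (.cons 920 n1428 (.cons 879 n1432 .nil)))
noncomputable def n1434 : Strat := .move 796 n614 (.cons 795 n1433 .nil)
noncomputable def n1435 : Strat := .move 878 n618 (.cons 877 n1434 .nil)
noncomputable def n1436 : Strat := .move 837 n613 (.cons 800 n1435 .nil)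
noncomputable def n1437 : Strat := .move 801 n493 (.cons 802 n1361 .nil)
noncomputable def n1438 : Strat := .move 800 n597 (.cons 837 n1437 .nil)
noncomputable def n1439 : Strat := .move 837 n618 (.cons 877 n1398 .nil)
noncomputable def n1440 : Strat := .move 837 n618 (.cons 877 n1434 .nil)
noncomputable def n1441 : Strat := .win 841 4 837
noncomputable def n1442 : Strat := .move 755 n1411 (.cons 920 n1412 .nil)
noncomputable def n1443 : Strat := .move 879 n1441 (.cons 841 n1442 .nil)
noncomputable def n1444 : Strat := .move 796 n614 (.cons 795 n1443 .nil)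
noncomputable def n1445 : Strat := .move 837 n618 (.cons 877 n1444 .nil)
noncomputable def n1446 : Strat := .move 841 n626 (.cons 796 n619 .nil)
noncomputable def n1447 : Strat := .win 841 2 796
noncomputable def n1448 : Strat := .move 919 n1414 (.cons 756 n1415 .nil)
noncomputable def n1449 : Strat := .move 796 n1447 (.cons 841 n1448 .nil)
noncomputable def n1450 : Strat := .win 919 1 755
noncomputable def n1451 : Strat := .win 715 1 714
noncomputable def n1452 : Strat := .move 756 n1450 (.cons 919 n1451 .nil)
noncomputable def n1453 : Strat := .move 879 n1441 (.cons 841 n1452 .nil)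
noncomputable def n1454 : Strat := .win 879 1 755
noncomputable def n1455 : Strat := .move 919 n1454 (.cons 879 n1415 .nil)
noncomputable def n1456 : Strat := .move 756 n1451 (.cons 715 n1455 .nil)
noncomputable def n1457 : Strat := .move 797 n1446 (.cons 879 n1449 (.cons 796 n1453 (.cons 841 n1456 .nil)))
noncomputable def n1458 : Strat := .move 837 n618 (.cons 877 n1457 .nil)
noncomputable def n1459 : Strat := .move 797 n1447 (.cons 841 n1448 .nil)
noncomputable def n1460 : Strat := .move 796 n614 (.cons 795 n1459 .nil)
noncomputable def n1461 : Strat := .move 837 n618 (.cons 877 n1460 .nil)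
noncomputable def n1462 : Strat := .win 876 5 835
noncomputable def n1463 : Strat := .win 880 5 836
noncomputable def n1464 : Strat := .move 877 n1462 (.cons 876 n1463 .nil)
noncomputable def n1465 : Strat := .move 879 n1441 (.cons 841 n1464 .nil)
noncomputable def n1466 : Strat := .win 837 1 714
noncomputable def n1467 : Strat := .move 715 n1351 (.cons 880 n1466 .nil)
noncomputable def n1468 : Strat := .move 756 n1450 (.cons 919 n1467 .nil)
noncomputable def n1469 : Strat := .win 756 1 755
noncomputable def n1470 : Strat := .win 920 1 796
noncomputable def n1471 : Strat := .win 1001 3 837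
noncomputable def n1472 : Strat := .move 960 n1470 (.cons 920 n1471 .nil)
noncomputable def n1473 : Strat := .move 919 n1469 (.cons 756 n1472 .nil)
noncomputable def n1474 : Strat := .win 755 7 755
noncomputable def n1475 : Strat := .win 794 0 794
noncomputable def n1476 : Strat := .win 837 2 795
noncomputable def n1477 : Strat := .move 795 n1475 (.cons 794 n1476 .nil)
noncomputable def n1478 : Strat := .move 796 n1474 (.cons 755 n1477 .nil)
noncomputable def n1479 : Strat := .win 1001 1 837
noncomputable def n1480 : Strat := .win 919 1 796
noncomputable def n1481 : Strat := .move 960 n1479 (.cons 1001 n1480 .nil)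
noncomputable def n1482 : Strat := .win 1003 6 838
noncomputable def n1483 : Strat := .win 921 6 797
noncomputable def n1484 : Strat := .move 962 n1482 (.cons 1003 n1483 .nil)
noncomputable def n1485 : Strat := .move 961 n1481 (.cons 919 n1484 .nil)
noncomputable def n1486 : Strat := .move 920 n1478 (.cons 796 n1485 .nil)
noncomputable def n1487 : Strat := .move 880 n1402 (.cons 921 n1403 .nil)
noncomputable def n1488 : Strat := .win 675 3 674
noncomputable def n1489 : Strat := .win 757 3 715
noncomputable def n1490 : Strat := .move 716 n1488 (.cons 675 n1489 .nil)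
noncomputable def n1491 : Strat := .move 715 n1466 (.cons 837 n1490 .nil)
noncomputable def n1492 : Strat := .win 920 7 755
noncomputable def n1493 : Strat := .win 714 7 714
noncomputable def n1494 : Strat := .move 755 n1492 (.cons 920 n1493 .nil)
noncomputable def n1495 : Strat := .move 796 n1477 (.cons 837 n1494 .nil)
noncomputable def n1496 : Strat := .move 756 n1467 (.cons 837 n1487 (.cons 880 n1491 (.cons 715 n1495 .nil)))
noncomputable def n1497 : Strat := .move 797 n1468 (.cons 715 n1473 (.cons 756 n1486 (.cons 919 n1496 .nil)))
noncomputable def n1498 : Strat := .move 879 n1441 (.cons 841 n1497 .nil)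
noncomputable def n1499 : Strat := .move 878 n1439 (.cons 841 n1440 (.cons 797 n1445 (.cons 795 n1458 (.cons 879 n1461 (.cons 837 n1465 (.cons 877 n1498 .nil))))))
noncomputable def n1500 : Strat := .move 838 n1400 (.cons 837 n1410 (.cons 841 n1436 (.cons 878 n1438 (.cons 800 n1499 .nil))))
noncomputable def n1501 : Strat := .move 755 n365 (.cons 800 n809 .nil)
noncomputable def n1502 : Strat := .move 756 n808 (.cons 715 n1501 .nil)
noncomputable def n1503 : Strat := .move 880 n1385 (.cons 921 n1502 .nil)
noncomputable def n1504 : Strat := .move 714 n382 (.cons 759 n404 .nil)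
noncomputable def n1505 : Strat := .move 715 n403 (.cons 674 n1504 .nil)
noncomputable def n1506 : Strat := .move 716 n1114 (.cons 675 n1505 .nil)
noncomputable def n1507 : Strat := .move 717 n126 (.cons 676 n1506 .nil)
noncomputable def n1508 : Strat := .move 758 n1306 (.cons 717 n1503 (.cons 880 n1507 .nil))
noncomputable def n1509 : Strat := .win 676 3 675
noncomputable def n1510 : Strat := .win 880 7 715
noncomputable def n1511 : Strat := .move 718 n61 (.cons 755 n60 .nil)
noncomputable def n1512 : Strat := .move 756 n1510 (.cons 880 n1511 .nil)
noncomputable def n1513 : Strat := .move 715 n403 (.cons 674 n1512 .nil)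
noncomputable def n1514 : Strat := .move 717 n1509 (.cons 676 n1513 .nil)
noncomputable def n1515 : Strat := .move 716 n1114 (.cons 675 n1514 .nil)
noncomputable def n1516 : Strat := .move 756 n61 (.cons 755 n60 .nil)
noncomputable def n1517 : Strat := .win 678 5 674
noncomputable def n1518 : Strat := .win 758 3 676
noncomputable def n1519 : Strat := .move 677 n1517 (.cons 678 n1518 .nil)
noncomputable def n1520 : Strat := .move 718 n1516 (.cons 719 n1519 .nil)
noncomputable def n1521 : Strat := .move 715 n403 (.cons 674 n1520 .nil)
noncomputable def n1522 : Strat := .move 717 n1509 (.cons 676 n1521 .nil)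
noncomputable def n1523 : Strat := .move 716 n1114 (.cons 675 n1522 .nil)
noncomputable def n1524 : Strat := .win 756 7 715
noncomputable def n1525 : Strat := .move 880 n1524 (.cons 756 n1384 .nil)
noncomputable def n1526 : Strat := .move 715 n403 (.cons 674 n1525 .nil)
noncomputable def n1527 : Strat := .move 716 n1114 (.cons 675 n1526 .nil)
noncomputable def n1528 : Strat := .move 758 n27 (.cons 717 n1385 .nil)
noncomputable def n1529 : Strat := .move 758 n27 (.cons 717 n1502 .nil)
noncomputable def n1530 : Strat := .move 921 n1383 (.cons 962 n1382 .nil)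
noncomputable def n1531 : Strat := .win 797 7 756
noncomputable def n1532 : Strat := .move 921 n1383 (.cons 962 n1531 .nil)
noncomputable def n1533 : Strat := .move 756 n808 (.cons 715 n1532 .nil)
noncomputable def n1534 : Strat := .move 880 n1528 (.cons 921 n1529 (.cons 717 n1530 (.cons 758 n1533 .nil)))
noncomputable def n1535 : Strat := .move 758 n7 (.cons 880 n1505 .nil)
noncomputable def n1536 : Strat := .move 717 n1509 (.cons 676 n1535 .nil)
noncomputable def n1537 : Strat := .move 716 n1114 (.cons 675 n1536 .nil)
noncomputable def n1538 : Strat := .win 879 1 756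
noncomputable def n1539 : Strat := .win 961 1 797
noncomputable def n1540 : Strat := .move 920 n1538 (.cons 879 n1539 .nil)
noncomputable def n1541 : Strat := .move 921 n1383 (.cons 962 n1540 .nil)
noncomputable def n1542 : Strat := .win 758 1 716
noncomputable def n1543 : Strat := .move 716 n1114 (.cons 675 n1509 .nil)
noncomputable def n1544 : Strat := .move 717 n1542 (.cons 758 n1543 .nil)
noncomputable def n1545 : Strat := .move 880 n1528 (.cons 758 n1541 (.cons 921 n1544 .nil))
noncomputable def n1546 : Strat := .move 757 n1508 (.cons 758 n1515 (.cons 880 n1523 (.cons 717 n1527 (.cons 716 n1534 (.cons 756 n1537 (.cons 715 n1545 .nil))))))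
noncomputable def n1547 : Strat := .move 880 n1153 (.cons 879 n1528 .nil)
noncomputable def n1548 : Strat := .move 842 n571 (.cons 843 n1547 .nil)
noncomputable def n1549 : Strat := .win 923 1 759
noncomputable def n1550 : Strat := .win 719 1 718
noncomputable def n1551 : Strat := .move 882 n1549 (.cons 923 n1550 .nil)
noncomputable def n1552 : Strat := .win 720 3 719
noncomputable def n1553 : Strat := .win 800 5 757
noncomputable def n1554 : Strat := .move 761 n1552 (.cons 720 n1553 .nil)
noncomputable def n1555 : Strat := .move 760 n1551 (.cons 719 n1554 .nil)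
noncomputable def n1556 : Strat := .move 883 n567 (.cons 884 n1555 .nil)
noncomputable def n1557 : Strat := .move 801 n624 (.cons 802 n1556 .nil)
noncomputable def n1558 : Strat := .move 842 n571 (.cons 843 n1557 .nil)
noncomputable def n1559 : Strat := .move 842 n1153 (.cons 879 n1528 .nil)
noncomputable def n1560 : Strat := .win 757 1 756
noncomputable def n1561 : Strat := .move 920 n1539 (.cons 961 n1560 .nil)
noncomputable def n1562 : Strat := .move 879 n1264 (.cons 842 n1561 .nil)
noncomputable def n1563 : Strat := .move 921 n1383 (.cons 962 n1562 .nil)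
noncomputable def n1564 : Strat := .move 716 n1509 (.cons 676 n1114 .nil)
noncomputable def n1565 : Strat := .move 757 n1277 (.cons 920 n1564 .nil)
noncomputable def n1566 : Strat := .move 879 n1264 (.cons 842 n1565 .nil)
noncomputable def n1567 : Strat := .move 717 n1542 (.cons 758 n1566 .nil)
noncomputable def n1568 : Strat := .move 880 n1559 (.cons 842 n1528 (.cons 758 n1563 (.cons 921 n1567 .nil)))
noncomputable def n1569 : Strat := .move 715 n403 (.cons 674 n1524 .nil)
noncomputable def n1570 : Strat := .move 716 n1114 (.cons 675 n1569 .nil)
noncomputable def n1571 : Strat := .move 920 n1539 (.cons 961 n1538 .nil)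
noncomputable def n1572 : Strat := .move 921 n1383 (.cons 962 n1571 .nil)
noncomputable def n1573 : Strat := .move 757 n1570 (.cons 674 n1572 .nil)
noncomputable def n1574 : Strat := .move 758 n27 (.cons 717 n1570 .nil)
noncomputable def n1575 : Strat := .win 758 0 755
noncomputable def n1576 : Strat := .move 755 n1575 (.cons 758 n809 .nil)
noncomputable def n1577 : Strat := .move 800 n1070 (.cons 801 n1576 .nil)
noncomputable def n1578 : Strat := .move 756 n808 (.cons 715 n1577 .nil)
noncomputable def n1579 : Strat := .move 717 n1542 (.cons 758 n1564 .nil)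
noncomputable def n1580 : Strat := .move 757 n1529 (.cons 754 n1574 (.cons 717 n1578 (.cons 758 n1570 (.cons 756 n1579 .nil))))
noncomputable def n1581 : Strat := .move 880 n1528 (.cons 717 n1530 (.cons 758 n1573 (.cons 921 n1580 .nil)))
noncomputable def n1582 : Strat := .move 841 n1548 (.cons 879 n1558 (.cons 843 n1568 (.cons 842 n1581 .nil)))
noncomputable def n1583 : Strat := .move 841 n128 (.cons 796 n127 .nil)
noncomputable def n1584 : Strat := .move 756 n1372 (.cons 757 n497 .nil)
noncomputable def n1585 : Strat := .move 801 n493 (.cons 802 n1584 .nil)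
noncomputable def n1586 : Strat := .win 921 7 756
noncomputable def n1587 : Strat := .win 757 7 715
noncomputable def n1588 : Strat := .move 715 n1587 (.cons 757 n1350 .nil)
noncomputable def n1589 : Strat := .move 880 n1586 (.cons 921 n1588 .nil)
noncomputable def n1590 : Strat := .move 756 n497 (.cons 755 n1589 .nil)
noncomputable def n1591 : Strat := .move 760 n538 (.cons 761 n1377 .nil)
noncomputable def n1592 : Strat := .move 801 n493 (.cons 802 n1591 .nil)
noncomputable def n1593 : Strat := .move 800 n1585 (.cons 801 n1590 (.cons 755 n1592 .nil))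
noncomputable def n1594 : Strat := .move 841 n127 (.cons 842 n1593 .nil)
noncomputable def n1595 : Strat := .win 800 2 755
noncomputable def n1596 : Strat := .win 878 3 714
noncomputable def n1597 : Strat := .move 837 n1596 (.cons 878 n727 .nil)
noncomputable def n1598 : Strat := .move 715 n1350 (.cons 674 n1597 .nil)
noncomputable def n1599 : Strat := .move 756 n1595 (.cons 800 n1598 .nil)
noncomputable def n1600 : Strat := .move 755 n728 (.cons 754 n1599 .nil)
noncomputable def n1601 : Strat := .move 796 n508 (.cons 795 n1600 .nil)
noncomputable def n1602 : Strat := .move 797 n1583 (.cons 842 n510 (.cons 796 n1594 (.cons 841 n1601 .nil)))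
noncomputable def n1603 : Strat := .win 759 5 755
noncomputable def n1604 : Strat := .move 880 n27 (.cons 717 n1385 .nil)
noncomputable def n1605 : Strat := .move 758 n1603 (.cons 759 n1604 .nil)
noncomputable def n1606 : Strat := .move 796 n508 (.cons 795 n1605 .nil)
noncomputable def n1607 : Strat := .move 717 n9 (.cons 882 n126 .nil)
noncomputable def n1608 : Strat := .move 880 n1385 (.cons 921 n27 .nil)
noncomputable def n1609 : Strat := .move 801 n538 (.cons 761 n493 .nil)
noncomputable def n1610 : Strat := .move 760 n1377 (.cons 759 n1609 .nil)
noncomputable def n1611 : Strat := .move 758 n936 (.cons 880 n1607 (.cons 676 n1608 (.cons 717 n1610 .nil)))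
noncomputable def n1612 : Strat := .move 841 n488 (.cons 842 n1611 .nil)
noncomputable def n1613 : Strat := .move 801 n493 (.cons 802 n1378 .nil)
noncomputable def n1614 : Strat := .move 758 n126 (.cons 676 n7 .nil)
noncomputable def n1615 : Strat := .move 758 n9 (.cons 882 n126 .nil)
noncomputable def n1616 : Strat := .move 758 n9 (.cons 882 n7 .nil)
noncomputable def n1617 : Strat := .win 676 7 676
noncomputable def n1618 : Strat := .move 718 n1617 (.cons 676 n953 .nil)
noncomputable def n1619 : Strat := .move 717 n1614 (.cons 880 n1615 (.cons 676 n1616 (.cons 758 n1618 .nil)))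
noncomputable def n1620 : Strat := .move 759 n918 (.cons 760 n1619 .nil)
noncomputable def n1621 : Strat := .move 841 n488 (.cons 842 n1620 .nil)
noncomputable def n1622 : Strat := .move 801 n493 (.cons 802 n682 .nil)
noncomputable def n1623 : Strat := .move 842 n733 (.cons 841 n1622 .nil)
noncomputable def n1624 : Strat := .move 800 n1612 (.cons 841 n1613 (.cons 761 n1621 (.cons 759 n1623 .nil)))
noncomputable def n1625 : Strat := .move 797 n510 (.cons 841 n1606 (.cons 795 n1583 (.cons 796 n1624 .nil)))
noncomputable def n1626 : Strat := .move 797 n507 (.cons 756 n1583 .nil)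
noncomputable def n1627 : Strat := .move 921 n1383 (.cons 962 n1626 .nil)
noncomputable def n1628 : Strat := .move 797 n509 (.cons 841 n508 .nil)
noncomputable def n1629 : Strat := .win 759 4 755
noncomputable def n1630 : Strat := .move 797 n1629 (.cons 759 n509 .nil)
noncomputable def n1631 : Strat := .move 797 n1629 (.cons 759 n508 .nil)
noncomputable def n1632 : Strat := .move 755 n300 (.cons 795 n809 .nil)
noncomputable def n1633 : Strat := .move 796 n1628 (.cons 795 n1630 (.cons 841 n1631 (.cons 797 n1632 .nil)))
noncomputable def n1634 : Strat := .move 756 n808 (.cons 715 n1633 .nil)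
noncomputable def n1635 : Strat := .move 758 n27 (.cons 717 n1634 .nil)
noncomputable def n1636 : Strat := .move 879 n1277 (.cons 920 n1569 .nil)
noncomputable def n1637 : Strat := .move 716 n1114 (.cons 675 n1636 .nil)
noncomputable def n1638 : Strat := .move 757 n1635 (.cons 758 n1637 (.cons 715 n1544 .nil))
noncomputable def n1639 : Strat := .move 880 n1530 (.cons 758 n1627 (.cons 962 n1528 (.cons 921 n1638 .nil)))
noncomputable def n1640 : Strat := .move 758 n1603 (.cons 759 n1306 .nil)
noncomputable def n1641 : Strat := .move 796 n508 (.cons 795 n1640 .nil)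
noncomputable def n1642 : Strat := .move 800 n1585 (.cons 757 n1592 (.cons 801 n1620 .nil))
noncomputable def n1643 : Strat := .move 841 n127 (.cons 842 n1642 .nil)
noncomputable def n1644 : Strat := .move 797 n510 (.cons 841 n1641 (.cons 795 n1583 (.cons 796 n1643 .nil)))
noncomputable def n1645 : Strat := .move 758 n126 (.cons 676 n146 .nil)
noncomputable def n1646 : Strat := .move 674 n67 (.cons 673 n411 .nil)
noncomputable def n1647 : Strat := .move 715 n59 (.cons 714 n1646 .nil)
noncomputable def n1648 : Strat := .move 718 n2 (.cons 677 n1647 .nil)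
noncomputable def n1649 : Strat := .move 716 n0 (.cons 675 n1648 .nil)
noncomputable def n1650 : Strat := .move 758 n126 (.cons 676 n1649 .nil)
noncomputable def n1651 : Strat := .move 758 n146 (.cons 841 n1649 .nil)
noncomputable def n1652 : Strat := .move 759 n918 (.cons 760 n1618 .nil)
noncomputable def n1653 : Strat := .move 800 n1585 (.cons 801 n1652 .nil)
noncomputable def n1654 : Strat := .move 841 n127 (.cons 842 n1653 .nil)
noncomputable def n1655 : Strat := .move 755 n729 (.cons 756 n728 .nil)
noncomputable def n1656 : Strat := .move 796 n508 (.cons 795 n1655 .nil)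
noncomputable def n1657 : Strat := .move 800 n1585 (.cons 801 n1656 (.cons 755 n1592 .nil))
noncomputable def n1658 : Strat := .move 797 n1583 (.cons 796 n1654 (.cons 842 n510 (.cons 841 n1657 .nil)))
noncomputable def n1659 : Strat := .move 717 n1645 (.cons 841 n1650 (.cons 676 n1651 (.cons 758 n1658 .nil)))
noncomputable def n1660 : Strat := .move 798 n1546 (.cons 797 n1582 (.cons 758 n1602 (.cons 757 n1625 (.cons 800 n1639 (.cons 921 n1644 (.cons 880 n1659 .nil))))))
noncomputable def n1661 : Strat := .move 801 n493 (.cons 802 n839 .nil)
noncomputable def n1662 : Strat := .move 800 n597 (.cons 837 n1661 .nil)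
noncomputable def n1663 : Strat := .win 920 3 756
noncomputable def n1664 : Strat := .win 716 1 715
noncomputable def n1665 : Strat := .move 757 n1663 (.cons 920 n1664 .nil)
noncomputable def n1666 : Strat := .move 879 n1032 (.cons 878 n1665 .nil)
noncomputable def n1667 : Strat := .move 798 n488 (.cons 842 n1666 .nil)
noncomputable def n1668 : Strat := .move 797 n626 (.cons 796 n1667 .nil)
noncomputable def n1669 : Strat := .move 800 n596 (.cons 801 n1668 .nil)
noncomputable def n1670 : Strat := .move 842 n625 (.cons 798 n1146 .nil)
noncomputable def n1671 : Strat := .move 797 n626 (.cons 796 n1670 .nil)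
noncomputable def n1672 : Strat := .move 841 n1669 (.cons 797 n1401 (.cons 800 n1671 .nil))
noncomputable def n1673 : Strat := .move 878 n618 (.cons 877 n1397 .nil)
noncomputable def n1674 : Strat := .move 796 n614 (.cons 795 n1673 .nil)
noncomputable def n1675 : Strat := .move 837 n613 (.cons 800 n1674 .nil)
noncomputable def n1676 : Strat := .win 673 6 673
noncomputable def n1677 : Strat := .move 714 n1676 (.cons 673 n1424 .nil)
noncomputable def n1678 : Strat := .move 755 n728 (.cons 754 n1677 .nil)
noncomputable def n1679 : Strat := .move 798 n727 (.cons 836 n1678 .nil)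
noncomputable def n1680 : Strat := .move 797 n1447 (.cons 841 n1679 .nil)
noncomputable def n1681 : Strat := .move 796 n614 (.cons 795 n1680 .nil)
noncomputable def n1682 : Strat := .win 798 5 795
noncomputable def n1683 : Strat := .win 878 4 836
noncomputable def n1684 : Strat := .win 876 4 835
noncomputable def n1685 : Strat := .move 877 n1683 (.cons 878 n1684 .nil)
noncomputable def n1686 : Strat := .move 836 n1682 (.cons 798 n1685 .nil)
noncomputable def n1687 : Strat := .move 837 n1681 (.cons 798 n1674 (.cons 841 n1686 .nil))
noncomputable def n1688 : Strat := .move 838 n1662 (.cons 837 n1672 (.cons 798 n1675 (.cons 800 n1687 .nil)))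
noncomputable def n1689 : Strat := .win 798 4 795
noncomputable def n1690 : Strat := .move 877 n1684 (.cons 876 n1683 .nil)
noncomputable def n1691 : Strat := .move 836 n1689 (.cons 798 n1690 .nil)
noncomputable def n1692 : Strat := .move 797 n1447 (.cons 841 n1691 .nil)
noncomputable def n1693 : Strat := .move 796 n614 (.cons 795 n1692 .nil)
noncomputable def n1694 : Strat := .move 837 n613 (.cons 800 n1693 .nil)
noncomputable def n1695 : Strat := .move 801 n623 (.cons 800 n624 .nil)
noncomputable def n1696 : Strat := .move 842 n625 (.cons 798 n1695 .nil)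
noncomputable def n1697 : Strat := .move 797 n626 (.cons 796 n1696 .nil)
noncomputable def n1698 : Strat := .move 800 n490 (.cons 801 n1353 .nil)
noncomputable def n1699 : Strat := .move 798 n127 (.cons 842 n1698 .nil)
noncomputable def n1700 : Strat := .move 797 n626 (.cons 796 n1699 .nil)
noncomputable def n1701 : Strat := .move 842 n624 (.cons 802 n1146 .nil)
noncomputable def n1702 : Strat := .move 801 n623 (.cons 800 n1701 .nil)
noncomputable def n1703 : Strat := .move 879 n1032 (.cons 878 n1150 .nil)
noncomputable def n1704 : Strat := .move 842 n625 (.cons 798 n1703 .nil)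
noncomputable def n1705 : Strat := .move 797 n626 (.cons 796 n1704 .nil)
noncomputable def n1706 : Strat := .win 798 2 755
noncomputable def n1707 : Strat := .move 755 n1493 (.cons 714 n1706 .nil)
noncomputable def n1708 : Strat := .move 756 n1487 (.cons 715 n1707 .nil)
noncomputable def n1709 : Strat := .move 879 n1032 (.cons 878 n1708 .nil)
noncomputable def n1710 : Strat := .move 797 n626 (.cons 796 n1709 .nil)
noncomputable def n1711 : Strat := .move 800 n596 (.cons 801 n1710 .nil)
noncomputable def n1712 : Strat := .move 841 n1697 (.cons 802 n1700 (.cons 797 n1702 (.cons 800 n1705 (.cons 842 n1711 .nil))))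
noncomputable def n1713 : Strat := .move 837 n613 (.cons 800 n1686 .nil)
noncomputable def n1714 : Strat := .move 842 n1150 (.cons 880 n1146 .nil)
noncomputable def n1715 : Strat := .move 879 n1032 (.cons 878 n1714 .nil)
noncomputable def n1716 : Strat := .move 841 n1705 (.cons 797 n1715 (.cons 879 n1671 (.cons 842 n622 .nil)))
noncomputable def n1717 : Strat := .move 838 n1694 (.cons 837 n1712 (.cons 841 n1713 (.cons 798 n1400 (.cons 878 n1662 (.cons 800 n1716 .nil)))))
noncomputable def n1718 : Strat := .move 800 n597 (.cons 837 n1359 .nil)
noncomputable def n1719 : Strat := .move 800 n1355 (.cons 797 n1358 .nil)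
noncomputable def n1720 : Strat := .move 798 n127 (.cons 842 n1666 .nil)
noncomputable def n1721 : Strat := .move 797 n626 (.cons 796 n1720 .nil)
noncomputable def n1722 : Strat := .move 842 n1150 (.cons 880 n572 .nil)
noncomputable def n1723 : Strat := .move 879 n1032 (.cons 878 n1722 .nil)
noncomputable def n1724 : Strat := .win 964 7 799
noncomputable def n1725 : Strat := .move 923 n1724 (.cons 964 n549 .nil)
noncomputable def n1726 : Strat := .move 758 n322 (.cons 717 n1725 .nil)
noncomputable def n1727 : Strat := .move 882 n1143 (.cons 883 n1726 .nil)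
noncomputable def n1728 : Strat := .move 841 n1719 (.cons 882 n1721 (.cons 796 n1723 (.cons 797 n1727 .nil)))
noncomputable def n1729 : Strat := .win 757 3 756
noncomputable def n1730 : Strat := .win 961 3 797
noncomputable def n1731 : Strat := .move 920 n1729 (.cons 757 n1730 .nil)
noncomputable def n1732 : Strat := .move 879 n1032 (.cons 878 n1731 .nil)
noncomputable def n1733 : Strat := .move 841 n127 (.cons 842 n1732 .nil)
noncomputable def n1734 : Strat := .move 714 n1424 (.cons 879 n1676 .nil)
noncomputable def n1735 : Strat := .move 755 n728 (.cons 754 n1734 .nil)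
noncomputable def n1736 : Strat := .move 837 n727 (.cons 836 n1735 .nil)
noncomputable def n1737 : Strat := .move 796 n508 (.cons 795 n1736 .nil)
noncomputable def n1738 : Strat := .move 797 n1376 (.cons 796 n1733 (.cons 841 n1737 .nil))
noncomputable def n1739 : Strat := .win 836 5 795
noncomputable def n1740 : Strat := .win 880 1 756
noncomputable def n1741 : Strat := .move 757 n1740 (.cons 880 n1664 .nil)
noncomputable def n1742 : Strat := .move 920 n1730 (.cons 961 n1741 .nil)
noncomputable def n1743 : Strat := .move 879 n1441 (.cons 841 n1742 .nil)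
noncomputable def n1744 : Strat := .move 878 n618 (.cons 877 n1743 .nil)
noncomputable def n1745 : Strat := .move 837 n1739 (.cons 836 n1744 .nil)
noncomputable def n1746 : Strat := .move 758 n1603 (.cons 759 n936 .nil)
noncomputable def n1747 : Strat := .move 796 n508 (.cons 795 n1746 .nil)
noncomputable def n1748 : Strat := .move 756 n1403 (.cons 715 n1586 .nil)
noncomputable def n1749 : Strat := .move 920 n1560 (.cons 757 n1730 .nil)
noncomputable def n1750 : Strat := .move 879 n1032 (.cons 878 n1749 .nil)
noncomputable def n1751 : Strat := .move 841 n127 (.cons 842 n1750 .nil)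
noncomputable def n1752 : Strat := .move 880 n1530 (.cons 962 n1748 (.cons 921 n1751 .nil))
noncomputable def n1753 : Strat := .move 797 n1376 (.cons 841 n1747 (.cons 795 n1583 (.cons 796 n1752 .nil)))
noncomputable def n1754 : Strat := .win 713 7 713
noncomputable def n1755 : Strat := .win 797 2 754
noncomputable def n1756 : Strat := .move 754 n1754 (.cons 713 n1755 .nil)
noncomputable def n1757 : Strat := .move 755 n1413 (.cons 714 n1756 .nil)
noncomputable def n1758 : Strat := .move 878 n618 (.cons 877 n1757 .nil)
noncomputable def n1759 : Strat := .move 796 n614 (.cons 795 n1758 .nil)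
noncomputable def n1760 : Strat := .move 837 n1739 (.cons 836 n1759 .nil)
noncomputable def n1761 : Strat := .move 797 n509 (.cons 841 n1746 .nil)
noncomputable def n1762 : Strat := .move 796 n614 (.cons 795 n1761 .nil)
noncomputable def n1763 : Strat := .move 837 n1739 (.cons 836 n1762 .nil)
noncomputable def n1764 : Strat := .move 798 n1738 (.cons 797 n1745 (.cons 837 n1753 (.cons 841 n1760 (.cons 879 n1763 .nil))))
noncomputable def n1765 : Strat := .move 838 n1718 (.cons 841 n1713 (.cons 837 n1728 (.cons 798 n1400 (.cons 800 n1764 .nil))))
noncomputable def n1766 : Strat := .win 796 2 795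
noncomputable def n1767 : Strat := .win 794 2 794
noncomputable def n1768 : Strat := .move 795 n1766 (.cons 796 n1767 .nil)
noncomputable def n1769 : Strat := .move 836 n1682 (.cons 798 n1768 .nil)
noncomputable def n1770 : Strat := .move 878 n618 (.cons 877 n1444 .nil)
noncomputable def n1771 : Strat := .move 837 n1686 (.cons 877 n1769 (.cons 798 n1770 .nil))
noncomputable def n1772 : Strat := .move 837 n613 (.cons 800 n1770 .nil)
noncomputable def n1773 : Strat := .move 837 n613 (.cons 800 n1769 .nil)
noncomputable def n1774 : Strat := .win 798 3 757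
noncomputable def n1775 : Strat := .move 921 n1774 (.cons 798 n1383 .nil)
noncomputable def n1776 : Strat := .move 880 n1264 (.cons 842 n1775 .nil)
noncomputable def n1777 : Strat := .move 879 n1032 (.cons 878 n1776 .nil)
noncomputable def n1778 : Strat := .move 758 n322 (.cons 717 n1777 .nil)
noncomputable def n1779 : Strat := .move 882 n1143 (.cons 883 n1778 .nil)
noncomputable def n1780 : Strat := .move 843 n1193 (.cons 844 n871 .nil)
noncomputable def n1781 : Strat := .move 842 n1150 (.cons 880 n1780 .nil)
noncomputable def n1782 : Strat := .move 879 n1032 (.cons 878 n1781 .nil)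
noncomputable def n1783 : Strat := .move 800 n596 (.cons 801 n1782 .nil)
noncomputable def n1784 : Strat := .move 841 n1401 (.cons 800 n1779 (.cons 882 n1783 .nil))
noncomputable def n1785 : Strat := .move 838 n1713 (.cons 800 n1771 (.cons 798 n1772 (.cons 877 n1773 (.cons 837 n1784 .nil))))
noncomputable def n1786 : Strat := .move 797 n509 (.cons 841 n1678 .nil)
noncomputable def n1787 : Strat := .move 796 n614 (.cons 795 n1786 .nil)
noncomputable def n1788 : Strat := .move 798 n1739 (.cons 836 n1787 .nil)
noncomputable def n1789 : Strat := .move 837 n1788 (.cons 841 n1686 (.cons 836 n1674 .nil))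
noncomputable def n1790 : Strat := .move 841 n1358 (.cons 882 n1710 .nil)
noncomputable def n1791 : Strat := .move 800 n1661 (.cons 801 n1790 (.cons 798 n1437 .nil))
noncomputable def n1792 : Strat := .move 838 n1662 (.cons 800 n1789 (.cons 798 n1438 (.cons 837 n1791 .nil)))
noncomputable def n1793 : Strat := .move 842 n1195 (.cons 797 n1194 (.cons 798 n1703 .nil))
noncomputable def n1794 : Strat := .move 841 n1358 (.cons 882 n1793 .nil)
noncomputable def n1795 : Strat := .move 838 n597 (.cons 837 n1794 .nil)
noncomputable def n1796 : Strat := .move 797 n1377 (.cons 759 n1373 .nil)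
noncomputable def n1797 : Strat := .move 760 n538 (.cons 761 n1796 .nil)
noncomputable def n1798 : Strat := .move 798 n1369 (.cons 797 n1391 (.cons 843 n1797 .nil))
noncomputable def n1799 : Strat := .move 801 n493 (.cons 802 n1798 .nil)
noncomputable def n1800 : Strat := .move 800 n1349 (.cons 798 n1363 (.cons 801 n1795 (.cons 837 n1371 (.cons 838 n1799 .nil))))
noncomputable def n1801 : Strat := .win 919 3 755
noncomputable def n1802 : Strat := .move 756 n1801 (.cons 919 n1451 .nil)
noncomputable def n1803 : Strat := .move 878 n618 (.cons 877 n1802 .nil)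
noncomputable def n1804 : Strat := .move 797 n1447 (.cons 841 n1803 .nil)
noncomputable def n1805 : Strat := .move 796 n614 (.cons 795 n1804 .nil)
noncomputable def n1806 : Strat := .move 837 n1769 (.cons 796 n1686 (.cons 836 n1805 .nil))
noncomputable def n1807 : Strat := .move 878 n618 (.cons 877 n1459 .nil)
noncomputable def n1808 : Strat := .move 796 n614 (.cons 795 n1807 .nil)
noncomputable def n1809 : Strat := .move 837 n613 (.cons 800 n1808 .nil)
noncomputable def n1810 : Strat := .move 800 n596 (.cons 801 n1355 .nil)
noncomputable def n1811 : Strat := .move 841 n1810 (.cons 801 n1719 (.cons 797 n1401 (.cons 800 n1671 .nil)))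
noncomputable def n1812 : Strat := .move 838 n1773 (.cons 796 n1713 (.cons 800 n1806 (.cons 798 n1809 (.cons 837 n1811 .nil))))
noncomputable def n1813 : Strat := .move 837 n613 (.cons 800 n1681 .nil)
noncomputable def n1814 : Strat := .move 878 n618 (.cons 877 n1460 .nil)
noncomputable def n1815 : Strat := .move 837 n613 (.cons 800 n1814 .nil)
noncomputable def n1816 : Strat := .move 800 n490 (.cons 801 n1666 .nil)
noncomputable def n1817 : Strat := .move 798 n127 (.cons 842 n1816 .nil)
noncomputable def n1818 : Strat := .move 797 n626 (.cons 796 n1817 .nil)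
noncomputable def n1819 : Strat := .move 841 n1700 (.cons 674 n1818 (.cons 797 n1783 (.cons 800 n1705 (.cons 798 n1408 (.cons 842 n1711 .nil)))))
noncomputable def n1820 : Strat := .move 837 n727 (.cons 836 n1678 .nil)
noncomputable def n1821 : Strat := .move 796 n508 (.cons 795 n1820 .nil)
noncomputable def n1822 : Strat := .move 841 n127 (.cons 842 n1032 .nil)
noncomputable def n1823 : Strat := .move 879 n1822 (.cons 878 n1749 .nil)
noncomputable def n1824 : Strat := .move 880 n1530 (.cons 962 n1748 (.cons 921 n1823 .nil))
noncomputable def n1825 : Strat := .move 797 n1376 (.cons 841 n1821 (.cons 795 n1583 (.cons 796 n1824 .nil)))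
noncomputable def n1826 : Strat := .move 797 n1376 (.cons 795 n1583 (.cons 796 n1824 (.cons 841 n1747 .nil)))
noncomputable def n1827 : Strat := .move 798 n1825 (.cons 797 n1745 (.cons 841 n1760 (.cons 836 n1826 (.cons 879 n1763 .nil))))
noncomputable def n1828 : Strat := .move 838 n1813 (.cons 841 n1713 (.cons 836 n1662 (.cons 798 n1815 (.cons 837 n1819 (.cons 800 n1827 .nil)))))
noncomputable def n1829 : Strat := .move 883 n567 (.cons 884 n1145 .nil)
noncomputable def n1830 : Strat := .move 842 n1196 (.cons 798 n1829 .nil)
noncomputable def n1831 : Strat := .move 797 n626 (.cons 796 n1830 .nil)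
noncomputable def n1832 : Strat := .move 800 n596 (.cons 801 n1831 .nil)
noncomputable def n1833 : Strat := .move 800 n1831 (.cons 883 n1668 (.cons 797 n1358 .nil))
noncomputable def n1834 : Strat := .move 841 n1832 (.cons 797 n1401 (.cons 801 n1833 (.cons 883 n1669 (.cons 800 n1705 .nil))))
noncomputable def n1835 : Strat := .move 841 n619 (.cons 879 n616 .nil)
noncomputable def n1836 : Strat := .move 878 n618 (.cons 877 n1835 .nil)
noncomputable def n1837 : Strat := .move 837 n613 (.cons 800 n1836 .nil)
noncomputable def n1838 : Strat := .move 841 n1721 (.cons 797 n1715 (.cons 878 n1671 (.cons 842 n622 .nil)))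
noncomputable def n1839 : Strat := .move 838 n1713 (.cons 837 n1834 (.cons 798 n1837 (.cons 878 n1662 (.cons 800 n1838 .nil))))
noncomputable def n1840 : Strat := .move 921 n1382 (.cons 758 n1626 .nil)
noncomputable def n1841 : Strat := .win 838 4 837
noncomputable def n1842 : Strat := .win 877 5 836
noncomputable def n1843 : Strat := .move 878 n1841 (.cons 838 n1842 .nil)
noncomputable def n1844 : Strat := .move 841 n1264 (.cons 842 n1843 .nil)
noncomputable def n1845 : Strat := .move 879 n1277 (.cons 920 n1844 .nil)
noncomputable def n1846 : Strat := .move 757 n1543 (.cons 716 n1845 .nil)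
noncomputable def n1847 : Strat := .move 717 n1542 (.cons 758 n1846 .nil)
noncomputable def n1848 : Strat := .move 880 n1530 (.cons 962 n1840 (.cons 758 n1627 (.cons 921 n1847 .nil)))
noncomputable def n1849 : Strat := .win 838 1 715
noncomputable def n1850 : Strat := .move 879 n1849 (.cons 838 n1277 .nil)
noncomputable def n1851 : Strat := .move 716 n1114 (.cons 675 n1850 .nil)
noncomputable def n1852 : Strat := .move 757 n1851 (.cons 716 n1845 (.cons 920 n1570 .nil))
noncomputable def n1853 : Strat := .move 758 n1385 (.cons 921 n1852 .nil)
noncomputable def n1854 : Strat := .win 923 2 878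
noncomputable def n1855 : Strat := .move 922 n1854 (.cons 923 n506 .nil)
noncomputable def n1856 : Strat := .move 878 n1842 (.cons 877 n1855 .nil)
noncomputable def n1857 : Strat := .move 879 n1560 (.cons 757 n1856 .nil)
noncomputable def n1858 : Strat := .move 920 n1539 (.cons 961 n1857 .nil)
noncomputable def n1859 : Strat := .move 921 n1383 (.cons 962 n1858 .nil)
noncomputable def n1860 : Strat := .move 758 n27 (.cons 717 n1852 .nil)
noncomputable def n1861 : Strat := .move 880 n1528 (.cons 717 n1853 (.cons 758 n1859 (.cons 921 n1860 .nil)))
noncomputable def n1862 : Strat := .move 921 n1383 (.cons 962 n507 .nil)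
noncomputable def n1863 : Strat := .win 838 6 715
noncomputable def n1864 : Strat := .move 715 n1863 (.cons 838 n1350 .nil)
noncomputable def n1865 : Strat := .move 756 n1586 (.cons 921 n1864 .nil)
noncomputable def n1866 : Strat := .move 878 n1842 (.cons 877 n1841 .nil)
noncomputable def n1867 : Strat := .move 879 n1277 (.cons 920 n1866 .nil)
noncomputable def n1868 : Strat := .move 757 n1851 (.cons 716 n1867 (.cons 920 n1570 .nil))
noncomputable def n1869 : Strat := .move 879 n1561 (.cons 757 n1866 .nil)
noncomputable def n1870 : Strat := .move 921 n1383 (.cons 962 n1869 .nil)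
noncomputable def n1871 : Strat := .move 880 n1862 (.cons 962 n1865 (.cons 921 n1868 (.cons 756 n1870 .nil)))
noncomputable def n1872 : Strat := .move 841 n127 (.cons 842 n1871 .nil)
noncomputable def n1873 : Strat := .win 918 1 754
noncomputable def n1874 : Strat := .win 838 4 836
noncomputable def n1875 : Strat := .move 877 n1873 (.cons 918 n1874 .nil)
noncomputable def n1876 : Strat := .move 756 n1418 (.cons 715 n1801 .nil)
noncomputable def n1877 : Strat := .move 878 n1875 (.cons 838 n1876 .nil)
noncomputable def n1878 : Strat := .move 755 n728 (.cons 754 n1877 .nil)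
noncomputable def n1879 : Strat := .move 837 n727 (.cons 836 n1878 .nil)
noncomputable def n1880 : Strat := .move 796 n508 (.cons 795 n1879 .nil)
noncomputable def n1881 : Strat := .move 797 n510 (.cons 796 n1872 (.cons 841 n1880 .nil))
noncomputable def n1882 : Strat := .move 837 n1739 (.cons 836 n1787 .nil)
noncomputable def n1883 : Strat := .move 842 n571 (.cons 843 n1829 .nil)
noncomputable def n1884 : Strat := .move 841 n619 (.cons 879 n1883 .nil)
noncomputable def n1885 : Strat := .move 878 n618 (.cons 877 n1884 .nil)
noncomputable def n1886 : Strat := .move 837 n1739 (.cons 836 n1885 .nil)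
noncomputable def n1887 : Strat := .move 880 n1382 (.cons 758 n1383 .nil)
noncomputable def n1888 : Strat := .win 756 6 756
noncomputable def n1889 : Strat := .move 880 n1888 (.cons 756 n1382 .nil)
noncomputable def n1890 : Strat := .move 880 n1888 (.cons 756 n1383 .nil)
noncomputable def n1891 : Strat := .win 962 6 797
noncomputable def n1892 : Strat := .move 920 n1891 (.cons 962 n1730 .nil)
noncomputable def n1893 : Strat := .move 921 n1887 (.cons 962 n1889 (.cons 758 n1890 (.cons 880 n1892 .nil)))
noncomputable def n1894 : Strat := .move 879 n1032 (.cons 878 n1893 .nil)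
noncomputable def n1895 : Strat := .move 797 n128 (.cons 796 n1894 .nil)
noncomputable def n1896 : Strat := .move 842 n571 (.cons 843 n1703 .nil)
noncomputable def n1897 : Strat := .move 841 n145 (.cons 842 n1895 (.cons 797 n1896 .nil))
noncomputable def n1898 : Strat := .move 838 n1882 (.cons 797 n1886 (.cons 841 n1760 (.cons 879 n1763 (.cons 837 n1897 .nil))))
noncomputable def n1899 : Strat := .move 838 n1032 (.cons 878 n1829 .nil)
noncomputable def n1900 : Strat := .move 879 n1150 (.cons 880 n1899 .nil)
noncomputable def n1901 : Strat := .move 842 n571 (.cons 843 n1900 .nil)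
noncomputable def n1902 : Strat := .move 842 n570 (.cons 797 n1900 .nil)
noncomputable def n1903 : Strat := .win 797 0 796
noncomputable def n1904 : Strat := .move 837 n1739 (.cons 836 n614 .nil)
noncomputable def n1905 : Strat := .move 920 n1740 (.cons 880 n1730 .nil)
noncomputable def n1906 : Strat := .move 757 n1664 (.cons 716 n1905 .nil)
noncomputable def n1907 : Strat := .move 879 n1032 (.cons 878 n1906 .nil)
noncomputable def n1908 : Strat := .move 838 n1904 (.cons 836 n1907 .nil)
noncomputable def n1909 : Strat := .move 796 n1903 (.cons 797 n1908 .nil)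
noncomputable def n1910 : Strat := .move 841 n1129 (.cons 797 n1901 (.cons 843 n1902 (.cons 842 n1909 .nil)))
noncomputable def n1911 : Strat := .move 757 n1851 (.cons 716 n1634 .nil)
noncomputable def n1912 : Strat := .move 758 n27 (.cons 717 n1911 .nil)
noncomputable def n1913 : Strat := .move 921 n1383 (.cons 962 n511 .nil)
noncomputable def n1914 : Strat := .move 880 n1530 (.cons 962 n1528 (.cons 921 n1912 (.cons 758 n1913 .nil)))
noncomputable def n1915 : Strat := .move 837 n614 (.cons 795 n1739 .nil)
noncomputable def n1916 : Strat := .win 879 1 715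
noncomputable def n1917 : Strat := .move 716 n1916 (.cons 879 n1114 .nil)
noncomputable def n1918 : Strat := .move 838 n1915 (.cons 836 n1917 .nil)
noncomputable def n1919 : Strat := .move 880 n808 (.cons 715 n1385 .nil)
noncomputable def n1920 : Strat := .move 756 n1632 (.cons 754 n1919 .nil)
noncomputable def n1921 : Strat := .move 716 n403 (.cons 674 n1114 .nil)
noncomputable def n1922 : Strat := .move 880 n1524 (.cons 756 n1385 .nil)
noncomputable def n1923 : Strat := .move 715 n1921 (.cons 675 n1922 .nil)
noncomputable def n1924 : Strat := .move 757 n1918 (.cons 838 n1920 (.cons 795 n1923 .nil))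
noncomputable def n1925 : Strat := .move 717 n126 (.cons 676 n9 .nil)
noncomputable def n1926 : Strat := .move 758 n1306 (.cons 717 n1924 (.cons 880 n1925 .nil))
noncomputable def n1927 : Strat := .move 796 n1903 (.cons 797 n1926 .nil)
noncomputable def n1928 : Strat := .move 841 n145 (.cons 797 n1548 (.cons 842 n1927 .nil))
noncomputable def n1929 : Strat := .move 837 n1739 (.cons 836 n620 .nil)
noncomputable def n1930 : Strat := .move 838 n1145 (.cons 882 n1929 .nil)
noncomputable def n1931 : Strat := .move 883 n567 (.cons 884 n1930 .nil)
noncomputable def n1932 : Strat := .move 842 n571 (.cons 843 n1931 .nil)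
noncomputable def n1933 : Strat := .move 842 n570 (.cons 797 n1931 .nil)
noncomputable def n1934 : Strat := .move 797 n128 (.cons 796 n1732 .nil)
noncomputable def n1935 : Strat := .win 797 3 756
noncomputable def n1936 : Strat := .move 920 n1935 (.cons 797 n1730 .nil)
noncomputable def n1937 : Strat := .move 757 n1664 (.cons 716 n1936 .nil)
noncomputable def n1938 : Strat := .move 879 n1032 (.cons 878 n1937 .nil)
noncomputable def n1939 : Strat := .move 796 n1903 (.cons 797 n1904 .nil)
noncomputable def n1940 : Strat := .move 878 n619 (.cons 879 n618 .nil)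
noncomputable def n1941 : Strat := .move 837 n1739 (.cons 836 n1940 .nil)
noncomputable def n1942 : Strat := .move 838 n1934 (.cons 796 n1938 (.cons 757 n1939 (.cons 797 n1941 .nil)))
noncomputable def n1943 : Strat := .move 841 n1129 (.cons 797 n1932 (.cons 843 n1933 (.cons 842 n1942 .nil)))
noncomputable def n1944 : Strat := .move 717 n126 (.cons 676 n1649 .nil)
noncomputable def n1945 : Strat := .move 715 n403 (.cons 674 n1922 .nil)
noncomputable def n1946 : Strat := .move 716 n1114 (.cons 675 n1945 .nil)
noncomputable def n1947 : Strat := .move 879 n1277 (.cons 920 n1849 .nil)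
noncomputable def n1948 : Strat := .move 716 n1114 (.cons 675 n1947 .nil)
noncomputable def n1949 : Strat := .move 880 n1385 (.cons 921 n1948 .nil)
noncomputable def n1950 : Strat := .move 797 n164 (.cons 796 n107 .nil)
noncomputable def n1951 : Strat := .win 718 5 715
noncomputable def n1952 : Strat := .move 756 n1951 (.cons 718 n808 .nil)
noncomputable def n1953 : Strat := .move 760 n764 (.cons 720 n110 .nil)
noncomputable def n1954 : Strat := .move 719 n1952 (.cons 715 n1953 .nil)
noncomputable def n1955 : Strat := .move 880 n1385 (.cons 921 n1954 .nil)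
noncomputable def n1956 : Strat := .win 797 5 755
noncomputable def n1957 : Strat := .move 715 n114 (.cons 714 n1510 .nil)
noncomputable def n1958 : Strat := .move 756 n1919 (.cons 921 n1957 (.cons 715 n1632 .nil))
noncomputable def n1959 : Strat := .move 796 n1956 (.cons 797 n1958 .nil)
noncomputable def n1960 : Strat := .move 759 n1950 (.cons 796 n112 (.cons 797 n1955 (.cons 760 n1959 .nil)))
noncomputable def n1961 : Strat := .win 760 2 715
noncomputable def n1962 : Strat := .win 756 2 714
noncomputable def n1963 : Strat := .move 714 n1962 (.cons 756 n404 .nil)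
noncomputable def n1964 : Strat := .move 759 n1961 (.cons 760 n1963 .nil)
noncomputable def n1965 : Strat := .move 715 n403 (.cons 674 n1964 .nil)
noncomputable def n1966 : Strat := .move 716 n1114 (.cons 675 n1965 .nil)
noncomputable def n1967 : Strat := .move 757 n1946 (.cons 715 n1949 (.cons 716 n1960 (.cons 880 n1966 .nil)))
noncomputable def n1968 : Strat := .move 758 n1306 (.cons 880 n1944 (.cons 676 n1604 (.cons 717 n1967 .nil)))
noncomputable def n1969 : Strat := .move 797 n507 (.cons 756 n1376 .nil)
noncomputable def n1970 : Strat := .move 922 n506 (.cons 963 n1969 .nil)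
noncomputable def n1971 : Strat := .move 921 n1383 (.cons 962 n1970 .nil)
noncomputable def n1972 : Strat := .move 841 n127 (.cons 842 n128 .nil)
noncomputable def n1973 : Strat := .move 796 n1603 (.cons 759 n508 .nil)
noncomputable def n1974 : Strat := .move 715 n1524 (.cons 756 n1921 .nil)
noncomputable def n1975 : Strat := .move 797 n1376 (.cons 795 n1972 (.cons 841 n1973 (.cons 796 n1974 .nil)))
noncomputable def n1976 : Strat := .move 758 n27 (.cons 717 n1975 .nil)
noncomputable def n1977 : Strat := .move 715 n1524 (.cons 756 n403 .nil)
noncomputable def n1978 : Strat := .move 716 n1114 (.cons 675 n1977 .nil)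
noncomputable def n1979 : Strat := .move 757 n1976 (.cons 758 n1978 (.cons 716 n1635 (.cons 756 n1544 .nil)))
noncomputable def n1980 : Strat := .move 880 n1530 (.cons 962 n1528 (.cons 758 n1971 (.cons 921 n1979 .nil)))
noncomputable def n1981 : Strat := .move 798 n1848 (.cons 797 n1861 (.cons 758 n1881 (.cons 757 n1898 (.cons 838 n1639 (.cons 921 n1910 (.cons 842 n1914 (.cons 920 n1928 (.cons 880 n1943 (.cons 841 n1968 (.cons 879 n1980 .nil))))))))))
noncomputable def n1982 : Strat := .move 717 n7 (.cons 880 n94 .nil)
noncomputable def n1983 : Strat := .move 717 n94 (.cons 798 n442 (.cons 718 n52 .nil))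
noncomputable def n1984 : Strat := .move 717 n7 (.cons 880 n442 .nil)
noncomputable def n1985 : Strat := .move 921 n1383 (.cons 962 n1774 .nil)
noncomputable def n1986 : Strat := .move 880 n27 (.cons 717 n1985 .nil)
noncomputable def n1987 : Strat := .move 795 n1767 (.cons 794 n1766 .nil)
noncomputable def n1988 : Strat := .move 836 n1684 (.cons 876 n1987 .nil)
noncomputable def n1989 : Strat := .move 877 n1683 (.cons 878 n1988 .nil)
noncomputable def n1990 : Strat := .move 877 n1684 (.cons 876 n1987 .nil)
noncomputable def n1991 : Strat := .move 836 n1682 (.cons 798 n1990 .nil)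
noncomputable def n1992 : Strat := .move 798 n728 (.cons 754 n1603 .nil)
noncomputable def n1993 : Strat := .move 755 n1992 (.cons 759 n1677 .nil)
noncomputable def n1994 : Strat := .move 797 n1803 (.cons 878 n1993 .nil)
noncomputable def n1995 : Strat := .move 796 n614 (.cons 795 n1994 .nil)
noncomputable def n1996 : Strat := .move 837 n1686 (.cons 798 n1989 (.cons 878 n1991 (.cons 877 n1769 (.cons 836 n1995 .nil))))
noncomputable def n1997 : Strat := .move 837 n613 (.cons 800 n1989 .nil)
noncomputable def n1998 : Strat := .move 800 n105 (.cons 755 n1070 .nil)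
noncomputable def n1999 : Strat := .move 716 n1114 (.cons 675 n1916 .nil)
noncomputable def n2000 : Strat := .move 757 n1998 (.cons 801 n810 (.cons 755 n1999 .nil))
noncomputable def n2001 : Strat := .move 880 n1403 (.cons 715 n1385 .nil)
noncomputable def n2002 : Strat := .move 800 n497 (.cons 755 n490 .nil)
noncomputable def n2003 : Strat := .move 797 n2001 (.cons 921 n2002 .nil)
noncomputable def n2004 : Strat := .win 797 6 715
noncomputable def n2005 : Strat := .move 715 n1587 (.cons 757 n2004 .nil)
noncomputable def n2006 : Strat := .move 880 n1385 (.cons 921 n2005 .nil)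
noncomputable def n2007 : Strat := .move 798 n2000 (.cons 754 n2003 (.cons 800 n2006 .nil))
noncomputable def n2008 : Strat := .move 880 n1403 (.cons 715 n1775 .nil)
noncomputable def n2009 : Strat := .win 879 6 756
noncomputable def n2010 : Strat := .move 921 n2009 (.cons 879 n1383 .nil)
noncomputable def n2011 : Strat := .move 880 n1403 (.cons 715 n2010 .nil)
noncomputable def n2012 : Strat := .move 798 n2001 (.cons 921 n2002 .nil)
noncomputable def n2013 : Strat := .move 798 n2002 (.cons 801 n1973 .nil)
noncomputable def n2014 : Strat := .move 797 n2008 (.cons 798 n2011 (.cons 962 n2012 (.cons 880 n2013 .nil)))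
noncomputable def n2015 : Strat := .win 798 2 756
noncomputable def n2016 : Strat := .move 801 n2015 (.cons 798 n317 .nil)
noncomputable def n2017 : Strat := .move 800 n105 (.cons 755 n2016 .nil)
noncomputable def n2018 : Strat := .win 759 0 756
noncomputable def n2019 : Strat := .move 801 n2018 (.cons 759 n317 .nil)
noncomputable def n2020 : Strat := .move 800 n105 (.cons 755 n2019 .nil)
noncomputable def n2021 : Strat := .move 798 n1998 (.cons 801 n810 (.cons 755 n1999 .nil))
noncomputable def n2022 : Strat := .move 798 n1999 (.cons 879 n1919 .nil)
noncomputable def n2023 : Strat := .move 757 n2017 (.cons 798 n2020 (.cons 802 n2021 (.cons 800 n2022 .nil)))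
noncomputable def n2024 : Strat := .win 879 3 715
noncomputable def n2025 : Strat := .move 715 n1488 (.cons 675 n1351 .nil)
noncomputable def n2026 : Strat := .move 797 n2024 (.cons 879 n2025 .nil)
noncomputable def n2027 : Strat := .move 716 n2026 (.cons 797 n2020 .nil)
noncomputable def n2028 : Strat := .win 715 3 674
noncomputable def n2029 : Strat := .win 634 1 633
noncomputable def n2030 : Strat := .move 675 n2028 (.cons 715 n2029 .nil)
noncomputable def n2031 : Strat := .move 797 n2024 (.cons 879 n2030 .nil)
noncomputable def n2032 : Strat := .move 716 n2031 (.cons 797 n2020 .nil)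
noncomputable def n2033 : Strat := .move 797 n1403 (.cons 715 n2010 .nil)
noncomputable def n2034 : Strat := .move 880 n2033 (.cons 797 n2020 .nil)
noncomputable def n2035 : Strat := .move 796 n1629 (.cons 759 n300 .nil)
noncomputable def n2036 : Strat := .win 716 3 715
noncomputable def n2037 : Strat := .move 879 n1493 (.cons 714 n2036 .nil)
noncomputable def n2038 : Strat := .move 797 n2035 (.cons 795 n2037 .nil)
noncomputable def n2039 : Strat := .move 755 n365 (.cons 800 n2038 .nil)
noncomputable def n2040 : Strat := .win 712 2 712
noncomputable def n2041 : Strat := .win 714 2 713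
noncomputable def n2042 : Strat := .move 713 n2040 (.cons 712 n2041 .nil)
noncomputable def n2043 : Strat := .win 794 4 753
noncomputable def n2044 : Strat := .win 796 4 754
noncomputable def n2045 : Strat := .move 795 n2043 (.cons 794 n2044 .nil)
noncomputable def n2046 : Strat := .move 754 n2042 (.cons 714 n2045 .nil)
noncomputable def n2047 : Strat := .move 755 n365 (.cons 800 n2046 .nil)
noncomputable def n2048 : Strat := .move 759 n108 (.cons 796 n114 .nil)
noncomputable def n2049 : Strat := .move 715 n1351 (.cons 880 n2048 .nil)
noncomputable def n2050 : Strat := .win 755 4 754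
noncomputable def n2051 : Strat := .move 795 n1475 (.cons 794 n2050 .nil)
noncomputable def n2052 : Strat := .move 796 n1629 (.cons 759 n2051 .nil)
noncomputable def n2053 : Strat := .move 716 n1488 (.cons 675 n2024 .nil)
noncomputable def n2054 : Strat := .move 715 n1351 (.cons 880 n2053 .nil)
noncomputable def n2055 : Strat := .move 797 n2049 (.cons 715 n2052 (.cons 796 n2054 .nil))
noncomputable def n2056 : Strat := .move 718 n953 (.cons 677 n885 .nil)
noncomputable def n2057 : Strat := .move 800 n104 (.cons 801 n2056 .nil)
noncomputable def n2058 : Strat := .move 797 n108 (.cons 796 n1351 .nil)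
noncomputable def n2059 : Strat := .move 715 n114 (.cons 714 n2058 .nil)
noncomputable def n2060 : Strat := .move 759 n2057 (.cons 800 n2059 .nil)
noncomputable def n2061 : Strat := .move 757 n2027 (.cons 880 n2032 (.cons 716 n2034 (.cons 802 n2039 (.cons 759 n2047 (.cons 800 n2055 (.cons 755 n2060 .nil))))))
noncomputable def n2062 : Strat := .win 797 2 755
noncomputable def n2063 : Strat := .win 757 0 755
noncomputable def n2064 : Strat := .move 755 n2062 (.cons 797 n2063 .nil)
noncomputable def n2065 : Strat := .move 800 n490 (.cons 801 n2064 .nil)
noncomputable def n2066 : Strat := .move 757 n105 (.cons 755 n1919 .nil)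
noncomputable def n2067 : Strat := .move 800 n490 (.cons 801 n2066 .nil)
noncomputable def n2068 : Strat := .move 798 n2065 (.cons 755 n2006 (.cons 797 n2067 (.cons 757 n2003 .nil)))
noncomputable def n2069 : Strat := .move 795 n2050 (.cons 755 n1475 .nil)
noncomputable def n2070 : Strat := .move 757 n1629 (.cons 759 n2069 .nil)
noncomputable def n2071 : Strat := .move 796 n2070 (.cons 757 n2011 .nil)
noncomputable def n2072 : Strat := .win 798 6 674
noncomputable def n2073 : Strat := .win 634 3 633
noncomputable def n2074 : Strat := .win 716 3 674
noncomputable def n2075 : Strat := .move 675 n2073 (.cons 634 n2074 .nil)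
noncomputable def n2076 : Strat := .move 674 n2072 (.cons 798 n2075 .nil)
noncomputable def n2077 : Strat := .move 715 n1351 (.cons 880 n2076 .nil)
noncomputable def n2078 : Strat := .move 675 n2029 (.cons 634 n2028 .nil)
noncomputable def n2079 : Strat := .move 716 n2024 (.cons 879 n2078 .nil)
noncomputable def n2080 : Strat := .win 798 0 795
noncomputable def n2081 : Strat := .move 795 n2080 (.cons 798 n1475 .nil)
noncomputable def n2082 : Strat := .move 796 n1629 (.cons 759 n2081 .nil)
noncomputable def n2083 : Strat := .move 757 n2079 (.cons 716 n2082 .nil)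
noncomputable def n2084 : Strat := .move 878 n1842 (.cons 877 n1450 .nil)
noncomputable def n2085 : Strat := .move 880 n1402 (.cons 921 n2084 .nil)
noncomputable def n2086 : Strat := .move 757 n1629 (.cons 759 n2036 .nil)
noncomputable def n2087 : Strat := .move 796 n2081 (.cons 794 n2086 .nil)
noncomputable def n2088 : Strat := .move 879 n2085 (.cons 880 n2087 .nil)
noncomputable def n2089 : Strat := .move 797 n2008 (.cons 798 n2071 (.cons 962 n2077 (.cons 880 n2083 (.cons 715 n2088 .nil))))
noncomputable def n2090 : Strat := .win 798 0 754
noncomputable def n2091 : Strat := .move 754 n2090 (.cons 798 n2042 .nil)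
noncomputable def n2092 : Strat := .move 755 n365 (.cons 800 n2091 .nil)
noncomputable def n2093 : Strat := .move 797 n2079 (.cons 716 n2082 .nil)
noncomputable def n2094 : Strat := .move 757 n2017 (.cons 798 n2032 (.cons 802 n2092 (.cons 800 n2093 .nil)))
noncomputable def n2095 : Strat := .move 757 n2036 (.cons 716 n365 .nil)
noncomputable def n2096 : Strat := .move 755 n1493 (.cons 714 n2095 .nil)
noncomputable def n2097 : Strat := .move 879 n2085 (.cons 880 n2096 .nil)
noncomputable def n2098 : Strat := .move 797 n2013 (.cons 798 n2097 (.cons 800 n2088 .nil))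
noncomputable def n2099 : Strat := .win 797 3 715
noncomputable def n2100 : Strat := .move 879 n2099 (.cons 797 n1033 .nil)
noncomputable def n2101 : Strat := .move 797 n108 (.cons 796 n2024 .nil)
noncomputable def n2102 : Strat := .win 798 6 675
noncomputable def n2103 : Strat := .win 634 6 634
noncomputable def n2104 : Strat := .move 675 n2102 (.cons 798 n2103 .nil)
noncomputable def n2105 : Strat := .move 716 n2100 (.cons 798 n2101 (.cons 797 n2104 .nil))
noncomputable def n2106 : Strat := .move 759 n2057 (.cons 800 n2105 .nil)
noncomputable def n2107 : Strat := .move 757 n2022 (.cons 798 n2060 (.cons 880 n2106 .nil))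
noncomputable def n2108 : Strat := .move 756 n2007 (.cons 757 n2014 (.cons 797 n2023 (.cons 798 n2061 (.cons 879 n2068 (.cons 800 n2089 (.cons 880 n2094 (.cons 715 n2098 (.cons 755 n2107 .nil))))))))
noncomputable def n2109 : Strat := .move 838 n1713 (.cons 800 n1996 (.cons 798 n1997 (.cons 878 n1662 (.cons 837 n2108 .nil))))
noncomputable def n2110 : Strat := .move 758 n1982 (.cons 880 n1983 (.cons 798 n1984 (.cons 677 n1986 (.cons 717 n2109 .nil))))
noncomputable def n2111 : Strat := .move 838 n1810 (.cons 797 n1401 (.cons 801 n1719 (.cons 800 n1705 .nil)))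
noncomputable def n2112 : Strat := .move 838 n596 (.cons 801 n1358 .nil)
noncomputable def n2113 : Strat := .move 838 n1358 (.cons 882 n1710 .nil)
noncomputable def n2114 : Strat := .move 838 n596 (.cons 801 n1710 .nil)
noncomputable def n2115 : Strat := .move 717 n9 (.cons 882 n7 .nil)
noncomputable def n2116 : Strat := .move 797 n1377 (.cons 759 n128 .nil)
noncomputable def n2117 : Strat := .move 760 n538 (.cons 761 n2116 .nil)
noncomputable def n2118 : Strat := .move 758 n2115 (.cons 880 n1925 (.cons 882 n936 (.cons 717 n2117 .nil)))
noncomputable def n2119 : Strat := .move 797 n497 (.cons 755 n128 .nil)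
noncomputable def n2120 : Strat := .move 756 n1372 (.cons 757 n2119 .nil)
noncomputable def n2121 : Strat := .move 758 n2115 (.cons 880 n1925 (.cons 882 n936 (.cons 717 n2120 .nil)))
noncomputable def n2122 : Strat := .move 758 n126 (.cons 676 n9 .nil)
noncomputable def n2123 : Strat := .move 717 n1616 (.cons 880 n2122 (.cons 882 n1614 (.cons 758 n1564 .nil)))
noncomputable def n2124 : Strat := .move 757 n854 (.cons 756 n2123 .nil)
noncomputable def n2125 : Strat := .move 798 n2118 (.cons 717 n2117 (.cons 759 n2121 (.cons 797 n2124 .nil)))
noncomputable def n2126 : Strat := .move 801 n493 (.cons 802 n2125 .nil)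
noncomputable def n2127 : Strat := .move 800 n2112 (.cons 801 n2113 (.cons 758 n2114 (.cons 838 n2126 .nil)))
noncomputable def n2128 : Strat := .move 838 n1401 (.cons 882 n1408 (.cons 800 n1409 .nil))
noncomputable def n2129 : Strat := .move 800 n1585 (.cons 755 n1592 (.cons 801 n1590 .nil))
noncomputable def n2130 : Strat := .move 797 n128 (.cons 796 n2129 .nil)
noncomputable def n2131 : Strat := .move 798 n1129 (.cons 842 n2130 (.cons 797 n1548 .nil))
noncomputable def n2132 : Strat := .move 838 n1719 (.cons 882 n1721 (.cons 796 n1723 (.cons 797 n1727 .nil)))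
noncomputable def n2133 : Strat := .move 838 n1669 (.cons 797 n1401 (.cons 800 n1671 .nil))
noncomputable def n2134 : Strat := .move 838 n1697 (.cons 802 n1700 (.cons 797 n1702 (.cons 800 n1705 (.cons 842 n1711 .nil))))
noncomputable def n2135 : Strat := .move 838 n1401 (.cons 800 n1779 (.cons 882 n1783 .nil))
noncomputable def n2136 : Strat := .move 838 n1810 (.cons 801 n1719 (.cons 797 n1401 (.cons 800 n1671 .nil)))
noncomputable def n2137 : Strat := .move 884 n873 (.cons 883 n872 .nil)
noncomputable def n2138 : Strat := .move 843 n871 (.cons 798 n2137 .nil)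
noncomputable def n2139 : Strat := .win 838 0 838
noncomputable def n2140 : Strat := .move 760 n1549 (.cons 923 n1550 .nil)
noncomputable def n2141 : Strat := .move 801 n624 (.cons 802 n2140 .nil)
noncomputable def n2142 : Strat := .move 882 n2139 (.cons 838 n2141 .nil)
noncomputable def n2143 : Strat := .move 883 n567 (.cons 884 n2142 .nil)
noncomputable def n2144 : Strat := .move 880 n1153 (.cons 879 n2143 .nil)
noncomputable def n2145 : Strat := .move 842 n572 (.cons 797 n2138 (.cons 798 n2144 .nil))
noncomputable def n2146 : Strat := .move 841 n2111 (.cons 842 n2127 (.cons 798 n2128 (.cons 838 n2131 (.cons 801 n2132 (.cons 880 n2133 (.cons 758 n2134 (.cons 797 n2135 (.cons 879 n2136 (.cons 800 n2145 .nil)))))))))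
noncomputable def n2147 : Strat := .move 839 n1396 (.cons 798 n1500 (.cons 838 n1660 (.cons 880 n1688 (.cons 758 n1717 (.cons 801 n1765 (.cons 797 n1785 (.cons 842 n1792 (.cons 796 n1800 (.cons 879 n1812 (.cons 882 n1828 (.cons 755 n1839 (.cons 800 n1981 (.cons 841 n2110 (.cons 837 n2146 .nil))))))))))))))
noncomputable def n2148 : Strat := .move 715 n1351 (.cons 880 n1350 .nil)
noncomputable def n2149 : Strat := .move 756 n497 (.cons 755 n2148 .nil)
noncomputable def n2150 : Strat := .move 839 n490 (.cons 801 n2149 .nil)
noncomputable def n2151 : Strat := .move 838 n491 (.cons 837 n2150 .nil)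
noncomputable def n2152 : Strat := .move 801 n674 (.cons 839 n1584 .nil)
noncomputable def n2153 : Strat := .move 838 n491 (.cons 837 n2152 .nil)
noncomputable def n2154 : Strat := .move 881 n1162 (.cons 718 n316 .nil)
noncomputable def n2155 : Strat := .move 759 n918 (.cons 760 n2154 .nil)
noncomputable def n2156 : Strat := .move 800 n2151 (.cons 715 n2153 (.cons 838 n2155 .nil))
noncomputable def n2157 : Strat := .move 797 n128 (.cons 796 n2156 .nil)
noncomputable def n2158 : Strat := .win 881 6 716
noncomputable def n2159 : Strat := .move 716 n2158 (.cons 881 n1114 .nil)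
noncomputable def n2160 : Strat := .move 757 n854 (.cons 756 n2159 .nil)
noncomputable def n2161 : Strat := .move 800 n494 (.cons 838 n2160 .nil)
noncomputable def n2162 : Strat := .move 801 n624 (.cons 802 n2161 .nil)
noncomputable def n2163 : Strat := .move 839 n570 (.cons 797 n2162 .nil)
noncomputable def n2164 : Strat := .move 842 n571 (.cons 843 n2163 .nil)
noncomputable def n2165 : Strat := .move 838 n1147 (.cons 800 n1146 .nil)
noncomputable def n2166 : Strat := .move 801 n624 (.cons 802 n2165 .nil)
noncomputable def n2167 : Strat := .move 837 n613 (.cons 800 n1739 .nil)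
noncomputable def n2168 : Strat := .move 838 n1146 (.cons 884 n2167 .nil)
noncomputable def n2169 : Strat := .move 921 n1383 (.cons 962 n2168 .nil)
noncomputable def n2170 : Strat := .move 880 n1153 (.cons 879 n2169 .nil)
noncomputable def n2171 : Strat := .win 716 6 716
noncomputable def n2172 : Strat := .win 922 6 757
noncomputable def n2173 : Strat := .move 881 n2171 (.cons 716 n2172 .nil)
noncomputable def n2174 : Strat := .win 800 2 756
noncomputable def n2175 : Strat := .move 756 n2174 (.cons 800 n808 .nil)
noncomputable def n2176 : Strat := .move 757 n2159 (.cons 675 n2173 (.cons 881 n2175 .nil))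
noncomputable def n2177 : Strat := .move 801 n624 (.cons 802 n2176 .nil)
noncomputable def n2178 : Strat := .move 880 n1153 (.cons 879 n2177 .nil)
noncomputable def n2179 : Strat := .move 838 n1032 (.cons 878 n1146 .nil)
noncomputable def n2180 : Strat := .move 879 n1150 (.cons 880 n2179 .nil)
noncomputable def n2181 : Strat := .move 839 n2166 (.cons 801 n2170 (.cons 838 n2178 (.cons 800 n2180 .nil)))
noncomputable def n2182 : Strat := .move 842 n571 (.cons 843 n2181 .nil)
noncomputable def n2183 : Strat := .move 839 n570 (.cons 797 n2180 .nil)
noncomputable def n2184 : Strat := .move 842 n571 (.cons 843 n2183 .nil)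
noncomputable def n2185 : Strat := .move 841 n1138 (.cons 842 n2157 (.cons 796 n2164 (.cons 797 n2182 (.cons 800 n2184 .nil))))
noncomputable def n2186 : Strat := .win 800 4 796
noncomputable def n2187 : Strat := .move 837 n1739 (.cons 836 n2186 .nil)
noncomputable def n2188 : Strat := .move 800 n490 (.cons 801 n2149 .nil)
noncomputable def n2189 : Strat := .move 796 n508 (.cons 795 n1735 .nil)
noncomputable def n2190 : Strat := .move 837 n1739 (.cons 836 n2189 .nil)
noncomputable def n2191 : Strat := .move 838 n2187 (.cons 837 n2188 (.cons 800 n2190 .nil))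
noncomputable def n2192 : Strat := .move 878 n1418 (.cons 715 n1801 .nil)
noncomputable def n2193 : Strat := .move 756 n1595 (.cons 800 n2192 .nil)
noncomputable def n2194 : Strat := .move 755 n728 (.cons 754 n2193 .nil)
noncomputable def n2195 : Strat := .move 837 n727 (.cons 836 n2194 .nil)
noncomputable def n2196 : Strat := .move 796 n508 (.cons 795 n2195 .nil)
noncomputable def n2197 : Strat := .move 800 n729 (.cons 756 n495 .nil)
noncomputable def n2198 : Strat := .move 755 n728 (.cons 754 n2197 .nil)
noncomputable def n2199 : Strat := .move 796 n508 (.cons 795 n2198 .nil)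
noncomputable def n2200 : Strat := .move 838 n491 (.cons 837 n2149 .nil)
noncomputable def n2201 : Strat := .move 801 n493 (.cons 802 n1372 .nil)
noncomputable def n2202 : Strat := .move 756 n497 (.cons 755 n2201 .nil)
noncomputable def n2203 : Strat := .move 800 n492 (.cons 801 n2200 (.cons 837 n999 (.cons 838 n2202 .nil)))
noncomputable def n2204 : Strat := .move 838 n2186 (.cons 800 n1735 .nil)
noncomputable def n2205 : Strat := .move 837 n727 (.cons 836 n2204 .nil)
noncomputable def n2206 : Strat := .move 796 n508 (.cons 795 n2205 .nil)
noncomputable def n2207 : Strat := .move 796 n508 (.cons 795 n727 .nil)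
noncomputable def n2208 : Strat := .move 837 n726 (.cons 838 n2207 .nil)
noncomputable def n2209 : Strat := .move 800 n492 (.cons 838 n1613 (.cons 801 n2208 .nil))
noncomputable def n2210 : Strat := .move 797 n2191 (.cons 838 n2196 (.cons 800 n1880 (.cons 837 n2199 (.cons 796 n2203 (.cons 756 n2206 (.cons 755 n2209 .nil))))))
noncomputable def n2211 : Strat := .move 838 n490 (.cons 801 n597 .nil)
noncomputable def n2212 : Strat := .move 800 n472 (.cons 759 n2211 .nil)
noncomputable def n2213 : Strat := .move 922 n994 (.cons 963 n2212 .nil)
noncomputable def n2214 : Strat := .win 960 4 919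
noncomputable def n2215 : Strat := .win 880 1 797
noncomputable def n2216 : Strat := .move 961 n2214 (.cons 960 n2215 .nil)
noncomputable def n2217 : Strat := .move 882 n527 (.cons 883 n528 .nil)
noncomputable def n2218 : Strat := .move 920 n2216 (.cons 880 n2217 .nil)
noncomputable def n2219 : Strat := .move 923 n137 (.cons 964 n2218 .nil)
noncomputable def n2220 : Strat := .move 921 n98 (.cons 962 n2219 .nil)
noncomputable def n2221 : Strat := .move 922 n994 (.cons 963 n2220 .nil)
noncomputable def n2222 : Strat := .move 922 n472 (.cons 759 n2211 .nil)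
noncomputable def n2223 : Strat := .move 760 n538 (.cons 761 n920 .nil)
noncomputable def n2224 : Strat := .move 759 n316 (.cons 922 n2223 .nil)
noncomputable def n2225 : Strat := .move 801 n493 (.cons 802 n2224 .nil)
noncomputable def n2226 : Strat := .win 838 5 796
noncomputable def n2227 : Strat := .move 796 n727 (.cons 836 n508 .nil)
noncomputable def n2228 : Strat := .move 797 n918 (.cons 760 n2227 .nil)
noncomputable def n2229 : Strat := .move 759 n316 (.cons 922 n2228 .nil)
noncomputable def n2230 : Strat := .move 837 n2226 (.cons 838 n2229 .nil)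
noncomputable def n2231 : Strat := .move 800 n2222 (.cons 922 n2211 (.cons 838 n2225 (.cons 801 n2230 .nil)))
noncomputable def n2232 : Strat := .move 796 n508 (.cons 795 n730 .nil)
noncomputable def n2233 : Strat := .move 797 n2232 (.cons 754 n1592 .nil)
noncomputable def n2234 : Strat := .move 880 n1403 (.cons 715 n1586 .nil)
noncomputable def n2235 : Strat := .move 756 n497 (.cons 755 n2234 .nil)
noncomputable def n2236 : Strat := .move 838 n491 (.cons 837 n2235 .nil)
noncomputable def n2237 : Strat := .move 880 n1586 (.cons 921 n1864 .nil)
noncomputable def n2238 : Strat := .move 756 n497 (.cons 755 n2237 .nil)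
noncomputable def n2239 : Strat := .move 837 n726 (.cons 838 n2227 .nil)
noncomputable def n2240 : Strat := .move 797 n2200 (.cons 674 n2236 (.cons 837 n2238 (.cons 838 n2232 (.cons 756 n2239 .nil))))
noncomputable def n2241 : Strat := .move 800 n2211 (.cons 837 n999 (.cons 838 n2233 (.cons 801 n2240 .nil)))
noncomputable def n2242 : Strat := .move 881 n2213 (.cons 759 n2221 (.cons 963 n2231 (.cons 922 n2241 .nil)))
noncomputable def n2243 : Strat := .move 881 n163 (.cons 922 n2171 .nil)
noncomputable def n2244 : Strat := .move 716 n1114 (.cons 675 n2158 .nil)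
noncomputable def n2245 : Strat := .move 921 n1531 (.cons 797 n1383 .nil)
noncomputable def n2246 : Strat := .move 756 n808 (.cons 715 n2245 .nil)
noncomputable def n2247 : Strat := .move 755 n2062 (.cons 797 n809 .nil)
noncomputable def n2248 : Strat := .move 800 n1070 (.cons 801 n2247 .nil)
noncomputable def n2249 : Strat := .move 756 n808 (.cons 715 n2248 .nil)
noncomputable def n2250 : Strat := .move 880 n1572 (.cons 961 n2246 (.cons 921 n2249 .nil))
noncomputable def n2251 : Strat := .move 881 n163 (.cons 922 n2250 .nil)
noncomputable def n2252 : Strat := .move 800 n2062 (.cons 797 n1070 .nil)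
noncomputable def n2253 : Strat := .move 755 n809 (.cons 754 n2252 .nil)
noncomputable def n2254 : Strat := .move 756 n1510 (.cons 880 n2253 .nil)
noncomputable def n2255 : Strat := .move 715 n403 (.cons 674 n2254 .nil)
noncomputable def n2256 : Strat := .move 716 n1114 (.cons 675 n2255 .nil)
noncomputable def n2257 : Strat := .move 757 n2243 (.cons 922 n2244 (.cons 716 n2251 (.cons 881 n2256 .nil)))
noncomputable def n2258 : Strat := .move 800 n490 (.cons 801 n597 .nil)
noncomputable def n2259 : Strat := .move 838 n1916 (.cons 879 n2258 .nil)
noncomputable def n2260 : Strat := .move 716 n1114 (.cons 675 n2259 .nil)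
noncomputable def n2261 : Strat := .win 836 0 836
noncomputable def n2262 : Strat := .move 837 n613 (.cons 800 n2261 .nil)
noncomputable def n2263 : Strat := .move 800 n597 (.cons 837 n490 .nil)
noncomputable def n2264 : Strat := .win 882 0 837
noncomputable def n2265 : Strat := .move 837 n2264 (.cons 882 n2261 .nil)
noncomputable def n2266 : Strat := .move 921 n1539 (.cons 961 n1383 .nil)
noncomputable def n2267 : Strat := .move 920 n1538 (.cons 879 n2266 .nil)
noncomputable def n2268 : Strat := .move 838 n2262 (.cons 836 n2263 (.cons 800 n2265 (.cons 837 n2267 .nil)))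
noncomputable def n2269 : Strat := .move 881 n2172 (.cons 922 n2268 .nil)
noncomputable def n2270 : Strat := .move 838 n613 (.cons 800 n2261 .nil)
noncomputable def n2271 : Strat := .move 838 n2264 (.cons 882 n613 .nil)
noncomputable def n2272 : Strat := .move 838 n2264 (.cons 882 n2261 .nil)
noncomputable def n2273 : Strat := .move 878 n210 (.cons 836 n1842 .nil)
noncomputable def n2274 : Strat := .move 837 n2270 (.cons 836 n2271 (.cons 800 n2272 (.cons 838 n2273 .nil)))
noncomputable def n2275 : Strat := .move 879 n1277 (.cons 920 n2274 .nil)
noncomputable def n2276 : Strat := .move 881 n2172 (.cons 922 n2275 .nil)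
noncomputable def n2277 : Strat := .win 881 6 757
noncomputable def n2278 : Strat := .move 921 n1383 (.cons 962 n506 .nil)
noncomputable def n2279 : Strat := .move 922 n2277 (.cons 881 n2278 .nil)
noncomputable def n2280 : Strat := .move 880 n2269 (.cons 881 n1541 (.cons 961 n2276 (.cons 879 n2279 .nil)))
noncomputable def n2281 : Strat := .move 757 n2244 (.cons 881 n2260 (.cons 675 n2243 (.cons 716 n2280 .nil)))
noncomputable def n2282 : Strat := .move 757 n854 (.cons 756 n2243 .nil)
noncomputable def n2283 : Strat := .move 801 n493 (.cons 802 n2282 .nil)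
noncomputable def n2284 : Strat := .win 675 1 674
noncomputable def n2285 : Strat := .move 757 n2158 (.cons 881 n2284 .nil)
noncomputable def n2286 : Strat := .move 757 n1916 (.cons 879 n2158 .nil)
noncomputable def n2287 : Strat := .move 757 n1916 (.cons 879 n2284 .nil)
noncomputable def n2288 : Strat := .move 715 n1488 (.cons 675 n1350 .nil)
noncomputable def n2289 : Strat := .move 716 n2285 (.cons 675 n2286 (.cons 881 n2287 (.cons 757 n2288 .nil)))
noncomputable def n2290 : Strat := .move 756 n497 (.cons 755 n2289 .nil)
noncomputable def n2291 : Strat := .move 838 n491 (.cons 837 n2290 .nil)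
noncomputable def n2292 : Strat := .move 759 n918 (.cons 760 n730 .nil)
noncomputable def n2293 : Strat := .move 796 n508 (.cons 795 n2292 .nil)
noncomputable def n2294 : Strat := .move 797 n2291 (.cons 838 n2293 (.cons 755 n2208 .nil))
noncomputable def n2295 : Strat := .move 800 n999 (.cons 838 n2283 (.cons 802 n2211 (.cons 801 n2294 .nil)))
noncomputable def n2296 : Strat := .move 837 n1739 (.cons 836 n613 .nil)
noncomputable def n2297 : Strat := .move 838 n1916 (.cons 879 n2296 .nil)
noncomputable def n2298 : Strat := .move 716 n1114 (.cons 675 n2297 .nil)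
noncomputable def n2299 : Strat := .move 756 n1531 (.cons 797 n808 .nil)
noncomputable def n2300 : Strat := .move 921 n1383 (.cons 962 n2299 .nil)
noncomputable def n2301 : Strat := .move 880 n1572 (.cons 921 n2275 (.cons 879 n2300 .nil))
noncomputable def n2302 : Strat := .move 881 n163 (.cons 922 n2301 .nil)
noncomputable def n2303 : Strat := .move 757 n2244 (.cons 881 n2298 (.cons 675 n2243 (.cons 716 n2302 .nil)))
noncomputable def n2304 : Strat := .move 757 n163 (.cons 922 n2171 .nil)
noncomputable def n2305 : Strat := .move 881 n2264 (.cons 882 n2304 .nil)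
noncomputable def n2306 : Strat := .move 838 n1739 (.cons 836 n2305 .nil)
noncomputable def n2307 : Strat := .move 838 n1739 (.cons 836 n1759 .nil)
noncomputable def n2308 : Strat := .move 838 n2305 (.cons 881 n1759 .nil)
noncomputable def n2309 : Strat := .move 878 n1842 (.cons 877 n210 .nil)
noncomputable def n2310 : Strat := .move 879 n1277 (.cons 920 n2309 .nil)
noncomputable def n2311 : Strat := .move 880 n1572 (.cons 921 n2310 (.cons 879 n2300 .nil))
noncomputable def n2312 : Strat := .move 881 n163 (.cons 922 n2311 .nil)
noncomputable def n2313 : Strat := .move 880 n1572 (.cons 961 n1978 .nil)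
noncomputable def n2314 : Strat := .move 757 n2243 (.cons 716 n2312 (.cons 922 n2244 (.cons 881 n2313 .nil)))
noncomputable def n2315 : Strat := .move 837 n2306 (.cons 881 n2307 (.cons 836 n2308 (.cons 838 n2314 .nil)))
noncomputable def n2316 : Strat := .move 839 n2210 (.cons 757 n2242 (.cons 838 n2257 (.cons 797 n2281 (.cons 880 n2295 (.cons 801 n2303 (.cons 800 n2315 .nil))))))
noncomputable def n2317 : Strat := .move 800 n729 (.cons 756 n726 .nil)
noncomputable def n2318 : Strat := .move 837 n727 (.cons 836 n2317 .nil)
noncomputable def n2319 : Strat := .move 755 n728 (.cons 754 n2318 .nil)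
noncomputable def n2320 : Strat := .move 796 n509 (.cons 841 n2319 .nil)
noncomputable def n2321 : Strat := .move 881 n316 (.cons 922 n1162 .nil)
noncomputable def n2322 : Strat := .move 841 n488 (.cons 842 n2321 .nil)
noncomputable def n2323 : Strat := .move 759 n918 (.cons 760 n2322 .nil)
noncomputable def n2324 : Strat := .win 841 1 717
noncomputable def n2325 : Strat := .move 718 n953 (.cons 677 n2324 .nil)
noncomputable def n2326 : Strat := .move 881 n316 (.cons 922 n2325 .nil)
noncomputable def n2327 : Strat := .move 759 n918 (.cons 760 n2326 .nil)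
noncomputable def n2328 : Strat := .move 838 n2024 (.cons 879 n491 .nil)
noncomputable def n2329 : Strat := .move 716 n1114 (.cons 675 n2328 .nil)
noncomputable def n2330 : Strat := .move 757 n1070 (.cons 801 n2329 .nil)
noncomputable def n2331 : Strat := .move 756 n497 (.cons 755 n2330 .nil)
noncomputable def n2332 : Strat := .move 841 n488 (.cons 842 n2331 .nil)
noncomputable def n2333 : Strat := .move 759 n918 (.cons 760 n2331 .nil)
noncomputable def n2334 : Strat := .move 800 n2323 (.cons 842 n2327 (.cons 760 n2332 (.cons 841 n2333 .nil)))
noncomputable def n2335 : Strat := .move 756 n1801 (.cons 919 n1418 .nil)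
noncomputable def n2336 : Strat := .win 959 1 795
noncomputable def n2337 : Strat := .win 877 1 754
noncomputable def n2338 : Strat := .move 918 n2336 (.cons 959 n2337 .nil)
noncomputable def n2339 : Strat := .move 919 n1414 (.cons 756 n2338 .nil)
noncomputable def n2340 : Strat := .move 715 n1426 (.cons 756 n1425 .nil)
noncomputable def n2341 : Strat := .move 838 n1424 (.cons 879 n1676 .nil)
noncomputable def n2342 : Strat := .move 714 n2340 (.cons 674 n2341 .nil)
noncomputable def n2343 : Strat := .move 919 n2338 (.cons 877 n1422 .nil)
noncomputable def n2344 : Strat := .move 878 n2335 (.cons 715 n2339 (.cons 919 n2342 (.cons 756 n2343 .nil)))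
noncomputable def n2345 : Strat := .move 837 n727 (.cons 836 n2344 .nil)
noncomputable def n2346 : Strat := .move 755 n728 (.cons 754 n2345 .nil)
noncomputable def n2347 : Strat := .move 796 n509 (.cons 841 n2346 .nil)
noncomputable def n2348 : Strat := .move 842 n571 (.cons 843 n1136 .nil)
noncomputable def n2349 : Strat := .move 841 n128 (.cons 796 n2348 .nil)
noncomputable def n2350 : Strat := .move 796 n728 (.cons 754 n2318 .nil)
noncomputable def n2351 : Strat := .move 838 n2186 (.cons 800 n1734 .nil)
noncomputable def n2352 : Strat := .move 837 n727 (.cons 836 n2351 .nil)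
noncomputable def n2353 : Strat := .move 796 n728 (.cons 754 n2352 .nil)
noncomputable def n2354 : Strat := .win 753 0 753
noncomputable def n2355 : Strat := .win 757 0 754
noncomputable def n2356 : Strat := .move 754 n2354 (.cons 753 n2355 .nil)
noncomputable def n2357 : Strat := .move 756 n1595 (.cons 800 n2356 .nil)
noncomputable def n2358 : Strat := .move 796 n728 (.cons 754 n2345 .nil)
noncomputable def n2359 : Strat := .move 757 n1663 (.cons 920 n2036 .nil)
noncomputable def n2360 : Strat := .move 879 n1493 (.cons 714 n2359 .nil)
noncomputable def n2361 : Strat := .win 878 1 714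
noncomputable def n2362 : Strat := .win 835 5 794
noncomputable def n2363 : Strat := .win 796 4 795
noncomputable def n2364 : Strat := .move 836 n2362 (.cons 835 n2363 .nil)
noncomputable def n2365 : Strat := .move 837 n2361 (.cons 878 n2364 .nil)
noncomputable def n2366 : Strat := .win 757 6 633
noncomputable def n2367 : Strat := .win 796 1 632
noncomputable def n2368 : Strat := .move 633 n2366 (.cons 757 n2367 .nil)
noncomputable def n2369 : Strat := .move 674 n2075 (.cons 716 n2368 .nil)
noncomputable def n2370 : Strat := .win 632 7 632
noncomputable def n2371 : Strat := .win 714 7 673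
noncomputable def n2372 : Strat := .move 673 n2370 (.cons 632 n2371 .nil)
noncomputable def n2373 : Strat := .move 674 n2075 (.cons 716 n2372 .nil)
noncomputable def n2374 : Strat := .move 715 n2365 (.cons 837 n2369 (.cons 796 n2373 .nil))
noncomputable def n2375 : Strat := .win 796 7 755
noncomputable def n2376 : Strat := .move 920 n2375 (.cons 796 n1729 .nil)
noncomputable def n2377 : Strat := .move 878 n1450 (.cons 919 n1451 .nil)
noncomputable def n2378 : Strat := .move 837 n2377 (.cons 715 n2364 .nil)
noncomputable def n2379 : Strat := .move 879 n2359 (.cons 716 n2376 (.cons 920 n2378 .nil))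
noncomputable def n2380 : Strat := .move 879 n1493 (.cons 714 n2376 .nil)
noncomputable def n2381 : Strat := .win 960 1 796
noncomputable def n2382 : Strat := .win 878 1 755
noncomputable def n2383 : Strat := .move 919 n2381 (.cons 960 n2382 .nil)
noncomputable def n2384 : Strat := .move 920 n2375 (.cons 796 n2383 .nil)
noncomputable def n2385 : Strat := .move 879 n1493 (.cons 714 n2384 .nil)
noncomputable def n2386 : Strat := .move 838 n2360 (.cons 879 n2374 (.cons 714 n2379 (.cons 716 n2380 (.cons 757 n2385 .nil))))
noncomputable def n2387 : Strat := .move 756 n1595 (.cons 800 n2386 .nil)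
noncomputable def n2388 : Strat := .move 755 n2350 (.cons 756 n2353 (.cons 796 n2357 (.cons 800 n2358 (.cons 754 n2387 .nil))))
noncomputable def n2389 : Strat := .move 797 n2320 (.cons 796 n2334 (.cons 800 n2347 (.cons 755 n2349 (.cons 841 n2388 .nil))))
noncomputable def n2390 : Strat := .move 757 n2171 (.cons 716 n163 .nil)
noncomputable def n2391 : Strat := .move 881 n2264 (.cons 882 n2390 .nil)
noncomputable def n2392 : Strat := .move 796 n614 (.cons 795 n2391 .nil)
noncomputable def n2393 : Strat := .move 837 n1739 (.cons 836 n2392 .nil)
noncomputable def n2394 : Strat := .move 842 n571 (.cons 843 n624 .nil)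
noncomputable def n2395 : Strat := .move 842 n1150 (.cons 880 n571 .nil)
noncomputable def n2396 : Strat := .move 879 n1032 (.cons 878 n2395 .nil)
noncomputable def n2397 : Strat := .move 841 n2394 (.cons 802 n2396 (.cons 842 n1907 .nil))
noncomputable def n2398 : Strat := .move 801 n1147 (.cons 800 n2397 .nil)
noncomputable def n2399 : Strat := .move 838 n2296 (.cons 800 n2393 (.cons 836 n2258 (.cons 837 n2398 .nil)))
noncomputable def n2400 : Strat := .move 878 n209 (.cons 841 n1842 .nil)
noncomputable def n2401 : Strat := .move 879 n1277 (.cons 920 n2400 .nil)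
noncomputable def n2402 : Strat := .move 881 n2172 (.cons 922 n2401 .nil)
noncomputable def n2403 : Strat := .move 841 n197 (.cons 878 n1264 .nil)
noncomputable def n2404 : Strat := .move 879 n1277 (.cons 920 n2403 .nil)
noncomputable def n2405 : Strat := .move 881 n2172 (.cons 922 n2404 .nil)
noncomputable def n2406 : Strat := .move 881 n2172 (.cons 922 n1572 .nil)
noncomputable def n2407 : Strat := .move 880 n2402 (.cons 877 n2405 (.cons 878 n2406 (.cons 881 n1541 (.cons 879 n2279 .nil))))
noncomputable def n2408 : Strat := .move 757 n2243 (.cons 881 n1515 (.cons 716 n2407 .nil))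
noncomputable def n2409 : Strat := .move 881 n994 (.cons 963 n1000 .nil)
noncomputable def n2410 : Strat := .move 881 n994 (.cons 963 n2220 .nil)
noncomputable def n2411 : Strat := .win 963 1 799
noncomputable def n2412 : Strat := .move 923 n1724 (.cons 964 n2411 .nil)
noncomputable def n2413 : Strat := .move 882 n1143 (.cons 883 n2412 .nil)
noncomputable def n2414 : Strat := .move 879 n1150 (.cons 880 n1032 .nil)
noncomputable def n2415 : Strat := .move 842 n571 (.cons 843 n2414 .nil)
noncomputable def n2416 : Strat := .move 841 n1883 (.cons 842 n2413 (.cons 882 n2415 .nil))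
noncomputable def n2417 : Strat := .move 800 n490 (.cons 801 n2416 .nil)
noncomputable def n2418 : Strat := .move 841 n1883 (.cons 884 n1941 .nil)
noncomputable def n2419 : Strat := .move 838 n2258 (.cons 837 n2417 (.cons 801 n2296 (.cons 800 n2418 .nil)))
noncomputable def n2420 : Strat := .move 881 n1000 (.cons 838 n2220 .nil)
noncomputable def n2421 : Strat := .move 922 n2409 (.cons 838 n2410 (.cons 881 n2419 (.cons 963 n2420 .nil)))
noncomputable def n2422 : Strat := .move 841 n1883 (.cons 884 n2396 (.cons 842 n1907 .nil))
noncomputable def n2423 : Strat := .move 800 n490 (.cons 801 n2422 .nil)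
noncomputable def n2424 : Strat := .move 838 n2258 (.cons 801 n2296 (.cons 837 n2423 (.cons 800 n1745 .nil)))
noncomputable def n2425 : Strat := .win 881 7 757
noncomputable def n2426 : Strat := .move 878 n1441 (.cons 841 n1842 .nil)
noncomputable def n2427 : Strat := .move 838 n2167 (.cons 836 n2263 (.cons 800 n2426 .nil))
noncomputable def n2428 : Strat := .move 879 n1277 (.cons 920 n2427 .nil)
noncomputable def n2429 : Strat := .move 880 n2278 (.cons 921 n2428 .nil)
noncomputable def n2430 : Strat := .move 922 n2425 (.cons 881 n2429 .nil)
noncomputable def n2431 : Strat := .move 757 n2244 (.cons 881 n2260 (.cons 675 n2243 (.cons 716 n2430 .nil)))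
noncomputable def n2432 : Strat := .move 881 n470 (.cons 757 n994 .nil)
noncomputable def n2433 : Strat := .move 881 n470 (.cons 757 n472 .nil)
noncomputable def n2434 : Strat := .move 921 n506 (.cons 963 n1383 .nil)
noncomputable def n2435 : Strat := .move 842 n1153 (.cons 879 n571 .nil)
noncomputable def n2436 : Strat := .move 880 n2434 (.cons 962 n2435 .nil)
noncomputable def n2437 : Strat := .move 841 n1883 (.cons 842 n2413 (.cons 882 n2436 .nil))
noncomputable def n2438 : Strat := .move 922 n2432 (.cons 963 n2433 (.cons 881 n2437 .nil))
noncomputable def n2439 : Strat := .move 838 n597 (.cons 837 n2438 .nil)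
noncomputable def n2440 : Strat := .move 800 n999 (.cons 802 n2211 (.cons 838 n2283 (.cons 801 n2439 .nil)))
noncomputable def n2441 : Strat := .move 837 n1739 (.cons 836 n2305 .nil)
noncomputable def n2442 : Strat := .move 881 n2390 (.cons 922 n1883 .nil)
noncomputable def n2443 : Strat := .move 800 n490 (.cons 801 n2442 .nil)
noncomputable def n2444 : Strat := .move 881 n715 (.cons 963 n470 .nil)
noncomputable def n2445 : Strat := .move 881 n1006 (.cons 759 n715 .nil)
noncomputable def n2446 : Strat := .move 881 n1006 (.cons 759 n470 .nil)
noncomputable def n2447 : Strat := .move 923 n2411 (.cons 963 n1724 .nil)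
noncomputable def n2448 : Strat := .move 922 n2444 (.cons 757 n2445 (.cons 963 n2446 (.cons 881 n2447 .nil)))
noncomputable def n2449 : Strat := .move 882 n1143 (.cons 883 n2448 .nil)
noncomputable def n2450 : Strat := .move 800 n490 (.cons 801 n2449 .nil)
noncomputable def n2451 : Strat := .move 801 n1147 (.cons 800 n2394 .nil)
noncomputable def n2452 : Strat := .move 879 n1032 (.cons 878 n1829 .nil)
noncomputable def n2453 : Strat := .move 842 n571 (.cons 843 n2452 .nil)
noncomputable def n2454 : Strat := .move 841 n2443 (.cons 884 n2450 (.cons 922 n2451 (.cons 800 n2453 .nil)))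
noncomputable def n2455 : Strat := .move 838 n2296 (.cons 800 n2441 (.cons 836 n2258 (.cons 837 n2454 .nil)))
noncomputable def n2456 : Strat := .move 800 n490 (.cons 801 n1883 .nil)
noncomputable def n2457 : Strat := .move 842 n571 (.cons 843 n1146 .nil)
noncomputable def n2458 : Strat := .move 841 n2443 (.cons 884 n2450 (.cons 757 n2456 (.cons 800 n2457 (.cons 882 n2451 .nil))))
noncomputable def n2459 : Strat := .move 838 n2296 (.cons 800 n2393 (.cons 836 n2258 (.cons 837 n2458 .nil)))
noncomputable def n2460 : Strat := .move 839 n2399 (.cons 838 n2408 (.cons 757 n2421 (.cons 881 n2424 (.cons 842 n2431 (.cons 878 n2440 (.cons 880 n2455 (.cons 841 n2281 (.cons 879 n2459 .nil))))))))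
noncomputable def n2461 : Strat := .win 839 2 797
noncomputable def n2462 : Strat := .move 797 n128 (.cons 796 n2461 .nil)
noncomputable def n2463 : Strat := .move 842 n571 (.cons 843 n2462 .nil)
noncomputable def n2464 : Strat := .move 839 n570 (.cons 797 n2166 .nil)
noncomputable def n2465 : Strat := .move 842 n571 (.cons 843 n2464 .nil)
noncomputable def n2466 : Strat := .move 718 n1230 (.cons 881 n953 .nil)
noncomputable def n2467 : Strat := .move 759 n918 (.cons 760 n2466 .nil)
noncomputable def n2468 : Strat := .move 839 n490 (.cons 801 n2467 .nil)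
noncomputable def n2469 : Strat := .move 838 n491 (.cons 837 n2468 .nil)
noncomputable def n2470 : Strat := .move 800 n2151 (.cons 715 n2469 (.cons 838 n2155 .nil))
noncomputable def n2471 : Strat := .move 797 n128 (.cons 796 n2470 .nil)
noncomputable def n2472 : Strat := .move 801 n1147 (.cons 800 n1146 .nil)
noncomputable def n2473 : Strat := .move 838 n2472 (.cons 884 n2258 (.cons 800 n2414 .nil))
noncomputable def n2474 : Strat := .move 838 n1147 (.cons 800 n1703 .nil)
noncomputable def n2475 : Strat := .move 801 n624 (.cons 802 n2474 .nil)
noncomputable def n2476 : Strat := .move 838 n1145 (.cons 882 n1703 .nil)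
noncomputable def n2477 : Strat := .move 883 n567 (.cons 884 n2476 .nil)
noncomputable def n2478 : Strat := .move 839 n2166 (.cons 802 n2473 (.cons 801 n2170 (.cons 838 n1557 (.cons 883 n2475 (.cons 800 n2477 .nil)))))
noncomputable def n2479 : Strat := .move 842 n571 (.cons 843 n2478 .nil)
noncomputable def n2480 : Strat := .move 841 n1138 (.cons 800 n2463 (.cons 796 n2465 (.cons 842 n2471 (.cons 797 n2479 .nil))))
noncomputable def n2481 : Strat := .move 801 n674 (.cons 839 n1373 .nil)
noncomputable def n2482 : Strat := .move 838 n491 (.cons 837 n2481 .nil)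
noncomputable def n2483 : Strat := .move 841 n488 (.cons 842 n2151 .nil)
noncomputable def n2484 : Strat := .move 801 n682 (.cons 843 n1378 .nil)
noncomputable def n2485 : Strat := .move 842 n733 (.cons 841 n2484 .nil)
noncomputable def n2486 : Strat := .win 839 4 837
noncomputable def n2487 : Strat := .move 878 n1450 (.cons 919 n2486 .nil)
noncomputable def n2488 : Strat := .move 757 n2036 (.cons 716 n1663 .nil)
noncomputable def n2489 : Strat := .move 879 n2487 (.cons 839 n2488 .nil)
noncomputable def n2490 : Strat := .move 756 n497 (.cons 755 n2489 .nil)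
noncomputable def n2491 : Strat := .move 838 n491 (.cons 837 n2490 .nil)
noncomputable def n2492 : Strat := .move 841 n488 (.cons 842 n2491 .nil)
noncomputable def n2493 : Strat := .move 800 n2482 (.cons 757 n2483 (.cons 838 n2485 (.cons 801 n2492 .nil)))
noncomputable def n2494 : Strat := .win 839 0 795
noncomputable def n2495 : Strat := .win 755 2 754
noncomputable def n2496 : Strat := .win 753 2 753
noncomputable def n2497 : Strat := .move 754 n2495 (.cons 755 n2496 .nil)
noncomputable def n2498 : Strat := .move 795 n2494 (.cons 839 n2497 .nil)
noncomputable def n2499 : Strat := .move 796 n509 (.cons 841 n2498 .nil)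
noncomputable def n2500 : Strat := .move 801 n1372 (.cons 757 n1378 .nil)
noncomputable def n2501 : Strat := .move 756 n497 (.cons 755 n2500 .nil)
noncomputable def n2502 : Strat := .move 801 n674 (.cons 839 n1378 .nil)
noncomputable def n2503 : Strat := .move 838 n491 (.cons 837 n2502 .nil)
noncomputable def n2504 : Strat := .move 800 n2482 (.cons 838 n2501 (.cons 756 n2503 (.cons 801 n732 .nil)))
noncomputable def n2505 : Strat := .move 797 n2349 (.cons 796 n2493 (.cons 800 n2499 (.cons 841 n2504 .nil)))
noncomputable def n2506 : Strat := .move 841 n488 (.cons 842 n2155 .nil)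
noncomputable def n2507 : Strat := .move 841 n2151 (.cons 715 n2153 (.cons 838 n2155 .nil))
noncomputable def n2508 : Strat := .move 797 n2483 (.cons 838 n2506 (.cons 842 n2507 (.cons 841 n2482 .nil)))
noncomputable def n2509 : Strat := .move 797 n2323 (.cons 842 n2327 (.cons 760 n2332 (.cons 841 n2333 .nil)))
noncomputable def n2510 : Strat := .move 843 n679 (.cons 842 n678 .nil)
noncomputable def n2511 : Strat := .move 802 n677 (.cons 839 n2510 .nil)
noncomputable def n2512 : Strat := .move 761 n687 (.cons 760 n686 .nil)
noncomputable def n2513 : Strat := .move 802 n678 (.cons 844 n2512 .nil)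
noncomputable def n2514 : Strat := .move 843 n679 (.cons 842 n2513 .nil)
noncomputable def n2515 : Strat := .move 839 n494 (.cons 838 n2282 .nil)
noncomputable def n2516 : Strat := .move 801 n536 (.cons 838 n2511 (.cons 839 n2514 (.cons 802 n2515 .nil)))
noncomputable def n2517 : Strat := .move 716 n1117 (.cons 839 n1114 .nil)
noncomputable def n2518 : Strat := .move 881 n163 (.cons 922 n2517 .nil)
noncomputable def n2519 : Strat := .move 757 n1070 (.cons 801 n2518 .nil)
noncomputable def n2520 : Strat := .move 756 n497 (.cons 755 n2519 .nil)
noncomputable def n2521 : Strat := .move 841 n488 (.cons 842 n2520 .nil)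
noncomputable def n2522 : Strat := .move 881 n316 (.cons 922 n2517 .nil)
noncomputable def n2523 : Strat := .move 757 n1070 (.cons 801 n2522 .nil)
noncomputable def n2524 : Strat := .move 756 n497 (.cons 755 n2523 .nil)
noncomputable def n2525 : Strat := .move 759 n918 (.cons 760 n2524 .nil)
noncomputable def n2526 : Strat := .move 797 n2506 (.cons 881 n2485 (.cons 760 n2521 (.cons 841 n2525 .nil)))
noncomputable def n2527 : Strat := .move 801 n1372 (.cons 757 n674 .nil)
noncomputable def n2528 : Strat := .move 756 n497 (.cons 755 n2527 .nil)
noncomputable def n2529 : Strat := .move 838 n491 (.cons 837 n2528 .nil)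
noncomputable def n2530 : Strat := .move 757 n1664 (.cons 716 n1663 .nil)
noncomputable def n2531 : Strat := .move 879 n1032 (.cons 878 n2530 .nil)
noncomputable def n2532 : Strat := .move 839 n490 (.cons 801 n2531 .nil)
noncomputable def n2533 : Strat := .move 838 n491 (.cons 837 n2532 .nil)
noncomputable def n2534 : Strat := .move 841 n488 (.cons 842 n2533 .nil)
noncomputable def n2535 : Strat := .move 797 n2483 (.cons 838 n2521 (.cons 801 n2492 (.cons 841 n2529 (.cons 839 n2332 (.cons 756 n2534 .nil)))))
noncomputable def n2536 : Strat := .move 797 n733 (.cons 841 n1377 .nil)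
noncomputable def n2537 : Strat := .move 760 n538 (.cons 761 n2536 .nil)
noncomputable def n2538 : Strat := .move 842 n682 (.cons 843 n2537 .nil)
noncomputable def n2539 : Strat := .move 801 n536 (.cons 838 n2511 (.cons 839 n2538 .nil))
noncomputable def n2540 : Strat := .move 718 n953 (.cons 677 n1230 .nil)
noncomputable def n2541 : Strat := .move 759 n918 (.cons 760 n2540 .nil)
noncomputable def n2542 : Strat := .move 801 n1372 (.cons 757 n1591 .nil)
noncomputable def n2543 : Strat := .move 756 n497 (.cons 755 n2542 .nil)
noncomputable def n2544 : Strat := .move 841 n2155 (.cons 760 n2520 (.cons 922 n2541 (.cons 881 n2543 .nil)))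
noncomputable def n2545 : Strat := .move 759 n918 (.cons 760 n2321 .nil)
noncomputable def n2546 : Strat := .move 841 n2545 (.cons 760 n2491 .nil)
noncomputable def n2547 : Strat := .move 841 n2151 (.cons 715 n2469 (.cons 838 n2155 .nil))
noncomputable def n2548 : Strat := .move 841 n2469 (.cons 718 n2533 (.cons 838 n2545 .nil))
noncomputable def n2549 : Strat := .move 797 n2507 (.cons 838 n2544 (.cons 801 n2546 (.cons 757 n2547 (.cons 755 n2548 (.cons 881 n2482 (.cons 839 n2327 .nil))))))
noncomputable def n2550 : Strat := .move 841 n488 (.cons 842 n2545 .nil)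
noncomputable def n2551 : Strat := .move 839 n1351 (.cons 880 n1350 .nil)
noncomputable def n2552 : Strat := .move 716 n1489 (.cons 757 n1488 .nil)
noncomputable def n2553 : Strat := .win 839 6 715
noncomputable def n2554 : Strat := .move 880 n1402 (.cons 921 n2553 .nil)
noncomputable def n2555 : Strat := .move 879 n2488 (.cons 920 n2552 (.cons 716 n2554 .nil))
noncomputable def n2556 : Strat := .win 839 6 674
noncomputable def n2557 : Strat := .move 674 n2556 (.cons 839 n2075 .nil)
noncomputable def n2558 : Strat := .move 715 n2551 (.cons 674 n2555 (.cons 880 n2557 (.cons 839 n2373 .nil)))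
noncomputable def n2559 : Strat := .move 756 n497 (.cons 755 n2558 .nil)
noncomputable def n2560 : Strat := .move 838 n491 (.cons 837 n2559 .nil)
noncomputable def n2561 : Strat := .move 797 n2550 (.cons 842 n2546 (.cons 760 n2492 (.cons 841 n2560 .nil)))
noncomputable def n2562 : Strat := .move 800 n2508 (.cons 839 n2509 (.cons 797 n2516 (.cons 838 n2526 (.cons 760 n2535 (.cons 922 n2539 (.cons 842 n2549 (.cons 801 n2561 .nil)))))))
noncomputable def n2563 : Strat := .move 839 n570 (.cons 797 n2178 .nil)
noncomputable def n2564 : Strat := .move 842 n571 (.cons 843 n2563 .nil)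
noncomputable def n2565 : Strat := .move 800 n2155 (.cons 760 n2520 (.cons 922 n2541 (.cons 881 n2543 .nil)))
noncomputable def n2566 : Strat := .move 797 n128 (.cons 796 n2565 .nil)
noncomputable def n2567 : Strat := .move 922 n2277 (.cons 881 n2434 .nil)
noncomputable def n2568 : Strat := .move 757 n2159 (.cons 675 n2173 (.cons 881 n1570 (.cons 716 n2567 .nil)))
noncomputable def n2569 : Strat := .move 880 n1153 (.cons 879 n2568 .nil)
noncomputable def n2570 : Strat := .move 839 n2178 (.cons 879 n1557 (.cons 802 n2569 .nil))
noncomputable def n2571 : Strat := .move 842 n571 (.cons 843 n2570 .nil)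
noncomputable def n2572 : Strat := .move 841 n2564 (.cons 839 n1138 (.cons 842 n2566 (.cons 800 n2463 (.cons 797 n2571 .nil))))
noncomputable def n2573 : Strat := .move 839 n508 (.cons 795 n2205 .nil)
noncomputable def n2574 : Strat := .win 837 4 795
noncomputable def n2575 : Strat := .win 835 4 794
noncomputable def n2576 : Strat := .move 836 n2574 (.cons 837 n2575 .nil)
noncomputable def n2577 : Strat := .move 795 n2494 (.cons 839 n2576 .nil)
noncomputable def n2578 : Strat := .move 755 n728 (.cons 754 n2317 .nil)
noncomputable def n2579 : Strat := .move 837 n727 (.cons 836 n2578 .nil)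
noncomputable def n2580 : Strat := .move 796 n2573 (.cons 800 n2498 (.cons 755 n2577 (.cons 795 n2579 .nil)))
noncomputable def n2581 : Strat := .move 800 n2545 (.cons 760 n2491 .nil)
noncomputable def n2582 : Strat := .move 842 n571 (.cons 843 n2461 .nil)
noncomputable def n2583 : Strat := .move 841 n2348 (.cons 842 n2581 (.cons 800 n2582 .nil))
noncomputable def n2584 : Strat := .move 797 n2349 (.cons 841 n2580 (.cons 800 n2499 (.cons 796 n2583 .nil)))
noncomputable def n2585 : Strat := .move 796 n509 (.cons 841 n2577 .nil)
noncomputable def n2586 : Strat := .move 796 n2573 (.cons 837 n2498 (.cons 755 n2577 (.cons 795 n2205 .nil)))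
noncomputable def n2587 : Strat := .move 841 n488 (.cons 842 n2469 .nil)
noncomputable def n2588 : Strat := .move 800 n2587 (.cons 677 n2534 (.cons 841 n2503 (.cons 838 n2550 .nil)))
noncomputable def n2589 : Strat := .move 797 n2349 (.cons 800 n2585 (.cons 841 n2586 (.cons 796 n2588 .nil)))
noncomputable def n2590 : Strat := .move 839 n508 (.cons 795 n1735 .nil)
noncomputable def n2591 : Strat := .move 838 n2186 (.cons 800 n2590 .nil)
noncomputable def n2592 : Strat := .move 837 n727 (.cons 836 n2591 .nil)
noncomputable def n2593 : Strat := .move 796 n509 (.cons 841 n2592 .nil)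
noncomputable def n2594 : Strat := .move 837 n727 (.cons 836 n2186 .nil)
noncomputable def n2595 : Strat := .move 796 n509 (.cons 841 n2594 .nil)
noncomputable def n2596 : Strat := .move 879 n2036 (.cons 716 n1663 .nil)
noncomputable def n2597 : Strat := .move 757 n1070 (.cons 801 n2596 .nil)
noncomputable def n2598 : Strat := .move 756 n497 (.cons 755 n2597 .nil)
noncomputable def n2599 : Strat := .move 841 n488 (.cons 842 n2598 .nil)
noncomputable def n2600 : Strat := .move 800 n491 (.cons 837 n2599 .nil)
noncomputable def n2601 : Strat := .move 800 n488 (.cons 842 n2598 .nil)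
noncomputable def n2602 : Strat := .move 841 n128 (.cons 796 n2601 .nil)
noncomputable def n2603 : Strat := .move 796 n509 (.cons 841 n1736 .nil)
noncomputable def n2604 : Strat := .move 836 n2363 (.cons 796 n2362 .nil)
noncomputable def n2605 : Strat := .move 837 n2186 (.cons 800 n2604 .nil)
noncomputable def n2606 : Strat := .move 838 n2595 (.cons 796 n2600 (.cons 837 n2602 (.cons 800 n2603 (.cons 841 n2605 .nil))))
noncomputable def n2607 : Strat := .move 837 n2186 (.cons 800 n1739 .nil)
noncomputable def n2608 : Strat := .move 800 n491 (.cons 837 n490 .nil)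
noncomputable def n2609 : Strat := .move 716 n2284 (.cons 675 n2158 .nil)
noncomputable def n2610 : Strat := .move 800 n1070 (.cons 801 n497 .nil)
noncomputable def n2611 : Strat := .move 756 n2610 (.cons 755 n2148 .nil)
noncomputable def n2612 : Strat := .move 757 n2609 (.cons 716 n2611 .nil)
noncomputable def n2613 : Strat := .move 838 n2607 (.cons 800 n2190 (.cons 836 n2608 (.cons 837 n2612 .nil)))
noncomputable def n2614 : Strat := .move 837 n1739 (.cons 836 n2391 .nil)
noncomputable def n2615 : Strat := .move 838 n2607 (.cons 800 n2614 (.cons 836 n2608 (.cons 837 n2612 .nil)))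
noncomputable def n2616 : Strat := .move 878 n618 (.cons 877 n1448 .nil)
noncomputable def n2617 : Strat := .move 796 n508 (.cons 795 n2616 .nil)
noncomputable def n2618 : Strat := .move 837 n1739 (.cons 836 n2617 .nil)
noncomputable def n2619 : Strat := .move 756 n1586 (.cons 921 n1403 .nil)
noncomputable def n2620 : Strat := .move 757 n1277 (.cons 920 n1664 .nil)
noncomputable def n2621 : Strat := .move 920 n1730 (.cons 961 n1560 .nil)
noncomputable def n2622 : Strat := .move 878 n1450 (.cons 919 n1842 .nil)
noncomputable def n2623 : Strat := .move 879 n2620 (.cons 716 n2621 (.cons 920 n2622 .nil))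
noncomputable def n2624 : Strat := .move 756 n1403 (.cons 715 n2623 .nil)
noncomputable def n2625 : Strat := .move 716 n2158 (.cons 881 n2284 .nil)
noncomputable def n2626 : Strat := .move 716 n1916 (.cons 879 n2284 .nil)
noncomputable def n2627 : Strat := .move 757 n2625 (.cons 675 n2173 (.cons 881 n2626 (.cons 716 n1571 .nil)))
noncomputable def n2628 : Strat := .move 921 n1383 (.cons 962 n2627 .nil)
noncomputable def n2629 : Strat := .move 880 n1862 (.cons 962 n2619 (.cons 921 n2624 (.cons 756 n2628 .nil)))
noncomputable def n2630 : Strat := .move 838 n2607 (.cons 800 n2618 (.cons 836 n2608 (.cons 837 n2629 .nil)))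
noncomputable def n2631 : Strat := .move 880 n1863 (.cons 838 n1586 .nil)
noncomputable def n2632 : Strat := .move 715 n1350 (.cons 674 n2631 .nil)
noncomputable def n2633 : Strat := .move 756 n1595 (.cons 800 n2632 .nil)
noncomputable def n2634 : Strat := .move 755 n728 (.cons 754 n2633 .nil)
noncomputable def n2635 : Strat := .move 796 n508 (.cons 795 n2634 .nil)
noncomputable def n2636 : Strat := .move 839 n2613 (.cons 838 n1601 (.cons 800 n1880 (.cons 756 n2206 (.cons 795 n2615 (.cons 755 n2630 (.cons 837 n2635 .nil))))))
noncomputable def n2637 : Strat := .move 841 n488 (.cons 842 n2149 .nil)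
noncomputable def n2638 : Strat := .move 839 n490 (.cons 801 n2637 .nil)
noncomputable def n2639 : Strat := .move 838 n491 (.cons 837 n2638 .nil)
noncomputable def n2640 : Strat := .move 841 n488 (.cons 842 n2531 .nil)
noncomputable def n2641 : Strat := .move 839 n490 (.cons 801 n2640 .nil)
noncomputable def n2642 : Strat := .move 838 n491 (.cons 837 n2641 .nil)
noncomputable def n2643 : Strat := .move 838 n491 (.cons 837 n2599 .nil)
noncomputable def n2644 : Strat := .move 802 n677 (.cons 839 n683 .nil)
noncomputable def n2645 : Strat := .move 801 n536 (.cons 838 n2644 (.cons 839 n1373 .nil))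
noncomputable def n2646 : Strat := .move 841 n488 (.cons 842 n2645 .nil)
noncomputable def n2647 : Strat := .move 802 n683 (.cons 803 n677 .nil)
noncomputable def n2648 : Strat := .move 801 n1372 (.cons 757 n2647 .nil)
noncomputable def n2649 : Strat := .move 756 n497 (.cons 755 n2648 .nil)
noncomputable def n2650 : Strat := .move 841 n488 (.cons 842 n2649 .nil)
noncomputable def n2651 : Strat := .move 800 n2639 (.cons 755 n2642 (.cons 839 n2643 (.cons 837 n2646 (.cons 841 n2482 (.cons 838 n2650 (.cons 801 n2492 .nil))))))
noncomputable def n2652 : Strat := .move 797 n2593 (.cons 839 n2606 (.cons 800 n2499 (.cons 841 n2636 (.cons 796 n2651 (.cons 755 n2349 .nil)))))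
noncomputable def n2653 : Strat := .move 800 n2469 (.cons 718 n2533 (.cons 838 n2545 .nil))
noncomputable def n2654 : Strat := .move 797 n128 (.cons 796 n2653 .nil)
noncomputable def n2655 : Strat := .move 756 n808 (.cons 715 n2174 .nil)
noncomputable def n2656 : Strat := .move 757 n2159 (.cons 675 n2173 (.cons 881 n2655 .nil))
noncomputable def n2657 : Strat := .move 880 n1153 (.cons 879 n2656 .nil)
noncomputable def n2658 : Strat := .move 801 n624 (.cons 802 n2657 .nil)
noncomputable def n2659 : Strat := .move 839 n2166 (.cons 801 n2170 (.cons 800 n2180 (.cons 884 n2475 (.cons 838 n2658 .nil))))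
noncomputable def n2660 : Strat := .move 842 n571 (.cons 843 n2659 .nil)
noncomputable def n2661 : Strat := .move 841 n1138 (.cons 842 n2654 (.cons 800 n2184 (.cons 797 n2660 .nil)))
noncomputable def n2662 : Strat := .move 797 n1136 (.cons 800 n2461 .nil)
noncomputable def n2663 : Strat := .move 842 n571 (.cons 843 n2662 .nil)
noncomputable def n2664 : Strat := .move 842 n1136 (.cons 800 n2461 .nil)
noncomputable def n2665 : Strat := .move 797 n128 (.cons 796 n2664 .nil)
noncomputable def n2666 : Strat := .move 801 n674 (.cons 839 n1591 .nil)
noncomputable def n2667 : Strat := .move 838 n491 (.cons 837 n2666 .nil)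
noncomputable def n2668 : Strat := .move 800 n2153 (.cons 755 n2667 (.cons 838 n2155 .nil))
noncomputable def n2669 : Strat := .move 797 n128 (.cons 796 n2668 .nil)
noncomputable def n2670 : Strat := .move 719 n1365 (.cons 678 n1364 .nil)
noncomputable def n2671 : Strat := .move 760 n538 (.cons 761 n2670 .nil)
noncomputable def n2672 : Strat := .move 800 n494 (.cons 838 n2671 .nil)
noncomputable def n2673 : Strat := .move 801 n624 (.cons 802 n2672 .nil)
noncomputable def n2674 : Strat := .move 838 n1145 (.cons 882 n2167 .nil)
noncomputable def n2675 : Strat := .move 883 n567 (.cons 884 n2674 .nil)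
noncomputable def n2676 : Strat := .move 839 n2162 (.cons 675 n2673 (.cons 801 n2675 (.cons 800 n2143 (.cons 838 n1557 .nil))))
noncomputable def n2677 : Strat := .move 842 n571 (.cons 843 n2676 .nil)
noncomputable def n2678 : Strat := .move 841 n1138 (.cons 796 n2663 (.cons 843 n2665 (.cons 842 n2669 (.cons 797 n2677 (.cons 800 n2463 .nil)))))
noncomputable def n2679 : Strat := .move 839 n508 (.cons 795 n1879 .nil)
noncomputable def n2680 : Strat := .move 796 n509 (.cons 841 n2679 .nil)
noncomputable def n2681 : Strat := .move 796 n2679 (.cons 839 n2346 (.cons 837 n2498 (.cons 755 n2577 .nil)))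
noncomputable def n2682 : Strat := .win 839 1 715
noncomputable def n2683 : Strat := .move 716 n2284 (.cons 675 n2682 .nil)
noncomputable def n2684 : Strat := .move 838 n1663 (.cons 920 n2683 .nil)
noncomputable def n2685 : Strat := .move 841 n1032 (.cons 878 n127 .nil)
noncomputable def n2686 : Strat := .move 878 n1441 (.cons 841 n1450 .nil)
noncomputable def n2687 : Strat := .move 755 n1493 (.cons 714 n809 .nil)
noncomputable def n2688 : Strat := .move 756 n2686 (.cons 919 n2687 .nil)
noncomputable def n2689 : Strat := .move 756 n2687 (.cons 754 n2148 .nil)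
noncomputable def n2690 : Strat := .move 839 n2685 (.cons 842 n2688 (.cons 878 n2689 .nil))
noncomputable def n2691 : Strat := .move 838 n1663 (.cons 920 n2690 .nil)
noncomputable def n2692 : Strat := .win 756 3 715
noncomputable def n2693 : Strat := .move 716 n2284 (.cons 675 n2692 .nil)
noncomputable def n2694 : Strat := .move 838 n1663 (.cons 920 n2693 .nil)
noncomputable def n2695 : Strat := .move 881 n163 (.cons 922 n1118 .nil)
noncomputable def n2696 : Strat := .move 757 n2684 (.cons 716 n2691 (.cons 839 n2694 (.cons 838 n2695 .nil)))
noncomputable def n2697 : Strat := .move 757 n1663 (.cons 920 n2683 .nil)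
noncomputable def n2698 : Strat := .move 757 n1663 (.cons 920 n2693 .nil)
noncomputable def n2699 : Strat := .move 880 n1403 (.cons 715 n1402 .nil)
noncomputable def n2700 : Strat := .win 757 1 715
noncomputable def n2701 : Strat := .move 716 n2700 (.cons 757 n2288 .nil)
noncomputable def n2702 : Strat := .move 755 n809 (.cons 754 n1493 .nil)
noncomputable def n2703 : Strat := .move 757 n1664 (.cons 716 n2702 .nil)
noncomputable def n2704 : Strat := .move 756 n2148 (.cons 674 n2699 (.cons 880 n2701 (.cons 715 n2703 .nil)))
noncomputable def n2705 : Strat := .move 839 n1822 (.cons 841 n2704 .nil)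
noncomputable def n2706 : Strat := .move 839 n2685 (.cons 842 n2686 (.cons 878 n2148 .nil))
noncomputable def n2707 : Strat := .move 756 n2702 (.cons 714 n2706 .nil)
noncomputable def n2708 : Strat := .move 757 n1663 (.cons 920 n2707 .nil)
noncomputable def n2709 : Strat := .win 673 7 673
noncomputable def n2710 : Strat := .win 755 7 714
noncomputable def n2711 : Strat := .move 714 n2709 (.cons 673 n2710 .nil)
noncomputable def n2712 : Strat := .move 715 n1466 (.cons 837 n2711 .nil)
noncomputable def n2713 : Strat := .move 878 n1450 (.cons 919 n2712 .nil)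
noncomputable def n2714 : Strat := .move 715 n2553 (.cons 839 n2711 .nil)
noncomputable def n2715 : Strat := .move 880 n1402 (.cons 921 n2714 .nil)
noncomputable def n2716 : Strat := .win 880 6 756
noncomputable def n2717 : Strat := .move 921 n2716 (.cons 880 n1892 .nil)
noncomputable def n2718 : Strat := .move 839 n2685 (.cons 842 n2686 (.cons 878 n2717 .nil))
noncomputable def n2719 : Strat := .move 756 n2706 (.cons 839 n2713 (.cons 878 n2715 (.cons 715 n2718 .nil)))
noncomputable def n2720 : Strat := .move 838 n2697 (.cons 839 n2698 (.cons 920 n2705 (.cons 716 n2708 (.cons 757 n2719 .nil))))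
noncomputable def n2721 : Strat := .win 881 5 837
noncomputable def n2722 : Strat := .move 878 n2721 (.cons 881 n1842 .nil)
noncomputable def n2723 : Strat := .move 841 n127 (.cons 842 n2722 .nil)
noncomputable def n2724 : Strat := .move 716 n1849 (.cons 838 n1114 .nil)
noncomputable def n2725 : Strat := .move 757 n1277 (.cons 920 n2724 .nil)
noncomputable def n2726 : Strat := .move 839 n2723 (.cons 881 n2725 .nil)
noncomputable def n2727 : Strat := .move 881 n197 (.cons 878 n2172 .nil)
noncomputable def n2728 : Strat := .move 757 n1277 (.cons 920 n2727 .nil)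
noncomputable def n2729 : Strat := .move 841 n127 (.cons 842 n2728 .nil)
noncomputable def n2730 : Strat := .move 757 n1277 (.cons 920 n2159 .nil)
noncomputable def n2731 : Strat := .move 920 n1560 (.cons 757 n2266 .nil)
noncomputable def n2732 : Strat := .move 841 n127 (.cons 842 n2731 .nil)
noncomputable def n2733 : Strat := .move 839 n2723 (.cons 877 n2729 (.cons 841 n2730 (.cons 881 n2732 .nil)))
noncomputable def n2734 : Strat := .move 878 n1841 (.cons 838 n2721 .nil)
noncomputable def n2735 : Strat := .move 841 n127 (.cons 842 n2734 .nil)
noncomputable def n2736 : Strat := .move 716 n2158 (.cons 881 n1849 .nil)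
noncomputable def n2737 : Strat := .move 922 n506 (.cons 963 n2277 .nil)
noncomputable def n2738 : Strat := .move 757 n2724 (.cons 675 n2736 (.cons 838 n2159 (.cons 716 n2737 .nil)))
noncomputable def n2739 : Strat := .move 921 n1383 (.cons 962 n2738 .nil)
noncomputable def n2740 : Strat := .move 841 n127 (.cons 842 n1843 .nil)
noncomputable def n2741 : Strat := .move 839 n2723 (.cons 877 n2735 (.cons 841 n2739 (.cons 881 n2740 .nil)))
noncomputable def n2742 : Strat := .move 839 n2735 (.cons 838 n2729 (.cons 878 n2725 .nil))
noncomputable def n2743 : Strat := .move 839 n2723 (.cons 877 n2735 (.cons 841 n2731 .nil))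
noncomputable def n2744 : Strat := .move 839 n2725 (.cons 920 n2740 (.cons 838 n2732 .nil))
noncomputable def n2745 : Strat := .move 757 n1277 (.cons 920 n2736 .nil)
noncomputable def n2746 : Strat := .move 841 n1841 (.cons 838 n2721 .nil)
noncomputable def n2747 : Strat := .move 878 n1842 (.cons 877 n2746 .nil)
noncomputable def n2748 : Strat := .move 921 n1383 (.cons 962 n2747 .nil)
noncomputable def n2749 : Strat := .move 839 n2725 (.cons 675 n2745 (.cons 757 n2748 (.cons 838 n2730 .nil)))
noncomputable def n2750 : Strat := .win 923 0 878
noncomputable def n2751 : Strat := .move 922 n2750 (.cons 923 n470 .nil)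
noncomputable def n2752 : Strat := .move 878 n209 (.cons 841 n2751 .nil)
noncomputable def n2753 : Strat := .win 882 5 838
noncomputable def n2754 : Strat := .move 842 n2753 (.cons 882 n571 .nil)
noncomputable def n2755 : Strat := .move 841 n197 (.cons 878 n2754 .nil)
noncomputable def n2756 : Strat := .win 878 0 878
noncomputable def n2757 : Strat := .move 923 n137 (.cons 964 n2756 .nil)
noncomputable def n2758 : Strat := .move 922 n470 (.cons 757 n2757 .nil)
noncomputable def n2759 : Strat := .move 922 n470 (.cons 757 n156 .nil)
noncomputable def n2760 : Strat := .move 881 n2752 (.cons 922 n2755 (.cons 841 n2758 (.cons 878 n2759 .nil)))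
noncomputable def n2761 : Strat := .win 838 3 756
noncomputable def n2762 : Strat := .win 839 1 756
noncomputable def n2763 : Strat := .move 757 n2761 (.cons 838 n2762 .nil)
noncomputable def n2764 : Strat := .move 839 n1560 (.cons 757 n2266 .nil)
noncomputable def n2765 : Strat := .move 839 n1539 (.cons 961 n1383 .nil)
noncomputable def n2766 : Strat := .win 877 0 877
noncomputable def n2767 : Strat := .move 878 n1854 (.cons 923 n2766 .nil)
noncomputable def n2768 : Strat := .move 839 n506 (.cons 963 n1539 .nil)
noncomputable def n2769 : Strat := .move 922 n2767 (.cons 877 n2768 .nil)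
noncomputable def n2770 : Strat := .win 838 6 797
noncomputable def n2771 : Strat := .win 839 3 798
noncomputable def n2772 : Strat := .move 962 n2770 (.cons 838 n2771 .nil)
noncomputable def n2773 : Strat := .win 1003 3 839
noncomputable def n2774 : Strat := .win 922 1 798
noncomputable def n2775 : Strat := .move 881 n2773 (.cons 1003 n2774 .nil)
noncomputable def n2776 : Strat := .move 962 n2770 (.cons 838 n2775 .nil)
noncomputable def n2777 : Strat := .move 921 n2765 (.cons 962 n2769 (.cons 961 n2772 (.cons 839 n2776 .nil)))
noncomputable def n2778 : Strat := .move 838 n1729 (.cons 757 n1485 .nil)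
noncomputable def n2779 : Strat := .move 920 n2763 (.cons 838 n2764 (.cons 757 n2777 (.cons 839 n2778 .nil)))
noncomputable def n2780 : Strat := .move 842 n2461 (.cons 839 n571 .nil)
noncomputable def n2781 : Strat := .move 881 n197 (.cons 878 n2780 .nil)
noncomputable def n2782 : Strat := .move 839 n1841 (.cons 838 n1842 .nil)
noncomputable def n2783 : Strat := .move 878 n2721 (.cons 881 n2782 .nil)
noncomputable def n2784 : Strat := .move 881 n197 (.cons 878 n2754 .nil)
noncomputable def n2785 : Strat := .move 841 n2781 (.cons 878 n2582 (.cons 842 n2783 (.cons 839 n2784 .nil)))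
noncomputable def n2786 : Strat := .win 838 3 797
noncomputable def n2787 : Strat := .win 921 1 797
noncomputable def n2788 : Strat := .move 839 n2786 (.cons 838 n2787 .nil)
noncomputable def n2789 : Strat := .win 1002 3 838
noncomputable def n2790 : Strat := .move 839 n2789 (.cons 1002 n2786 .nil)
noncomputable def n2791 : Strat := .move 839 n2789 (.cons 1002 n2787 .nil)
noncomputable def n2792 : Strat := .move 838 n1481 (.cons 919 n1484 .nil)
noncomputable def n2793 : Strat := .move 961 n2788 (.cons 921 n2790 (.cons 838 n2791 (.cons 839 n2792 .nil)))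
noncomputable def n2794 : Strat := .move 920 n2764 (.cons 839 n2778 (.cons 962 n2763 (.cons 757 n2793 .nil)))
noncomputable def n2795 : Strat := .move 880 n2726 (.cons 838 n2733 (.cons 920 n2741 (.cons 877 n2742 (.cons 716 n2743 (.cons 881 n2744 (.cons 842 n2749 (.cons 839 n2760 (.cons 841 n2779 (.cons 757 n2785 (.cons 878 n2794 .nil))))))))))
noncomputable def n2796 : Strat := .move 839 n1849 (.cons 838 n2158 .nil)
noncomputable def n2797 : Strat := .move 716 n1114 (.cons 675 n2796 .nil)
noncomputable def n2798 : Strat := .move 921 n1383 (.cons 962 n1888 .nil)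
noncomputable def n2799 : Strat := .move 878 n1842 (.cons 877 n1441 .nil)
noncomputable def n2800 : Strat := .move 880 n2798 (.cons 756 n2799 .nil)
noncomputable def n2801 : Strat := .move 839 n2685 (.cons 842 n2800 (.cons 878 n2689 .nil))
noncomputable def n2802 : Strat := .move 838 n1663 (.cons 920 n2801 .nil)
noncomputable def n2803 : Strat := .move 757 n2797 (.cons 881 n2684 (.cons 716 n2802 (.cons 838 n2695 (.cons 839 n2694 .nil))))
noncomputable def n2804 : Strat := .move 878 n1466 (.cons 837 n1450 .nil)
noncomputable def n2805 : Strat := .win 633 6 633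
noncomputable def n2806 : Strat := .move 674 n2556 (.cons 839 n2805 .nil)
noncomputable def n2807 : Strat := .move 715 n2804 (.cons 919 n2806 .nil)
noncomputable def n2808 : Strat := .move 756 n2687 (.cons 754 n2807 .nil)
noncomputable def n2809 : Strat := .move 838 n1663 (.cons 920 n2808 .nil)
noncomputable def n2810 : Strat := .move 756 n2036 (.cons 716 n2687 .nil)
noncomputable def n2811 : Strat := .move 838 n1663 (.cons 920 n2810 .nil)
noncomputable def n2812 : Strat := .move 881 n163 (.cons 922 n1117 .nil)
noncomputable def n2813 : Strat := .move 716 n1114 (.cons 675 n2812 .nil)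
noncomputable def n2814 : Strat := .move 757 n2684 (.cons 716 n2809 (.cons 839 n2811 (.cons 920 n2797 (.cons 838 n2813 .nil))))
noncomputable def n2815 : Strat := .move 921 n507 (.cons 756 n1383 .nil)
noncomputable def n2816 : Strat := .move 839 n1277 (.cons 920 n2815 .nil)
noncomputable def n2817 : Strat := .move 756 n1402 (.cons 921 n2687 .nil)
noncomputable def n2818 : Strat := .move 838 n1663 (.cons 920 n2817 .nil)
noncomputable def n2819 : Strat := .move 920 n2761 (.cons 838 n2762 .nil)
noncomputable def n2820 : Strat := .win 882 2 837
noncomputable def n2821 : Strat := .move 881 n2820 (.cons 882 n163 .nil)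
noncomputable def n2822 : Strat := .win 839 5 795
noncomputable def n2823 : Strat := .win 835 0 835
noncomputable def n2824 : Strat := .move 836 n2822 (.cons 839 n2823 .nil)
noncomputable def n2825 : Strat := .move 837 n2821 (.cons 922 n2824 .nil)
noncomputable def n2826 : Strat := .move 838 n2817 (.cons 756 n2825 .nil)
noncomputable def n2827 : Strat := .move 880 n2816 (.cons 839 n2818 (.cons 921 n2819 (.cons 920 n2826 .nil)))
noncomputable def n2828 : Strat := .move 839 n1664 (.cons 716 n2689 .nil)
noncomputable def n2829 : Strat := .move 838 n1663 (.cons 920 n2828 .nil)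
noncomputable def n2830 : Strat := .move 880 n1277 (.cons 920 n1977 .nil)
noncomputable def n2831 : Strat := .move 839 n2158 (.cons 881 n2830 .nil)
noncomputable def n2832 : Strat := .move 716 n1114 (.cons 675 n2831 .nil)
noncomputable def n2833 : Strat := .move 757 n2797 (.cons 716 n2827 (.cons 881 n2829 (.cons 839 n2811 (.cons 838 n2832 .nil))))
noncomputable def n2834 : Strat := .move 838 n1665 (.cons 716 n1822 .nil)
noncomputable def n2835 : Strat := .move 920 n1730 (.cons 961 n1729 .nil)
noncomputable def n2836 : Strat := .move 838 n1032 (.cons 878 n2835 .nil)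
noncomputable def n2837 : Strat := .move 841 n127 (.cons 842 n2836 .nil)
noncomputable def n2838 : Strat := .win 881 0 837
noncomputable def n2839 : Strat := .move 882 n2838 (.cons 881 n1143 .nil)
noncomputable def n2840 : Strat := .move 837 n1739 (.cons 836 n2839 .nil)
noncomputable def n2841 : Strat := .move 838 n2530 (.cons 920 n2840 .nil)
noncomputable def n2842 : Strat := .move 841 n127 (.cons 842 n2841 .nil)
noncomputable def n2843 : Strat := .move 841 n127 (.cons 842 n2815 .nil)
noncomputable def n2844 : Strat := .move 880 n2843 (.cons 962 n2723 (.cons 841 n1862 .nil))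
noncomputable def n2845 : Strat := .move 756 n1451 (.cons 715 n1450 .nil)
noncomputable def n2846 : Strat := .move 878 n618 (.cons 877 n2845 .nil)
noncomputable def n2847 : Strat := .move 837 n1739 (.cons 836 n2846 .nil)
noncomputable def n2848 : Strat := .move 838 n1665 (.cons 716 n1731 (.cons 757 n2847 .nil))
noncomputable def n2849 : Strat := .move 839 n2834 (.cons 716 n2837 (.cons 878 n2842 (.cons 838 n2844 (.cons 841 n2848 .nil))))
noncomputable def n2850 : Strat := .move 757 n1663 (.cons 920 n2690 .nil)
noncomputable def n2851 : Strat := .move 837 n2264 (.cons 882 n1739 .nil)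
noncomputable def n2852 : Strat := .move 839 n2685 (.cons 842 n2851 .nil)
noncomputable def n2853 : Strat := .move 881 n163 (.cons 922 n2852 .nil)
noncomputable def n2854 : Strat := .move 757 n1663 (.cons 920 n2853 .nil)
noncomputable def n2855 : Strat := .move 757 n1663 (.cons 920 n2808 .nil)
noncomputable def n2856 : Strat := .move 757 n1663 (.cons 920 n2702 .nil)
noncomputable def n2857 : Strat := .move 715 n2804 (.cons 919 n2711 .nil)
noncomputable def n2858 : Strat := .move 757 n1663 (.cons 920 n2857 .nil)
noncomputable def n2859 : Strat := .move 754 n2355 (.cons 757 n2354 .nil)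
noncomputable def n2860 : Strat := .move 755 n1493 (.cons 714 n2859 .nil)
noncomputable def n2861 : Strat := .move 920 n1729 (.cons 757 n2383 .nil)
noncomputable def n2862 : Strat := .move 715 n2709 (.cons 673 n1466 .nil)
noncomputable def n2863 : Strat := .move 714 n2710 (.cons 755 n2862 .nil)
noncomputable def n2864 : Strat := .move 878 n1450 (.cons 919 n2863 .nil)
noncomputable def n2865 : Strat := .move 756 n2856 (.cons 754 n2858 (.cons 920 n2860 (.cons 755 n2861 (.cons 757 n2864 .nil))))
noncomputable def n2866 : Strat := .move 757 n2685 (.cons 842 n2688 (.cons 878 n2689 .nil))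
noncomputable def n2867 : Strat := .move 757 n2685 (.cons 842 n2800 (.cons 878 n2689 .nil))
noncomputable def n2868 : Strat := .move 837 n618 (.cons 877 n1739 .nil)
noncomputable def n2869 : Strat := .move 878 n1441 (.cons 841 n2868 .nil)
noncomputable def n2870 : Strat := .move 881 n163 (.cons 922 n2851 .nil)
noncomputable def n2871 : Strat := .move 757 n2685 (.cons 842 n2869 (.cons 878 n2870 .nil))
noncomputable def n2872 : Strat := .move 922 n994 (.cons 963 n993 .nil)
noncomputable def n2873 : Strat := .move 881 n2265 (.cons 836 n2872 .nil)
noncomputable def n2874 : Strat := .move 880 n2798 (.cons 756 n2873 .nil)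
noncomputable def n2875 : Strat := .move 839 n2866 (.cons 919 n2867 (.cons 714 n2871 (.cons 841 n2847 (.cons 878 n2874 .nil))))
noncomputable def n2876 : Strat := .move 837 n2838 (.cons 881 n1739 .nil)
noncomputable def n2877 : Strat := .move 841 n1143 (.cons 883 n127 .nil)
noncomputable def n2878 : Strat := .move 882 n2876 (.cons 836 n2877 .nil)
noncomputable def n2879 : Strat := .move 880 n2798 (.cons 756 n2878 .nil)
noncomputable def n2880 : Strat := .move 839 n1822 (.cons 878 n2879 (.cons 841 n2847 .nil))
noncomputable def n2881 : Strat := .move 839 n1730 (.cons 961 n2878 .nil)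
noncomputable def n2882 : Strat := .move 920 n1729 (.cons 757 n2881 .nil)
noncomputable def n2883 : Strat := .move 838 n2850 (.cons 880 n2854 (.cons 841 n2855 (.cons 839 n2865 (.cons 920 n2875 (.cons 757 n2880 (.cons 878 n2882 .nil))))))
noncomputable def n2884 : Strat := .win 881 7 798
noncomputable def n2885 : Strat := .win 921 6 798
noncomputable def n2886 : Strat := .move 963 n2884 (.cons 881 n2885 .nil)
noncomputable def n2887 : Strat := .move 922 n2434 (.cons 962 n2886 (.cons 963 n2723 .nil))
noncomputable def n2888 : Strat := .move 921 n507 (.cons 756 n2723 .nil)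
noncomputable def n2889 : Strat := .move 839 n1862 (.cons 756 n2887 (.cons 962 n2888 (.cons 921 n2723 .nil)))
noncomputable def n2890 : Strat := .move 837 n2820 (.cons 882 n210 .nil)
noncomputable def n2891 : Strat := .move 878 n209 (.cons 841 n2890 .nil)
noncomputable def n2892 : Strat := .move 962 n2773 (.cons 1003 n2774 .nil)
noncomputable def n2893 : Strat := .move 921 n1888 (.cons 756 n2892 .nil)
noncomputable def n2894 : Strat := .move 838 n2891 (.cons 878 n2893 .nil)
noncomputable def n2895 : Strat := .move 878 n210 (.cons 836 n209 .nil)
noncomputable def n2896 : Strat := .move 837 n2820 (.cons 882 n2895 .nil)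
noncomputable def n2897 : Strat := .move 756 n1450 (.cons 919 n1402 .nil)
noncomputable def n2898 : Strat := .move 878 n209 (.cons 841 n2897 .nil)
noncomputable def n2899 : Strat := .win 878 2 836
noncomputable def n2900 : Strat := .move 836 n2823 (.cons 835 n2899 .nil)
noncomputable def n2901 : Strat := .move 837 n2820 (.cons 882 n2900 .nil)
noncomputable def n2902 : Strat := .win 920 6 797
noncomputable def n2903 : Strat := .move 962 n2902 (.cons 920 n2773 .nil)
noncomputable def n2904 : Strat := .move 921 n1888 (.cons 756 n2903 .nil)
noncomputable def n2905 : Strat := .move 838 n2896 (.cons 837 n2755 (.cons 882 n2898 (.cons 841 n2901 (.cons 878 n2904 .nil))))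
noncomputable def n2906 : Strat := .move 922 n2766 (.cons 877 n2750 .nil)
noncomputable def n2907 : Strat := .move 878 n209 (.cons 841 n2906 .nil)
noncomputable def n2908 : Strat := .move 838 n200 (.cons 837 n1888 .nil)
noncomputable def n2909 : Strat := .win 883 4 879
noncomputable def n2910 : Strat := .move 920 n2909 (.cons 883 n451 .nil)
noncomputable def n2911 : Strat := .move 882 n2908 (.cons 756 n2910 .nil)
noncomputable def n2912 : Strat := .move 921 n2907 (.cons 878 n2911 .nil)
noncomputable def n2913 : Strat := .move 921 n2766 (.cons 877 n98 .nil)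
noncomputable def n2914 : Strat := .move 922 n2750 (.cons 923 n2913 .nil)
noncomputable def n2915 : Strat := .move 878 n209 (.cons 841 n2914 .nil)
noncomputable def n2916 : Strat := .move 838 n1888 (.cons 756 n2903 .nil)
noncomputable def n2917 : Strat := .move 962 n2902 (.cons 920 n2774 .nil)
noncomputable def n2918 : Strat := .move 838 n1888 (.cons 756 n2917 .nil)
noncomputable def n2919 : Strat := .move 921 n2892 (.cons 922 n2916 (.cons 1003 n2918 (.cons 962 n2911 .nil)))
noncomputable def n2920 : Strat := .move 919 n1469 (.cons 756 n214 .nil)
noncomputable def n2921 : Strat := .move 838 n2890 (.cons 836 n2920 .nil)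
noncomputable def n2922 : Strat := .move 878 n209 (.cons 841 n2921 .nil)
noncomputable def n2923 : Strat := .move 881 n2894 (.cons 922 n2905 (.cons 962 n2912 (.cons 756 n2915 (.cons 878 n2919 (.cons 921 n2922 .nil)))))
noncomputable def n2924 : Strat := .move 922 n2434 (.cons 962 n2740 .nil)
noncomputable def n2925 : Strat := .move 839 n1862 (.cons 756 n2924 (.cons 962 n2740 .nil))
noncomputable def n2926 : Strat := .move 839 n1383 (.cons 962 n507 .nil)
noncomputable def n2927 : Strat := .move 878 n2750 (.cons 923 n2766 .nil)
noncomputable def n2928 : Strat := .move 881 n98 (.cons 962 n2927 .nil)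
noncomputable def n2929 : Strat := .win 1003 7 838
noncomputable def n2930 : Strat := .move 962 n2929 (.cons 1003 n2902 .nil)
noncomputable def n2931 : Strat := .move 838 n1888 (.cons 756 n2930 .nil)
noncomputable def n2932 : Strat := .win 920 2 878
noncomputable def n2933 : Strat := .win 881 0 878
noncomputable def n2934 : Strat := .move 923 n2932 (.cons 920 n2933 .nil)
noncomputable def n2935 : Strat := .move 878 n2766 (.cons 877 n2934 .nil)
noncomputable def n2936 : Strat := .move 922 n2928 (.cons 881 n2931 (.cons 962 n2935 .nil))
noncomputable def n2937 : Strat := .move 920 n2765 (.cons 962 n2769 (.cons 961 n2772 (.cons 839 n2776 .nil)))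
noncomputable def n2938 : Strat := .win 838 6 756
noncomputable def n2939 : Strat := .move 756 n2938 (.cons 838 n781 .nil)
noncomputable def n2940 : Strat := .move 921 n2926 (.cons 839 n2936 (.cons 756 n2937 (.cons 962 n2939 .nil)))
noncomputable def n2941 : Strat := .move 962 n2771 (.cons 839 n2775 .nil)
noncomputable def n2942 : Strat := .move 921 n2926 (.cons 962 n2939 (.cons 756 n2941 (.cons 839 n2931 .nil)))
noncomputable def n2943 : Strat := .move 880 n2889 (.cons 756 n2785 (.cons 839 n2923 (.cons 881 n2925 (.cons 841 n2940 (.cons 878 n2942 .nil)))))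
noncomputable def n2944 : Strat := .move 838 n1032 (.cons 878 n2840 .nil)
noncomputable def n2945 : Strat := .move 839 n127 (.cons 842 n2944 .nil)
noncomputable def n2946 : Strat := .move 880 n197 (.cons 878 n2754 .nil)
noncomputable def n2947 : Strat := .move 881 n2946 (.cons 882 n2759 .nil)
noncomputable def n2948 : Strat := .move 839 n1032 (.cons 878 n2840 .nil)
noncomputable def n2949 : Strat := .win 837 3 796
noncomputable def n2950 : Strat := .move 960 n1471 (.cons 1001 n2949 .nil)
noncomputable def n2951 : Strat := .move 919 n1469 (.cons 756 n2950 .nil)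
noncomputable def n2952 : Strat := .move 878 n2486 (.cons 839 n2951 .nil)
noncomputable def n2953 : Strat := .move 757 n2036 (.cons 716 n2702 .nil)
noncomputable def n2954 : Strat := .move 880 n2553 (.cons 839 n1402 .nil)
noncomputable def n2955 : Strat := .move 715 n2551 (.cons 674 n2954 (.cons 880 n2711 .nil))
noncomputable def n2956 : Strat := .move 715 n1490 (.cons 757 n2551 .nil)
noncomputable def n2957 : Strat := .move 756 n2953 (.cons 757 n2955 (.cons 714 n2956 .nil))
noncomputable def n2958 : Strat := .move 880 n1402 (.cons 921 n2721 .nil)
noncomputable def n2959 : Strat := .move 878 n1450 (.cons 919 n2958 .nil)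
noncomputable def n2960 : Strat := .move 756 n2953 (.cons 757 n2959 .nil)
noncomputable def n2961 : Strat := .move 838 n2948 (.cons 881 n2952 (.cons 878 n2957 (.cons 839 n2960 .nil)))
noncomputable def n2962 : Strat := .move 841 n2945 (.cons 839 n2947 (.cons 881 n2582 (.cons 842 n2961 .nil)))
noncomputable def n2963 : Strat := .win 880 0 878
noncomputable def n2964 : Strat := .move 878 n2932 (.cons 920 n2963 .nil)
noncomputable def n2965 : Strat := .move 923 n137 (.cons 964 n2964 .nil)
noncomputable def n2966 : Strat := .move 921 n98 (.cons 962 n2965 .nil)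
noncomputable def n2967 : Strat := .move 922 n470 (.cons 757 n2966 .nil)
noncomputable def n2968 : Strat := .move 716 n2692 (.cons 756 n2284 .nil)
noncomputable def n2969 : Strat := .move 757 n1663 (.cons 920 n2968 .nil)
noncomputable def n2970 : Strat := .move 921 n1891 (.cons 962 n1888 .nil)
noncomputable def n2971 : Strat := .move 882 n451 (.cons 919 n200 .nil)
noncomputable def n2972 : Strat := .move 880 n2970 (.cons 756 n2971 .nil)
noncomputable def n2973 : Strat := .move 920 n1729 (.cons 757 n2972 .nil)
noncomputable def n2974 : Strat := .move 880 n2896 (.cons 837 n2755 (.cons 882 n2898 (.cons 841 n2901 (.cons 878 n2904 .nil))))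
noncomputable def n2975 : Strat := .move 880 n1402 (.cons 921 n209 .nil)
noncomputable def n2976 : Strat := .move 878 n1450 (.cons 919 n2975 .nil)
noncomputable def n2977 : Strat := .move 756 n2953 (.cons 757 n2976 .nil)
noncomputable def n2978 : Strat := .move 920 n1729 (.cons 757 n1485 .nil)
noncomputable def n2979 : Strat := .move 838 n2969 (.cons 675 n2973 (.cons 757 n2974 (.cons 920 n2977 (.cons 756 n2978 .nil))))
noncomputable def n2980 : Strat := .move 838 n1663 (.cons 920 n2968 .nil)
noncomputable def n2981 : Strat := .move 757 n163 (.cons 922 n2980 .nil)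
noncomputable def n2982 : Strat := .move 963 n153 (.cons 1005 n150 .nil)
noncomputable def n2983 : Strat := .move 962 n151 (.cons 921 n2982 .nil)
noncomputable def n2984 : Strat := .move 964 n154 (.cons 923 n2983 .nil)
noncomputable def n2985 : Strat := .move 922 n470 (.cons 757 n2984 .nil)
noncomputable def n2986 : Strat := .move 880 n2894 (.cons 922 n2905 (.cons 962 n2912 (.cons 756 n2915 (.cons 878 n2919 (.cons 921 n2922 .nil)))))
noncomputable def n2987 : Strat := .move 881 n2967 (.cons 922 n2979 (.cons 880 n2981 (.cons 920 n2985 (.cons 757 n2986 .nil))))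
noncomputable def n2988 : Strat := .move 922 n470 (.cons 757 n932 .nil)
noncomputable def n2989 : Strat := .move 757 n1277 (.cons 920 n2171 .nil)
noncomputable def n2990 : Strat := .move 839 n2989 (.cons 716 n2815 .nil)
noncomputable def n2991 : Strat := .move 880 n197 (.cons 878 n2990 .nil)
noncomputable def n2992 : Strat := .move 841 n2582 (.cons 842 n2991 (.cons 839 n2946 .nil))
noncomputable def n2993 : Strat := .move 841 n2946 (.cons 882 n2759 .nil)
noncomputable def n2994 : Strat := .move 922 n470 (.cons 757 n825 .nil)
noncomputable def n2995 : Strat := .move 922 n932 (.cons 921 n825 (.cons 963 n2966 .nil))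
noncomputable def n2996 : Strat := .move 881 n2988 (.cons 922 n2992 (.cons 839 n2993 (.cons 921 n2994 (.cons 757 n2995 .nil))))
noncomputable def n2997 : Strat := .move 879 n2696 (.cons 881 n2720 (.cons 756 n2795 (.cons 919 n2803 (.cons 841 n2814 (.cons 878 n2833 (.cons 675 n2849 (.cons 716 n2883 (.cons 757 n2943 (.cons 920 n2962 (.cons 839 n2987 (.cons 838 n2996 .nil)))))))))))
noncomputable def n2998 : Strat := .move 797 n2680 (.cons 841 n2681 (.cons 839 n2347 (.cons 756 n2585 (.cons 837 n2499 (.cons 796 n2997 .nil)))))
noncomputable def n2999 : Strat := .move 798 n2185 (.cons 841 n2316 (.cons 839 n2389 (.cons 797 n2460 (.cons 757 n2480 (.cons 881 n2505 (.cons 796 n2562 (.cons 838 n2572 (.cons 801 n2584 (.cons 756 n2589 (.cons 759 n2652 (.cons 755 n2661 (.cons 879 n2678 (.cons 800 n2998 .nil)))))))))))))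
noncomputable def n3000 : Strat := .move 799 n122 (.cons 800 n260 (.cons 839 n374 (.cons 841 n446 (.cons 717 n546 (.cons 922 n590 (.cons 757 n660 (.cons 880 n780 (.cons 882 n866 (.cons 716 n1018 (.cons 921 n1058 (.cons 923 n1212 (.cons 796 n1236 (.cons 760 n1252 (.cons 718 n1313 (.cons 798 n1336 (.cons 759 n1347 (.cons 881 n2147 (.cons 758 n2999 .nil))))))))))))))))))

end Vale.Agent.Snaky.R2_2
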