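import Vale.Agent.Snaky.Assemble

namespace Vale.Agent.Snaky.R3_0

open Vale.Agent.Snaky

noncomputable def n0 : Strat := .win 675 7 675
noncomputable def n1 : Strat := .win 757 7 716
noncomputable def n2 : Strat := .win 677 3 676
noncomputable def n3 : Strat := .win 759 3 717
noncomputable def n4 : Strat := .move 718 n2 (.cons 677 n3 .nil)
noncomputable def n5 : Strat := .move 881 n1 (.cons 757 n4 .nil)
noncomputable def n6 : Strat := .move 716 n0 (.cons 675 n5 .nil)
noncomputable def n7 : Strat := .win 880 1 716
noncomputable def n8 : Strat := .win 798 1 675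
noncomputable def n9 : Strat := .win 882 6 717
noncomputable def n10 : Strat := .win 800 6 676
noncomputable def n11 : Strat := .move 841 n9 (.cons 882 n10 .nil)
noncomputable def n12 : Strat := .move 676 n8 (.cons 798 n11 .nil)
noncomputable def n13 : Strat := .move 839 n7 (.cons 880 n12 .nil)
noncomputable def n14 : Strat := .move 717 n6 (.cons 716 n13 .nil)
noncomputable def n15 : Strat := .win 716 7 716
noncomputable def n16 : Strat := .win 798 7 757
noncomputable def n17 : Strat := .win 882 6 758
noncomputable def n18 : Strat := .win 964 6 799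
noncomputable def n19 : Strat := .move 923 n17 (.cons 882 n18 .nil)
noncomputable def n20 : Strat := .move 922 n16 (.cons 798 n19 .nil)
noncomputable def n21 : Strat := .move 757 n15 (.cons 716 n20 .nil)
noncomputable def n22 : Strat := .win 923 6 758
noncomputable def n23 : Strat := .win 921 1 757
noncomputable def n24 : Strat := .win 839 1 716
noncomputable def n25 : Strat := .win 841 6 717
noncomputable def n26 : Strat := .move 717 n24 (.cons 839 n25 .nil)
noncomputable def n27 : Strat := .move 880 n23 (.cons 921 n26 .nil)
noncomputable def n28 : Strat := .move 882 n22 (.cons 923 n27 .nil)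
noncomputable def n29 : Strat := .win 718 3 717
noncomputable def n30 : Strat := .win 800 3 758
noncomputable def n31 : Strat := .move 759 n29 (.cons 718 n30 .nil)
noncomputable def n32 : Strat := .move 922 n16 (.cons 798 n31 .nil)
noncomputable def n33 : Strat := .move 757 n15 (.cons 716 n32 .nil)
noncomputable def n34 : Strat := .move 881 n21 (.cons 757 n28 (.cons 882 n33 .nil))
noncomputable def n35 : Strat := .win 880 1 757
noncomputable def n36 : Strat := .win 962 1 798
noncomputable def n37 : Strat := .move 921 n35 (.cons 880 n36 .nil)
noncomputable def n38 : Strat := .move 922 n16 (.cons 798 n37 .nil)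
noncomputable def n39 : Strat := .move 757 n15 (.cons 716 n38 .nil)
noncomputable def n40 : Strat := .move 922 n30 (.cons 800 n37 .nil)
noncomputable def n41 : Strat := .move 759 n29 (.cons 718 n40 .nil)
noncomputable def n42 : Strat := .win 761 4 757
noncomputable def n43 : Strat := .win 797 4 756
noncomputable def n44 : Strat := .move 798 n42 (.cons 761 n43 .nil)
noncomputable def n45 : Strat := .win 798 4 757
noncomputable def n46 : Strat := .win 803 0 758
noncomputable def n47 : Strat := .win 801 0 757
noncomputable def n48 : Strat := .move 802 n46 (.cons 803 n47 .nil)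
noncomputable def n49 : Strat := .move 761 n45 (.cons 798 n48 .nil)
noncomputable def n50 : Strat := .win 801 0 756
noncomputable def n51 : Strat := .win 755 0 755
noncomputable def n52 : Strat := .move 756 n50 (.cons 801 n51 .nil)
noncomputable def n53 : Strat := .win 756 0 756
noncomputable def n54 : Strat := .win 802 0 757
noncomputable def n55 : Strat := .move 801 n53 (.cons 756 n54 .nil)
noncomputable def n56 : Strat := .win 841 3 718
noncomputable def n57 : Strat := .win 720 5 716
noncomputable def n58 : Strat := .move 719 n56 (.cons 841 n57 .nil)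
noncomputable def n59 : Strat := .move 800 n52 (.cons 755 n55 (.cons 801 n58 .nil))
noncomputable def n60 : Strat := .move 760 n44 (.cons 797 n49 (.cons 761 n59 .nil))
noncomputable def n61 : Strat := .move 882 n22 (.cons 923 n60 .nil)
noncomputable def n62 : Strat := .move 759 n29 (.cons 718 n61 .nil)
noncomputable def n63 : Strat := .move 757 n15 (.cons 716 n62 .nil)
noncomputable def n64 : Strat := .move 881 n33 (.cons 800 n39 (.cons 757 n41 (.cons 922 n63 .nil)))
noncomputable def n65 : Strat := .win 718 3 676
noncomputable def n66 : Strat := .win 636 3 635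
noncomputable def n67 : Strat := .move 677 n65 (.cons 718 n66 .nil)
noncomputable def n68 : Strat := .move 676 n8 (.cons 798 n67 .nil)
noncomputable def n69 : Strat := .move 839 n7 (.cons 880 n68 .nil)
noncomputable def n70 : Strat := .move 676 n8 (.cons 798 n10 .nil)
noncomputable def n71 : Strat := .move 841 n9 (.cons 882 n70 .nil)
noncomputable def n72 : Strat := .move 839 n7 (.cons 880 n71 .nil)
noncomputable def n73 : Strat := .win 716 7 675
noncomputable def n74 : Strat := .win 634 7 634
noncomputable def n75 : Strat := .move 675 n73 (.cons 716 n74 .nil)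
noncomputable def n76 : Strat := .move 676 n10 (.cons 800 n75 .nil)
noncomputable def n77 : Strat := .move 841 n9 (.cons 882 n76 .nil)
noncomputable def n78 : Strat := .win 760 0 715
noncomputable def n79 : Strat := .win 714 0 714
noncomputable def n80 : Strat := .move 759 n78 (.cons 760 n79 .nil)
noncomputable def n81 : Strat := .win 719 4 715
noncomputable def n82 : Strat := .win 755 4 714
noncomputable def n83 : Strat := .move 756 n81 (.cons 719 n82 .nil)
noncomputable def n84 : Strat := .win 720 4 716
noncomputable def n85 : Strat := .win 756 4 715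
noncomputable def n86 : Strat := .move 719 n84 (.cons 720 n85 .nil)
noncomputable def n87 : Strat := .win 798 7 674
noncomputable def n88 : Strat := .win 673 2 673
noncomputable def n89 : Strat := .move 674 n87 (.cons 798 n88 .nil)
noncomputable def n90 : Strat := .move 757 n83 (.cons 755 n86 (.cons 719 n89 .nil))
noncomputable def n91 : Strat := .move 715 n80 (.cons 714 n90 .nil)
noncomputable def n92 : Strat := .move 839 n7 (.cons 880 n91 .nil)
noncomputable def n93 : Strat := .move 718 n2 (.cons 677 n92 .nil)
noncomputable def n94 : Strat := .move 716 n0 (.cons 675 n93 .nil)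
noncomputable def n95 : Strat := .move 717 n69 (.cons 636 n72 (.cons 880 n77 (.cons 676 n94 .nil)))
noncomputable def n96 : Strat := .move 882 n25 (.cons 841 n22 .nil)
noncomputable def n97 : Strat := .move 881 n3 (.cons 759 n96 .nil)
noncomputable def n98 : Strat := .move 718 n2 (.cons 677 n97 .nil)
noncomputable def n99 : Strat := .move 880 n24 (.cons 839 n23 .nil)
noncomputable def n100 : Strat := .move 881 n3 (.cons 759 n99 .nil)
noncomputable def n101 : Strat := .move 718 n2 (.cons 677 n100 .nil)
noncomputable def n102 : Strat := .move 717 n13 (.cons 798 n98 (.cons 841 n101 .nil))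
noncomputable def n103 : Strat := .move 676 n8 (.cons 798 n75 .nil)
noncomputable def n104 : Strat := .move 839 n7 (.cons 880 n103 .nil)
noncomputable def n105 : Strat := .move 881 n1 (.cons 757 n96 .nil)
noncomputable def n106 : Strat := .move 716 n0 (.cons 675 n105 .nil)
noncomputable def n107 : Strat := .move 717 n104 (.cons 839 n106 (.cons 716 n13 .nil))
noncomputable def n108 : Strat := .move 717 n24 (.cons 839 n4 .nil)
noncomputable def n109 : Strat := .move 880 n23 (.cons 921 n108 .nil)
noncomputable def n110 : Strat := .move 881 n33 (.cons 800 n39 (.cons 757 n109 .nil))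
noncomputable def n111 : Strat := .win 881 3 717
noncomputable def n112 : Strat := .win 761 2 716
noncomputable def n113 : Strat := .win 715 0 715
noncomputable def n114 : Strat := .move 760 n112 (.cons 761 n113 .nil)
noncomputable def n115 : Strat := .move 759 n111 (.cons 881 n114 .nil)
noncomputable def n116 : Strat := .move 718 n2 (.cons 677 n115 .nil)
noncomputable def n117 : Strat := .move 716 n0 (.cons 675 n116 .nil)
noncomputable def n118 : Strat := .win 676 6 676
noncomputable def n119 : Strat := .win 678 3 677
noncomputable def n120 : Strat := .win 721 4 717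
noncomputable def n121 : Strat := .win 757 4 716
noncomputable def n122 : Strat := .move 720 n120 (.cons 721 n121 .nil)
noncomputable def n123 : Strat := .move 719 n119 (.cons 678 n122 .nil)
noncomputable def n124 : Strat := .move 800 n118 (.cons 676 n123 .nil)
noncomputable def n125 : Strat := .move 841 n9 (.cons 882 n124 .nil)
noncomputable def n126 : Strat := .move 759 n111 (.cons 881 n125 .nil)
noncomputable def n127 : Strat := .move 718 n2 (.cons 677 n126 .nil)
noncomputable def n128 : Strat := .move 717 n117 (.cons 881 n77 (.cons 716 n127 .nil))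
noncomputable def n129 : Strat := .move 716 n0 (.cons 675 n1 .nil)
noncomputable def n130 : Strat := .move 717 n24 (.cons 839 n129 .nil)
noncomputable def n131 : Strat := .move 880 n23 (.cons 921 n130 .nil)
noncomputable def n132 : Strat := .move 717 n24 (.cons 839 n96 .nil)
noncomputable def n133 : Strat := .move 880 n23 (.cons 921 n132 .nil)
noncomputable def n134 : Strat := .move 881 n131 (.cons 717 n39 (.cons 880 n21 (.cons 757 n133 .nil)))
noncomputable def n135 : Strat := .move 758 n14 (.cons 677 n34 (.cons 717 n64 (.cons 881 n95 (.cons 757 n102 (.cons 759 n107 (.cons 841 n110 (.cons 880 n128 (.cons 800 n134 .nil))))))))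
noncomputable def n136 : Strat := .move 922 n30 (.cons 800 n16 .nil)
noncomputable def n137 : Strat := .move 759 n29 (.cons 718 n136 .nil)
noncomputable def n138 : Strat := .move 757 n15 (.cons 716 n137 .nil)
noncomputable def n139 : Strat := .move 880 n23 (.cons 921 n24 .nil)
noncomputable def n140 : Strat := .move 717 n25 (.cons 841 n139 .nil)
noncomputable def n141 : Strat := .move 882 n22 (.cons 923 n140 .nil)
noncomputable def n142 : Strat := .move 758 n21 (.cons 964 n138 (.cons 757 n141 .nil))
noncomputable def n143 : Strat := .win 759 3 758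
noncomputable def n144 : Strat := .win 841 3 799
noncomputable def n145 : Strat := .win 921 1 798
noncomputable def n146 : Strat := .win 1003 1 839
noncomputable def n147 : Strat := .move 962 n145 (.cons 921 n146 .nil)
noncomputable def n148 : Strat := .move 963 n144 (.cons 841 n147 .nil)
noncomputable def n149 : Strat := .move 800 n143 (.cons 759 n148 .nil)
noncomputable def n150 : Strat := .win 757 7 757
noncomputable def n151 : Strat := .win 839 7 798
noncomputable def n152 : Strat := .win 923 6 799
noncomputable def n153 : Strat := .win 1005 6 840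
noncomputable def n154 : Strat := .move 964 n152 (.cons 923 n153 .nil)
noncomputable def n155 : Strat := .move 963 n151 (.cons 839 n154 .nil)
noncomputable def n156 : Strat := .move 798 n150 (.cons 757 n155 .nil)
noncomputable def n157 : Strat := .win 925 2 880
noncomputable def n158 : Strat := .win 879 2 879
noncomputable def n159 : Strat := .move 880 n157 (.cons 925 n158 .nil)
noncomputable def n160 : Strat := .win 880 2 880
noncomputable def n161 : Strat := .win 967 0 922
noncomputable def n162 : Strat := .win 965 0 921
noncomputable def n163 : Strat := .move 966 n161 (.cons 967 n162 .nil)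
noncomputable def n164 : Strat := .move 925 n160 (.cons 880 n163 .nil)
noncomputable def n165 : Strat := .win 883 5 879
noncomputable def n166 : Strat := .win 919 5 878
noncomputable def n167 : Strat := .move 920 n165 (.cons 883 n166 .nil)
noncomputable def n168 : Strat := .win 920 5 879
noncomputable def n169 : Strat := .win 884 4 880
noncomputable def n170 : Strat := .move 883 n168 (.cons 920 n169 .nil)
noncomputable def n171 : Strat := .win 841 6 800
noncomputable def n172 : Strat := .win 966 0 921
noncomputable def n173 : Strat := .move 965 n171 (.cons 841 n172 .nil)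
noncomputable def n174 : Strat := .move 882 n167 (.cons 919 n170 (.cons 883 n173 .nil))
noncomputable def n175 : Strat := .move 924 n159 (.cons 879 n164 (.cons 925 n174 .nil))
noncomputable def n176 : Strat := .move 800 n143 (.cons 759 n175 .nil)
noncomputable def n177 : Strat := .move 923 n18 (.cons 964 n176 .nil)
noncomputable def n178 : Strat := .move 921 n36 (.cons 962 n177 .nil)
noncomputable def n179 : Strat := .move 922 n149 (.cons 800 n156 (.cons 963 n178 .nil))
noncomputable def n180 : Strat := .move 718 n3 (.cons 759 n2 .nil)
noncomputable def n181 : Strat := .move 717 n24 (.cons 839 n180 .nil)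
noncomputable def n182 : Strat := .move 880 n23 (.cons 921 n181 .nil)
noncomputable def n183 : Strat := .move 882 n22 (.cons 923 n25 .nil)
noncomputable def n184 : Strat := .move 717 n24 (.cons 839 n183 .nil)
noncomputable def n185 : Strat := .move 880 n23 (.cons 921 n184 .nil)
noncomputable def n186 : Strat := .move 758 n138 (.cons 798 n182 (.cons 759 n185 .nil))
noncomputable def n187 : Strat := .move 716 n1 (.cons 757 n0 .nil)
noncomputable def n188 : Strat := .move 717 n25 (.cons 841 n187 .nil)
noncomputable def n189 : Strat := .move 882 n22 (.cons 923 n188 .nil)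
noncomputable def n190 : Strat := .move 717 n24 (.cons 839 n187 .nil)
noncomputable def n191 : Strat := .move 880 n23 (.cons 921 n190 .nil)
noncomputable def n192 : Strat := .move 800 n50 (.cons 801 n51 .nil)
noncomputable def n193 : Strat := .win 800 0 756
noncomputable def n194 : Strat := .move 801 n54 (.cons 802 n193 .nil)
noncomputable def n195 : Strat := .win 798 4 756
noncomputable def n196 : Strat := .win 796 4 755
noncomputable def n197 : Strat := .move 797 n195 (.cons 798 n196 .nil)
noncomputable def n198 : Strat := .move 760 n194 (.cons 800 n197 .nil)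
noncomputable def n199 : Strat := .win 800 0 755
noncomputable def n200 : Strat := .win 713 2 713
noncomputable def n201 : Strat := .win 715 2 714
noncomputable def n202 : Strat := .move 714 n200 (.cons 713 n201 .nil)
noncomputable def n203 : Strat := .move 755 n199 (.cons 800 n202 .nil)
noncomputable def n204 : Strat := .win 795 4 754
noncomputable def n205 : Strat := .win 797 4 755
noncomputable def n206 : Strat := .move 796 n204 (.cons 795 n205 .nil)
noncomputable def n207 : Strat := .move 755 n202 (.cons 715 n206 .nil)
noncomputable def n208 : Strat := .move 756 n192 (.cons 755 n198 (.cons 801 n203 (.cons 800 n207 .nil)))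
noncomputable def n209 : Strat := .move 882 n22 (.cons 923 n208 .nil)
noncomputable def n210 : Strat := .move 759 n29 (.cons 718 n209 .nil)
noncomputable def n211 : Strat := .move 757 n15 (.cons 716 n210 .nil)
noncomputable def n212 : Strat := .move 758 n189 (.cons 675 n28 (.cons 882 n191 (.cons 717 n211 .nil)))
noncomputable def n213 : Strat := .move 758 n191 (.cons 880 n21 (.cons 757 n185 .nil))
noncomputable def n214 : Strat := .move 922 n30 (.cons 800 n19 .nil)
noncomputable def n215 : Strat := .move 759 n29 (.cons 718 n214 .nil)
noncomputable def n216 : Strat := .move 757 n15 (.cons 716 n136 .nil)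
noncomputable def n217 : Strat := .move 759 n29 (.cons 718 n216 .nil)
noncomputable def n218 : Strat := .move 758 n215 (.cons 964 n217 (.cons 759 n21 (.cons 922 n189 .nil)))
noncomputable def n219 : Strat := .move 963 n151 (.cons 839 n147 .nil)
noncomputable def n220 : Strat := .move 798 n150 (.cons 757 n219 .nil)
noncomputable def n221 : Strat := .move 800 n143 (.cons 759 n144 .nil)
noncomputable def n222 : Strat := .move 963 n151 (.cons 839 n221 .nil)
noncomputable def n223 : Strat := .move 798 n150 (.cons 757 n222 .nil)
noncomputable def n224 : Strat := .move 758 n35 (.cons 880 n31 .nil)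
noncomputable def n225 : Strat := .move 921 n36 (.cons 962 n224 .nil)
noncomputable def n226 : Strat := .move 922 n220 (.cons 921 n223 (.cons 798 n225 .nil))
noncomputable def n227 : Strat := .move 758 n141 (.cons 839 n215 (.cons 882 n41 .nil))
noncomputable def n228 : Strat := .move 758 n39 (.cons 757 n182 (.cons 880 n33 .nil))
noncomputable def n229 : Strat := .move 881 n142 (.cons 758 n179 (.cons 964 n186 (.cons 922 n212 (.cons 800 n213 (.cons 839 n218 (.cons 882 n226 (.cons 798 n227 (.cons 841 n228 .nil))))))))
noncomputable def n230 : Strat := .move 757 n15 (.cons 716 n16 .nil)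
noncomputable def n231 : Strat := .move 922 n30 (.cons 800 n230 .nil)
noncomputable def n232 : Strat := .move 759 n29 (.cons 718 n231 .nil)
noncomputable def n233 : Strat := .move 758 n41 (.cons 759 n185 (.cons 880 n232 .nil))
noncomputable def n234 : Strat := .move 963 n144 (.cons 841 n154 .nil)
noncomputable def n235 : Strat := .move 800 n143 (.cons 759 n234 .nil)
noncomputable def n236 : Strat := .move 758 n17 (.cons 882 n230 .nil)
noncomputable def n237 : Strat := .move 923 n18 (.cons 964 n236 .nil)
noncomputable def n238 : Strat := .move 798 n150 (.cons 757 n151 .nil)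
noncomputable def n239 : Strat := .move 963 n144 (.cons 841 n238 .nil)
noncomputable def n240 : Strat := .move 800 n143 (.cons 759 n239 .nil)
noncomputable def n241 : Strat := .move 922 n235 (.cons 800 n237 (.cons 923 n240 .nil))
noncomputable def n242 : Strat := .move 717 n25 (.cons 841 n180 .nil)
noncomputable def n243 : Strat := .move 882 n22 (.cons 923 n242 .nil)
noncomputable def n244 : Strat := .move 798 n43 (.cons 797 n42 .nil)
noncomputable def n245 : Strat := .move 801 n54 (.cons 802 n53 .nil)
noncomputable def n246 : Strat := .move 800 n52 (.cons 755 n245 (.cons 801 n58 .nil))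
noncomputable def n247 : Strat := .move 760 n244 (.cons 761 n246 .nil)
noncomputable def n248 : Strat := .move 882 n22 (.cons 923 n247 .nil)
noncomputable def n249 : Strat := .move 757 n15 (.cons 716 n248 .nil)
noncomputable def n250 : Strat := .move 759 n29 (.cons 718 n249 .nil)
noncomputable def n251 : Strat := .move 758 n141 (.cons 841 n182 (.cons 880 n243 (.cons 717 n250 .nil)))
noncomputable def n252 : Strat := .move 758 n182 (.cons 880 n21 .nil)
noncomputable def n253 : Strat := .move 758 n215 (.cons 964 n217 (.cons 759 n189 .nil))
noncomputable def n254 : Strat := .move 758 n243 (.cons 677 n28 (.cons 882 n41 .nil))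
noncomputable def n255 : Strat := .move 758 n35 (.cons 880 n17 .nil)
noncomputable def n256 : Strat := .move 923 n18 (.cons 964 n255 .nil)
noncomputable def n257 : Strat := .move 921 n36 (.cons 962 n256 .nil)
noncomputable def n258 : Strat := .win 758 6 758
noncomputable def n259 : Strat := .win 800 1 799
noncomputable def n260 : Strat := .win 1004 3 840
noncomputable def n261 : Strat := .move 841 n259 (.cons 800 n260 .nil)
noncomputable def n262 : Strat := .move 798 n151 (.cons 839 n150 .nil)
noncomputable def n263 : Strat := .move 841 n260 (.cons 1004 n262 .nil)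
noncomputable def n264 : Strat := .move 963 n261 (.cons 800 n263 (.cons 841 n238 .nil))
noncomputable def n265 : Strat := .move 882 n258 (.cons 758 n264 .nil)
noncomputable def n266 : Strat := .move 923 n18 (.cons 964 n265 .nil)
noncomputable def n267 : Strat := .move 922 n257 (.cons 921 n266 (.cons 882 n220 .nil))
noncomputable def n268 : Strat := .move 881 n233 (.cons 758 n179 (.cons 880 n241 (.cons 922 n251 (.cons 800 n252 (.cons 882 n226 (.cons 839 n253 (.cons 798 n254 (.cons 759 n267 .nil))))))))
noncomputable def n269 : Strat := .win 881 7 716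
noncomputable def n270 : Strat := .win 755 5 714
noncomputable def n271 : Strat := .move 756 n81 (.cons 719 n270 .nil)
noncomputable def n272 : Strat := .move 757 n269 (.cons 881 n271 .nil)
noncomputable def n273 : Strat := .move 718 n2 (.cons 677 n272 .nil)
noncomputable def n274 : Strat := .move 717 n0 (.cons 675 n273 .nil)
noncomputable def n275 : Strat := .win 634 6 634
noncomputable def n276 : Strat := .win 798 6 675
noncomputable def n277 : Strat := .move 675 n275 (.cons 634 n276 .nil)
noncomputable def n278 : Strat := .move 757 n269 (.cons 881 n277 .nil)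
noncomputable def n279 : Strat := .move 839 n8 (.cons 798 n7 .nil)
noncomputable def n280 : Strat := .win 635 6 635
noncomputable def n281 : Strat := .win 922 3 758
noncomputable def n282 : Strat := .move 800 n280 (.cons 635 n281 .nil)
noncomputable def n283 : Strat := .move 676 n279 (.cons 880 n282 .nil)
noncomputable def n284 : Strat := .move 717 n25 (.cons 841 n283 .nil)
noncomputable def n285 : Strat := .move 882 n22 (.cons 923 n284 .nil)
noncomputable def n286 : Strat := .move 759 n29 (.cons 718 n285 .nil)
noncomputable def n287 : Strat := .move 881 n1 (.cons 757 n286 .nil)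
noncomputable def n288 : Strat := .move 717 n0 (.cons 675 n116 .nil)
noncomputable def n289 : Strat := .move 676 n10 (.cons 800 n279 .nil)
noncomputable def n290 : Strat := .move 841 n9 (.cons 882 n289 .nil)
noncomputable def n291 : Strat := .move 718 n2 (.cons 677 n290 .nil)
noncomputable def n292 : Strat := .move 717 n0 (.cons 675 n291 .nil)
noncomputable def n293 : Strat := .move 716 n274 (.cons 717 n278 (.cons 675 n287 (.cons 757 n288 (.cons 881 n292 .nil))))
noncomputable def n294 : Strat := .move 881 n138 (.cons 759 n21 (.cons 716 n215 (.cons 922 n63 .nil)))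
noncomputable def n295 : Strat := .move 716 n0 (.cons 675 n291 .nil)
noncomputable def n296 : Strat := .move 757 n85 (.cons 756 n84 .nil)
noncomputable def n297 : Strat := .win 759 3 677
noncomputable def n298 : Strat := .win 679 5 675
noncomputable def n299 : Strat := .move 678 n297 (.cons 759 n298 .nil)
noncomputable def n300 : Strat := .move 719 n296 (.cons 720 n299 .nil)
noncomputable def n301 : Strat := .move 800 n118 (.cons 676 n300 .nil)
noncomputable def n302 : Strat := .move 841 n9 (.cons 882 n301 .nil)
noncomputable def n303 : Strat := .move 716 n0 (.cons 675 n302 .nil)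
noncomputable def n304 : Strat := .move 718 n2 (.cons 677 n303 .nil)
noncomputable def n305 : Strat := .win 676 1 675
noncomputable def n306 : Strat := .win 757 7 674
noncomputable def n307 : Strat := .move 674 n306 (.cons 757 n88 .nil)
noncomputable def n308 : Strat := .move 715 n80 (.cons 714 n307 .nil)
noncomputable def n309 : Strat := .move 798 n305 (.cons 676 n308 .nil)
noncomputable def n310 : Strat := .move 839 n7 (.cons 880 n309 .nil)
noncomputable def n311 : Strat := .move 718 n2 (.cons 677 n310 .nil)
noncomputable def n312 : Strat := .move 716 n0 (.cons 675 n311 .nil)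
noncomputable def n313 : Strat := .move 839 n7 (.cons 880 n8 .nil)
noncomputable def n314 : Strat := .move 676 n10 (.cons 800 n313 .nil)
noncomputable def n315 : Strat := .move 841 n9 (.cons 882 n314 .nil)
noncomputable def n316 : Strat := .move 757 n84 (.cons 720 n85 .nil)
noncomputable def n317 : Strat := .win 762 0 717
noncomputable def n318 : Strat := .win 760 0 716
noncomputable def n319 : Strat := .move 761 n317 (.cons 762 n318 .nil)
noncomputable def n320 : Strat := .move 720 n121 (.cons 757 n319 .nil)
noncomputable def n321 : Strat := .move 715 n78 (.cons 760 n79 .nil)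
noncomputable def n322 : Strat := .win 761 0 716
noncomputable def n323 : Strat := .move 760 n113 (.cons 715 n322 .nil)
noncomputable def n324 : Strat := .win 800 3 677
noncomputable def n325 : Strat := .move 678 n324 (.cons 800 n298 .nil)
noncomputable def n326 : Strat := .move 759 n321 (.cons 714 n323 (.cons 760 n325 .nil))
noncomputable def n327 : Strat := .move 719 n316 (.cons 756 n320 (.cons 720 n326 .nil))
noncomputable def n328 : Strat := .move 841 n9 (.cons 882 n327 .nil)
noncomputable def n329 : Strat := .move 718 n2 (.cons 677 n328 .nil)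
noncomputable def n330 : Strat := .move 716 n0 (.cons 675 n329 .nil)
noncomputable def n331 : Strat := .move 717 n295 (.cons 839 n304 (.cons 841 n312 (.cons 716 n315 (.cons 676 n330 .nil))))
noncomputable def n332 : Strat := .move 717 n117 (.cons 718 n315 .nil)
noncomputable def n333 : Strat := .move 718 n2 (.cons 677 n271 .nil)
noncomputable def n334 : Strat := .move 757 n269 (.cons 881 n333 .nil)
noncomputable def n335 : Strat := .move 716 n0 (.cons 675 n334 .nil)
noncomputable def n336 : Strat := .move 717 n104 (.cons 839 n335 (.cons 716 n13 .nil))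
noncomputable def n337 : Strat := .win 674 7 674
noncomputable def n338 : Strat := .win 713 0 713
noncomputable def n339 : Strat := .win 759 0 714
noncomputable def n340 : Strat := .move 714 n338 (.cons 713 n339 .nil)
noncomputable def n341 : Strat := .move 715 n337 (.cons 674 n340 .nil)
noncomputable def n342 : Strat := .move 798 n305 (.cons 676 n341 .nil)
noncomputable def n343 : Strat := .move 839 n7 (.cons 880 n342 .nil)
noncomputable def n344 : Strat := .move 757 n269 (.cons 881 n343 .nil)
noncomputable def n345 : Strat := .move 716 n0 (.cons 675 n344 .nil)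
noncomputable def n346 : Strat := .win 798 1 634
noncomputable def n347 : Strat := .win 594 1 593
noncomputable def n348 : Strat := .move 635 n346 (.cons 798 n347 .nil)
noncomputable def n349 : Strat := .move 676 n10 (.cons 800 n348 .nil)
noncomputable def n350 : Strat := .move 841 n9 (.cons 882 n349 .nil)
noncomputable def n351 : Strat := .move 757 n269 (.cons 881 n350 .nil)
noncomputable def n352 : Strat := .move 716 n0 (.cons 675 n351 .nil)
noncomputable def n353 : Strat := .win 878 4 837
noncomputable def n354 : Strat := .win 798 1 715
noncomputable def n355 : Strat := .move 879 n353 (.cons 878 n354 .nil)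
noncomputable def n356 : Strat := .win 801 5 797
noncomputable def n357 : Strat := .win 837 5 796
noncomputable def n358 : Strat := .move 800 n356 (.cons 801 n357 .nil)
noncomputable def n359 : Strat := .move 838 n355 (.cons 798 n358 .nil)
noncomputable def n360 : Strat := .move 841 n9 (.cons 882 n359 .nil)
noncomputable def n361 : Strat := .move 839 n7 (.cons 880 n360 .nil)
noncomputable def n362 : Strat := .move 757 n269 (.cons 881 n361 .nil)
noncomputable def n363 : Strat := .move 716 n0 (.cons 675 n362 .nil)
noncomputable def n364 : Strat := .win 595 3 594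
noncomputable def n365 : Strat := .win 677 3 635
noncomputable def n366 : Strat := .move 636 n364 (.cons 595 n365 .nil)
noncomputable def n367 : Strat := .move 635 n347 (.cons 594 n366 .nil)
noncomputable def n368 : Strat := .move 757 n269 (.cons 881 n367 .nil)
noncomputable def n369 : Strat := .move 676 n10 (.cons 800 n368 .nil)
noncomputable def n370 : Strat := .move 841 n9 (.cons 882 n369 .nil)
noncomputable def n371 : Strat := .move 716 n0 (.cons 675 n370 .nil)
noncomputable def n372 : Strat := .move 717 n345 (.cons 839 n352 (.cons 675 n72 (.cons 676 n363 (.cons 798 n371 .nil))))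
noncomputable def n373 : Strat := .move 716 n0 (.cons 675 n273 .nil)
noncomputable def n374 : Strat := .move 717 n373 (.cons 718 n345 (.cons 881 n69 .nil))
noncomputable def n375 : Strat := .win 800 6 635
noncomputable def n376 : Strat := .win 594 6 594
noncomputable def n377 : Strat := .move 635 n375 (.cons 800 n376 .nil)
noncomputable def n378 : Strat := .move 676 n8 (.cons 798 n377 .nil)
noncomputable def n379 : Strat := .move 839 n7 (.cons 880 n378 .nil)
noncomputable def n380 : Strat := .move 759 n111 (.cons 881 n379 .nil)
noncomputable def n381 : Strat := .move 718 n2 (.cons 677 n380 .nil)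
noncomputable def n382 : Strat := .move 839 n7 (.cons 880 n70 .nil)
noncomputable def n383 : Strat := .move 841 n9 (.cons 882 n382 .nil)
noncomputable def n384 : Strat := .move 881 n3 (.cons 759 n183 .nil)
noncomputable def n385 : Strat := .move 675 n74 (.cons 634 n384 .nil)
noncomputable def n386 : Strat := .move 676 n8 (.cons 798 n385 .nil)
noncomputable def n387 : Strat := .move 839 n7 (.cons 880 n386 .nil)
noncomputable def n388 : Strat := .move 718 n2 (.cons 677 n387 .nil)
noncomputable def n389 : Strat := .move 717 n127 (.cons 841 n381 (.cons 677 n383 (.cons 800 n388 (.cons 676 n98 .nil))))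
noncomputable def n390 : Strat := .move 760 n113 (.cons 715 n112 .nil)
noncomputable def n391 : Strat := .move 759 n111 (.cons 881 n390 .nil)
noncomputable def n392 : Strat := .move 716 n0 (.cons 675 n391 .nil)
noncomputable def n393 : Strat := .move 718 n2 (.cons 677 n392 .nil)
noncomputable def n394 : Strat := .move 838 n356 (.cons 801 n357 .nil)
noncomputable def n395 : Strat := .move 839 n7 (.cons 880 n394 .nil)
noncomputable def n396 : Strat := .move 800 n118 (.cons 676 n395 .nil)
noncomputable def n397 : Strat := .move 841 n9 (.cons 882 n396 .nil)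
noncomputable def n398 : Strat := .move 716 n0 (.cons 675 n397 .nil)
noncomputable def n399 : Strat := .move 718 n2 (.cons 677 n398 .nil)
noncomputable def n400 : Strat := .move 717 n393 (.cons 718 n371 (.cons 677 n106 (.cons 675 n127 (.cons 881 n399 .nil))))
noncomputable def n401 : Strat := .move 758 n293 (.cons 717 n294 (.cons 881 n331 (.cons 757 n332 (.cons 759 n336 (.cons 718 n372 (.cons 882 n374 (.cons 716 n389 (.cons 798 n400 .nil))))))))
noncomputable def n402 : Strat := .move 882 n22 (.cons 923 n41 .nil)
noncomputable def n403 : Strat := .move 758 n141 (.cons 923 n182 (.cons 921 n189 (.cons 717 n402 .nil)))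
noncomputable def n404 : Strat := .move 922 n257 (.cons 880 n235 (.cons 923 n240 .nil))
noncomputable def n405 : Strat := .move 922 n149 (.cons 1003 n240 (.cons 759 n156 (.cons 963 n178 .nil)))
noncomputable def n406 : Strat := .move 922 n220 (.cons 798 n225 (.cons 921 n223 .nil))
noncomputable def n407 : Strat := .move 963 n144 (.cons 841 n151 .nil)
noncomputable def n408 : Strat := .move 798 n150 (.cons 757 n407 .nil)
noncomputable def n409 : Strat := .move 800 n143 (.cons 759 n408 .nil)
noncomputable def n410 : Strat := .move 922 n235 (.cons 1005 n409 (.cons 800 n237 .nil))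
noncomputable def n411 : Strat := .win 758 1 757
noncomputable def n412 : Strat := .win 878 0 878
noncomputable def n413 : Strat := .win 924 2 879
noncomputable def n414 : Strat := .move 923 n412 (.cons 878 n413 .nil)
noncomputable def n415 : Strat := .win 920 4 879
noncomputable def n416 : Strat := .move 883 n415 (.cons 920 n169 .nil)
noncomputable def n417 : Strat := .win 883 4 879
noncomputable def n418 : Strat := .win 919 4 878
noncomputable def n419 : Strat := .move 920 n417 (.cons 883 n418 .nil)
noncomputable def n420 : Strat := .win 923 0 879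
noncomputable def n421 : Strat := .win 925 0 880
noncomputable def n422 : Strat := .move 883 n421 (.cons 925 n169 .nil)
noncomputable def n423 : Strat := .move 924 n420 (.cons 923 n422 .nil)
noncomputable def n424 : Strat := .win 842 5 838
noncomputable def n425 : Strat := .win 963 3 799
noncomputable def n426 : Strat := .win 759 1 758
noncomputable def n427 : Strat := .move 800 n425 (.cons 963 n426 .nil)
noncomputable def n428 : Strat := .move 841 n424 (.cons 842 n427 .nil)
noncomputable def n429 : Strat := .move 882 n416 (.cons 884 n419 (.cons 920 n423 (.cons 883 n428 .nil)))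
noncomputable def n430 : Strat := .win 877 0 877
noncomputable def n431 : Strat := .win 923 0 878
noncomputable def n432 : Strat := .move 878 n430 (.cons 877 n431 .nil)
noncomputable def n433 : Strat := .win 841 5 837
noncomputable def n434 : Strat := .move 878 n430 (.cons 877 n433 .nil)
noncomputable def n435 : Strat := .move 879 n414 (.cons 878 n429 (.cons 924 n432 (.cons 923 n434 .nil)))
noncomputable def n436 : Strat := .move 880 n411 (.cons 758 n435 .nil)
noncomputable def n437 : Strat := .move 921 n36 (.cons 962 n436 .nil)
noncomputable def n438 : Strat := .win 798 6 798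
noncomputable def n439 : Strat := .win 1004 7 839
noncomputable def n440 : Strat := .move 839 n438 (.cons 798 n439 .nil)
noncomputable def n441 : Strat := .win 839 7 839
noncomputable def n442 : Strat := .win 1045 7 880
noncomputable def n443 : Strat := .move 1004 n441 (.cons 839 n442 .nil)
noncomputable def n444 : Strat := .move 963 n440 (.cons 798 n443 (.cons 839 n221 .nil))
noncomputable def n445 : Strat := .move 880 n411 (.cons 758 n444 .nil)
noncomputable def n446 : Strat := .move 921 n36 (.cons 962 n445 .nil)
noncomputable def n447 : Strat := .move 922 n257 (.cons 880 n235 (.cons 964 n437 (.cons 923 n446 .nil)))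
noncomputable def n448 : Strat := .move 800 n55 (.cons 802 n58 .nil)
noncomputable def n449 : Strat := .move 760 n244 (.cons 761 n448 .nil)
noncomputable def n450 : Strat := .move 882 n22 (.cons 923 n449 .nil)
noncomputable def n451 : Strat := .move 757 n15 (.cons 716 n450 .nil)
noncomputable def n452 : Strat := .move 759 n29 (.cons 718 n451 .nil)
noncomputable def n453 : Strat := .move 758 n141 (.cons 880 n189 (.cons 841 n191 (.cons 717 n452 .nil)))
noncomputable def n454 : Strat := .move 758 n35 (.cons 880 n19 .nil)
noncomputable def n455 : Strat := .move 921 n36 (.cons 962 n454 .nil)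
noncomputable def n456 : Strat := .win 963 7 798
noncomputable def n457 : Strat := .win 802 4 798
noncomputable def n458 : Strat := .win 838 4 797
noncomputable def n459 : Strat := .move 801 n457 (.cons 802 n458 .nil)
noncomputable def n460 : Strat := .move 800 n143 (.cons 759 n459 .nil)
noncomputable def n461 : Strat := .move 839 n456 (.cons 963 n460 .nil)
noncomputable def n462 : Strat := .move 798 n150 (.cons 757 n461 .nil)
noncomputable def n463 : Strat := .move 923 n18 (.cons 964 n462 .nil)
noncomputable def n464 : Strat := .move 921 n36 (.cons 962 n463 .nil)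
noncomputable def n465 : Strat := .move 922 n455 (.cons 921 n237 (.cons 882 n225 (.cons 758 n464 .nil)))
noncomputable def n466 : Strat := .move 881 n403 (.cons 675 n404 (.cons 758 n405 (.cons 882 n406 (.cons 880 n410 (.cons 800 n213 (.cons 757 n447 (.cons 922 n453 (.cons 841 n465 (.cons 839 n253 .nil)))))))))
noncomputable def n467 : Strat := .move 676 n10 (.cons 800 n67 .nil)
noncomputable def n468 : Strat := .move 841 n9 (.cons 882 n467 .nil)
noncomputable def n469 : Strat := .move 881 n3 (.cons 759 n1 .nil)
noncomputable def n470 : Strat := .move 718 n2 (.cons 677 n469 .nil)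
noncomputable def n471 : Strat := .move 716 n0 (.cons 675 n470 .nil)
noncomputable def n472 : Strat := .move 717 n77 (.cons 716 n468 (.cons 841 n471 .nil))
noncomputable def n473 : Strat := .move 881 n232 (.cons 757 n215 (.cons 800 n21 (.cons 922 n63 .nil)))
noncomputable def n474 : Strat := .win 838 5 797
noncomputable def n475 : Strat := .move 801 n457 (.cons 802 n474 .nil)
noncomputable def n476 : Strat := .move 800 n118 (.cons 676 n475 .nil)
noncomputable def n477 : Strat := .move 841 n9 (.cons 882 n476 .nil)
noncomputable def n478 : Strat := .move 716 n0 (.cons 675 n321 .nil)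
noncomputable def n479 : Strat := .move 759 n111 (.cons 881 n478 .nil)
noncomputable def n480 : Strat := .move 718 n2 (.cons 677 n479 .nil)
noncomputable def n481 : Strat := .move 841 n9 (.cons 882 n480 .nil)
noncomputable def n482 : Strat := .move 839 n12 (.cons 841 n68 (.cons 798 n477 (.cons 676 n481 .nil)))
noncomputable def n483 : Strat := .move 716 n0 (.cons 675 n390 .nil)
noncomputable def n484 : Strat := .move 759 n111 (.cons 881 n483 .nil)
noncomputable def n485 : Strat := .move 718 n2 (.cons 677 n484 .nil)
noncomputable def n486 : Strat := .move 717 n482 (.cons 841 n485 (.cons 715 n77 (.cons 716 n468 .nil)))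
noncomputable def n487 : Strat := .move 718 n2 (.cons 677 n86 .nil)
noncomputable def n488 : Strat := .move 757 n269 (.cons 881 n487 .nil)
noncomputable def n489 : Strat := .move 716 n0 (.cons 675 n488 .nil)
noncomputable def n490 : Strat := .move 839 n103 (.cons 716 n12 (.cons 676 n489 .nil))
noncomputable def n491 : Strat := .move 717 n490 (.cons 839 n335 (.cons 716 n468 (.cons 718 n77 .nil)))
noncomputable def n492 : Strat := .move 800 n51 (.cons 755 n50 .nil)
noncomputable def n493 : Strat := .move 755 n204 (.cons 795 n202 .nil)
noncomputable def n494 : Strat := .move 796 n205 (.cons 797 n493 .nil)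
noncomputable def n495 : Strat := .move 760 n54 (.cons 802 n197 .nil)
noncomputable def n496 : Strat := .move 801 n193 (.cons 800 n495 .nil)
noncomputable def n497 : Strat := .move 756 n492 (.cons 800 n494 (.cons 755 n496 .nil))
noncomputable def n498 : Strat := .move 759 n29 (.cons 718 n497 .nil)
noncomputable def n499 : Strat := .move 757 n15 (.cons 716 n498 .nil)
noncomputable def n500 : Strat := .move 881 n217 (.cons 800 n21 (.cons 757 n215 (.cons 922 n499 .nil)))
noncomputable def n501 : Strat := .move 717 n25 (.cons 841 n4 .nil)
noncomputable def n502 : Strat := .move 882 n22 (.cons 923 n501 .nil)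
noncomputable def n503 : Strat := .move 962 n146 (.cons 1003 n145 .nil)
noncomputable def n504 : Strat := .move 964 n153 (.cons 1005 n152 .nil)
noncomputable def n505 : Strat := .move 963 n503 (.cons 921 n504 .nil)
noncomputable def n506 : Strat := .move 717 n2 (.cons 677 n505 .nil)
noncomputable def n507 : Strat := .move 718 n3 (.cons 759 n506 .nil)
noncomputable def n508 : Strat := .move 922 n16 (.cons 798 n507 .nil)
noncomputable def n509 : Strat := .move 757 n15 (.cons 716 n508 .nil)
noncomputable def n510 : Strat := .win 922 7 757
noncomputable def n511 : Strat := .win 760 4 756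
noncomputable def n512 : Strat := .win 796 5 755
noncomputable def n513 : Strat := .move 797 n511 (.cons 760 n512 .nil)
noncomputable def n514 : Strat := .move 759 n29 (.cons 718 n513 .nil)
noncomputable def n515 : Strat := .move 798 n510 (.cons 922 n514 .nil)
noncomputable def n516 : Strat := .move 757 n15 (.cons 716 n515 .nil)
noncomputable def n517 : Strat := .move 881 n21 (.cons 716 n502 (.cons 882 n509 (.cons 923 n516 .nil)))
noncomputable def n518 : Strat := .move 759 n79 (.cons 714 n78 .nil)
noncomputable def n519 : Strat := .win 672 2 672
noncomputable def n520 : Strat := .win 674 2 673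
noncomputable def n521 : Strat := .move 673 n519 (.cons 672 n520 .nil)
noncomputable def n522 : Strat := .move 714 n339 (.cons 759 n521 .nil)
noncomputable def n523 : Strat := .win 756 4 714
noncomputable def n524 : Strat := .win 754 4 713
noncomputable def n525 : Strat := .move 714 n524 (.cons 754 n521 .nil)
noncomputable def n526 : Strat := .move 755 n523 (.cons 756 n525 .nil)
noncomputable def n527 : Strat := .win 759 0 715
noncomputable def n528 : Strat := .win 757 4 715
noncomputable def n529 : Strat := .move 756 n528 (.cons 757 n82 .nil)
noncomputable def n530 : Strat := .move 719 n322 (.cons 761 n529 .nil)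
noncomputable def n531 : Strat := .move 760 n527 (.cons 759 n530 .nil)
noncomputable def n532 : Strat := .move 715 n518 (.cons 760 n522 (.cons 759 n526 (.cons 714 n531 .nil)))
noncomputable def n533 : Strat := .move 718 n2 (.cons 677 n532 .nil)
noncomputable def n534 : Strat := .move 716 n0 (.cons 675 n533 .nil)
noncomputable def n535 : Strat := .move 717 n77 (.cons 716 n468 (.cons 676 n330 (.cons 800 n534 .nil)))
noncomputable def n536 : Strat := .win 839 1 675
noncomputable def n537 : Strat := .win 757 1 634
noncomputable def n538 : Strat := .move 635 n537 (.cons 757 n366 .nil)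
noncomputable def n539 : Strat := .move 798 n536 (.cons 839 n538 .nil)
noncomputable def n540 : Strat := .move 676 n10 (.cons 800 n539 .nil)
noncomputable def n541 : Strat := .move 841 n9 (.cons 882 n540 .nil)
noncomputable def n542 : Strat := .win 719 5 715
noncomputable def n543 : Strat := .move 756 n270 (.cons 755 n542 .nil)
noncomputable def n544 : Strat := .win 756 5 715
noncomputable def n545 : Strat := .move 719 n84 (.cons 720 n544 .nil)
noncomputable def n546 : Strat := .win 635 1 634
noncomputable def n547 : Strat := .move 676 n546 (.cons 635 n536 .nil)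
noncomputable def n548 : Strat := .move 760 n43 (.cons 797 n42 .nil)
noncomputable def n549 : Strat := .move 798 n547 (.cons 839 n548 .nil)
noncomputable def n550 : Strat := .move 719 n84 (.cons 720 n549 .nil)
noncomputable def n551 : Strat := .move 756 n270 (.cons 755 n549 .nil)
noncomputable def n552 : Strat := .move 757 n543 (.cons 755 n545 (.cons 756 n550 (.cons 719 n551 .nil)))
noncomputable def n553 : Strat := .move 759 n111 (.cons 881 n552 .nil)
noncomputable def n554 : Strat := .move 718 n2 (.cons 677 n553 .nil)
noncomputable def n555 : Strat := .win 593 7 593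
noncomputable def n556 : Strat := .win 675 7 634
noncomputable def n557 : Strat := .move 634 n555 (.cons 593 n556 .nil)
noncomputable def n558 : Strat := .move 635 n537 (.cons 757 n557 .nil)
noncomputable def n559 : Strat := .move 798 n536 (.cons 839 n558 .nil)
noncomputable def n560 : Strat := .move 676 n10 (.cons 800 n559 .nil)
noncomputable def n561 : Strat := .move 841 n9 (.cons 882 n560 .nil)
noncomputable def n562 : Strat := .move 717 n127 (.cons 718 n541 (.cons 841 n554 (.cons 676 n98 (.cons 677 n561 .nil))))
noncomputable def n563 : Strat := .win 717 7 675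
noncomputable def n564 : Strat := .move 675 n563 (.cons 717 n275 .nil)
noncomputable def n565 : Strat := .move 716 n269 (.cons 881 n564 .nil)
noncomputable def n566 : Strat := .move 675 n563 (.cons 717 n276 .nil)
noncomputable def n567 : Strat := .move 719 n85 (.cons 756 n84 .nil)
noncomputable def n568 : Strat := .move 718 n2 (.cons 677 n567 .nil)
noncomputable def n569 : Strat := .move 798 n546 (.cons 635 n536 .nil)
noncomputable def n570 : Strat := .move 841 n10 (.cons 800 n348 .nil)
noncomputable def n571 : Strat := .win 841 6 676
noncomputable def n572 : Strat := .win 759 6 635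
noncomputable def n573 : Strat := .move 635 n572 (.cons 759 n347 .nil)
noncomputable def n574 : Strat := .move 800 n571 (.cons 841 n573 .nil)
noncomputable def n575 : Strat := .win 756 2 756
noncomputable def n576 : Strat := .win 802 2 757
noncomputable def n577 : Strat := .move 801 n575 (.cons 756 n576 .nil)
noncomputable def n578 : Strat := .move 800 n571 (.cons 841 n577 .nil)
noncomputable def n579 : Strat := .move 798 n536 (.cons 839 n578 .nil)
noncomputable def n580 : Strat := .move 676 n569 (.cons 839 n570 (.cons 798 n574 (.cons 635 n579 .nil)))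
noncomputable def n581 : Strat := .move 635 n347 (.cons 594 n346 .nil)
noncomputable def n582 : Strat := .move 676 n569 (.cons 839 n581 (.cons 798 n67 .nil))
noncomputable def n583 : Strat := .move 717 n333 (.cons 755 n568 (.cons 718 n580 (.cons 756 n582 .nil)))
noncomputable def n584 : Strat := .move 716 n564 (.cons 717 n277 (.cons 634 n566 (.cons 675 n583 .nil)))
noncomputable def n585 : Strat := .move 716 n269 (.cons 881 n277 .nil)
noncomputable def n586 : Strat := .move 922 n16 (.cons 798 n30 .nil)
noncomputable def n587 : Strat := .move 759 n29 (.cons 718 n586 .nil)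
noncomputable def n588 : Strat := .move 881 n15 (.cons 716 n587 .nil)
noncomputable def n589 : Strat := .win 759 0 756
noncomputable def n590 : Strat := .move 756 n51 (.cons 755 n589 .nil)
noncomputable def n591 : Strat := .move 801 n576 (.cons 802 n590 .nil)
noncomputable def n592 : Strat := .win 798 2 756
noncomputable def n593 : Strat := .move 756 n51 (.cons 755 n592 .nil)
noncomputable def n594 : Strat := .move 801 n576 (.cons 802 n593 .nil)
noncomputable def n595 : Strat := .win 677 1 676
noncomputable def n596 : Strat := .move 718 n111 (.cons 881 n595 .nil)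
noncomputable def n597 : Strat := .win 841 1 677
noncomputable def n598 : Strat := .win 637 1 636
noncomputable def n599 : Strat := .move 678 n597 (.cons 841 n598 .nil)
noncomputable def n600 : Strat := .move 719 n57 (.cons 720 n599 .nil)
noncomputable def n601 : Strat := .move 760 n244 (.cons 761 n600 .nil)
noncomputable def n602 : Strat := .move 759 n596 (.cons 718 n601 .nil)
noncomputable def n603 : Strat := .move 801 n576 (.cons 802 n602 .nil)
noncomputable def n604 : Strat := .move 759 n50 (.cons 801 n596 .nil)
noncomputable def n605 : Strat := .move 756 n51 (.cons 755 n604 .nil)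
noncomputable def n606 : Strat := .move 759 n111 (.cons 881 n595 .nil)
noncomputable def n607 : Strat := .move 759 n595 (.cons 677 n542 .nil)
noncomputable def n608 : Strat := .move 798 n536 (.cons 839 n546 .nil)
noncomputable def n609 : Strat := .move 676 n571 (.cons 841 n608 .nil)
noncomputable def n610 : Strat := .move 717 n2 (.cons 677 n609 .nil)
noncomputable def n611 : Strat := .move 759 n111 (.cons 881 n542 .nil)
noncomputable def n612 : Strat := .move 718 n606 (.cons 881 n607 (.cons 759 n610 (.cons 677 n611 .nil)))
noncomputable def n613 : Strat := .move 756 n51 (.cons 755 n612 .nil)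
noncomputable def n614 : Strat := .move 800 n591 (.cons 759 n594 (.cons 756 n603 (.cons 802 n605 (.cons 801 n613 .nil))))
noncomputable def n615 : Strat := .move 757 n565 (.cons 881 n584 (.cons 717 n585 (.cons 675 n588 (.cons 716 n614 .nil))))
noncomputable def n616 : Strat := .move 963 n144 (.cons 841 n503 .nil)
noncomputable def n617 : Strat := .move 800 n143 (.cons 759 n616 .nil)
noncomputable def n618 : Strat := .move 922 n16 (.cons 798 n617 .nil)
noncomputable def n619 : Strat := .move 757 n15 (.cons 716 n618 .nil)
noncomputable def n620 : Strat := .win 717 6 717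
noncomputable def n621 : Strat := .move 800 n426 (.cons 759 n425 .nil)
noncomputable def n622 : Strat := .win 800 3 799
noncomputable def n623 : Strat := .move 963 n622 (.cons 800 n260 .nil)
noncomputable def n624 : Strat := .move 963 n260 (.cons 1004 n503 .nil)
noncomputable def n625 : Strat := .win 842 0 797
noncomputable def n626 : Strat := .win 796 0 796
noncomputable def n627 : Strat := .move 797 n625 (.cons 842 n626 .nil)
noncomputable def n628 : Strat := .move 798 n150 (.cons 757 n627 .nil)
noncomputable def n629 : Strat := .move 800 n426 (.cons 759 n628 .nil)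
noncomputable def n630 : Strat := .move 922 n621 (.cons 759 n623 (.cons 800 n624 (.cons 963 n629 .nil)))
noncomputable def n631 : Strat := .move 841 n620 (.cons 717 n630 .nil)
noncomputable def n632 : Strat := .move 882 n22 (.cons 923 n631 .nil)
noncomputable def n633 : Strat := .move 717 n25 (.cons 841 n129 .nil)
noncomputable def n634 : Strat := .move 882 n22 (.cons 923 n633 .nil)
noncomputable def n635 : Strat := .move 922 n18 (.cons 964 n617 .nil)
noncomputable def n636 : Strat := .move 923 n17 (.cons 882 n635 .nil)
noncomputable def n637 : Strat := .move 881 n21 (.cons 882 n619 (.cons 716 n632 (.cons 922 n634 (.cons 757 n636 .nil))))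
noncomputable def n638 : Strat := .move 758 n128 (.cons 720 n472 (.cons 717 n473 (.cons 757 n486 (.cons 759 n491 (.cons 841 n500 (.cons 800 n517 (.cons 881 n535 (.cons 716 n562 (.cons 882 n615 (.cons 718 n637 .nil))))))))))
noncomputable def n639 : Strat := .move 839 n68 (.cons 718 n12 (.cons 676 n489 .nil))
noncomputable def n640 : Strat := .move 759 n111 (.cons 881 n321 .nil)
noncomputable def n641 : Strat := .move 716 n0 (.cons 675 n640 .nil)
noncomputable def n642 : Strat := .move 718 n2 (.cons 677 n641 .nil)
noncomputable def n643 : Strat := .move 839 n7 (.cons 880 n642 .nil)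
noncomputable def n644 : Strat := .move 717 n69 (.cons 718 n13 (.cons 880 n639 (.cons 798 n643 (.cons 839 n485 .nil))))
noncomputable def n645 : Strat := .move 797 n511 (.cons 760 n196 .nil)
noncomputable def n646 : Strat := .move 760 n42 (.cons 761 n43 .nil)
noncomputable def n647 : Strat := .win 839 7 715
noncomputable def n648 : Strat := .win 714 2 714
noncomputable def n649 : Strat := .move 715 n647 (.cons 839 n648 .nil)
noncomputable def n650 : Strat := .move 798 n645 (.cons 796 n646 (.cons 760 n649 .nil))
noncomputable def n651 : Strat := .move 756 n192 (.cons 755 n650 .nil)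
noncomputable def n652 : Strat := .move 880 n23 (.cons 921 n651 .nil)
noncomputable def n653 : Strat := .move 759 n29 (.cons 718 n652 .nil)
noncomputable def n654 : Strat := .move 757 n15 (.cons 716 n653 .nil)
noncomputable def n655 : Strat := .move 881 n138 (.cons 757 n41 (.cons 759 n39 (.cons 922 n654 .nil)))
noncomputable def n656 : Strat := .move 717 n69 (.cons 718 n13 (.cons 676 n471 .nil))
noncomputable def n657 : Strat := .move 757 n86 (.cons 756 n348 .nil)
noncomputable def n658 : Strat := .move 676 n10 (.cons 800 n657 .nil)
noncomputable def n659 : Strat := .move 841 n9 (.cons 882 n658 .nil)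
noncomputable def n660 : Strat := .move 718 n2 (.cons 677 n659 .nil)
noncomputable def n661 : Strat := .move 716 n0 (.cons 675 n660 .nil)
noncomputable def n662 : Strat := .move 717 n69 (.cons 636 n104 (.cons 880 n661 (.cons 798 n399 (.cons 676 n94 .nil))))
noncomputable def n663 : Strat := .move 717 n69 (.cons 636 n72 (.cons 798 n485 .nil))
noncomputable def n664 : Strat := .move 756 n589 (.cons 759 n51 .nil)
noncomputable def n665 : Strat := .move 801 n576 (.cons 802 n664 .nil)
noncomputable def n666 : Strat := .move 800 n118 (.cons 676 n665 .nil)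
noncomputable def n667 : Strat := .move 841 n9 (.cons 882 n666 .nil)
noncomputable def n668 : Strat := .move 757 n269 (.cons 881 n667 .nil)
noncomputable def n669 : Strat := .move 716 n0 (.cons 675 n668 .nil)
noncomputable def n670 : Strat := .move 717 n13 (.cons 841 n345 (.cons 798 n669 (.cons 676 n363 .nil)))
noncomputable def n671 : Strat := .move 676 n608 (.cons 839 n581 (.cons 798 n11 .nil))
noncomputable def n672 : Strat := .move 757 n269 (.cons 881 n671 .nil)
noncomputable def n673 : Strat := .move 716 n0 (.cons 675 n672 .nil)
noncomputable def n674 : Strat := .move 717 n639 (.cons 716 n127 (.cons 881 n661 (.cons 841 n373 (.cons 718 n673 (.cons 757 n485 .nil)))))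
noncomputable def n675 : Strat := .move 717 n104 (.cons 716 n13 (.cons 798 n373 .nil))
noncomputable def n676 : Strat := .move 841 n9 (.cons 882 n394 .nil)
noncomputable def n677 : Strat := .win 798 4 797
noncomputable def n678 : Strat := .move 838 n677 (.cons 798 n357 .nil)
noncomputable def n679 : Strat := .move 801 n457 (.cons 802 n678 .nil)
noncomputable def n680 : Strat := .move 801 n474 (.cons 838 n457 .nil)
noncomputable def n681 : Strat := .move 841 n9 (.cons 882 n680 .nil)
noncomputable def n682 : Strat := .move 841 n119 (.cons 678 n9 .nil)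
noncomputable def n683 : Strat := .move 719 n122 (.cons 757 n682 .nil)
noncomputable def n684 : Strat := .move 800 n676 (.cons 841 n679 (.cons 837 n681 (.cons 801 n683 .nil)))
noncomputable def n685 : Strat := .move 839 n7 (.cons 880 n684 .nil)
noncomputable def n686 : Strat := .move 759 n111 (.cons 881 n685 .nil)
noncomputable def n687 : Strat := .move 718 n2 (.cons 677 n686 .nil)
noncomputable def n688 : Strat := .move 717 n13 (.cons 841 n381 (.cons 880 n127 (.cons 800 n69 (.cons 676 n687 .nil))))
noncomputable def n689 : Strat := .move 716 n0 (.cons 675 n469 .nil)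
noncomputable def n690 : Strat := .move 718 n2 (.cons 677 n689 .nil)
noncomputable def n691 : Strat := .win 715 2 715
noncomputable def n692 : Strat := .move 760 n112 (.cons 761 n691 .nil)
noncomputable def n693 : Strat := .win 760 2 715
noncomputable def n694 : Strat := .move 715 n79 (.cons 714 n693 .nil)
noncomputable def n695 : Strat := .win 715 0 714
noncomputable def n696 : Strat := .move 841 n118 (.cons 676 n9 .nil)
noncomputable def n697 : Strat := .move 800 n696 (.cons 882 n52 .nil)
noncomputable def n698 : Strat := .move 714 n695 (.cons 715 n697 .nil)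
noncomputable def n699 : Strat := .move 760 n112 (.cons 761 n697 .nil)
noncomputable def n700 : Strat := .move 759 n692 (.cons 761 n694 (.cons 760 n698 (.cons 715 n699 .nil)))
noncomputable def n701 : Strat := .move 757 n269 (.cons 881 n700 .nil)
noncomputable def n702 : Strat := .move 716 n0 (.cons 675 n701 .nil)
noncomputable def n703 : Strat := .move 800 n119 (.cons 678 n118 .nil)
noncomputable def n704 : Strat := .move 719 n296 (.cons 720 n703 .nil)
noncomputable def n705 : Strat := .move 841 n9 (.cons 882 n704 .nil)
noncomputable def n706 : Strat := .move 759 n390 (.cons 760 n705 .nil)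
noncomputable def n707 : Strat := .move 716 n0 (.cons 675 n706 .nil)
noncomputable def n708 : Strat := .move 718 n2 (.cons 677 n707 .nil)
noncomputable def n709 : Strat := .move 717 n485 (.cons 760 n690 (.cons 718 n702 (.cons 716 n127 (.cons 759 n335 (.cons 881 n708 .nil)))))
noncomputable def n710 : Strat := .move 797 n512 (.cons 796 n511 .nil)
noncomputable def n711 : Strat := .move 798 n510 (.cons 922 n710 .nil)
noncomputable def n712 : Strat := .move 757 n15 (.cons 716 n711 .nil)
noncomputable def n713 : Strat := .move 759 n29 (.cons 718 n712 .nil)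
noncomputable def n714 : Strat := .move 881 n713 (.cons 798 n131 (.cons 757 n109 .nil))
noncomputable def n715 : Strat := .move 758 n644 (.cons 717 n655 (.cons 756 n656 (.cons 881 n662 (.cons 757 n663 (.cons 718 n670 (.cons 880 n674 (.cons 759 n675 (.cons 716 n688 (.cons 839 n709 (.cons 800 n714 .nil))))))))))
noncomputable def n716 : Strat := .move 922 n455 (.cons 880 n235 (.cons 923 n240 .nil))
noncomputable def n717 : Strat := .win 800 3 718
noncomputable def n718 : Strat := .move 719 n57 (.cons 720 n717 .nil)
noncomputable def n719 : Strat := .move 760 n244 (.cons 761 n718 .nil)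
noncomputable def n720 : Strat := .move 757 n15 (.cons 716 n719 .nil)
noncomputable def n721 : Strat := .move 841 n620 (.cons 717 n720 .nil)
noncomputable def n722 : Strat := .move 759 n29 (.cons 718 n721 .nil)
noncomputable def n723 : Strat := .move 882 n22 (.cons 923 n722 .nil)
noncomputable def n724 : Strat := .win 717 1 716
noncomputable def n725 : Strat := .win 837 0 837
noncomputable def n726 : Strat := .win 883 2 838
noncomputable def n727 : Strat := .move 838 n725 (.cons 837 n726 .nil)
noncomputable def n728 : Strat := .move 882 n22 (.cons 923 n727 .nil)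
noncomputable def n729 : Strat := .move 839 n724 (.cons 717 n728 .nil)
noncomputable def n730 : Strat := .move 880 n23 (.cons 921 n729 .nil)
noncomputable def n731 : Strat := .win 798 7 715
noncomputable def n732 : Strat := .move 715 n648 (.cons 714 n731 .nil)
noncomputable def n733 : Strat := .move 756 n192 (.cons 755 n732 .nil)
noncomputable def n734 : Strat := .move 759 n29 (.cons 718 n733 .nil)
noncomputable def n735 : Strat := .move 757 n15 (.cons 716 n734 .nil)
noncomputable def n736 : Strat := .move 839 n724 (.cons 717 n735 .nil)
noncomputable def n737 : Strat := .move 880 n23 (.cons 921 n736 .nil)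
noncomputable def n738 : Strat := .move 758 n28 (.cons 880 n723 (.cons 717 n250 (.cons 841 n730 (.cons 882 n737 .nil))))
noncomputable def n739 : Strat := .move 716 n1 (.cons 757 n182 .nil)
noncomputable def n740 : Strat := .move 882 n22 (.cons 923 n26 .nil)
noncomputable def n741 : Strat := .move 880 n23 (.cons 921 n740 .nil)
noncomputable def n742 : Strat := .move 758 n739 (.cons 717 n39 (.cons 757 n741 (.cons 921 n243 .nil)))
noncomputable def n743 : Strat := .move 716 n1 (.cons 757 n215 .nil)
noncomputable def n744 : Strat := .move 963 n260 (.cons 1004 n622 .nil)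
noncomputable def n745 : Strat := .move 841 n620 (.cons 717 n744 .nil)
noncomputable def n746 : Strat := .move 922 n16 (.cons 798 n745 .nil)
noncomputable def n747 : Strat := .move 757 n15 (.cons 716 n746 .nil)
noncomputable def n748 : Strat := .move 882 n22 (.cons 923 n747 .nil)
noncomputable def n749 : Strat := .move 759 n29 (.cons 718 n646 .nil)
noncomputable def n750 : Strat := .move 798 n510 (.cons 922 n749 .nil)
noncomputable def n751 : Strat := .move 757 n15 (.cons 716 n750 .nil)
noncomputable def n752 : Strat := .move 882 n22 (.cons 923 n751 .nil)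
noncomputable def n753 : Strat := .move 758 n743 (.cons 716 n215 (.cons 882 n232 (.cons 922 n723 (.cons 759 n748 (.cons 800 n752 .nil)))))
noncomputable def n754 : Strat := .move 883 n169 (.cons 884 n168 .nil)
noncomputable def n755 : Strat := .move 882 n258 (.cons 758 n754 .nil)
noncomputable def n756 : Strat := .move 923 n18 (.cons 964 n755 .nil)
noncomputable def n757 : Strat := .move 921 n36 (.cons 962 n756 .nil)
noncomputable def n758 : Strat := .move 879 n432 (.cons 877 n414 (.cons 878 n429 (.cons 923 n434 .nil)))
noncomputable def n759 : Strat := .move 880 n411 (.cons 758 n758 .nil)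
noncomputable def n760 : Strat := .move 921 n36 (.cons 962 n759 .nil)
noncomputable def n761 : Strat := .move 922 n757 (.cons 964 n760 (.cons 921 n235 (.cons 923 n149 .nil)))
noncomputable def n762 : Strat := .move 922 n220 (.cons 798 n225 (.cons 921 n240 .nil))
noncomputable def n763 : Strat := .move 922 n455 (.cons 921 n237 (.cons 923 n225 (.cons 758 n464 .nil)))
noncomputable def n764 : Strat := .move 922 n149 (.cons 759 n156 (.cons 963 n178 .nil))
noncomputable def n765 : Strat := .move 716 n1 (.cons 757 n28 .nil)
noncomputable def n766 : Strat := .win 922 6 757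
noncomputable def n767 : Strat := .win 715 7 715
noncomputable def n768 : Strat := .win 754 0 754
noncomputable def n769 : Strat := .move 755 n768 (.cons 754 n199 .nil)
noncomputable def n770 : Strat := .move 756 n767 (.cons 715 n769 .nil)
noncomputable def n771 : Strat := .move 798 n766 (.cons 922 n770 .nil)
noncomputable def n772 : Strat := .move 757 n15 (.cons 716 n771 .nil)
noncomputable def n773 : Strat := .move 839 n724 (.cons 717 n772 .nil)
noncomputable def n774 : Strat := .move 880 n23 (.cons 921 n773 .nil)
noncomputable def n775 : Strat := .move 839 n724 (.cons 717 n727 .nil)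
noncomputable def n776 : Strat := .move 880 n23 (.cons 921 n775 .nil)
noncomputable def n777 : Strat := .move 882 n22 (.cons 923 n776 .nil)
noncomputable def n778 : Strat := .move 758 n765 (.cons 880 n748 (.cons 717 n21 (.cons 882 n774 (.cons 757 n777 .nil))))
noncomputable def n779 : Strat := .move 881 n716 (.cons 922 n738 (.cons 800 n742 (.cons 880 n753 (.cons 757 n761 (.cons 882 n762 (.cons 841 n763 (.cons 758 n764 (.cons 759 n778 .nil))))))))
noncomputable def n780 : Strat := .move 717 n25 (.cons 841 n99 .nil)
noncomputable def n781 : Strat := .move 881 n22 (.cons 923 n780 .nil)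
noncomputable def n782 : Strat := .win 800 1 758
noncomputable def n783 : Strat := .move 921 n36 (.cons 962 n35 .nil)
noncomputable def n784 : Strat := .move 922 n782 (.cons 800 n783 .nil)
noncomputable def n785 : Strat := .move 759 n29 (.cons 718 n784 .nil)
noncomputable def n786 : Strat := .win 878 5 837
noncomputable def n787 : Strat := .move 879 n786 (.cons 878 n424 .nil)
noncomputable def n788 : Strat := .move 880 n23 (.cons 921 n787 .nil)
noncomputable def n789 : Strat := .move 757 n16 (.cons 798 n15 .nil)
noncomputable def n790 : Strat := .move 922 n782 (.cons 800 n789 .nil)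
noncomputable def n791 : Strat := .move 759 n29 (.cons 718 n790 .nil)
noncomputable def n792 : Strat := .move 881 n785 (.cons 759 n788 (.cons 880 n791 .nil))
noncomputable def n793 : Strat := .move 841 n620 (.cons 717 n792 .nil)
noncomputable def n794 : Strat := .move 841 n785 (.cons 759 n788 (.cons 880 n791 .nil))
noncomputable def n795 : Strat := .move 881 n22 (.cons 923 n794 .nil)
noncomputable def n796 : Strat := .move 881 n22 (.cons 923 n129 .nil)
noncomputable def n797 : Strat := .move 717 n25 (.cons 841 n796 .nil)
noncomputable def n798 : Strat := .move 717 n25 (.cons 841 n69 .nil)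
noncomputable def n799 : Strat := .move 881 n22 (.cons 923 n776 .nil)
noncomputable def n800 : Strat := .move 882 n781 (.cons 923 n793 (.cons 717 n795 (.cons 921 n797 (.cons 881 n798 (.cons 841 n799 .nil)))))
noncomputable def n801 : Strat := .move 882 n25 (.cons 841 n69 .nil)
noncomputable def n802 : Strat := .move 717 n801 (.cons 841 n69 (.cons 718 n13 (.cons 880 n77 (.cons 676 n94 .nil))))
noncomputable def n803 : Strat := .move 759 n111 (.cons 881 n290 .nil)
noncomputable def n804 : Strat := .move 718 n2 (.cons 677 n803 .nil)
noncomputable def n805 : Strat := .move 675 n74 (.cons 634 n73 .nil)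
noncomputable def n806 : Strat := .move 676 n10 (.cons 800 n805 .nil)
noncomputable def n807 : Strat := .move 841 n9 (.cons 882 n806 .nil)
noncomputable def n808 : Strat := .move 759 n111 (.cons 881 n807 .nil)
noncomputable def n809 : Strat := .move 718 n2 (.cons 677 n808 .nil)
noncomputable def n810 : Strat := .move 717 n804 (.cons 800 n101 (.cons 718 n13 (.cons 880 n809 .nil)))
noncomputable def n811 : Strat := .move 881 n215 (.cons 964 n217 (.cons 759 n634 .nil))
noncomputable def n812 : Strat := .move 881 n502 (.cons 677 n28 (.cons 882 n41 .nil))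
noncomputable def n813 : Strat := .move 881 n777 (.cons 880 n33 .nil)
noncomputable def n814 : Strat := .move 676 n571 (.cons 841 n67 .nil)
noncomputable def n815 : Strat := .move 676 n571 (.cons 841 n313 .nil)
noncomputable def n816 : Strat := .move 800 n814 (.cons 677 n815 (.cons 841 n480 .nil))
noncomputable def n817 : Strat := .move 717 n816 (.cons 839 n690 (.cons 881 n69 (.cons 677 n345 .nil)))
noncomputable def n818 : Strat := .move 881 n713 (.cons 757 n133 .nil)
noncomputable def n819 : Strat := .move 882 n22 (.cons 923 n794 .nil)
noncomputable def n820 : Strat := .move 798 n548 (.cons 761 n645 (.cons 797 n649 .nil))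
noncomputable def n821 : Strat := .move 756 n192 (.cons 755 n820 .nil)
noncomputable def n822 : Strat := .move 880 n23 (.cons 921 n821 .nil)
noncomputable def n823 : Strat := .move 757 n15 (.cons 716 n822 .nil)
noncomputable def n824 : Strat := .move 759 n29 (.cons 718 n823 .nil)
noncomputable def n825 : Strat := .move 881 n819 (.cons 759 n21 (.cons 757 n41 (.cons 922 n824 .nil)))
noncomputable def n826 : Strat := .move 758 n800 (.cons 881 n802 (.cons 759 n107 (.cons 757 n810 (.cons 839 n811 (.cons 798 n812 (.cons 841 n813 (.cons 882 n817 (.cons 800 n818 (.cons 717 n825 .nil)))))))))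
noncomputable def n827 : Strat := .move 717 n117 (.cons 715 n98 (.cons 718 n77 .nil))
noncomputable def n828 : Strat := .move 716 n0 (.cons 675 n72 .nil)
noncomputable def n829 : Strat := .move 800 n357 (.cons 837 n356 .nil)
noncomputable def n830 : Strat := .win 800 5 796
noncomputable def n831 : Strat := .win 795 2 795
noncomputable def n832 : Strat := .win 797 2 796
noncomputable def n833 : Strat := .move 796 n831 (.cons 795 n832 .nil)
noncomputable def n834 : Strat := .move 837 n830 (.cons 800 n833 .nil)
noncomputable def n835 : Strat := .win 877 4 836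
noncomputable def n836 : Strat := .win 879 4 837
noncomputable def n837 : Strat := .move 878 n835 (.cons 877 n836 .nil)
noncomputable def n838 : Strat := .move 837 n831 (.cons 795 n837 .nil)
noncomputable def n839 : Strat := .move 796 n832 (.cons 797 n838 .nil)
noncomputable def n840 : Strat := .win 800 5 797
noncomputable def n841 : Strat := .win 796 2 796
noncomputable def n842 : Strat := .win 802 5 798
noncomputable def n843 : Strat := .win 798 2 797
noncomputable def n844 : Strat := .move 842 n842 (.cons 802 n843 .nil)
noncomputable def n845 : Strat := .move 797 n841 (.cons 796 n844 .nil)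
noncomputable def n846 : Strat := .move 801 n840 (.cons 800 n845 .nil)
noncomputable def n847 : Strat := .move 838 n829 (.cons 801 n834 (.cons 800 n839 (.cons 837 n846 .nil)))
noncomputable def n848 : Strat := .move 841 n9 (.cons 882 n847 .nil)
noncomputable def n849 : Strat := .move 839 n7 (.cons 880 n848 .nil)
noncomputable def n850 : Strat := .move 717 n828 (.cons 839 n77 (.cons 841 n104 (.cons 675 n72 (.cons 676 n849 .nil))))
noncomputable def n851 : Strat := .move 717 n101 (.cons 759 n104 (.cons 880 n485 .nil))
noncomputable def n852 : Strat := .move 881 n28 (.cons 717 n41 (.cons 880 n215 .nil))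
noncomputable def n853 : Strat := .move 922 n36 (.cons 962 n19 .nil)
noncomputable def n854 : Strat := .move 921 n35 (.cons 880 n853 .nil)
noncomputable def n855 : Strat := .win 838 2 838
noncomputable def n856 : Strat := .win 884 2 839
noncomputable def n857 : Strat := .move 839 n855 (.cons 838 n856 .nil)
noncomputable def n858 : Strat := .move 879 n424 (.cons 842 n786 .nil)
noncomputable def n859 : Strat := .win 800 6 759
noncomputable def n860 : Strat := .move 924 n859 (.cons 800 n421 .nil)
noncomputable def n861 : Strat := .move 841 n858 (.cons 878 n860 .nil)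
noncomputable def n862 : Strat := .move 883 n857 (.cons 884 n861 .nil)
noncomputable def n863 : Strat := .move 759 n29 (.cons 718 n862 .nil)
noncomputable def n864 : Strat := .move 880 n23 (.cons 921 n863 .nil)
noncomputable def n865 : Strat := .move 882 n22 (.cons 923 n864 .nil)
noncomputable def n866 : Strat := .move 881 n41 (.cons 880 n215 (.cons 800 n854 (.cons 922 n865 .nil)))
noncomputable def n867 : Strat := .move 758 n102 (.cons 839 n827 (.cons 759 n850 (.cons 841 n851 (.cons 676 n852 (.cons 717 n866 .nil)))))
noncomputable def n868 : Strat := .move 758 n33 (.cons 800 n39 (.cons 757 n109 .nil))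
noncomputable def n869 : Strat := .move 921 n36 (.cons 962 n255 .nil)
noncomputable def n870 : Strat := .move 923 n18 (.cons 964 n869 .nil)
noncomputable def n871 : Strat := .move 758 n17 (.cons 882 n31 .nil)
noncomputable def n872 : Strat := .move 923 n18 (.cons 964 n871 .nil)
noncomputable def n873 : Strat := .move 882 n166 (.cons 919 n165 .nil)
noncomputable def n874 : Strat := .win 879 2 878
noncomputable def n875 : Strat := .win 877 2 877
noncomputable def n876 : Strat := .win 959 4 918
noncomputable def n877 : Strat := .win 961 4 919
noncomputable def n878 : Strat := .move 960 n876 (.cons 959 n877 .nil)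
noncomputable def n879 : Strat := .move 919 n875 (.cons 877 n878 .nil)
noncomputable def n880 : Strat := .move 878 n874 (.cons 879 n879 .nil)
noncomputable def n881 : Strat := .win 882 5 879
noncomputable def n882 : Strat := .win 884 5 880
noncomputable def n883 : Strat := .win 880 2 879
noncomputable def n884 : Strat := .win 878 2 878
noncomputable def n885 : Strat := .move 879 n883 (.cons 880 n884 .nil)
noncomputable def n886 : Strat := .move 924 n882 (.cons 884 n885 .nil)
noncomputable def n887 : Strat := .move 883 n881 (.cons 882 n886 .nil)
noncomputable def n888 : Strat := .move 920 n873 (.cons 882 n880 (.cons 919 n887 .nil))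
noncomputable def n889 : Strat := .move 923 n18 (.cons 964 n888 .nil)
noncomputable def n890 : Strat := .move 921 n36 (.cons 962 n889 .nil)
noncomputable def n891 : Strat := .move 922 n870 (.cons 882 n225 (.cons 921 n872 (.cons 758 n890 .nil)))
noncomputable def n892 : Strat := .move 758 n217 (.cons 800 n21 (.cons 757 n215 (.cons 922 n499 .nil)))
noncomputable def n893 : Strat := .move 922 n257 (.cons 962 n237 (.cons 758 n220 .nil))
noncomputable def n894 : Strat := .move 921 n36 (.cons 962 n462 .nil)
noncomputable def n895 : Strat := .move 923 n18 (.cons 964 n894 .nil)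
noncomputable def n896 : Strat := .move 922 n895 (.cons 798 n890 (.cons 921 n156 (.cons 923 n220 .nil)))
noncomputable def n897 : Strat := .move 838 n726 (.cons 883 n725 .nil)
noncomputable def n898 : Strat := .move 882 n22 (.cons 923 n897 .nil)
noncomputable def n899 : Strat := .move 839 n724 (.cons 717 n898 .nil)
noncomputable def n900 : Strat := .move 880 n23 (.cons 921 n899 .nil)
noncomputable def n901 : Strat := .move 757 n15 (.cons 716 n900 .nil)
noncomputable def n902 : Strat := .move 759 n29 (.cons 718 n901 .nil)
noncomputable def n903 : Strat := .move 758 n902 (.cons 880 n499 (.cons 757 n182 (.cons 759 n191 .nil)))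
noncomputable def n904 : Strat := .move 881 n868 (.cons 798 n891 (.cons 880 n892 (.cons 759 n893 (.cons 758 n896 (.cons 922 n903 .nil)))))
noncomputable def n905 : Strat := .move 716 n0 (.cons 675 n269 .nil)
noncomputable def n906 : Strat := .move 881 n15 (.cons 716 n4 .nil)
noncomputable def n907 : Strat := .move 759 n111 (.cons 881 n543 .nil)
noncomputable def n908 : Strat := .move 718 n2 (.cons 677 n907 .nil)
noncomputable def n909 : Strat := .move 756 n270 (.cons 755 n81 .nil)
noncomputable def n910 : Strat := .move 718 n2 (.cons 677 n909 .nil)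
noncomputable def n911 : Strat := .move 716 n0 (.cons 675 n910 .nil)
noncomputable def n912 : Strat := .move 717 n905 (.cons 675 n906 (.cons 716 n908 (.cons 881 n911 .nil)))
noncomputable def n913 : Strat := .move 841 n10 (.cons 800 n9 .nil)
noncomputable def n914 : Strat := .move 676 n913 (.cons 882 n581 .nil)
noncomputable def n915 : Strat := .move 719 n84 (.cons 720 n914 .nil)
noncomputable def n916 : Strat := .move 718 n2 (.cons 677 n915 .nil)
noncomputable def n917 : Strat := .move 716 n0 (.cons 675 n916 .nil)
noncomputable def n918 : Strat := .move 718 n270 (.cons 755 n81 .nil)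
noncomputable def n919 : Strat := .win 718 5 714
noncomputable def n920 : Strat := .move 755 n199 (.cons 800 n919 .nil)
noncomputable def n921 : Strat := .move 715 n693 (.cons 760 n79 .nil)
noncomputable def n922 : Strat := .move 800 n50 (.cons 801 n696 .nil)
noncomputable def n923 : Strat := .move 759 n921 (.cons 714 n692 (.cons 760 n922 .nil))
noncomputable def n924 : Strat := .move 756 n918 (.cons 719 n920 (.cons 755 n923 .nil))
noncomputable def n925 : Strat := .move 716 n0 (.cons 675 n924 .nil)
noncomputable def n926 : Strat := .move 759 n542 (.cons 719 n922 .nil)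
noncomputable def n927 : Strat := .move 756 n270 (.cons 755 n926 .nil)
noncomputable def n928 : Strat := .move 718 n2 (.cons 677 n927 .nil)
noncomputable def n929 : Strat := .move 676 n10 (.cons 800 n581 .nil)
noncomputable def n930 : Strat := .move 841 n9 (.cons 882 n929 .nil)
noncomputable def n931 : Strat := .move 716 n0 (.cons 675 n930 .nil)
noncomputable def n932 : Strat := .move 717 n911 (.cons 756 n917 (.cons 677 n925 (.cons 716 n928 (.cons 718 n931 .nil))))
noncomputable def n933 : Strat := .move 801 n592 (.cons 798 n576 .nil)
noncomputable def n934 : Strat := .move 800 n118 (.cons 676 n933 .nil)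
noncomputable def n935 : Strat := .move 841 n9 (.cons 882 n934 .nil)
noncomputable def n936 : Strat := .move 756 n270 (.cons 755 n935 .nil)
noncomputable def n937 : Strat := .move 718 n2 (.cons 677 n936 .nil)
noncomputable def n938 : Strat := .move 759 n111 (.cons 881 n545 .nil)
noncomputable def n939 : Strat := .move 718 n2 (.cons 677 n938 .nil)
noncomputable def n940 : Strat := .move 717 n908 (.cons 718 n667 (.cons 759 n937 (.cons 755 n939 (.cons 756 n98 .nil))))
noncomputable def n941 : Strat := .move 757 n912 (.cons 881 n932 (.cons 716 n940 (.cons 717 n585 .nil)))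
noncomputable def n942 : Strat := .move 881 n21 (.cons 757 n502 (.cons 882 n39 .nil))
noncomputable def n943 : Strat := .move 882 n22 (.cons 923 n138 .nil)
noncomputable def n944 : Strat := .move 756 n492 (.cons 801 n203 (.cons 800 n494 (.cons 755 n496 .nil)))
noncomputable def n945 : Strat := .move 759 n29 (.cons 718 n944 .nil)
noncomputable def n946 : Strat := .move 757 n15 (.cons 716 n945 .nil)
noncomputable def n947 : Strat := .move 881 n943 (.cons 757 n41 (.cons 759 n39 (.cons 922 n946 .nil)))
noncomputable def n948 : Strat := .move 923 n18 (.cons 964 n17 .nil)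
noncomputable def n949 : Strat := .move 922 n783 (.cons 880 n948 .nil)
noncomputable def n950 : Strat := .move 676 n66 (.cons 636 n949 .nil)
noncomputable def n951 : Strat := .move 677 n65 (.cons 718 n950 .nil)
noncomputable def n952 : Strat := .move 881 n1 (.cons 757 n951 .nil)
noncomputable def n953 : Strat := .move 716 n0 (.cons 675 n952 .nil)
noncomputable def n954 : Strat := .move 717 n106 (.cons 757 n77 (.cons 716 n468 (.cons 841 n953 (.cons 882 n335 .nil))))
noncomputable def n955 : Strat := .move 841 n620 (.cons 717 n788 .nil)
noncomputable def n956 : Strat := .move 882 n22 (.cons 923 n955 .nil)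
noncomputable def n957 : Strat := .move 881 n21 (.cons 964 n39 (.cons 922 n634 (.cons 757 n956 .nil)))
noncomputable def n958 : Strat := .move 760 n54 (.cons 802 n244 .nil)
noncomputable def n959 : Strat := .move 801 n193 (.cons 800 n958 .nil)
noncomputable def n960 : Strat := .move 756 n492 (.cons 800 n494 (.cons 755 n959 .nil))
noncomputable def n961 : Strat := .move 757 n15 (.cons 716 n960 .nil)
noncomputable def n962 : Strat := .move 759 n29 (.cons 718 n961 .nil)
noncomputable def n963 : Strat := .move 881 n217 (.cons 716 n41 (.cons 800 n39 (.cons 922 n962 .nil)))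
noncomputable def n964 : Strat := .move 880 n23 (.cons 921 n858 .nil)
noncomputable def n965 : Strat := .move 841 n620 (.cons 717 n964 .nil)
noncomputable def n966 : Strat := .move 759 n29 (.cons 718 n965 .nil)
noncomputable def n967 : Strat := .move 882 n22 (.cons 923 n966 .nil)
noncomputable def n968 : Strat := .move 881 n215 (.cons 882 n41 (.cons 922 n967 (.cons 718 n956 .nil)))
noncomputable def n969 : Strat := .move 759 n120 (.cons 721 n113 .nil)
noncomputable def n970 : Strat := .win 680 5 676
noncomputable def n971 : Strat := .win 678 5 675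
noncomputable def n972 : Strat := .move 679 n970 (.cons 680 n971 .nil)
noncomputable def n973 : Strat := .move 720 n969 (.cons 715 n972 .nil)
noncomputable def n974 : Strat := .move 760 n322 (.cons 761 n973 .nil)
noncomputable def n975 : Strat := .move 715 n82 (.cons 755 n80 .nil)
noncomputable def n976 : Strat := .move 756 n528 (.cons 757 n975 .nil)
noncomputable def n977 : Strat := .move 719 n296 (.cons 756 n320 (.cons 757 n974 (.cons 720 n976 .nil)))
noncomputable def n978 : Strat := .move 718 n2 (.cons 677 n977 .nil)
noncomputable def n979 : Strat := .move 716 n0 (.cons 675 n978 .nil)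
noncomputable def n980 : Strat := .move 717 n304 (.cons 718 n77 (.cons 716 n468 (.cons 676 n979 .nil)))
noncomputable def n981 : Strat := .move 758 n941 (.cons 757 n827 (.cons 800 n942 (.cons 923 n709 (.cons 841 n947 (.cons 759 n954 (.cons 718 n957 (.cons 882 n963 (.cons 716 n968 (.cons 881 n980 .nil)))))))))
noncomputable def n982 : Strat := .move 881 n39 (.cons 757 n109 (.cons 880 n21 .nil))
noncomputable def n983 : Strat := .win 842 2 797
noncomputable def n984 : Strat := .move 797 n983 (.cons 842 n626 .nil)
noncomputable def n985 : Strat := .move 841 n9 (.cons 882 n984 .nil)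
noncomputable def n986 : Strat := .move 798 n305 (.cons 676 n985 .nil)
noncomputable def n987 : Strat := .move 839 n7 (.cons 880 n986 .nil)
noncomputable def n988 : Strat := .move 718 n2 (.cons 677 n987 .nil)
noncomputable def n989 : Strat := .move 716 n0 (.cons 675 n988 .nil)
noncomputable def n990 : Strat := .move 717 n989 (.cons 716 n69 (.cons 718 n104 (.cons 880 n534 .nil)))
noncomputable def n991 : Strat := .move 881 n133 (.cons 923 n109 (.cons 717 n854 (.cons 880 n502 .nil)))
noncomputable def n992 : Strat := .move 841 n424 (.cons 842 n786 .nil)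
noncomputable def n993 : Strat := .move 883 n856 (.cons 884 n855 .nil)
noncomputable def n994 : Strat := .win 798 1 756
noncomputable def n995 : Strat := .move 920 n994 (.cons 798 n418 .nil)
noncomputable def n996 : Strat := .move 839 n897 (.cons 837 n993 (.cons 883 n995 .nil))
noncomputable def n997 : Strat := .move 879 n992 (.cons 878 n996 .nil)
noncomputable def n998 : Strat := .move 757 n15 (.cons 716 n997 .nil)
noncomputable def n999 : Strat := .move 882 n22 (.cons 923 n998 .nil)
noncomputable def n1000 : Strat := .move 880 n23 (.cons 921 n999 .nil)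
noncomputable def n1001 : Strat := .move 881 n39 (.cons 757 n854 (.cons 880 n21 (.cons 922 n1000 .nil)))
noncomputable def n1002 : Strat := .move 758 n134 (.cons 839 n942 (.cons 880 n517 (.cons 841 n982 (.cons 923 n714 (.cons 881 n990 (.cons 757 n991 (.cons 717 n1001 .nil)))))))
noncomputable def n1003 : Strat := .move 800 n571 (.cons 841 n665 .nil)
noncomputable def n1004 : Strat := .move 676 n8 (.cons 798 n1003 .nil)
noncomputable def n1005 : Strat := .move 839 n7 (.cons 880 n1004 .nil)
noncomputable def n1006 : Strat := .move 757 n908 (.cons 718 n1005 (.cons 759 n13 .nil))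
noncomputable def n1007 : Strat := .move 717 n6 (.cons 716 n1006 (.cons 718 n13 .nil))
noncomputable def n1008 : Strat := .move 881 n215 (.cons 964 n217 (.cons 759 n21 (.cons 922 n634 .nil)))
noncomputable def n1009 : Strat := .move 881 n28 (.cons 882 n41 (.cons 880 n215 .nil))
noncomputable def n1010 : Strat := .move 677 n66 (.cons 636 n65 .nil)
noncomputable def n1011 : Strat := .move 676 n8 (.cons 798 n1010 .nil)
noncomputable def n1012 : Strat := .move 757 n269 (.cons 881 n1011 .nil)
noncomputable def n1013 : Strat := .move 839 n7 (.cons 880 n1012 .nil)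
noncomputable def n1014 : Strat := .move 717 n0 (.cons 675 n1013 .nil)
noncomputable def n1015 : Strat := .move 757 n269 (.cons 881 n564 .nil)
noncomputable def n1016 : Strat := .move 717 n0 (.cons 675 n69 .nil)
noncomputable def n1017 : Strat := .move 881 n1 (.cons 757 n28 .nil)
noncomputable def n1018 : Strat := .move 716 n1014 (.cons 677 n1015 (.cons 717 n278 (.cons 881 n1016 (.cons 675 n1017 .nil))))
noncomputable def n1019 : Strat := .move 881 n39 (.cons 962 n138 (.cons 757 n109 .nil))
noncomputable def n1020 : Strat := .move 881 n28 (.cons 841 n39 (.cons 880 n21 .nil))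
noncomputable def n1021 : Strat := .move 882 n22 (.cons 923 n997 .nil)
noncomputable def n1022 : Strat := .move 880 n23 (.cons 921 n1021 .nil)
noncomputable def n1023 : Strat := .move 757 n15 (.cons 716 n1022 .nil)
noncomputable def n1024 : Strat := .move 881 n21 (.cons 757 n41 (.cons 922 n1023 .nil))
noncomputable def n1025 : Strat := .win 798 3 757
noncomputable def n1026 : Strat := .win 962 3 798
noncomputable def n1027 : Strat := .move 921 n1025 (.cons 798 n1026 .nil)
noncomputable def n1028 : Strat := .move 880 n724 (.cons 717 n1027 .nil)
noncomputable def n1029 : Strat := .move 718 n2 (.cons 677 n91 .nil)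
noncomputable def n1030 : Strat := .move 716 n0 (.cons 675 n1029 .nil)
noncomputable def n1031 : Strat := .move 717 n68 (.cons 798 n477 (.cons 676 n1030 .nil))
noncomputable def n1032 : Strat := .move 717 n7 (.cons 880 n477 .nil)
noncomputable def n1033 : Strat := .move 801 n457 (.cons 802 n677 .nil)
noncomputable def n1034 : Strat := .move 800 n357 (.cons 837 n1033 .nil)
noncomputable def n1035 : Strat := .win 883 0 838
noncomputable def n1036 : Strat := .win 923 7 758
noncomputable def n1037 : Strat := .move 882 n1035 (.cons 883 n1036 .nil)
noncomputable def n1038 : Strat := .win 842 4 838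
noncomputable def n1039 : Strat := .move 921 n1026 (.cons 962 n1025 .nil)
noncomputable def n1040 : Strat := .move 880 n1038 (.cons 842 n1039 .nil)
noncomputable def n1041 : Strat := .move 879 n353 (.cons 878 n1040 .nil)
noncomputable def n1042 : Strat := .move 841 n1037 (.cons 923 n1041 .nil)
noncomputable def n1043 : Strat := .move 800 n357 (.cons 837 n1042 .nil)
noncomputable def n1044 : Strat := .win 841 5 797
noncomputable def n1045 : Strat := .move 801 n457 (.cons 802 n1044 .nil)
noncomputable def n1046 : Strat := .move 800 n1033 (.cons 801 n1042 (.cons 798 n1045 .nil))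
noncomputable def n1047 : Strat := .move 800 n357 (.cons 837 n1045 .nil)
noncomputable def n1048 : Strat := .win 798 5 795
noncomputable def n1049 : Strat := .win 878 4 836
noncomputable def n1050 : Strat := .win 876 4 835
noncomputable def n1051 : Strat := .move 877 n1049 (.cons 878 n1050 .nil)
noncomputable def n1052 : Strat := .move 836 n1048 (.cons 798 n1051 .nil)
noncomputable def n1053 : Strat := .win 836 5 795
noncomputable def n1054 : Strat := .win 921 3 757
noncomputable def n1055 : Strat := .win 920 1 756
noncomputable def n1056 : Strat := .win 716 1 715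
noncomputable def n1057 : Strat := .move 757 n1055 (.cons 920 n1056 .nil)
noncomputable def n1058 : Strat := .win 757 1 756
noncomputable def n1059 : Strat := .win 961 3 797
noncomputable def n1060 : Strat := .move 920 n1058 (.cons 757 n1059 .nil)
noncomputable def n1061 : Strat := .move 841 n1038 (.cons 842 n353 .nil)
noncomputable def n1062 : Strat := .move 879 n1057 (.cons 716 n1060 (.cons 920 n1061 .nil))
noncomputable def n1063 : Strat := .move 880 n1054 (.cons 921 n1062 .nil)
noncomputable def n1064 : Strat := .move 798 n1053 (.cons 836 n1063 .nil)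
noncomputable def n1065 : Strat := .win 841 4 837
noncomputable def n1066 : Strat := .win 920 6 755
noncomputable def n1067 : Strat := .win 714 6 714
noncomputable def n1068 : Strat := .move 755 n1066 (.cons 920 n1067 .nil)
noncomputable def n1069 : Strat := .move 879 n1065 (.cons 841 n1068 .nil)
noncomputable def n1070 : Strat := .move 796 n831 (.cons 795 n1069 .nil)
noncomputable def n1071 : Strat := .move 878 n835 (.cons 877 n1070 .nil)
noncomputable def n1072 : Strat := .win 796 2 795
noncomputable def n1073 : Strat := .win 794 2 794
noncomputable def n1074 : Strat := .move 795 n1072 (.cons 796 n1073 .nil)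
noncomputable def n1075 : Strat := .move 836 n1048 (.cons 798 n1074 .nil)
noncomputable def n1076 : Strat := .move 837 n1052 (.cons 877 n1064 (.cons 836 n1071 (.cons 878 n1075 .nil)))
noncomputable def n1077 : Strat := .move 838 n1034 (.cons 801 n1043 (.cons 837 n1046 (.cons 798 n1047 (.cons 800 n1076 .nil))))
noncomputable def n1078 : Strat := .move 839 n1028 (.cons 880 n1031 (.cons 798 n1032 (.cons 717 n1077 .nil)))
noncomputable def n1079 : Strat := .move 758 n1007 (.cons 839 n1008 (.cons 716 n1009 (.cons 759 n1018 (.cons 841 n1019 (.cons 718 n1020 (.cons 717 n1024 (.cons 881 n1078 .nil)))))))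
noncomputable def n1080 : Strat := .move 717 n373 (.cons 719 n69 (.cons 718 n104 .nil))
noncomputable def n1081 : Strat := .move 801 n53 (.cons 756 n576 .nil)
noncomputable def n1082 : Strat := .move 676 n280 (.cons 635 n571 .nil)
noncomputable def n1083 : Strat := .move 800 n52 (.cons 755 n1081 (.cons 801 n1082 .nil))
noncomputable def n1084 : Strat := .move 714 n695 (.cons 715 n1083 .nil)
noncomputable def n1085 : Strat := .move 800 n52 (.cons 755 n55 (.cons 801 n1082 .nil))
noncomputable def n1086 : Strat := .move 760 n112 (.cons 761 n1085 .nil)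
noncomputable def n1087 : Strat := .move 759 n692 (.cons 761 n694 (.cons 760 n1084 (.cons 715 n1086 .nil)))
noncomputable def n1088 : Strat := .move 757 n269 (.cons 881 n1087 .nil)
noncomputable def n1089 : Strat := .move 716 n0 (.cons 675 n1088 .nil)
noncomputable def n1090 : Strat := .move 635 n572 (.cons 759 n366 .nil)
noncomputable def n1091 : Strat := .move 800 n571 (.cons 841 n1090 .nil)
noncomputable def n1092 : Strat := .move 676 n8 (.cons 798 n1091 .nil)
noncomputable def n1093 : Strat := .move 839 n7 (.cons 880 n1092 .nil)
noncomputable def n1094 : Strat := .move 881 n1 (.cons 757 n99 .nil)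
noncomputable def n1095 : Strat := .move 716 n0 (.cons 675 n1094 .nil)
noncomputable def n1096 : Strat := .move 717 n104 (.cons 839 n1089 (.cons 716 n1093 (.cons 676 n1095 .nil)))
noncomputable def n1097 : Strat := .move 717 n471 (.cons 757 n69 (.cons 718 n104 .nil))
noncomputable def n1098 : Strat := .move 717 n0 (.cons 675 n505 .nil)
noncomputable def n1099 : Strat := .move 716 n1 (.cons 757 n1098 .nil)
noncomputable def n1100 : Strat := .move 922 n30 (.cons 800 n1099 .nil)
noncomputable def n1101 : Strat := .move 759 n29 (.cons 718 n1100 .nil)
noncomputable def n1102 : Strat := .move 757 n15 (.cons 716 n1081 .nil)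
noncomputable def n1103 : Strat := .move 800 n281 (.cons 922 n1102 .nil)
noncomputable def n1104 : Strat := .move 759 n29 (.cons 718 n1103 .nil)
noncomputable def n1105 : Strat := .move 881 n41 (.cons 759 n131 (.cons 880 n1101 (.cons 921 n1104 .nil)))
noncomputable def n1106 : Strat := .move 717 n69 (.cons 636 n104 (.cons 798 n485 .nil))
noncomputable def n1107 : Strat := .move 963 n151 (.cons 839 n503 .nil)
noncomputable def n1108 : Strat := .move 798 n150 (.cons 757 n1107 .nil)
noncomputable def n1109 : Strat := .move 922 n30 (.cons 800 n1108 .nil)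
noncomputable def n1110 : Strat := .move 759 n29 (.cons 718 n1109 .nil)
noncomputable def n1111 : Strat := .win 757 6 757
noncomputable def n1112 : Strat := .move 798 n1111 (.cons 757 n456 .nil)
noncomputable def n1113 : Strat := .win 798 7 798
noncomputable def n1114 : Strat := .move 963 n439 (.cons 1004 n1113 .nil)
noncomputable def n1115 : Strat := .move 759 n30 (.cons 800 n1114 .nil)
noncomputable def n1116 : Strat := .move 963 n144 (.cons 841 n439 .nil)
noncomputable def n1117 : Strat := .move 800 n143 (.cons 759 n1116 .nil)
noncomputable def n1118 : Strat := .move 801 n458 (.cons 838 n457 .nil)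
noncomputable def n1119 : Strat := .move 800 n143 (.cons 759 n1118 .nil)
noncomputable def n1120 : Strat := .move 798 n1111 (.cons 757 n1119 .nil)
noncomputable def n1121 : Strat := .move 922 n1112 (.cons 757 n1115 (.cons 798 n1117 (.cons 963 n1120 .nil)))
noncomputable def n1122 : Strat := .move 839 n724 (.cons 717 n1121 .nil)
noncomputable def n1123 : Strat := .move 880 n23 (.cons 921 n1122 .nil)
noncomputable def n1124 : Strat := .win 757 2 757
noncomputable def n1125 : Strat := .win 803 2 758
noncomputable def n1126 : Strat := .move 802 n1124 (.cons 757 n1125 .nil)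
noncomputable def n1127 : Strat := .move 757 n53 (.cons 756 n576 .nil)
noncomputable def n1128 : Strat := .win 760 5 756
noncomputable def n1129 : Strat := .move 797 n1128 (.cons 760 n512 .nil)
noncomputable def n1130 : Strat := .win 797 5 756
noncomputable def n1131 : Strat := .move 760 n1130 (.cons 797 n42 .nil)
noncomputable def n1132 : Strat := .win 757 0 756
noncomputable def n1133 : Strat := .win 755 2 755
noncomputable def n1134 : Strat := .move 797 n1133 (.cons 755 n512 .nil)
noncomputable def n1135 : Strat := .move 756 n1132 (.cons 757 n1134 .nil)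
noncomputable def n1136 : Strat := .move 717 n305 (.cons 676 n7 .nil)
noncomputable def n1137 : Strat := .move 839 n458 (.cons 838 n1136 .nil)
noncomputable def n1138 : Strat := .move 798 n1129 (.cons 796 n1131 (.cons 760 n1135 (.cons 797 n1137 .nil)))
noncomputable def n1139 : Strat := .win 839 4 798
noncomputable def n1140 : Strat := .move 802 n1125 (.cons 803 n1139 .nil)
noncomputable def n1141 : Strat := .move 801 n1126 (.cons 803 n1127 (.cons 802 n1138 (.cons 757 n1140 .nil)))
noncomputable def n1142 : Strat := .move 800 n281 (.cons 922 n1141 .nil)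
noncomputable def n1143 : Strat := .move 759 n29 (.cons 718 n1142 .nil)
noncomputable def n1144 : Strat := .move 963 n151 (.cons 839 n504 .nil)
noncomputable def n1145 : Strat := .move 798 n150 (.cons 757 n1144 .nil)
noncomputable def n1146 : Strat := .move 922 n36 (.cons 962 n1145 .nil)
noncomputable def n1147 : Strat := .move 921 n35 (.cons 880 n1146 .nil)
noncomputable def n1148 : Strat := .move 881 n41 (.cons 880 n1110 (.cons 718 n1123 (.cons 921 n1143 (.cons 922 n109 (.cons 759 n1147 .nil)))))
noncomputable def n1149 : Strat := .move 717 n7 (.cons 880 n68 .nil)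
noncomputable def n1150 : Strat := .move 760 n322 (.cons 761 n527 .nil)
noncomputable def n1151 : Strat := .move 719 n1150 (.cons 759 n296 .nil)
noncomputable def n1152 : Strat := .move 755 n524 (.cons 754 n523 .nil)
noncomputable def n1153 : Strat := .move 714 n521 (.cons 674 n1152 .nil)
noncomputable def n1154 : Strat := .move 715 n80 (.cons 714 n1151 (.cons 760 n522 (.cons 759 n1153 .nil)))
noncomputable def n1155 : Strat := .move 716 n0 (.cons 675 n1154 .nil)
noncomputable def n1156 : Strat := .move 718 n2 (.cons 677 n1155 .nil)
noncomputable def n1157 : Strat := .move 717 n68 (.cons 798 n1156 (.cons 718 n103 .nil))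
noncomputable def n1158 : Strat := .move 717 n7 (.cons 880 n1156 .nil)
noncomputable def n1159 : Strat := .move 717 n7 (.cons 880 n103 .nil)
noncomputable def n1160 : Strat := .win 795 0 795
noncomputable def n1161 : Strat := .win 841 0 796
noncomputable def n1162 : Strat := .move 796 n1160 (.cons 795 n1161 .nil)
noncomputable def n1163 : Strat := .win 759 5 755
noncomputable def n1164 : Strat := .move 796 n1163 (.cons 759 n1160 .nil)
noncomputable def n1165 : Strat := .move 841 n625 (.cons 842 n626 .nil)
noncomputable def n1166 : Strat := .win 880 6 715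
noncomputable def n1167 : Strat := .win 674 6 674
noncomputable def n1168 : Strat := .move 715 n1166 (.cons 880 n1167 .nil)
noncomputable def n1169 : Strat := .move 756 n1133 (.cons 755 n1168 .nil)
noncomputable def n1170 : Strat := .move 797 n1162 (.cons 841 n1164 (.cons 795 n1165 (.cons 796 n1169 .nil)))
noncomputable def n1171 : Strat := .move 841 n625 (.cons 842 n353 .nil)
noncomputable def n1172 : Strat := .win 757 3 756
noncomputable def n1173 : Strat := .move 920 n1172 (.cons 757 n1059 .nil)
noncomputable def n1174 : Strat := .move 879 n1171 (.cons 878 n1173 .nil)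
noncomputable def n1175 : Strat := .move 797 n1162 (.cons 841 n1164 (.cons 795 n1165 (.cons 796 n1174 .nil)))
noncomputable def n1176 : Strat := .win 675 6 675
noncomputable def n1177 : Strat := .win 879 1 715
noncomputable def n1178 : Strat := .move 716 n1176 (.cons 675 n1177 .nil)
noncomputable def n1179 : Strat := .move 756 n767 (.cons 715 n51 .nil)
noncomputable def n1180 : Strat := .move 757 n1178 (.cons 879 n1179 .nil)
noncomputable def n1181 : Strat := .move 880 n1054 (.cons 921 n1180 .nil)
noncomputable def n1182 : Strat := .move 798 n1170 (.cons 715 n1175 (.cons 797 n1063 (.cons 841 n1181 .nil)))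
noncomputable def n1183 : Strat := .move 800 n357 (.cons 837 n1182 .nil)
noncomputable def n1184 : Strat := .move 796 n1161 (.cons 841 n1160 .nil)
noncomputable def n1185 : Strat := .move 841 n626 (.cons 796 n983 .nil)
noncomputable def n1186 : Strat := .win 801 4 797
noncomputable def n1187 : Strat := .move 800 n1186 (.cons 801 n1169 .nil)
noncomputable def n1188 : Strat := .move 797 n1184 (.cons 795 n1185 (.cons 796 n1187 .nil))
noncomputable def n1189 : Strat := .move 800 n1186 (.cons 801 n1063 .nil)
noncomputable def n1190 : Strat := .move 800 n1186 (.cons 801 n1180 .nil)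
noncomputable def n1191 : Strat := .move 880 n1054 (.cons 921 n1190 .nil)
noncomputable def n1192 : Strat := .move 796 n1161 (.cons 841 n1163 .nil)
noncomputable def n1193 : Strat := .move 841 n983 (.cons 842 n353 .nil)
noncomputable def n1194 : Strat := .move 879 n1193 (.cons 878 n1060 .nil)
noncomputable def n1195 : Strat := .move 880 n1054 (.cons 921 n1194 .nil)
noncomputable def n1196 : Strat := .move 796 n1160 (.cons 795 n1163 .nil)
noncomputable def n1197 : Strat := .move 797 n1184 (.cons 795 n1192 (.cons 796 n1195 (.cons 841 n1196 .nil)))
noncomputable def n1198 : Strat := .move 800 n1186 (.cons 801 n1174 .nil)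
noncomputable def n1199 : Strat := .move 797 n1184 (.cons 795 n1185 (.cons 796 n1198 (.cons 841 n1196 .nil)))
noncomputable def n1200 : Strat := .move 798 n1188 (.cons 797 n1189 (.cons 841 n1191 (.cons 800 n1197 (.cons 880 n1199 .nil))))
noncomputable def n1201 : Strat := .win 841 2 796
noncomputable def n1202 : Strat := .win 836 4 795
noncomputable def n1203 : Strat := .move 798 n1163 (.cons 759 n1202 .nil)
noncomputable def n1204 : Strat := .move 797 n1201 (.cons 841 n1203 .nil)
noncomputable def n1205 : Strat := .move 796 n831 (.cons 795 n1204 .nil)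
noncomputable def n1206 : Strat := .move 841 n836 (.cons 879 n832 .nil)
noncomputable def n1207 : Strat := .move 796 n831 (.cons 795 n1206 .nil)
noncomputable def n1208 : Strat := .move 878 n835 (.cons 877 n1207 .nil)
noncomputable def n1209 : Strat := .move 837 n1205 (.cons 796 n1052 (.cons 798 n1208 .nil))
noncomputable def n1210 : Strat := .move 838 n1034 (.cons 798 n1047 (.cons 801 n1183 (.cons 837 n1200 (.cons 800 n1209 .nil))))
noncomputable def n1211 : Strat := .move 839 n1149 (.cons 880 n1157 (.cons 798 n1158 (.cons 677 n1159 (.cons 717 n1210 .nil))))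
noncomputable def n1212 : Strat := .move 758 n1080 (.cons 839 n963 (.cons 880 n615 (.cons 718 n1096 (.cons 755 n1097 (.cons 798 n1105 (.cons 757 n1106 (.cons 716 n1148 (.cons 881 n1211 .nil))))))))
noncomputable def n1213 : Strat := .move 758 n33 (.cons 800 n39 (.cons 757 n41 (.cons 922 n63 .nil)))
noncomputable def n1214 : Strat := .move 921 n36 (.cons 962 n754 .nil)
noncomputable def n1215 : Strat := .win 841 1 799
noncomputable def n1216 : Strat := .move 963 n1215 (.cons 841 n503 .nil)
noncomputable def n1217 : Strat := .move 800 n143 (.cons 759 n1216 .nil)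
noncomputable def n1218 : Strat := .move 963 n1215 (.cons 841 n262 .nil)
noncomputable def n1219 : Strat := .move 800 n143 (.cons 759 n1218 .nil)
noncomputable def n1220 : Strat := .move 882 n1214 (.cons 884 n1217 (.cons 921 n1219 .nil))
noncomputable def n1221 : Strat := .move 923 n18 (.cons 964 n1220 .nil)
noncomputable def n1222 : Strat := .move 964 n153 (.cons 1005 n147 .nil)
noncomputable def n1223 : Strat := .move 963 n144 (.cons 841 n1222 .nil)
noncomputable def n1224 : Strat := .move 800 n143 (.cons 759 n1223 .nil)
noncomputable def n1225 : Strat := .move 922 n1221 (.cons 800 n156 (.cons 923 n1224 (.cons 964 n409 (.cons 963 n178 .nil))))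
noncomputable def n1226 : Strat := .win 756 7 756
noncomputable def n1227 : Strat := .move 797 n1226 (.cons 756 n1162 .nil)
noncomputable def n1228 : Strat := .move 880 n411 (.cons 758 n1227 .nil)
noncomputable def n1229 : Strat := .move 839 n456 (.cons 963 n1228 .nil)
noncomputable def n1230 : Strat := .move 798 n150 (.cons 757 n1229 .nil)
noncomputable def n1231 : Strat := .move 921 n36 (.cons 962 n1230 .nil)
noncomputable def n1232 : Strat := .move 922 n257 (.cons 758 n156 (.cons 923 n1231 .nil))
noncomputable def n1233 : Strat := .win 963 1 799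
noncomputable def n1234 : Strat := .win 760 3 759
noncomputable def n1235 : Strat := .win 803 4 799
noncomputable def n1236 : Strat := .move 802 n1235 (.cons 803 n1139 .nil)
noncomputable def n1237 : Strat := .move 801 n1234 (.cons 760 n1236 .nil)
noncomputable def n1238 : Strat := .move 841 n1233 (.cons 963 n1237 .nil)
noncomputable def n1239 : Strat := .move 882 n258 (.cons 758 n1238 .nil)
noncomputable def n1240 : Strat := .move 800 n143 (.cons 759 n1239 .nil)
noncomputable def n1241 : Strat := .move 923 n18 (.cons 964 n1240 .nil)
noncomputable def n1242 : Strat := .move 922 n870 (.cons 921 n1241 (.cons 964 n225 (.cons 758 n149 .nil)))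
noncomputable def n1243 : Strat := .move 758 n232 (.cons 757 n215 (.cons 800 n21 (.cons 922 n63 .nil)))
noncomputable def n1244 : Strat := .move 758 n138 (.cons 757 n41 (.cons 759 n39 (.cons 922 n654 .nil)))
noncomputable def n1245 : Strat := .move 839 n728 (.cons 838 n735 .nil)
noncomputable def n1246 : Strat := .move 758 n23 (.cons 921 n1245 .nil)
noncomputable def n1247 : Strat := .move 758 n23 (.cons 921 n999 .nil)
noncomputable def n1248 : Strat := .move 883 n855 (.cons 838 n856 .nil)
noncomputable def n1249 : Strat := .move 839 n1026 (.cons 962 n1248 .nil)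
noncomputable def n1250 : Strat := .move 921 n411 (.cons 758 n1249 .nil)
noncomputable def n1251 : Strat := .win 879 4 878
noncomputable def n1252 : Strat := .win 918 5 877
noncomputable def n1253 : Strat := .move 919 n1251 (.cons 879 n1252 .nil)
noncomputable def n1254 : Strat := .move 920 n417 (.cons 883 n1253 .nil)
noncomputable def n1255 : Strat := .move 921 n411 (.cons 758 n1254 .nil)
noncomputable def n1256 : Strat := .move 921 n1026 (.cons 962 n1248 .nil)
noncomputable def n1257 : Strat := .move 883 n856 (.cons 884 n415 .nil)
noncomputable def n1258 : Strat := .move 921 n1026 (.cons 962 n1257 .nil)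
noncomputable def n1259 : Strat := .move 798 n1059 (.cons 961 n1058 .nil)
noncomputable def n1260 : Strat := .move 920 n418 (.cons 919 n1259 .nil)
noncomputable def n1261 : Strat := .move 879 n1061 (.cons 878 n1260 .nil)
noncomputable def n1262 : Strat := .move 838 n725 (.cons 837 n1261 .nil)
noncomputable def n1263 : Strat := .move 839 n1256 (.cons 921 n727 (.cons 838 n1258 (.cons 883 n1262 .nil)))
noncomputable def n1264 : Strat := .win 839 3 798
noncomputable def n1265 : Strat := .win 1003 3 839
noncomputable def n1266 : Strat := .move 962 n1264 (.cons 839 n1265 .nil)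
noncomputable def n1267 : Strat := .move 921 n411 (.cons 758 n1266 .nil)
noncomputable def n1268 : Strat := .move 841 n786 (.cons 878 n424 .nil)
noncomputable def n1269 : Strat := .win 837 2 837
noncomputable def n1270 : Strat := .move 839 n726 (.cons 883 n1260 .nil)
noncomputable def n1271 : Strat := .move 838 n1269 (.cons 837 n1270 .nil)
noncomputable def n1272 : Strat := .move 879 n1268 (.cons 841 n1271 .nil)
noncomputable def n1273 : Strat := .move 882 n1250 (.cons 839 n1255 (.cons 758 n1263 (.cons 883 n1267 (.cons 921 n1272 .nil))))
noncomputable def n1274 : Strat := .win 841 7 799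
noncomputable def n1275 : Strat := .win 1005 7 840
noncomputable def n1276 : Strat := .move 964 n1274 (.cons 841 n1275 .nil)
noncomputable def n1277 : Strat := .move 923 n258 (.cons 758 n1276 .nil)
noncomputable def n1278 : Strat := .win 924 0 879
noncomputable def n1279 : Strat := .win 838 2 837
noncomputable def n1280 : Strat := .win 836 2 836
noncomputable def n1281 : Strat := .win 918 4 877
noncomputable def n1282 : Strat := .win 920 4 878
noncomputable def n1283 : Strat := .move 919 n1281 (.cons 918 n1282 .nil)
noncomputable def n1284 : Strat := .move 878 n1280 (.cons 836 n1283 .nil)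
noncomputable def n1285 : Strat := .move 837 n1279 (.cons 838 n1284 .nil)
noncomputable def n1286 : Strat := .move 879 n1278 (.cons 924 n1285 .nil)
noncomputable def n1287 : Strat := .move 923 n258 (.cons 758 n1286 .nil)
noncomputable def n1288 : Strat := .move 882 n1277 (.cons 923 n1272 (.cons 841 n1287 .nil))
noncomputable def n1289 : Strat := .move 760 n194 (.cons 800 n244 .nil)
noncomputable def n1290 : Strat := .move 756 n192 (.cons 755 n1289 (.cons 801 n203 (.cons 800 n207 .nil)))
noncomputable def n1291 : Strat := .move 757 n15 (.cons 716 n1290 .nil)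
noncomputable def n1292 : Strat := .move 759 n29 (.cons 718 n1291 .nil)
noncomputable def n1293 : Strat := .move 758 n23 (.cons 921 n1292 .nil)
noncomputable def n1294 : Strat := .win 877 5 836
noncomputable def n1295 : Strat := .win 882 0 837
noncomputable def n1296 : Strat := .move 838 n830 (.cons 800 n1295 .nil)
noncomputable def n1297 : Strat := .move 837 n1280 (.cons 836 n1296 .nil)
noncomputable def n1298 : Strat := .move 839 n1294 (.cons 877 n1297 .nil)
noncomputable def n1299 : Strat := .move 878 n433 (.cons 841 n1298 .nil)
noncomputable def n1300 : Strat := .move 882 n1282 (.cons 920 n1279 .nil)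
noncomputable def n1301 : Strat := .move 837 n1280 (.cons 836 n1300 .nil)
noncomputable def n1302 : Strat := .move 919 n1281 (.cons 918 n1301 .nil)
noncomputable def n1303 : Strat := .move 878 n433 (.cons 841 n1302 .nil)
noncomputable def n1304 : Strat := .win 882 4 878
noncomputable def n1305 : Strat := .move 919 n1304 (.cons 882 n1281 .nil)
noncomputable def n1306 : Strat := .win 961 1 797
noncomputable def n1307 : Strat := .move 798 n1306 (.cons 961 n1058 .nil)
noncomputable def n1308 : Strat := .move 920 n1305 (.cons 918 n1307 .nil)
noncomputable def n1309 : Strat := .move 921 n1026 (.cons 962 n1308 .nil)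
noncomputable def n1310 : Strat := .move 839 n1294 (.cons 877 n1309 .nil)
noncomputable def n1311 : Strat := .move 878 n433 (.cons 841 n1310 .nil)
noncomputable def n1312 : Strat := .win 839 5 836
noncomputable def n1313 : Strat := .win 919 4 877
noncomputable def n1314 : Strat := .win 917 4 876
noncomputable def n1315 : Strat := .move 918 n1313 (.cons 919 n1314 .nil)
noncomputable def n1316 : Strat := .move 877 n1312 (.cons 839 n1315 .nil)
noncomputable def n1317 : Strat := .move 878 n433 (.cons 841 n1316 .nil)
noncomputable def n1318 : Strat := .win 964 7 799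
noncomputable def n1319 : Strat := .move 923 n1318 (.cons 964 n1278 .nil)
noncomputable def n1320 : Strat := .move 841 n1038 (.cons 842 n1319 .nil)
noncomputable def n1321 : Strat := .move 839 n726 (.cons 883 n1320 .nil)
noncomputable def n1322 : Strat := .move 838 n1269 (.cons 837 n1321 .nil)
noncomputable def n1323 : Strat := .move 841 n424 (.cons 842 n1319 .nil)
noncomputable def n1324 : Strat := .move 838 n1269 (.cons 837 n1323 .nil)
noncomputable def n1325 : Strat := .move 923 n1278 (.cons 924 n1318 .nil)
noncomputable def n1326 : Strat := .move 841 n424 (.cons 842 n1325 .nil)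
noncomputable def n1327 : Strat := .move 882 n1322 (.cons 883 n1324 (.cons 838 n1326 (.cons 841 n1271 .nil)))
noncomputable def n1328 : Strat := .move 919 n1282 (.cons 920 n1281 .nil)
noncomputable def n1329 : Strat := .move 878 n1294 (.cons 877 n1328 .nil)
noncomputable def n1330 : Strat := .move 839 n726 (.cons 883 n1329 .nil)
noncomputable def n1331 : Strat := .move 838 n1269 (.cons 837 n1330 .nil)
noncomputable def n1332 : Strat := .move 962 n1265 (.cons 1003 n1264 .nil)
noncomputable def n1333 : Strat := .move 921 n417 (.cons 883 n1332 .nil)
noncomputable def n1334 : Strat := .move 920 n418 (.cons 919 n1333 .nil)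
noncomputable def n1335 : Strat := .win 962 6 797
noncomputable def n1336 : Strat := .win 756 6 756
noncomputable def n1337 : Strat := .move 797 n1335 (.cons 962 n1336 .nil)
noncomputable def n1338 : Strat := .move 838 n1269 (.cons 837 n1337 .nil)
noncomputable def n1339 : Strat := .move 921 n417 (.cons 883 n1338 .nil)
noncomputable def n1340 : Strat := .move 920 n418 (.cons 919 n1339 .nil)
noncomputable def n1341 : Strat := .win 839 2 838
noncomputable def n1342 : Strat := .move 924 n421 (.cons 925 n420 .nil)
noncomputable def n1343 : Strat := .move 883 n1341 (.cons 839 n1342 .nil)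
noncomputable def n1344 : Strat := .move 838 n1269 (.cons 837 n1343 .nil)
noncomputable def n1345 : Strat := .move 878 n1280 (.cons 836 n1328 .nil)
noncomputable def n1346 : Strat := .move 837 n1279 (.cons 838 n1345 .nil)
noncomputable def n1347 : Strat := .move 882 n1271 (.cons 757 n1331 (.cons 838 n1334 (.cons 839 n1340 (.cons 920 n1344 (.cons 883 n1346 .nil)))))
noncomputable def n1348 : Strat := .move 879 n1299 (.cons 839 n1303 (.cons 838 n1311 (.cons 882 n1317 (.cons 878 n1327 (.cons 841 n1347 .nil)))))
noncomputable def n1349 : Strat := .move 880 n1246 (.cons 800 n1247 (.cons 923 n1273 (.cons 882 n1267 (.cons 921 n1288 (.cons 839 n1293 (.cons 758 n1348 .nil))))))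
noncomputable def n1350 : Strat := .move 881 n1213 (.cons 758 n1225 (.cons 800 n1232 (.cons 798 n1242 (.cons 880 n1243 (.cons 923 n1244 (.cons 922 n1349 .nil))))))
noncomputable def n1351 : Strat := .move 717 n13 (.cons 841 n6 .nil)
noncomputable def n1352 : Strat := .move 881 n28 (.cons 841 n39 (.cons 880 n33 .nil))
noncomputable def n1353 : Strat := .move 881 n21 (.cons 964 n138 (.cons 757 n502 .nil))
noncomputable def n1354 : Strat := .move 881 n39 (.cons 962 n21 (.cons 757 n109 .nil))
noncomputable def n1355 : Strat := .move 881 n777 (.cons 883 n21 (.cons 882 n39 .nil))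
noncomputable def n1356 : Strat := .move 717 n69 (.cons 718 n104 (.cons 839 n690 .nil))
noncomputable def n1357 : Strat := .move 881 n502 (.cons 677 n28 (.cons 882 n109 (.cons 717 n41 .nil)))
noncomputable def n1358 : Strat := .move 718 n2 (.cons 677 n13 .nil)
noncomputable def n1359 : Strat := .win 757 1 715
noncomputable def n1360 : Strat := .move 879 n1359 (.cons 757 n353 .nil)
noncomputable def n1361 : Strat := .move 798 n984 (.cons 796 n1360 .nil)
noncomputable def n1362 : Strat := .move 838 n358 (.cons 837 n1361 .nil)
noncomputable def n1363 : Strat := .move 716 n0 (.cons 675 n1362 .nil)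
noncomputable def n1364 : Strat := .move 841 n9 (.cons 882 n1363 .nil)
noncomputable def n1365 : Strat := .move 839 n7 (.cons 880 n1364 .nil)
noncomputable def n1366 : Strat := .move 717 n1358 (.cons 841 n69 (.cons 718 n13 (.cons 880 n77 (.cons 676 n1365 .nil))))
noncomputable def n1367 : Strat := .move 718 n3 (.cons 759 n21 .nil)
noncomputable def n1368 : Strat := .move 839 n1248 (.cons 884 n897 (.cons 838 n995 .nil))
noncomputable def n1369 : Strat := .move 879 n992 (.cons 878 n1368 .nil)
noncomputable def n1370 : Strat := .move 757 n15 (.cons 716 n1369 .nil)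
noncomputable def n1371 : Strat := .move 880 n23 (.cons 921 n1370 .nil)
noncomputable def n1372 : Strat := .move 882 n22 (.cons 923 n1371 .nil)
noncomputable def n1373 : Strat := .move 881 n1367 (.cons 757 n41 (.cons 759 n21 (.cons 922 n1372 .nil)))
noncomputable def n1374 : Strat := .move 758 n1351 (.cons 676 n1352 (.cons 839 n1353 (.cons 841 n1354 (.cons 718 n1355 (.cons 882 n1356 (.cons 798 n1357 (.cons 881 n1366 (.cons 717 n1373 .nil))))))))
noncomputable def n1375 : Strat := .move 800 n571 (.cons 841 n280 .nil)
noncomputable def n1376 : Strat := .move 635 n376 (.cons 594 n375 .nil)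
noncomputable def n1377 : Strat := .move 676 n1375 (.cons 841 n1376 (.cons 800 n313 .nil))
noncomputable def n1378 : Strat := .move 759 n111 (.cons 881 n1377 .nil)
noncomputable def n1379 : Strat := .move 718 n2 (.cons 677 n1378 .nil)
noncomputable def n1380 : Strat := .move 717 n13 (.cons 882 n1379 (.cons 880 n127 (.cons 676 n101 .nil)))
noncomputable def n1381 : Strat := .move 718 n2 (.cons 677 n72 .nil)
noncomputable def n1382 : Strat := .move 797 n843 (.cons 798 n841 .nil)
noncomputable def n1383 : Strat := .move 801 n842 (.cons 802 n840 .nil)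
noncomputable def n1384 : Strat := .move 842 n1382 (.cons 796 n1383 .nil)
noncomputable def n1385 : Strat := .move 837 n833 (.cons 797 n837 .nil)
noncomputable def n1386 : Strat := .move 838 n358 (.cons 837 n1384 (.cons 801 n834 (.cons 800 n1385 .nil)))
noncomputable def n1387 : Strat := .move 718 n2 (.cons 677 n1386 .nil)
noncomputable def n1388 : Strat := .move 841 n9 (.cons 882 n1387 .nil)
noncomputable def n1389 : Strat := .move 839 n7 (.cons 880 n1388 .nil)
noncomputable def n1390 : Strat := .move 717 n1381 (.cons 839 n468 (.cons 677 n72 (.cons 800 n69 (.cons 676 n1389 .nil))))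
noncomputable def n1391 : Strat := .move 881 n41 (.cons 880 n215 (.cons 759 n730 .nil))
noncomputable def n1392 : Strat := .move 841 n626 (.cons 796 n9 .nil)
noncomputable def n1393 : Strat := .move 841 n983 (.cons 842 n9 .nil)
noncomputable def n1394 : Strat := .move 797 n1184 (.cons 795 n1392 (.cons 841 n1164 (.cons 796 n1393 .nil)))
noncomputable def n1395 : Strat := .move 798 n305 (.cons 676 n1394 .nil)
noncomputable def n1396 : Strat := .move 839 n7 (.cons 880 n1395 .nil)
noncomputable def n1397 : Strat := .move 635 n366 (.cons 677 n557 .nil)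
noncomputable def n1398 : Strat := .move 800 n665 (.cons 801 n1090 (.cons 759 n1397 .nil))
noncomputable def n1399 : Strat := .move 676 n8 (.cons 798 n1398 .nil)
noncomputable def n1400 : Strat := .move 839 n7 (.cons 880 n1399 .nil)
noncomputable def n1401 : Strat := .move 922 n143 (.cons 759 n16 .nil)
noncomputable def n1402 : Strat := .move 881 n22 (.cons 923 n1401 .nil)
noncomputable def n1403 : Strat := .move 756 n592 (.cons 798 n51 .nil)
noncomputable def n1404 : Strat := .move 801 n576 (.cons 802 n1403 .nil)
noncomputable def n1405 : Strat := .move 800 n665 (.cons 801 n1402 (.cons 759 n1404 .nil))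
noncomputable def n1406 : Strat := .move 882 n25 (.cons 841 n1405 .nil)
noncomputable def n1407 : Strat := .move 839 n7 (.cons 880 n1406 .nil)
noncomputable def n1408 : Strat := .move 757 n1396 (.cons 839 n667 (.cons 841 n1400 (.cons 759 n987 (.cons 676 n1407 .nil))))
noncomputable def n1409 : Strat := .move 635 n555 (.cons 593 n366 .nil)
noncomputable def n1410 : Strat := .move 634 n556 (.cons 675 n1409 .nil)
noncomputable def n1411 : Strat := .move 676 n10 (.cons 800 n1410 .nil)
noncomputable def n1412 : Strat := .move 841 n9 (.cons 882 n1411 .nil)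
noncomputable def n1413 : Strat := .move 676 n8 (.cons 798 n1410 .nil)
noncomputable def n1414 : Strat := .move 839 n7 (.cons 880 n1413 .nil)
noncomputable def n1415 : Strat := .move 717 n1408 (.cons 882 n1093 (.cons 880 n541 (.cons 595 n72 (.cons 676 n849 (.cons 839 n1412 (.cons 841 n1414 .nil))))))
noncomputable def n1416 : Strat := .move 881 n22 (.cons 923 n1397 .nil)
noncomputable def n1417 : Strat := .move 882 n25 (.cons 841 n1416 .nil)
noncomputable def n1418 : Strat := .move 676 n8 (.cons 798 n1417 .nil)
noncomputable def n1419 : Strat := .move 839 n7 (.cons 880 n1418 .nil)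
noncomputable def n1420 : Strat := .move 797 n626 (.cons 796 n983 .nil)
noncomputable def n1421 : Strat := .move 841 n9 (.cons 882 n1420 .nil)
noncomputable def n1422 : Strat := .move 798 n305 (.cons 676 n1421 .nil)
noncomputable def n1423 : Strat := .move 839 n7 (.cons 880 n1422 .nil)
noncomputable def n1424 : Strat := .move 717 n69 (.cons 880 n98 (.cons 718 n1419 (.cons 677 n1423 .nil)))
noncomputable def n1425 : Strat := .move 880 n23 (.cons 921 n862 .nil)
noncomputable def n1426 : Strat := .move 882 n22 (.cons 923 n1425 .nil)
noncomputable def n1427 : Strat := .move 759 n29 (.cons 718 n1426 .nil)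
noncomputable def n1428 : Strat := .move 922 n18 (.cons 964 n37 .nil)
noncomputable def n1429 : Strat := .move 923 n17 (.cons 882 n1428 .nil)
noncomputable def n1430 : Strat := .move 757 n20 (.cons 922 n1022 (.cons 923 n38 (.cons 798 n1429 .nil)))
noncomputable def n1431 : Strat := .move 881 n41 (.cons 921 n215 (.cons 922 n1427 (.cons 759 n1430 .nil)))
noncomputable def n1432 : Strat := .move 758 n1380 (.cons 881 n1390 (.cons 839 n968 (.cons 841 n1391 (.cons 882 n1148 (.cons 880 n562 (.cons 718 n1415 (.cons 800 n1424 (.cons 717 n1431 .nil))))))))
noncomputable def n1433 : Strat := .win 922 6 799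
noncomputable def n1434 : Strat := .move 964 n1433 (.cons 922 n1274 .nil)
noncomputable def n1435 : Strat := .move 882 n258 (.cons 758 n1434 .nil)
noncomputable def n1436 : Strat := .move 882 n258 (.cons 758 n1276 .nil)
noncomputable def n1437 : Strat := .move 922 n18 (.cons 964 n869 .nil)
noncomputable def n1438 : Strat := .move 879 n412 (.cons 878 n413 .nil)
noncomputable def n1439 : Strat := .move 880 n411 (.cons 758 n1438 .nil)
noncomputable def n1440 : Strat := .move 921 n36 (.cons 962 n1439 .nil)
noncomputable def n1441 : Strat := .move 922 n18 (.cons 964 n1440 .nil)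
noncomputable def n1442 : Strat := .move 924 n158 (.cons 879 n157 .nil)
noncomputable def n1443 : Strat := .move 879 n413 (.cons 924 n412 .nil)
noncomputable def n1444 : Strat := .move 1004 n442 (.cons 1045 n441 .nil)
noncomputable def n1445 : Strat := .move 880 n1442 (.cons 925 n1443 (.cons 879 n1444 .nil))
noncomputable def n1446 : Strat := .move 963 n144 (.cons 841 n1445 .nil)
noncomputable def n1447 : Strat := .move 800 n143 (.cons 759 n1446 .nil)
noncomputable def n1448 : Strat := .move 921 n36 (.cons 962 n1447 .nil)
noncomputable def n1449 : Strat := .move 922 n18 (.cons 964 n1448 .nil)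
noncomputable def n1450 : Strat := .move 758 n17 (.cons 882 n182 .nil)
noncomputable def n1451 : Strat := .move 923 n1435 (.cons 922 n1436 (.cons 841 n1437 (.cons 882 n1441 (.cons 758 n1449 (.cons 964 n1450 .nil)))))
noncomputable def n1452 : Strat := .move 923 n18 (.cons 964 n1448 .nil)
noncomputable def n1453 : Strat := .move 922 n1452 (.cons 964 n149 (.cons 963 n178 (.cons 841 n890 (.cons 921 n235 .nil))))
noncomputable def n1454 : Strat := .move 758 n35 (.cons 880 n502 .nil)
noncomputable def n1455 : Strat := .move 921 n36 (.cons 962 n1454 .nil)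
noncomputable def n1456 : Strat := .move 882 n22 (.cons 923 n620 .nil)
noncomputable def n1457 : Strat := .move 717 n118 (.cons 676 n9 .nil)
noncomputable def n1458 : Strat := .move 717 n118 (.cons 676 n99 .nil)
noncomputable def n1459 : Strat := .move 882 n22 (.cons 923 n964 .nil)
noncomputable def n1460 : Strat := .move 758 n1456 (.cons 923 n1457 (.cons 882 n1458 (.cons 717 n1459 .nil)))
noncomputable def n1461 : Strat := .move 841 n425 (.cons 963 n1460 .nil)
noncomputable def n1462 : Strat := .move 800 n143 (.cons 759 n1461 .nil)
noncomputable def n1463 : Strat := .move 758 n29 (.cons 718 n634 .nil)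
noncomputable def n1464 : Strat := .move 759 n30 (.cons 800 n1463 .nil)
noncomputable def n1465 : Strat := .move 758 n35 (.cons 880 n634 .nil)
noncomputable def n1466 : Strat := .move 921 n36 (.cons 962 n1465 .nil)
noncomputable def n1467 : Strat := .move 922 n225 (.cons 800 n1455 (.cons 962 n1462 (.cons 758 n149 (.cons 921 n1464 (.cons 759 n1466 .nil)))))
noncomputable def n1468 : Strat := .move 758 n41 (.cons 759 n131 (.cons 880 n1101 (.cons 921 n1104 .nil)))
noncomputable def n1469 : Strat := .move 758 n243 (.cons 759 n189 (.cons 717 n1104 .nil))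
noncomputable def n1470 : Strat := .move 758 n1104 (.cons 800 n131 (.cons 757 n182 .nil))
noncomputable def n1471 : Strat := .move 717 n2 (.cons 677 n187 .nil)
noncomputable def n1472 : Strat := .move 922 n18 (.cons 964 n783 .nil)
noncomputable def n1473 : Strat := .move 923 n17 (.cons 882 n1472 .nil)
noncomputable def n1474 : Strat := .move 757 n15 (.cons 716 n1473 .nil)
noncomputable def n1475 : Strat := .move 717 n2 (.cons 677 n96 .nil)
noncomputable def n1476 : Strat := .move 718 n1471 (.cons 717 n1474 (.cons 757 n1475 .nil))
noncomputable def n1477 : Strat := .move 757 n15 (.cons 716 n1429 .nil)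
noncomputable def n1478 : Strat := .move 758 n1476 (.cons 882 n131 (.cons 921 n189 (.cons 757 n141 (.cons 717 n1477 .nil))))
noncomputable def n1479 : Strat := .move 758 n23 (.cons 921 n181 .nil)
noncomputable def n1480 : Strat := .move 758 n23 (.cons 921 n740 .nil)
noncomputable def n1481 : Strat := .move 758 n23 (.cons 921 n243 .nil)
noncomputable def n1482 : Strat := .move 758 n22 (.cons 923 n26 .nil)
noncomputable def n1483 : Strat := .move 878 n1294 (.cons 877 n1283 .nil)
noncomputable def n1484 : Strat := .move 839 n726 (.cons 883 n1483 .nil)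
noncomputable def n1485 : Strat := .move 838 n1269 (.cons 837 n1484 .nil)
noncomputable def n1486 : Strat := .move 879 n1268 (.cons 841 n1485 (.cons 878 n1322 .nil))
noncomputable def n1487 : Strat := .move 758 n22 (.cons 923 n775 .nil)
noncomputable def n1488 : Strat := .move 758 n22 (.cons 923 n242 .nil)
noncomputable def n1489 : Strat := .win 926 0 881
noncomputable def n1490 : Strat := .win 924 0 880
noncomputable def n1491 : Strat := .move 925 n1489 (.cons 926 n1490 .nil)
noncomputable def n1492 : Strat := .win 885 2 840
noncomputable def n1493 : Strat := .move 841 n1492 (.cons 885 n424 .nil)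
noncomputable def n1494 : Strat := .move 884 n1491 (.cons 924 n1493 .nil)
noncomputable def n1495 : Strat := .move 883 n1341 (.cons 839 n1494 .nil)
noncomputable def n1496 : Strat := .move 838 n1269 (.cons 837 n1495 .nil)
noncomputable def n1497 : Strat := .move 879 n1268 (.cons 841 n1485 (.cons 878 n1496 .nil))
noncomputable def n1498 : Strat := .move 882 n1482 (.cons 758 n1486 (.cons 841 n1487 (.cons 839 n1488 (.cons 923 n1497 .nil))))
noncomputable def n1499 : Strat := .win 882 2 837
noncomputable def n1500 : Strat := .move 839 n830 (.cons 800 n835 .nil)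
noncomputable def n1501 : Strat := .move 838 n1499 (.cons 882 n1500 .nil)
noncomputable def n1502 : Strat := .move 837 n1280 (.cons 836 n1501 .nil)
noncomputable def n1503 : Strat := .move 878 n433 (.cons 841 n1502 .nil)
noncomputable def n1504 : Strat := .move 882 n1331 (.cons 838 n1334 (.cons 839 n1340 (.cons 920 n1344 (.cons 883 n1346 .nil))))
noncomputable def n1505 : Strat := .move 921 n1336 (.cons 756 n1026 .nil)
noncomputable def n1506 : Strat := .move 841 n841 (.cons 796 n1038 .nil)
noncomputable def n1507 : Strat := .move 797 n1505 (.cons 962 n1506 .nil)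
noncomputable def n1508 : Strat := .move 839 n726 (.cons 883 n1507 .nil)
noncomputable def n1509 : Strat := .move 838 n1269 (.cons 837 n1508 .nil)
noncomputable def n1510 : Strat := .move 882 n1322 (.cons 838 n1326 (.cons 841 n1344 (.cons 923 n1509 .nil)))
noncomputable def n1511 : Strat := .move 879 n1503 (.cons 841 n1504 (.cons 882 n1317 (.cons 839 n1303 (.cons 878 n1510 .nil))))
noncomputable def n1512 : Strat := .move 880 n1479 (.cons 677 n1480 (.cons 839 n1481 (.cons 921 n1498 (.cons 758 n1511 .nil))))
noncomputable def n1513 : Strat := .move 881 n1451 (.cons 758 n1453 (.cons 841 n891 (.cons 964 n1467 (.cons 882 n1468 (.cons 921 n1469 (.cons 923 n1470 (.cons 759 n1478 (.cons 922 n1512 .nil))))))))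
noncomputable def n1514 : Strat := .move 881 n17 (.cons 882 n109 .nil)
noncomputable def n1515 : Strat := .move 759 n29 (.cons 718 n208 .nil)
noncomputable def n1516 : Strat := .move 757 n15 (.cons 716 n1515 .nil)
noncomputable def n1517 : Strat := .move 881 n109 (.cons 880 n1516 (.cons 718 n131 .nil))
noncomputable def n1518 : Strat := .win 881 6 758
noncomputable def n1519 : Strat := .win 800 7 758
noncomputable def n1520 : Strat := .move 841 n620 (.cons 717 n1519 .nil)
noncomputable def n1521 : Strat := .move 882 n1518 (.cons 881 n1520 .nil)
noncomputable def n1522 : Strat := .move 839 n7 (.cons 880 n1386 .nil)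
noncomputable def n1523 : Strat := .move 841 n9 (.cons 882 n1522 .nil)
noncomputable def n1524 : Strat := .move 717 n315 (.cons 841 n69 (.cons 880 n77 (.cons 676 n1523 .nil)))
noncomputable def n1525 : Strat := .move 881 n17 (.cons 882 n1516 .nil)
noncomputable def n1526 : Strat := .move 923 n1514 (.cons 882 n1517 (.cons 921 n1521 (.cons 881 n1524 (.cons 717 n1525 .nil))))
noncomputable def n1527 : Strat := .move 676 n10 (.cons 800 n8 .nil)
noncomputable def n1528 : Strat := .move 841 n9 (.cons 882 n1527 .nil)
noncomputable def n1529 : Strat := .move 839 n7 (.cons 880 n1528 .nil)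
noncomputable def n1530 : Strat := .move 718 n2 (.cons 677 n1529 .nil)
noncomputable def n1531 : Strat := .move 716 n0 (.cons 675 n1530 .nil)
noncomputable def n1532 : Strat := .move 717 n1531 (.cons 841 n69 (.cons 880 n77 (.cons 676 n94 .nil)))
noncomputable def n1533 : Strat := .move 800 n118 (.cons 676 n478 .nil)
noncomputable def n1534 : Strat := .move 759 n111 (.cons 881 n1533 .nil)
noncomputable def n1535 : Strat := .move 718 n2 (.cons 677 n1534 .nil)
noncomputable def n1536 : Strat := .move 841 n9 (.cons 882 n1535 .nil)
noncomputable def n1537 : Strat := .move 718 n81 (.cons 719 n270 .nil)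
noncomputable def n1538 : Strat := .win 754 5 713
noncomputable def n1539 : Strat := .move 755 n199 (.cons 800 n1538 .nil)
noncomputable def n1540 : Strat := .move 760 n691 (.cons 715 n112 .nil)
noncomputable def n1541 : Strat := .win 718 4 715
noncomputable def n1542 : Strat := .move 760 n57 (.cons 720 n112 .nil)
noncomputable def n1543 : Strat := .move 719 n1541 (.cons 718 n1542 .nil)
noncomputable def n1544 : Strat := .move 759 n1540 (.cons 761 n921 (.cons 715 n1543 (.cons 760 n922 .nil)))
noncomputable def n1545 : Strat := .move 756 n1537 (.cons 719 n1539 (.cons 755 n1544 .nil))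
noncomputable def n1546 : Strat := .move 757 n269 (.cons 881 n1545 .nil)
noncomputable def n1547 : Strat := .move 716 n0 (.cons 675 n1546 .nil)
noncomputable def n1548 : Strat := .move 717 n1536 (.cons 677 n1547 (.cons 759 n335 (.cons 718 n352 (.cons 716 n127 (.cons 881 n304 .nil)))))
noncomputable def n1549 : Strat := .move 881 n4 (.cons 759 n96 .nil)
noncomputable def n1550 : Strat := .move 716 n0 (.cons 675 n1549 .nil)
noncomputable def n1551 : Strat := .move 717 n1550 (.cons 881 n69 (.cons 718 n13 .nil))
noncomputable def n1552 : Strat := .move 717 n104 (.cons 839 n335 (.cons 675 n72 .nil))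
noncomputable def n1553 : Strat := .move 717 n13 (.cons 839 n127 (.cons 882 n69 (.cons 676 n687 .nil)))
noncomputable def n1554 : Strat := .move 881 n1 (.cons 757 n23 .nil)
noncomputable def n1555 : Strat := .move 880 n24 (.cons 839 n1554 .nil)
noncomputable def n1556 : Strat := .move 677 n66 (.cons 636 n1555 .nil)
noncomputable def n1557 : Strat := .move 676 n10 (.cons 800 n1556 .nil)
noncomputable def n1558 : Strat := .move 841 n9 (.cons 882 n1557 .nil)
noncomputable def n1559 : Strat := .move 716 n0 (.cons 675 n1558 .nil)
noncomputable def n1560 : Strat := .move 717 n13 (.cons 839 n352 (.cons 882 n104 (.cons 676 n363 (.cons 798 n1559 .nil))))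
noncomputable def n1561 : Strat := .move 717 n69 (.cons 718 n104 (.cons 880 n373 .nil))
noncomputable def n1562 : Strat := .move 717 n690 (.cons 718 n1559 (.cons 677 n106 (.cons 881 n399 (.cons 675 n127 .nil))))
noncomputable def n1563 : Strat := .move 839 n7 (.cons 880 n471 .nil)
noncomputable def n1564 : Strat := .move 717 n1563 (.cons 716 n687 (.cons 718 n363 (.cons 881 n94 (.cons 757 n485 .nil))))
noncomputable def n1565 : Strat := .move 717 n72 (.cons 839 n1547 (.cons 841 n345 (.cons 676 n106 .nil)))
noncomputable def n1566 : Strat := .move 880 n23 (.cons 921 n998 .nil)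
noncomputable def n1567 : Strat := .move 882 n22 (.cons 923 n1566 .nil)
noncomputable def n1568 : Strat := .move 881 n63 (.cons 757 n865 (.cons 759 n1567 (.cons 923 n654 .nil)))
noncomputable def n1569 : Strat := .move 758 n1526 (.cons 881 n1532 (.cons 839 n1548 (.cons 757 n1551 (.cons 759 n1552 (.cons 716 n1553 (.cons 718 n1560 (.cons 882 n1561 (.cons 798 n1562 (.cons 676 n1564 (.cons 677 n1565 (.cons 717 n1568 .nil)))))))))))
noncomputable def n1570 : Strat := .move 757 n269 (.cons 881 n909 .nil)
noncomputable def n1571 : Strat := .move 716 n0 (.cons 675 n1570 .nil)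
noncomputable def n1572 : Strat := .move 718 n2 (.cons 677 n1571 .nil)
noncomputable def n1573 : Strat := .move 717 n1572 (.cons 757 n104 (.cons 716 n69 .nil))
noncomputable def n1574 : Strat := .move 717 n13 (.cons 839 n468 (.cons 800 n69 (.cons 676 n849 .nil)))
noncomputable def n1575 : Strat := .move 839 n7 (.cons 880 n489 .nil)
noncomputable def n1576 : Strat := .move 717 n1575 (.cons 716 n849 (.cons 839 n106 .nil))
noncomputable def n1577 : Strat := .move 881 n21 (.cons 923 n39 (.cons 716 n1430 (.cons 922 n1567 (.cons 798 n1477 (.cons 757 n854 .nil)))))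
noncomputable def n1578 : Strat := .move 758 n107 (.cons 839 n954 (.cons 757 n850 (.cons 841 n1573 (.cons 880 n491 (.cons 716 n1574 (.cons 676 n1576 (.cons 717 n1577 .nil)))))))
noncomputable def n1579 : Strat := .move 757 n905 (.cons 716 n667 .nil)
noncomputable def n1580 : Strat := .move 839 n7 (.cons 880 n106 .nil)
noncomputable def n1581 : Strat := .move 717 n13 (.cons 882 n104 (.cons 880 n673 (.cons 839 n1579 (.cons 676 n1580 .nil))))
noncomputable def n1582 : Strat := .move 716 n0 (.cons 675 n13 .nil)
noncomputable def n1583 : Strat := .move 717 n1582 (.cons 839 n77 (.cons 841 n104 (.cons 675 n72 (.cons 676 n1365 .nil))))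
noncomputable def n1584 : Strat := .move 881 n765 (.cons 717 n21 (.cons 882 n39 (.cons 716 n777 .nil)))
noncomputable def n1585 : Strat := .move 759 n40 (.cons 922 n1426 (.cons 921 n214 (.cons 800 n854 .nil)))
noncomputable def n1586 : Strat := .move 881 n21 (.cons 716 n1585 (.cons 964 n39 (.cons 922 n1023 .nil)))
noncomputable def n1587 : Strat := .move 881 n39 (.cons 880 n21 (.cons 757 n730 .nil))
noncomputable def n1588 : Strat := .move 881 n28 (.cons 882 n131 (.cons 880 n634 (.cons 717 n1429 .nil)))
noncomputable def n1589 : Strat := .move 758 n1581 (.cons 881 n1583 (.cons 839 n957 (.cons 716 n1415 (.cons 882 n1096 (.cons 880 n637 (.cons 675 n1584 (.cons 717 n1586 (.cons 757 n850 (.cons 841 n1587 (.cons 798 n1588 .nil))))))))))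
noncomputable def n1590 : Strat := .win 839 0 795
noncomputable def n1591 : Strat := .win 755 2 754
noncomputable def n1592 : Strat := .win 753 2 753
noncomputable def n1593 : Strat := .move 754 n1591 (.cons 755 n1592 .nil)
noncomputable def n1594 : Strat := .move 795 n1590 (.cons 839 n1593 .nil)
noncomputable def n1595 : Strat := .move 796 n1161 (.cons 841 n1594 .nil)
noncomputable def n1596 : Strat := .win 837 4 796
noncomputable def n1597 : Strat := .move 839 n1186 (.cons 801 n1169 .nil)
noncomputable def n1598 : Strat := .move 838 n1596 (.cons 837 n1597 .nil)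
noncomputable def n1599 : Strat := .move 800 n625 (.cons 842 n1598 .nil)
noncomputable def n1600 : Strat := .move 841 n626 (.cons 796 n1599 .nil)
noncomputable def n1601 : Strat := .move 841 n625 (.cons 842 n1169 .nil)
noncomputable def n1602 : Strat := .move 839 n1186 (.cons 801 n1601 .nil)
noncomputable def n1603 : Strat := .move 838 n1596 (.cons 837 n1602 .nil)
noncomputable def n1604 : Strat := .win 757 2 756
noncomputable def n1605 : Strat := .move 756 n1604 (.cons 757 n1133 .nil)
noncomputable def n1606 : Strat := .move 839 n457 (.cons 802 n458 .nil)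
noncomputable def n1607 : Strat := .move 801 n1605 (.cons 755 n1606 .nil)
noncomputable def n1608 : Strat := .move 718 n595 (.cons 677 n1607 .nil)
noncomputable def n1609 : Strat := .move 759 n1128 (.cons 760 n1608 .nil)
noncomputable def n1610 : Strat := .move 841 n625 (.cons 842 n1609 .nil)
noncomputable def n1611 : Strat := .win 920 3 756
noncomputable def n1612 : Strat := .move 757 n1056 (.cons 716 n1611 .nil)
noncomputable def n1613 : Strat := .move 879 n353 (.cons 878 n1612 .nil)
noncomputable def n1614 : Strat := .move 841 n625 (.cons 842 n1613 .nil)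
noncomputable def n1615 : Strat := .move 839 n1186 (.cons 801 n1614 .nil)
noncomputable def n1616 : Strat := .move 838 n1596 (.cons 837 n1615 .nil)
noncomputable def n1617 : Strat := .move 801 n1605 (.cons 755 n1236 .nil)
noncomputable def n1618 : Strat := .move 718 n595 (.cons 677 n1617 .nil)
noncomputable def n1619 : Strat := .move 759 n1128 (.cons 760 n1618 .nil)
noncomputable def n1620 : Strat := .move 841 n625 (.cons 842 n1619 .nil)
noncomputable def n1621 : Strat := .win 801 2 756
noncomputable def n1622 : Strat := .win 879 3 715
noncomputable def n1623 : Strat := .move 838 n1622 (.cons 879 n1596 .nil)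
noncomputable def n1624 : Strat := .move 716 n1176 (.cons 675 n1623 .nil)
noncomputable def n1625 : Strat := .move 757 n1621 (.cons 801 n1624 .nil)
noncomputable def n1626 : Strat := .move 756 n1133 (.cons 755 n1625 .nil)
noncomputable def n1627 : Strat := .move 759 n1128 (.cons 760 n1626 .nil)
noncomputable def n1628 : Strat := .win 921 7 756
noncomputable def n1629 : Strat := .win 715 6 715
noncomputable def n1630 : Strat := .move 880 n1628 (.cons 921 n1629 .nil)
noncomputable def n1631 : Strat := .move 841 n353 (.cons 878 n625 .nil)
noncomputable def n1632 : Strat := .move 879 n1612 (.cons 920 n1631 .nil)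
noncomputable def n1633 : Strat := .move 839 n1168 (.cons 674 n1630 (.cons 880 n1632 .nil))
noncomputable def n1634 : Strat := .move 756 n1133 (.cons 755 n1633 .nil)
noncomputable def n1635 : Strat := .move 838 n1596 (.cons 837 n1634 .nil)
noncomputable def n1636 : Strat := .move 800 n1603 (.cons 837 n1610 (.cons 842 n1598 (.cons 755 n1616 (.cons 838 n1620 (.cons 839 n1627 (.cons 801 n1635 .nil))))))
noncomputable def n1637 : Strat := .win 837 4 795
noncomputable def n1638 : Strat := .win 835 4 794
noncomputable def n1639 : Strat := .move 836 n1637 (.cons 837 n1638 .nil)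
noncomputable def n1640 : Strat := .move 795 n1590 (.cons 839 n1639 .nil)
noncomputable def n1641 : Strat := .win 838 4 796
noncomputable def n1642 : Strat := .win 754 2 754
noncomputable def n1643 : Strat := .win 756 2 755
noncomputable def n1644 : Strat := .move 755 n1642 (.cons 754 n1643 .nil)
noncomputable def n1645 : Strat := .move 800 n1641 (.cons 838 n1644 .nil)
noncomputable def n1646 : Strat := .move 837 n1202 (.cons 836 n1645 .nil)
noncomputable def n1647 : Strat := .move 796 n1594 (.cons 755 n1640 (.cons 795 n1646 .nil))
noncomputable def n1648 : Strat := .move 800 n1643 (.cons 756 n1641 .nil)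
noncomputable def n1649 : Strat := .move 837 n1202 (.cons 836 n1648 .nil)
noncomputable def n1650 : Strat := .move 755 n1642 (.cons 754 n1649 .nil)
noncomputable def n1651 : Strat := .move 796 n1161 (.cons 841 n1650 .nil)
noncomputable def n1652 : Strat := .move 796 n1161 (.cons 841 n1640 .nil)
noncomputable def n1653 : Strat := .move 798 n1595 (.cons 795 n1600 (.cons 796 n1636 (.cons 841 n1647 (.cons 839 n1651 (.cons 755 n1652 .nil)))))
noncomputable def n1654 : Strat := .move 841 n841 (.cons 796 n829 .nil)
noncomputable def n1655 : Strat := .move 796 n1201 (.cons 841 n831 .nil)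
noncomputable def n1656 : Strat := .move 837 n830 (.cons 800 n1655 .nil)
noncomputable def n1657 : Strat := .win 756 3 755
noncomputable def n1658 : Strat := .win 960 3 796
noncomputable def n1659 : Strat := .move 919 n1657 (.cons 756 n1658 .nil)
noncomputable def n1660 : Strat := .move 796 n831 (.cons 795 n1659 .nil)
noncomputable def n1661 : Strat := .move 878 n835 (.cons 877 n1660 .nil)
noncomputable def n1662 : Strat := .move 837 n830 (.cons 800 n1661 .nil)
noncomputable def n1663 : Strat := .win 921 6 756
noncomputable def n1664 : Strat := .move 756 n1663 (.cons 921 n1629 .nil)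
noncomputable def n1665 : Strat := .move 880 n1038 (.cons 842 n1664 .nil)
noncomputable def n1666 : Strat := .move 879 n353 (.cons 878 n1665 .nil)
noncomputable def n1667 : Strat := .move 841 n841 (.cons 796 n1666 .nil)
noncomputable def n1668 : Strat := .move 839 n1654 (.cons 796 n1047 (.cons 801 n1656 (.cons 841 n1662 (.cons 837 n1667 .nil))))
noncomputable def n1669 : Strat := .win 794 0 794
noncomputable def n1670 : Strat := .win 837 2 795
noncomputable def n1671 : Strat := .move 795 n1669 (.cons 794 n1670 .nil)
noncomputable def n1672 : Strat := .move 796 n1201 (.cons 841 n1671 .nil)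
noncomputable def n1673 : Strat := .win 758 7 758
noncomputable def n1674 : Strat := .move 923 n1673 (.cons 758 n1318 .nil)
noncomputable def n1675 : Strat := .move 800 n356 (.cons 801 n1674 .nil)
noncomputable def n1676 : Strat := .move 882 n1035 (.cons 883 n1675 .nil)
noncomputable def n1677 : Strat := .move 841 n841 (.cons 796 n1676 .nil)
noncomputable def n1678 : Strat := .move 878 n835 (.cons 877 n1659 .nil)
noncomputable def n1679 : Strat := .move 796 n831 (.cons 795 n1678 .nil)
noncomputable def n1680 : Strat := .move 837 n830 (.cons 800 n1679 .nil)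
noncomputable def n1681 : Strat := .move 839 n1656 (.cons 796 n1047 (.cons 800 n1672 (.cons 837 n1677 (.cons 841 n1680 .nil))))
noncomputable def n1682 : Strat := .move 837 n830 (.cons 800 n831 .nil)
noncomputable def n1683 : Strat := .move 796 n1201 (.cons 841 n1682 .nil)
noncomputable def n1684 : Strat := .move 877 n1050 (.cons 876 n1049 .nil)
noncomputable def n1685 : Strat := .move 836 n1073 (.cons 794 n1684 .nil)
noncomputable def n1686 : Strat := .move 795 n1072 (.cons 796 n1685 .nil)
noncomputable def n1687 : Strat := .move 837 n830 (.cons 800 n1686 .nil)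
noncomputable def n1688 : Strat := .move 839 n1683 (.cons 796 n1047 (.cons 800 n1672 (.cons 837 n1677 (.cons 841 n1687 .nil))))
noncomputable def n1689 : Strat := .move 839 n1201 (.cons 841 n1671 .nil)
noncomputable def n1690 : Strat := .win 920 7 755
noncomputable def n1691 : Strat := .win 714 7 714
noncomputable def n1692 : Strat := .win 716 3 715
noncomputable def n1693 : Strat := .win 759 4 755
noncomputable def n1694 : Strat := .move 758 n1693 (.cons 759 n204 .nil)
noncomputable def n1695 : Strat := .move 757 n1692 (.cons 716 n1694 .nil)
noncomputable def n1696 : Strat := .move 756 n1691 (.cons 714 n1695 .nil)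
noncomputable def n1697 : Strat := .move 755 n1690 (.cons 920 n1696 .nil)
noncomputable def n1698 : Strat := .move 755 n1691 (.cons 714 n1695 .nil)
noncomputable def n1699 : Strat := .win 919 1 755
noncomputable def n1700 : Strat := .win 837 1 714
noncomputable def n1701 : Strat := .win 675 3 674
noncomputable def n1702 : Strat := .win 757 3 715
noncomputable def n1703 : Strat := .move 716 n1701 (.cons 675 n1702 .nil)
noncomputable def n1704 : Strat := .move 715 n1700 (.cons 837 n1703 .nil)
noncomputable def n1705 : Strat := .move 878 n1699 (.cons 919 n1704 .nil)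
noncomputable def n1706 : Strat := .win 755 7 714
noncomputable def n1707 : Strat := .win 673 7 673
noncomputable def n1708 : Strat := .win 878 1 714
noncomputable def n1709 : Strat := .win 674 1 673
noncomputable def n1710 : Strat := .move 837 n1708 (.cons 878 n1709 .nil)
noncomputable def n1711 : Strat := .move 715 n1707 (.cons 673 n1710 .nil)
noncomputable def n1712 : Strat := .move 714 n1706 (.cons 755 n1711 .nil)
noncomputable def n1713 : Strat := .move 756 n1698 (.cons 714 n1705 (.cons 757 n1712 .nil))
noncomputable def n1714 : Strat := .win 755 7 755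
noncomputable def n1715 : Strat := .win 837 7 796
noncomputable def n1716 : Strat := .win 1001 1 837
noncomputable def n1717 : Strat := .win 919 1 796
noncomputable def n1718 : Strat := .move 960 n1716 (.cons 1001 n1717 .nil)
noncomputable def n1719 : Strat := .move 961 n1715 (.cons 837 n1718 .nil)
noncomputable def n1720 : Strat := .move 920 n1714 (.cons 755 n1719 .nil)
noncomputable def n1721 : Strat := .win 961 7 796
noncomputable def n1722 : Strat := .win 960 1 796
noncomputable def n1723 : Strat := .win 878 1 755
noncomputable def n1724 : Strat := .move 919 n1722 (.cons 960 n1723 .nil)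
noncomputable def n1725 : Strat := .win 880 6 756
noncomputable def n1726 : Strat := .move 921 n1335 (.cons 962 n1725 .nil)
noncomputable def n1727 : Strat := .move 756 n1724 (.cons 878 n1726 .nil)
noncomputable def n1728 : Strat := .move 837 n1721 (.cons 961 n1727 .nil)
noncomputable def n1729 : Strat := .move 756 n1723 (.cons 878 n1726 .nil)
noncomputable def n1730 : Strat := .move 919 n1722 (.cons 960 n1729 .nil)
noncomputable def n1731 : Strat := .win 1003 6 838
noncomputable def n1732 : Strat := .win 921 6 797
noncomputable def n1733 : Strat := .move 962 n1731 (.cons 1003 n1732 .nil)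
noncomputable def n1734 : Strat := .move 961 n1715 (.cons 837 n1733 .nil)
noncomputable def n1735 : Strat := .move 920 n1719 (.cons 1001 n1728 (.cons 961 n1730 (.cons 919 n1734 .nil)))
noncomputable def n1736 : Strat := .move 879 n1697 (.cons 920 n1713 (.cons 756 n1720 (.cons 755 n1735 .nil)))
noncomputable def n1737 : Strat := .win 1002 3 838
noncomputable def n1738 : Strat := .move 961 n1737 (.cons 1002 n1715 .nil)
noncomputable def n1739 : Strat := .move 880 n1664 (.cons 715 n1505 (.cons 921 n1738 .nil))
noncomputable def n1740 : Strat := .move 920 n1714 (.cons 755 n1739 .nil)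
noncomputable def n1741 : Strat := .move 961 n1731 (.cons 1003 n1715 .nil)
noncomputable def n1742 : Strat := .move 962 n1732 (.cons 921 n1741 .nil)
noncomputable def n1743 : Strat := .move 920 n1714 (.cons 755 n1742 .nil)
noncomputable def n1744 : Strat := .move 880 n1663 (.cons 921 n1629 .nil)
noncomputable def n1745 : Strat := .win 876 5 835
noncomputable def n1746 : Strat := .win 837 4 836
noncomputable def n1747 : Strat := .move 877 n1745 (.cons 876 n1746 .nil)
noncomputable def n1748 : Strat := .move 878 n1699 (.cons 919 n1747 .nil)
noncomputable def n1749 : Strat := .move 756 n1744 (.cons 715 n1748 .nil)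
noncomputable def n1750 : Strat := .move 756 n1724 (.cons 878 n1744 .nil)
noncomputable def n1751 : Strat := .move 920 n1714 (.cons 755 n1750 .nil)
noncomputable def n1752 : Strat := .win 837 6 714
noncomputable def n1753 : Strat := .win 673 6 673
noncomputable def n1754 : Strat := .move 714 n1752 (.cons 837 n1753 .nil)
noncomputable def n1755 : Strat := .move 755 n1690 (.cons 920 n1754 .nil)
noncomputable def n1756 : Strat := .move 879 n1740 (.cons 1002 n1743 (.cons 920 n1749 (.cons 837 n1751 (.cons 921 n1755 .nil))))
noncomputable def n1757 : Strat := .move 839 n1201 (.cons 841 n1756 .nil)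
noncomputable def n1758 : Strat := .move 920 n1714 (.cons 755 n1727 .nil)
noncomputable def n1759 : Strat := .move 839 n1201 (.cons 841 n1758 .nil)
noncomputable def n1760 : Strat := .move 756 n1725 (.cons 880 n1724 .nil)
noncomputable def n1761 : Strat := .move 921 n1335 (.cons 962 n1760 .nil)
noncomputable def n1762 : Strat := .move 920 n1714 (.cons 755 n1761 .nil)
noncomputable def n1763 : Strat := .move 880 n1629 (.cons 715 n1663 .nil)
noncomputable def n1764 : Strat := .move 715 n1707 (.cons 673 n1166 .nil)
noncomputable def n1765 : Strat := .move 714 n1706 (.cons 755 n1764 .nil)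
noncomputable def n1766 : Strat := .move 878 n1294 (.cons 877 n1699 .nil)
noncomputable def n1767 : Strat := .move 880 n1663 (.cons 921 n1766 .nil)
noncomputable def n1768 : Strat := .move 714 n1707 (.cons 673 n1706 .nil)
noncomputable def n1769 : Strat := .move 715 n1703 (.cons 757 n1768 .nil)
noncomputable def n1770 : Strat := .move 756 n1763 (.cons 921 n1765 (.cons 715 n1767 (.cons 880 n1769 .nil)))
noncomputable def n1771 : Strat := .move 839 n1201 (.cons 841 n1770 .nil)
noncomputable def n1772 : Strat := .move 961 n1718 (.cons 919 n1733 .nil)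
noncomputable def n1773 : Strat := .move 920 n1714 (.cons 755 n1772 .nil)
noncomputable def n1774 : Strat := .move 839 n1201 (.cons 841 n1773 .nil)
noncomputable def n1775 : Strat := .win 756 7 714
noncomputable def n1776 : Strat := .move 714 n1775 (.cons 756 n1753 .nil)
noncomputable def n1777 : Strat := .move 755 n1690 (.cons 920 n1776 .nil)
noncomputable def n1778 : Strat := .move 839 n1201 (.cons 841 n1777 .nil)
noncomputable def n1779 : Strat := .win 880 5 836
noncomputable def n1780 : Strat := .move 877 n1779 (.cons 880 n1745 .nil)
noncomputable def n1781 : Strat := .move 839 n1201 (.cons 841 n1780 .nil)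
noncomputable def n1782 : Strat := .move 756 n1663 (.cons 921 n1699 .nil)
noncomputable def n1783 : Strat := .move 880 n1294 (.cons 877 n1782 .nil)
noncomputable def n1784 : Strat := .move 839 n1201 (.cons 841 n1783 .nil)
noncomputable def n1785 : Strat := .win 756 1 755
noncomputable def n1786 : Strat := .win 1001 3 837
noncomputable def n1787 : Strat := .win 920 1 796
noncomputable def n1788 : Strat := .move 960 n1786 (.cons 1001 n1787 .nil)
noncomputable def n1789 : Strat := .move 919 n1785 (.cons 756 n1788 .nil)
noncomputable def n1790 : Strat := .move 878 n1781 (.cons 876 n1784 (.cons 839 n1789 .nil))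
noncomputable def n1791 : Strat := .move 879 n1759 (.cons 839 n1762 (.cons 920 n1771 (.cons 756 n1774 (.cons 921 n1778 (.cons 755 n1790 .nil)))))
noncomputable def n1792 : Strat := .move 796 n1689 (.cons 839 n1736 (.cons 795 n1757 (.cons 837 n1791 .nil)))
noncomputable def n1793 : Strat := .move 796 n1201 (.cons 841 n1756 .nil)
noncomputable def n1794 : Strat := .win 715 1 714
noncomputable def n1795 : Strat := .win 879 1 755
noncomputable def n1796 : Strat := .move 919 n1795 (.cons 879 n1658 .nil)
noncomputable def n1797 : Strat := .move 756 n1794 (.cons 715 n1796 .nil)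
noncomputable def n1798 : Strat := .move 878 n835 (.cons 877 n1797 .nil)
noncomputable def n1799 : Strat := .move 837 n830 (.cons 800 n1798 .nil)
noncomputable def n1800 : Strat := .move 839 n1654 (.cons 800 n1793 (.cons 837 n1667 (.cons 796 n1047 (.cons 841 n1799 .nil))))
noncomputable def n1801 : Strat := .move 839 n830 (.cons 800 n1166 .nil)
noncomputable def n1802 : Strat := .move 837 n1708 (.cons 878 n1801 .nil)
noncomputable def n1803 : Strat := .move 839 n831 (.cons 795 n830 .nil)
noncomputable def n1804 : Strat := .move 796 n1709 (.cons 674 n1803 .nil)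
noncomputable def n1805 : Strat := .move 837 n1708 (.cons 878 n1804 .nil)
noncomputable def n1806 : Strat := .move 879 n1706 (.cons 755 n1702 .nil)
noncomputable def n1807 : Strat := .move 714 n1707 (.cons 673 n1806 .nil)
noncomputable def n1808 : Strat := .move 716 n1701 (.cons 675 n1807 .nil)
noncomputable def n1809 : Strat := .move 715 n1802 (.cons 880 n1805 (.cons 837 n1808 .nil))
noncomputable def n1810 : Strat := .win 714 7 673
noncomputable def n1811 : Strat := .win 632 7 632
noncomputable def n1812 : Strat := .win 634 3 633
noncomputable def n1813 : Strat := .win 716 3 674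
noncomputable def n1814 : Strat := .move 675 n1812 (.cons 634 n1813 .nil)
noncomputable def n1815 : Strat := .move 674 n1811 (.cons 632 n1814 .nil)
noncomputable def n1816 : Strat := .move 673 n1810 (.cons 714 n1815 .nil)
noncomputable def n1817 : Strat := .move 839 n1166 (.cons 880 n1816 .nil)
noncomputable def n1818 : Strat := .win 796 1 673
noncomputable def n1819 : Strat := .move 674 n1818 (.cons 796 n1814 .nil)
noncomputable def n1820 : Strat := .move 837 n1708 (.cons 878 n1819 .nil)
noncomputable def n1821 : Strat := .move 715 n1802 (.cons 837 n1817 (.cons 880 n1820 .nil))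
noncomputable def n1822 : Strat := .move 796 n204 (.cons 795 n1690 .nil)
noncomputable def n1823 : Strat := .move 758 n199 (.cons 800 n1822 .nil)
noncomputable def n1824 : Strat := .move 757 n1692 (.cons 716 n1823 .nil)
noncomputable def n1825 : Strat := .move 755 n1691 (.cons 714 n1824 .nil)
noncomputable def n1826 : Strat := .move 716 n1702 (.cons 757 n1701 .nil)
noncomputable def n1827 : Strat := .move 715 n1700 (.cons 837 n1826 .nil)
noncomputable def n1828 : Strat := .move 878 n1699 (.cons 919 n1827 .nil)
noncomputable def n1829 : Strat := .win 796 7 755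
noncomputable def n1830 : Strat := .move 920 n1829 (.cons 796 n1724 .nil)
noncomputable def n1831 : Strat := .move 755 n1691 (.cons 714 n1830 .nil)
noncomputable def n1832 : Strat := .move 879 n1825 (.cons 714 n1828 (.cons 716 n1831 .nil))
noncomputable def n1833 : Strat := .win 839 6 715
noncomputable def n1834 : Strat := .move 715 n1833 (.cons 839 n1826 .nil)
noncomputable def n1835 : Strat := .move 880 n1663 (.cons 921 n1834 .nil)
noncomputable def n1836 : Strat := .move 839 n1629 (.cons 715 n1766 .nil)
noncomputable def n1837 : Strat := .move 880 n1663 (.cons 921 n1836 .nil)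
noncomputable def n1838 : Strat := .move 879 n1825 (.cons 758 n1835 (.cons 716 n1837 .nil))
noncomputable def n1839 : Strat := .move 716 n1701 (.cons 675 n1806 .nil)
noncomputable def n1840 : Strat := .move 714 n1707 (.cons 673 n1839 .nil)
noncomputable def n1841 : Strat := .move 796 n831 (.cons 795 n1709 .nil)
noncomputable def n1842 : Strat := .move 837 n830 (.cons 800 n1841 .nil)
noncomputable def n1843 : Strat := .move 839 n1166 (.cons 880 n1842 .nil)
noncomputable def n1844 : Strat := .move 716 n1701 (.cons 675 n1843 .nil)
noncomputable def n1845 : Strat := .move 714 n1707 (.cons 673 n1843 .nil)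
noncomputable def n1846 : Strat := .move 715 n1840 (.cons 755 n1844 (.cons 716 n1845 .nil))
noncomputable def n1847 : Strat := .move 839 n835 (.cons 877 n830 .nil)
noncomputable def n1848 : Strat := .move 837 n1794 (.cons 715 n1847 .nil)
noncomputable def n1849 : Strat := .move 878 n1699 (.cons 919 n1848 .nil)
noncomputable def n1850 : Strat := .move 920 n1335 (.cons 962 n1724 .nil)
noncomputable def n1851 : Strat := .move 921 n1725 (.cons 880 n1850 .nil)
noncomputable def n1852 : Strat := .move 879 n1849 (.cons 878 n1835 (.cons 839 n1828 (.cons 715 n1851 .nil)))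
noncomputable def n1853 : Strat := .move 920 n1829 (.cons 796 n1726 .nil)
noncomputable def n1854 : Strat := .move 755 n1691 (.cons 714 n1853 .nil)
noncomputable def n1855 : Strat := .move 879 n1849 (.cons 839 n1831 (.cons 878 n1854 .nil))
noncomputable def n1856 : Strat := .move 878 n1699 (.cons 919 n1700 .nil)
noncomputable def n1857 : Strat := .move 879 n1702 (.cons 757 n1856 .nil)
noncomputable def n1858 : Strat := .move 716 n1701 (.cons 675 n1857 .nil)
noncomputable def n1859 : Strat := .move 879 n1706 (.cons 755 n1856 .nil)
noncomputable def n1860 : Strat := .move 714 n1707 (.cons 673 n1859 .nil)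
noncomputable def n1861 : Strat := .move 715 n1840 (.cons 755 n1858 (.cons 716 n1860 (.cons 879 n1820 .nil)))
noncomputable def n1862 : Strat := .move 796 n1693 (.cons 759 n204 .nil)
noncomputable def n1863 : Strat := .move 758 n199 (.cons 800 n1862 .nil)
noncomputable def n1864 : Strat := .move 757 n1692 (.cons 716 n1863 .nil)
noncomputable def n1865 : Strat := .move 755 n1691 (.cons 714 n1864 .nil)
noncomputable def n1866 : Strat := .move 879 n1825 (.cons 714 n1851 (.cons 920 n1865 .nil))
noncomputable def n1867 : Strat := .move 756 n1809 (.cons 879 n1821 (.cons 839 n1832 (.cons 837 n1838 (.cons 878 n1846 (.cons 714 n1852 (.cons 716 n1855 (.cons 800 n1861 (.cons 715 n1866 .nil))))))))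
noncomputable def n1868 : Strat := .win 879 6 756
noncomputable def n1869 : Strat := .move 921 n1868 (.cons 879 n1026 .nil)
noncomputable def n1870 : Strat := .move 880 n1629 (.cons 715 n1869 .nil)
noncomputable def n1871 : Strat := .move 839 n1870 (.cons 921 n1672 .nil)
noncomputable def n1872 : Strat := .win 879 7 714
noncomputable def n1873 : Strat := .win 718 4 714
noncomputable def n1874 : Strat := .move 717 n1873 (.cons 718 n524 .nil)
noncomputable def n1875 : Strat := .move 755 n1872 (.cons 879 n1874 .nil)
noncomputable def n1876 : Strat := .move 716 n1701 (.cons 675 n1875 .nil)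
noncomputable def n1877 : Strat := .move 714 n1707 (.cons 673 n1876 .nil)
noncomputable def n1878 : Strat := .move 755 n1829 (.cons 796 n1691 .nil)
noncomputable def n1879 : Strat := .move 920 n1726 (.cons 880 n1878 .nil)
noncomputable def n1880 : Strat := .move 879 n1702 (.cons 757 n1879 .nil)
noncomputable def n1881 : Strat := .move 716 n1701 (.cons 675 n1880 .nil)
noncomputable def n1882 : Strat := .win 758 0 713
noncomputable def n1883 : Strat := .win 712 0 712
noncomputable def n1884 : Strat := .move 713 n1882 (.cons 758 n1883 .nil)
noncomputable def n1885 : Strat := .move 757 n1622 (.cons 879 n1884 .nil)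
noncomputable def n1886 : Strat := .move 714 n1707 (.cons 673 n1885 .nil)
noncomputable def n1887 : Strat := .move 716 n1701 (.cons 675 n1886 .nil)
noncomputable def n1888 : Strat := .win 755 1 632
noncomputable def n1889 : Strat := .win 837 1 673
noncomputable def n1890 : Strat := .move 796 n1888 (.cons 755 n1889 .nil)
noncomputable def n1891 : Strat := .win 591 7 591
noncomputable def n1892 : Strat := .win 673 7 632
noncomputable def n1893 : Strat := .move 632 n1891 (.cons 591 n1892 .nil)
noncomputable def n1894 : Strat := .move 633 n1890 (.cons 837 n1893 .nil)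
noncomputable def n1895 : Strat := .move 674 n1812 (.cons 634 n1894 .nil)
noncomputable def n1896 : Strat := .move 675 n1813 (.cons 716 n1895 .nil)
noncomputable def n1897 : Strat := .win 593 3 592
noncomputable def n1898 : Strat := .win 675 3 633
noncomputable def n1899 : Strat := .move 634 n1897 (.cons 593 n1898 .nil)
noncomputable def n1900 : Strat := .move 633 n1890 (.cons 837 n1899 .nil)
noncomputable def n1901 : Strat := .move 674 n1811 (.cons 632 n1900 .nil)
noncomputable def n1902 : Strat := .move 673 n1810 (.cons 714 n1901 .nil)
noncomputable def n1903 : Strat := .move 879 n1706 (.cons 755 n1692 .nil)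
noncomputable def n1904 : Strat := .win 759 2 714
noncomputable def n1905 : Strat := .move 755 n199 (.cons 800 n1872 .nil)
noncomputable def n1906 : Strat := .move 758 n1904 (.cons 759 n1905 .nil)
noncomputable def n1907 : Strat := .win 716 0 713
noncomputable def n1908 : Strat := .move 713 n1907 (.cons 716 n1883 .nil)
noncomputable def n1909 : Strat := .move 758 n1904 (.cons 759 n1908 .nil)
noncomputable def n1910 : Strat := .move 757 n1903 (.cons 716 n1906 (.cons 755 n1909 .nil))
noncomputable def n1911 : Strat := .move 714 n1707 (.cons 673 n1910 .nil)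
noncomputable def n1912 : Strat := .move 715 n1840 (.cons 757 n1877 (.cons 673 n1881 (.cons 755 n1887 (.cons 714 n1896 (.cons 716 n1902 (.cons 675 n1911 .nil))))))
noncomputable def n1913 : Strat := .win 884 0 839
noncomputable def n1914 : Strat := .win 882 0 838
noncomputable def n1915 : Strat := .move 883 n1913 (.cons 884 n1914 .nil)
noncomputable def n1916 : Strat := .move 842 n1915 (.cons 882 n1383 .nil)
noncomputable def n1917 : Strat := .move 880 n1629 (.cons 715 n1916 .nil)
noncomputable def n1918 : Strat := .move 841 n841 (.cons 796 n1917 .nil)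
noncomputable def n1919 : Strat := .move 801 n1044 (.cons 841 n457 .nil)
noncomputable def n1920 : Strat := .move 800 n357 (.cons 837 n1919 .nil)
noncomputable def n1921 : Strat := .move 921 n1026 (.cons 962 n1920 .nil)
noncomputable def n1922 : Strat := .move 880 n1629 (.cons 715 n1921 .nil)
noncomputable def n1923 : Strat := .move 796 n1709 (.cons 674 n831 .nil)
noncomputable def n1924 : Strat := .move 837 n830 (.cons 800 n1923 .nil)
noncomputable def n1925 : Strat := .move 715 n1166 (.cons 880 n1924 .nil)
noncomputable def n1926 : Strat := .move 839 n1672 (.cons 837 n1918 (.cons 796 n1922 (.cons 841 n1925 .nil)))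
noncomputable def n1927 : Strat := .move 839 n1166 (.cons 880 n1920 .nil)
noncomputable def n1928 : Strat := .move 715 n1808 (.cons 757 n1927 .nil)
noncomputable def n1929 : Strat := .move 673 n1811 (.cons 632 n1810 .nil)
noncomputable def n1930 : Strat := .move 674 n1814 (.cons 716 n1929 .nil)
noncomputable def n1931 : Strat := .move 841 n841 (.cons 796 n1930 .nil)
noncomputable def n1932 : Strat := .move 839 n1166 (.cons 880 n1931 .nil)
noncomputable def n1933 : Strat := .move 841 n841 (.cons 796 n1916 .nil)
noncomputable def n1934 : Strat := .move 839 n1166 (.cons 880 n1933 .nil)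
noncomputable def n1935 : Strat := .move 715 n1808 (.cons 755 n1932 (.cons 716 n1934 .nil))
noncomputable def n1936 : Strat := .move 714 n1706 (.cons 755 n1707 .nil)
noncomputable def n1937 : Strat := .move 879 n1826 (.cons 675 n1936 .nil)
noncomputable def n1938 : Strat := .move 715 n1923 (.cons 795 n1819 (.cons 674 n1937 .nil))
noncomputable def n1939 : Strat := .move 837 n830 (.cons 800 n1938 .nil)
noncomputable def n1940 : Strat := .move 839 n1672 (.cons 796 n1047 (.cons 837 n1677 (.cons 841 n1939 .nil)))
noncomputable def n1941 : Strat := .move 839 n1201 (.cons 841 n1682 .nil)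
noncomputable def n1942 : Strat := .move 755 n204 (.cons 795 n199 .nil)
noncomputable def n1943 : Strat := .move 758 n1693 (.cons 759 n1942 .nil)
noncomputable def n1944 : Strat := .move 755 n1690 (.cons 920 n1691 .nil)
noncomputable def n1945 : Strat := .move 879 n1692 (.cons 716 n1944 .nil)
noncomputable def n1946 : Strat := .win 634 1 633
noncomputable def n1947 : Strat := .move 758 n563 (.cons 717 n1693 .nil)
noncomputable def n1948 : Strat := .move 675 n1946 (.cons 634 n1947 .nil)
noncomputable def n1949 : Strat := .move 716 n1622 (.cons 879 n1948 .nil)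
noncomputable def n1950 : Strat := .move 757 n1943 (.cons 800 n1945 (.cons 755 n1949 .nil))
noncomputable def n1951 : Strat := .win 839 2 796
noncomputable def n1952 : Strat := .move 923 n1519 (.cons 800 n1318 .nil)
noncomputable def n1953 : Strat := .move 882 n620 (.cons 717 n1952 .nil)
noncomputable def n1954 : Strat := .move 714 n1753 (.cons 673 n1872 .nil)
noncomputable def n1955 : Strat := .move 757 n199 (.cons 800 n1693 .nil)
noncomputable def n1956 : Strat := .move 755 n1954 (.cons 879 n1955 .nil)
noncomputable def n1957 : Strat := .move 757 n1693 (.cons 759 n1692 .nil)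
noncomputable def n1958 : Strat := .move 879 n1957 (.cons 716 n1944 .nil)
noncomputable def n1959 : Strat := .move 758 n1953 (.cons 882 n1956 (.cons 800 n1958 .nil))
noncomputable def n1960 : Strat := .move 841 n1951 (.cons 839 n1959 .nil)
noncomputable def n1961 : Strat := .move 796 n1689 (.cons 794 n1941 (.cons 839 n1950 (.cons 795 n1960 .nil)))
noncomputable def n1962 : Strat := .move 756 n1871 (.cons 839 n1912 (.cons 879 n1926 (.cons 796 n1928 (.cons 837 n1935 (.cons 880 n1940 (.cons 715 n1961 .nil))))))
noncomputable def n1963 : Strat := .move 841 n353 (.cons 878 n841 .nil)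
noncomputable def n1964 : Strat := .move 839 n1629 (.cons 715 n1963 .nil)
noncomputable def n1965 : Strat := .move 880 n1663 (.cons 921 n1964 .nil)
noncomputable def n1966 : Strat := .move 878 n1065 (.cons 841 n1699 .nil)
noncomputable def n1967 : Strat := .move 839 n1629 (.cons 715 n1966 .nil)
noncomputable def n1968 : Strat := .move 880 n1663 (.cons 921 n1967 .nil)
noncomputable def n1969 : Strat := .move 879 n1965 (.cons 839 n1825 (.cons 796 n1968 .nil))
noncomputable def n1970 : Strat := .move 715 n1166 (.cons 880 n1816 .nil)
noncomputable def n1971 : Strat := .move 839 n1918 (.cons 841 n1970 (.cons 880 n1677 .nil))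
noncomputable def n1972 : Strat := .move 878 n1699 (.cons 919 n1853 .nil)
noncomputable def n1973 : Strat := .move 755 n1691 (.cons 714 n1972 .nil)
noncomputable def n1974 : Strat := .move 715 n1701 (.cons 675 n1936 .nil)
noncomputable def n1975 : Strat := .move 716 n1702 (.cons 757 n1974 .nil)
noncomputable def n1976 : Strat := .move 920 n1724 (.cons 878 n1726 .nil)
noncomputable def n1977 : Strat := .move 715 n1701 (.cons 675 n1976 .nil)
noncomputable def n1978 : Strat := .move 716 n1702 (.cons 757 n1977 .nil)
noncomputable def n1979 : Strat := .move 879 n1825 (.cons 757 n1973 (.cons 796 n1975 (.cons 755 n1978 .nil)))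
noncomputable def n1980 : Strat := .move 758 n204 (.cons 795 n199 .nil)
noncomputable def n1981 : Strat := .move 796 n1690 (.cons 920 n1980 .nil)
noncomputable def n1982 : Strat := .move 757 n1692 (.cons 716 n1981 .nil)
noncomputable def n1983 : Strat := .move 755 n1691 (.cons 714 n1982 .nil)
noncomputable def n1984 : Strat := .move 839 n1065 (.cons 841 n1780 .nil)
noncomputable def n1985 : Strat := .move 878 n1699 (.cons 919 n1984 .nil)
noncomputable def n1986 : Strat := .move 879 n1983 (.cons 796 n1985 .nil)
noncomputable def n1987 : Strat := .move 755 n1691 (.cons 714 n1985 .nil)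
noncomputable def n1988 : Strat := .move 839 n1201 (.cons 841 n1744 .nil)
noncomputable def n1989 : Strat := .move 796 n1690 (.cons 920 n1988 .nil)
noncomputable def n1990 : Strat := .move 755 n1691 (.cons 714 n1989 .nil)
noncomputable def n1991 : Strat := .move 879 n1965 (.cons 841 n1837 (.cons 921 n1987 (.cons 880 n1831 (.cons 878 n1990 .nil))))
noncomputable def n1992 : Strat := .move 880 n1038 (.cons 842 n1629 .nil)
noncomputable def n1993 : Strat := .move 879 n353 (.cons 878 n1992 .nil)
noncomputable def n1994 : Strat := .move 841 n841 (.cons 796 n1993 .nil)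
noncomputable def n1995 : Strat := .move 879 n353 (.cons 878 n1916 .nil)
noncomputable def n1996 : Strat := .move 841 n841 (.cons 796 n1995 .nil)
noncomputable def n1997 : Strat := .move 839 n1870 (.cons 921 n1994 (.cons 880 n1996 (.cons 879 n1918 .nil)))
noncomputable def n1998 : Strat := .move 879 n1968 (.cons 839 n1975 (.cons 715 n1985 .nil))
noncomputable def n1999 : Strat := .move 715 n1701 (.cons 675 n1807 .nil)
noncomputable def n2000 : Strat := .move 879 n1702 (.cons 757 n1831 .nil)
noncomputable def n2001 : Strat := .move 717 n524 (.cons 754 n1873 .nil)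
noncomputable def n2002 : Strat := .move 755 n1872 (.cons 879 n2001 .nil)
noncomputable def n2003 : Strat := .move 714 n1707 (.cons 673 n2002 .nil)
noncomputable def n2004 : Strat := .move 715 n1701 (.cons 675 n2003 .nil)
noncomputable def n2005 : Strat := .move 715 n1701 (.cons 675 n1886 .nil)
noncomputable def n2006 : Strat := .win 715 3 674
noncomputable def n2007 : Strat := .move 675 n2006 (.cons 715 n1946 .nil)
noncomputable def n2008 : Strat := .move 714 n1707 (.cons 673 n1884 .nil)
noncomputable def n2009 : Strat := .move 715 n1701 (.cons 675 n2008 .nil)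
noncomputable def n2010 : Strat := .move 675 n563 (.cons 717 n1946 .nil)
noncomputable def n2011 : Strat := .move 755 n1538 (.cons 754 n199 .nil)
noncomputable def n2012 : Strat := .move 717 n0 (.cons 675 n2011 .nil)
noncomputable def n2013 : Strat := .move 796 n1693 (.cons 759 n1942 .nil)
noncomputable def n2014 : Strat := .move 758 n2010 (.cons 634 n2012 (.cons 717 n2013 .nil))
noncomputable def n2015 : Strat := .move 796 n204 (.cons 795 n1693 .nil)
noncomputable def n2016 : Strat := .move 755 n199 (.cons 800 n2015 .nil)
noncomputable def n2017 : Strat := .move 715 n693 (.cons 760 n648 .nil)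
noncomputable def n2018 : Strat := .move 759 n196 (.cons 796 n2017 .nil)
noncomputable def n2019 : Strat := .move 717 n919 (.cons 718 n1538 .nil)
noncomputable def n2020 : Strat := .move 755 n199 (.cons 800 n2019 .nil)
noncomputable def n2021 : Strat := .move 758 n2016 (.cons 755 n2018 (.cons 759 n2020 .nil))
noncomputable def n2022 : Strat := .move 757 n2007 (.cons 634 n2009 (.cons 715 n2014 (.cons 675 n2021 .nil)))
noncomputable def n2023 : Strat := .move 757 n1622 (.cons 879 n1946 .nil)
noncomputable def n2024 : Strat := .move 675 n2006 (.cons 715 n2023 .nil)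
noncomputable def n2025 : Strat := .move 716 n1999 (.cons 715 n2000 (.cons 757 n2004 (.cons 755 n2005 (.cons 879 n2022 (.cons 714 n2024 .nil)))))
noncomputable def n2026 : Strat := .move 756 n1969 (.cons 879 n1971 (.cons 839 n1979 (.cons 715 n1986 (.cons 716 n1991 (.cons 714 n1997 (.cons 796 n1998 (.cons 880 n2025 .nil)))))))
noncomputable def n2027 : Strat := .move 879 n1825 (.cons 800 n1831 (.cons 755 n1828 .nil))
noncomputable def n2028 : Strat := .win 758 0 755
noncomputable def n2029 : Strat := .move 757 n2028 (.cons 758 n1692 .nil)
noncomputable def n2030 : Strat := .move 755 n1691 (.cons 714 n2029 .nil)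
noncomputable def n2031 : Strat := .move 920 n1722 (.cons 960 n1726 .nil)
noncomputable def n2032 : Strat := .move 919 n1723 (.cons 878 n2031 .nil)
noncomputable def n2033 : Strat := .move 800 n2030 (.cons 716 n1831 (.cons 755 n2032 .nil))
noncomputable def n2034 : Strat := .move 755 n2028 (.cons 758 n1691 .nil)
noncomputable def n2035 : Strat := .move 757 n1692 (.cons 716 n2034 .nil)
noncomputable def n2036 : Strat := .move 801 n576 (.cons 802 n589 .nil)
noncomputable def n2037 : Strat := .move 758 n51 (.cons 755 n2036 .nil)
noncomputable def n2038 : Strat := .move 757 n1692 (.cons 716 n2037 .nil)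
noncomputable def n2039 : Strat := .move 800 n2035 (.cons 714 n2038 (.cons 757 n2032 .nil))
noncomputable def n2040 : Strat := .move 879 n2033 (.cons 796 n2039 (.cons 755 n2032 (.cons 919 n1825 (.cons 920 n1865 .nil))))
noncomputable def n2041 : Strat := .move 715 n1700 (.cons 837 n1936 .nil)
noncomputable def n2042 : Strat := .move 878 n1699 (.cons 919 n2041 .nil)
noncomputable def n2043 : Strat := .win 755 6 755
noncomputable def n2044 : Strat := .move 796 n1721 (.cons 961 n2043 .nil)
noncomputable def n2045 : Strat := .move 920 n1726 (.cons 880 n2044 .nil)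
noncomputable def n2046 : Strat := .move 837 n1794 (.cons 715 n2045 .nil)
noncomputable def n2047 : Strat := .move 878 n1699 (.cons 919 n2046 .nil)
noncomputable def n2048 : Strat := .move 879 n1831 (.cons 920 n2042 (.cons 714 n2047 (.cons 878 n1854 (.cons 755 n2032 .nil))))
noncomputable def n2049 : Strat := .move 879 n1828 (.cons 715 n2039 (.cons 878 n1975 (.cons 757 n2042 .nil)))
noncomputable def n2050 : Strat := .move 879 n1828 (.cons 715 n1865 (.cons 716 n2042 .nil))
noncomputable def n2051 : Strat := .move 716 n1622 (.cons 879 n1701 .nil)
noncomputable def n2052 : Strat := .move 714 n1904 (.cons 759 n1707 .nil)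
noncomputable def n2053 : Strat := .move 757 n2051 (.cons 675 n2052 .nil)
noncomputable def n2054 : Strat := .move 837 n1708 (.cons 878 n2053 .nil)
noncomputable def n2055 : Strat := .move 757 n1622 (.cons 879 n2052 .nil)
noncomputable def n2056 : Strat := .move 716 n1701 (.cons 675 n2055 .nil)
noncomputable def n2057 : Strat := .move 674 n1818 (.cons 796 n1929 .nil)
noncomputable def n2058 : Strat := .move 837 n1708 (.cons 878 n2057 .nil)
noncomputable def n2059 : Strat := .move 758 n1820 (.cons 674 n2054 (.cons 837 n2056 (.cons 716 n2058 .nil)))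
noncomputable def n2060 : Strat := .move 715 n2059 (.cons 878 n1887 (.cons 714 n1858 (.cons 716 n2058 .nil)))
noncomputable def n2061 : Strat := .move 759 n50 (.cons 801 n196 .nil)
noncomputable def n2062 : Strat := .move 800 n51 (.cons 755 n2061 .nil)
noncomputable def n2063 : Strat := .move 716 n693 (.cons 760 n1701 .nil)
noncomputable def n2064 : Strat := .move 715 n648 (.cons 714 n2063 .nil)
noncomputable def n2065 : Strat := .move 759 n196 (.cons 796 n2064 .nil)
noncomputable def n2066 : Strat := .move 716 n1538 (.cons 754 n0 .nil)
noncomputable def n2067 : Strat := .move 717 n919 (.cons 718 n2066 .nil)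
noncomputable def n2068 : Strat := .move 755 n199 (.cons 800 n2067 .nil)
noncomputable def n2069 : Strat := .move 757 n2062 (.cons 755 n2065 (.cons 759 n2068 .nil))
noncomputable def n2070 : Strat := .move 759 n196 (.cons 796 n192 .nil)
noncomputable def n2071 : Strat := .win 632 6 632
noncomputable def n2072 : Strat := .win 715 7 673
noncomputable def n2073 : Strat := .move 673 n2071 (.cons 632 n2072 .nil)
noncomputable def n2074 : Strat := .move 714 n200 (.cons 713 n2073 .nil)
noncomputable def n2075 : Strat := .move 755 n199 (.cons 800 n2074 .nil)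
noncomputable def n2076 : Strat := .move 757 n2070 (.cons 755 n2065 (.cons 759 n2075 .nil))
noncomputable def n2077 : Strat := .move 837 n1818 (.cons 796 n1708 .nil)
noncomputable def n2078 : Strat := .move 674 n1812 (.cons 634 n2077 .nil)
noncomputable def n2079 : Strat := .move 675 n1813 (.cons 716 n2078 .nil)
noncomputable def n2080 : Strat := .move 674 n1811 (.cons 632 n2077 .nil)
noncomputable def n2081 : Strat := .move 673 n1810 (.cons 714 n2080 .nil)
noncomputable def n2082 : Strat := .move 674 n1811 (.cons 632 n1812 .nil)
noncomputable def n2083 : Strat := .move 673 n1810 (.cons 714 n2082 .nil)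
noncomputable def n2084 : Strat := .move 675 n1813 (.cons 716 n2083 .nil)
noncomputable def n2085 : Strat := .move 714 n339 (.cons 759 n1707 .nil)
noncomputable def n2086 : Strat := .move 718 n82 (.cons 755 n2 .nil)
noncomputable def n2087 : Strat := .move 717 n2085 (.cons 673 n2086 .nil)
noncomputable def n2088 : Strat := .move 716 n1701 (.cons 675 n2087 .nil)
noncomputable def n2089 : Strat := .move 715 n2079 (.cons 634 n2081 (.cons 837 n2084 (.cons 674 n2088 .nil)))
noncomputable def n2090 : Strat := .win 636 1 635
noncomputable def n2091 : Strat := .win 717 3 676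
noncomputable def n2092 : Strat := .move 677 n2090 (.cons 636 n2091 .nil)
noncomputable def n2093 : Strat := .move 718 n542 (.cons 719 n2092 .nil)
noncomputable def n2094 : Strat := .move 759 n196 (.cons 796 n2093 .nil)
noncomputable def n2095 : Strat := .move 757 n2016 (.cons 795 n2068 (.cons 755 n2094 .nil))
noncomputable def n2096 : Strat := .move 757 n2016 (.cons 755 n2094 (.cons 759 n2075 .nil))
noncomputable def n2097 : Strat := .move 757 n338 (.cons 713 n1904 .nil)
noncomputable def n2098 : Strat := .move 716 n1701 (.cons 675 n2097 .nil)
noncomputable def n2099 : Strat := .move 714 n1707 (.cons 673 n2098 .nil)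
noncomputable def n2100 : Strat := .move 757 n1904 (.cons 759 n1908 .nil)
noncomputable def n2101 : Strat := .move 714 n1707 (.cons 673 n2100 .nil)
noncomputable def n2102 : Strat := .move 715 n2079 (.cons 634 n2099 (.cons 675 n2101 (.cons 716 n2058 .nil)))
noncomputable def n2103 : Strat := .move 676 n74 (.cons 634 n1010 .nil)
noncomputable def n2104 : Strat := .move 675 n73 (.cons 716 n2103 .nil)
noncomputable def n2105 : Strat := .win 716 4 715
noncomputable def n2106 : Strat := .move 719 n84 (.cons 720 n2105 .nil)
noncomputable def n2107 : Strat := .move 757 n270 (.cons 755 n2106 .nil)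
noncomputable def n2108 : Strat := .move 718 n2 (.cons 677 n2107 .nil)
noncomputable def n2109 : Strat := .move 676 n10 (.cons 800 n1010 .nil)
noncomputable def n2110 : Strat := .move 841 n9 (.cons 882 n2109 .nil)
noncomputable def n2111 : Strat := .move 676 n74 (.cons 634 n913 .nil)
noncomputable def n2112 : Strat := .move 675 n73 (.cons 716 n2111 .nil)
noncomputable def n2113 : Strat := .move 717 n2104 (.cons 675 n2108 (.cons 716 n2110 (.cons 718 n2112 .nil)))
noncomputable def n2114 : Strat := .move 758 n2069 (.cons 754 n2076 (.cons 757 n2089 (.cons 715 n2095 (.cons 675 n2096 (.cons 755 n2102 (.cons 759 n2113 .nil))))))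
noncomputable def n2115 : Strat := .move 715 n1701 (.cons 675 n1857 .nil)
noncomputable def n2116 : Strat := .move 879 n1702 (.cons 757 n2032 .nil)
noncomputable def n2117 : Strat := .move 675 n563 (.cons 717 n2006 .nil)
noncomputable def n2118 : Strat := .move 758 n2117 (.cons 715 n2012 (.cons 717 n2070 .nil))
noncomputable def n2119 : Strat := .win 715 4 714
noncomputable def n2120 : Strat := .move 718 n2119 (.cons 715 n81 .nil)
noncomputable def n2121 : Strat := .move 717 n1538 (.cons 754 n2120 .nil)
noncomputable def n2122 : Strat := .move 758 n199 (.cons 800 n2015 .nil)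
noncomputable def n2123 : Strat := .move 755 n2121 (.cons 717 n2122 .nil)
noncomputable def n2124 : Strat := .move 758 n2010 (.cons 634 n2012 (.cons 717 n2070 .nil))
noncomputable def n2125 : Strat := .move 757 n2007 (.cons 634 n2118 (.cons 675 n2123 (.cons 715 n2124 .nil)))
noncomputable def n2126 : Strat := .move 715 n1701 (.cons 675 n1856 .nil)
noncomputable def n2127 : Strat := .move 796 n1715 (.cons 837 n1714 .nil)
noncomputable def n2128 : Strat := .move 961 n1733 (.cons 921 n2127 .nil)
noncomputable def n2129 : Strat := .move 715 n1701 (.cons 675 n1708 .nil)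
noncomputable def n2130 : Strat := .move 796 n1721 (.cons 961 n1714 .nil)
noncomputable def n2131 : Strat := .move 837 n2129 (.cons 878 n2130 .nil)
noncomputable def n2132 : Strat := .move 920 n1726 (.cons 880 n2128 (.cons 962 n2131 .nil))
noncomputable def n2133 : Strat := .move 961 n1718 (.cons 919 n2127 .nil)
noncomputable def n2134 : Strat := .move 920 n1726 (.cons 880 n1772 (.cons 962 n2133 .nil))
noncomputable def n2135 : Strat := .move 879 n2126 (.cons 675 n2032 (.cons 919 n2132 (.cons 878 n2134 .nil)))
noncomputable def n2136 : Strat := .move 716 n2115 (.cons 675 n2116 (.cons 879 n2125 (.cons 757 n2135 .nil)))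
noncomputable def n2137 : Strat := .move 756 n2027 (.cons 715 n2040 (.cons 716 n2048 (.cons 878 n1912 (.cons 796 n2049 (.cons 920 n2050 (.cons 755 n2060 (.cons 879 n2114 (.cons 714 n2136 .nil))))))))
noncomputable def n2138 : Strat := .move 837 n1794 (.cons 715 n830 .nil)
noncomputable def n2139 : Strat := .move 839 n1065 (.cons 841 n2138 .nil)
noncomputable def n2140 : Strat := .move 878 n1699 (.cons 919 n2139 .nil)
noncomputable def n2141 : Strat := .move 839 n1629 (.cons 715 n1061 .nil)
noncomputable def n2142 : Strat := .move 880 n1663 (.cons 921 n2141 .nil)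
noncomputable def n2143 : Strat := .move 841 n356 (.cons 801 n1038 .nil)
noncomputable def n2144 : Strat := .move 800 n357 (.cons 837 n2143 .nil)
noncomputable def n2145 : Strat := .move 839 n1629 (.cons 715 n2144 .nil)
noncomputable def n2146 : Strat := .move 880 n1663 (.cons 921 n2145 .nil)
noncomputable def n2147 : Strat := .move 837 n835 (.cons 877 n830 .nil)
noncomputable def n2148 : Strat := .move 839 n1065 (.cons 841 n2147 .nil)
noncomputable def n2149 : Strat := .move 878 n1699 (.cons 919 n2148 .nil)
noncomputable def n2150 : Strat := .move 879 n2140 (.cons 839 n1828 (.cons 837 n1968 (.cons 919 n2142 (.cons 878 n2146 (.cons 715 n2149 .nil)))))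
noncomputable def n2151 : Strat := .move 837 n830 (.cons 800 n1708 .nil)
noncomputable def n2152 : Strat := .move 839 n1166 (.cons 880 n2151 .nil)
noncomputable def n2153 : Strat := .move 880 n1663 (.cons 921 n1833 .nil)
noncomputable def n2154 : Strat := .move 879 n1706 (.cons 755 n2153 .nil)
noncomputable def n2155 : Strat := .move 714 n1707 (.cons 673 n2154 .nil)
noncomputable def n2156 : Strat := .move 715 n2152 (.cons 878 n1927 (.cons 837 n2155 (.cons 839 n1877 .nil)))
noncomputable def n2157 : Strat := .move 878 n1794 (.cons 715 n835 .nil)
noncomputable def n2158 : Strat := .move 837 n830 (.cons 800 n2157 .nil)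
noncomputable def n2159 : Strat := .move 839 n1870 (.cons 921 n2158 (.cons 715 n1047 .nil))
noncomputable def n2160 : Strat := .move 674 n1812 (.cons 634 n1929 .nil)
noncomputable def n2161 : Strat := .move 675 n1813 (.cons 716 n2160 .nil)
noncomputable def n2162 : Strat := .move 715 n2152 (.cons 878 n1927 (.cons 837 n2161 .nil))
noncomputable def n2163 : Strat := .move 839 n357 (.cons 837 n1045 .nil)
noncomputable def n2164 : Strat := .move 879 n2035 (.cons 714 n2038 (.cons 757 n2032 .nil))
noncomputable def n2165 : Strat := .move 880 n1663 (.cons 921 n1061 .nil)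
noncomputable def n2166 : Strat := .move 879 n1966 (.cons 919 n2165 (.cons 841 n1767 (.cons 878 n2030 .nil)))
noncomputable def n2167 : Strat := .move 839 n357 (.cons 837 n2166 .nil)
noncomputable def n2168 : Strat := .move 800 n2163 (.cons 839 n2164 (.cons 801 n2167 .nil))
noncomputable def n2169 : Strat := .move 879 n1706 (.cons 755 n1699 .nil)
noncomputable def n2170 : Strat := .move 878 n1700 (.cons 837 n2169 .nil)
noncomputable def n2171 : Strat := .move 714 n1707 (.cons 673 n2170 .nil)
noncomputable def n2172 : Strat := .move 715 n1808 (.cons 716 n2171 (.cons 673 n1858 (.cons 879 n2161 .nil)))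
noncomputable def n2173 : Strat := .move 756 n2150 (.cons 839 n2049 (.cons 878 n1928 (.cons 837 n1998 (.cons 757 n2156 (.cons 716 n2159 (.cons 879 n2162 (.cons 715 n2168 (.cons 880 n2172 .nil))))))))
noncomputable def n2174 : Strat := .move 838 n1668 (.cons 879 n1681 (.cons 756 n1688 (.cons 800 n1792 (.cons 795 n1800 (.cons 841 n1867 (.cons 878 n1962 (.cons 837 n2026 (.cons 839 n2137 (.cons 796 n2173 .nil)))))))))
noncomputable def n2175 : Strat := .win 800 2 755
noncomputable def n2176 : Strat := .move 757 n200 (.cons 713 n204 .nil)
noncomputable def n2177 : Strat := .win 838 6 673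
noncomputable def n2178 : Strat := .move 673 n2071 (.cons 632 n2177 .nil)
noncomputable def n2179 : Strat := .move 714 n2176 (.cons 795 n2178 .nil)
noncomputable def n2180 : Strat := .move 756 n2175 (.cons 800 n2179 .nil)
noncomputable def n2181 : Strat := .move 758 n1163 (.cons 759 n2180 .nil)
noncomputable def n2182 : Strat := .move 755 n1642 (.cons 754 n2181 .nil)
noncomputable def n2183 : Strat := .win 800 4 796
noncomputable def n2184 : Strat := .win 879 6 714
noncomputable def n2185 : Strat := .move 714 n2184 (.cons 879 n1753 .nil)
noncomputable def n2186 : Strat := .move 838 n2183 (.cons 800 n2185 .nil)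
noncomputable def n2187 : Strat := .move 755 n1642 (.cons 754 n2186 .nil)
noncomputable def n2188 : Strat := .move 837 n1202 (.cons 836 n2187 .nil)
noncomputable def n2189 : Strat := .win 757 4 754
noncomputable def n2190 : Strat := .move 836 n1638 (.cons 835 n1637 .nil)
noncomputable def n2191 : Strat := .move 795 n2189 (.cons 757 n2190 .nil)
noncomputable def n2192 : Strat := .move 758 n1163 (.cons 759 n2191 .nil)
noncomputable def n2193 : Strat := .move 756 n2175 (.cons 800 n2192 .nil)
noncomputable def n2194 : Strat := .move 755 n1642 (.cons 754 n2193 .nil)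
noncomputable def n2195 : Strat := .win 795 5 754
noncomputable def n2196 : Strat := .move 837 n1641 (.cons 838 n1202 .nil)
noncomputable def n2197 : Strat := .move 801 n576 (.cons 802 n575 .nil)
noncomputable def n2198 : Strat := .move 800 n2196 (.cons 836 n2197 .nil)
noncomputable def n2199 : Strat := .move 716 n1176 (.cons 675 n2198 .nil)
noncomputable def n2200 : Strat := .move 757 n2195 (.cons 795 n2199 .nil)
noncomputable def n2201 : Strat := .move 758 n1163 (.cons 759 n2200 .nil)
noncomputable def n2202 : Strat := .win 757 5 754
noncomputable def n2203 : Strat := .move 795 n2202 (.cons 757 n1593 .nil)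
noncomputable def n2204 : Strat := .move 758 n1163 (.cons 759 n2203 .nil)
noncomputable def n2205 : Strat := .move 796 n1650 (.cons 837 n2182 (.cons 756 n2188 (.cons 838 n2194 (.cons 755 n2201 (.cons 800 n2204 .nil)))))
noncomputable def n2206 : Strat := .move 796 n1161 (.cons 841 n2204 .nil)
noncomputable def n2207 : Strat := .move 796 n1161 (.cons 841 n2201 .nil)
noncomputable def n2208 : Strat := .move 758 n1036 (.cons 923 n620 .nil)
noncomputable def n2209 : Strat := .move 923 n1318 (.cons 964 n1673 .nil)
noncomputable def n2210 : Strat := .win 758 6 717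
noncomputable def n2211 : Strat := .win 676 7 676
noncomputable def n2212 : Strat := .move 718 n2211 (.cons 676 n595 .nil)
noncomputable def n2213 : Strat := .move 717 n2210 (.cons 758 n2212 .nil)
noncomputable def n2214 : Strat := .win 965 6 800
noncomputable def n2215 : Strat := .win 883 6 759
noncomputable def n2216 : Strat := .move 924 n2214 (.cons 965 n2215 .nil)
noncomputable def n2217 : Strat := .move 923 n1318 (.cons 964 n2216 .nil)
noncomputable def n2218 : Strat := .move 882 n2208 (.cons 717 n2209 (.cons 923 n2213 (.cons 758 n2217 .nil)))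
noncomputable def n2219 : Strat := .move 841 n625 (.cons 842 n2218 .nil)
noncomputable def n2220 : Strat := .move 759 n1128 (.cons 760 n2219 .nil)
noncomputable def n2221 : Strat := .move 800 n1627 (.cons 759 n1626 (.cons 756 n2220 .nil))
noncomputable def n2222 : Strat := .move 798 n1651 (.cons 841 n2205 (.cons 800 n2206 (.cons 755 n2207 (.cons 796 n2221 .nil))))
noncomputable def n2223 : Strat := .win 715 3 714
noncomputable def n2224 : Strat := .win 919 3 755
noncomputable def n2225 : Strat := .move 756 n2223 (.cons 715 n2224 .nil)
noncomputable def n2226 : Strat := .move 879 n1066 (.cons 920 n1067 .nil)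
noncomputable def n2227 : Strat := .win 839 4 836
noncomputable def n2228 : Strat := .win 918 1 754
noncomputable def n2229 : Strat := .move 877 n2227 (.cons 839 n2228 .nil)
noncomputable def n2230 : Strat := .move 838 n2185 (.cons 673 n2226 (.cons 879 n2229 .nil))
noncomputable def n2231 : Strat := .move 878 n2225 (.cons 919 n2230 .nil)
noncomputable def n2232 : Strat := .move 755 n1642 (.cons 754 n2231 .nil)
noncomputable def n2233 : Strat := .move 837 n1202 (.cons 836 n2232 .nil)
noncomputable def n2234 : Strat := .move 758 n1163 (.cons 759 n2202 .nil)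
noncomputable def n2235 : Strat := .move 795 n1590 (.cons 839 n2234 .nil)
noncomputable def n2236 : Strat := .move 796 n1594 (.cons 795 n2233 (.cons 839 n2204 (.cons 754 n2235 .nil)))
noncomputable def n2237 : Strat := .move 795 n1590 (.cons 839 n2202 .nil)
noncomputable def n2238 : Strat := .move 758 n1163 (.cons 759 n2237 .nil)
noncomputable def n2239 : Strat := .win 878 3 714
noncomputable def n2240 : Strat := .move 715 n2239 (.cons 878 n1709 .nil)
noncomputable def n2241 : Strat := .move 837 n1202 (.cons 836 n2240 .nil)
noncomputable def n2242 : Strat := .move 756 n2175 (.cons 800 n2241 .nil)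
noncomputable def n2243 : Strat := .move 755 n1642 (.cons 754 n2242 .nil)
noncomputable def n2244 : Strat := .move 796 n1594 (.cons 839 n2194 (.cons 754 n2238 (.cons 795 n2243 .nil)))
noncomputable def n2245 : Strat := .move 796 n1640 (.cons 839 n2188 (.cons 837 n1594 .nil))
noncomputable def n2246 : Strat := .move 839 n7 (.cons 880 n305 .nil)
noncomputable def n2247 : Strat := .win 757 5 714
noncomputable def n2248 : Strat := .move 718 n2247 (.cons 757 n2 .nil)
noncomputable def n2249 : Strat := .move 717 n2246 (.cons 676 n2248 .nil)
noncomputable def n2250 : Strat := .move 758 n1163 (.cons 759 n2249 .nil)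
noncomputable def n2251 : Strat := .move 756 n2175 (.cons 800 n2250 .nil)
noncomputable def n2252 : Strat := .move 755 n1642 (.cons 754 n2251 .nil)
noncomputable def n2253 : Strat := .move 796 n1594 (.cons 754 n2238 (.cons 795 n2252 (.cons 839 n2182 .nil)))
noncomputable def n2254 : Strat := .win 758 5 755
noncomputable def n2255 : Strat := .move 759 n2254 (.cons 758 n1128 .nil)
noncomputable def n2256 : Strat := .move 800 n1641 (.cons 838 n2255 .nil)
noncomputable def n2257 : Strat := .move 837 n1202 (.cons 836 n2256 .nil)
noncomputable def n2258 : Strat := .move 796 n1640 (.cons 839 n2201 (.cons 836 n2235 (.cons 795 n2257 .nil)))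
noncomputable def n2259 : Strat := .win 839 4 797
noncomputable def n2260 : Strat := .move 801 n1604 (.cons 757 n2259 .nil)
noncomputable def n2261 : Strat := .move 756 n1133 (.cons 755 n2260 .nil)
noncomputable def n2262 : Strat := .move 838 n1596 (.cons 837 n2261 .nil)
noncomputable def n2263 : Strat := .move 796 n2254 (.cons 758 n1642 .nil)
noncomputable def n2264 : Strat := .move 755 n1643 (.cons 756 n2263 .nil)
noncomputable def n2265 : Strat := .move 838 n1596 (.cons 837 n2264 .nil)
noncomputable def n2266 : Strat := .move 759 n1128 (.cons 760 n2265 .nil)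
noncomputable def n2267 : Strat := .move 718 n542 (.cons 719 n595 .nil)
noncomputable def n2268 : Strat := .move 757 n50 (.cons 801 n2267 .nil)
noncomputable def n2269 : Strat := .move 756 n1133 (.cons 755 n2268 .nil)
noncomputable def n2270 : Strat := .move 758 n512 (.cons 796 n2269 .nil)
noncomputable def n2271 : Strat := .move 759 n1128 (.cons 760 n2270 .nil)
noncomputable def n2272 : Strat := .move 717 n7 (.cons 880 n305 .nil)
noncomputable def n2273 : Strat := .move 758 n512 (.cons 796 n2272 .nil)
noncomputable def n2274 : Strat := .move 839 n1186 (.cons 801 n2273 .nil)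
noncomputable def n2275 : Strat := .move 759 n1128 (.cons 760 n2274 .nil)
noncomputable def n2276 : Strat := .move 838 n1596 (.cons 837 n2275 .nil)
noncomputable def n2277 : Strat := .move 800 n2262 (.cons 801 n2266 (.cons 838 n2271 (.cons 756 n2276 .nil)))
noncomputable def n2278 : Strat := .move 839 n458 (.cons 838 n457 .nil)
noncomputable def n2279 : Strat := .move 801 n1604 (.cons 757 n2278 .nil)
noncomputable def n2280 : Strat := .move 756 n1133 (.cons 755 n2279 .nil)
noncomputable def n2281 : Strat := .move 879 n1692 (.cons 716 n1611 .nil)
noncomputable def n2282 : Strat := .move 757 n1621 (.cons 801 n2281 .nil)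
noncomputable def n2283 : Strat := .move 756 n1133 (.cons 755 n2282 .nil)
noncomputable def n2284 : Strat := .move 838 n1596 (.cons 837 n2283 .nil)
noncomputable def n2285 : Strat := .win 759 5 756
noncomputable def n2286 : Strat := .win 761 5 757
noncomputable def n2287 : Strat := .move 760 n2285 (.cons 759 n2286 .nil)
noncomputable def n2288 : Strat := .move 801 n2259 (.cons 839 n2287 .nil)
noncomputable def n2289 : Strat := .move 838 n1596 (.cons 837 n2288 .nil)
noncomputable def n2290 : Strat := .move 801 n1604 (.cons 757 n2287 .nil)
noncomputable def n2291 : Strat := .move 756 n1133 (.cons 755 n2290 .nil)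
noncomputable def n2292 : Strat := .move 839 n1166 (.cons 880 n1167 .nil)
noncomputable def n2293 : Strat := .move 757 n1611 (.cons 920 n1692 .nil)
noncomputable def n2294 : Strat := .move 879 n1826 (.cons 675 n2293 (.cons 757 n2153 .nil))
noncomputable def n2295 : Strat := .win 839 6 674
noncomputable def n2296 : Strat := .move 674 n2295 (.cons 839 n1814 .nil)
noncomputable def n2297 : Strat := .move 715 n2292 (.cons 674 n2294 (.cons 880 n2296 (.cons 839 n1930 .nil)))
noncomputable def n2298 : Strat := .move 838 n1596 (.cons 837 n2297 .nil)
noncomputable def n2299 : Strat := .move 756 n1133 (.cons 755 n2298 .nil)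
noncomputable def n2300 : Strat := .move 800 n2262 (.cons 837 n2280 (.cons 839 n2284 (.cons 755 n2289 (.cons 838 n2291 (.cons 801 n2299 .nil)))))
noncomputable def n2301 : Strat := .move 798 n1647 (.cons 800 n2236 (.cons 839 n2205 (.cons 838 n2244 (.cons 756 n2245 (.cons 837 n2253 (.cons 755 n2258 (.cons 795 n2277 (.cons 796 n2300 .nil))))))))
noncomputable def n2302 : Strat := .move 798 n1161 (.cons 841 n1594 .nil)
noncomputable def n2303 : Strat := .move 798 n1594 (.cons 795 n2233 (.cons 839 n2204 (.cons 754 n2235 .nil)))
noncomputable def n2304 : Strat := .move 798 n1161 (.cons 841 n2204 .nil)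
noncomputable def n2305 : Strat := .move 798 n1161 (.cons 841 n2233 .nil)
noncomputable def n2306 : Strat := .move 798 n1161 (.cons 841 n2235 .nil)
noncomputable def n2307 : Strat := .move 838 n1689 (.cons 839 n1736 (.cons 795 n1757 (.cons 837 n1791 .nil)))
noncomputable def n2308 : Strat := .move 796 n2302 (.cons 841 n2303 (.cons 839 n2304 (.cons 795 n2305 (.cons 754 n2306 (.cons 798 n2307 .nil)))))
noncomputable def n2309 : Strat := .win 800 0 797
noncomputable def n2310 : Strat := .win 839 2 797
noncomputable def n2311 : Strat := .move 842 n2309 (.cons 800 n2310 .nil)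
noncomputable def n2312 : Strat := .move 841 n626 (.cons 796 n2311 .nil)
noncomputable def n2313 : Strat := .move 796 n1161 (.cons 841 n2194 .nil)
noncomputable def n2314 : Strat := .move 801 n1604 (.cons 757 n1236 .nil)
noncomputable def n2315 : Strat := .move 756 n1133 (.cons 755 n2314 .nil)
noncomputable def n2316 : Strat := .move 841 n625 (.cons 842 n2315 .nil)
noncomputable def n2317 : Strat := .move 801 n2286 (.cons 761 n1236 .nil)
noncomputable def n2318 : Strat := .move 760 n2285 (.cons 759 n2317 .nil)
noncomputable def n2319 : Strat := .move 841 n625 (.cons 842 n2318 .nil)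
noncomputable def n2320 : Strat := .move 800 n1620 (.cons 759 n2316 (.cons 842 n2291 (.cons 755 n2319 (.cons 801 n2220 .nil))))
noncomputable def n2321 : Strat := .move 798 n2312 (.cons 841 n2244 (.cons 800 n1595 (.cons 839 n2313 (.cons 796 n2320 .nil))))
noncomputable def n2322 : Strat := .move 796 n1161 (.cons 841 n2188 .nil)
noncomputable def n2323 : Strat := .move 800 n1616 (.cons 842 n2289 (.cons 839 n2220 .nil))
noncomputable def n2324 : Strat := .move 798 n1652 (.cons 841 n2245 (.cons 839 n2322 (.cons 837 n1595 (.cons 796 n2323 .nil))))
noncomputable def n2325 : Strat := .move 800 n625 (.cons 842 n1609 .nil)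
noncomputable def n2326 : Strat := .move 841 n626 (.cons 796 n2325 .nil)
noncomputable def n2327 : Strat := .move 759 n1128 (.cons 760 n2218 .nil)
noncomputable def n2328 : Strat := .move 841 n625 (.cons 842 n2327 .nil)
noncomputable def n2329 : Strat := .move 800 n1610 (.cons 801 n2328 (.cons 841 n2280 .nil))
noncomputable def n2330 : Strat := .move 796 n1161 (.cons 841 n2182 .nil)
noncomputable def n2331 : Strat := .move 798 n2326 (.cons 759 n2312 (.cons 842 n1595 (.cons 796 n2329 (.cons 841 n2253 (.cons 839 n2330 .nil)))))
noncomputable def n2332 : Strat := .move 755 n1642 (.cons 754 n2185 .nil)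
noncomputable def n2333 : Strat := .move 839 n1160 (.cons 795 n2332 .nil)
noncomputable def n2334 : Strat := .move 838 n2183 (.cons 800 n2333 .nil)
noncomputable def n2335 : Strat := .move 837 n1202 (.cons 836 n2334 .nil)
noncomputable def n2336 : Strat := .move 796 n1161 (.cons 841 n2335 .nil)
noncomputable def n2337 : Strat := .move 755 n1642 (.cons 754 n1648 .nil)
noncomputable def n2338 : Strat := .move 837 n1202 (.cons 836 n2337 .nil)
noncomputable def n2339 : Strat := .move 796 n1161 (.cons 841 n2338 .nil)
noncomputable def n2340 : Strat := .win 839 0 838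
noncomputable def n2341 : Strat := .win 924 6 759
noncomputable def n2342 : Strat := .move 883 n2340 (.cons 839 n2341 .nil)
noncomputable def n2343 : Strat := .move 838 n1596 (.cons 837 n2342 .nil)
noncomputable def n2344 : Strat := .move 882 n2208 (.cons 717 n2209 (.cons 923 n2213 (.cons 758 n2343 .nil)))
noncomputable def n2345 : Strat := .move 759 n1128 (.cons 760 n2344 .nil)
noncomputable def n2346 : Strat := .move 841 n625 (.cons 842 n2345 .nil)
noncomputable def n2347 : Strat := .move 756 n1133 (.cons 755 n2319 .nil)
noncomputable def n2348 : Strat := .move 800 n1603 (.cons 801 n2346 (.cons 842 n1598 (.cons 838 n2347 (.cons 839 n2220 .nil))))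
noncomputable def n2349 : Strat := .move 796 n2335 (.cons 837 n1594 (.cons 795 n2338 (.cons 755 n1640 .nil)))
noncomputable def n2350 : Strat := .move 798 n2336 (.cons 800 n1595 (.cons 755 n1652 (.cons 795 n2339 (.cons 796 n2348 (.cons 841 n2349 .nil)))))
noncomputable def n2351 : Strat := .move 796 n1594 (.cons 755 n1640 (.cons 795 n2338 .nil))
noncomputable def n2352 : Strat := .move 800 n1603 (.cons 839 n1626 (.cons 755 n1616 (.cons 838 n2316 (.cons 801 n1635 .nil))))
noncomputable def n2353 : Strat := .move 756 n2175 (.cons 800 n2240 .nil)
noncomputable def n2354 : Strat := .move 837 n1202 (.cons 836 n2353 .nil)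
noncomputable def n2355 : Strat := .move 755 n1642 (.cons 754 n2354 .nil)
noncomputable def n2356 : Strat := .move 796 n1161 (.cons 841 n2355 .nil)
noncomputable def n2357 : Strat := .move 798 n1595 (.cons 795 n2312 (.cons 841 n2351 (.cons 796 n2352 (.cons 839 n2356 .nil))))
noncomputable def n2358 : Strat := .move 882 n1035 (.cons 883 n2208 .nil)
noncomputable def n2359 : Strat := .move 841 n625 (.cons 842 n2358 .nil)
noncomputable def n2360 : Strat := .move 839 n1186 (.cons 801 n2359 .nil)
noncomputable def n2361 : Strat := .move 838 n1596 (.cons 837 n2360 .nil)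
noncomputable def n2362 : Strat := .move 878 n1699 (.cons 919 n1065 .nil)
noncomputable def n2363 : Strat := .move 879 n1612 (.cons 920 n2362 .nil)
noncomputable def n2364 : Strat := .move 756 n1168 (.cons 674 n1630 (.cons 880 n2363 .nil))
noncomputable def n2365 : Strat := .move 839 n1186 (.cons 801 n2364 .nil)
noncomputable def n2366 : Strat := .move 838 n1596 (.cons 837 n2365 .nil)
noncomputable def n2367 : Strat := .move 883 n2341 (.cons 924 n2340 .nil)
noncomputable def n2368 : Strat := .move 882 n2208 (.cons 717 n2209 (.cons 923 n2367 .nil))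
noncomputable def n2369 : Strat := .move 759 n1128 (.cons 760 n2368 .nil)
noncomputable def n2370 : Strat := .move 841 n625 (.cons 842 n2369 .nil)
noncomputable def n2371 : Strat := .move 838 n1596 (.cons 837 n2370 .nil)
noncomputable def n2372 : Strat := .win 758 2 757
noncomputable def n2373 : Strat := .move 802 n1235 (.cons 803 n2372 .nil)
noncomputable def n2374 : Strat := .move 757 n575 (.cons 756 n2373 .nil)
noncomputable def n2375 : Strat := .move 841 n625 (.cons 842 n2374 .nil)
noncomputable def n2376 : Strat := .move 801 n2286 (.cons 761 n2375 .nil)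
noncomputable def n2377 : Strat := .move 760 n2285 (.cons 759 n2376 .nil)
noncomputable def n2378 : Strat := .move 800 n1616 (.cons 878 n2361 (.cons 842 n2366 (.cons 801 n2371 (.cons 838 n2319 (.cons 841 n2289 (.cons 839 n2377 .nil))))))
noncomputable def n2379 : Strat := .move 798 n1652 (.cons 839 n2207 (.cons 837 n2312 (.cons 796 n2378 (.cons 841 n2258 .nil))))
noncomputable def n2380 : Strat := .move 841 n625 (.cons 842 n1598 .nil)
noncomputable def n2381 : Strat := .move 800 n2380 (.cons 837 n1610 (.cons 842 n1598 (.cons 838 n1620 (.cons 801 n1635 (.cons 839 n1627 (.cons 756 n1616 .nil))))))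
noncomputable def n2382 : Strat := .move 796 n1161 (.cons 841 n2243 .nil)
noncomputable def n2383 : Strat := .move 796 n1161 (.cons 841 n2233 .nil)
noncomputable def n2384 : Strat := .move 838 n2183 (.cons 800 n2332 .nil)
noncomputable def n2385 : Strat := .move 837 n1202 (.cons 836 n2384 .nil)
noncomputable def n2386 : Strat := .move 796 n1161 (.cons 841 n2385 .nil)
noncomputable def n2387 : Strat := .move 839 n1186 (.cons 801 n1613 .nil)
noncomputable def n2388 : Strat := .move 838 n1596 (.cons 837 n2387 .nil)
noncomputable def n2389 : Strat := .move 800 n625 (.cons 842 n2388 .nil)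
noncomputable def n2390 : Strat := .move 841 n626 (.cons 796 n2389 .nil)
noncomputable def n2391 : Strat := .move 798 n1600 (.cons 796 n2381 (.cons 841 n2277 (.cons 838 n2382 (.cons 837 n2326 (.cons 800 n2383 (.cons 756 n2386 (.cons 755 n2390 .nil)))))))
noncomputable def n2392 : Strat := .move 839 n1186 (.cons 801 n1168 .nil)
noncomputable def n2393 : Strat := .move 838 n1596 (.cons 837 n2392 .nil)
noncomputable def n2394 : Strat := .move 800 n1133 (.cons 755 n2393 .nil)
noncomputable def n2395 : Strat := .win 838 6 715
noncomputable def n2396 : Strat := .move 880 n1628 (.cons 921 n2395 .nil)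
noncomputable def n2397 : Strat := .move 839 n1167 (.cons 674 n2396 .nil)
noncomputable def n2398 : Strat := .move 837 n1053 (.cons 836 n1708 .nil)
noncomputable def n2399 : Strat := .move 716 n1359 (.cons 757 n1701 .nil)
noncomputable def n2400 : Strat := .move 757 n1611 (.cons 920 n1056 .nil)
noncomputable def n2401 : Strat := .move 879 n2399 (.cons 675 n2400 (.cons 757 n1936 .nil))
noncomputable def n2402 : Strat := .move 838 n2398 (.cons 878 n2401 .nil)
noncomputable def n2403 : Strat := .move 839 n1167 (.cons 674 n2402 .nil)
noncomputable def n2404 : Strat := .move 838 n1622 (.cons 879 n1707 .nil)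
noncomputable def n2405 : Strat := .move 714 n2404 (.cons 673 n1884 .nil)
noncomputable def n2406 : Strat := .move 716 n1176 (.cons 675 n2405 .nil)
noncomputable def n2407 : Strat := .move 758 n338 (.cons 713 n1904 .nil)
noncomputable def n2408 : Strat := .move 714 n2404 (.cons 673 n2407 .nil)
noncomputable def n2409 : Strat := .move 716 n1176 (.cons 675 n2408 .nil)
noncomputable def n2410 : Strat := .move 758 n200 (.cons 713 n1904 .nil)
noncomputable def n2411 : Strat := .win 758 2 713
noncomputable def n2412 : Strat := .move 713 n2411 (.cons 758 n1883 .nil)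
noncomputable def n2413 : Strat := .win 838 7 673
noncomputable def n2414 : Strat := .move 673 n2071 (.cons 632 n2413 .nil)
noncomputable def n2415 : Strat := .move 714 n2410 (.cons 759 n2412 (.cons 713 n2414 .nil))
noncomputable def n2416 : Strat := .move 755 n768 (.cons 754 n2415 .nil)
noncomputable def n2417 : Strat := .win 716 6 675
noncomputable def n2418 : Strat := .win 633 6 633
noncomputable def n2419 : Strat := .move 674 n2418 (.cons 633 n1812 .nil)
noncomputable def n2420 : Strat := .move 675 n2417 (.cons 716 n2419 .nil)
noncomputable def n2421 : Strat := .move 757 n2406 (.cons 712 n2409 (.cons 716 n2416 (.cons 838 n2420 .nil)))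
noncomputable def n2422 : Strat := .move 839 n1166 (.cons 880 n2398 .nil)
noncomputable def n2423 : Strat := .move 839 n2398 (.cons 878 n2401 .nil)
noncomputable def n2424 : Strat := .move 841 n836 (.cons 879 n983 .nil)
noncomputable def n2425 : Strat := .move 878 n1700 (.cons 837 n2424 .nil)
noncomputable def n2426 : Strat := .move 839 n1166 (.cons 880 n2425 .nil)
noncomputable def n2427 : Strat := .move 839 n1166 (.cons 880 n2401 .nil)
noncomputable def n2428 : Strat := .move 838 n2422 (.cons 880 n2423 (.cons 836 n2426 (.cons 839 n1858 (.cons 837 n2427 .nil))))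
noncomputable def n2429 : Strat := .win 757 7 715
noncomputable def n2430 : Strat := .move 880 n1628 (.cons 921 n2429 .nil)
noncomputable def n2431 : Strat := .move 839 n1167 (.cons 674 n2430 .nil)
noncomputable def n2432 : Strat := .move 715 n2397 (.cons 880 n2403 (.cons 839 n2421 (.cons 674 n2428 (.cons 838 n2431 .nil))))
noncomputable def n2433 : Strat := .move 838 n1596 (.cons 837 n2260 .nil)
noncomputable def n2434 : Strat := .move 800 n1133 (.cons 755 n2433 .nil)
noncomputable def n2435 : Strat := .move 800 n1133 (.cons 755 n1625 .nil)
noncomputable def n2436 : Strat := .move 800 n1133 (.cons 755 n2290 .nil)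
noncomputable def n2437 : Strat := .move 715 n1167 (.cons 674 n2395 .nil)
noncomputable def n2438 : Strat := .move 880 n1628 (.cons 921 n2437 .nil)
noncomputable def n2439 : Strat := .move 838 n1596 (.cons 837 n1186 .nil)
noncomputable def n2440 : Strat := .move 801 n1604 (.cons 757 n458 .nil)
noncomputable def n2441 : Strat := .move 801 n1604 (.cons 757 n457 .nil)
noncomputable def n2442 : Strat := .move 838 n1596 (.cons 837 n1632 .nil)
noncomputable def n2443 : Strat := .move 800 n2439 (.cons 837 n2440 (.cons 838 n2441 (.cons 801 n2442 .nil)))
noncomputable def n2444 : Strat := .win 758 1 716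
noncomputable def n2445 : Strat := .win 676 3 675
noncomputable def n2446 : Strat := .move 716 n2445 (.cons 676 n1176 .nil)
noncomputable def n2447 : Strat := .move 717 n2444 (.cons 758 n2446 .nil)
noncomputable def n2448 : Strat := .move 757 n767 (.cons 715 n2447 .nil)
noncomputable def n2449 : Strat := .move 880 n1628 (.cons 921 n2448 .nil)
noncomputable def n2450 : Strat := .move 839 n2438 (.cons 880 n2443 (.cons 838 n2449 .nil))
noncomputable def n2451 : Strat := .move 798 n2394 (.cons 800 n2432 (.cons 674 n2434 (.cons 839 n2435 (.cons 838 n2436 (.cons 755 n2450 .nil)))))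
noncomputable def n2452 : Strat := .move 838 n2150 (.cons 839 n2049 (.cons 878 n1928 (.cons 837 n1998 (.cons 757 n2156 (.cons 716 n2159 (.cons 879 n2162 (.cons 715 n2168 (.cons 880 n2172 .nil))))))))
noncomputable def n2453 : Strat := .move 839 n2439 (.cons 837 n2440 (.cons 838 n2441 (.cons 801 n2442 .nil)))
noncomputable def n2454 : Strat := .move 798 n1133 (.cons 755 n2453 .nil)
noncomputable def n2455 : Strat := .move 715 n1858 (.cons 879 n2084 (.cons 675 n1860 .nil))
noncomputable def n2456 : Strat := .move 839 n457 (.cons 802 n1044 .nil)
noncomputable def n2457 : Strat := .win 759 2 758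
noncomputable def n2458 : Strat := .move 758 n2457 (.cons 759 n1124 .nil)
noncomputable def n2459 : Strat := .win 763 5 759
noncomputable def n2460 : Strat := .win 761 5 758
noncomputable def n2461 : Strat := .move 762 n2459 (.cons 763 n2460 .nil)
noncomputable def n2462 : Strat := .move 803 n2458 (.cons 757 n2461 .nil)
noncomputable def n2463 : Strat := .move 802 n1139 (.cons 839 n2462 .nil)
noncomputable def n2464 : Strat := .move 758 n589 (.cons 759 n51 .nil)
noncomputable def n2465 : Strat := .move 758 n576 (.cons 802 n589 .nil)
noncomputable def n2466 : Strat := .move 758 n576 (.cons 802 n51 .nil)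
noncomputable def n2467 : Strat := .move 675 n1946 (.cons 634 n2006 .nil)
noncomputable def n2468 : Strat := .move 716 n1622 (.cons 879 n2467 .nil)
noncomputable def n2469 : Strat := .move 757 n2464 (.cons 755 n2465 (.cons 759 n2466 (.cons 758 n2468 .nil)))
noncomputable def n2470 : Strat := .win 839 5 797
noncomputable def n2471 : Strat := .move 757 n589 (.cons 759 n51 .nil)
noncomputable def n2472 : Strat := .move 717 n9 (.cons 882 n118 .nil)
noncomputable def n2473 : Strat := .move 758 n2471 (.cons 755 n2472 .nil)
noncomputable def n2474 : Strat := .move 841 n2470 (.cons 839 n2473 .nil)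
noncomputable def n2475 : Strat := .move 801 n2456 (.cons 841 n2463 (.cons 839 n2469 (.cons 802 n2474 .nil)))
noncomputable def n2476 : Strat := .move 838 n2163 (.cons 839 n2455 (.cons 837 n2475 .nil))
noncomputable def n2477 : Strat := .move 920 n1059 (.cons 961 n1172 .nil)
noncomputable def n2478 : Strat := .move 879 n2477 (.cons 757 n1631 .nil)
noncomputable def n2479 : Strat := .move 838 n1596 (.cons 837 n2478 .nil)
noncomputable def n2480 : Strat := .move 839 n2439 (.cons 837 n2441 (.cons 801 n2479 .nil))
noncomputable def n2481 : Strat := .move 798 n1133 (.cons 755 n2480 .nil)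
noncomputable def n2482 : Strat := .win 839 4 837
noncomputable def n2483 : Strat := .move 878 n2482 (.cons 839 n1699 .nil)
noncomputable def n2484 : Strat := .move 879 n2293 (.cons 716 n2483 .nil)
noncomputable def n2485 : Strat := .move 841 n625 (.cons 842 n2484 .nil)
noncomputable def n2486 : Strat := .move 838 n1596 (.cons 837 n2485 .nil)
noncomputable def n2487 : Strat := .move 760 n2286 (.cons 761 n2285 .nil)
noncomputable def n2488 : Strat := .move 801 n2259 (.cons 839 n2487 .nil)
noncomputable def n2489 : Strat := .move 841 n625 (.cons 842 n2488 .nil)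
noncomputable def n2490 : Strat := .move 838 n1596 (.cons 837 n2489 .nil)
noncomputable def n2491 : Strat := .move 798 n2453 (.cons 716 n2480 (.cons 838 n2290 (.cons 801 n2486 (.cons 757 n2490 .nil))))
noncomputable def n2492 : Strat := .move 798 n1133 (.cons 755 n2290 .nil)
noncomputable def n2493 : Strat := .move 798 n1133 (.cons 755 n2490 .nil)
noncomputable def n2494 : Strat := .move 798 n1133 (.cons 755 n2486 .nil)
noncomputable def n2495 : Strat := .move 800 n2454 (.cons 798 n2476 (.cons 716 n2481 (.cons 755 n2491 (.cons 838 n2492 (.cons 757 n2493 (.cons 801 n2494 .nil))))))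
noncomputable def n2496 : Strat := .move 798 n1133 (.cons 755 n2433 .nil)
noncomputable def n2497 : Strat := .move 801 n1604 (.cons 757 n1606 .nil)
noncomputable def n2498 : Strat := .move 798 n1133 (.cons 755 n2497 .nil)
noncomputable def n2499 : Strat := .move 801 n589 (.cons 759 n576 .nil)
noncomputable def n2500 : Strat := .move 757 n51 (.cons 755 n2499 .nil)
noncomputable def n2501 : Strat := .move 676 n571 (.cons 841 n1010 .nil)
noncomputable def n2502 : Strat := .move 716 n81 (.cons 719 n0 .nil)
noncomputable def n2503 : Strat := .move 757 n51 (.cons 755 n2502 .nil)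
noncomputable def n2504 : Strat := .move 718 n2 (.cons 677 n2503 .nil)
noncomputable def n2505 : Strat := .move 717 n696 (.cons 882 n2501 (.cons 841 n2504 .nil))
noncomputable def n2506 : Strat := .move 676 n66 (.cons 636 n805 .nil)
noncomputable def n2507 : Strat := .move 677 n65 (.cons 718 n2506 .nil)
noncomputable def n2508 : Strat := .move 839 n7 (.cons 880 n676 .nil)
noncomputable def n2509 : Strat := .move 717 n696 (.cons 882 n2501 (.cons 841 n2507 (.cons 676 n2508 .nil)))
noncomputable def n2510 : Strat := .move 758 n2500 (.cons 801 n2505 (.cons 757 n2509 .nil))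
noncomputable def n2511 : Strat := .move 880 n1629 (.cons 715 n1628 .nil)
noncomputable def n2512 : Strat := .move 839 n1186 (.cons 801 n2511 .nil)
noncomputable def n2513 : Strat := .move 838 n1596 (.cons 837 n2512 .nil)
noncomputable def n2514 : Strat := .move 798 n2433 (.cons 837 n2497 (.cons 838 n2290 (.cons 801 n2486 (.cons 757 n2513 .nil))))
noncomputable def n2515 : Strat := .move 798 n1133 (.cons 755 n2513 .nil)
noncomputable def n2516 : Strat := .move 800 n2496 (.cons 837 n2498 (.cons 798 n2510 (.cons 755 n2514 (.cons 838 n2492 (.cons 757 n2515 (.cons 801 n2494 .nil))))))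
noncomputable def n2517 : Strat := .move 921 n1026 (.cons 962 n1868 .nil)
noncomputable def n2518 : Strat := .move 880 n1629 (.cons 715 n2517 .nil)
noncomputable def n2519 : Strat := .move 839 n357 (.cons 837 n2518 .nil)
noncomputable def n2520 : Strat := .move 715 n1708 (.cons 878 n1937 .nil)
noncomputable def n2521 : Strat := .move 919 n1658 (.cons 960 n1795 .nil)
noncomputable def n2522 : Strat := .move 878 n1794 (.cons 715 n2521 .nil)
noncomputable def n2523 : Strat := .move 757 n1692 (.cons 716 n2028 .nil)
noncomputable def n2524 : Strat := .move 755 n1691 (.cons 714 n2523 .nil)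
noncomputable def n2525 : Strat := .move 879 n2524 (.cons 755 n1976 .nil)
noncomputable def n2526 : Strat := .move 757 n2468 (.cons 716 n2037 .nil)
noncomputable def n2527 : Strat := .move 715 n1708 (.cons 878 n1930 .nil)
noncomputable def n2528 : Strat := .move 837 n2520 (.cons 673 n2522 (.cons 715 n2525 (.cons 878 n2526 (.cons 879 n2527 .nil))))
noncomputable def n2529 : Strat := .move 715 n1166 (.cons 880 n1937 .nil)
noncomputable def n2530 : Strat := .move 758 n51 (.cons 755 n2499 .nil)
noncomputable def n2531 : Strat := .move 757 n2468 (.cons 716 n2530 .nil)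
noncomputable def n2532 : Strat := .move 879 n1767 (.cons 880 n2524 .nil)
noncomputable def n2533 : Strat := .move 715 n1166 (.cons 880 n1930 .nil)
noncomputable def n2534 : Strat := .move 839 n2518 (.cons 962 n2529 (.cons 880 n2531 (.cons 715 n2532 (.cons 879 n2533 .nil))))
noncomputable def n2535 : Strat := .move 839 n357 (.cons 837 n2532 .nil)
noncomputable def n2536 : Strat := .move 839 n357 (.cons 837 n2533 .nil)
noncomputable def n2537 : Strat := .win 839 5 796
noncomputable def n2538 : Strat := .move 837 n2537 (.cons 839 n2527 .nil)
noncomputable def n2539 : Strat := .move 838 n2519 (.cons 839 n2528 (.cons 837 n2534 (.cons 715 n2535 (.cons 879 n2536 (.cons 880 n2538 .nil)))))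
noncomputable def n2540 : Strat := .move 798 n2433 (.cons 838 n2290 (.cons 801 n2298 (.cons 757 n2393 .nil)))
noncomputable def n2541 : Strat := .move 798 n1133 (.cons 755 n2393 .nil)
noncomputable def n2542 : Strat := .move 798 n1133 (.cons 755 n2298 .nil)
noncomputable def n2543 : Strat := .move 800 n2496 (.cons 798 n2539 (.cons 755 n2540 (.cons 838 n2492 (.cons 757 n2541 (.cons 801 n2542 .nil)))))
noncomputable def n2544 : Strat := .move 879 n1611 (.cons 920 n1692 .nil)
noncomputable def n2545 : Strat := .move 838 n1596 (.cons 837 n2544 .nil)
noncomputable def n2546 : Strat := .move 757 n1621 (.cons 801 n2545 .nil)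
noncomputable def n2547 : Strat := .move 759 n1128 (.cons 760 n2546 .nil)
noncomputable def n2548 : Strat := .move 798 n1133 (.cons 755 n2547 .nil)
noncomputable def n2549 : Strat := .move 879 n2400 (.cons 716 n2477 (.cons 920 n1631 .nil))
noncomputable def n2550 : Strat := .move 839 n1168 (.cons 674 n2511 (.cons 880 n2549 .nil))
noncomputable def n2551 : Strat := .move 838 n1596 (.cons 837 n2550 .nil)
noncomputable def n2552 : Strat := .move 798 n1133 (.cons 755 n2551 .nil)
noncomputable def n2553 : Strat := .move 838 n357 (.cons 837 n1045 .nil)
noncomputable def n2554 : Strat := .move 879 n1692 (.cons 716 n1966 .nil)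
noncomputable def n2555 : Strat := .move 758 n724 (.cons 717 n51 .nil)
noncomputable def n2556 : Strat := .move 880 n1629 (.cons 715 n2555 .nil)
noncomputable def n2557 : Strat := .move 757 n2554 (.cons 879 n2556 .nil)
noncomputable def n2558 : Strat := .move 838 n357 (.cons 837 n2557 .nil)
noncomputable def n2559 : Strat := .move 838 n1044 (.cons 841 n1870 .nil)
noncomputable def n2560 : Strat := .move 801 n457 (.cons 802 n2559 .nil)
noncomputable def n2561 : Strat := .move 841 n9 (.cons 882 n118 .nil)
noncomputable def n2562 : Strat := .move 717 n7 (.cons 880 n2561 .nil)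
noncomputable def n2563 : Strat := .move 758 n2471 (.cons 755 n2562 .nil)
noncomputable def n2564 : Strat := .move 801 n457 (.cons 802 n2563 .nil)
noncomputable def n2565 : Strat := .move 838 n357 (.cons 837 n1870 .nil)
noncomputable def n2566 : Strat := .move 839 n2553 (.cons 801 n2558 (.cons 837 n2560 (.cons 838 n2564 (.cons 841 n2565 .nil))))
noncomputable def n2567 : Strat := .move 798 n2393 (.cons 839 n2547 (.cons 801 n2551 (.cons 838 n2290 .nil)))
noncomputable def n2568 : Strat := .move 800 n2541 (.cons 839 n2548 (.cons 801 n2552 (.cons 798 n2566 (.cons 755 n2567 (.cons 838 n2492 .nil)))))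
noncomputable def n2569 : Strat := .move 838 n2163 (.cons 839 n2164 (.cons 801 n2167 .nil))
noncomputable def n2570 : Strat := .move 798 n2497 (.cons 801 n2486 (.cons 838 n2290 (.cons 757 n2490 .nil)))
noncomputable def n2571 : Strat := .move 798 n1133 (.cons 755 n1596 .nil)
noncomputable def n2572 : Strat := .move 839 n357 (.cons 837 n1033 .nil)
noncomputable def n2573 : Strat := .move 798 n1133 (.cons 755 n2489 .nil)
noncomputable def n2574 : Strat := .move 838 n2571 (.cons 755 n2572 (.cons 837 n2573 (.cons 798 n2163 .nil)))
noncomputable def n2575 : Strat := .move 800 n2498 (.cons 798 n2569 (.cons 801 n2494 (.cons 755 n2570 (.cons 757 n2574 (.cons 838 n2492 .nil)))))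
noncomputable def n2576 : Strat := .move 800 n1596 (.cons 837 n1186 .nil)
noncomputable def n2577 : Strat := .move 837 n2183 (.cons 800 n1053 .nil)
noncomputable def n2578 : Strat := .move 715 n1167 (.cons 674 n1166 .nil)
noncomputable def n2579 : Strat := .move 838 n2576 (.cons 801 n2577 (.cons 837 n2578 .nil))
noncomputable def n2580 : Strat := .move 800 n1596 (.cons 837 n2549 .nil)
noncomputable def n2581 : Strat := .move 837 n1708 (.cons 878 n1053 .nil)
noncomputable def n2582 : Strat := .move 715 n1167 (.cons 674 n2581 .nil)
noncomputable def n2583 : Strat := .move 879 n353 (.cons 878 n2400 .nil)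
noncomputable def n2584 : Strat := .move 841 n983 (.cons 842 n2583 .nil)
noncomputable def n2585 : Strat := .move 838 n2576 (.cons 801 n2580 (.cons 800 n2582 (.cons 837 n2584 .nil)))
noncomputable def n2586 : Strat := .move 800 n1186 (.cons 801 n2549 .nil)
noncomputable def n2587 : Strat := .move 920 n1059 (.cons 961 n1058 .nil)
noncomputable def n2588 : Strat := .move 841 n353 (.cons 878 n983 .nil)
noncomputable def n2589 : Strat := .move 879 n1057 (.cons 716 n2587 (.cons 920 n2588 .nil))
noncomputable def n2590 : Strat := .move 880 n1628 (.cons 921 n2589 .nil)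
noncomputable def n2591 : Strat := .move 838 n2576 (.cons 837 n2586 (.cons 801 n2577 (.cons 800 n2590 .nil)))
noncomputable def n2592 : Strat := .move 839 n2438 (.cons 921 n2579 (.cons 880 n2585 (.cons 838 n2449 (.cons 715 n2591 .nil))))
noncomputable def n2593 : Strat := .move 801 n1604 (.cons 757 n2487 .nil)
noncomputable def n2594 : Strat := .move 841 n625 (.cons 842 n2593 .nil)
noncomputable def n2595 : Strat := .move 800 n1133 (.cons 755 n2594 .nil)
noncomputable def n2596 : Strat := .move 800 n1133 (.cons 755 n2551 .nil)
noncomputable def n2597 : Strat := .move 879 n1702 (.cons 757 n1936 .nil)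
noncomputable def n2598 : Strat := .move 716 n1701 (.cons 675 n2597 .nil)
noncomputable def n2599 : Strat := .move 673 n1810 (.cons 714 n1811 .nil)
noncomputable def n2600 : Strat := .move 674 n1812 (.cons 634 n2599 .nil)
noncomputable def n2601 : Strat := .move 675 n1813 (.cons 716 n2600 .nil)
noncomputable def n2602 : Strat := .move 838 n1858 (.cons 716 n1860 (.cons 919 n2598 (.cons 879 n2601 .nil)))
noncomputable def n2603 : Strat := .move 838 n2422 (.cons 839 n1858 (.cons 878 n2427 .nil))
noncomputable def n2604 : Strat := .move 715 n2397 (.cons 839 n2602 (.cons 674 n2603 (.cons 838 n2431 .nil)))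
noncomputable def n2605 : Strat := .move 798 n2394 (.cons 755 n2592 (.cons 839 n2435 (.cons 837 n2595 (.cons 801 n2596 (.cons 800 n2604 .nil)))))
noncomputable def n2606 : Strat := .move 800 n1133 (.cons 755 n2279 .nil)
noncomputable def n2607 : Strat := .move 715 n1167 (.cons 674 n2429 .nil)
noncomputable def n2608 : Strat := .move 880 n1628 (.cons 921 n2607 .nil)
noncomputable def n2609 : Strat := .move 838 n1596 (.cons 837 n1168 .nil)
noncomputable def n2610 : Strat := .move 800 n2439 (.cons 837 n2440 (.cons 838 n2441 (.cons 801 n2609 .nil)))
noncomputable def n2611 : Strat := .move 800 n1186 (.cons 801 n1596 .nil)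
noncomputable def n2612 : Strat := .move 838 n1629 (.cons 715 n2611 .nil)
noncomputable def n2613 : Strat := .move 880 n1628 (.cons 921 n2612 .nil)
noncomputable def n2614 : Strat := .move 801 n458 (.cons 838 n1604 .nil)
noncomputable def n2615 : Strat := .move 838 n1186 (.cons 801 n1596 .nil)
noncomputable def n2616 : Strat := .move 801 n457 (.cons 802 n1604 .nil)
noncomputable def n2617 : Strat := .move 838 n1035 (.cons 883 n1596 .nil)
noncomputable def n2618 : Strat := .move 882 n2617 (.cons 837 n1674 .nil)
noncomputable def n2619 : Strat := .move 800 n2614 (.cons 757 n2615 (.cons 838 n2616 (.cons 801 n2618 .nil)))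
noncomputable def n2620 : Strat := .move 841 n983 (.cons 842 n2619 .nil)
noncomputable def n2621 : Strat := .move 839 n2438 (.cons 838 n2608 (.cons 921 n2610 (.cons 674 n2613 (.cons 880 n2620 .nil))))
noncomputable def n2622 : Strat := .move 801 n457 (.cons 802 n2487 .nil)
noncomputable def n2623 : Strat := .move 841 n625 (.cons 842 n2622 .nil)
noncomputable def n2624 : Strat := .move 839 n1118 (.cons 802 n2439 (.cons 838 n2623 (.cons 801 n2609 .nil)))
noncomputable def n2625 : Strat := .move 800 n1133 (.cons 755 n2624 .nil)
noncomputable def n2626 : Strat := .win 753 0 753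
noncomputable def n2627 : Strat := .win 757 0 754
noncomputable def n2628 : Strat := .move 754 n2626 (.cons 753 n2627 .nil)
noncomputable def n2629 : Strat := .move 755 n2175 (.cons 800 n2628 .nil)
noncomputable def n2630 : Strat := .move 757 n2420 (.cons 634 n2416 .nil)
noncomputable def n2631 : Strat := .move 755 n1873 (.cons 718 n768 .nil)
noncomputable def n2632 : Strat := .win 880 7 715
noncomputable def n2633 : Strat := .move 839 n2445 (.cons 676 n2632 .nil)
noncomputable def n2634 : Strat := .move 717 n2631 (.cons 754 n2633 .nil)
noncomputable def n2635 : Strat := .move 757 n1176 (.cons 675 n2634 .nil)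
noncomputable def n2636 : Strat := .win 757 6 675
noncomputable def n2637 : Strat := .win 838 3 674
noncomputable def n2638 : Strat := .move 675 n2636 (.cons 757 n2637 .nil)
noncomputable def n2639 : Strat := .move 754 n2627 (.cons 757 n2626 .nil)
noncomputable def n2640 : Strat := .move 755 n1873 (.cons 718 n2639 .nil)
noncomputable def n2641 : Strat := .move 880 n2395 (.cons 838 n1628 .nil)
noncomputable def n2642 : Strat := .move 880 n2429 (.cons 757 n2395 .nil)
noncomputable def n2643 : Strat := .move 880 n2429 (.cons 757 n1628 .nil)
noncomputable def n2644 : Strat := .win 757 3 675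
noncomputable def n2645 : Strat := .win 758 1 675
noncomputable def n2646 : Strat := .move 676 n2644 (.cons 757 n2645 .nil)
noncomputable def n2647 : Strat := .move 839 n2641 (.cons 921 n2642 (.cons 838 n2643 (.cons 880 n2646 .nil)))
noncomputable def n2648 : Strat := .win 678 5 674
noncomputable def n2649 : Strat := .win 758 3 676
noncomputable def n2650 : Strat := .move 677 n2648 (.cons 678 n2649 .nil)
noncomputable def n2651 : Strat := .move 718 n82 (.cons 755 n2650 .nil)
noncomputable def n2652 : Strat := .move 717 n2640 (.cons 755 n2647 (.cons 757 n2651 .nil))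
noncomputable def n2653 : Strat := .move 838 n1701 (.cons 675 n2422 .nil)
noncomputable def n2654 : Strat := .move 716 n2635 (.cons 676 n2638 (.cons 675 n2652 (.cons 757 n2653 .nil)))
noncomputable def n2655 : Strat := .move 715 n2397 (.cons 839 n2630 (.cons 838 n2431 (.cons 674 n2654 .nil)))
noncomputable def n2656 : Strat := .move 798 n2606 (.cons 755 n2621 (.cons 757 n2625 (.cons 838 n2436 (.cons 801 n2629 (.cons 800 n2655 .nil)))))
noncomputable def n2657 : Strat := .move 837 n830 (.cons 800 n1794 .nil)
noncomputable def n2658 : Strat := .move 839 n1065 (.cons 841 n2657 .nil)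
noncomputable def n2659 : Strat := .move 878 n1699 (.cons 919 n2658 .nil)
noncomputable def n2660 : Strat := .move 715 n1166 (.cons 880 n1700 .nil)
noncomputable def n2661 : Strat := .move 839 n1065 (.cons 841 n2660 .nil)
noncomputable def n2662 : Strat := .move 878 n1699 (.cons 919 n2661 .nil)
noncomputable def n2663 : Strat := .move 800 n1596 (.cons 837 n1133 .nil)
noncomputable def n2664 : Strat := .move 798 n1611 (.cons 920 n2663 .nil)
noncomputable def n2665 : Strat := .move 757 n1692 (.cons 716 n2664 .nil)
noncomputable def n2666 : Strat := .move 755 n1691 (.cons 714 n2175 .nil)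
noncomputable def n2667 : Strat := .move 798 n1611 (.cons 920 n2666 .nil)
noncomputable def n2668 : Strat := .move 757 n1692 (.cons 716 n2667 .nil)
noncomputable def n2669 : Strat := .move 879 n2659 (.cons 800 n2662 (.cons 878 n2665 (.cons 837 n2668 .nil)))
noncomputable def n2670 : Strat := .move 878 n1699 (.cons 919 n1794 .nil)
noncomputable def n2671 : Strat := .move 837 n2670 (.cons 715 n2030 .nil)
noncomputable def n2672 : Strat := .move 715 n1707 (.cons 673 n1701 .nil)
noncomputable def n2673 : Strat := .move 714 n1706 (.cons 755 n2672 .nil)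
noncomputable def n2674 : Strat := .move 716 n1702 (.cons 757 n2673 .nil)
noncomputable def n2675 : Strat := .move 919 n1723 (.cons 878 n2030 .nil)
noncomputable def n2676 : Strat := .move 879 n2671 (.cons 758 n1828 (.cons 757 n2042 (.cons 878 n2674 (.cons 715 n2675 .nil))))
noncomputable def n2677 : Strat := .move 879 n1968 (.cons 841 n1835 (.cons 880 n2674 (.cons 715 n1985 .nil)))
noncomputable def n2678 : Strat := .move 800 n2519 (.cons 839 n2676 (.cons 837 n2677 (.cons 715 n2167 (.cons 879 n2536 .nil))))
noncomputable def n2679 : Strat := .move 839 n1065 (.cons 841 n1747 .nil)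
noncomputable def n2680 : Strat := .move 878 n1699 (.cons 919 n2679 .nil)
noncomputable def n2681 : Strat := .move 798 n1611 (.cons 920 n2175 .nil)
noncomputable def n2682 : Strat := .move 755 n1691 (.cons 714 n2681 .nil)
noncomputable def n2683 : Strat := .move 757 n1692 (.cons 716 n2682 .nil)
noncomputable def n2684 : Strat := .move 879 n2665 (.cons 800 n2680 (.cons 837 n2683 .nil))
noncomputable def n2685 : Strat := .win 798 4 796
noncomputable def n2686 : Strat := .move 837 n2685 (.cons 798 n2527 .nil)
noncomputable def n2687 : Strat := .win 798 2 755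
noncomputable def n2688 : Strat := .move 879 n1691 (.cons 714 n2029 .nil)
noncomputable def n2689 : Strat := .move 755 n2687 (.cons 798 n2688 .nil)
noncomputable def n2690 : Strat := .move 800 n2571 (.cons 798 n2676 (.cons 755 n2686 (.cons 837 n2689 .nil)))
noncomputable def n2691 : Strat := .move 921 n1725 (.cons 880 n2293 .nil)
noncomputable def n2692 : Strat := .move 715 n1813 (.cons 716 n1856 .nil)
noncomputable def n2693 : Strat := .move 715 n1813 (.cons 716 n1936 .nil)
noncomputable def n2694 : Strat := .move 675 n2692 (.cons 715 n1976 (.cons 919 n2693 .nil))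
noncomputable def n2695 : Strat := .move 755 n768 (.cons 754 n1691 .nil)
noncomputable def n2696 : Strat := .move 757 n1692 (.cons 716 n2695 .nil)
noncomputable def n2697 : Strat := .move 921 n1725 (.cons 880 n2696 .nil)
noncomputable def n2698 : Strat := .move 757 n1611 (.cons 920 n2695 .nil)
noncomputable def n2699 : Strat := .move 798 n2691 (.cons 757 n2694 (.cons 920 n2697 (.cons 716 n2698 .nil)))
noncomputable def n2700 : Strat := .move 798 n1611 (.cons 920 n2695 .nil)
noncomputable def n2701 : Strat := .move 757 n1692 (.cons 716 n2700 .nil)
noncomputable def n2702 : Strat := .move 879 n2662 (.cons 839 n2699 (.cons 878 n2701 .nil))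
noncomputable def n2703 : Strat := .move 837 n1708 (.cons 878 n830 .nil)
noncomputable def n2704 : Strat := .move 839 n1166 (.cons 880 n2703 .nil)
noncomputable def n2705 : Strat := .move 837 n1053 (.cons 836 n2183 .nil)
noncomputable def n2706 : Strat := .move 798 n1167 (.cons 674 n2705 .nil)
noncomputable def n2707 : Strat := .move 839 n1166 (.cons 880 n2706 .nil)
noncomputable def n2708 : Strat := .move 879 n2399 (.cons 675 n2588 .nil)
noncomputable def n2709 : Strat := .move 798 n1167 (.cons 674 n2708 .nil)
noncomputable def n2710 : Strat := .move 839 n1166 (.cons 880 n2709 .nil)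
noncomputable def n2711 : Strat := .move 715 n2704 (.cons 878 n2707 (.cons 839 n1858 (.cons 837 n2710 .nil)))
noncomputable def n2712 : Strat := .move 878 n835 (.cons 877 n2424 .nil)
noncomputable def n2713 : Strat := .move 798 n1053 (.cons 836 n2712 .nil)
noncomputable def n2714 : Strat := .move 837 n830 (.cons 800 n2713 .nil)
noncomputable def n2715 : Strat := .move 839 n1870 (.cons 921 n2158 (.cons 715 n2714 .nil))
noncomputable def n2716 : Strat := .move 879 n2668 (.cons 800 n1968 .nil)
noncomputable def n2717 : Strat := .move 798 n1167 (.cons 674 n2663 .nil)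
noncomputable def n2718 : Strat := .move 715 n1166 (.cons 880 n2717 .nil)
noncomputable def n2719 : Strat := .move 800 n357 (.cons 837 n2689 .nil)
noncomputable def n2720 : Strat := .move 839 n1870 (.cons 879 n2718 (.cons 715 n2719 .nil))
noncomputable def n2721 : Strat := .move 800 n1133 (.cons 755 n1596 .nil)
noncomputable def n2722 : Strat := .move 715 n1166 (.cons 880 n1708 .nil)
noncomputable def n2723 : Strat := .move 839 n1053 (.cons 836 n2722 .nil)
noncomputable def n2724 : Strat := .move 837 n2183 (.cons 800 n2723 .nil)
noncomputable def n2725 : Strat := .move 715 n2292 (.cons 839 n2161 (.cons 674 n2422 .nil))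
noncomputable def n2726 : Strat := .move 798 n2721 (.cons 837 n2629 (.cons 755 n2724 (.cons 800 n2725 .nil)))
noncomputable def n2727 : Strat := .move 838 n2669 (.cons 798 n2678 (.cons 715 n2684 (.cons 839 n2690 (.cons 800 n2702 (.cons 755 n2711 (.cons 716 n2715 (.cons 837 n2716 (.cons 878 n2720 (.cons 879 n2726 .nil)))))))))
noncomputable def n2728 : Strat := .move 800 n1186 (.cons 801 n1168 .nil)
noncomputable def n2729 : Strat := .move 838 n2576 (.cons 837 n2728 (.cons 801 n2577 (.cons 800 n1630 .nil)))
noncomputable def n2730 : Strat := .move 838 n2576 (.cons 801 n2577 (.cons 800 n2578 .nil))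
noncomputable def n2731 : Strat := .move 838 n1596 (.cons 837 n2549 .nil)
noncomputable def n2732 : Strat := .move 800 n2439 (.cons 837 n2440 (.cons 838 n2441 (.cons 801 n2731 .nil)))
noncomputable def n2733 : Strat := .move 839 n2729 (.cons 838 n2608 (.cons 921 n2730 (.cons 880 n2732 .nil)))
noncomputable def n2734 : Strat := .move 838 n1858 (.cons 919 n2598 (.cons 716 n1860 (.cons 879 n2601 .nil)))
noncomputable def n2735 : Strat := .win 757 6 633
noncomputable def n2736 : Strat := .move 633 n2735 (.cons 757 n1899 .nil)
noncomputable def n2737 : Strat := .move 674 n2295 (.cons 839 n2736 .nil)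
noncomputable def n2738 : Strat := .move 715 n2397 (.cons 880 n2403 (.cons 839 n2734 (.cons 674 n2428 (.cons 838 n2737 .nil))))
noncomputable def n2739 : Strat := .move 798 n2394 (.cons 755 n2733 (.cons 838 n2436 (.cons 801 n2596 (.cons 800 n2738 .nil))))
noncomputable def n2740 : Strat := .move 798 n2175 (.cons 800 n2628 .nil)
noncomputable def n2741 : Strat := .win 757 0 755
noncomputable def n2742 : Strat := .move 716 n2119 (.cons 715 n0 .nil)
noncomputable def n2743 : Strat := .move 718 n2 (.cons 677 n2742 .nil)
noncomputable def n2744 : Strat := .move 717 n2561 (.cons 676 n2743 .nil)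
noncomputable def n2745 : Strat := .move 758 n2741 (.cons 757 n2744 .nil)
noncomputable def n2746 : Strat := .move 800 n2687 (.cons 798 n2745 .nil)
noncomputable def n2747 : Strat := .move 798 n2626 (.cons 753 n2627 .nil)
noncomputable def n2748 : Strat := .win 798 0 754
noncomputable def n2749 : Strat := .win 717 5 713
noncomputable def n2750 : Strat := .move 838 n2006 (.cons 715 n1622 .nil)
noncomputable def n2751 : Strat := .move 675 n1946 (.cons 634 n2750 .nil)
noncomputable def n2752 : Strat := .move 716 n2749 (.cons 717 n2751 .nil)
noncomputable def n2753 : Strat := .move 757 n2748 (.cons 798 n2752 .nil)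
noncomputable def n2754 : Strat := .win 716 5 712
noncomputable def n2755 : Strat := .win 752 5 711
noncomputable def n2756 : Strat := .move 838 n1707 (.cons 673 n1872 .nil)
noncomputable def n2757 : Strat := .move 714 n2755 (.cons 752 n2756 .nil)
noncomputable def n2758 : Strat := .move 715 n2754 (.cons 716 n2757 .nil)
noncomputable def n2759 : Strat := .move 673 n2413 (.cons 838 n2071 .nil)
noncomputable def n2760 : Strat := .move 714 n2755 (.cons 752 n2759 .nil)
noncomputable def n2761 : Strat := .move 715 n2754 (.cons 716 n2760 .nil)
noncomputable def n2762 : Strat := .win 711 2 711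
noncomputable def n2763 : Strat := .win 713 2 712
noncomputable def n2764 : Strat := .win 795 4 753
noncomputable def n2765 : Strat := .win 793 4 752
noncomputable def n2766 : Strat := .move 794 n2764 (.cons 795 n2765 .nil)
noncomputable def n2767 : Strat := .move 757 n2763 (.cons 713 n2766 .nil)
noncomputable def n2768 : Strat := .move 712 n2762 (.cons 711 n2767 .nil)
noncomputable def n2769 : Strat := .move 753 n2758 (.cons 879 n2761 (.cons 715 n2768 .nil))
noncomputable def n2770 : Strat := .win 798 0 753
noncomputable def n2771 : Strat := .move 753 n2770 (.cons 798 n2758 .nil)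
noncomputable def n2772 : Strat := .move 754 n2747 (.cons 753 n2753 (.cons 798 n2769 (.cons 757 n2771 .nil)))
noncomputable def n2773 : Strat := .move 716 n0 (.cons 675 n1538 .nil)
noncomputable def n2774 : Strat := .move 717 n919 (.cons 718 n2773 .nil)
noncomputable def n2775 : Strat := .move 758 n199 (.cons 800 n2774 .nil)
noncomputable def n2776 : Strat := .move 715 n1707 (.cons 673 n1904 .nil)
noncomputable def n2777 : Strat := .move 838 n1872 (.cons 879 n2776 .nil)
noncomputable def n2778 : Strat := .move 714 n200 (.cons 713 n2777 .nil)
noncomputable def n2779 : Strat := .move 758 n199 (.cons 800 n2778 .nil)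
noncomputable def n2780 : Strat := .win 715 5 712
noncomputable def n2781 : Strat := .move 712 n2762 (.cons 711 n2763 .nil)
noncomputable def n2782 : Strat := .move 753 n2780 (.cons 715 n2781 .nil)
noncomputable def n2783 : Strat := .move 754 n2749 (.cons 717 n2782 .nil)
noncomputable def n2784 : Strat := .move 838 n1622 (.cons 879 n2007 .nil)
noncomputable def n2785 : Strat := .move 754 n2749 (.cons 717 n2784 .nil)
noncomputable def n2786 : Strat := .move 794 n2765 (.cons 793 n2764 .nil)
noncomputable def n2787 : Strat := .move 753 n2781 (.cons 713 n2786 .nil)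
noncomputable def n2788 : Strat := .move 754 n2749 (.cons 717 n2787 .nil)
noncomputable def n2789 : Strat := .move 716 n2783 (.cons 711 n2785 (.cons 754 n2784 (.cons 715 n2788 .nil)))
noncomputable def n2790 : Strat := .move 757 n2775 (.cons 718 n2779 (.cons 758 n2789 .nil))
noncomputable def n2791 : Strat := .move 839 n357 (.cons 837 n1919 .nil)
noncomputable def n2792 : Strat := .move 879 n1663 (.cons 921 n1691 .nil)
noncomputable def n2793 : Strat := .move 880 n1629 (.cons 715 n2792 .nil)
noncomputable def n2794 : Strat := .move 839 n357 (.cons 837 n2793 .nil)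
noncomputable def n2795 : Strat := .move 673 n2072 (.cons 715 n2071 .nil)
noncomputable def n2796 : Strat := .move 714 n1872 (.cons 879 n2795 .nil)
noncomputable def n2797 : Strat := .move 838 n2791 (.cons 802 n2794 (.cons 839 n2796 .nil))
noncomputable def n2798 : Strat := .move 800 n2687 (.cons 798 n2797 .nil)
noncomputable def n2799 : Strat := .move 755 n2740 (.cons 754 n2746 (.cons 800 n2772 (.cons 798 n2790 (.cons 757 n2798 .nil))))
noncomputable def n2800 : Strat := .move 839 n7 (.cons 880 n680 .nil)
noncomputable def n2801 : Strat := .move 841 n9 (.cons 882 n2800 .nil)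
noncomputable def n2802 : Strat := .move 717 n696 (.cons 882 n2501 (.cons 841 n2507 (.cons 676 n2801 .nil)))
noncomputable def n2803 : Strat := .move 758 n2500 (.cons 801 n2505 (.cons 757 n2802 .nil))
noncomputable def n2804 : Strat := .move 798 n1604 (.cons 757 n1606 .nil)
noncomputable def n2805 : Strat := .move 839 n457 (.cons 802 n2559 .nil)
noncomputable def n2806 : Strat := .move 798 n1604 (.cons 757 n2287 .nil)
noncomputable def n2807 : Strat := .move 801 n2804 (.cons 798 n2805 (.cons 838 n2806 .nil))
noncomputable def n2808 : Strat := .move 838 n1186 (.cons 801 n1168 .nil)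
noncomputable def n2809 : Strat := .move 715 n2395 (.cons 838 n1167 .nil)
noncomputable def n2810 : Strat := .move 880 n1628 (.cons 921 n2809 .nil)
noncomputable def n2811 : Strat := .move 839 n1118 (.cons 802 n2808 (.cons 838 n2622 (.cons 801 n2810 .nil)))
noncomputable def n2812 : Strat := .move 841 n625 (.cons 842 n2811 .nil)
noncomputable def n2813 : Strat := .move 798 n1133 (.cons 755 n2812 .nil)
noncomputable def n2814 : Strat := .move 755 n2687 (.cons 798 n2745 .nil)
noncomputable def n2815 : Strat := .move 800 n2498 (.cons 798 n2803 (.cons 755 n2807 (.cons 757 n2813 (.cons 838 n2492 (.cons 801 n2814 .nil)))))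
noncomputable def n2816 : Strat := .move 798 n2576 (.cons 801 n2577 (.cons 800 n1168 .nil))
noncomputable def n2817 : Strat := .move 801 n677 (.cons 798 n457 .nil)
noncomputable def n2818 : Strat := .move 800 n357 (.cons 837 n2817 .nil)
noncomputable def n2819 : Strat := .move 839 n1870 (.cons 921 n2816 (.cons 715 n2818 .nil))
noncomputable def n2820 : Strat := .move 800 n1621 (.cons 801 n1596 .nil)
noncomputable def n2821 : Strat := .move 798 n1611 (.cons 920 n2820 .nil)
noncomputable def n2822 : Strat := .move 757 n1692 (.cons 716 n2821 .nil)
noncomputable def n2823 : Strat := .move 757 n1692 (.cons 716 n1611 .nil)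
noncomputable def n2824 : Strat := .move 716 n1702 (.cons 757 n2126 .nil)
noncomputable def n2825 : Strat := .move 798 n2823 (.cons 757 n2032 (.cons 920 n2824 .nil))
noncomputable def n2826 : Strat := .win 798 3 756
noncomputable def n2827 : Strat := .move 920 n2826 (.cons 798 n1724 .nil)
noncomputable def n2828 : Strat := .move 757 n1692 (.cons 716 n2827 .nil)
noncomputable def n2829 : Strat := .move 715 n1700 (.cons 837 n1930 .nil)
noncomputable def n2830 : Strat := .move 878 n1699 (.cons 919 n2829 .nil)
noncomputable def n2831 : Strat := .move 798 n1172 (.cons 757 n2183 .nil)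
noncomputable def n2832 : Strat := .move 920 n2831 (.cons 800 n1726 .nil)
noncomputable def n2833 : Strat := .move 837 n1794 (.cons 715 n2832 .nil)
noncomputable def n2834 : Strat := .move 878 n1699 (.cons 919 n2833 .nil)
noncomputable def n2835 : Strat := .move 879 n2822 (.cons 800 n2825 (.cons 837 n2828 (.cons 757 n2830 (.cons 716 n2834 .nil))))
noncomputable def n2836 : Strat := .move 800 n625 (.cons 842 n1621 .nil)
noncomputable def n2837 : Strat := .move 841 n2483 (.cons 919 n2836 .nil)
noncomputable def n2838 : Strat := .move 798 n1611 (.cons 920 n2837 .nil)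
noncomputable def n2839 : Strat := .move 757 n1692 (.cons 716 n2838 .nil)
noncomputable def n2840 : Strat := .move 879 n2149 (.cons 841 n2822 (.cons 837 n2839 (.cons 800 n2680 .nil)))
noncomputable def n2841 : Strat := .move 715 n1166 (.cons 880 n2703 .nil)
noncomputable def n2842 : Strat := .move 798 n1167 (.cons 674 n2398 .nil)
noncomputable def n2843 : Strat := .move 715 n1166 (.cons 880 n2842 .nil)
noncomputable def n2844 : Strat := .win 798 7 756
noncomputable def n2845 : Strat := .move 921 n1026 (.cons 962 n2844 .nil)
noncomputable def n2846 : Strat := .move 880 n1629 (.cons 715 n2845 .nil)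
noncomputable def n2847 : Strat := .move 839 n2818 (.cons 798 n2841 (.cons 800 n2843 (.cons 837 n2846 .nil)))
noncomputable def n2848 : Strat := .move 879 n1968 (.cons 839 n2828 (.cons 919 n2142 (.cons 878 n1835 .nil)))
noncomputable def n2849 : Strat := .move 879 n1702 (.cons 757 n2153 .nil)
noncomputable def n2850 : Strat := .move 716 n1701 (.cons 675 n2849 .nil)
noncomputable def n2851 : Strat := .move 715 n2704 (.cons 800 n1858 (.cons 837 n2850 .nil))
noncomputable def n2852 : Strat := .move 838 n2819 (.cons 839 n2835 (.cons 715 n2840 (.cons 879 n2847 (.cons 837 n2848 (.cons 798 n2851 .nil)))))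
noncomputable def n2853 : Strat := .move 839 n2553 (.cons 837 n2560 (.cons 838 n2564 (.cons 801 n2565 .nil)))
noncomputable def n2854 : Strat := .move 839 n1168 (.cons 674 n2511 (.cons 880 n2478 .nil))
noncomputable def n2855 : Strat := .move 838 n1596 (.cons 837 n2854 .nil)
noncomputable def n2856 : Strat := .move 798 n1133 (.cons 755 n2855 .nil)
noncomputable def n2857 : Strat := .move 798 n2497 (.cons 801 n2855 (.cons 838 n2290 (.cons 757 n2393 .nil)))
noncomputable def n2858 : Strat := .move 800 n2498 (.cons 798 n2853 (.cons 838 n2492 (.cons 801 n2856 (.cons 757 n2541 (.cons 755 n2857 .nil)))))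
noncomputable def n2859 : Strat := .move 798 n2397 (.cons 880 n2403 (.cons 839 n2421 (.cons 674 n2428 (.cons 838 n2431 .nil))))
noncomputable def n2860 : Strat := .move 798 n1858 (.cons 716 n1860 (.cons 919 n2598 (.cons 879 n2601 .nil)))
noncomputable def n2861 : Strat := .move 838 n2860 (.cons 757 n1877 (.cons 675 n1860 (.cons 755 n1858 (.cons 879 n2601 .nil))))
noncomputable def n2862 : Strat := .move 880 n2395 (.cons 838 n2429 .nil)
noncomputable def n2863 : Strat := .move 839 n1167 (.cons 674 n2862 .nil)
noncomputable def n2864 : Strat := .move 879 n2399 (.cons 675 n2400 (.cons 757 n2588 .nil))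
noncomputable def n2865 : Strat := .move 839 n1166 (.cons 880 n2864 .nil)
noncomputable def n2866 : Strat := .move 838 n2422 (.cons 836 n2426 (.cons 880 n1858 (.cons 837 n2865 (.cons 878 n2850 .nil))))
noncomputable def n2867 : Strat := .move 839 n1167 (.cons 674 n2641 .nil)
noncomputable def n2868 : Strat := .move 839 n1167 (.cons 674 n2643 .nil)
noncomputable def n2869 : Strat := .move 675 n2417 (.cons 716 n1812 .nil)
noncomputable def n2870 : Strat := .move 757 n2418 (.cons 633 n2869 .nil)
noncomputable def n2871 : Strat := .move 674 n2295 (.cons 839 n2870 .nil)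
noncomputable def n2872 : Strat := .move 716 n2637 (.cons 838 n2636 .nil)
noncomputable def n2873 : Strat := .win 593 1 592
noncomputable def n2874 : Strat := .win 674 3 633
noncomputable def n2875 : Strat := .move 634 n2873 (.cons 593 n2874 .nil)
noncomputable def n2876 : Strat := .move 716 n2636 (.cons 757 n2875 .nil)
noncomputable def n2877 : Strat := .move 633 n1891 (.cons 591 n2735 .nil)
noncomputable def n2878 : Strat := .move 632 n1892 (.cons 673 n2877 .nil)
noncomputable def n2879 : Strat := .move 674 n1812 (.cons 634 n2878 .nil)
noncomputable def n2880 : Strat := .move 716 n2637 (.cons 838 n2875 .nil)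
noncomputable def n2881 : Strat := .move 675 n2872 (.cons 838 n2876 (.cons 716 n2879 (.cons 757 n2880 .nil)))
noncomputable def n2882 : Strat := .move 798 n2863 (.cons 674 n2866 (.cons 757 n2867 (.cons 838 n2868 (.cons 880 n2871 (.cons 839 n2881 .nil)))))
noncomputable def n2883 : Strat := .move 838 n1808 (.cons 716 n1860 (.cons 755 n1858 (.cons 879 n2601 .nil)))
noncomputable def n2884 : Strat := .move 839 n1166 (.cons 880 n2842 .nil)
noncomputable def n2885 : Strat := .move 839 n1166 (.cons 880 n2597 .nil)
noncomputable def n2886 : Strat := .move 716 n1701 (.cons 675 n2885 .nil)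
noncomputable def n2887 : Strat := .move 838 n2884 (.cons 674 n1858 (.cons 878 n2886 .nil))
noncomputable def n2888 : Strat := .move 757 n2406 (.cons 838 n2420 (.cons 675 n2416 .nil))
noncomputable def n2889 : Strat := .move 717 n2633 (.cons 880 n2631 .nil)
noncomputable def n2890 : Strat := .move 716 n1176 (.cons 675 n2889 .nil)
noncomputable def n2891 : Strat := .move 757 n2406 (.cons 838 n2890 (.cons 716 n2416 .nil))
noncomputable def n2892 : Strat := .move 798 n2863 (.cons 757 n2867 (.cons 838 n2868 (.cons 839 n2888 (.cons 674 n2891 .nil))))
noncomputable def n2893 : Strat := .move 798 n2397 (.cons 839 n2630 (.cons 838 n2431 (.cons 674 n2654 .nil)))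
noncomputable def n2894 : Strat := .move 839 n1167 (.cons 674 n1166 .nil)
noncomputable def n2895 : Strat := .move 879 n1706 (.cons 755 n2293 .nil)
noncomputable def n2896 : Strat := .move 714 n1707 (.cons 673 n2895 .nil)
noncomputable def n2897 : Strat := .move 798 n2894 (.cons 839 n2896 .nil)
noncomputable def n2898 : Strat := .move 838 n2884 (.cons 839 n1860 (.cons 878 n2897 .nil))
noncomputable def n2899 : Strat := .move 714 n1872 (.cons 879 n1707 .nil)
noncomputable def n2900 : Strat := .move 755 n2899 (.cons 673 n2639 .nil)
noncomputable def n2901 : Strat := .move 798 n2398 (.cons 878 n2900 .nil)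
noncomputable def n2902 : Strat := .move 839 n1166 (.cons 880 n2901 .nil)
noncomputable def n2903 : Strat := .move 839 n1166 (.cons 880 n2900 .nil)
noncomputable def n2904 : Strat := .move 755 n1872 (.cons 879 n2639 .nil)
noncomputable def n2905 : Strat := .move 714 n1707 (.cons 673 n2904 .nil)
noncomputable def n2906 : Strat := .move 798 n2894 (.cons 674 n2903 (.cons 839 n2905 .nil))
noncomputable def n2907 : Strat := .move 838 n2884 (.cons 674 n2902 (.cons 798 n1860 (.cons 878 n2906 .nil)))
noncomputable def n2908 : Strat := .move 798 n2422 (.cons 836 n2426 (.cons 839 n1858 (.cons 837 n2865 (.cons 878 n2850 .nil))))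
noncomputable def n2909 : Strat := .move 838 n2884 (.cons 674 n2908 (.cons 798 n1858 (.cons 837 n2850 .nil)))
noncomputable def n2910 : Strat := .move 674 n2295 (.cons 839 n1812 .nil)
noncomputable def n2911 : Strat := .move 675 n1813 (.cons 716 n2910 .nil)
noncomputable def n2912 : Strat := .move 675 n1813 (.cons 716 n2422 .nil)
noncomputable def n2913 : Strat := .move 798 n2911 (.cons 839 n2084 (.cons 674 n2912 (.cons 675 n2894 .nil)))
noncomputable def n2914 : Strat := .move 839 n1167 (.cons 674 n2398 .nil)
noncomputable def n2915 : Strat := .win 839 5 795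
noncomputable def n2916 : Strat := .win 835 5 794
noncomputable def n2917 : Strat := .move 836 n2915 (.cons 839 n2916 .nil)
noncomputable def n2918 : Strat := .move 837 n1708 (.cons 878 n2917 .nil)
noncomputable def n2919 : Strat := .move 675 n1813 (.cons 716 n1812 .nil)
noncomputable def n2920 : Strat := .move 674 n2295 (.cons 839 n2919 .nil)
noncomputable def n2921 : Strat := .move 674 n1811 (.cons 632 n2919 .nil)
noncomputable def n2922 : Strat := .move 673 n1810 (.cons 714 n2921 .nil)
noncomputable def n2923 : Strat := .move 798 n2914 (.cons 674 n2918 (.cons 837 n2920 (.cons 839 n2922 .nil)))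
noncomputable def n2924 : Strat := .move 879 n1706 (.cons 755 n1663 .nil)
noncomputable def n2925 : Strat := .move 714 n1707 (.cons 673 n2924 .nil)
noncomputable def n2926 : Strat := .move 880 n1833 (.cons 839 n2925 .nil)
noncomputable def n2927 : Strat := .move 798 n2894 (.cons 674 n2926 (.cons 880 n2920 (.cons 839 n2922 .nil)))
noncomputable def n2928 : Strat := .move 879 n1936 (.cons 673 n2588 .nil)
noncomputable def n2929 : Strat := .move 839 n1166 (.cons 880 n2928 .nil)
noncomputable def n2930 : Strat := .move 798 n2912 (.cons 880 n2918 (.cons 839 n1860 (.cons 837 n2929 (.cons 878 n2926 .nil))))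
noncomputable def n2931 : Strat := .move 879 n1065 (.cons 841 n1699 .nil)
noncomputable def n2932 : Strat := .move 878 n1700 (.cons 837 n2931 .nil)
noncomputable def n2933 : Strat := .move 839 n1166 (.cons 880 n2932 .nil)
noncomputable def n2934 : Strat := .move 838 n2913 (.cons 880 n2923 (.cons 878 n2927 (.cons 674 n2930 (.cons 716 n2933 (.cons 839 n1877 .nil)))))
noncomputable def n2935 : Strat := .move 634 n2874 (.cons 674 n2873 .nil)
noncomputable def n2936 : Strat := .move 757 n1946 (.cons 634 n276 .nil)
noncomputable def n2937 : Strat := .win 758 7 675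
noncomputable def n2938 : Strat := .win 719 2 674
noncomputable def n2939 : Strat := .move 674 n2938 (.cons 719 n88 .nil)
noncomputable def n2940 : Strat := .move 718 n82 (.cons 755 n2939 .nil)
noncomputable def n2941 : Strat := .move 717 n2937 (.cons 758 n2940 .nil)
noncomputable def n2942 : Strat := .move 675 n2935 (.cons 593 n2936 (.cons 634 n2941 .nil))
noncomputable def n2943 : Strat := .move 718 n2 (.cons 677 n82 .nil)
noncomputable def n2944 : Strat := .move 758 n0 (.cons 675 n2943 .nil)
noncomputable def n2945 : Strat := .move 755 n524 (.cons 754 n1873 .nil)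
noncomputable def n2946 : Strat := .move 714 n339 (.cons 759 n2945 .nil)
noncomputable def n2947 : Strat := .move 758 n0 (.cons 675 n2946 .nil)
noncomputable def n2948 : Strat := .win 675 2 674
noncomputable def n2949 : Strat := .move 719 n2948 (.cons 675 n528 .nil)
noncomputable def n2950 : Strat := .move 674 n88 (.cons 673 n2949 .nil)
noncomputable def n2951 : Strat := .move 718 n82 (.cons 755 n2950 .nil)
noncomputable def n2952 : Strat := .win 757 2 715
noncomputable def n2953 : Strat := .move 760 n112 (.cons 761 n2952 .nil)
noncomputable def n2954 : Strat := .move 759 n79 (.cons 714 n2953 .nil)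
noncomputable def n2955 : Strat := .move 758 n0 (.cons 675 n2954 .nil)
noncomputable def n2956 : Strat := .move 717 n2944 (.cons 677 n2947 (.cons 758 n2951 (.cons 718 n2955 (.cons 675 n2651 .nil))))
noncomputable def n2957 : Strat := .move 758 n2 (.cons 677 n80 .nil)
noncomputable def n2958 : Strat := .move 718 n82 (.cons 755 n2957 .nil)
noncomputable def n2959 : Strat := .win 591 6 591
noncomputable def n2960 : Strat := .win 674 7 632
noncomputable def n2961 : Strat := .move 632 n2959 (.cons 591 n2960 .nil)
noncomputable def n2962 : Strat := .move 673 n519 (.cons 672 n2961 .nil)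
noncomputable def n2963 : Strat := .move 757 n1882 (.cons 758 n1883 .nil)
noncomputable def n2964 : Strat := .win 757 0 713
noncomputable def n2965 : Strat := .move 758 n2964 (.cons 757 n339 .nil)
noncomputable def n2966 : Strat := .win 753 4 712
noncomputable def n2967 : Strat := .win 755 4 713
noncomputable def n2968 : Strat := .move 754 n2966 (.cons 753 n2967 .nil)
noncomputable def n2969 : Strat := .move 713 n2963 (.cons 712 n2965 (.cons 758 n2968 .nil))
noncomputable def n2970 : Strat := .move 714 n2962 (.cons 673 n2969 .nil)
noncomputable def n2971 : Strat := .move 719 n528 (.cons 757 n1150 .nil)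
noncomputable def n2972 : Strat := .move 718 n2650 (.cons 758 n2971 .nil)
noncomputable def n2973 : Strat := .move 718 n82 (.cons 755 n2971 .nil)
noncomputable def n2974 : Strat := .move 717 n2651 (.cons 678 n2958 (.cons 718 n2970 (.cons 755 n2972 (.cons 758 n2973 .nil))))
noncomputable def n2975 : Strat := .move 675 n2938 (.cons 719 n1812 .nil)
noncomputable def n2976 : Strat := .move 674 n88 (.cons 673 n2975 .nil)
noncomputable def n2977 : Strat := .move 718 n82 (.cons 755 n2976 .nil)
noncomputable def n2978 : Strat := .move 798 n305 (.cons 676 n1167 .nil)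
noncomputable def n2979 : Strat := .move 839 n7 (.cons 880 n2978 .nil)
noncomputable def n2980 : Strat := .move 758 n0 (.cons 675 n2979 .nil)
noncomputable def n2981 : Strat := .move 717 n2944 (.cons 677 n2947 (.cons 758 n2977 (.cons 718 n2980 (.cons 675 n2651 .nil))))
noncomputable def n2982 : Strat := .move 798 n2636 (.cons 757 n2295 .nil)
noncomputable def n2983 : Strat := .win 672 0 672
noncomputable def n2984 : Strat := .move 673 n2983 (.cons 672 n1811 .nil)
noncomputable def n2985 : Strat := .move 674 n2982 (.cons 839 n2984 .nil)
noncomputable def n2986 : Strat := .move 717 n2937 (.cons 758 n2985 .nil)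
noncomputable def n2987 : Strat := .move 675 n2935 (.cons 593 n2936 (.cons 634 n2986 .nil))
noncomputable def n2988 : Strat := .move 675 n1812 (.cons 634 n2982 .nil)
noncomputable def n2989 : Strat := .win 717 0 672
noncomputable def n2990 : Strat := .win 671 0 671
noncomputable def n2991 : Strat := .move 672 n2989 (.cons 717 n2990 .nil)
noncomputable def n2992 : Strat := .move 673 n1811 (.cons 632 n2991 .nil)
noncomputable def n2993 : Strat := .move 675 n1812 (.cons 634 n2992 .nil)
noncomputable def n2994 : Strat := .move 633 n2735 (.cons 757 n1893 .nil)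
noncomputable def n2995 : Strat := .move 798 n2295 (.cons 839 n2994 .nil)
noncomputable def n2996 : Strat := .move 674 n2988 (.cons 839 n2993 (.cons 675 n2995 .nil))
noncomputable def n2997 : Strat := .win 674 2 674
noncomputable def n2998 : Strat := .move 719 n528 (.cons 757 n2997 .nil)
noncomputable def n2999 : Strat := .move 718 n82 (.cons 755 n2998 .nil)
noncomputable def n3000 : Strat := .move 717 n2937 (.cons 758 n2999 .nil)
noncomputable def n3001 : Strat := .move 675 n2935 (.cons 593 n2936 (.cons 634 n3000 .nil))
noncomputable def n3002 : Strat := .win 714 4 713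
noncomputable def n3003 : Strat := .move 754 n3002 (.cons 714 n2626 .nil)
noncomputable def n3004 : Strat := .move 755 n1873 (.cons 718 n3003 .nil)
noncomputable def n3005 : Strat := .move 758 n305 (.cons 676 n7 .nil)
noncomputable def n3006 : Strat := .move 880 n2429 (.cons 757 n2444 .nil)
noncomputable def n3007 : Strat := .move 757 n2632 (.cons 880 n2445 .nil)
noncomputable def n3008 : Strat := .move 839 n3005 (.cons 880 n2646 (.cons 676 n3006 (.cons 758 n3007 .nil)))
noncomputable def n3009 : Strat := .move 798 n3004 (.cons 755 n3008 .nil)
noncomputable def n3010 : Strat := .win 753 5 712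
noncomputable def n3011 : Strat := .move 754 n3002 (.cons 714 n3010 .nil)
noncomputable def n3012 : Strat := .move 755 n1873 (.cons 718 n3011 .nil)
noncomputable def n3013 : Strat := .move 717 n2944 (.cons 675 n3009 (.cons 758 n3012 (.cons 718 n2955 .nil)))
noncomputable def n3014 : Strat := .win 592 6 592
noncomputable def n3015 : Strat := .move 757 n3014 (.cons 592 n276 .nil)
noncomputable def n3016 : Strat := .move 633 n3015 (.cons 798 n1893 .nil)
noncomputable def n3017 : Strat := .move 675 n1812 (.cons 634 n3016 .nil)
noncomputable def n3018 : Strat := .win 551 6 551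
noncomputable def n3019 : Strat := .win 757 6 592
noncomputable def n3020 : Strat := .move 592 n3018 (.cons 551 n3019 .nil)
noncomputable def n3021 : Strat := .move 633 n1893 (.cons 673 n3020 .nil)
noncomputable def n3022 : Strat := .move 675 n1812 (.cons 634 n3021 .nil)
noncomputable def n3023 : Strat := .move 633 n1891 (.cons 591 n1897 .nil)
noncomputable def n3024 : Strat := .move 632 n1892 (.cons 673 n3023 .nil)
noncomputable def n3025 : Strat := .move 634 n1898 (.cons 675 n3024 .nil)
noncomputable def n3026 : Strat := .move 674 n2988 (.cons 839 n3017 (.cons 675 n2995 (.cons 798 n3022 (.cons 757 n3025 .nil))))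
noncomputable def n3027 : Strat := .move 716 n2942 (.cons 593 n2956 (.cons 675 n2974 (.cons 757 n2981 (.cons 755 n2987 (.cons 758 n2996 (.cons 673 n3001 (.cons 674 n3013 (.cons 717 n3026 .nil))))))))
noncomputable def n3028 : Strat := .move 838 n1701 (.cons 675 n1857 .nil)
noncomputable def n3029 : Strat := .move 838 n1707 (.cons 673 n1806 .nil)
noncomputable def n3030 : Strat := .win 755 6 632
noncomputable def n3031 : Strat := .move 632 n3030 (.cons 755 n2959 .nil)
noncomputable def n3032 : Strat := .move 673 n2413 (.cons 838 n3031 .nil)
noncomputable def n3033 : Strat := .move 673 n2071 (.cons 632 n519 .nil)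
noncomputable def n3034 : Strat := .move 755 n524 (.cons 754 n3033 .nil)
noncomputable def n3035 : Strat := .move 758 n339 (.cons 759 n2943 .nil)
noncomputable def n3036 : Strat := .win 676 5 673
noncomputable def n3037 : Strat := .move 677 n65 (.cons 718 n3036 .nil)
noncomputable def n3038 : Strat := .move 758 n339 (.cons 759 n3037 .nil)
noncomputable def n3039 : Strat := .move 717 n2945 (.cons 718 n3034 (.cons 754 n3035 (.cons 755 n3038 .nil)))
noncomputable def n3040 : Strat := .move 758 n339 (.cons 759 n2964 .nil)
noncomputable def n3041 : Strat := .move 754 n2967 (.cons 755 n2966 .nil)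
noncomputable def n3042 : Strat := .move 713 n2963 (.cons 712 n3040 (.cons 758 n3041 .nil))
noncomputable def n3043 : Strat := .move 717 n2945 (.cons 718 n3042 (.cons 754 n3035 (.cons 755 n3038 .nil)))
noncomputable def n3044 : Strat := .move 838 n1707 (.cons 673 n1885 .nil)
noncomputable def n3045 : Strat := .move 714 n3029 (.cons 879 n3032 (.cons 838 n3039 (.cons 673 n3043 (.cons 755 n3044 .nil))))
noncomputable def n3046 : Strat := .move 838 n1701 (.cons 675 n2003 .nil)
noncomputable def n3047 : Strat := .move 716 n3028 (.cons 838 n3013 (.cons 675 n3045 (.cons 757 n3046 .nil)))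
noncomputable def n3048 : Strat := .move 715 n2859 (.cons 839 n2861 (.cons 714 n2882 (.cons 798 n2883 (.cons 632 n2887 (.cons 878 n2892 (.cons 879 n2893 (.cons 675 n2898 (.cons 716 n2907 (.cons 673 n2909 (.cons 757 n2934 (.cons 838 n3027 (.cons 674 n3047 .nil))))))))))))
noncomputable def n3049 : Strat := .move 757 n270 (.cons 755 n2502 .nil)
noncomputable def n3050 : Strat := .move 718 n2 (.cons 677 n3049 .nil)
noncomputable def n3051 : Strat := .move 839 n7 (.cons 880 n1011 .nil)
noncomputable def n3052 : Strat := .move 798 n305 (.cons 676 n1393 .nil)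
noncomputable def n3053 : Strat := .move 839 n7 (.cons 880 n3052 .nil)
noncomputable def n3054 : Strat := .move 717 n3050 (.cons 755 n3051 (.cons 718 n3053 .nil))
noncomputable def n3055 : Strat := .move 759 n511 (.cons 760 n2267 .nil)
noncomputable def n3056 : Strat := .move 757 n1621 (.cons 801 n3055 .nil)
noncomputable def n3057 : Strat := .move 798 n1133 (.cons 755 n3056 .nil)
noncomputable def n3058 : Strat := .move 755 n2687 (.cons 798 n2741 .nil)
noncomputable def n3059 : Strat := .move 801 n2487 (.cons 759 n1236 .nil)
noncomputable def n3060 : Strat := .move 841 n625 (.cons 842 n3059 .nil)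
noncomputable def n3061 : Strat := .move 798 n1133 (.cons 755 n3060 .nil)
noncomputable def n3062 : Strat := .move 757 n589 (.cons 759 n592 .nil)
noncomputable def n3063 : Strat := .move 841 n625 (.cons 842 n1236 .nil)
noncomputable def n3064 : Strat := .move 798 n1604 (.cons 757 n3063 .nil)
noncomputable def n3065 : Strat := .move 757 n589 (.cons 759 n576 .nil)
noncomputable def n3066 : Strat := .win 841 4 799
noncomputable def n3067 : Strat := .move 803 n3066 (.cons 841 n2457 .nil)
noncomputable def n3068 : Strat := .move 802 n1139 (.cons 839 n3067 .nil)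
noncomputable def n3069 : Strat := .move 801 n3062 (.cons 759 n3064 (.cons 798 n3065 (.cons 757 n3068 .nil)))
noncomputable def n3070 : Strat := .move 800 n3057 (.cons 801 n3058 (.cons 798 n2500 (.cons 757 n3061 (.cons 755 n3069 .nil))))
noncomputable def n3071 : Strat := .move 798 n625 (.cons 842 n1133 .nil)
noncomputable def n3072 : Strat := .move 800 n118 (.cons 676 n3071 .nil)
noncomputable def n3073 : Strat := .move 841 n9 (.cons 882 n3072 .nil)
noncomputable def n3074 : Strat := .move 718 n2 (.cons 677 n975 .nil)
noncomputable def n3075 : Strat := .move 716 n0 (.cons 675 n3074 .nil)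
noncomputable def n3076 : Strat := .move 717 n3053 (.cons 839 n3073 (.cons 882 n3051 (.cons 798 n2110 (.cons 676 n3075 .nil))))
noncomputable def n3077 : Strat := .move 755 n919 (.cons 718 n199 .nil)
noncomputable def n3078 : Strat := .move 800 n696 (.cons 882 n2036 .nil)
noncomputable def n3079 : Strat := .move 757 n3077 (.cons 800 n1537 (.cons 718 n2011 (.cons 755 n3078 .nil)))
noncomputable def n3080 : Strat := .move 716 n0 (.cons 675 n3079 .nil)
noncomputable def n3081 : Strat := .move 717 n3050 (.cons 757 n2110 (.cons 677 n3080 (.cons 718 n2112 .nil)))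
noncomputable def n3082 : Strat := .win 716 5 713
noncomputable def n3083 : Strat := .move 754 n3082 (.cons 716 n2748 .nil)
noncomputable def n3084 : Strat := .move 717 n919 (.cons 718 n3083 .nil)
noncomputable def n3085 : Strat := .move 755 n199 (.cons 800 n3084 .nil)
noncomputable def n3086 : Strat := .move 801 n589 (.cons 759 n592 .nil)
noncomputable def n3087 : Strat := .move 800 n51 (.cons 755 n3086 .nil)
noncomputable def n3088 : Strat := .move 760 n195 (.cons 798 n194 .nil)
noncomputable def n3089 : Strat := .move 718 n595 (.cons 677 n542 .nil)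
noncomputable def n3090 : Strat := .move 800 n50 (.cons 801 n3089 .nil)
noncomputable def n3091 : Strat := .move 798 n511 (.cons 760 n3090 .nil)
noncomputable def n3092 : Strat := .move 759 n3088 (.cons 802 n3091 (.cons 760 n2093 .nil))
noncomputable def n3093 : Strat := .move 755 n919 (.cons 718 n3083 .nil)
noncomputable def n3094 : Strat := .move 676 n74 (.cons 634 n608 .nil)
noncomputable def n3095 : Strat := .move 675 n73 (.cons 716 n3094 .nil)
noncomputable def n3096 : Strat := .move 718 n2 (.cons 677 n270 .nil)
noncomputable def n3097 : Strat := .move 717 n3093 (.cons 718 n3095 (.cons 716 n3096 .nil))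
noncomputable def n3098 : Strat := .move 757 n3085 (.cons 718 n3087 (.cons 755 n3092 (.cons 800 n3097 (.cons 798 n2068 .nil))))
noncomputable def n3099 : Strat := .move 841 n625 (.cons 842 n1457 .nil)
noncomputable def n3100 : Strat := .move 757 n1621 (.cons 801 n3099 .nil)
noncomputable def n3101 : Strat := .move 800 n1133 (.cons 755 n3100 .nil)
noncomputable def n3102 : Strat := .move 759 n648 (.cons 714 n511 .nil)
noncomputable def n3103 : Strat := .move 674 n2418 (.cons 633 n2295 .nil)
noncomputable def n3104 : Strat := .move 715 n3102 (.cons 760 n3103 .nil)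
noncomputable def n3105 : Strat := .move 757 n1621 (.cons 801 n3104 .nil)
noncomputable def n3106 : Strat := .move 800 n1133 (.cons 755 n3105 .nil)
noncomputable def n3107 : Strat := .move 880 n724 (.cons 717 n1054 .nil)
noncomputable def n3108 : Strat := .move 717 n305 (.cons 676 n1393 .nil)
noncomputable def n3109 : Strat := .move 715 n2429 (.cons 757 n1167 .nil)
noncomputable def n3110 : Strat := .move 880 n1054 (.cons 921 n3109 .nil)
noncomputable def n3111 : Strat := .move 839 n3107 (.cons 921 n2272 (.cons 880 n3108 (.cons 717 n3110 .nil)))
noncomputable def n3112 : Strat := .move 800 n1133 (.cons 755 n3099 .nil)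
noncomputable def n3113 : Strat := .move 798 n3101 (.cons 842 n3106 (.cons 800 n3111 (.cons 757 n3112 .nil)))
noncomputable def n3114 : Strat := .move 839 n3107 (.cons 880 n3108 (.cons 717 n3110 .nil))
noncomputable def n3115 : Strat := .move 800 n50 (.cons 801 n2267 .nil)
noncomputable def n3116 : Strat := .move 757 n511 (.cons 760 n3115 .nil)
noncomputable def n3117 : Strat := .win 757 4 756
noncomputable def n3118 : Strat := .move 760 n3117 (.cons 757 n42 .nil)
noncomputable def n3119 : Strat := .move 800 n2268 (.cons 757 n3099 .nil)
noncomputable def n3120 : Strat := .win 800 5 756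
noncomputable def n3121 : Strat := .move 760 n42 (.cons 761 n3120 .nil)
noncomputable def n3122 : Strat := .move 759 n3116 (.cons 677 n3118 (.cons 760 n3119 (.cons 757 n3121 .nil)))
noncomputable def n3123 : Strat := .move 839 n305 (.cons 676 n1393 .nil)
noncomputable def n3124 : Strat := .move 800 n118 (.cons 676 n625 .nil)
noncomputable def n3125 : Strat := .move 841 n9 (.cons 882 n3124 .nil)
noncomputable def n3126 : Strat := .move 839 n7 (.cons 880 n1393 .nil)
noncomputable def n3127 : Strat := .move 717 n2246 (.cons 880 n3123 (.cons 839 n3125 (.cons 676 n3126 .nil)))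
noncomputable def n3128 : Strat := .move 923 n1318 (.cons 964 n1519 .nil)
noncomputable def n3129 : Strat := .move 882 n620 (.cons 717 n3128 .nil)
noncomputable def n3130 : Strat := .move 841 n983 (.cons 842 n3129 .nil)
noncomputable def n3131 : Strat := .move 839 n3107 (.cons 717 n3110 (.cons 880 n3130 .nil))
noncomputable def n3132 : Strat := .move 759 n511 (.cons 760 n3090 .nil)
noncomputable def n3133 : Strat := .move 715 n648 (.cons 714 n1167 .nil)
noncomputable def n3134 : Strat := .move 759 n511 (.cons 760 n3133 .nil)
noncomputable def n3135 : Strat := .move 839 n1136 (.cons 880 n3134 .nil)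
noncomputable def n3136 : Strat := .move 839 n305 (.cons 676 n7 .nil)
noncomputable def n3137 : Strat := .move 718 n81 (.cons 719 n2 .nil)
noncomputable def n3138 : Strat := .move 717 n3136 (.cons 880 n547 (.cons 676 n3137 .nil))
noncomputable def n3139 : Strat := .move 716 n1176 (.cons 675 n3138 .nil)
noncomputable def n3140 : Strat := .move 757 n3132 (.cons 719 n3135 (.cons 759 n3139 .nil))
noncomputable def n3141 : Strat := .move 715 n648 (.cons 714 n3103 .nil)
noncomputable def n3142 : Strat := .move 757 n3115 (.cons 800 n3141 .nil)
noncomputable def n3143 : Strat := .move 759 n3116 (.cons 757 n3121 (.cons 760 n3142 (.cons 800 n3118 .nil)))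
noncomputable def n3144 : Strat := .move 798 n3114 (.cons 839 n3122 (.cons 757 n3127 (.cons 676 n3131 (.cons 882 n3140 (.cons 717 n3143 .nil)))))
noncomputable def n3145 : Strat := .move 758 n3054 (.cons 717 n3070 (.cons 757 n3076 (.cons 798 n3081 (.cons 841 n3098 (.cons 718 n3113 (.cons 755 n3144 .nil))))))
noncomputable def n3146 : Strat := .move 716 n1701 (.cons 675 n1874 .nil)
noncomputable def n3147 : Strat := .move 755 n1872 (.cons 879 n3146 .nil)
noncomputable def n3148 : Strat := .move 714 n1707 (.cons 673 n3147 .nil)
noncomputable def n3149 : Strat := .move 838 n2704 (.cons 839 n3148 .nil)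
noncomputable def n3150 : Strat := .move 838 n1810 (.cons 714 n1813 .nil)
noncomputable def n3151 : Strat := .move 673 n1811 (.cons 632 n3150 .nil)
noncomputable def n3152 : Strat := .move 674 n1812 (.cons 634 n3151 .nil)
noncomputable def n3153 : Strat := .win 713 4 672
noncomputable def n3154 : Strat := .win 677 4 673
noncomputable def n3155 : Strat := .move 676 n3153 (.cons 713 n3154 .nil)
noncomputable def n3156 : Strat := .move 714 n2413 (.cons 838 n3155 .nil)
noncomputable def n3157 : Strat := .move 673 n1811 (.cons 632 n3156 .nil)
noncomputable def n3158 : Strat := .move 674 n1812 (.cons 634 n3157 .nil)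
noncomputable def n3159 : Strat := .move 838 n1813 (.cons 716 n1860 .nil)
noncomputable def n3160 : Strat := .move 718 n82 (.cons 755 n2938 .nil)
noncomputable def n3161 : Strat := .move 717 n2937 (.cons 758 n3160 .nil)
noncomputable def n3162 : Strat := .move 716 n2637 (.cons 838 n3161 .nil)
noncomputable def n3163 : Strat := .move 674 n1812 (.cons 634 n3162 .nil)
noncomputable def n3164 : Strat := .move 674 n1812 (.cons 634 n2984 .nil)
noncomputable def n3165 : Strat := .move 717 n2937 (.cons 758 n3164 .nil)
noncomputable def n3166 : Strat := .move 717 n2937 (.cons 758 n3012 .nil)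
noncomputable def n3167 : Strat := .move 716 n2935 (.cons 593 n3165 (.cons 634 n2941 (.cons 674 n3166 .nil)))
noncomputable def n3168 : Strat := .move 675 n3152 (.cons 716 n3158 (.cons 634 n3159 (.cons 673 n3163 (.cons 838 n3167 .nil))))
noncomputable def n3169 : Strat := .move 838 n1166 (.cons 880 n2703 .nil)
noncomputable def n3170 : Strat := .move 798 n1167 (.cons 674 n2641 .nil)
noncomputable def n3171 : Strat := .move 800 n1133 (.cons 755 n1118 .nil)
noncomputable def n3172 : Strat := .move 798 n1167 (.cons 674 n3171 .nil)
noncomputable def n3173 : Strat := .move 801 n2286 (.cons 761 n457 .nil)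
noncomputable def n3174 : Strat := .move 760 n2285 (.cons 759 n3173 .nil)
noncomputable def n3175 : Strat := .move 800 n1133 (.cons 755 n3174 .nil)
noncomputable def n3176 : Strat := .move 798 n1167 (.cons 674 n3175 .nil)
noncomputable def n3177 : Strat := .move 839 n3169 (.cons 800 n3170 (.cons 880 n3172 (.cons 838 n3176 .nil)))
noncomputable def n3178 : Strat := .move 798 n1167 (.cons 674 n2611 .nil)
noncomputable def n3179 : Strat := .move 839 n1166 (.cons 880 n3178 .nil)
noncomputable def n3180 : Strat := .move 838 n2704 (.cons 878 n3179 (.cons 839 n2601 .nil))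
noncomputable def n3181 : Strat := .move 800 n1186 (.cons 801 n1133 .nil)
noncomputable def n3182 : Strat := .move 798 n1167 (.cons 674 n3181 .nil)
noncomputable def n3183 : Strat := .move 839 n1166 (.cons 880 n3182 .nil)
noncomputable def n3184 : Strat := .win 798 6 674
noncomputable def n3185 : Strat := .move 674 n3184 (.cons 798 n2919 .nil)
noncomputable def n3186 : Strat := .move 839 n1166 (.cons 880 n3185 .nil)
noncomputable def n3187 : Strat := .move 838 n3183 (.cons 798 n2155 (.cons 839 n3148 (.cons 755 n3186 .nil)))
noncomputable def n3188 : Strat := .move 633 n1899 (.cons 675 n1893 .nil)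
noncomputable def n3189 : Strat := .move 800 n1133 (.cons 755 n3188 .nil)
noncomputable def n3190 : Strat := .move 798 n2295 (.cons 839 n3189 .nil)
noncomputable def n3191 : Strat := .move 633 n1891 (.cons 591 n1899 .nil)
noncomputable def n3192 : Strat := .move 632 n1892 (.cons 673 n3191 .nil)
noncomputable def n3193 : Strat := .win 714 1 591
noncomputable def n3194 : Strat := .move 755 n3193 (.cons 714 n2175 .nil)
noncomputable def n3195 : Strat := .win 552 3 551
noncomputable def n3196 : Strat := .win 634 3 592
noncomputable def n3197 : Strat := .move 593 n3195 (.cons 552 n3196 .nil)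
noncomputable def n3198 : Strat := .move 592 n3194 (.cons 800 n3197 .nil)
noncomputable def n3199 : Strat := .move 633 n1893 (.cons 673 n3198 .nil)
noncomputable def n3200 : Strat := .move 798 n2295 (.cons 839 n3199 .nil)
noncomputable def n3201 : Strat := .win 550 7 550
noncomputable def n3202 : Strat := .win 632 7 591
noncomputable def n3203 : Strat := .move 591 n3201 (.cons 550 n3202 .nil)
noncomputable def n3204 : Strat := .move 592 n3194 (.cons 800 n3203 .nil)
noncomputable def n3205 : Strat := .move 633 n1899 (.cons 675 n3198 (.cons 593 n3204 .nil))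
noncomputable def n3206 : Strat := .move 798 n2295 (.cons 839 n3205 .nil)
noncomputable def n3207 : Strat := .move 718 n82 (.cons 755 n88 .nil)
noncomputable def n3208 : Strat := .move 716 n2937 (.cons 758 n3207 .nil)
noncomputable def n3209 : Strat := .move 675 n1812 (.cons 634 n3208 .nil)
noncomputable def n3210 : Strat := .move 718 n88 (.cons 673 n2650 .nil)
noncomputable def n3211 : Strat := .move 798 n2295 (.cons 839 n2175 .nil)
noncomputable def n3212 : Strat := .move 754 n3010 (.cons 753 n3002 .nil)
noncomputable def n3213 : Strat := .move 755 n3211 (.cons 800 n3212 .nil)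
noncomputable def n3214 : Strat := .move 716 n3207 (.cons 673 n2651 (.cons 755 n3210 (.cons 718 n3213 .nil)))
noncomputable def n3215 : Strat := .move 718 n82 (.cons 755 n2975 .nil)
noncomputable def n3216 : Strat := .win 718 2 673
noncomputable def n3217 : Strat := .win 675 0 672
noncomputable def n3218 : Strat := .move 672 n3217 (.cons 675 n2990 .nil)
noncomputable def n3219 : Strat := .move 673 n3216 (.cons 718 n3218 .nil)
noncomputable def n3220 : Strat := .move 716 n3207 (.cons 673 n3215 (.cons 755 n3219 (.cons 718 n3213 .nil)))
noncomputable def n3221 : Strat := .move 839 n7 (.cons 880 n3184 .nil)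
noncomputable def n3222 : Strat := .move 758 n73 (.cons 716 n3221 .nil)
noncomputable def n3223 : Strat := .move 675 n1812 (.cons 634 n3222 .nil)
noncomputable def n3224 : Strat := .move 676 n1010 (.cons 718 n913 .nil)
noncomputable def n3225 : Strat := .move 758 n3221 (.cons 798 n3224 .nil)
noncomputable def n3226 : Strat := .move 717 n3209 (.cons 675 n3214 (.cons 758 n3220 (.cons 673 n3223 (.cons 716 n3225 .nil))))
noncomputable def n3227 : Strat := .move 716 n3216 (.cons 718 n3218 .nil)
noncomputable def n3228 : Strat := .move 673 n1811 (.cons 632 n3227 .nil)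
noncomputable def n3229 : Strat := .move 758 n0 (.cons 675 n2 .nil)
noncomputable def n3230 : Strat := .move 718 n82 (.cons 755 n3229 .nil)
noncomputable def n3231 : Strat := .move 718 n88 (.cons 673 n3229 .nil)
noncomputable def n3232 : Strat := .move 758 n0 (.cons 675 n3221 .nil)
noncomputable def n3233 : Strat := .move 716 n3207 (.cons 673 n3230 (.cons 755 n3231 (.cons 718 n3232 .nil)))
noncomputable def n3234 : Strat := .win 714 2 672
noncomputable def n3235 : Strat := .move 672 n3234 (.cons 714 n2990 .nil)
noncomputable def n3236 : Strat := .move 716 n3216 (.cons 718 n3235 .nil)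
noncomputable def n3237 : Strat := .move 673 n1811 (.cons 632 n3236 .nil)
noncomputable def n3238 : Strat := .move 716 n0 (.cons 675 n2086 .nil)
noncomputable def n3239 : Strat := .move 758 n3221 (.cons 798 n3238 .nil)
noncomputable def n3240 : Strat := .move 673 n1811 (.cons 632 n3218 .nil)
noncomputable def n3241 : Strat := .move 673 n1811 (.cons 632 n3235 .nil)
noncomputable def n3242 : Strat := .move 716 n3240 (.cons 673 n3232 (.cons 675 n3241 .nil))
noncomputable def n3243 : Strat := .move 717 n3228 (.cons 632 n3233 (.cons 675 n3237 (.cons 673 n3239 (.cons 716 n3225 (.cons 718 n3242 .nil)))))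
noncomputable def n3244 : Strat := .move 674 n3190 (.cons 798 n3192 (.cons 675 n3200 (.cons 673 n3206 (.cons 632 n3226 (.cons 634 n3243 .nil)))))
noncomputable def n3245 : Strat := .move 715 n3149 (.cons 839 n3168 (.cons 673 n3177 (.cons 755 n3180 (.cons 837 n3187 (.cons 838 n3244 .nil)))))
noncomputable def n3246 : Strat := .move 757 n1622 (.cons 879 n2008 .nil)
noncomputable def n3247 : Strat := .move 716 n1701 (.cons 675 n3246 .nil)
noncomputable def n3248 : Strat := .move 798 n2175 (.cons 800 n2639 .nil)
noncomputable def n3249 : Strat := .move 755 n1872 (.cons 879 n3248 .nil)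
noncomputable def n3250 : Strat := .move 714 n1707 (.cons 673 n3249 .nil)
noncomputable def n3251 : Strat := .move 838 n1808 (.cons 757 n3148 (.cons 755 n3247 (.cons 716 n3250 (.cons 714 n1858 (.cons 879 n2601 .nil)))))
noncomputable def n3252 : Strat := .move 879 n1706 (.cons 755 n1826 .nil)
noncomputable def n3253 : Strat := .move 714 n1707 (.cons 673 n3252 .nil)
noncomputable def n3254 : Strat := .move 838 n1860 (.cons 755 n1858 (.cons 837 n3253 (.cons 879 n2601 .nil)))
noncomputable def n3255 : Strat := .move 675 n2637 (.cons 838 n2935 .nil)
noncomputable def n3256 : Strat := .move 675 n2935 (.cons 634 n2941 (.cons 674 n2936 .nil))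
noncomputable def n3257 : Strat := .move 675 n2637 (.cons 838 n2936 .nil)
noncomputable def n3258 : Strat := .move 675 n2637 (.cons 838 n2941 .nil)
noncomputable def n3259 : Strat := .move 673 n2413 (.cons 838 n2961 .nil)
noncomputable def n3260 : Strat := .win 717 4 713
noncomputable def n3261 : Strat := .move 754 n3260 (.cons 717 n3010 .nil)
noncomputable def n3262 : Strat := .move 755 n2001 (.cons 718 n3261 (.cons 754 n2414 .nil))
noncomputable def n3263 : Strat := .move 717 n339 (.cons 759 n1873 .nil)
noncomputable def n3264 : Strat := .win 757 2 714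
noncomputable def n3265 : Strat := .win 717 0 714
noncomputable def n3266 : Strat := .move 759 n3264 (.cons 757 n3265 .nil)
noncomputable def n3267 : Strat := .move 757 n199 (.cons 800 n338 .nil)
noncomputable def n3268 : Strat := .move 758 n3263 (.cons 718 n3266 (.cons 759 n3267 .nil))
noncomputable def n3269 : Strat := .move 798 n2627 (.cons 757 n2175 .nil)
noncomputable def n3270 : Strat := .move 754 n3010 (.cons 753 n3269 .nil)
noncomputable def n3271 : Strat := .move 755 n2001 (.cons 718 n3261 (.cons 754 n3268 (.cons 717 n3270 .nil)))
noncomputable def n3272 : Strat := .move 714 n3259 (.cons 591 n3262 (.cons 673 n3271 .nil))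
noncomputable def n3273 : Strat := .move 716 n3255 (.cons 838 n3256 (.cons 674 n3257 (.cons 634 n3258 (.cons 675 n3272 .nil))))
noncomputable def n3274 : Strat := .move 714 n2414 (.cons 838 n2412 .nil)
noncomputable def n3275 : Strat := .move 757 n768 (.cons 754 n3274 .nil)
noncomputable def n3276 : Strat := .move 798 n2175 (.cons 800 n3275 .nil)
noncomputable def n3277 : Strat := .win 716 4 714
noncomputable def n3278 : Strat := .move 718 n2 (.cons 677 n3277 .nil)
noncomputable def n3279 : Strat := .move 717 n3278 (.cons 716 n2561 .nil)
noncomputable def n3280 : Strat := .move 758 n2741 (.cons 757 n3279 .nil)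
noncomputable def n3281 : Strat := .move 800 n2687 (.cons 798 n3280 .nil)
noncomputable def n3282 : Strat := .move 798 n2627 (.cons 757 n2626 .nil)
noncomputable def n3283 : Strat := .move 757 n2748 (.cons 798 n2412 .nil)
noncomputable def n3284 : Strat := .move 753 n2754 (.cons 716 n2770 .nil)
noncomputable def n3285 : Strat := .move 716 n3260 (.cons 717 n3010 .nil)
noncomputable def n3286 : Strat := .move 754 n3282 (.cons 753 n3283 (.cons 757 n3284 (.cons 798 n3285 .nil)))
noncomputable def n3287 : Strat := .move 714 n2759 (.cons 632 n2756 (.cons 673 n3286 .nil))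
noncomputable def n3288 : Strat := .move 717 n1873 (.cons 718 n3011 .nil)
noncomputable def n3289 : Strat := .win 757 5 713
noncomputable def n3290 : Strat := .move 754 n3289 (.cons 757 n3002 .nil)
noncomputable def n3291 : Strat := .move 717 n1873 (.cons 718 n3290 .nil)
noncomputable def n3292 : Strat := .move 838 n1701 (.cons 675 n2899 .nil)
noncomputable def n3293 : Strat := .move 754 n3289 (.cons 757 n3010 .nil)
noncomputable def n3294 : Strat := .move 717 n1873 (.cons 718 n3293 .nil)
noncomputable def n3295 : Strat := .move 716 n3288 (.cons 753 n3291 (.cons 717 n3292 (.cons 714 n3294 .nil)))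
noncomputable def n3296 : Strat := .move 717 n2937 (.cons 758 n1873 .nil)
noncomputable def n3297 : Strat := .move 675 n2637 (.cons 838 n3296 .nil)
noncomputable def n3298 : Strat := .move 716 n3292 (.cons 838 n3288 (.cons 714 n3297 .nil))
noncomputable def n3299 : Strat := .move 800 n2687 (.cons 798 n3298 .nil)
noncomputable def n3300 : Strat := .move 755 n2740 (.cons 753 n3276 (.cons 754 n3281 (.cons 800 n3287 (.cons 798 n3295 (.cons 757 n3299 .nil)))))
noncomputable def n3301 : Strat := .move 716 n2637 (.cons 838 n2935 .nil)
noncomputable def n3302 : Strat := .win 757 1 633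
noncomputable def n3303 : Strat := .move 716 n2873 (.cons 593 n3302 .nil)
noncomputable def n3304 : Strat := .move 634 n2874 (.cons 674 n3303 .nil)
noncomputable def n3305 : Strat := .move 714 n1904 (.cons 759 n338 .nil)
noncomputable def n3306 : Strat := .move 758 n563 (.cons 717 n3305 .nil)
noncomputable def n3307 : Strat := .move 757 n276 (.cons 798 n3306 .nil)
noncomputable def n3308 : Strat := .move 716 n2637 (.cons 838 n3307 .nil)
noncomputable def n3309 : Strat := .move 675 n3301 (.cons 838 n3304 (.cons 634 n3308 (.cons 716 n3158 .nil)))
noncomputable def n3310 : Strat := .move 676 n3154 (.cons 677 n3153 .nil)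
noncomputable def n3311 : Strat := .move 675 n1812 (.cons 634 n3310 .nil)
noncomputable def n3312 : Strat := .move 714 n2413 (.cons 838 n3311 .nil)
noncomputable def n3313 : Strat := .move 673 n1811 (.cons 632 n3312 .nil)
noncomputable def n3314 : Strat := .move 633 n1897 (.cons 593 n1893 .nil)
noncomputable def n3315 : Strat := .move 634 n1898 (.cons 675 n3314 .nil)
noncomputable def n3316 : Strat := .move 632 n1892 (.cons 673 n1891 .nil)
noncomputable def n3317 : Strat := .move 838 n2599 (.cons 632 n2663 .nil)
noncomputable def n3318 : Strat := .move 798 n2735 (.cons 757 n3317 .nil)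
noncomputable def n3319 : Strat := .move 798 n2735 (.cons 757 n3198 .nil)
noncomputable def n3320 : Strat := .move 633 n3316 (.cons 591 n3318 (.cons 632 n3319 .nil))
noncomputable def n3321 : Strat := .move 634 n1898 (.cons 675 n1897 .nil)
noncomputable def n3322 : Strat := .move 798 n2735 (.cons 757 n3204 .nil)
noncomputable def n3323 : Strat := .move 633 n3321 (.cons 593 n3322 .nil)
noncomputable def n3324 : Strat := .win 592 1 591
noncomputable def n3325 : Strat := .move 755 n3324 (.cons 592 n1872 .nil)
noncomputable def n3326 : Strat := .move 633 n1899 (.cons 675 n3325 .nil)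
noncomputable def n3327 : Strat := .move 714 n1707 (.cons 673 n3326 .nil)
noncomputable def n3328 : Strat := .move 798 n2183 (.cons 800 n2735 .nil)
noncomputable def n3329 : Strat := .move 633 n1899 (.cons 675 n3328 .nil)
noncomputable def n3330 : Strat := .move 837 n1708 (.cons 878 n3329 .nil)
noncomputable def n3331 : Strat := .move 838 n1860 (.cons 919 n3327 (.cons 879 n3330 .nil))
noncomputable def n3332 : Strat := .move 757 n1621 (.cons 801 n2418 .nil)
noncomputable def n3333 : Strat := .move 800 n1133 (.cons 755 n3332 .nil)
noncomputable def n3334 : Strat := .move 838 n1596 (.cons 837 n2599 .nil)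
noncomputable def n3335 : Strat := .move 800 n1133 (.cons 755 n3334 .nil)
noncomputable def n3336 : Strat := .move 798 n3333 (.cons 800 n2878 (.cons 633 n3335 .nil))
noncomputable def n3337 : Strat := .move 674 n3313 (.cons 714 n3315 (.cons 675 n3320 (.cons 673 n3323 (.cons 632 n3331 (.cons 634 n3336 .nil)))))
noncomputable def n3338 : Strat := .move 673 n519 (.cons 672 n2413 .nil)
noncomputable def n3339 : Strat := .win 671 2 671
noncomputable def n3340 : Strat := .win 673 2 672
noncomputable def n3341 : Strat := .move 672 n3339 (.cons 671 n3340 .nil)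
noncomputable def n3342 : Strat := .move 713 n2963 (.cons 712 n2965 (.cons 758 n3341 .nil))
noncomputable def n3343 : Strat := .move 838 n1872 (.cons 879 n1707 .nil)
noncomputable def n3344 : Strat := .move 755 n524 (.cons 754 n3343 .nil)
noncomputable def n3345 : Strat := .move 714 n3338 (.cons 838 n3342 (.cons 672 n3344 (.cons 673 n2969 .nil)))
noncomputable def n3346 : Strat := .move 714 n519 (.cons 672 n2413 .nil)
noncomputable def n3347 : Strat := .move 673 n520 (.cons 674 n3346 .nil)
noncomputable def n3348 : Strat := .move 718 n2650 (.cons 758 n3347 .nil)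
noncomputable def n3349 : Strat := .move 717 n2651 (.cons 678 n3012 (.cons 718 n3345 (.cons 755 n3348 .nil)))
noncomputable def n3350 : Strat := .move 716 n3028 (.cons 838 n2942 (.cons 757 n3255 (.cons 675 n3349 .nil)))
noncomputable def n3351 : Strat := .move 755 n2175 (.cons 800 n768 .nil)
noncomputable def n3352 : Strat := .move 798 n3351 (.cons 800 n2420 .nil)
noncomputable def n3353 : Strat := .move 755 n768 (.cons 754 n2175 .nil)
noncomputable def n3354 : Strat := .move 798 n2418 (.cons 633 n3353 .nil)
noncomputable def n3355 : Strat := .move 800 n1621 (.cons 801 n1133 .nil)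
noncomputable def n3356 : Strat := .move 798 n2418 (.cons 633 n3355 .nil)
noncomputable def n3357 : Strat := .win 798 6 633
noncomputable def n3358 : Strat := .move 633 n3357 (.cons 798 n1893 .nil)
noncomputable def n3359 : Strat := .move 758 n1907 (.cons 716 n1904 .nil)
noncomputable def n3360 : Strat := .move 713 n1883 (.cons 712 n3359 .nil)
noncomputable def n3361 : Strat := .win 755 1 591
noncomputable def n3362 : Strat := .win 716 6 592
noncomputable def n3363 : Strat := .move 592 n3361 (.cons 755 n3362 .nil)
noncomputable def n3364 : Strat := .move 633 n1893 (.cons 673 n3363 .nil)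
noncomputable def n3365 : Strat := .win 755 2 713
noncomputable def n3366 : Strat := .move 758 n3365 (.cons 755 n1904 .nil)
noncomputable def n3367 : Strat := .move 713 n1883 (.cons 712 n3366 .nil)
noncomputable def n3368 : Strat := .move 714 n3360 (.cons 713 n3364 (.cons 716 n3367 .nil))
noncomputable def n3369 : Strat := .move 798 n768 (.cons 754 n2175 .nil)
noncomputable def n3370 : Strat := .move 716 n2749 (.cons 717 n3010 .nil)
noncomputable def n3371 : Strat := .move 754 n2748 (.cons 798 n3370 .nil)
noncomputable def n3372 : Strat := .move 800 n2028 (.cons 758 n2687 .nil)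
noncomputable def n3373 : Strat := .move 714 n200 (.cons 713 n1904 .nil)
noncomputable def n3374 : Strat := .move 758 n199 (.cons 800 n3373 .nil)
noncomputable def n3375 : Strat := .move 755 n3369 (.cons 800 n3371 (.cons 754 n3372 (.cons 798 n3374 .nil)))
noncomputable def n3376 : Strat := .move 674 n3354 (.cons 754 n3356 (.cons 800 n3358 (.cons 798 n3368 (.cons 633 n3375 .nil))))
noncomputable def n3377 : Strat := .move 759 n648 (.cons 714 n192 .nil)
noncomputable def n3378 : Strat := .win 716 2 715
noncomputable def n3379 : Strat := .move 760 n195 (.cons 798 n3378 .nil)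
noncomputable def n3380 : Strat := .move 759 n648 (.cons 714 n3379 .nil)
noncomputable def n3381 : Strat := .move 801 n576 (.cons 802 n592 .nil)
noncomputable def n3382 : Strat := .move 800 n51 (.cons 755 n3381 .nil)
noncomputable def n3383 : Strat := .move 758 n3377 (.cons 801 n3380 (.cons 759 n3382 .nil))
noncomputable def n3384 : Strat := .move 716 n1946 (.cons 634 n276 .nil)
noncomputable def n3385 : Strat := .move 716 n276 (.cons 798 n3306 .nil)
noncomputable def n3386 : Strat := .win 716 1 633
noncomputable def n3387 : Strat := .move 634 n2874 (.cons 674 n3386 .nil)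
noncomputable def n3388 : Strat := .move 633 n1891 (.cons 591 n3357 .nil)
noncomputable def n3389 : Strat := .move 632 n1892 (.cons 673 n3388 .nil)
noncomputable def n3390 : Strat := .move 674 n1812 (.cons 634 n3389 .nil)
noncomputable def n3391 : Strat := .move 675 n3384 (.cons 634 n3385 (.cons 798 n3387 (.cons 716 n3390 .nil)))
noncomputable def n3392 : Strat := .move 798 n2175 (.cons 800 n768 .nil)
noncomputable def n3393 : Strat := .move 800 n2687 (.cons 798 n2028 .nil)
noncomputable def n3394 : Strat := .move 754 n2748 (.cons 798 n2787 .nil)
noncomputable def n3395 : Strat := .move 755 n3392 (.cons 754 n3393 (.cons 800 n3394 (.cons 798 n3374 .nil)))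
noncomputable def n3396 : Strat := .move 714 n1904 (.cons 759 n1908 .nil)
noncomputable def n3397 : Strat := .move 758 n3377 (.cons 801 n3396 (.cons 759 n2068 .nil))
noncomputable def n3398 : Strat := .move 757 n3352 (.cons 634 n3376 (.cons 754 n3383 (.cons 755 n3391 (.cons 716 n3395 (.cons 798 n3397 .nil)))))
noncomputable def n3399 : Strat := .move 675 n2935 (.cons 674 n2936 (.cons 634 n3000 .nil))
noncomputable def n3400 : Strat := .win 800 1 676
noncomputable def n3401 : Strat := .move 759 n3400 (.cons 800 n78 .nil)
noncomputable def n3402 : Strat := .move 677 n2648 (.cons 678 n3401 .nil)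
noncomputable def n3403 : Strat := .move 677 n2649 (.cons 758 n3401 .nil)
noncomputable def n3404 : Strat := .move 718 n2650 (.cons 758 n3402 (.cons 678 n3403 (.cons 677 n2971 .nil)))
noncomputable def n3405 : Strat := .move 800 n2741 (.cons 757 n2687 .nil)
noncomputable def n3406 : Strat := .move 755 n3011 (.cons 753 n3290 (.cons 714 n3293 (.cons 754 n3405 .nil)))
noncomputable def n3407 : Strat := .move 755 n2741 (.cons 757 n2687 .nil)
noncomputable def n3408 : Strat := .move 800 n3407 (.cons 798 n696 .nil)
noncomputable def n3409 : Strat := .win 677 5 673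
noncomputable def n3410 : Strat := .move 714 n3409 (.cons 677 n339 .nil)
noncomputable def n3411 : Strat := .win 714 5 673
noncomputable def n3412 : Strat := .move 677 n66 (.cons 636 n3411 .nil)
noncomputable def n3413 : Strat := .move 676 n3410 (.cons 759 n3412 (.cons 677 n913 .nil))
noncomputable def n3414 : Strat := .move 758 n2954 (.cons 759 n3406 (.cons 714 n3408 (.cons 757 n3413 .nil)))
noncomputable def n3415 : Strat := .move 717 n3012 (.cons 755 n3404 (.cons 718 n3414 .nil))
noncomputable def n3416 : Strat := .move 716 n3255 (.cons 838 n3399 (.cons 634 n3028 (.cons 675 n3415 .nil)))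
noncomputable def n3417 : Strat := .move 838 n1707 (.cons 673 n1859 .nil)
noncomputable def n3418 : Strat := .move 838 n1707 (.cons 673 n3249 .nil)
noncomputable def n3419 : Strat := .move 632 n2960 (.cons 674 n2959 .nil)
noncomputable def n3420 : Strat := .move 673 n2413 (.cons 838 n3419 .nil)
noncomputable def n3421 : Strat := .move 755 n200 (.cons 713 n199 .nil)
noncomputable def n3422 : Strat := .move 757 n1904 (.cons 759 n3421 .nil)
noncomputable def n3423 : Strat := .move 716 n339 (.cons 759 n2086 .nil)
noncomputable def n3424 : Strat := .move 755 n1873 (.cons 718 n524 .nil)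
noncomputable def n3425 : Strat := .move 716 n339 (.cons 759 n3424 .nil)
noncomputable def n3426 : Strat := .move 716 n3409 (.cons 677 n339 .nil)
noncomputable def n3427 : Strat := .win 716 5 673
noncomputable def n3428 : Strat := .move 677 n3427 (.cons 716 n66 .nil)
noncomputable def n3429 : Strat := .move 676 n3426 (.cons 759 n3428 (.cons 677 n913 .nil))
noncomputable def n3430 : Strat := .move 717 n3423 (.cons 716 n3224 (.cons 677 n3425 (.cons 718 n3429 .nil)))
noncomputable def n3431 : Strat := .move 757 n1908 (.cons 712 n3421 (.cons 713 n3382 .nil))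
noncomputable def n3432 : Strat := .move 758 n2100 (.cons 716 n3422 (.cons 757 n3430 (.cons 759 n3431 .nil)))
noncomputable def n3433 : Strat := .move 714 n3417 (.cons 878 n3418 (.cons 755 n3420 (.cons 673 n3432 .nil)))
noncomputable def n3434 : Strat := .move 717 n2937 (.cons 758 n2984 .nil)
noncomputable def n3435 : Strat := .move 716 n2637 (.cons 838 n3434 .nil)
noncomputable def n3436 : Strat := .move 675 n1812 (.cons 634 n3435 .nil)
noncomputable def n3437 : Strat := .move 673 n3216 (.cons 718 n2983 .nil)
noncomputable def n3438 : Strat := .move 717 n2937 (.cons 758 n3437 .nil)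
noncomputable def n3439 : Strat := .move 716 n2637 (.cons 838 n3438 .nil)
noncomputable def n3440 : Strat := .move 675 n1812 (.cons 634 n3439 .nil)
noncomputable def n3441 : Strat := .move 757 n3362 (.cons 716 n3357 .nil)
noncomputable def n3442 : Strat := .move 592 n3197 (.cons 634 n3441 .nil)
noncomputable def n3443 : Strat := .move 633 n1891 (.cons 591 n3442 .nil)
noncomputable def n3444 : Strat := .move 632 n1892 (.cons 673 n3443 .nil)
noncomputable def n3445 : Strat := .move 675 n1812 (.cons 634 n3162 .nil)
noncomputable def n3446 : Strat := .move 675 n2637 (.cons 838 n3434 .nil)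
noncomputable def n3447 : Strat := .move 675 n2637 (.cons 838 n3161 .nil)
noncomputable def n3448 : Strat := .move 633 n3014 (.cons 592 n3357 .nil)
noncomputable def n3449 : Strat := .move 757 n1622 (.cons 879 n3448 .nil)
noncomputable def n3450 : Strat := .move 838 n1701 (.cons 675 n3449 .nil)
noncomputable def n3451 : Strat := .move 757 n3014 (.cons 592 n3357 .nil)
noncomputable def n3452 : Strat := .move 633 n1891 (.cons 591 n3451 .nil)
noncomputable def n3453 : Strat := .move 632 n1892 (.cons 673 n3452 .nil)
noncomputable def n3454 : Strat := .move 716 n3446 (.cons 673 n3447 (.cons 758 n3450 (.cons 675 n3453 .nil)))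
noncomputable def n3455 : Strat := .move 674 n3436 (.cons 716 n3315 (.cons 632 n3440 (.cons 675 n3444 (.cons 673 n3445 (.cons 634 n3454 .nil)))))
noncomputable def n3456 : Strat := .move 715 n3251 (.cons 757 n3168 (.cons 717 n3254 (.cons 878 n3273 (.cons 634 n3300 (.cons 755 n3309 (.cons 716 n3337 (.cons 632 n3350 (.cons 838 n3398 (.cons 673 n3416 (.cons 675 n3433 (.cons 714 n3455 .nil)))))))))))
noncomputable def n3457 : Strat := .move 756 n2451 (.cons 798 n2452 (.cons 880 n2495 (.cons 674 n2516 (.cons 841 n2543 (.cons 675 n2568 (.cons 715 n2575 (.cons 802 n2605 (.cons 879 n2656 (.cons 801 n2727 (.cons 758 n2739 (.cons 878 n2799 (.cons 837 n2815 (.cons 755 n2852 (.cons 716 n2858 (.cons 800 n3048 (.cons 838 n3145 (.cons 757 n3245 (.cons 839 n3456 .nil))))))))))))))))))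
noncomputable def n3458 : Strat := .move 797 n1653 (.cons 798 n2174 (.cons 839 n2222 (.cons 841 n2301 (.cons 800 n2308 (.cons 838 n2321 (.cons 756 n2324 (.cons 837 n2331 (.cons 757 n2350 (.cons 759 n2357 (.cons 755 n2379 (.cons 795 n2391 (.cons 796 n3457 .nil))))))))))))
noncomputable def n3459 : Strat := .move 837 n830 (.cons 800 n1052 .nil)
noncomputable def n3460 : Strat := .move 841 n832 (.cons 797 n836 .nil)
noncomputable def n3461 : Strat := .move 878 n835 (.cons 877 n3460 .nil)
noncomputable def n3462 : Strat := .move 796 n831 (.cons 795 n3461 .nil)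
noncomputable def n3463 : Strat := .move 837 n1052 (.cons 878 n1075 (.cons 836 n3462 .nil))
noncomputable def n3464 : Strat := .move 756 n1133 (.cons 755 n2578 .nil)
noncomputable def n3465 : Strat := .move 798 n625 (.cons 842 n3464 .nil)
noncomputable def n3466 : Strat := .move 797 n841 (.cons 796 n3465 .nil)
noncomputable def n3467 : Strat := .move 800 n356 (.cons 801 n3466 .nil)
noncomputable def n3468 : Strat := .win 880 4 838
noncomputable def n3469 : Strat := .move 842 n843 (.cons 798 n3468 .nil)
noncomputable def n3470 : Strat := .move 879 n353 (.cons 878 n3469 .nil)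
noncomputable def n3471 : Strat := .move 797 n841 (.cons 796 n3470 .nil)
noncomputable def n3472 : Strat := .move 755 n1691 (.cons 714 n2687 .nil)
noncomputable def n3473 : Strat := .move 756 n1744 (.cons 715 n3472 .nil)
noncomputable def n3474 : Strat := .move 879 n353 (.cons 878 n3473 .nil)
noncomputable def n3475 : Strat := .move 797 n841 (.cons 796 n3474 .nil)
noncomputable def n3476 : Strat := .move 800 n356 (.cons 801 n3475 .nil)
noncomputable def n3477 : Strat := .win 881 1 717
noncomputable def n3478 : Strat := .move 718 n3477 (.cons 881 n595 .nil)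
noncomputable def n3479 : Strat := .move 759 n1128 (.cons 760 n3478 .nil)
noncomputable def n3480 : Strat := .move 798 n625 (.cons 842 n3479 .nil)
noncomputable def n3481 : Strat := .move 797 n841 (.cons 796 n3480 .nil)
noncomputable def n3482 : Strat := .move 800 n356 (.cons 801 n3481 .nil)
noncomputable def n3483 : Strat := .move 842 n3468 (.cons 880 n1913 .nil)
noncomputable def n3484 : Strat := .move 883 n1914 (.cons 882 n3483 .nil)
noncomputable def n3485 : Strat := .move 879 n353 (.cons 878 n3484 .nil)
noncomputable def n3486 : Strat := .move 800 n356 (.cons 801 n3485 .nil)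
noncomputable def n3487 : Strat := .move 841 n3467 (.cons 800 n3471 (.cons 842 n3476 (.cons 880 n3482 (.cons 797 n3486 .nil))))
noncomputable def n3488 : Strat := .move 796 n831 (.cons 795 n3460 .nil)
noncomputable def n3489 : Strat := .move 878 n835 (.cons 877 n3488 .nil)
noncomputable def n3490 : Strat := .move 837 n830 (.cons 800 n3489 .nil)
noncomputable def n3491 : Strat := .move 839 n3459 (.cons 836 n2818 (.cons 800 n3463 (.cons 837 n3487 (.cons 798 n3490 .nil))))
noncomputable def n3492 : Strat := .move 756 n2224 (.cons 919 n1794 .nil)
noncomputable def n3493 : Strat := .move 797 n1201 (.cons 841 n3492 .nil)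
noncomputable def n3494 : Strat := .move 878 n835 (.cons 877 n3493 .nil)
noncomputable def n3495 : Strat := .move 796 n831 (.cons 795 n3494 .nil)
noncomputable def n3496 : Strat := .win 880 0 836
noncomputable def n3497 : Strat := .move 836 n3496 (.cons 880 n1051 .nil)
noncomputable def n3498 : Strat := .move 881 n1295 (.cons 882 n3497 .nil)
noncomputable def n3499 : Strat := .win 875 4 834
noncomputable def n3500 : Strat := .win 877 4 835
noncomputable def n3501 : Strat := .move 876 n3499 (.cons 875 n3500 .nil)
noncomputable def n3502 : Strat := .win 834 5 793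
noncomputable def n3503 : Strat := .move 797 n3502 (.cons 834 n1201 .nil)
noncomputable def n3504 : Strat := .move 835 n3501 (.cons 877 n3503 .nil)
noncomputable def n3505 : Strat := .move 836 n3496 (.cons 880 n3504 .nil)
noncomputable def n3506 : Strat := .move 881 n1295 (.cons 882 n3505 .nil)
noncomputable def n3507 : Strat := .move 796 n831 (.cons 795 n3506 .nil)
noncomputable def n3508 : Strat := .win 881 0 837
noncomputable def n3509 : Strat := .move 882 n3508 (.cons 881 n1035 .nil)
noncomputable def n3510 : Strat := .move 841 n832 (.cons 797 n3509 .nil)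
noncomputable def n3511 : Strat := .move 796 n831 (.cons 795 n3510 .nil)
noncomputable def n3512 : Strat := .move 837 n3489 (.cons 879 n3495 (.cons 841 n3498 (.cons 878 n3507 (.cons 877 n3511 .nil))))
noncomputable def n3513 : Strat := .win 716 6 716
noncomputable def n3514 : Strat := .move 757 n3513 (.cons 716 n510 .nil)
noncomputable def n3515 : Strat := .move 881 n1295 (.cons 882 n3514 .nil)
noncomputable def n3516 : Strat := .move 798 n1053 (.cons 836 n3515 .nil)
noncomputable def n3517 : Strat := .move 836 n1048 (.cons 798 n3496 .nil)
noncomputable def n3518 : Strat := .move 881 n1295 (.cons 882 n3517 .nil)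
noncomputable def n3519 : Strat := .move 796 n831 (.cons 795 n1068 .nil)
noncomputable def n3520 : Strat := .move 879 n1065 (.cons 841 n3519 .nil)
noncomputable def n3521 : Strat := .move 878 n835 (.cons 877 n3520 .nil)
noncomputable def n3522 : Strat := .move 837 n3516 (.cons 922 n3518 (.cons 836 n3521 .nil))
noncomputable def n3523 : Strat := .move 837 n1075 (.cons 798 n3495 (.cons 796 n1052 .nil))
noncomputable def n3524 : Strat := .win 880 0 878
noncomputable def n3525 : Strat := .move 923 n18 (.cons 964 n3524 .nil)
noncomputable def n3526 : Strat := .move 798 n456 (.cons 963 n150 .nil)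
noncomputable def n3527 : Strat := .move 922 n3525 (.cons 880 n3526 .nil)
noncomputable def n3528 : Strat := .move 881 n1295 (.cons 882 n3527 .nil)
noncomputable def n3529 : Strat := .move 879 n1065 (.cons 841 n3528 .nil)
noncomputable def n3530 : Strat := .move 878 n835 (.cons 877 n3529 .nil)
noncomputable def n3531 : Strat := .move 797 n1785 (.cons 756 n1658 .nil)
noncomputable def n3532 : Strat := .win 836 0 836
noncomputable def n3533 : Strat := .move 880 n1281 (.cons 918 n3532 .nil)
noncomputable def n3534 : Strat := .move 919 n3531 (.cons 960 n3533 .nil)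
noncomputable def n3535 : Strat := .move 879 n1065 (.cons 841 n3534 .nil)
noncomputable def n3536 : Strat := .move 881 n1295 (.cons 882 n3535 .nil)
noncomputable def n3537 : Strat := .move 878 n835 (.cons 877 n3536 .nil)
noncomputable def n3538 : Strat := .move 837 n1052 (.cons 876 n3518 (.cons 836 n3530 (.cons 798 n3537 .nil)))
noncomputable def n3539 : Strat := .move 881 n1295 (.cons 882 n3496 .nil)
noncomputable def n3540 : Strat := .move 836 n1048 (.cons 798 n3539 .nil)
noncomputable def n3541 : Strat := .move 837 n1075 (.cons 798 n3507 (.cons 796 n3540 (.cons 836 n3511 .nil)))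
noncomputable def n3542 : Strat := .move 837 n835 (.cons 877 n3508 .nil)
noncomputable def n3543 : Strat := .move 878 n836 (.cons 879 n3542 .nil)
noncomputable def n3544 : Strat := .move 797 n841 (.cons 796 n3543 .nil)
noncomputable def n3545 : Strat := .move 882 n1035 (.cons 883 n3544 .nil)
noncomputable def n3546 : Strat := .move 883 n1914 (.cons 882 n1913 .nil)
noncomputable def n3547 : Strat := .move 842 n843 (.cons 798 n3546 .nil)
noncomputable def n3548 : Strat := .move 797 n841 (.cons 796 n3547 .nil)
noncomputable def n3549 : Strat := .move 881 n725 (.cons 837 n1325 .nil)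
noncomputable def n3550 : Strat := .move 880 n1038 (.cons 842 n3549 .nil)
noncomputable def n3551 : Strat := .move 879 n353 (.cons 878 n3550 .nil)
noncomputable def n3552 : Strat := .move 882 n1035 (.cons 883 n3551 .nil)
noncomputable def n3553 : Strat := .move 841 n3471 (.cons 842 n3545 (.cons 878 n3548 (.cons 797 n3552 .nil)))
noncomputable def n3554 : Strat := .move 798 n983 (.cons 842 n2583 .nil)
noncomputable def n3555 : Strat := .move 797 n841 (.cons 796 n3554 .nil)
noncomputable def n3556 : Strat := .move 882 n1035 (.cons 883 n3508 .nil)
noncomputable def n3557 : Strat := .move 837 n1053 (.cons 836 n3556 .nil)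
noncomputable def n3558 : Strat := .move 798 n983 (.cons 842 n3557 .nil)
noncomputable def n3559 : Strat := .move 797 n841 (.cons 796 n3558 .nil)
noncomputable def n3560 : Strat := .move 837 n1053 (.cons 836 n3508 .nil)
noncomputable def n3561 : Strat := .move 798 n3560 (.cons 881 n2400 .nil)
noncomputable def n3562 : Strat := .move 879 n353 (.cons 878 n3561 .nil)
noncomputable def n3563 : Strat := .move 882 n1035 (.cons 883 n3562 .nil)
noncomputable def n3564 : Strat := .move 797 n841 (.cons 796 n3563 .nil)
noncomputable def n3565 : Strat := .move 880 n1038 (.cons 842 n1325 .nil)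
noncomputable def n3566 : Strat := .move 879 n353 (.cons 878 n3565 .nil)
noncomputable def n3567 : Strat := .move 881 n725 (.cons 837 n3566 .nil)
noncomputable def n3568 : Strat := .move 882 n1035 (.cons 883 n3567 .nil)
noncomputable def n3569 : Strat := .move 841 n3555 (.cons 879 n3559 (.cons 842 n3564 (.cons 797 n3568 .nil)))
noncomputable def n3570 : Strat := .move 919 n1658 (.cons 960 n1657 .nil)
noncomputable def n3571 : Strat := .win 798 2 754
noncomputable def n3572 : Strat := .win 713 7 713
noncomputable def n3573 : Strat := .move 754 n3571 (.cons 798 n3572 .nil)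
noncomputable def n3574 : Strat := .move 797 n3492 (.cons 715 n3570 (.cons 919 n3573 .nil))
noncomputable def n3575 : Strat := .move 755 n2226 (.cons 714 n3574 .nil)
noncomputable def n3576 : Strat := .move 878 n835 (.cons 877 n3575 .nil)
noncomputable def n3577 : Strat := .move 796 n831 (.cons 795 n3576 .nil)
noncomputable def n3578 : Strat := .move 837 n1052 (.cons 798 n3498 (.cons 878 n1075 (.cons 836 n3577 .nil)))
noncomputable def n3579 : Strat := .move 797 n841 (.cons 796 n3469 .nil)
noncomputable def n3580 : Strat := .move 841 n353 (.cons 878 n3579 .nil)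
noncomputable def n3581 : Strat := .move 841 n841 (.cons 796 n3469 .nil)
noncomputable def n3582 : Strat := .move 798 n983 (.cons 842 n1173 .nil)
noncomputable def n3583 : Strat := .move 841 n841 (.cons 796 n3582 .nil)
noncomputable def n3584 : Strat := .move 798 n1172 (.cons 757 n1059 .nil)
noncomputable def n3585 : Strat := .move 757 n2826 (.cons 798 n1692 .nil)
noncomputable def n3586 : Strat := .move 756 n3585 (.cons 716 n1744 .nil)
noncomputable def n3587 : Strat := .win 798 3 797
noncomputable def n3588 : Strat := .move 961 n3587 (.cons 798 n1718 .nil)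
noncomputable def n3589 : Strat := .move 920 n3584 (.cons 961 n3586 (.cons 757 n3588 (.cons 798 n1772 .nil)))
noncomputable def n3590 : Strat := .move 841 n841 (.cons 796 n3589 .nil)
noncomputable def n3591 : Strat := .move 841 n841 (.cons 796 n1665 .nil)
noncomputable def n3592 : Strat := .move 796 n1714 (.cons 755 n1160 .nil)
noncomputable def n3593 : Strat := .move 920 n1059 (.cons 961 n3592 .nil)
noncomputable def n3594 : Strat := .move 756 n1744 (.cons 715 n2695 .nil)
noncomputable def n3595 : Strat := .move 757 n1056 (.cons 716 n3594 .nil)
noncomputable def n3596 : Strat := .move 798 n1612 (.cons 716 n2477 (.cons 757 n3593 (.cons 920 n3595 .nil)))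
noncomputable def n3597 : Strat := .move 920 n1335 (.cons 962 n3584 .nil)
noncomputable def n3598 : Strat := .move 921 n1725 (.cons 880 n3597 .nil)
noncomputable def n3599 : Strat := .move 798 n1611 (.cons 920 n2578 .nil)
noncomputable def n3600 : Strat := .move 757 n1692 (.cons 716 n3599 .nil)
noncomputable def n3601 : Strat := .move 756 n1763 (.cons 715 n3598 (.cons 921 n3600 (.cons 880 n2701 .nil)))
noncomputable def n3602 : Strat := .move 797 n3581 (.cons 880 n3583 (.cons 842 n3590 (.cons 798 n3591 (.cons 841 n3596 (.cons 796 n3601 .nil)))))
noncomputable def n3603 : Strat := .move 797 n841 (.cons 796 n3582 .nil)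
noncomputable def n3604 : Strat := .move 841 n353 (.cons 878 n3603 .nil)
noncomputable def n3605 : Strat := .move 877 n1745 (.cons 876 n1779 .nil)
noncomputable def n3606 : Strat := .move 878 n1065 (.cons 841 n3605 .nil)
noncomputable def n3607 : Strat := .win 880 1 756
noncomputable def n3608 : Strat := .move 757 n1056 (.cons 716 n3607 .nil)
noncomputable def n3609 : Strat := .move 798 n1059 (.cons 961 n3608 .nil)
noncomputable def n3610 : Strat := .move 796 n1160 (.cons 795 n1714 .nil)
noncomputable def n3611 : Strat := .move 919 n1723 (.cons 878 n1722 .nil)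
noncomputable def n3612 : Strat := .move 756 n3611 (.cons 960 n1168 .nil)
noncomputable def n3613 : Strat := .move 797 n3610 (.cons 755 n3612 .nil)
noncomputable def n3614 : Strat := .move 798 n1059 (.cons 961 n3613 .nil)
noncomputable def n3615 : Strat := .win 797 3 756
noncomputable def n3616 : Strat := .move 757 n1056 (.cons 716 n3615 .nil)
noncomputable def n3617 : Strat := .move 798 n1059 (.cons 961 n3616 .nil)
noncomputable def n3618 : Strat := .move 797 n1336 (.cons 756 n1722 .nil)
noncomputable def n3619 : Strat := .win 881 5 877
noncomputable def n3620 : Strat := .win 917 5 876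
noncomputable def n3621 : Strat := .move 918 n3619 (.cons 881 n3620 .nil)
noncomputable def n3622 : Strat := .move 919 n3618 (.cons 960 n3621 .nil)
noncomputable def n3623 : Strat := .move 921 n1026 (.cons 962 n3622 .nil)
noncomputable def n3624 : Strat := .move 881 n1252 (.cons 918 n1304 .nil)
noncomputable def n3625 : Strat := .move 919 n3618 (.cons 960 n3624 .nil)
noncomputable def n3626 : Strat := .move 921 n1026 (.cons 962 n3625 .nil)
noncomputable def n3627 : Strat := .move 797 n1785 (.cons 756 n1722 .nil)
noncomputable def n3628 : Strat := .move 881 n1281 (.cons 918 n1304 .nil)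
noncomputable def n3629 : Strat := .move 919 n3627 (.cons 960 n3628 .nil)
noncomputable def n3630 : Strat := .move 878 n1294 (.cons 877 n3629 .nil)
noncomputable def n3631 : Strat := .win 921 3 798
noncomputable def n3632 : Strat := .move 961 n1731 (.cons 1003 n1737 .nil)
noncomputable def n3633 : Strat := .move 962 n3631 (.cons 921 n3632 .nil)
noncomputable def n3634 : Strat := .move 880 n3623 (.cons 917 n3626 (.cons 921 n3630 (.cons 797 n3633 .nil)))
noncomputable def n3635 : Strat := .move 798 n1172 (.cons 757 n3610 .nil)
noncomputable def n3636 : Strat := .move 798 n3610 (.cons 755 n3612 .nil)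
noncomputable def n3637 : Strat := .move 756 n1725 (.cons 880 n3611 .nil)
noncomputable def n3638 : Strat := .move 921 n1335 (.cons 962 n3637 .nil)
noncomputable def n3639 : Strat := .move 797 n3635 (.cons 757 n3636 (.cons 795 n3638 .nil))
noncomputable def n3640 : Strat := .move 920 n3609 (.cons 757 n3614 (.cons 880 n3617 (.cons 798 n3634 (.cons 961 n3639 .nil))))
noncomputable def n3641 : Strat := .move 879 n3580 (.cons 878 n3602 (.cons 880 n3604 (.cons 842 n3606 (.cons 841 n3640 .nil))))
noncomputable def n3642 : Strat := .move 839 n3463 (.cons 798 n3512 (.cons 797 n3522 (.cons 879 n3523 (.cons 796 n3538 (.cons 878 n3541 (.cons 836 n3553 (.cons 877 n3569 (.cons 841 n3578 (.cons 837 n3641 .nil)))))))))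
noncomputable def n3643 : Strat := .move 837 n830 (.cons 800 n3498 .nil)
noncomputable def n3644 : Strat := .move 879 n3468 (.cons 880 n353 .nil)
noncomputable def n3645 : Strat := .move 842 n1913 (.cons 884 n3644 .nil)
noncomputable def n3646 : Strat := .move 883 n1914 (.cons 882 n3645 .nil)
noncomputable def n3647 : Strat := .move 800 n356 (.cons 801 n3646 .nil)
noncomputable def n3648 : Strat := .move 797 n841 (.cons 796 n1664 .nil)
noncomputable def n3649 : Strat := .move 880 n1038 (.cons 842 n3648 .nil)
noncomputable def n3650 : Strat := .move 879 n353 (.cons 878 n3649 .nil)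
noncomputable def n3651 : Strat := .win 922 1 758
noncomputable def n3652 : Strat := .win 718 1 717
noncomputable def n3653 : Strat := .move 881 n3651 (.cons 922 n3652 .nil)
noncomputable def n3654 : Strat := .win 760 3 718
noncomputable def n3655 : Strat := .move 719 n119 (.cons 678 n3654 .nil)
noncomputable def n3656 : Strat := .move 718 n595 (.cons 677 n3655 .nil)
noncomputable def n3657 : Strat := .win 881 1 758
noncomputable def n3658 : Strat := .move 923 n1233 (.cons 963 n1318 .nil)
noncomputable def n3659 : Strat := .move 922 n3657 (.cons 881 n3658 .nil)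
noncomputable def n3660 : Strat := .move 759 n3478 (.cons 677 n3653 (.cons 881 n3656 (.cons 718 n3659 .nil)))
noncomputable def n3661 : Strat := .move 882 n1035 (.cons 883 n3660 .nil)
noncomputable def n3662 : Strat := .move 800 n356 (.cons 801 n3661 .nil)
noncomputable def n3663 : Strat := .move 841 n3647 (.cons 801 n3650 (.cons 879 n3662 .nil))
noncomputable def n3664 : Strat := .move 839 n3490 (.cons 800 n3512 (.cons 841 n3643 (.cons 878 n1047 (.cons 837 n3663 .nil))))
noncomputable def n3665 : Strat := .move 839 n830 (.cons 800 n1052 .nil)
noncomputable def n3666 : Strat := .move 839 n1052 (.cons 798 n3498 (.cons 878 n1075 (.cons 836 n3577 .nil)))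
noncomputable def n3667 : Strat := .move 839 n830 (.cons 800 n3498 .nil)
noncomputable def n3668 : Strat := .move 839 n830 (.cons 800 n3577 .nil)
noncomputable def n3669 : Strat := .move 839 n830 (.cons 800 n1075 .nil)
noncomputable def n3670 : Strat := .win 796 4 795
noncomputable def n3671 : Strat := .move 836 n3670 (.cons 796 n2916 .nil)
noncomputable def n3672 : Strat := .move 798 n2183 (.cons 800 n3671 .nil)
noncomputable def n3673 : Strat := .win 881 2 836
noncomputable def n3674 : Strat := .win 835 0 835
noncomputable def n3675 : Strat := .move 836 n3673 (.cons 881 n3674 .nil)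
noncomputable def n3676 : Strat := .move 880 n1663 (.cons 921 n3675 .nil)
noncomputable def n3677 : Strat := .move 879 n1699 (.cons 919 n3676 .nil)
noncomputable def n3678 : Strat := .move 878 n1794 (.cons 715 n3677 .nil)
noncomputable def n3679 : Strat := .move 715 n1819 (.cons 674 n3253 (.cons 716 n2057 .nil))
noncomputable def n3680 : Strat := .move 878 n1699 (.cons 919 n3676 .nil)
noncomputable def n3681 : Strat := .move 920 n1722 (.cons 960 n1878 .nil)
noncomputable def n3682 : Strat := .move 919 n1723 (.cons 878 n3681 .nil)
noncomputable def n3683 : Strat := .move 879 n3680 (.cons 919 n1854 (.cons 880 n3682 .nil))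
noncomputable def n3684 : Strat := .move 715 n1708 (.cons 878 n1819 .nil)
noncomputable def n3685 : Strat := .move 756 n3678 (.cons 878 n3679 (.cons 715 n3683 (.cons 879 n3684 .nil)))
noncomputable def n3686 : Strat := .win 796 2 754
noncomputable def n3687 : Strat := .move 754 n2626 (.cons 753 n3686 .nil)
noncomputable def n3688 : Strat := .move 755 n1691 (.cons 714 n3687 .nil)
noncomputable def n3689 : Strat := .move 879 n2823 (.cons 920 n3688 .nil)
noncomputable def n3690 : Strat := .move 879 n2823 (.cons 920 n1826 (.cons 716 n1936 .nil))
noncomputable def n3691 : Strat := .move 715 n1708 (.cons 878 n3690 .nil)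
noncomputable def n3692 : Strat := .move 878 n1794 (.cons 715 n1796 .nil)
noncomputable def n3693 : Strat := .move 756 n3684 (.cons 715 n3689 (.cons 796 n3691 (.cons 716 n3692 .nil)))
noncomputable def n3694 : Strat := .move 798 n2183 (.cons 800 n3693 .nil)
noncomputable def n3695 : Strat := .win 675 1 674
noncomputable def n3696 : Strat := .win 756 3 715
noncomputable def n3697 : Strat := .move 716 n3695 (.cons 675 n3696 .nil)
noncomputable def n3698 : Strat := .move 757 n1611 (.cons 920 n3697 .nil)
noncomputable def n3699 : Strat := .move 798 n2183 (.cons 800 n3698 .nil)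
noncomputable def n3700 : Strat := .move 756 n2670 (.cons 715 n1724 (.cons 919 n1726 .nil))
noncomputable def n3701 : Strat := .move 920 n1172 (.cons 757 n3700 .nil)
noncomputable def n3702 : Strat := .move 798 n2183 (.cons 800 n3701 .nil)
noncomputable def n3703 : Strat := .move 878 n1794 (.cons 715 n1699 .nil)
noncomputable def n3704 : Strat := .move 715 n1708 (.cons 878 n1703 .nil)
noncomputable def n3705 : Strat := .move 880 n1663 (.cons 921 n1769 .nil)
noncomputable def n3706 : Strat := .move 881 n1280 (.cons 836 n1499 .nil)
noncomputable def n3707 : Strat := .move 878 n1699 (.cons 919 n3706 .nil)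
noncomputable def n3708 : Strat := .move 880 n1663 (.cons 921 n3707 .nil)
noncomputable def n3709 : Strat := .move 756 n3703 (.cons 919 n3704 (.cons 878 n3705 (.cons 715 n3708 .nil)))
noncomputable def n3710 : Strat := .move 920 n1172 (.cons 757 n1772 .nil)
noncomputable def n3711 : Strat := .move 798 n2183 (.cons 800 n3710 .nil)
noncomputable def n3712 : Strat := .move 756 n1663 (.cons 921 n2670 .nil)
noncomputable def n3713 : Strat := .win 878 2 836
noncomputable def n3714 : Strat := .move 836 n3713 (.cons 878 n3674 .nil)
noncomputable def n3715 : Strat := .move 881 n1499 (.cons 882 n3714 .nil)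
noncomputable def n3716 : Strat := .win 1003 7 838
noncomputable def n3717 : Strat := .win 920 6 797
noncomputable def n3718 : Strat := .move 962 n3716 (.cons 1003 n3717 .nil)
noncomputable def n3719 : Strat := .move 921 n1336 (.cons 756 n3718 .nil)
noncomputable def n3720 : Strat := .move 880 n3712 (.cons 756 n3715 (.cons 878 n3719 .nil))
noncomputable def n3721 : Strat := .move 800 n2685 (.cons 798 n3720 .nil)
noncomputable def n3722 : Strat := .move 879 n3699 (.cons 675 n3702 (.cons 798 n3709 (.cons 756 n3711 (.cons 757 n3721 .nil))))
noncomputable def n3723 : Strat := .move 797 n3672 (.cons 798 n3685 (.cons 836 n3694 (.cons 796 n3722 .nil)))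
noncomputable def n3724 : Strat := .move 837 n3665 (.cons 800 n3666 (.cons 798 n3667 (.cons 836 n3668 (.cons 878 n3669 (.cons 839 n3723 .nil)))))
noncomputable def n3725 : Strat := .win 798 4 795
noncomputable def n3726 : Strat := .move 836 n3725 (.cons 798 n1684 .nil)
noncomputable def n3727 : Strat := .move 797 n1201 (.cons 841 n3726 .nil)
noncomputable def n3728 : Strat := .move 796 n831 (.cons 795 n3727 .nil)
noncomputable def n3729 : Strat := .move 837 n830 (.cons 800 n3728 .nil)
noncomputable def n3730 : Strat := .move 800 n1186 (.cons 801 n3464 .nil)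
noncomputable def n3731 : Strat := .move 798 n983 (.cons 842 n3730 .nil)
noncomputable def n3732 : Strat := .move 797 n841 (.cons 796 n3731 .nil)
noncomputable def n3733 : Strat := .move 798 n625 (.cons 842 n2583 .nil)
noncomputable def n3734 : Strat := .move 797 n841 (.cons 796 n3733 .nil)
noncomputable def n3735 : Strat := .move 842 n3468 (.cons 880 n1915 .nil)
noncomputable def n3736 : Strat := .move 879 n353 (.cons 878 n3735 .nil)
noncomputable def n3737 : Strat := .move 800 n3466 (.cons 880 n3734 (.cons 796 n3736 (.cons 842 n3475 .nil)))
noncomputable def n3738 : Strat := .move 800 n356 (.cons 801 n3736 .nil)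
noncomputable def n3739 : Strat := .move 800 n356 (.cons 801 n3734 .nil)
noncomputable def n3740 : Strat := .move 841 n3732 (.cons 801 n3737 (.cons 796 n3738 (.cons 842 n3476 (.cons 880 n3739 (.cons 800 n3471 .nil)))))
noncomputable def n3741 : Strat := .move 837 n3728 (.cons 796 n1052 (.cons 878 n1075 (.cons 798 n3489 .nil)))
noncomputable def n3742 : Strat := .move 839 n3729 (.cons 877 n2818 (.cons 798 n1047 (.cons 837 n3740 (.cons 800 n3741 .nil))))
noncomputable def n3743 : Strat := .move 837 n830 (.cons 800 n1075 .nil)
noncomputable def n3744 : Strat := .move 837 n830 (.cons 800 n3495 .nil)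
noncomputable def n3745 : Strat := .move 841 n356 (.cons 801 n3466 .nil)
noncomputable def n3746 : Strat := .move 881 n3652 (.cons 718 n3651 .nil)
noncomputable def n3747 : Strat := .move 759 n3478 (.cons 677 n3746 (.cons 881 n3656 (.cons 718 n3659 .nil)))
noncomputable def n3748 : Strat := .move 882 n1035 (.cons 883 n3747 .nil)
noncomputable def n3749 : Strat := .move 841 n3466 (.cons 797 n3748 .nil)
noncomputable def n3750 : Strat := .move 800 n3745 (.cons 841 n2817 (.cons 801 n3749 (.cons 798 n1045 .nil)))
noncomputable def n3751 : Strat := .move 839 n3743 (.cons 800 n3523 (.cons 798 n3744 (.cons 795 n2818 (.cons 837 n3750 .nil))))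
noncomputable def n3752 : Strat := .move 837 n830 (.cons 800 n3537 .nil)
noncomputable def n3753 : Strat := .move 837 n830 (.cons 800 n3540 .nil)
noncomputable def n3754 : Strat := .move 837 n830 (.cons 800 n3530 .nil)
noncomputable def n3755 : Strat := .move 842 n3468 (.cons 880 n3546 .nil)
noncomputable def n3756 : Strat := .move 879 n353 (.cons 878 n3755 .nil)
noncomputable def n3757 : Strat := .move 879 n353 (.cons 878 n3468 .nil)
noncomputable def n3758 : Strat := .move 842 n842 (.cons 802 n3757 .nil)
noncomputable def n3759 : Strat := .move 801 n840 (.cons 800 n3758 .nil)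
noncomputable def n3760 : Strat := .move 841 n3738 (.cons 842 n3662 (.cons 800 n3756 (.cons 882 n3759 .nil)))
noncomputable def n3761 : Strat := .move 839 n3459 (.cons 800 n3538 (.cons 798 n3752 (.cons 878 n3753 (.cons 836 n3754 (.cons 837 n3760 .nil)))))
noncomputable def n3762 : Strat := .move 801 n677 (.cons 798 n1044 .nil)
noncomputable def n3763 : Strat := .move 800 n357 (.cons 837 n3762 .nil)
noncomputable def n3764 : Strat := .move 841 n626 (.cons 796 n625 .nil)
noncomputable def n3765 : Strat := .move 841 n626 (.cons 796 n3464 .nil)
noncomputable def n3766 : Strat := .move 798 n3764 (.cons 842 n3765 (.cons 841 n3464 .nil))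
noncomputable def n3767 : Strat := .move 841 n625 (.cons 842 n3464 .nil)
noncomputable def n3768 : Strat := .move 841 n625 (.cons 842 n3479 .nil)
noncomputable def n3769 : Strat := .move 798 n3767 (.cons 674 n3768 (.cons 841 n3464 .nil))
noncomputable def n3770 : Strat := .move 841 n841 (.cons 796 n3480 .nil)
noncomputable def n3771 : Strat := .move 798 n1160 (.cons 795 n1644 .nil)
noncomputable def n3772 : Strat := .move 796 n1201 (.cons 841 n3771 .nil)
noncomputable def n3773 : Strat := .move 798 n1133 (.cons 755 n2578 .nil)
noncomputable def n3774 : Strat := .move 715 n1167 (.cons 674 n1701 .nil)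
noncomputable def n3775 : Strat := .win 881 6 716
noncomputable def n3776 : Strat := .move 757 n3775 (.cons 881 n1177 .nil)
noncomputable def n3777 : Strat := .move 716 n3774 (.cons 675 n3776 .nil)
noncomputable def n3778 : Strat := .move 798 n1133 (.cons 755 n3777 .nil)
noncomputable def n3779 : Strat := .win 796 6 673
noncomputable def n3780 : Strat := .move 673 n3779 (.cons 796 n2071 .nil)
noncomputable def n3781 : Strat := .move 714 n1872 (.cons 879 n3780 .nil)
noncomputable def n3782 : Strat := .move 755 n2687 (.cons 798 n3781 .nil)
noncomputable def n3783 : Strat := .move 756 n3773 (.cons 798 n1870 (.cons 880 n3778 (.cons 715 n3782 .nil)))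
noncomputable def n3784 : Strat := .move 797 n3766 (.cons 796 n3769 (.cons 798 n1667 (.cons 880 n3770 (.cons 842 n3772 (.cons 841 n3783 .nil)))))
noncomputable def n3785 : Strat := .move 800 n2817 (.cons 801 n3784 (.cons 798 n1045 .nil))
noncomputable def n3786 : Strat := .move 837 n1052 (.cons 877 n1075 (.cons 836 n3462 .nil))
noncomputable def n3787 : Strat := .move 839 n2818 (.cons 802 n3763 (.cons 837 n3785 (.cons 800 n3786 (.cons 798 n1047 .nil))))
noncomputable def n3788 : Strat := .win 719 3 718
noncomputable def n3789 : Strat := .win 798 5 756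
noncomputable def n3790 : Strat := .move 760 n3788 (.cons 719 n3789 .nil)
noncomputable def n3791 : Strat := .move 759 n3478 (.cons 677 n3746 (.cons 881 n3790 .nil))
noncomputable def n3792 : Strat := .move 882 n1035 (.cons 883 n3791 .nil)
noncomputable def n3793 : Strat := .move 797 n841 (.cons 796 n3792 .nil)
noncomputable def n3794 : Strat := .move 841 n3466 (.cons 842 n3793 (.cons 798 n3748 .nil))
noncomputable def n3795 : Strat := .move 800 n2817 (.cons 801 n3794 (.cons 798 n1045 .nil))
noncomputable def n3796 : Strat := .move 839 n2818 (.cons 800 n3541 (.cons 798 n1047 (.cons 837 n3795 .nil)))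
noncomputable def n3797 : Strat := .move 841 n829 (.cons 837 n3482 (.cons 801 n834 (.cons 800 n3555 .nil)))
noncomputable def n3798 : Strat := .move 837 n830 (.cons 800 n3516 .nil)
noncomputable def n3799 : Strat := .move 837 n830 (.cons 800 n3462 .nil)
noncomputable def n3800 : Strat := .move 879 n353 (.cons 878 n1173 .nil)
noncomputable def n3801 : Strat := .move 798 n983 (.cons 842 n3800 .nil)
noncomputable def n3802 : Strat := .move 797 n841 (.cons 796 n3801 .nil)
noncomputable def n3803 : Strat := .move 841 n3482 (.cons 881 n3739 (.cons 800 n3802 (.cons 842 n3662 .nil)))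
noncomputable def n3804 : Strat := .move 714 n1753 (.cons 673 n2184 .nil)
noncomputable def n3805 : Strat := .move 755 n1642 (.cons 754 n3804 .nil)
noncomputable def n3806 : Strat := .move 798 n1202 (.cons 836 n3805 .nil)
noncomputable def n3807 : Strat := .move 797 n1201 (.cons 841 n3806 .nil)
noncomputable def n3808 : Strat := .move 796 n831 (.cons 795 n3807 .nil)
noncomputable def n3809 : Strat := .move 837 n3808 (.cons 798 n3462 (.cons 841 n3516 .nil))
noncomputable def n3810 : Strat := .move 839 n3797 (.cons 841 n3798 (.cons 798 n3799 (.cons 837 n3803 (.cons 800 n3809 .nil))))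
noncomputable def n3811 : Strat := .move 841 n356 (.cons 801 n3646 .nil)
noncomputable def n3812 : Strat := .move 800 n357 (.cons 837 n3811 .nil)
noncomputable def n3813 : Strat := .move 800 n3466 (.cons 798 n3646 (.cons 842 n3475 (.cons 880 n3481 .nil)))
noncomputable def n3814 : Strat := .move 841 n3467 (.cons 801 n3813 (.cons 798 n3647 (.cons 842 n3476 (.cons 880 n3482 (.cons 800 n3471 .nil)))))
noncomputable def n3815 : Strat := .move 839 n2818 (.cons 800 n3553 (.cons 798 n3812 (.cons 837 n3814 .nil)))
noncomputable def n3816 : Strat := .move 759 n3478 (.cons 677 n3653 (.cons 881 n3790 .nil))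
noncomputable def n3817 : Strat := .move 882 n1035 (.cons 883 n3816 .nil)
noncomputable def n3818 : Strat := .move 797 n841 (.cons 796 n3817 .nil)
noncomputable def n3819 : Strat := .move 800 n356 (.cons 801 n3818 .nil)
noncomputable def n3820 : Strat := .move 841 n3467 (.cons 800 n3471 (.cons 842 n3819 (.cons 798 n3662 .nil)))
noncomputable def n3821 : Strat := .move 837 n830 (.cons 800 n3511 .nil)
noncomputable def n3822 : Strat := .move 839 n2818 (.cons 837 n3820 (.cons 800 n3569 (.cons 798 n3821 .nil)))
noncomputable def n3823 : Strat := .move 759 n1128 (.cons 760 n3764 .nil)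
noncomputable def n3824 : Strat := .move 800 n1596 (.cons 837 n3823 .nil)
noncomputable def n3825 : Strat := .move 837 n1202 (.cons 836 n2185 .nil)
noncomputable def n3826 : Strat := .move 755 n1642 (.cons 754 n3825 .nil)
noncomputable def n3827 : Strat := .move 796 n1161 (.cons 841 n3826 .nil)
noncomputable def n3828 : Strat := .move 800 n1596 (.cons 837 n1128 .nil)
noncomputable def n3829 : Strat := .move 800 n1128 (.cons 760 n2283 .nil)
noncomputable def n3830 : Strat := .move 800 n1596 (.cons 837 n2283 .nil)
noncomputable def n3831 : Strat := .move 716 n3696 (.cons 756 n3695 .nil)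
noncomputable def n3832 : Strat := .move 757 n1611 (.cons 920 n3831 .nil)
noncomputable def n3833 : Strat := .move 796 n1690 (.cons 920 n1642 .nil)
noncomputable def n3834 : Strat := .move 755 n1691 (.cons 714 n3833 .nil)
noncomputable def n3835 : Strat := .move 836 n2916 (.cons 835 n3670 .nil)
noncomputable def n3836 : Strat := .move 837 n3835 (.cons 796 n3703 .nil)
noncomputable def n3837 : Strat := .move 878 n1700 (.cons 837 n1699 .nil)
noncomputable def n3838 : Strat := .move 715 n3837 (.cons 919 n1768 .nil)
noncomputable def n3839 : Strat := .move 756 n3834 (.cons 755 n3836 (.cons 796 n3838 .nil))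
noncomputable def n3840 : Strat := .move 756 n2696 (.cons 757 n3688 (.cons 714 n3836 .nil))
noncomputable def n3841 : Strat := .move 837 n1721 (.cons 961 n1202 .nil)
noncomputable def n3842 : Strat := .move 796 n1714 (.cons 755 n3841 .nil)
noncomputable def n3843 : Strat := .move 920 n1172 (.cons 757 n3842 .nil)
noncomputable def n3844 : Strat := .move 879 n3832 (.cons 757 n3839 (.cons 920 n3840 (.cons 756 n3843 .nil)))
noncomputable def n3845 : Strat := .move 759 n3828 (.cons 837 n3829 (.cons 760 n3830 (.cons 800 n3844 .nil)))
noncomputable def n3846 : Strat := .move 879 n1691 (.cons 714 n1690 .nil)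
noncomputable def n3847 : Strat := .move 756 n2175 (.cons 800 n3846 .nil)
noncomputable def n3848 : Strat := .move 755 n1642 (.cons 754 n3847 .nil)
noncomputable def n3849 : Strat := .move 796 n1161 (.cons 841 n3848 .nil)
noncomputable def n3850 : Strat := .move 798 n3824 (.cons 800 n3827 (.cons 841 n3845 (.cons 796 n3830 (.cons 837 n3849 .nil))))
noncomputable def n3851 : Strat := .move 880 n1663 (.cons 921 n3706 .nil)
noncomputable def n3852 : Strat := .move 878 n1699 (.cons 919 n3851 .nil)
noncomputable def n3853 : Strat := .move 837 n3852 (.cons 878 n1854 (.cons 880 n3682 .nil))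
noncomputable def n3854 : Strat := .move 756 n1705 (.cons 715 n3853 (.cons 837 n1831 (.cons 878 n1854 .nil)))
noncomputable def n3855 : Strat := .move 715 n1707 (.cons 673 n1703 .nil)
noncomputable def n3856 : Strat := .move 714 n1706 (.cons 755 n3855 .nil)
noncomputable def n3857 : Strat := .move 756 n1831 (.cons 755 n1851 (.cons 920 n3856 .nil))
noncomputable def n3858 : Strat := .move 674 n2077 (.cons 878 n1814 .nil)
noncomputable def n3859 : Strat := .move 674 n2077 (.cons 878 n1929 .nil)
noncomputable def n3860 : Strat := .move 715 n1703 (.cons 757 n3858 (.cons 675 n3859 .nil))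
noncomputable def n3861 : Strat := .move 921 n1725 (.cons 880 n3860 .nil)
noncomputable def n3862 : Strat := .move 920 n1714 (.cons 755 n1335 .nil)
noncomputable def n3863 : Strat := .move 837 n1709 (.cons 674 n1708 .nil)
noncomputable def n3864 : Strat := .move 796 n3862 (.cons 962 n3863 .nil)
noncomputable def n3865 : Strat := .move 715 n1703 (.cons 757 n3858 (.cons 675 n3864 .nil))
noncomputable def n3866 : Strat := .move 921 n1725 (.cons 880 n3865 .nil)
noncomputable def n3867 : Strat := .win 633 1 632
noncomputable def n3868 : Strat := .move 674 n1889 (.cons 837 n3867 .nil)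
noncomputable def n3869 : Strat := .move 715 n1703 (.cons 757 n3868 .nil)
noncomputable def n3870 : Strat := .move 796 n1690 (.cons 920 n3869 .nil)
noncomputable def n3871 : Strat := .move 755 n1691 (.cons 714 n3870 .nil)
noncomputable def n3872 : Strat := .move 962 n3717 (.cons 920 n1769 .nil)
noncomputable def n3873 : Strat := .move 921 n1725 (.cons 880 n3872 .nil)
noncomputable def n3874 : Strat := .move 756 n1854 (.cons 755 n3861 (.cons 714 n3866 (.cons 921 n3871 (.cons 796 n3873 .nil))))
noncomputable def n3875 : Strat := .move 881 n1280 (.cons 836 n433 .nil)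
noncomputable def n3876 : Strat := .move 837 n1794 (.cons 715 n3875 .nil)
noncomputable def n3877 : Strat := .move 880 n1663 (.cons 921 n3876 .nil)
noncomputable def n3878 : Strat := .move 878 n1699 (.cons 919 n3877 .nil)
noncomputable def n3879 : Strat := .move 837 n1794 (.cons 715 n3676 .nil)
noncomputable def n3880 : Strat := .move 878 n1699 (.cons 919 n3879 .nil)
noncomputable def n3881 : Strat := .move 756 n3878 (.cons 841 n3880 (.cons 878 n1854 (.cons 880 n1831 .nil)))
noncomputable def n3882 : Strat := .move 837 n1499 (.cons 882 n1794 .nil)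
noncomputable def n3883 : Strat := .move 880 n433 (.cons 841 n3882 .nil)
noncomputable def n3884 : Strat := .move 878 n1699 (.cons 919 n3883 .nil)
noncomputable def n3885 : Strat := .move 837 n1280 (.cons 836 n1499 .nil)
noncomputable def n3886 : Strat := .move 880 n433 (.cons 841 n3885 .nil)
noncomputable def n3887 : Strat := .move 878 n1699 (.cons 919 n3886 .nil)
noncomputable def n3888 : Strat := .move 881 n3884 (.cons 841 n1705 (.cons 878 n3856 (.cons 715 n3887 .nil)))
noncomputable def n3889 : Strat := .move 756 n3888 (.cons 755 n1705 (.cons 919 n3871 (.cons 715 n1831 .nil)))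
noncomputable def n3890 : Strat := .move 756 n1723 (.cons 878 n1878 .nil)
noncomputable def n3891 : Strat := .move 919 n1722 (.cons 960 n3890 .nil)
noncomputable def n3892 : Strat := .move 796 n1714 (.cons 755 n1734 .nil)
noncomputable def n3893 : Strat := .move 756 n1723 (.cons 878 n1769 .nil)
noncomputable def n3894 : Strat := .move 919 n1722 (.cons 960 n3893 .nil)
noncomputable def n3895 : Strat := .win 922 2 877
noncomputable def n3896 : Strat := .win 876 0 876
noncomputable def n3897 : Strat := .move 877 n3895 (.cons 922 n3896 .nil)
noncomputable def n3898 : Strat := .move 878 n1785 (.cons 756 n3897 .nil)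
noncomputable def n3899 : Strat := .move 921 n1335 (.cons 962 n3898 .nil)
noncomputable def n3900 : Strat := .move 919 n1722 (.cons 960 n3899 .nil)
noncomputable def n3901 : Strat := .move 920 n3891 (.cons 919 n3892 (.cons 796 n3894 (.cons 755 n3900 .nil)))
noncomputable def n3902 : Strat := .move 715 n1700 (.cons 837 n1768 .nil)
noncomputable def n3903 : Strat := .move 878 n1699 (.cons 919 n3902 .nil)
noncomputable def n3904 : Strat := .move 837 n1499 (.cons 882 n1280 .nil)
noncomputable def n3905 : Strat := .move 881 n433 (.cons 841 n3904 .nil)
noncomputable def n3906 : Strat := .move 880 n1663 (.cons 921 n3905 .nil)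
noncomputable def n3907 : Strat := .move 878 n1699 (.cons 919 n3906 .nil)
noncomputable def n3908 : Strat := .move 756 n1705 (.cons 837 n3856 (.cons 757 n3903 (.cons 715 n3907 .nil)))
noncomputable def n3909 : Strat := .move 882 n418 (.cons 919 n1269 .nil)
noncomputable def n3910 : Strat := .move 880 n1336 (.cons 756 n3909 .nil)
noncomputable def n3911 : Strat := .move 921 n1335 (.cons 962 n3910 .nil)
noncomputable def n3912 : Strat := .move 919 n1304 (.cons 882 n1722 .nil)
noncomputable def n3913 : Strat := .move 880 n1336 (.cons 756 n3912 .nil)
noncomputable def n3914 : Strat := .move 921 n1335 (.cons 962 n3913 .nil)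
noncomputable def n3915 : Strat := .move 796 n1714 (.cons 755 n1719 .nil)
noncomputable def n3916 : Strat := .move 756 n1725 (.cons 880 n1878 .nil)
noncomputable def n3917 : Strat := .move 921 n1335 (.cons 962 n3916 .nil)
noncomputable def n3918 : Strat := .move 881 n3911 (.cons 837 n3914 (.cons 921 n3915 (.cons 919 n3917 .nil)))
noncomputable def n3919 : Strat := .move 880 n1336 (.cons 756 n3621 .nil)
noncomputable def n3920 : Strat := .move 919 n1722 (.cons 960 n3919 .nil)
noncomputable def n3921 : Strat := .move 921 n1335 (.cons 962 n3920 .nil)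
noncomputable def n3922 : Strat := .move 920 n3918 (.cons 921 n3915 (.cons 755 n3921 (.cons 919 n3917 .nil)))
noncomputable def n3923 : Strat := .move 882 n424 (.cons 842 n1269 .nil)
noncomputable def n3924 : Strat := .move 841 n786 (.cons 878 n3923 .nil)
noncomputable def n3925 : Strat := .move 882 n1269 (.cons 837 n1319 .nil)
noncomputable def n3926 : Strat := .move 841 n786 (.cons 878 n3925 .nil)
noncomputable def n3927 : Strat := .move 921 n417 (.cons 883 n1335 .nil)
noncomputable def n3928 : Strat := .move 920 n418 (.cons 919 n3927 .nil)
noncomputable def n3929 : Strat := .move 882 n1269 (.cons 837 n3928 .nil)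
noncomputable def n3930 : Strat := .move 921 n430 (.cons 877 n36 .nil)
noncomputable def n3931 : Strat := .move 922 n431 (.cons 923 n3930 .nil)
noncomputable def n3932 : Strat := .move 878 n433 (.cons 841 n3931 .nil)
noncomputable def n3933 : Strat := .move 880 n3924 (.cons 842 n3926 (.cons 878 n3929 (.cons 882 n3932 .nil)))
noncomputable def n3934 : Strat := .move 882 n1269 (.cons 837 n992 .nil)
noncomputable def n3935 : Strat := .move 878 n433 (.cons 841 n3885 .nil)
noncomputable def n3936 : Strat := .win 837 3 796
noncomputable def n3937 : Strat := .move 960 n3936 (.cons 837 n1787 .nil)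
noncomputable def n3938 : Strat := .move 919 n1281 (.cons 918 n3937 .nil)
noncomputable def n3939 : Strat := .move 878 n433 (.cons 841 n3938 .nil)
noncomputable def n3940 : Strat := .move 920 n1304 (.cons 882 n1722 .nil)
noncomputable def n3941 : Strat := .move 919 n1281 (.cons 918 n3940 .nil)
noncomputable def n3942 : Strat := .move 878 n433 (.cons 841 n3941 .nil)
noncomputable def n3943 : Strat := .move 880 n3934 (.cons 842 n3935 (.cons 882 n3939 (.cons 878 n3929 (.cons 837 n3942 .nil))))
noncomputable def n3944 : Strat := .move 880 n1252 (.cons 918 n1304 .nil)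
noncomputable def n3945 : Strat := .move 919 n1722 (.cons 960 n3944 .nil)
noncomputable def n3946 : Strat := .move 921 n1335 (.cons 962 n3945 .nil)
noncomputable def n3947 : Strat := .move 961 n1731 (.cons 1003 n1718 .nil)
noncomputable def n3948 : Strat := .move 962 n1732 (.cons 921 n3947 .nil)
noncomputable def n3949 : Strat := .move 878 n1281 (.cons 918 n433 .nil)
noncomputable def n3950 : Strat := .move 880 n1304 (.cons 882 n3949 .nil)
noncomputable def n3951 : Strat := .move 919 n1722 (.cons 960 n3950 .nil)
noncomputable def n3952 : Strat := .move 961 n1731 (.cons 1003 n2127 .nil)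
noncomputable def n3953 : Strat := .move 962 n1732 (.cons 921 n3952 .nil)
noncomputable def n3954 : Strat := .move 920 n3946 (.cons 880 n3948 (.cons 962 n3951 (.cons 919 n3953 .nil)))
noncomputable def n3955 : Strat := .move 923 n884 (.cons 878 n18 .nil)
noncomputable def n3956 : Strat := .win 882 5 878
noncomputable def n3957 : Strat := .move 919 n3956 (.cons 882 n1722 .nil)
noncomputable def n3958 : Strat := .move 922 n3955 (.cons 964 n3957 .nil)
noncomputable def n3959 : Strat := .move 921 n1335 (.cons 962 n3958 .nil)
noncomputable def n3960 : Strat := .move 961 n1715 (.cons 837 n1716 .nil)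
noncomputable def n3961 : Strat := .move 960 n1717 (.cons 919 n3960 .nil)
noncomputable def n3962 : Strat := .move 796 n1714 (.cons 755 n3961 .nil)
noncomputable def n3963 : Strat := .move 920 n3948 (.cons 961 n3959 (.cons 962 n3962 (.cons 919 n3953 .nil)))
noncomputable def n3964 : Strat := .move 882 n1278 (.cons 924 n1269 .nil)
noncomputable def n3965 : Strat := .move 880 n412 (.cons 878 n3964 .nil)
noncomputable def n3966 : Strat := .move 923 n18 (.cons 964 n3965 .nil)
noncomputable def n3967 : Strat := .move 963 n153 (.cons 1005 n503 .nil)
noncomputable def n3968 : Strat := .move 964 n152 (.cons 923 n3967 .nil)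
noncomputable def n3969 : Strat := .move 922 n3966 (.cons 880 n3968 (.cons 923 n617 .nil))
noncomputable def n3970 : Strat := .move 964 n1274 (.cons 841 n1433 .nil)
noncomputable def n3971 : Strat := .move 923 n1278 (.cons 924 n3970 .nil)
noncomputable def n3972 : Strat := .move 882 n1269 (.cons 837 n3971 .nil)
noncomputable def n3973 : Strat := .move 837 n1499 (.cons 882 n3714 .nil)
noncomputable def n3974 : Strat := .move 880 n3935 (.cons 836 n3934 (.cons 878 n3972 (.cons 882 n3939 (.cons 837 n3942 (.cons 841 n3973 .nil)))))
noncomputable def n3975 : Strat := .move 961 n1715 (.cons 837 n1731 .nil)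
noncomputable def n3976 : Strat := .move 796 n1714 (.cons 755 n3975 .nil)
noncomputable def n3977 : Strat := .move 962 n1732 (.cons 921 n3976 .nil)
noncomputable def n3978 : Strat := .win 921 5 877
noncomputable def n3979 : Strat := .move 918 n3978 (.cons 921 n3620 .nil)
noncomputable def n3980 : Strat := .move 880 n1304 (.cons 882 n3979 .nil)
noncomputable def n3981 : Strat := .move 919 n1722 (.cons 960 n3980 .nil)
noncomputable def n3982 : Strat := .move 920 n3948 (.cons 1001 n3977 (.cons 962 n3981 (.cons 921 n3915 .nil)))
noncomputable def n3983 : Strat := .move 800 n144 (.cons 841 n143 .nil)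
noncomputable def n3984 : Strat := .move 963 n146 (.cons 1003 n3983 .nil)
noncomputable def n3985 : Strat := .move 962 n145 (.cons 921 n3984 .nil)
noncomputable def n3986 : Strat := .move 921 n413 (.cons 924 n36 .nil)
noncomputable def n3987 : Strat := .move 880 n412 (.cons 878 n3986 .nil)
noncomputable def n3988 : Strat := .move 923 n18 (.cons 964 n3987 .nil)
noncomputable def n3989 : Strat := .win 921 2 879
noncomputable def n3990 : Strat := .move 924 n157 (.cons 925 n3989 .nil)
noncomputable def n3991 : Strat := .move 880 n412 (.cons 878 n3990 .nil)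
noncomputable def n3992 : Strat := .move 923 n18 (.cons 964 n3991 .nil)
noncomputable def n3993 : Strat := .move 963 n144 (.cons 841 n504 .nil)
noncomputable def n3994 : Strat := .move 800 n143 (.cons 759 n3993 .nil)
noncomputable def n3995 : Strat := .move 922 n3985 (.cons 1003 n3988 (.cons 962 n3992 (.cons 921 n3994 .nil)))
noncomputable def n3996 : Strat := .move 881 n3933 (.cons 922 n3943 (.cons 842 n3954 (.cons 880 n3963 (.cons 920 n3969 (.cons 921 n3974 (.cons 878 n3982 (.cons 882 n3995 .nil)))))))
noncomputable def n3997 : Strat := .move 756 n1699 (.cons 919 n3877 .nil)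
noncomputable def n3998 : Strat := .move 756 n1699 (.cons 919 n1704 .nil)
noncomputable def n3999 : Strat := .move 960 n1787 (.cons 920 n1786 .nil)
noncomputable def n4000 : Strat := .move 919 n1785 (.cons 756 n3999 .nil)
noncomputable def n4001 : Strat := .move 756 n1663 (.cons 921 n3876 .nil)
noncomputable def n4002 : Strat := .move 880 n4001 (.cons 881 n3719 (.cons 921 n3905 .nil))
noncomputable def n4003 : Strat := .win 923 2 878
noncomputable def n4004 : Strat := .move 922 n875 (.cons 877 n4003 .nil)
noncomputable def n4005 : Strat := .move 921 n1335 (.cons 962 n4004 .nil)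
noncomputable def n4006 : Strat := .move 919 n1722 (.cons 960 n4005 .nil)
noncomputable def n4007 : Strat := .move 921 n1335 (.cons 962 n3897 .nil)
noncomputable def n4008 : Strat := .move 919 n1722 (.cons 960 n4007 .nil)
noncomputable def n4009 : Strat := .win 880 0 877
noncomputable def n4010 : Strat := .move 922 n4009 (.cons 880 n4003 .nil)
noncomputable def n4011 : Strat := .move 877 n3896 (.cons 876 n4010 .nil)
noncomputable def n4012 : Strat := .move 921 n1335 (.cons 962 n4011 .nil)
noncomputable def n4013 : Strat := .win 1002 7 837
noncomputable def n4014 : Strat := .win 796 7 796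
noncomputable def n4015 : Strat := .move 837 n4013 (.cons 1002 n4014 .nil)
noncomputable def n4016 : Strat := .move 961 n1716 (.cons 1001 n4015 .nil)
noncomputable def n4017 : Strat := .move 960 n1717 (.cons 919 n4016 .nil)
noncomputable def n4018 : Strat := .move 920 n4006 (.cons 923 n4008 (.cons 919 n4012 (.cons 921 n4017 .nil)))
noncomputable def n4019 : Strat := .move 878 n3997 (.cons 921 n3998 (.cons 837 n4000 (.cons 919 n4002 (.cons 756 n4018 .nil))))
noncomputable def n4020 : Strat := .move 879 n3854 (.cons 837 n3857 (.cons 919 n3874 (.cons 675 n3881 (.cons 921 n3889 (.cons 880 n3901 (.cons 920 n3908 (.cons 878 n3922 (.cons 756 n3996 (.cons 755 n4019 .nil)))))))))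
noncomputable def n4021 : Strat := .move 798 n1161 (.cons 841 n1172 .nil)
noncomputable def n4022 : Strat := .move 796 n1714 (.cons 755 n4021 .nil)
noncomputable def n4023 : Strat := .move 756 n1725 (.cons 880 n1723 .nil)
noncomputable def n4024 : Strat := .move 921 n1335 (.cons 962 n4023 .nil)
noncomputable def n4025 : Strat := .move 919 n1722 (.cons 960 n4024 .nil)
noncomputable def n4026 : Strat := .move 920 n4022 (.cons 841 n4025 .nil)
noncomputable def n4027 : Strat := .move 756 n1692 (.cons 716 n2695 .nil)
noncomputable def n4028 : Strat := .move 757 n1611 (.cons 920 n4027 .nil)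
noncomputable def n4029 : Strat := .move 757 n2695 (.cons 714 n3836 .nil)
noncomputable def n4030 : Strat := .move 757 n1692 (.cons 716 n3838 .nil)
noncomputable def n4031 : Strat := .move 757 n1692 (.cons 716 n3836 .nil)
noncomputable def n4032 : Strat := .move 756 n2696 (.cons 716 n4029 (.cons 754 n4030 (.cons 757 n3688 (.cons 714 n4031 .nil))))
noncomputable def n4033 : Strat := .move 756 n2695 (.cons 714 n3836 .nil)
noncomputable def n4034 : Strat := .move 757 n1611 (.cons 920 n4033 .nil)
noncomputable def n4035 : Strat := .move 755 n1690 (.cons 920 n1642 .nil)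
noncomputable def n4036 : Strat := .move 920 n3841 (.cons 836 n1719 (.cons 961 n1727 .nil))
noncomputable def n4037 : Strat := .move 755 n1067 (.cons 714 n1642 .nil)
noncomputable def n4038 : Strat := .move 837 n1202 (.cons 836 n4037 .nil)
noncomputable def n4039 : Strat := .move 796 n4035 (.cons 755 n4036 (.cons 920 n4038 .nil))
noncomputable def n4040 : Strat := .move 798 n4028 (.cons 920 n4032 (.cons 716 n4034 (.cons 757 n4039 (.cons 756 n3843 (.cons 755 n3832 .nil)))))
noncomputable def n4041 : Strat := .move 798 n1642 (.cons 754 n1161 .nil)
noncomputable def n4042 : Strat := .move 796 n1690 (.cons 920 n4041 .nil)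
noncomputable def n4043 : Strat := .move 755 n1691 (.cons 714 n4042 .nil)
noncomputable def n4044 : Strat := .move 756 n4043 (.cons 920 n1705 .nil)
noncomputable def n4045 : Strat := .move 961 n1716 (.cons 1001 n1733 .nil)
noncomputable def n4046 : Strat := .move 960 n1717 (.cons 919 n4045 .nil)
noncomputable def n4047 : Strat := .move 798 n1172 (.cons 757 n4046 .nil)
noncomputable def n4048 : Strat := .move 961 n1716 (.cons 1001 n2127 .nil)
noncomputable def n4049 : Strat := .move 960 n1717 (.cons 919 n4048 .nil)
noncomputable def n4050 : Strat := .move 878 n4006 (.cons 923 n4008 (.cons 919 n4012 (.cons 921 n4049 .nil)))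
noncomputable def n4051 : Strat := .move 920 n4022 (.cons 796 n4047 (.cons 798 n4050 .nil))
noncomputable def n4052 : Strat := .move 837 n1202 (.cons 836 n1721 .nil)
noncomputable def n4053 : Strat := .move 796 n1161 (.cons 841 n4052 .nil)
noncomputable def n4054 : Strat := .move 798 n1172 (.cons 757 n4053 .nil)
noncomputable def n4055 : Strat := .move 921 n1335 (.cons 962 n4054 .nil)
noncomputable def n4056 : Strat := .move 919 n1722 (.cons 960 n4054 .nil)
noncomputable def n4057 : Strat := .move 920 n4025 (.cons 878 n4055 (.cons 921 n4056 .nil))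
noncomputable def n4058 : Strat := .move 756 n1725 (.cons 880 n3585 .nil)
noncomputable def n4059 : Strat := .move 921 n1335 (.cons 962 n4058 .nil)
noncomputable def n4060 : Strat := .move 920 n4022 (.cons 755 n4055 (.cons 841 n4059 (.cons 798 n3917 .nil)))
noncomputable def n4061 : Strat := .move 798 n1202 (.cons 836 n1161 .nil)
noncomputable def n4062 : Strat := .move 837 n1721 (.cons 961 n4061 .nil)
noncomputable def n4063 : Strat := .move 796 n1714 (.cons 755 n4062 .nil)
noncomputable def n4064 : Strat := .move 920 n4063 (.cons 798 n4025 .nil)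
noncomputable def n4065 : Strat := .move 715 n1701 (.cons 675 n1768 .nil)
noncomputable def n4066 : Strat := .move 716 n1702 (.cons 757 n4065 .nil)
noncomputable def n4067 : Strat := .move 756 n1705 (.cons 716 n3878 (.cons 837 n4066 (.cons 715 n3907 .nil)))
noncomputable def n4068 : Strat := .move 879 n4026 (.cons 841 n4040 (.cons 962 n4044 (.cons 756 n4051 (.cons 755 n4057 (.cons 878 n4060 (.cons 757 n4064 (.cons 920 n4067 .nil)))))))
noncomputable def n4069 : Strat := .move 798 n626 (.cons 796 n3698 .nil)
noncomputable def n4070 : Strat := .move 757 n1621 (.cons 801 n1611 .nil)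
noncomputable def n4071 : Strat := .move 756 n1133 (.cons 755 n4070 .nil)
noncomputable def n4072 : Strat := .move 800 n625 (.cons 842 n4071 .nil)
noncomputable def n4073 : Strat := .move 798 n626 (.cons 796 n4072 .nil)
noncomputable def n4074 : Strat := .win 881 5 837
noncomputable def n4075 : Strat := .move 880 n4074 (.cons 881 n1663 .nil)
noncomputable def n4076 : Strat := .move 878 n1699 (.cons 919 n4075 .nil)
noncomputable def n4077 : Strat := .move 714 n1706 (.cons 755 n4076 .nil)
noncomputable def n4078 : Strat := .move 878 n4074 (.cons 881 n1699 .nil)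
noncomputable def n4079 : Strat := .move 880 n1663 (.cons 921 n4078 .nil)
noncomputable def n4080 : Strat := .move 756 n3856 (.cons 675 n4077 (.cons 714 n4079 .nil))
noncomputable def n4081 : Strat := .move 800 n625 (.cons 842 n3479 .nil)
noncomputable def n4082 : Strat := .move 798 n626 (.cons 796 n4081 .nil)
noncomputable def n4083 : Strat := .move 841 n4069 (.cons 716 n4073 (.cons 798 n4080 (.cons 756 n4082 .nil)))
noncomputable def n4084 : Strat := .move 796 n1690 (.cons 920 n1161 .nil)
noncomputable def n4085 : Strat := .move 798 n2175 (.cons 800 n4084 .nil)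
noncomputable def n4086 : Strat := .move 755 n1691 (.cons 714 n4085 .nil)
noncomputable def n4087 : Strat := .move 920 n1335 (.cons 962 n1878 .nil)
noncomputable def n4088 : Strat := .move 921 n1725 (.cons 880 n4087 .nil)
noncomputable def n4089 : Strat := .move 878 n1699 (.cons 919 n4088 .nil)
noncomputable def n4090 : Strat := .move 796 n1642 (.cons 754 n1161 .nil)
noncomputable def n4091 : Strat := .move 798 n2175 (.cons 800 n4090 .nil)
noncomputable def n4092 : Strat := .move 755 n1691 (.cons 714 n4091 .nil)
noncomputable def n4093 : Strat := .move 756 n4086 (.cons 798 n4089 (.cons 920 n4092 (.cons 755 n1851 .nil)))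
noncomputable def n4094 : Strat := .move 755 n2175 (.cons 800 n1691 .nil)
noncomputable def n4095 : Strat := .move 798 n1611 (.cons 920 n4094 .nil)
noncomputable def n4096 : Strat := .move 757 n1692 (.cons 716 n4095 .nil)
noncomputable def n4097 : Strat := .move 755 n1691 (.cons 714 n3248 .nil)
noncomputable def n4098 : Strat := .move 756 n4096 (.cons 798 n1851 (.cons 920 n4097 .nil))
noncomputable def n4099 : Strat := .move 796 n1161 (.cons 841 n1714 .nil)
noncomputable def n4100 : Strat := .move 798 n1172 (.cons 757 n4099 .nil)
noncomputable def n4101 : Strat := .move 878 n1785 (.cons 756 n4004 .nil)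
noncomputable def n4102 : Strat := .move 919 n1722 (.cons 960 n4101 .nil)
noncomputable def n4103 : Strat := .move 921 n1335 (.cons 962 n4102 .nil)
noncomputable def n4104 : Strat := .move 920 n4100 (.cons 798 n4103 .nil)
noncomputable def n4105 : Strat := .move 920 n4100 (.cons 798 n4046 .nil)
noncomputable def n4106 : Strat := .move 798 n2175 (.cons 800 n2293 .nil)
noncomputable def n4107 : Strat := .move 755 n1691 (.cons 714 n4106 .nil)
noncomputable def n4108 : Strat := .move 716 n1702 (.cons 757 n1853 .nil)
noncomputable def n4109 : Strat := .move 755 n1691 (.cons 714 n4108 .nil)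
noncomputable def n4110 : Strat := .move 798 n1611 (.cons 920 n3353 .nil)
noncomputable def n4111 : Strat := .move 757 n1692 (.cons 716 n4110 .nil)
noncomputable def n4112 : Strat := .move 800 n1621 (.cons 801 n1165 .nil)
noncomputable def n4113 : Strat := .move 798 n1611 (.cons 920 n4112 .nil)
noncomputable def n4114 : Strat := .move 757 n1692 (.cons 716 n4113 .nil)
noncomputable def n4115 : Strat := .move 756 n4107 (.cons 798 n4109 (.cons 714 n4111 (.cons 755 n4114 (.cons 757 n4086 (.cons 920 n4097 .nil)))))
noncomputable def n4116 : Strat := .move 920 n1829 (.cons 796 n1722 .nil)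
noncomputable def n4117 : Strat := .move 919 n1723 (.cons 878 n4116 .nil)
noncomputable def n4118 : Strat := .move 716 n1702 (.cons 757 n4117 .nil)
noncomputable def n4119 : Strat := .move 755 n1691 (.cons 714 n4118 .nil)
noncomputable def n4120 : Strat := .move 756 n4107 (.cons 920 n4097 (.cons 755 n4114 (.cons 757 n4086 (.cons 798 n4119 .nil))))
noncomputable def n4121 : Strat := .move 919 n1722 (.cons 960 n4023 .nil)
noncomputable def n4122 : Strat := .move 921 n1335 (.cons 962 n4121 .nil)
noncomputable def n4123 : Strat := .move 756 n1692 (.cons 716 n1723 .nil)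
noncomputable def n4124 : Strat := .move 757 n2826 (.cons 798 n4123 .nil)
noncomputable def n4125 : Strat := .move 919 n1722 (.cons 960 n4124 .nil)
noncomputable def n4126 : Strat := .move 756 n1725 (.cons 880 n1692 .nil)
noncomputable def n4127 : Strat := .move 757 n2826 (.cons 798 n4126 .nil)
noncomputable def n4128 : Strat := .move 921 n1335 (.cons 962 n4127 .nil)
noncomputable def n4129 : Strat := .move 920 n4122 (.cons 880 n4047 (.cons 921 n4125 (.cons 919 n4128 .nil)))
noncomputable def n4130 : Strat := .move 757 n1621 (.cons 801 n1692 .nil)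
noncomputable def n4131 : Strat := .move 756 n1133 (.cons 755 n4130 .nil)
noncomputable def n4132 : Strat := .move 800 n625 (.cons 842 n4131 .nil)
noncomputable def n4133 : Strat := .move 798 n626 (.cons 796 n4132 .nil)
noncomputable def n4134 : Strat := .move 756 n2696 (.cons 757 n4076 .nil)
noncomputable def n4135 : Strat := .move 798 n626 (.cons 796 n4134 .nil)
noncomputable def n4136 : Strat := .move 755 n1691 (.cons 714 n4076 .nil)
noncomputable def n4137 : Strat := .move 756 n4136 (.cons 881 n3856 (.cons 714 n4079 .nil))
noncomputable def n4138 : Strat := .move 841 n4133 (.cons 755 n4082 (.cons 800 n4135 (.cons 798 n4137 .nil)))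
noncomputable def n4139 : Strat := .move 879 n4083 (.cons 798 n3857 (.cons 757 n4093 (.cons 796 n4098 (.cons 880 n4104 (.cons 756 n4105 (.cons 919 n4115 (.cons 921 n4120 (.cons 755 n4129 (.cons 920 n4138 .nil)))))))))
noncomputable def n4140 : Strat := .move 800 n1596 (.cons 837 n3764 .nil)
noncomputable def n4141 : Strat := .move 754 n1592 (.cons 753 n1591 .nil)
noncomputable def n4142 : Strat := .move 795 n1638 (.cons 835 n4141 .nil)
noncomputable def n4143 : Strat := .move 836 n1637 (.cons 837 n4142 .nil)
noncomputable def n4144 : Strat := .move 796 n1161 (.cons 841 n4143 .nil)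
noncomputable def n4145 : Strat := .move 841 n625 (.cons 842 n3478 .nil)
noncomputable def n4146 : Strat := .move 759 n1128 (.cons 760 n4145 .nil)
noncomputable def n4147 : Strat := .move 800 n1596 (.cons 837 n4146 .nil)
noncomputable def n4148 : Strat := .move 837 n2183 (.cons 800 n3671 .nil)
noncomputable def n4149 : Strat := .move 841 n626 (.cons 796 n4081 .nil)
noncomputable def n4150 : Strat := .move 798 n4140 (.cons 800 n4144 (.cons 796 n4147 (.cons 841 n4148 (.cons 837 n4149 .nil))))
noncomputable def n4151 : Strat := .move 879 n4028 (.cons 920 n4032 (.cons 716 n4034 (.cons 757 n4039 (.cons 756 n3843 (.cons 755 n3832 .nil)))))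
noncomputable def n4152 : Strat := .move 754 n3686 (.cons 796 n2626 .nil)
noncomputable def n4153 : Strat := .move 755 n2175 (.cons 800 n4152 .nil)
noncomputable def n4154 : Strat := .move 879 n2293 (.cons 716 n3688 .nil)
noncomputable def n4155 : Strat := .move 716 n3695 (.cons 675 n1622 .nil)
noncomputable def n4156 : Strat := .move 800 n1133 (.cons 755 n1621 .nil)
noncomputable def n4157 : Strat := .move 757 n4155 (.cons 716 n4156 .nil)
noncomputable def n4158 : Strat := .move 716 n1622 (.cons 879 n3695 .nil)
noncomputable def n4159 : Strat := .move 674 n2418 (.cons 633 n1929 .nil)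
noncomputable def n4160 : Strat := .move 757 n2281 (.cons 920 n4158 (.cons 716 n4159 .nil))
noncomputable def n4161 : Strat := .move 674 n1811 (.cons 632 n2418 .nil)
noncomputable def n4162 : Strat := .move 673 n1810 (.cons 714 n4161 .nil)
noncomputable def n4163 : Strat := .move 757 n2281 (.cons 920 n4162 .nil)
noncomputable def n4164 : Strat := .move 674 n1929 (.cons 714 n2736 .nil)
noncomputable def n4165 : Strat := .move 920 n1172 (.cons 757 n1724 .nil)
noncomputable def n4166 : Strat := .move 879 n2823 (.cons 920 n1826 (.cons 716 n4165 (.cons 757 n1976 .nil)))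
noncomputable def n4167 : Strat := .move 715 n4160 (.cons 920 n2161 (.cons 675 n4163 (.cons 716 n4164 (.cons 673 n4166 .nil))))
noncomputable def n4168 : Strat := .move 756 n4153 (.cons 800 n4154 (.cons 754 n4157 (.cons 755 n4167 .nil)))
noncomputable def n4169 : Strat := .move 798 n3845 (.cons 800 n4151 (.cons 757 n4148 (.cons 836 n3830 (.cons 837 n4168 .nil))))
noncomputable def n4170 : Strat := .move 796 n1202 (.cons 836 n1161 .nil)
noncomputable def n4171 : Strat := .move 837 n2183 (.cons 800 n4170 .nil)
noncomputable def n4172 : Strat := .move 920 n1172 (.cons 757 n4171 .nil)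
noncomputable def n4173 : Strat := .move 796 n1161 (.cons 841 n1202 .nil)
noncomputable def n4174 : Strat := .move 837 n2183 (.cons 800 n4173 .nil)
noncomputable def n4175 : Strat := .move 879 n4172 (.cons 757 n4174 (.cons 837 n3698 .nil))
noncomputable def n4176 : Strat := .win 793 0 793
noncomputable def n4177 : Strat := .win 752 2 752
noncomputable def n4178 : Strat := .win 754 2 753
noncomputable def n4179 : Strat := .move 753 n4177 (.cons 752 n4178 .nil)
noncomputable def n4180 : Strat := .move 794 n4176 (.cons 793 n4179 .nil)
noncomputable def n4181 : Strat := .move 837 n1202 (.cons 836 n4180 .nil)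
noncomputable def n4182 : Strat := .win 834 4 793
noncomputable def n4183 : Strat := .win 836 4 794
noncomputable def n4184 : Strat := .move 835 n4182 (.cons 834 n4183 .nil)
noncomputable def n4185 : Strat := .move 794 n4177 (.cons 752 n4184 .nil)
noncomputable def n4186 : Strat := .move 753 n4178 (.cons 754 n4185 .nil)
noncomputable def n4187 : Strat := .win 837 0 793
noncomputable def n4188 : Strat := .win 751 2 751
noncomputable def n4189 : Strat := .win 753 2 752
noncomputable def n4190 : Strat := .move 752 n4188 (.cons 751 n4189 .nil)
noncomputable def n4191 : Strat := .move 793 n4187 (.cons 837 n4190 .nil)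
noncomputable def n4192 : Strat := .win 833 4 792
noncomputable def n4193 : Strat := .win 835 4 793
noncomputable def n4194 : Strat := .move 834 n4192 (.cons 833 n4193 .nil)
noncomputable def n4195 : Strat := .move 793 n4187 (.cons 837 n4194 .nil)
noncomputable def n4196 : Strat := .move 794 n4179 (.cons 754 n4191 (.cons 752 n4195 .nil))
noncomputable def n4197 : Strat := .move 795 n1639 (.cons 835 n4181 (.cons 837 n4186 (.cons 836 n4196 .nil)))
noncomputable def n4198 : Strat := .move 796 n1161 (.cons 841 n4197 .nil)
noncomputable def n4199 : Strat := .move 800 n1596 (.cons 837 n3768 .nil)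
noncomputable def n4200 : Strat := .move 798 n4175 (.cons 800 n4198 (.cons 837 n4149 (.cons 796 n4199 (.cons 841 n4148 .nil))))
noncomputable def n4201 : Strat := .move 798 n1611 (.cons 920 n2721 .nil)
noncomputable def n4202 : Strat := .move 757 n1692 (.cons 716 n4201 .nil)
noncomputable def n4203 : Strat := .move 756 n4202 (.cons 798 n3878 (.cons 837 n4096 .nil))
noncomputable def n4204 : Strat := .move 800 n1596 (.cons 837 n1772 .nil)
noncomputable def n4205 : Strat := .move 920 n1172 (.cons 757 n4204 .nil)
noncomputable def n4206 : Strat := .move 920 n1172 (.cons 757 n4046 .nil)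
noncomputable def n4207 : Strat := .move 841 n3477 (.cons 881 n625 .nil)
noncomputable def n4208 : Strat := .move 718 n595 (.cons 677 n4207 .nil)
noncomputable def n4209 : Strat := .move 759 n1128 (.cons 760 n4208 .nil)
noncomputable def n4210 : Strat := .move 800 n1596 (.cons 837 n4209 .nil)
noncomputable def n4211 : Strat := .move 798 n4205 (.cons 800 n4206 (.cons 757 n4210 .nil))
noncomputable def n4212 : Strat := .move 756 n3878 (.cons 919 n4097 .nil)
noncomputable def n4213 : Strat := .move 755 n1691 (.cons 714 n1704 .nil)
noncomputable def n4214 : Strat := .move 878 n1699 (.cons 919 n4213 .nil)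
noncomputable def n4215 : Strat := .move 756 n3878 (.cons 919 n3873 (.cons 880 n4214 (.cons 715 n1851 .nil)))
noncomputable def n4216 : Strat := .move 756 n4202 (.cons 757 n3903 (.cons 837 n4096 (.cons 755 n2822 .nil)))
noncomputable def n4217 : Strat := .move 800 n1596 (.cons 837 n4071 .nil)
noncomputable def n4218 : Strat := .move 798 n3832 (.cons 716 n4217 (.cons 757 n4210 .nil))
noncomputable def n4219 : Strat := .move 920 n1335 (.cons 962 n4121 .nil)
noncomputable def n4220 : Strat := .move 920 n1335 (.cons 962 n3920 .nil)
noncomputable def n4221 : Strat := .move 756 n1725 (.cons 880 n3838 .nil)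
noncomputable def n4222 : Strat := .move 920 n1335 (.cons 962 n4221 .nil)
noncomputable def n4223 : Strat := .move 920 n1335 (.cons 962 n4102 .nil)
noncomputable def n4224 : Strat := .move 756 n1725 (.cons 880 n3903 .nil)
noncomputable def n4225 : Strat := .move 962 n3717 (.cons 920 n3716 .nil)
noncomputable def n4226 : Strat := .move 919 n1722 (.cons 960 n3621 .nil)
noncomputable def n4227 : Strat := .move 920 n1335 (.cons 962 n4226 .nil)
noncomputable def n4228 : Strat := .move 922 n431 (.cons 923 n430 .nil)
noncomputable def n4229 : Strat := .move 878 n433 (.cons 841 n4228 .nil)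
noncomputable def n4230 : Strat := .move 882 n1269 (.cons 837 n419 .nil)
noncomputable def n4231 : Strat := .move 881 n4229 (.cons 878 n4230 .nil)
noncomputable def n4232 : Strat := .win 922 1 798
noncomputable def n4233 : Strat := .move 962 n1265 (.cons 1003 n4232 .nil)
noncomputable def n4234 : Strat := .move 878 n1280 (.cons 836 n433 .nil)
noncomputable def n4235 : Strat := .move 837 n1499 (.cons 882 n4234 .nil)
noncomputable def n4236 : Strat := .move 881 n4233 (.cons 922 n4235 .nil)
noncomputable def n4237 : Strat := .move 880 n4225 (.cons 1003 n4227 (.cons 962 n4231 (.cons 920 n4236 .nil)))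
noncomputable def n4238 : Strat := .move 880 n1336 (.cons 756 n3716 .nil)
noncomputable def n4239 : Strat := .move 962 n3717 (.cons 920 n4238 .nil)
noncomputable def n4240 : Strat := .move 921 n4219 (.cons 878 n4220 (.cons 960 n4222 (.cons 880 n4223 (.cons 920 n4224 (.cons 756 n4237 (.cons 919 n4239 .nil))))))
noncomputable def n4241 : Strat := .move 879 n4203 (.cons 756 n4211 (.cons 920 n4212 (.cons 798 n4215 (.cons 921 n4216 (.cons 919 n4218 (.cons 837 n4098 (.cons 757 n4240 .nil)))))))
noncomputable def n4242 : Strat := .move 797 n3850 (.cons 798 n4020 (.cons 800 n4068 (.cons 837 n4139 (.cons 879 n4150 (.cons 841 n4169 (.cons 755 n4200 (.cons 796 n4241 .nil)))))))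
noncomputable def n4243 : Strat := .move 837 n830 (.cons 800 n1295 .nil)
noncomputable def n4244 : Strat := .move 836 n3496 (.cons 880 n1048 .nil)
noncomputable def n4245 : Strat := .move 837 n1295 (.cons 882 n4244 .nil)
noncomputable def n4246 : Strat := .move 798 n150 (.cons 757 n456 .nil)
noncomputable def n4247 : Strat := .move 800 n143 (.cons 759 n1186 .nil)
noncomputable def n4248 : Strat := .move 798 n150 (.cons 757 n4247 .nil)
noncomputable def n4249 : Strat := .move 798 n456 (.cons 963 n4247 .nil)
noncomputable def n4250 : Strat := .move 841 n356 (.cons 801 n425 .nil)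
noncomputable def n4251 : Strat := .move 800 n143 (.cons 759 n4250 .nil)
noncomputable def n4252 : Strat := .move 922 n4246 (.cons 963 n4248 (.cons 757 n4249 (.cons 798 n4251 .nil)))
noncomputable def n4253 : Strat := .move 839 n4243 (.cons 800 n4245 (.cons 882 n2818 (.cons 837 n4252 .nil)))
noncomputable def n4254 : Strat := .move 963 n153 (.cons 1005 n146 .nil)
noncomputable def n4255 : Strat := .move 962 n145 (.cons 921 n4254 .nil)
noncomputable def n4256 : Strat := .move 964 n152 (.cons 923 n4255 .nil)
noncomputable def n4257 : Strat := .move 759 n30 (.cons 800 n4256 .nil)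
noncomputable def n4258 : Strat := .move 798 n150 (.cons 757 n4257 .nil)
noncomputable def n4259 : Strat := .move 882 n165 (.cons 883 n166 .nil)
noncomputable def n4260 : Strat := .move 880 n158 (.cons 879 n157 .nil)
noncomputable def n4261 : Strat := .move 883 n882 (.cons 884 n881 .nil)
noncomputable def n4262 : Strat := .move 924 n4260 (.cons 925 n885 (.cons 879 n4261 .nil))
noncomputable def n4263 : Strat := .move 878 n875 (.cons 877 n874 .nil)
noncomputable def n4264 : Strat := .move 919 n3956 (.cons 882 n4263 .nil)
noncomputable def n4265 : Strat := .move 919 n4263 (.cons 879 n878 .nil)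
noncomputable def n4266 : Strat := .move 920 n4259 (.cons 919 n4262 (.cons 883 n4264 (.cons 882 n4265 .nil)))
noncomputable def n4267 : Strat := .move 921 n36 (.cons 962 n4266 .nil)
noncomputable def n4268 : Strat := .move 923 n18 (.cons 964 n4267 .nil)
noncomputable def n4269 : Strat := .move 922 n4258 (.cons 800 n4268 (.cons 923 n149 (.cons 921 n235 .nil)))
noncomputable def n4270 : Strat := .move 839 n456 (.cons 963 n725 .nil)
noncomputable def n4271 : Strat := .move 798 n150 (.cons 757 n4270 .nil)
noncomputable def n4272 : Strat := .move 882 n167 (.cons 919 n170 (.cons 883 n4271 .nil))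
noncomputable def n4273 : Strat := .move 923 n18 (.cons 964 n4272 .nil)
noncomputable def n4274 : Strat := .move 921 n36 (.cons 962 n4273 .nil)
noncomputable def n4275 : Strat := .move 837 n1295 (.cons 882 n1053 .nil)
noncomputable def n4276 : Strat := .move 839 n456 (.cons 963 n4275 .nil)
noncomputable def n4277 : Strat := .move 798 n150 (.cons 757 n4276 .nil)
noncomputable def n4278 : Strat := .move 920 n884 (.cons 878 n166 .nil)
noncomputable def n4279 : Strat := .win 920 2 878
noncomputable def n4280 : Strat := .move 878 n4279 (.cons 920 n3524 .nil)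
noncomputable def n4281 : Strat := .move 880 n1269 (.cons 837 n1278 .nil)
noncomputable def n4282 : Strat := .move 879 n4278 (.cons 919 n4280 (.cons 878 n4281 .nil))
noncomputable def n4283 : Strat := .win 841 0 838
noncomputable def n4284 : Strat := .move 839 n4283 (.cons 841 n725 .nil)
noncomputable def n4285 : Strat := .move 883 n169 (.cons 884 n4284 .nil)
noncomputable def n4286 : Strat := .move 882 n167 (.cons 919 n170 (.cons 883 n4282 (.cons 920 n4285 .nil)))
noncomputable def n4287 : Strat := .move 923 n18 (.cons 964 n4286 .nil)
noncomputable def n4288 : Strat := .move 921 n36 (.cons 962 n4287 .nil)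
noncomputable def n4289 : Strat := .move 922 n4274 (.cons 921 n4277 (.cons 798 n4288 (.cons 882 n220 (.cons 839 n4268 .nil))))
noncomputable def n4290 : Strat := .move 839 n357 (.cons 837 n4246 .nil)
noncomputable def n4291 : Strat := .move 800 n143 (.cons 759 n4290 .nil)
noncomputable def n4292 : Strat := .move 841 n425 (.cons 963 n356 .nil)
noncomputable def n4293 : Strat := .move 839 n357 (.cons 837 n4292 .nil)
noncomputable def n4294 : Strat := .move 800 n143 (.cons 759 n4293 .nil)
noncomputable def n4295 : Strat := .move 963 n146 (.cons 1003 n154 .nil)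
noncomputable def n4296 : Strat := .move 962 n145 (.cons 921 n4295 .nil)
noncomputable def n4297 : Strat := .move 839 n357 (.cons 837 n2817 .nil)
noncomputable def n4298 : Strat := .move 800 n143 (.cons 759 n4297 .nil)
noncomputable def n4299 : Strat := .move 922 n4291 (.cons 837 n240 (.cons 800 n220 (.cons 798 n4294 (.cons 839 n4296 (.cons 963 n4298 .nil)))))
noncomputable def n4300 : Strat := .win 880 2 838
noncomputable def n4301 : Strat := .move 883 n4283 (.cons 841 n4300 .nil)
noncomputable def n4302 : Strat := .move 882 n725 (.cons 837 n4301 .nil)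
noncomputable def n4303 : Strat := .move 922 n143 (.cons 759 n425 .nil)
noncomputable def n4304 : Strat := .move 800 n356 (.cons 801 n4303 .nil)
noncomputable def n4305 : Strat := .move 882 n1035 (.cons 883 n3566 .nil)
noncomputable def n4306 : Strat := .move 841 n4304 (.cons 759 n4305 .nil)
noncomputable def n4307 : Strat := .move 837 n830 (.cons 800 n3497 .nil)
noncomputable def n4308 : Strat := .move 839 n4243 (.cons 800 n4302 (.cons 837 n4306 (.cons 882 n4307 .nil)))
noncomputable def n4309 : Strat := .move 839 n456 (.cons 963 n4243 .nil)
noncomputable def n4310 : Strat := .move 798 n150 (.cons 757 n4309 .nil)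
noncomputable def n4311 : Strat := .move 963 n146 (.cons 1003 n504 .nil)
noncomputable def n4312 : Strat := .move 962 n145 (.cons 921 n4311 .nil)
noncomputable def n4313 : Strat := .move 800 n143 (.cons 759 n4312 .nil)
noncomputable def n4314 : Strat := .move 798 n150 (.cons 757 n4313 .nil)
noncomputable def n4315 : Strat := .move 839 n4300 (.cons 880 n725 .nil)
noncomputable def n4316 : Strat := .move 883 n169 (.cons 884 n4315 .nil)
noncomputable def n4317 : Strat := .move 882 n167 (.cons 919 n170 (.cons 883 n4282 (.cons 920 n4316 .nil)))
noncomputable def n4318 : Strat := .move 923 n18 (.cons 964 n4317 .nil)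
noncomputable def n4319 : Strat := .move 921 n36 (.cons 962 n4318 .nil)
noncomputable def n4320 : Strat := .move 922 n4310 (.cons 839 n4314 (.cons 800 n4277 (.cons 798 n4319 .nil)))
noncomputable def n4321 : Strat := .win 841 1 717
noncomputable def n4322 : Strat := .move 718 n595 (.cons 677 n4321 .nil)
noncomputable def n4323 : Strat := .move 759 n281 (.cons 922 n4322 .nil)
noncomputable def n4324 : Strat := .move 800 n2817 (.cons 801 n4323 .nil)
noncomputable def n4325 : Strat := .move 839 n4243 (.cons 837 n4324 (.cons 800 n4245 .nil))
noncomputable def n4326 : Strat := .move 837 n830 (.cons 800 n3517 .nil)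
noncomputable def n4327 : Strat := .move 837 n1295 (.cons 882 n3517 .nil)
noncomputable def n4328 : Strat := .move 880 n1055 (.cons 920 n1038 .nil)
noncomputable def n4329 : Strat := .move 879 n353 (.cons 878 n4328 .nil)
noncomputable def n4330 : Strat := .move 798 n3513 (.cons 716 n4329 .nil)
noncomputable def n4331 : Strat := .move 842 n3644 (.cons 878 n1383 .nil)
noncomputable def n4332 : Strat := .move 882 n1035 (.cons 883 n4331 .nil)
noncomputable def n4333 : Strat := .move 920 n1059 (.cons 961 n3607 .nil)
noncomputable def n4334 : Strat := .move 879 n353 (.cons 878 n4333 .nil)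
noncomputable def n4335 : Strat := .move 798 n3513 (.cons 716 n4334 .nil)
noncomputable def n4336 : Strat := .move 842 n842 (.cons 802 n1913 .nil)
noncomputable def n4337 : Strat := .move 883 n1914 (.cons 882 n4336 .nil)
noncomputable def n4338 : Strat := .move 801 n840 (.cons 800 n4337 .nil)
noncomputable def n4339 : Strat := .move 757 n4330 (.cons 798 n4332 (.cons 842 n4335 (.cons 879 n4338 .nil)))
noncomputable def n4340 : Strat := .win 880 0 879
noncomputable def n4341 : Strat := .move 879 n4340 (.cons 880 n353 .nil)
noncomputable def n4342 : Strat := .move 800 n2214 (.cons 965 n356 .nil)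
noncomputable def n4343 : Strat := .move 924 n4341 (.cons 878 n4342 .nil)
noncomputable def n4344 : Strat := .move 923 n1318 (.cons 964 n4343 .nil)
noncomputable def n4345 : Strat := .move 882 n1035 (.cons 883 n4344 .nil)
noncomputable def n4346 : Strat := .move 842 n842 (.cons 802 n3468 .nil)
noncomputable def n4347 : Strat := .move 879 n353 (.cons 878 n4346 .nil)
noncomputable def n4348 : Strat := .move 801 n840 (.cons 800 n4347 .nil)
noncomputable def n4349 : Strat := .move 841 n4339 (.cons 802 n3647 (.cons 884 n4305 (.cons 842 n4345 (.cons 879 n4338 (.cons 882 n4348 .nil)))))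
noncomputable def n4350 : Strat := .move 839 n4243 (.cons 882 n4326 (.cons 800 n4327 (.cons 837 n4349 .nil)))
noncomputable def n4351 : Strat := .move 881 n4253 (.cons 839 n4269 (.cons 800 n4289 (.cons 882 n4299 (.cons 798 n4308 (.cons 841 n4320 (.cons 963 n4325 (.cons 922 n4350 .nil)))))))
noncomputable def n4352 : Strat := .move 839 n353 (.cons 878 n3603 .nil)
noncomputable def n4353 : Strat := .move 800 n356 (.cons 801 n3484 .nil)
noncomputable def n4354 : Strat := .move 839 n353 (.cons 878 n4353 .nil)
noncomputable def n4355 : Strat := .move 800 n356 (.cons 801 n3473 .nil)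
noncomputable def n4356 : Strat := .move 797 n841 (.cons 796 n4355 .nil)
noncomputable def n4357 : Strat := .move 839 n353 (.cons 878 n4356 .nil)
noncomputable def n4358 : Strat := .move 839 n3603 (.cons 797 n4353 (.cons 842 n4356 .nil))
noncomputable def n4359 : Strat := .move 797 n4069 (.cons 716 n4073 (.cons 798 n4080 (.cons 756 n4082 .nil)))
noncomputable def n4360 : Strat := .move 841 n4352 (.cons 797 n4354 (.cons 842 n4357 (.cons 878 n4358 (.cons 839 n4359 .nil))))
noncomputable def n4361 : Strat := .move 842 n3468 (.cons 880 n843 .nil)
noncomputable def n4362 : Strat := .move 797 n841 (.cons 796 n4361 .nil)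
noncomputable def n4363 : Strat := .move 839 n353 (.cons 878 n4362 .nil)
noncomputable def n4364 : Strat := .move 797 n4133 (.cons 755 n4082 (.cons 800 n4135 (.cons 798 n4137 .nil)))
noncomputable def n4365 : Strat := .move 797 n841 (.cons 796 n1665 .nil)
noncomputable def n4366 : Strat := .move 839 n353 (.cons 878 n4365 .nil)
noncomputable def n4367 : Strat := .move 800 n356 (.cons 801 n3735 .nil)
noncomputable def n4368 : Strat := .move 839 n353 (.cons 878 n4367 .nil)
noncomputable def n4369 : Strat := .move 797 n841 (.cons 796 n3473 .nil)
noncomputable def n4370 : Strat := .move 800 n356 (.cons 801 n4369 .nil)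
noncomputable def n4371 : Strat := .win 798 0 797
noncomputable def n4372 : Strat := .move 842 n4371 (.cons 798 n1915 .nil)
noncomputable def n4373 : Strat := .move 797 n841 (.cons 796 n4372 .nil)
noncomputable def n4374 : Strat := .move 800 n356 (.cons 801 n4373 .nil)
noncomputable def n4375 : Strat := .move 839 n4362 (.cons 798 n4365 (.cons 796 n4367 (.cons 842 n4370 (.cons 880 n4374 .nil))))
noncomputable def n4376 : Strat := .move 839 n353 (.cons 878 n4374 .nil)
noncomputable def n4377 : Strat := .move 839 n353 (.cons 878 n4370 .nil)
noncomputable def n4378 : Strat := .move 841 n4363 (.cons 839 n4364 (.cons 798 n4366 (.cons 796 n4368 (.cons 878 n4375 (.cons 880 n4376 (.cons 842 n4377 .nil))))))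
noncomputable def n4379 : Strat := .move 716 n1702 (.cons 757 n1976 .nil)
noncomputable def n4380 : Strat := .move 756 n1831 (.cons 755 n4379 (.cons 878 n1854 (.cons 920 n3856 .nil)))
noncomputable def n4381 : Strat := .move 800 n1133 (.cons 755 n625 .nil)
noncomputable def n4382 : Strat := .move 798 n1611 (.cons 920 n4381 .nil)
noncomputable def n4383 : Strat := .move 757 n1692 (.cons 716 n4382 .nil)
noncomputable def n4384 : Strat := .move 755 n1691 (.cons 714 n1976 .nil)
noncomputable def n4385 : Strat := .move 800 n1621 (.cons 801 n625 .nil)
noncomputable def n4386 : Strat := .move 798 n1611 (.cons 920 n4385 .nil)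
noncomputable def n4387 : Strat := .move 757 n1692 (.cons 716 n4386 .nil)
noncomputable def n4388 : Strat := .move 756 n4383 (.cons 842 n4096 (.cons 757 n4384 (.cons 755 n4387 (.cons 920 n2674 .nil))))
noncomputable def n4389 : Strat := .move 798 n626 (.cons 796 n3710 .nil)
noncomputable def n4390 : Strat := .move 756 n4381 (.cons 842 n4094 (.cons 755 n1976 .nil))
noncomputable def n4391 : Strat := .move 798 n626 (.cons 796 n4390 .nil)
noncomputable def n4392 : Strat := .move 797 n4069 (.cons 798 n4380 (.cons 716 n4073 (.cons 796 n4388 (.cons 756 n4389 (.cons 920 n4133 (.cons 757 n4391 .nil))))))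
noncomputable def n4393 : Strat := .move 839 n353 (.cons 878 n841 .nil)
noncomputable def n4394 : Strat := .move 921 n1026 (.cons 962 n1336 .nil)
noncomputable def n4395 : Strat := .move 880 n1038 (.cons 842 n4394 .nil)
noncomputable def n4396 : Strat := .move 839 n841 (.cons 796 n4395 .nil)
noncomputable def n4397 : Strat := .move 839 n353 (.cons 878 n4395 .nil)
noncomputable def n4398 : Strat := .move 797 n4393 (.cons 878 n4396 (.cons 796 n4397 (.cons 839 n4380 .nil)))
noncomputable def n4399 : Strat := .move 797 n841 (.cons 796 n4395 .nil)
noncomputable def n4400 : Strat := .move 839 n4362 (.cons 842 n4356 (.cons 798 n4399 (.cons 796 n4367 (.cons 880 n3603 .nil))))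
noncomputable def n4401 : Strat := .move 841 n4363 (.cons 839 n4392 (.cons 798 n4398 (.cons 796 n4368 (.cons 842 n4357 (.cons 878 n4400 (.cons 880 n4352 .nil))))))
noncomputable def n4402 : Strat := .move 839 n3580 (.cons 878 n3602 (.cons 880 n3604 (.cons 842 n3606 (.cons 841 n3640 .nil))))
noncomputable def n4403 : Strat := .move 798 n625 (.cons 842 n1173 .nil)
noncomputable def n4404 : Strat := .move 797 n841 (.cons 796 n4403 .nil)
noncomputable def n4405 : Strat := .move 800 n356 (.cons 801 n4404 .nil)
noncomputable def n4406 : Strat := .move 839 n4362 (.cons 796 n4367 (.cons 842 n4370 (.cons 880 n4405 .nil)))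
noncomputable def n4407 : Strat := .move 882 n424 (.cons 842 n1325 .nil)
noncomputable def n4408 : Strat := .move 880 n786 (.cons 878 n4407 .nil)
noncomputable def n4409 : Strat := .move 800 n143 (.cons 759 n425 .nil)
noncomputable def n4410 : Strat := .win 882 0 879
noncomputable def n4411 : Strat := .move 924 n3989 (.cons 921 n4410 .nil)
noncomputable def n4412 : Strat := .move 880 n412 (.cons 878 n4411 .nil)
noncomputable def n4413 : Strat := .move 923 n18 (.cons 964 n4412 .nil)
noncomputable def n4414 : Strat := .move 922 n4409 (.cons 759 n4413 .nil)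
noncomputable def n4415 : Strat := .move 963 n622 (.cons 800 n503 .nil)
noncomputable def n4416 : Strat := .move 800 n143 (.cons 759 n628 .nil)
noncomputable def n4417 : Strat := .move 922 n4409 (.cons 759 n4415 (.cons 800 n3968 (.cons 963 n4416 .nil)))
noncomputable def n4418 : Strat := .move 921 n4233 (.cons 922 n419 .nil)
noncomputable def n4419 : Strat := .move 882 n424 (.cons 842 n4418 .nil)
noncomputable def n4420 : Strat := .move 880 n786 (.cons 878 n4419 .nil)
noncomputable def n4421 : Strat := .move 881 n4408 (.cons 842 n4414 (.cons 880 n4417 (.cons 923 n4420 .nil)))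
noncomputable def n4422 : Strat := .move 839 n353 (.cons 878 n4405 .nil)
noncomputable def n4423 : Strat := .move 841 n4363 (.cons 796 n4368 (.cons 878 n4406 (.cons 839 n4421 (.cons 880 n4422 (.cons 842 n4377 .nil)))))
noncomputable def n4424 : Strat := .move 797 n4083 (.cons 798 n3857 (.cons 757 n4093 (.cons 796 n4098 (.cons 880 n4104 (.cons 756 n4105 (.cons 919 n4115 (.cons 921 n4120 (.cons 755 n4129 (.cons 920 n4138 .nil)))))))))
noncomputable def n4425 : Strat := .move 757 n1056 (.cons 716 n4333 .nil)
noncomputable def n4426 : Strat := .move 797 n1162 (.cons 841 n1169 .nil)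
noncomputable def n4427 : Strat := .move 800 n1186 (.cons 801 n4426 .nil)
noncomputable def n4428 : Strat := .move 797 n1611 (.cons 920 n1162 .nil)
noncomputable def n4429 : Strat := .move 757 n1056 (.cons 716 n4428 .nil)
noncomputable def n4430 : Strat := .move 798 n4425 (.cons 920 n4427 (.cons 880 n4429 .nil))
noncomputable def n4431 : Strat := .move 842 n1913 (.cons 884 n3468 .nil)
noncomputable def n4432 : Strat := .move 883 n1914 (.cons 882 n4431 .nil)
noncomputable def n4433 : Strat := .move 800 n356 (.cons 801 n4432 .nil)
noncomputable def n4434 : Strat := .move 841 n353 (.cons 878 n4433 .nil)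
noncomputable def n4435 : Strat := .move 757 n3607 (.cons 880 n3615 .nil)
noncomputable def n4436 : Strat := .move 798 n1059 (.cons 961 n4435 .nil)
noncomputable def n4437 : Strat := .move 755 n1691 (.cons 714 n1829 .nil)
noncomputable def n4438 : Strat := .move 756 n1725 (.cons 880 n4437 .nil)
noncomputable def n4439 : Strat := .move 921 n1335 (.cons 962 n4438 .nil)
noncomputable def n4440 : Strat := .move 921 n1725 (.cons 880 n1335 .nil)
noncomputable def n4441 : Strat := .move 800 n1133 (.cons 755 n1186 .nil)
noncomputable def n4442 : Strat := .move 756 n1744 (.cons 715 n4440 (.cons 921 n4441 .nil))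
noncomputable def n4443 : Strat := .move 798 n1172 (.cons 757 n4442 .nil)
noncomputable def n4444 : Strat := .move 757 n1692 (.cons 716 n2826 .nil)
noncomputable def n4445 : Strat := .move 756 n1725 (.cons 880 n4444 .nil)
noncomputable def n4446 : Strat := .move 921 n1335 (.cons 962 n4445 .nil)
noncomputable def n4447 : Strat := .move 797 n3635 (.cons 757 n4439 (.cons 796 n4443 (.cons 755 n4446 .nil)))
noncomputable def n4448 : Strat := .move 880 n3631 (.cons 921 n3632 .nil)
noncomputable def n4449 : Strat := .win 797 6 797
noncomputable def n4450 : Strat := .win 1044 7 879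
noncomputable def n4451 : Strat := .win 961 6 838
noncomputable def n4452 : Strat := .move 1003 n4450 (.cons 1044 n4451 .nil)
noncomputable def n4453 : Strat := .move 921 n4449 (.cons 797 n4452 .nil)
noncomputable def n4454 : Strat := .win 960 1 837
noncomputable def n4455 : Strat := .win 1042 1 878
noncomputable def n4456 : Strat := .win 880 3 838
noncomputable def n4457 : Strat := .move 1002 n4455 (.cons 1042 n4456 .nil)
noncomputable def n4458 : Strat := .move 1001 n4454 (.cons 960 n4457 .nil)
noncomputable def n4459 : Strat := .move 961 n1731 (.cons 1003 n4458 .nil)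
noncomputable def n4460 : Strat := .win 880 3 798
noncomputable def n4461 : Strat := .move 921 n4460 (.cons 880 n4449 .nil)
noncomputable def n4462 : Strat := .move 962 n4448 (.cons 880 n4453 (.cons 921 n4459 (.cons 961 n4461 .nil)))
noncomputable def n4463 : Strat := .move 920 n3609 (.cons 716 n4436 (.cons 961 n4447 (.cons 880 n3617 (.cons 798 n4462 .nil))))
noncomputable def n4464 : Strat := .move 839 n3604 (.cons 878 n4430 (.cons 797 n4434 (.cons 841 n4463 .nil)))
noncomputable def n4465 : Strat := .move 796 n1714 (.cons 755 n1727 .nil)
noncomputable def n4466 : Strat := .move 961 n1731 (.cons 1003 n1716 .nil)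
noncomputable def n4467 : Strat := .move 960 n1717 (.cons 919 n4466 .nil)
noncomputable def n4468 : Strat := .move 962 n1732 (.cons 921 n4467 .nil)
noncomputable def n4469 : Strat := .move 756 n1691 (.cons 714 n1723 .nil)
noncomputable def n4470 : Strat := .move 755 n1829 (.cons 796 n4469 .nil)
noncomputable def n4471 : Strat := .move 919 n1722 (.cons 960 n4470 .nil)
noncomputable def n4472 : Strat := .move 920 n4465 (.cons 756 n4468 (.cons 960 n3917 (.cons 921 n4471 .nil)))
noncomputable def n4473 : Strat := .move 962 n1265 (.cons 1003 n3717 .nil)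
noncomputable def n4474 : Strat := .move 921 n1336 (.cons 756 n4473 .nil)
noncomputable def n4475 : Strat := .move 881 n786 (.cons 878 n4474 .nil)
noncomputable def n4476 : Strat := .move 881 n786 (.cons 878 n4407 .nil)
noncomputable def n4477 : Strat := .move 880 n4475 (.cons 1003 n4476 (.cons 878 n3719 .nil))
noncomputable def n4478 : Strat := .move 797 n4082 (.cons 798 n4472 (.cons 796 n4477 .nil))
noncomputable def n4479 : Strat := .move 839 n4362 (.cons 842 n4370 (.cons 796 n4367 (.cons 880 n4374 .nil)))
noncomputable def n4480 : Strat := .move 841 n4363 (.cons 839 n4478 (.cons 878 n4479 (.cons 880 n4376 (.cons 842 n4377 (.cons 796 n4368 .nil)))))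
noncomputable def n4481 : Strat := .move 756 n1744 (.cons 715 n4441 .nil)
noncomputable def n4482 : Strat := .move 798 n1173 (.cons 961 n2400 (.cons 757 n4481 .nil))
noncomputable def n4483 : Strat := .move 797 n841 (.cons 796 n4482 .nil)
noncomputable def n4484 : Strat := .move 841 n353 (.cons 878 n4483 .nil)
noncomputable def n4485 : Strat := .move 798 n4425 (.cons 880 n4429 (.cons 757 n4427 .nil))
noncomputable def n4486 : Strat := .move 755 n1643 (.cons 756 n1829 .nil)
noncomputable def n4487 : Strat := .move 800 n1186 (.cons 801 n4486 .nil)
noncomputable def n4488 : Strat := .move 798 n1172 (.cons 757 n4487 .nil)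
noncomputable def n4489 : Strat := .move 797 n3635 (.cons 795 n4488 (.cons 798 n3638 .nil))
noncomputable def n4490 : Strat := .move 880 n3623 (.cons 797 n3633 (.cons 962 n3630 .nil))
noncomputable def n4491 : Strat := .move 920 n3609 (.cons 961 n4489 (.cons 880 n3617 (.cons 798 n4490 .nil)))
noncomputable def n4492 : Strat := .move 839 n3604 (.cons 797 n4434 (.cons 842 n4484 (.cons 878 n4485 (.cons 841 n4491 .nil))))
noncomputable def n4493 : Strat := .move 839 n1065 (.cons 841 n3605 .nil)
noncomputable def n4494 : Strat := .move 756 n1699 (.cons 919 n4107 .nil)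
noncomputable def n4495 : Strat := .move 756 n1699 (.cons 919 n1854 .nil)
noncomputable def n4496 : Strat := .move 920 n1722 (.cons 960 n4007 .nil)
noncomputable def n4497 : Strat := .move 919 n1785 (.cons 756 n4496 .nil)
noncomputable def n4498 : Strat := .move 798 n1172 (.cons 757 n1161 .nil)
noncomputable def n4499 : Strat := .move 796 n1714 (.cons 755 n4498 .nil)
noncomputable def n4500 : Strat := .move 919 n1722 (.cons 960 n4499 .nil)
noncomputable def n4501 : Strat := .move 920 n4012 (.cons 923 n4008 (.cons 921 n4500 .nil))
noncomputable def n4502 : Strat := .move 920 n2826 (.cons 798 n1726 .nil)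
noncomputable def n4503 : Strat := .move 757 n1692 (.cons 716 n4502 .nil)
noncomputable def n4504 : Strat := .move 756 n4107 (.cons 798 n1854 (.cons 755 n4503 (.cons 920 n4097 .nil)))
noncomputable def n4505 : Strat := .move 756 n1699 (.cons 919 n4097 .nil)
noncomputable def n4506 : Strat := .move 797 n4494 (.cons 798 n4495 (.cons 714 n4497 (.cons 756 n4501 (.cons 919 n4504 (.cons 920 n4505 .nil)))))
noncomputable def n4507 : Strat := .move 839 n1745 (.cons 876 n1779 .nil)
noncomputable def n4508 : Strat := .win 922 0 877
noncomputable def n4509 : Strat := .move 797 n1336 (.cons 756 n4225 .nil)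
noncomputable def n4510 : Strat := .move 921 n4508 (.cons 922 n4509 .nil)
noncomputable def n4511 : Strat := .move 880 n1312 (.cons 839 n4510 .nil)
noncomputable def n4512 : Strat := .win 921 0 876
noncomputable def n4513 : Strat := .win 875 0 875
noncomputable def n4514 : Strat := .move 797 n1722 (.cons 960 n1785 .nil)
noncomputable def n4515 : Strat := .move 919 n4513 (.cons 875 n4514 .nil)
noncomputable def n4516 : Strat := .move 920 n4512 (.cons 921 n4515 .nil)
noncomputable def n4517 : Strat := .win 919 0 875
noncomputable def n4518 : Strat := .win 833 2 833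
noncomputable def n4519 : Strat := .win 835 2 834
noncomputable def n4520 : Strat := .move 834 n4518 (.cons 833 n4519 .nil)
noncomputable def n4521 : Strat := .move 875 n4517 (.cons 919 n4520 .nil)
noncomputable def n4522 : Strat := .move 920 n4512 (.cons 921 n4521 .nil)
noncomputable def n4523 : Strat := .win 916 4 875
noncomputable def n4524 : Strat := .win 918 4 876
noncomputable def n4525 : Strat := .win 836 2 835
noncomputable def n4526 : Strat := .win 834 2 834
noncomputable def n4527 : Strat := .move 835 n4525 (.cons 836 n4526 .nil)
noncomputable def n4528 : Strat := .move 880 n4524 (.cons 918 n4527 .nil)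
noncomputable def n4529 : Strat := .move 917 n4523 (.cons 916 n4528 .nil)
noncomputable def n4530 : Strat := .move 876 n4516 (.cons 960 n4522 (.cons 920 n4529 .nil))
noncomputable def n4531 : Strat := .win 839 5 835
noncomputable def n4532 : Strat := .move 876 n4531 (.cons 839 n4516 .nil)
noncomputable def n4533 : Strat := .move 877 n4507 (.cons 876 n4511 (.cons 839 n4530 (.cons 880 n4532 .nil)))
noncomputable def n4534 : Strat := .move 756 n1699 (.cons 919 n1744 .nil)
noncomputable def n4535 : Strat := .move 798 n1173 (.cons 961 n2400 (.cons 757 n4441 .nil))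
noncomputable def n4536 : Strat := .move 756 n1699 (.cons 919 n4535 .nil)
noncomputable def n4537 : Strat := .move 798 n1172 (.cons 757 n3592 .nil)
noncomputable def n4538 : Strat := .move 920 n3584 (.cons 961 n4537 (.cons 757 n3588 (.cons 798 n1772 .nil)))
noncomputable def n4539 : Strat := .move 920 n1714 (.cons 755 n1059 .nil)
noncomputable def n4540 : Strat := .move 796 n1160 (.cons 795 n4539 .nil)
noncomputable def n4541 : Strat := .move 798 n1173 (.cons 961 n2400 (.cons 757 n4540 (.cons 920 n4481 .nil)))
noncomputable def n4542 : Strat := .move 797 n4534 (.cons 715 n4536 (.cons 756 n4538 (.cons 919 n4541 .nil)))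
noncomputable def n4543 : Strat := .move 839 n1065 (.cons 841 n4542 .nil)
noncomputable def n4544 : Strat := .win 798 0 796
noncomputable def n4545 : Strat := .move 796 n1690 (.cons 920 n4544 .nil)
noncomputable def n4546 : Strat := .move 755 n1691 (.cons 714 n4545 .nil)
noncomputable def n4547 : Strat := .move 756 n1699 (.cons 919 n4546 .nil)
noncomputable def n4548 : Strat := .move 756 n1699 (.cons 919 n1769 .nil)
noncomputable def n4549 : Strat := .move 756 n1692 (.cons 716 n1699 .nil)
noncomputable def n4550 : Strat := .move 757 n1611 (.cons 920 n4549 .nil)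
noncomputable def n4551 : Strat := .move 798 n626 (.cons 796 n4550 .nil)
noncomputable def n4552 : Strat := .move 798 n1172 (.cons 757 n626 .nil)
noncomputable def n4553 : Strat := .move 920 n4552 (.cons 796 n1772 .nil)
noncomputable def n4554 : Strat := .move 797 n4547 (.cons 798 n4548 (.cons 714 n4551 (.cons 756 n4553 (.cons 919 n4069 .nil))))
noncomputable def n4555 : Strat := .move 841 n2482 (.cons 839 n4554 .nil)
noncomputable def n4556 : Strat := .move 878 n4493 (.cons 839 n4506 (.cons 841 n4533 (.cons 877 n4543 (.cons 880 n4555 .nil))))
noncomputable def n4557 : Strat := .move 920 n1059 (.cons 961 n3610 .nil)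
noncomputable def n4558 : Strat := .move 796 n1642 (.cons 754 n1160 .nil)
noncomputable def n4559 : Strat := .move 800 n1643 (.cons 756 n1186 .nil)
noncomputable def n4560 : Strat := .move 755 n4558 (.cons 795 n4559 .nil)
noncomputable def n4561 : Strat := .move 757 n1056 (.cons 716 n4560 .nil)
noncomputable def n4562 : Strat := .move 798 n2400 (.cons 716 n1173 (.cons 757 n4557 (.cons 920 n4561 .nil)))
noncomputable def n4563 : Strat := .move 798 n983 (.cons 842 n1612 .nil)
noncomputable def n4564 : Strat := .move 841 n353 (.cons 878 n4563 .nil)
noncomputable def n4565 : Strat := .move 839 n1963 (.cons 841 n4562 (.cons 796 n4564 .nil))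
noncomputable def n4566 : Strat := .move 756 n1985 (.cons 878 n4088 (.cons 880 n1831 .nil))
noncomputable def n4567 : Strat := .move 839 n1059 (.cons 961 n3610 .nil)
noncomputable def n4568 : Strat := .move 798 n1172 (.cons 757 n4567 .nil)
noncomputable def n4569 : Strat := .move 796 n1714 (.cons 755 n1761 .nil)
noncomputable def n4570 : Strat := .move 920 n4568 (.cons 798 n4569 (.cons 755 n4122 .nil))
noncomputable def n4571 : Strat := .move 756 n4096 (.cons 714 n4111 (.cons 757 n1985 .nil))
noncomputable def n4572 : Strat := .move 920 n1172 (.cons 757 n4099 .nil)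
noncomputable def n4573 : Strat := .move 796 n1161 (.cons 841 n4035 .nil)
noncomputable def n4574 : Strat := .move 801 n2259 (.cons 839 n1605 .nil)
noncomputable def n4575 : Strat := .move 800 n625 (.cons 842 n4574 .nil)
noncomputable def n4576 : Strat := .move 841 n626 (.cons 796 n4575 .nil)
noncomputable def n4577 : Strat := .move 798 n3832 (.cons 756 n4572 (.cons 757 n4573 (.cons 920 n4576 .nil)))
noncomputable def n4578 : Strat := .move 920 n1335 (.cons 962 n2826 .nil)
noncomputable def n4579 : Strat := .move 757 n1692 (.cons 716 n4578 .nil)
noncomputable def n4580 : Strat := .move 921 n1725 (.cons 880 n4579 .nil)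
noncomputable def n4581 : Strat := .move 756 n1767 (.cons 877 n1851 (.cons 919 n4580 (.cons 921 n2828 .nil)))
noncomputable def n4582 : Strat := .move 839 n1963 (.cons 841 n4581 (.cons 878 n3581 .nil))
noncomputable def n4583 : Strat := .move 841 n353 (.cons 878 n3469 .nil)
noncomputable def n4584 : Strat := .move 798 n1059 (.cons 961 n1172 .nil)
noncomputable def n4585 : Strat := .move 755 n1829 (.cons 796 n4584 .nil)
noncomputable def n4586 : Strat := .move 920 n4585 (.cons 798 n3948 (.cons 961 n3635 .nil))
noncomputable def n4587 : Strat := .move 839 n1963 (.cons 796 n4583 (.cons 878 n3581 (.cons 841 n4586 .nil)))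
noncomputable def n4588 : Strat := .move 839 n353 (.cons 878 n3469 .nil)
noncomputable def n4589 : Strat := .move 839 n841 (.cons 796 n3469 .nil)
noncomputable def n4590 : Strat := .move 841 n4393 (.cons 796 n4588 (.cons 878 n4589 (.cons 839 n4133 .nil)))
noncomputable def n4591 : Strat := .move 920 n4122 (.cons 756 n4100 .nil)
noncomputable def n4592 : Strat := .move 797 n4565 (.cons 798 n4566 (.cons 841 n4570 (.cons 796 n4571 (.cons 878 n4577 (.cons 755 n4582 (.cons 756 n4587 (.cons 920 n4590 (.cons 839 n4591 .nil))))))))
noncomputable def n4593 : Strat := .win 797 0 797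
noncomputable def n4594 : Strat := .move 842 n4593 (.cons 797 n3468 .nil)
noncomputable def n4595 : Strat := .move 797 n1128 (.cons 760 n626 .nil)
noncomputable def n4596 : Strat := .move 759 n4595 (.cons 796 n3478 .nil)
noncomputable def n4597 : Strat := .move 841 n4594 (.cons 880 n627 (.cons 797 n3735 (.cons 842 n4596 .nil)))
noncomputable def n4598 : Strat := .move 800 n1186 (.cons 801 n4597 .nil)
noncomputable def n4599 : Strat := .move 798 n4425 (.cons 880 n4429 (.cons 757 n4598 .nil))
noncomputable def n4600 : Strat := .move 878 n4003 (.cons 923 n430 .nil)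
noncomputable def n4601 : Strat := .move 923 n413 (.cons 924 n884 .nil)
noncomputable def n4602 : Strat := .win 963 6 798
noncomputable def n4603 : Strat := .move 798 n4602 (.cons 963 n1058 .nil)
noncomputable def n4604 : Strat := .move 922 n4600 (.cons 877 n4601 (.cons 923 n4603 .nil))
noncomputable def n4605 : Strat := .move 921 n1026 (.cons 962 n4604 .nil)
noncomputable def n4606 : Strat := .move 880 n3623 (.cons 797 n4605 (.cons 921 n3630 .nil))
noncomputable def n4607 : Strat := .move 920 n3609 (.cons 716 n4436 (.cons 880 n3617 (.cons 798 n4490 (.cons 961 n4606 .nil))))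
noncomputable def n4608 : Strat := .move 839 n3604 (.cons 878 n4599 (.cons 797 n4434 (.cons 842 n3606 (.cons 841 n4607 .nil))))
noncomputable def n4609 : Strat := .move 841 n841 (.cons 796 n4563 .nil)
noncomputable def n4610 : Strat := .move 920 n1059 (.cons 961 n1714 .nil)
noncomputable def n4611 : Strat := .move 796 n1160 (.cons 795 n4610 .nil)
noncomputable def n4612 : Strat := .move 756 n4156 (.cons 801 n4094 (.cons 755 n2578 .nil))
noncomputable def n4613 : Strat := .move 757 n1056 (.cons 716 n4612 .nil)
noncomputable def n4614 : Strat := .move 798 n2400 (.cons 716 n1173 (.cons 757 n4611 (.cons 920 n4613 .nil)))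
noncomputable def n4615 : Strat := .move 839 n1963 (.cons 878 n4609 (.cons 796 n4564 (.cons 841 n4614 .nil)))
noncomputable def n4616 : Strat := .move 841 n841 (.cons 796 n4367 .nil)
noncomputable def n4617 : Strat := .move 841 n353 (.cons 878 n4367 .nil)
noncomputable def n4618 : Strat := .move 880 n1629 (.cons 715 n1766 .nil)
noncomputable def n4619 : Strat := .move 920 n1724 (.cons 878 n1878 .nil)
noncomputable def n4620 : Strat := .move 880 n1629 (.cons 715 n4619 .nil)
noncomputable def n4621 : Strat := .move 878 n1699 (.cons 919 n1780 .nil)
noncomputable def n4622 : Strat := .move 715 n1166 (.cons 880 n1703 .nil)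
noncomputable def n4623 : Strat := .move 756 n4618 (.cons 877 n4620 (.cons 715 n4621 (.cons 919 n4622 (.cons 880 n3856 .nil))))
noncomputable def n4624 : Strat := .move 839 n1963 (.cons 878 n4616 (.cons 796 n4617 (.cons 841 n4623 .nil)))
noncomputable def n4625 : Strat := .move 798 n2400 (.cons 716 n1173 (.cons 757 n3730 .nil))
noncomputable def n4626 : Strat := .move 839 n1963 (.cons 841 n4625 .nil)
noncomputable def n4627 : Strat := .move 798 n1173 (.cons 920 n3730 .nil)
noncomputable def n4628 : Strat := .move 839 n1963 (.cons 841 n4627 .nil)
noncomputable def n4629 : Strat := .move 756 n4096 (.cons 800 n2701 (.cons 757 n1985 .nil))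
noncomputable def n4630 : Strat := .move 920 n1714 (.cons 755 n1172 .nil)
noncomputable def n4631 : Strat := .move 798 n1160 (.cons 795 n4630 .nil)
noncomputable def n4632 : Strat := .move 796 n1201 (.cons 841 n4631 .nil)
noncomputable def n4633 : Strat := .move 756 n2578 (.cons 880 n2695 .nil)
noncomputable def n4634 : Strat := .move 757 n1056 (.cons 716 n4633 .nil)
noncomputable def n4635 : Strat := .move 756 n1629 (.cons 715 n1766 .nil)
noncomputable def n4636 : Strat := .move 880 n4635 (.cons 756 n4611 .nil)
noncomputable def n4637 : Strat := .move 798 n2400 (.cons 920 n4634 (.cons 757 n4636 .nil))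
noncomputable def n4638 : Strat := .move 839 n1963 (.cons 878 n4632 (.cons 796 n4583 (.cons 841 n4637 .nil)))
noncomputable def n4639 : Strat := .move 798 n1611 (.cons 920 n1056 .nil)
noncomputable def n4640 : Strat := .move 716 n3696 (.cons 756 n354 .nil)
noncomputable def n4641 : Strat := .move 756 n1692 (.cons 716 n4621 .nil)
noncomputable def n4642 : Strat := .move 919 n1722 (.cons 960 n1785 .nil)
noncomputable def n4643 : Strat := .move 878 n4642 (.cons 756 n1780 .nil)
noncomputable def n4644 : Strat := .move 920 n2826 (.cons 798 n4643 .nil)
noncomputable def n4645 : Strat := .move 757 n4639 (.cons 920 n4640 (.cons 798 n4641 (.cons 716 n4644 .nil)))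
noncomputable def n4646 : Strat := .move 839 n1963 (.cons 878 n3581 (.cons 796 n4583 (.cons 841 n4645 .nil)))
noncomputable def n4647 : Strat := .move 756 n1724 (.cons 878 n4441 .nil)
noncomputable def n4648 : Strat := .move 798 n1172 (.cons 757 n4647 .nil)
noncomputable def n4649 : Strat := .move 756 n1724 (.cons 878 n2578 .nil)
noncomputable def n4650 : Strat := .move 798 n1172 (.cons 757 n4649 .nil)
noncomputable def n4651 : Strat := .move 839 n3635 (.cons 798 n3891 (.cons 796 n4648 (.cons 755 n4650 .nil)))
noncomputable def n4652 : Strat := .move 756 n1723 (.cons 878 n3585 .nil)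
noncomputable def n4653 : Strat := .move 919 n1722 (.cons 960 n4652 .nil)
noncomputable def n4654 : Strat := .move 920 n4568 (.cons 961 n4651 (.cons 839 n4653 (.cons 798 n3891 .nil)))
noncomputable def n4655 : Strat := .move 841 n4393 (.cons 839 n4082 (.cons 796 n4588 .nil))
noncomputable def n4656 : Strat := .move 756 n4094 (.cons 714 n3181 (.cons 800 n1168 .nil))
noncomputable def n4657 : Strat := .move 839 n983 (.cons 842 n4656 .nil)
noncomputable def n4658 : Strat := .move 841 n626 (.cons 796 n4657 .nil)
noncomputable def n4659 : Strat := .move 798 n4572 (.cons 920 n4658 (.cons 796 n3832 .nil))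
noncomputable def n4660 : Strat := .move 797 n4615 (.cons 839 n4120 (.cons 798 n4624 (.cons 714 n4626 (.cons 716 n4628 (.cons 796 n4629 (.cons 800 n4638 (.cons 755 n4646 (.cons 841 n4654 (.cons 756 n4655 (.cons 878 n4659 .nil))))))))))
noncomputable def n4661 : Strat := .move 797 n4568 (.cons 839 n4122 .nil)
noncomputable def n4662 : Strat := .move 797 n1335 (.cons 962 n3637 .nil)
noncomputable def n4663 : Strat := .move 756 n1723 (.cons 878 n1725 .nil)
noncomputable def n4664 : Strat := .move 797 n1722 (.cons 960 n4663 .nil)
noncomputable def n4665 : Strat := .move 797 n1722 (.cons 960 n4101 .nil)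
noncomputable def n4666 : Strat := .move 878 n875 (.cons 877 n4003 .nil)
noncomputable def n4667 : Strat := .move 960 n876 (.cons 959 n1786 .nil)
noncomputable def n4668 : Strat := .move 878 n875 (.cons 877 n4667 .nil)
noncomputable def n4669 : Strat := .move 923 n18 (.cons 964 n884 .nil)
noncomputable def n4670 : Strat := .move 881 n3956 (.cons 882 n4669 .nil)
noncomputable def n4671 : Strat := .win 963 0 919
noncomputable def n4672 : Strat := .move 964 n152 (.cons 923 n4671 .nil)
noncomputable def n4673 : Strat := .move 881 n3956 (.cons 882 n4672 .nil)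
noncomputable def n4674 : Strat := .move 922 n4666 (.cons 923 n4668 (.cons 877 n4670 (.cons 878 n4673 .nil)))
noncomputable def n4675 : Strat := .win 878 2 877
noncomputable def n4676 : Strat := .win 876 2 876
noncomputable def n4677 : Strat := .move 877 n4675 (.cons 878 n4676 .nil)
noncomputable def n4678 : Strat := .move 880 n3619 (.cons 881 n3620 .nil)
noncomputable def n4679 : Strat := .move 918 n4677 (.cons 876 n4678 .nil)
noncomputable def n4680 : Strat := .move 922 n4666 (.cons 923 n4679 (.cons 877 n4670 (.cons 878 n4673 .nil)))
noncomputable def n4681 : Strat := .move 797 n1722 (.cons 960 n3919 .nil)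
noncomputable def n4682 : Strat := .move 919 n4664 (.cons 880 n4665 (.cons 797 n4674 (.cons 960 n4680 (.cons 878 n4681 .nil))))
noncomputable def n4683 : Strat := .move 797 n1335 (.cons 962 n4102 .nil)
noncomputable def n4684 : Strat := .move 880 n1264 (.cons 839 n3716 .nil)
noncomputable def n4685 : Strat := .move 962 n4449 (.cons 797 n4684 .nil)
noncomputable def n4686 : Strat := .move 881 n36 (.cons 962 n4669 .nil)
noncomputable def n4687 : Strat := .move 878 n430 (.cons 877 n4003 .nil)
noncomputable def n4688 : Strat := .move 880 n1026 (.cons 962 n4687 .nil)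
noncomputable def n4689 : Strat := .win 919 2 877
noncomputable def n4690 : Strat := .move 877 n4689 (.cons 919 n3896 .nil)
noncomputable def n4691 : Strat := .move 878 n4003 (.cons 923 n4690 .nil)
noncomputable def n4692 : Strat := .move 880 n1026 (.cons 962 n4603 .nil)
noncomputable def n4693 : Strat := .move 839 n4688 (.cons 880 n4691 (.cons 923 n4692 .nil))
noncomputable def n4694 : Strat := .move 919 n4666 (.cons 923 n4668 (.cons 877 n4670 (.cons 878 n4673 .nil)))
noncomputable def n4695 : Strat := .move 923 n18 (.cons 964 n165 .nil)
noncomputable def n4696 : Strat := .move 882 n166 (.cons 919 n4695 .nil)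
noncomputable def n4697 : Strat := .move 881 n36 (.cons 962 n4696 .nil)
noncomputable def n4698 : Strat := .win 880 4 879
noncomputable def n4699 : Strat := .move 883 n169 (.cons 884 n4698 .nil)
noncomputable def n4700 : Strat := .move 882 n166 (.cons 919 n4699 .nil)
noncomputable def n4701 : Strat := .move 881 n36 (.cons 962 n4700 .nil)
noncomputable def n4702 : Strat := .move 922 n4686 (.cons 881 n4693 (.cons 962 n4694 (.cons 878 n4697 (.cons 923 n4701 .nil))))
noncomputable def n4703 : Strat := .move 921 n4662 (.cons 962 n4682 (.cons 880 n4683 (.cons 878 n4685 (.cons 797 n4702 .nil))))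
noncomputable def n4704 : Strat := .move 755 n1829 (.cons 796 n4468 .nil)
noncomputable def n4705 : Strat := .move 756 n1723 (.cons 878 n4437 .nil)
noncomputable def n4706 : Strat := .move 919 n1722 (.cons 960 n4705 .nil)
noncomputable def n4707 : Strat := .move 797 n3638 (.cons 756 n4704 (.cons 962 n4706 (.cons 960 n4439 .nil)))
noncomputable def n4708 : Strat := .move 839 n1059 (.cons 961 n3612 .nil)
noncomputable def n4709 : Strat := .move 798 n1172 (.cons 757 n4708 .nil)
noncomputable def n4710 : Strat := .move 797 n4568 (.cons 798 n4706 (.cons 755 n4709 .nil))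
noncomputable def n4711 : Strat := .move 839 n3609 (.cons 716 n4436 (.cons 961 n4447 (.cons 880 n3617 (.cons 798 n4462 .nil))))
noncomputable def n4712 : Strat := .move 962 n1732 (.cons 921 n4584 .nil)
noncomputable def n4713 : Strat := .move 839 n4712 (.cons 798 n4706 .nil)
noncomputable def n4714 : Strat := .move 962 n1732 (.cons 921 n3635 .nil)
noncomputable def n4715 : Strat := .move 756 n3611 (.cons 960 n4437 .nil)
noncomputable def n4716 : Strat := .move 921 n1335 (.cons 962 n4715 .nil)
noncomputable def n4717 : Strat := .move 919 n1785 (.cons 756 n1722 .nil)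
noncomputable def n4718 : Strat := .move 878 n4717 (.cons 960 n3635 .nil)
noncomputable def n4719 : Strat := .move 756 n3611 (.cons 960 n4441 .nil)
noncomputable def n4720 : Strat := .move 798 n1172 (.cons 757 n4719 .nil)
noncomputable def n4721 : Strat := .move 756 n1692 (.cons 716 n3611 .nil)
noncomputable def n4722 : Strat := .move 757 n2826 (.cons 798 n4721 .nil)
noncomputable def n4723 : Strat := .move 839 n4714 (.cons 798 n4716 (.cons 962 n4718 (.cons 796 n4720 (.cons 755 n4722 .nil))))
noncomputable def n4724 : Strat := .move 756 n2175 (.cons 800 n1691 .nil)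
noncomputable def n4725 : Strat := .move 755 n1829 (.cons 796 n4724 .nil)
noncomputable def n4726 : Strat := .move 798 n1172 (.cons 757 n4725 .nil)
noncomputable def n4727 : Strat := .move 839 n1160 (.cons 795 n1059 .nil)
noncomputable def n4728 : Strat := .move 796 n1714 (.cons 755 n4727 .nil)
noncomputable def n4729 : Strat := .win 839 3 797
noncomputable def n4730 : Strat := .move 961 n4729 (.cons 839 n1718 .nil)
noncomputable def n4731 : Strat := .move 798 n4725 (.cons 800 n4728 (.cons 755 n4730 .nil))
noncomputable def n4732 : Strat := .move 798 n1172 (.cons 757 n4730 .nil)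
noncomputable def n4733 : Strat := .move 797 n4713 (.cons 961 n4723 (.cons 919 n4726 (.cons 757 n4731 (.cons 755 n4732 (.cons 798 n4706 .nil)))))
noncomputable def n4734 : Strat := .move 797 n4568 (.cons 798 n4439 (.cons 796 n4446 .nil))
noncomputable def n4735 : Strat := .move 839 n4460 (.cons 880 n3587 .nil)
noncomputable def n4736 : Strat := .move 921 n4449 (.cons 797 n4735 .nil)
noncomputable def n4737 : Strat := .move 962 n1731 (.cons 1003 n4736 .nil)
noncomputable def n4738 : Strat := .move 962 n3631 (.cons 921 n1731 .nil)
noncomputable def n4739 : Strat := .move 880 n1737 (.cons 1002 n4738 .nil)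
noncomputable def n4740 : Strat := .move 839 n3587 (.cons 798 n4739 .nil)
noncomputable def n4741 : Strat := .move 1001 n4455 (.cons 1042 n4454 .nil)
noncomputable def n4742 : Strat := .move 1002 n4456 (.cons 880 n4741 .nil)
noncomputable def n4743 : Strat := .move 839 n3587 (.cons 798 n4742 .nil)
noncomputable def n4744 : Strat := .move 797 n1732 (.cons 921 n1717 .nil)
noncomputable def n4745 : Strat := .move 960 n1716 (.cons 1001 n4744 .nil)
noncomputable def n4746 : Strat := .move 962 n1731 (.cons 1003 n4745 .nil)
noncomputable def n4747 : Strat := .move 961 n4737 (.cons 797 n4740 (.cons 921 n4743 (.cons 839 n4746 .nil)))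
noncomputable def n4748 : Strat := .win 880 7 838
noncomputable def n4749 : Strat := .move 1003 n4451 (.cons 961 n4748 .nil)
noncomputable def n4750 : Strat := .win 881 1 798
noncomputable def n4751 : Strat := .move 880 n413 (.cons 924 n1264 .nil)
noncomputable def n4752 : Strat := .move 923 n884 (.cons 878 n4751 .nil)
noncomputable def n4753 : Strat := .move 922 n4750 (.cons 881 n4752 .nil)
noncomputable def n4754 : Strat := .move 1003 n4451 (.cons 961 n4450 .nil)
noncomputable def n4755 : Strat := .move 962 n4749 (.cons 961 n4684 (.cons 1003 n4753 (.cons 880 n4754 .nil)))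
noncomputable def n4756 : Strat := .win 881 6 799
noncomputable def n4757 : Strat := .win 965 0 920
noncomputable def n4758 : Strat := .move 964 n4756 (.cons 881 n4757 .nil)
noncomputable def n4759 : Strat := .move 923 n884 (.cons 878 n4758 .nil)
noncomputable def n4760 : Strat := .move 881 n18 (.cons 964 n4259 .nil)
noncomputable def n4761 : Strat := .move 923 n884 (.cons 878 n4760 .nil)
noncomputable def n4762 : Strat := .move 960 n1786 (.cons 1001 n876 .nil)
noncomputable def n4763 : Strat := .move 878 n875 (.cons 877 n4762 .nil)
noncomputable def n4764 : Strat := .win 1042 3 878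
noncomputable def n4765 : Strat := .win 961 1 837
noncomputable def n4766 : Strat := .move 1001 n4764 (.cons 1042 n4765 .nil)
noncomputable def n4767 : Strat := .move 960 n876 (.cons 959 n4766 .nil)
noncomputable def n4768 : Strat := .move 877 n4676 (.cons 876 n4675 .nil)
noncomputable def n4769 : Strat := .move 918 n4768 (.cons 878 n4678 .nil)
noncomputable def n4770 : Strat := .move 919 n4763 (.cons 878 n4767 (.cons 959 n4769 .nil))
noncomputable def n4771 : Strat := .win 919 0 919
noncomputable def n4772 : Strat := .move 963 n153 (.cons 1005 n4771 .nil)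
noncomputable def n4773 : Strat := .move 964 n152 (.cons 923 n4772 .nil)
noncomputable def n4774 : Strat := .move 839 n456 (.cons 963 n1059 .nil)
noncomputable def n4775 : Strat := .move 798 n150 (.cons 757 n4774 .nil)
noncomputable def n4776 : Strat := .move 881 n4696 (.cons 882 n4773 (.cons 919 n4775 .nil))
noncomputable def n4777 : Strat := .win 964 0 920
noncomputable def n4778 : Strat := .move 965 n172 (.cons 966 n4777 .nil)
noncomputable def n4779 : Strat := .move 924 n883 (.cons 880 n4778 .nil)
noncomputable def n4780 : Strat := .move 923 n884 (.cons 878 n4779 .nil)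
noncomputable def n4781 : Strat := .move 922 n4759 (.cons 965 n4761 (.cons 923 n4770 (.cons 878 n4776 (.cons 881 n4780 .nil))))
noncomputable def n4782 : Strat := .move 881 n36 (.cons 962 n4775 .nil)
noncomputable def n4783 : Strat := .win 960 4 919
noncomputable def n4784 : Strat := .win 924 4 920
noncomputable def n4785 : Strat := .move 962 n4784 (.cons 924 n1731 .nil)
noncomputable def n4786 : Strat := .move 961 n4783 (.cons 960 n4785 .nil)
noncomputable def n4787 : Strat := .move 923 n884 (.cons 878 n4786 .nil)
noncomputable def n4788 : Strat := .move 922 n4686 (.cons 964 n4782 (.cons 881 n4787 (.cons 962 n4759 .nil)))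
noncomputable def n4789 : Strat := .move 877 n4009 (.cons 880 n3896 .nil)
noncomputable def n4790 : Strat := .move 878 n4003 (.cons 923 n4789 .nil)
noncomputable def n4791 : Strat := .move 881 n36 (.cons 962 n4790 .nil)
noncomputable def n4792 : Strat := .move 922 n4686 (.cons 964 n4791 (.cons 881 n4780 (.cons 923 n4701 .nil)))
noncomputable def n4793 : Strat := .move 962 n1731 (.cons 1003 n4735 .nil)
noncomputable def n4794 : Strat := .win 922 5 918
noncomputable def n4795 : Strat := .win 958 5 917
noncomputable def n4796 : Strat := .move 959 n4794 (.cons 922 n4795 .nil)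
noncomputable def n4797 : Strat := .move 960 n1716 (.cons 1001 n4796 .nil)
noncomputable def n4798 : Strat := .move 962 n1731 (.cons 1003 n4797 .nil)
noncomputable def n4799 : Strat := .move 961 n4793 (.cons 962 n4743 (.cons 798 n4798 .nil))
noncomputable def n4800 : Strat := .win 1084 3 920
noncomputable def n4801 : Strat := .win 880 3 879
noncomputable def n4802 : Strat := .move 1043 n4800 (.cons 1084 n4801 .nil)
noncomputable def n4803 : Strat := .move 1002 n4741 (.cons 960 n4802 .nil)
noncomputable def n4804 : Strat := .move 962 n1731 (.cons 1003 n4803 .nil)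
noncomputable def n4805 : Strat := .win 962 6 838
noncomputable def n4806 : Strat := .win 1044 6 879
noncomputable def n4807 : Strat := .move 1002 n4806 (.cons 1044 n4455 .nil)
noncomputable def n4808 : Strat := .move 1001 n4454 (.cons 960 n4807 .nil)
noncomputable def n4809 : Strat := .move 1003 n4805 (.cons 962 n4808 .nil)
noncomputable def n4810 : Strat := .move 961 n4793 (.cons 839 n4804 (.cons 880 n4809 (.cons 962 n4743 .nil)))
noncomputable def n4811 : Strat := .move 921 n4755 (.cons 962 n4781 (.cons 880 n4788 (.cons 961 n4702 (.cons 839 n4792 (.cons 881 n4799 (.cons 922 n4810 .nil))))))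
noncomputable def n4812 : Strat := .move 920 n4661 (.cons 961 n4703 (.cons 798 n4707 (.cons 962 n4710 (.cons 919 n4711 (.cons 880 n4733 (.cons 960 n4734 (.cons 756 n4747 (.cons 797 n4811 .nil))))))))
noncomputable def n4813 : Strat := .move 842 n4371 (.cons 798 n3468 .nil)
noncomputable def n4814 : Strat := .move 797 n841 (.cons 796 n4813 .nil)
noncomputable def n4815 : Strat := .move 800 n356 (.cons 801 n4814 .nil)
noncomputable def n4816 : Strat := .move 839 n353 (.cons 878 n4815 .nil)
noncomputable def n4817 : Strat := .move 839 n353 (.cons 878 n4433 .nil)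
noncomputable def n4818 : Strat := .move 839 n841 (.cons 796 n4361 .nil)
noncomputable def n4819 : Strat := .move 839 n841 (.cons 796 n4367 .nil)
noncomputable def n4820 : Strat := .move 839 n983 (.cons 842 n1612 .nil)
noncomputable def n4821 : Strat := .win 839 1 715
noncomputable def n4822 : Strat := .move 716 n4821 (.cons 839 n3695 .nil)
noncomputable def n4823 : Strat := .move 757 n1611 (.cons 920 n4822 .nil)
noncomputable def n4824 : Strat := .move 798 n4820 (.cons 839 n4081 (.cons 842 n4823 .nil))
noncomputable def n4825 : Strat := .move 796 n4544 (.cons 798 n1951 .nil)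
noncomputable def n4826 : Strat := .move 797 n4818 (.cons 839 n4082 (.cons 798 n4819 (.cons 796 n4824 (.cons 842 n4825 .nil))))
noncomputable def n4827 : Strat := .win 880 5 837
noncomputable def n4828 : Strat := .move 800 n425 (.cons 963 n143 .nil)
noncomputable def n4829 : Strat := .move 921 n4279 (.cons 920 n36 .nil)
noncomputable def n4830 : Strat := .move 923 n18 (.cons 964 n4829 .nil)
noncomputable def n4831 : Strat := .move 922 n4828 (.cons 759 n4415 (.cons 963 n4830 .nil))
noncomputable def n4832 : Strat := .move 881 n4827 (.cons 880 n4831 .nil)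
noncomputable def n4833 : Strat := .move 878 n2482 (.cons 839 n4832 .nil)
noncomputable def n4834 : Strat := .move 841 n4816 (.cons 839 n4421 (.cons 797 n4817 (.cons 800 n4363 (.cons 880 n4422 (.cons 878 n4826 (.cons 842 n4833 .nil))))))
noncomputable def n4835 : Strat := .move 796 n1714 (.cons 755 n1161 .nil)
noncomputable def n4836 : Strat := .move 798 n1172 (.cons 757 n4835 .nil)
noncomputable def n4837 : Strat := .move 756 n4440 (.cons 962 n4094 .nil)
noncomputable def n4838 : Strat := .move 839 n1059 (.cons 961 n4837 .nil)
noncomputable def n4839 : Strat := .move 798 n1172 (.cons 757 n4838 .nil)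
noncomputable def n4840 : Strat := .move 839 n1059 (.cons 961 n1162 .nil)
noncomputable def n4841 : Strat := .move 798 n1172 (.cons 757 n4840 .nil)
noncomputable def n4842 : Strat := .move 797 n4836 (.cons 798 n4439 (.cons 796 n4839 (.cons 755 n4841 .nil)))
noncomputable def n4843 : Strat := .move 757 n3615 (.cons 797 n1056 .nil)
noncomputable def n4844 : Strat := .move 798 n1059 (.cons 961 n4843 .nil)
noncomputable def n4845 : Strat := .move 755 n1829 (.cons 796 n4559 .nil)
noncomputable def n4846 : Strat := .move 798 n1172 (.cons 757 n4845 .nil)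
noncomputable def n4847 : Strat := .move 921 n1335 (.cons 962 n4126 .nil)
noncomputable def n4848 : Strat := .move 757 n2826 (.cons 798 n4847 .nil)
noncomputable def n4849 : Strat := .move 797 n3635 (.cons 795 n4846 (.cons 798 n4439 (.cons 796 n4443 (.cons 755 n4848 .nil))))
noncomputable def n4850 : Strat := .move 962 n1731 (.cons 1003 n4461 .nil)
noncomputable def n4851 : Strat := .move 961 n3587 (.cons 798 n4850 .nil)
noncomputable def n4852 : Strat := .move 921 n4449 (.cons 797 n4460 .nil)
noncomputable def n4853 : Strat := .move 921 n4460 (.cons 880 n4452 .nil)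
noncomputable def n4854 : Strat := .move 797 n1732 (.cons 921 n4467 .nil)
noncomputable def n4855 : Strat := .move 962 n4852 (.cons 797 n4853 (.cons 921 n4459 (.cons 880 n4854 .nil)))
noncomputable def n4856 : Strat := .move 839 n4844 (.cons 961 n4849 (.cons 757 n4851 (.cons 798 n4855 (.cons 797 n3609 .nil))))
noncomputable def n4857 : Strat := .move 880 n1336 (.cons 756 n4226 .nil)
noncomputable def n4858 : Strat := .move 921 n1335 (.cons 962 n4857 .nil)
noncomputable def n4859 : Strat := .move 797 n4841 (.cons 798 n4858 .nil)
noncomputable def n4860 : Strat := .move 797 n4836 (.cons 798 n4439 (.cons 796 n4446 .nil))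
noncomputable def n4861 : Strat := .move 797 n1172 (.cons 757 n4099 .nil)
noncomputable def n4862 : Strat := .move 839 n1059 (.cons 961 n1056 .nil)
noncomputable def n4863 : Strat := .move 757 n3615 (.cons 797 n4862 .nil)
noncomputable def n4864 : Strat := .move 839 n1059 (.cons 961 n3608 .nil)
noncomputable def n4865 : Strat := .move 756 n4441 (.cons 801 n1168 .nil)
noncomputable def n4866 : Strat := .move 797 n4099 (.cons 755 n1162 (.cons 841 n3610 (.cons 796 n4865 .nil)))
noncomputable def n4867 : Strat := .move 839 n1059 (.cons 961 n4866 .nil)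
noncomputable def n4868 : Strat := .move 798 n4861 (.cons 796 n4863 (.cons 797 n4864 (.cons 757 n4867 .nil)))
noncomputable def n4869 : Strat := .move 841 n1951 (.cons 839 n4544 .nil)
noncomputable def n4870 : Strat := .move 796 n1714 (.cons 755 n4869 .nil)
noncomputable def n4871 : Strat := .move 921 n1335 (.cons 962 n4870 .nil)
noncomputable def n4872 : Strat := .move 841 n4544 (.cons 798 n1951 .nil)
noncomputable def n4873 : Strat := .move 796 n1714 (.cons 755 n4872 .nil)
noncomputable def n4874 : Strat := .move 796 n1714 (.cons 755 n4544 .nil)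
noncomputable def n4875 : Strat := .move 841 n4874 (.cons 796 n4468 .nil)
noncomputable def n4876 : Strat := .move 798 n4567 (.cons 755 n4730 (.cons 839 n4725 .nil))
noncomputable def n4877 : Strat := .move 797 n4871 (.cons 962 n4873 (.cons 839 n4875 (.cons 841 n4876 (.cons 798 n4858 .nil))))
noncomputable def n4878 : Strat := .move 1003 n4806 (.cons 1044 n4805 .nil)
noncomputable def n4879 : Strat := .move 1002 n4456 (.cons 880 n4878 .nil)
noncomputable def n4880 : Strat := .move 797 n1718 (.cons 919 n4742 (.cons 1001 n4879 .nil))
noncomputable def n4881 : Strat := .move 839 n3587 (.cons 798 n4880 .nil)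
noncomputable def n4882 : Strat := .move 961 n4737 (.cons 797 n4740 (.cons 921 n4881 (.cons 962 n4743 (.cons 839 n4746 .nil))))
noncomputable def n4883 : Strat := .move 797 n4836 (.cons 796 n4732 (.cons 757 n4873 (.cons 798 n3948 .nil)))
noncomputable def n4884 : Strat := .win 923 4 919
noncomputable def n4885 : Strat := .move 922 n4884 (.cons 923 n4750 .nil)
noncomputable def n4886 : Strat := .move 921 n4735 (.cons 798 n4885 .nil)
noncomputable def n4887 : Strat := .move 960 n1716 (.cons 1001 n4886 .nil)
noncomputable def n4888 : Strat := .move 962 n1731 (.cons 1003 n4887 .nil)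
noncomputable def n4889 : Strat := .move 1002 n4806 (.cons 1044 n4741 .nil)
noncomputable def n4890 : Strat := .move 1003 n4805 (.cons 962 n4889 .nil)
noncomputable def n4891 : Strat := .move 961 n4740 (.cons 962 n4743 (.cons 1002 n4888 (.cons 839 n4890 .nil)))
noncomputable def n4892 : Strat := .move 921 n4449 (.cons 797 n4749 .nil)
noncomputable def n4893 : Strat := .move 797 n1732 (.cons 921 n3947 .nil)
noncomputable def n4894 : Strat := .move 882 n417 (.cons 883 n418 .nil)
noncomputable def n4895 : Strat := .move 881 n4232 (.cons 922 n4894 .nil)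
noncomputable def n4896 : Strat := .move 880 n1264 (.cons 839 n4895 .nil)
noncomputable def n4897 : Strat := .move 921 n4449 (.cons 797 n4896 .nil)
noncomputable def n4898 : Strat := .win 797 1 796
noncomputable def n4899 : Strat := .win 918 2 918
noncomputable def n4900 : Strat := .win 964 2 919
noncomputable def n4901 : Strat := .move 963 n4899 (.cons 918 n4900 .nil)
noncomputable def n4902 : Strat := .move 919 n4898 (.cons 797 n4901 .nil)
noncomputable def n4903 : Strat := .move 960 n1716 (.cons 1001 n4902 .nil)
noncomputable def n4904 : Strat := .move 961 n1731 (.cons 1003 n4903 .nil)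
noncomputable def n4905 : Strat := .move 921 n4748 (.cons 880 n4450 .nil)
noncomputable def n4906 : Strat := .move 1003 n4451 (.cons 961 n4905 .nil)
noncomputable def n4907 : Strat := .move 962 n4892 (.cons 880 n4893 (.cons 1003 n4897 (.cons 921 n4904 (.cons 797 n4906 .nil))))
noncomputable def n4908 : Strat := .move 920 n4842 (.cons 841 n4856 (.cons 755 n4859 (.cons 961 n4860 (.cons 921 n4868 (.cons 757 n4877 (.cons 796 n4882 (.cons 880 n4883 (.cons 797 n4891 (.cons 798 n4907 .nil)))))))))
noncomputable def n4909 : Strat := .move 800 n1186 (.cons 801 n143 .nil)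
noncomputable def n4910 : Strat := .move 839 n456 (.cons 963 n4909 .nil)
noncomputable def n4911 : Strat := .move 798 n150 (.cons 757 n4910 .nil)
noncomputable def n4912 : Strat := .move 922 n4413 (.cons 880 n4911 .nil)
noncomputable def n4913 : Strat := .move 882 n726 (.cons 883 n1320 .nil)
noncomputable def n4914 : Strat := .move 757 n1056 (.cons 716 n766 .nil)
noncomputable def n4915 : Strat := .move 922 n456 (.cons 963 n1111 .nil)
noncomputable def n4916 : Strat := .move 920 n418 (.cons 919 n1059 .nil)
noncomputable def n4917 : Strat := .move 798 n4914 (.cons 922 n1057 (.cons 716 n4915 (.cons 757 n4916 .nil)))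
noncomputable def n4918 : Strat := .move 882 n726 (.cons 883 n4917 .nil)
noncomputable def n4919 : Strat := .move 922 n456 (.cons 963 n4909 .nil)
noncomputable def n4920 : Strat := .move 798 n4914 (.cons 922 n1057 (.cons 716 n4915 (.cons 757 n4919 .nil)))
noncomputable def n4921 : Strat := .move 880 n4913 (.cons 964 n4918 (.cons 882 n4920 .nil))
noncomputable def n4922 : Strat := .move 757 n510 (.cons 922 n1056 .nil)
noncomputable def n4923 : Strat := .move 922 n150 (.cons 757 n456 .nil)
noncomputable def n4924 : Strat := .move 920 n3607 (.cons 880 n1059 .nil)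
noncomputable def n4925 : Strat := .move 757 n1056 (.cons 716 n4924 .nil)
noncomputable def n4926 : Strat := .move 798 n4922 (.cons 716 n4923 (.cons 757 n4919 (.cons 922 n4925 .nil)))
noncomputable def n4927 : Strat := .move 800 n143 (.cons 759 n1033 .nil)
noncomputable def n4928 : Strat := .move 800 n143 (.cons 759 n1919 .nil)
noncomputable def n4929 : Strat := .move 922 n4246 (.cons 757 n4927 (.cons 798 n4928 .nil))
noncomputable def n4930 : Strat := .move 963 n1113 (.cons 798 n503 .nil)
noncomputable def n4931 : Strat := .move 922 n4930 (.cons 1003 n4927 (.cons 798 n4928 .nil))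
noncomputable def n4932 : Strat := .move 718 n4321 (.cons 841 n595 .nil)
noncomputable def n4933 : Strat := .move 759 n281 (.cons 922 n4932 .nil)
noncomputable def n4934 : Strat := .move 800 n1186 (.cons 801 n4933 .nil)
noncomputable def n4935 : Strat := .move 798 n4922 (.cons 922 n4925 (.cons 757 n4934 .nil))
noncomputable def n4936 : Strat := .move 798 n4602 (.cons 963 n1111 .nil)
noncomputable def n4937 : Strat := .move 963 n439 (.cons 1004 n438 .nil)
noncomputable def n4938 : Strat := .move 923 n413 (.cons 924 n18 .nil)
noncomputable def n4939 : Strat := .move 922 n4936 (.cons 757 n4937 (.cons 963 n4938 .nil))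
noncomputable def n4940 : Strat := .move 921 n1026 (.cons 962 n4939 .nil)
noncomputable def n4941 : Strat := .move 880 n4913 (.cons 964 n4918 (.cons 882 n4940 .nil))
noncomputable def n4942 : Strat := .move 880 n726 (.cons 883 n1320 .nil)
noncomputable def n4943 : Strat := .move 798 n1058 (.cons 757 n1059 .nil)
noncomputable def n4944 : Strat := .move 920 n418 (.cons 919 n4943 .nil)
noncomputable def n4945 : Strat := .move 880 n726 (.cons 883 n4944 .nil)
noncomputable def n4946 : Strat := .move 883 n4283 (.cons 841 n856 .nil)
noncomputable def n4947 : Strat := .move 880 n1320 (.cons 841 n4944 .nil)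
noncomputable def n4948 : Strat := .move 882 n4942 (.cons 964 n4945 (.cons 880 n4946 (.cons 883 n4947 .nil)))
noncomputable def n4949 : Strat := .move 880 n1038 (.cons 842 n1319 .nil)
noncomputable def n4950 : Strat := .move 759 n3652 (.cons 718 n3651 .nil)
noncomputable def n4951 : Strat := .move 800 n356 (.cons 801 n4950 .nil)
noncomputable def n4952 : Strat := .move 841 n4949 (.cons 880 n4951 .nil)
noncomputable def n4953 : Strat := .move 883 n4300 (.cons 880 n856 .nil)
noncomputable def n4954 : Strat := .move 882 n4942 (.cons 883 n4952 (.cons 880 n4946 (.cons 841 n4953 .nil)))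
noncomputable def n4955 : Strat := .move 839 n4921 (.cons 919 n4926 (.cons 880 n4929 (.cons 757 n4931 (.cons 963 n4935 (.cons 759 n4941 (.cons 922 n4948 (.cons 798 n4954 .nil)))))))
noncomputable def n4956 : Strat := .move 839 n1061 (.cons 878 n1057 .nil)
noncomputable def n4957 : Strat := .move 841 n1318 (.cons 964 n424 .nil)
noncomputable def n4958 : Strat := .move 923 n1278 (.cons 924 n4957 .nil)
noncomputable def n4959 : Strat := .move 841 n1318 (.cons 964 n786 .nil)
noncomputable def n4960 : Strat := .move 923 n1278 (.cons 924 n4959 .nil)
noncomputable def n4961 : Strat := .win 921 4 879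
noncomputable def n4962 : Strat := .move 920 n4961 (.cons 921 n418 .nil)
noncomputable def n4963 : Strat := .move 883 n1342 (.cons 923 n4962 .nil)
noncomputable def n4964 : Strat := .move 882 n992 (.cons 878 n4958 (.cons 842 n4960 (.cons 841 n4963 .nil)))
noncomputable def n4965 : Strat := .move 878 n1294 (.cons 877 n1065 .nil)
noncomputable def n4966 : Strat := .move 839 n4965 (.cons 841 n1057 .nil)
noncomputable def n4967 : Strat := .move 839 n1059 (.cons 961 n1058 .nil)
noncomputable def n4968 : Strat := .move 882 n418 (.cons 919 n726 .nil)
noncomputable def n4969 : Strat := .move 839 n1059 (.cons 961 n4968 .nil)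
noncomputable def n4970 : Strat := .move 839 n1058 (.cons 757 n4968 .nil)
noncomputable def n4971 : Strat := .win 878 4 877
noncomputable def n4972 : Strat := .move 918 n3620 (.cons 917 n4971 .nil)
noncomputable def n4973 : Strat := .move 919 n1304 (.cons 882 n4972 .nil)
noncomputable def n4974 : Strat := .move 920 n4967 (.cons 757 n4969 (.cons 961 n4970 (.cons 839 n4973 .nil)))
noncomputable def n4975 : Strat := .move 839 n726 (.cons 883 n1057 .nil)
noncomputable def n4976 : Strat := .move 882 n4975 (.cons 839 n4958 .nil)
noncomputable def n4977 : Strat := .win 882 5 838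
noncomputable def n4978 : Strat := .win 839 4 838
noncomputable def n4979 : Strat := .move 842 n4977 (.cons 882 n4978 .nil)
noncomputable def n4980 : Strat := .move 841 n786 (.cons 878 n4979 .nil)
noncomputable def n4981 : Strat := .move 798 n4956 (.cons 839 n4964 (.cons 842 n4966 (.cons 841 n4974 (.cons 878 n4976 (.cons 920 n4980 .nil)))))
noncomputable def n4982 : Strat := .move 883 n4961 (.cons 921 n1342 .nil)
noncomputable def n4983 : Strat := .move 920 n418 (.cons 919 n4982 .nil)
noncomputable def n4984 : Strat := .move 882 n1268 (.cons 841 n4983 .nil)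
noncomputable def n4985 : Strat := .move 918 n1314 (.cons 917 n1313 .nil)
noncomputable def n4986 : Strat := .move 877 n1312 (.cons 839 n4985 .nil)
noncomputable def n4987 : Strat := .move 878 n433 (.cons 841 n4986 .nil)
noncomputable def n4988 : Strat := .move 882 n1035 (.cons 883 n1319 .nil)
noncomputable def n4989 : Strat := .move 839 n1038 (.cons 842 n4988 .nil)
noncomputable def n4990 : Strat := .move 841 n786 (.cons 878 n4989 .nil)
noncomputable def n4991 : Strat := .move 839 n1320 (.cons 841 n4944 .nil)
noncomputable def n4992 : Strat := .move 839 n726 (.cons 883 n4944 .nil)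
noncomputable def n4993 : Strat := .move 882 n1321 (.cons 883 n4991 (.cons 964 n4992 (.cons 839 n4958 .nil)))
noncomputable def n4994 : Strat := .move 921 n1264 (.cons 839 n1265 .nil)
noncomputable def n4995 : Strat := .move 839 n1737 (.cons 1002 n3587 .nil)
noncomputable def n4996 : Strat := .move 961 n1731 (.cons 1003 n4995 .nil)
noncomputable def n4997 : Strat := .move 920 n4996 (.cons 961 n4973 .nil)
noncomputable def n4998 : Strat := .move 920 n4968 (.cons 883 n1259 .nil)
noncomputable def n4999 : Strat := .move 839 n3631 (.cons 921 n4998 .nil)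
noncomputable def n5000 : Strat := .win 921 3 839
noncomputable def n5001 : Strat := .move 1003 n4451 (.cons 961 n5000 .nil)
noncomputable def n5002 : Strat := .move 920 n5001 (.cons 921 n4973 .nil)
noncomputable def n5003 : Strat := .move 962 n4994 (.cons 921 n4997 (.cons 1003 n4999 (.cons 839 n5002 .nil)))
noncomputable def n5004 : Strat := .move 880 n4981 (.cons 839 n4984 (.cons 882 n4987 (.cons 919 n4990 (.cons 878 n4993 (.cons 841 n5003 .nil)))))
noncomputable def n5005 : Strat := .move 839 n356 (.cons 801 n353 .nil)
noncomputable def n5006 : Strat := .move 841 n425 (.cons 963 n5005 .nil)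
noncomputable def n5007 : Strat := .move 800 n143 (.cons 759 n5006 .nil)
noncomputable def n5008 : Strat := .move 963 n153 (.cons 1005 n3983 .nil)
noncomputable def n5009 : Strat := .move 964 n152 (.cons 923 n5008 .nil)
noncomputable def n5010 : Strat := .move 921 n36 (.cons 962 n5009 .nil)
noncomputable def n5011 : Strat := .move 922 n4413 (.cons 880 n5007 (.cons 878 n5010 .nil))
noncomputable def n5012 : Strat := .move 923 n3524 (.cons 880 n18 .nil)
noncomputable def n5013 : Strat := .move 878 n1065 (.cons 841 n5012 .nil)
noncomputable def n5014 : Strat := .move 839 n456 (.cons 963 n5013 .nil)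
noncomputable def n5015 : Strat := .move 798 n150 (.cons 757 n5014 .nil)
noncomputable def n5016 : Strat := .move 923 n18 (.cons 964 n4280 .nil)
noncomputable def n5017 : Strat := .move 921 n36 (.cons 962 n5016 .nil)
noncomputable def n5018 : Strat := .move 922 n4911 (.cons 759 n5015 (.cons 798 n5017 .nil))
noncomputable def n5019 : Strat := .move 878 n4827 (.cons 880 n2482 .nil)
noncomputable def n5020 : Strat := .move 841 n425 (.cons 963 n5019 .nil)
noncomputable def n5021 : Strat := .move 800 n143 (.cons 759 n5020 .nil)
noncomputable def n5022 : Strat := .move 924 n157 (.cons 925 n4410 .nil)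
noncomputable def n5023 : Strat := .move 880 n412 (.cons 878 n5022 .nil)
noncomputable def n5024 : Strat := .move 923 n18 (.cons 964 n5023 .nil)
noncomputable def n5025 : Strat := .move 922 n5021 (.cons 759 n5024 (.cons 880 n3994 .nil))
noncomputable def n5026 : Strat := .move 759 n3652 (.cons 718 n281 .nil)
noncomputable def n5027 : Strat := .move 800 n356 (.cons 801 n5026 .nil)
noncomputable def n5028 : Strat := .move 841 n353 (.cons 878 n5027 .nil)
noncomputable def n5029 : Strat := .move 882 n418 (.cons 919 n1035 .nil)
noncomputable def n5030 : Strat := .move 920 n4943 (.cons 961 n5029 .nil)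
noncomputable def n5031 : Strat := .move 880 n1038 (.cons 842 n5030 .nil)
noncomputable def n5032 : Strat := .move 841 n353 (.cons 878 n5031 .nil)
noncomputable def n5033 : Strat := .move 839 n5028 (.cons 759 n5032 (.cons 841 n4926 .nil))
noncomputable def n5034 : Strat := .move 798 n150 (.cons 757 n617 .nil)
noncomputable def n5035 : Strat := .move 920 n884 (.cons 878 n4259 .nil)
noncomputable def n5036 : Strat := .move 923 n18 (.cons 964 n5035 .nil)
noncomputable def n5037 : Strat := .move 921 n36 (.cons 962 n5036 .nil)
noncomputable def n5038 : Strat := .move 922 n4911 (.cons 800 n1108 (.cons 798 n5007 (.cons 839 n5034 (.cons 963 n5037 .nil))))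
noncomputable def n5039 : Strat := .move 882 n424 (.cons 842 n744 .nil)
noncomputable def n5040 : Strat := .move 880 n786 (.cons 878 n5039 .nil)
noncomputable def n5041 : Strat := .move 923 n1278 (.cons 924 n18 .nil)
noncomputable def n5042 : Strat := .move 882 n424 (.cons 842 n5041 .nil)
noncomputable def n5043 : Strat := .move 880 n786 (.cons 878 n5042 .nil)
noncomputable def n5044 : Strat := .move 841 n4409 (.cons 759 n5040 (.cons 963 n5043 .nil))
noncomputable def n5045 : Strat := .move 882 n424 (.cons 842 n260 .nil)
noncomputable def n5046 : Strat := .move 963 n503 (.cons 921 n5045 .nil)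
noncomputable def n5047 : Strat := .move 880 n786 (.cons 878 n5046 .nil)
noncomputable def n5048 : Strat := .move 841 n5043 (.cons 880 n3968 (.cons 923 n5047 .nil))
noncomputable def n5049 : Strat := .move 922 n5044 (.cons 880 n5034 (.cons 800 n5048 (.cons 963 n4413 .nil)))
noncomputable def n5050 : Strat := .move 881 n4912 (.cons 878 n4955 (.cons 922 n5004 (.cons 798 n5011 (.cons 882 n5018 (.cons 921 n5025 (.cons 923 n5033 (.cons 880 n5038 (.cons 839 n5049 .nil))))))))
noncomputable def n5051 : Strat := .move 878 n1785 (.cons 756 n4007 .nil)
noncomputable def n5052 : Strat := .move 919 n1722 (.cons 960 n5051 .nil)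
noncomputable def n5053 : Strat := .move 797 n4836 (.cons 798 n5052 .nil)
noncomputable def n5054 : Strat := .move 841 n353 (.cons 878 n1916 .nil)
noncomputable def n5055 : Strat := .move 961 n3587 (.cons 798 n5054 .nil)
noncomputable def n5056 : Strat := .move 1002 n4455 (.cons 1042 n4878 .nil)
noncomputable def n5057 : Strat := .move 1001 n4454 (.cons 960 n5056 .nil)
noncomputable def n5058 : Strat := .move 961 n3587 (.cons 798 n5057 .nil)
noncomputable def n5059 : Strat := .move 842 n842 (.cons 802 n1915 .nil)
noncomputable def n5060 : Strat := .move 801 n840 (.cons 800 n5059 .nil)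
noncomputable def n5061 : Strat := .move 841 n353 (.cons 878 n5060 .nil)
noncomputable def n5062 : Strat := .move 839 n5055 (.cons 841 n5058 (.cons 798 n5061 .nil))
noncomputable def n5063 : Strat := .move 839 n1059 (.cons 961 n1193 .nil)
noncomputable def n5064 : Strat := .move 798 n1172 (.cons 757 n5063 .nil)
noncomputable def n5065 : Strat := .move 797 n4836 (.cons 798 n4706 (.cons 796 n5064 .nil))
noncomputable def n5066 : Strat := .move 797 n841 (.cons 796 n1916 .nil)
noncomputable def n5067 : Strat := .move 841 n353 (.cons 878 n5066 .nil)
noncomputable def n5068 : Strat := .move 839 n4844 (.cons 798 n5067 (.cons 797 n5061 .nil))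
noncomputable def n5069 : Strat := .move 961 n1731 (.cons 1003 n4745 .nil)
noncomputable def n5070 : Strat := .move 797 n1732 (.cons 921 n4706 .nil)
noncomputable def n5071 : Strat := .move 923 n4783 (.cons 960 n884 .nil)
noncomputable def n5072 : Strat := .move 922 n4750 (.cons 881 n5071 .nil)
noncomputable def n5073 : Strat := .move 921 n4449 (.cons 797 n5072 .nil)
noncomputable def n5074 : Strat := .move 961 n1731 (.cons 1003 n5073 .nil)
noncomputable def n5075 : Strat := .move 923 n4784 (.cons 924 n884 .nil)
noncomputable def n5076 : Strat := .move 922 n4750 (.cons 881 n5075 .nil)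
noncomputable def n5077 : Strat := .move 921 n4449 (.cons 797 n5076 .nil)
noncomputable def n5078 : Strat := .move 961 n1731 (.cons 1003 n5077 .nil)
noncomputable def n5079 : Strat := .move 922 n4750 (.cons 881 n4691 .nil)
noncomputable def n5080 : Strat := .move 921 n4754 (.cons 961 n5079 .nil)
noncomputable def n5081 : Strat := .move 962 n5069 (.cons 1003 n5070 (.cons 919 n5074 (.cons 960 n5078 (.cons 921 n4904 (.cons 797 n5080 .nil)))))
noncomputable def n5082 : Strat := .move 920 n5053 (.cons 797 n5062 (.cons 962 n5065 (.cons 960 n5068 (.cons 841 n4733 (.cons 878 n4883 (.cons 798 n5081 .nil))))))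
noncomputable def n5083 : Strat := .move 962 n3717 (.cons 920 n4232 .nil)
noncomputable def n5084 : Strat := .move 921 n1336 (.cons 756 n5083 .nil)
noncomputable def n5085 : Strat := .move 841 n841 (.cons 796 n353 .nil)
noncomputable def n5086 : Strat := .move 839 n5085 (.cons 878 n4394 .nil)
noncomputable def n5087 : Strat := .move 878 n433 (.cons 841 n1782 .nil)
noncomputable def n5088 : Strat := .move 919 n1281 (.cons 918 n1785 .nil)
noncomputable def n5089 : Strat := .move 878 n433 (.cons 841 n5088 .nil)
noncomputable def n5090 : Strat := .move 839 n1038 (.cons 842 n841 .nil)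
noncomputable def n5091 : Strat := .move 841 n786 (.cons 878 n5090 .nil)
noncomputable def n5092 : Strat := .move 880 n5084 (.cons 922 n5086 (.cons 962 n5087 (.cons 921 n5089 (.cons 756 n5091 .nil))))
noncomputable def n5093 : Strat := .move 882 n424 (.cons 842 n1319 .nil)
noncomputable def n5094 : Strat := .move 841 n786 (.cons 878 n5093 .nil)
noncomputable def n5095 : Strat := .move 962 n1264 (.cons 839 n3717 .nil)
noncomputable def n5096 : Strat := .move 921 n1336 (.cons 756 n5095 .nil)
noncomputable def n5097 : Strat := .move 880 n5086 (.cons 839 n5094 (.cons 841 n5096 .nil))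
noncomputable def n5098 : Strat := .move 841 n786 (.cons 878 n5084 .nil)
noncomputable def n5099 : Strat := .move 880 n5098 (.cons 921 n5094 (.cons 841 n5084 .nil))
noncomputable def n5100 : Strat := .move 839 n841 (.cons 796 n353 .nil)
noncomputable def n5101 : Strat := .move 841 n425 (.cons 963 n5100 .nil)
noncomputable def n5102 : Strat := .move 800 n143 (.cons 759 n5101 .nil)
noncomputable def n5103 : Strat := .move 920 n3955 (.cons 964 n3957 .nil)
noncomputable def n5104 : Strat := .move 921 n36 (.cons 962 n5103 .nil)
noncomputable def n5105 : Strat := .move 922 n3985 (.cons 1003 n5102 (.cons 800 n4312 (.cons 963 n5104 .nil)))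
noncomputable def n5106 : Strat := .move 962 n4232 (.cons 922 n3717 .nil)
noncomputable def n5107 : Strat := .move 920 n1335 (.cons 962 n3913 .nil)
noncomputable def n5108 : Strat := .move 756 n1725 (.cons 880 n1769 .nil)
noncomputable def n5109 : Strat := .move 921 n5106 (.cons 922 n5107 (.cons 962 n5108 .nil))
noncomputable def n5110 : Strat := .move 880 n786 (.cons 878 n5093 .nil)
noncomputable def n5111 : Strat := .move 839 n841 (.cons 796 n5027 .nil)
noncomputable def n5112 : Strat := .move 841 n4393 (.cons 839 n5110 (.cons 878 n5111 .nil))
noncomputable def n5113 : Strat := .move 797 n5092 (.cons 922 n5097 (.cons 839 n5099 (.cons 880 n5105 (.cons 878 n5109 (.cons 921 n5112 .nil)))))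
noncomputable def n5114 : Strat := .move 797 n3985 (.cons 1003 n5102 (.cons 800 n4312 (.cons 963 n5104 .nil)))
noncomputable def n5115 : Strat := .move 922 n5114 (.cons 797 n5007 (.cons 963 n5037 (.cons 878 n617 .nil)))
noncomputable def n5116 : Strat := .move 797 n4393 (.cons 839 n5110 (.cons 878 n5111 .nil))
noncomputable def n5117 : Strat := .win 882 7 799
noncomputable def n5118 : Strat := .move 964 n1433 (.cons 922 n5117 .nil)
noncomputable def n5119 : Strat := .move 880 n424 (.cons 842 n786 .nil)
noncomputable def n5120 : Strat := .move 882 n1318 (.cons 964 n5119 .nil)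
noncomputable def n5121 : Strat := .move 882 n1278 (.cons 924 n424 .nil)
noncomputable def n5122 : Strat := .move 880 n786 (.cons 878 n5121 .nil)
noncomputable def n5123 : Strat := .move 922 n18 (.cons 964 n4828 .nil)
noncomputable def n5124 : Strat := .move 923 n5118 (.cons 922 n5120 (.cons 964 n5122 (.cons 882 n5123 .nil)))
noncomputable def n5125 : Strat := .move 878 n2482 (.cons 839 n4827 .nil)
noncomputable def n5126 : Strat := .move 839 n841 (.cons 796 n3735 .nil)
noncomputable def n5127 : Strat := .move 797 n4393 (.cons 796 n5125 (.cons 839 n4408 (.cons 878 n5126 .nil)))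
noncomputable def n5128 : Strat := .move 878 n4827 (.cons 880 n1789 .nil)
noncomputable def n5129 : Strat := .move 797 n4393 (.cons 796 n5125 (.cons 878 n5111 (.cons 839 n5128 .nil)))
noncomputable def n5130 : Strat := .move 839 n1035 (.cons 883 n3565 .nil)
noncomputable def n5131 : Strat := .move 839 n1035 (.cons 883 n4951 .nil)
noncomputable def n5132 : Strat := .move 880 n1278 (.cons 924 n424 .nil)
noncomputable def n5133 : Strat := .move 923 n1318 (.cons 964 n5132 .nil)
noncomputable def n5134 : Strat := .move 882 n5130 (.cons 924 n5131 (.cons 839 n5133 .nil))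
noncomputable def n5135 : Strat := .move 839 n353 (.cons 878 n5027 .nil)
noncomputable def n5136 : Strat := .move 841 n5116 (.cons 839 n5124 (.cons 922 n5127 (.cons 923 n5129 (.cons 878 n5134 (.cons 880 n5135 .nil)))))
noncomputable def n5137 : Strat := .move 922 n5017 (.cons 878 n3985 (.cons 921 n5021 .nil))
noncomputable def n5138 : Strat := .win 921 0 877
noncomputable def n5139 : Strat := .move 922 n5138 (.cons 921 n431 .nil)
noncomputable def n5140 : Strat := .move 877 n1312 (.cons 839 n5139 .nil)
noncomputable def n5141 : Strat := .move 878 n433 (.cons 841 n5140 .nil)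
noncomputable def n5142 : Strat := .move 962 n4232 (.cons 922 n1264 .nil)
noncomputable def n5143 : Strat := .move 883 n415 (.cons 920 n1341 .nil)
noncomputable def n5144 : Strat := .move 882 n5143 (.cons 839 n419 (.cons 920 n1343 (.cons 883 n3971 .nil)))
noncomputable def n5145 : Strat := .move 962 n4232 (.cons 922 n1265 .nil)
noncomputable def n5146 : Strat := .move 921 n5142 (.cons 922 n1266 (.cons 962 n5144 (.cons 839 n5145 .nil)))
noncomputable def n5147 : Strat := .move 877 n4508 (.cons 922 n1312 .nil)
noncomputable def n5148 : Strat := .move 922 n430 (.cons 877 n431 .nil)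
noncomputable def n5149 : Strat := .win 922 0 878
noncomputable def n5150 : Strat := .move 923 n1278 (.cons 924 n5149 .nil)
noncomputable def n5151 : Strat := .move 882 n5150 (.cons 922 n1328 .nil)
noncomputable def n5152 : Strat := .move 878 n5147 (.cons 839 n5148 (.cons 922 n4986 (.cons 877 n5151 .nil)))
noncomputable def n5153 : Strat := .move 921 n5142 (.cons 839 n5145 (.cons 962 n5152 (.cons 922 n1266 .nil)))
noncomputable def n5154 : Strat := .move 880 n5141 (.cons 923 n4987 (.cons 878 n5146 (.cons 841 n5153 (.cons 839 n3932 .nil))))
noncomputable def n5155 : Strat := .move 797 n5086 (.cons 839 n5094 (.cons 841 n5096 .nil))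
noncomputable def n5156 : Strat := .move 882 n726 (.cons 883 n1507 .nil)
noncomputable def n5157 : Strat := .move 797 n1336 (.cons 756 n1506 .nil)
noncomputable def n5158 : Strat := .move 921 n1026 (.cons 962 n5157 .nil)
noncomputable def n5159 : Strat := .move 920 n4968 (.cons 883 n3632 .nil)
noncomputable def n5160 : Strat := .move 962 n3631 (.cons 921 n5159 .nil)
noncomputable def n5161 : Strat := .move 839 n4913 (.cons 923 n5156 (.cons 882 n5158 (.cons 841 n5160 .nil)))
noncomputable def n5162 : Strat := .move 962 n3717 (.cons 920 n1265 .nil)
noncomputable def n5163 : Strat := .move 921 n1336 (.cons 756 n5162 .nil)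
noncomputable def n5164 : Strat := .move 797 n5094 (.cons 878 n5163 .nil)
noncomputable def n5165 : Strat := .move 878 n1699 (.cons 919 n433 .nil)
noncomputable def n5166 : Strat := .move 756 n1663 (.cons 921 n5165 .nil)
noncomputable def n5167 : Strat := .move 756 n1663 (.cons 921 n2141 .nil)
noncomputable def n5168 : Strat := .move 921 n1336 (.cons 756 n1332 .nil)
noncomputable def n5169 : Strat := .move 919 n1785 (.cons 756 n1281 .nil)
noncomputable def n5170 : Strat := .move 878 n433 (.cons 841 n5169 .nil)
noncomputable def n5171 : Strat := .move 797 n5166 (.cons 919 n5167 (.cons 841 n5168 (.cons 921 n5170 (.cons 756 n4987 .nil))))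
noncomputable def n5172 : Strat := .move 920 n1722 (.cons 960 n1304 .nil)
noncomputable def n5173 : Strat := .move 919 n1723 (.cons 878 n5172 .nil)
noncomputable def n5174 : Strat := .move 715 n1833 (.cons 839 n1703 .nil)
noncomputable def n5175 : Strat := .move 756 n5173 (.cons 919 n5174 .nil)
noncomputable def n5176 : Strat := .move 839 n726 (.cons 883 n1506 .nil)
noncomputable def n5177 : Strat := .move 882 n5176 (.cons 839 n4958 (.cons 842 n1343 .nil))
noncomputable def n5178 : Strat := .move 841 n786 (.cons 878 n4407 .nil)
noncomputable def n5179 : Strat := .move 797 n4980 (.cons 841 n5175 (.cons 878 n5177 (.cons 839 n5178 (.cons 882 n5170 .nil))))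
noncomputable def n5180 : Strat := .move 919 n1252 (.cons 918 n1304 .nil)
noncomputable def n5181 : Strat := .move 921 n1026 (.cons 962 n5180 .nil)
noncomputable def n5182 : Strat := .move 839 n4968 (.cons 883 n5181 (.cons 919 n3633 .nil))
noncomputable def n5183 : Strat := .move 921 n417 (.cons 883 n1337 .nil)
noncomputable def n5184 : Strat := .move 882 n418 (.cons 919 n5183 .nil)
noncomputable def n5185 : Strat := .move 839 n1737 (.cons 1002 n3631 .nil)
noncomputable def n5186 : Strat := .move 962 n1731 (.cons 1003 n5185 .nil)
noncomputable def n5187 : Strat := .win 839 3 838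
noncomputable def n5188 : Strat := .move 1002 n5187 (.cons 839 n4741 .nil)
noncomputable def n5189 : Strat := .move 921 n4449 (.cons 797 n1264 .nil)
noncomputable def n5190 : Strat := .move 962 n1731 (.cons 1003 n5189 .nil)
noncomputable def n5191 : Strat := .move 1002 n4741 (.cons 960 n4878 .nil)
noncomputable def n5192 : Strat := .move 961 n5186 (.cons 962 n5188 (.cons 1002 n5190 (.cons 839 n5191 .nil)))
noncomputable def n5193 : Strat := .move 920 n5182 (.cons 839 n5184 (.cons 883 n4973 (.cons 919 n5192 .nil)))
noncomputable def n5194 : Strat := .move 880 n5155 (.cons 878 n5161 (.cons 839 n5164 (.cons 882 n5171 (.cons 921 n5179 (.cons 756 n4990 (.cons 841 n5193 .nil))))))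
noncomputable def n5195 : Strat := .move 921 n36 (.cons 962 n4938 .nil)
noncomputable def n5196 : Strat := .move 880 n786 (.cons 878 n5195 .nil)
noncomputable def n5197 : Strat := .move 841 n4409 (.cons 800 n5196 .nil)
noncomputable def n5198 : Strat := .move 923 n4279 (.cons 920 n18 .nil)
noncomputable def n5199 : Strat := .move 878 n4827 (.cons 880 n5198 .nil)
noncomputable def n5200 : Strat := .move 921 n36 (.cons 962 n5199 .nil)
noncomputable def n5201 : Strat := .move 841 n4409 (.cons 963 n5200 .nil)
noncomputable def n5202 : Strat := .move 922 n5044 (.cons 800 n5048 (.cons 882 n5197 (.cons 924 n5201 (.cons 963 n4413 (.cons 880 n3985 .nil)))))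
noncomputable def n5203 : Strat := .move 797 n1336 (.cons 756 n841 .nil)
noncomputable def n5204 : Strat := .move 921 n1026 (.cons 962 n5203 .nil)
noncomputable def n5205 : Strat := .move 880 n1038 (.cons 842 n5204 .nil)
noncomputable def n5206 : Strat := .move 839 n353 (.cons 878 n5205 .nil)
noncomputable def n5207 : Strat := .move 839 n5205 (.cons 880 n5027 .nil)
noncomputable def n5208 : Strat := .move 841 n5206 (.cons 878 n5207 (.cons 880 n5135 (.cons 839 n4420 .nil)))
noncomputable def n5209 : Strat := .move 759 n30 (.cons 800 n505 .nil)
noncomputable def n5210 : Strat := .move 923 n412 (.cons 878 n18 .nil)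
noncomputable def n5211 : Strat := .move 878 n1294 (.cons 877 n431 .nil)
noncomputable def n5212 : Strat := .move 882 n726 (.cons 883 n5041 .nil)
noncomputable def n5213 : Strat := .move 878 n1281 (.cons 918 n1294 .nil)
noncomputable def n5214 : Strat := .move 882 n1282 (.cons 920 n726 .nil)
noncomputable def n5215 : Strat := .move 919 n5213 (.cons 877 n5214 .nil)
noncomputable def n5216 : Strat := .move 880 n5210 (.cons 964 n5211 (.cons 878 n5212 (.cons 923 n5215 .nil)))
noncomputable def n5217 : Strat := .move 963 n439 (.cons 1004 n146 .nil)
noncomputable def n5218 : Strat := .move 962 n145 (.cons 921 n5217 .nil)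
noncomputable def n5219 : Strat := .move 880 n5211 (.cons 923 n5218 .nil)
noncomputable def n5220 : Strat := .move 880 n5218 (.cons 962 n5215 .nil)
noncomputable def n5221 : Strat := .move 839 n5209 (.cons 921 n5216 (.cons 964 n5219 (.cons 923 n5220 .nil)))
noncomputable def n5222 : Strat := .move 880 n430 (.cons 877 n431 .nil)
noncomputable def n5223 : Strat := .move 920 n4689 (.cons 919 n3896 .nil)
noncomputable def n5224 : Strat := .move 877 n4009 (.cons 880 n5223 .nil)
noncomputable def n5225 : Strat := .move 923 n4279 (.cons 920 n3524 .nil)
noncomputable def n5226 : Strat := .move 919 n875 (.cons 877 n3956 .nil)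
noncomputable def n5227 : Strat := .move 920 n4003 (.cons 923 n5226 .nil)
noncomputable def n5228 : Strat := .move 878 n5222 (.cons 923 n5224 (.cons 877 n5225 (.cons 880 n5227 .nil)))
noncomputable def n5229 : Strat := .move 921 n36 (.cons 962 n5228 .nil)
noncomputable def n5230 : Strat := .move 964 n153 (.cons 1005 n503 .nil)
noncomputable def n5231 : Strat := .win 962 1 839
noncomputable def n5232 : Strat := .win 1044 1 880
noncomputable def n5233 : Strat := .win 1046 6 881
noncomputable def n5234 : Strat := .win 964 6 840
noncomputable def n5235 : Strat := .move 1005 n5233 (.cons 1046 n5234 .nil)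
noncomputable def n5236 : Strat := .move 1004 n5232 (.cons 1044 n5235 .nil)
noncomputable def n5237 : Strat := .move 1003 n5231 (.cons 962 n5236 .nil)
noncomputable def n5238 : Strat := .win 1085 1 921
noncomputable def n5239 : Strat := .win 1003 1 880
noncomputable def n5240 : Strat := .move 1044 n5238 (.cons 1085 n5239 .nil)
noncomputable def n5241 : Strat := .win 1087 6 922
noncomputable def n5242 : Strat := .win 1005 6 881
noncomputable def n5243 : Strat := .move 1046 n5241 (.cons 1087 n5242 .nil)
noncomputable def n5244 : Strat := .move 1045 n5240 (.cons 1003 n5243 .nil)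
noncomputable def n5245 : Strat := .win 921 7 880
noncomputable def n5246 : Strat := .move 880 n5245 (.cons 921 n441 .nil)
noncomputable def n5247 : Strat := .move 1045 n5240 (.cons 1003 n5246 .nil)
noncomputable def n5248 : Strat := .move 1004 n5235 (.cons 964 n5244 (.cons 1046 n5247 .nil))
noncomputable def n5249 : Strat := .move 880 n442 (.cons 1045 n441 .nil)
noncomputable def n5250 : Strat := .move 1004 n5235 (.cons 964 n5249 .nil)
noncomputable def n5251 : Strat := .move 921 n36 (.cons 962 n5250 .nil)
noncomputable def n5252 : Strat := .move 963 n5230 (.cons 964 n147 (.cons 921 n5237 (.cons 962 n5248 (.cons 1003 n5251 .nil))))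
noncomputable def n5253 : Strat := .move 922 n5221 (.cons 921 n5024 (.cons 964 n5229 (.cons 880 n4312 (.cons 923 n5252 .nil))))
noncomputable def n5254 : Strat := .move 922 n4828 (.cons 759 n5195 .nil)
noncomputable def n5255 : Strat := .move 841 n5093 (.cons 842 n5254 (.cons 923 n4419 .nil))
noncomputable def n5256 : Strat := .move 882 n5143 (.cons 839 n3971 .nil)
noncomputable def n5257 : Strat := .move 921 n5142 (.cons 922 n1266 (.cons 962 n5256 (.cons 839 n5145 .nil)))
noncomputable def n5258 : Strat := .move 797 n5176 (.cons 839 n3971 (.cons 841 n1343 .nil))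
noncomputable def n5259 : Strat := .move 839 n1201 (.cons 841 n726 .nil)
noncomputable def n5260 : Strat := .move 920 n1714 (.cons 755 n418 .nil)
noncomputable def n5261 : Strat := .move 796 n5259 (.cons 883 n5260 .nil)
noncomputable def n5262 : Strat := .move 797 n1343 (.cons 883 n3971 (.cons 923 n5261 .nil))
noncomputable def n5263 : Strat := .move 964 n1275 (.cons 1005 n1433 .nil)
noncomputable def n5264 : Strat := .move 923 n1278 (.cons 924 n5263 .nil)
noncomputable def n5265 : Strat := .move 839 n356 (.cons 801 n1035 .nil)
noncomputable def n5266 : Strat := .move 800 n4950 (.cons 922 n5265 .nil)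
noncomputable def n5267 : Strat := .move 841 n424 (.cons 842 n5266 .nil)
noncomputable def n5268 : Strat := .move 882 n5258 (.cons 842 n5262 (.cons 922 n1321 (.cons 841 n5264 (.cons 923 n5267 .nil))))
noncomputable def n5269 : Strat := .move 797 n841 (.cons 796 n1336 .nil)
noncomputable def n5270 : Strat := .move 841 n1038 (.cons 842 n5269 .nil)
noncomputable def n5271 : Strat := .move 921 n1026 (.cons 962 n5270 .nil)
noncomputable def n5272 : Strat := .move 841 n1038 (.cons 842 n5027 .nil)
noncomputable def n5273 : Strat := .move 839 n5271 (.cons 796 n5160 (.cons 921 n5272 .nil))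
noncomputable def n5274 : Strat := .move 921 n4232 (.cons 922 n1264 .nil)
noncomputable def n5275 : Strat := .move 921 n4232 (.cons 922 n1265 .nil)
noncomputable def n5276 : Strat := .move 923 n18 (.cons 964 n5022 .nil)
noncomputable def n5277 : Strat := .move 922 n3984 (.cons 963 n5276 .nil)
noncomputable def n5278 : Strat := .move 962 n5274 (.cons 839 n5275 (.cons 921 n5277 (.cons 922 n4994 .nil)))
noncomputable def n5279 : Strat := .move 839 n1026 (.cons 962 n5157 .nil)
noncomputable def n5280 : Strat := .move 963 n3983 (.cons 759 n1444 .nil)
noncomputable def n5281 : Strat := .move 922 n4938 (.cons 964 n5280 .nil)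
noncomputable def n5282 : Strat := .move 921 n5142 (.cons 922 n5279 (.cons 839 n5145 (.cons 962 n5281 .nil)))
noncomputable def n5283 : Strat := .move 883 n1341 (.cons 839 n4962 .nil)
noncomputable def n5284 : Strat := .move 882 n1343 (.cons 883 n5264 (.cons 923 n5283 .nil))
noncomputable def n5285 : Strat := .move 880 n5146 (.cons 839 n5255 (.cons 922 n5161 (.cons 919 n5257 (.cons 921 n5268 (.cons 924 n5273 (.cons 883 n5278 (.cons 882 n5282 (.cons 841 n5284 .nil))))))))
noncomputable def n5286 : Strat := .move 881 n5113 (.cons 797 n5011 (.cons 880 n5115 (.cons 921 n5136 (.cons 882 n5137 (.cons 800 n5154 (.cons 922 n5194 (.cons 839 n5202 (.cons 964 n5208 (.cons 841 n5253 (.cons 878 n5285 .nil))))))))))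
noncomputable def n5287 : Strat := .move 879 n4360 (.cons 920 n4378 (.cons 881 n4401 (.cons 800 n4402 (.cons 716 n4423 (.cons 839 n4424 (.cons 919 n4464 (.cons 757 n4480 (.cons 714 n4492 (.cons 842 n4556 (.cons 715 n4592 (.cons 755 n4608 (.cons 921 n4660 (.cons 841 n4812 (.cons 756 n4834 (.cons 878 n4908 (.cons 797 n5050 (.cons 880 n5082 (.cons 798 n5286 .nil))))))))))))))))))
noncomputable def n5288 : Strat := .move 838 n3491 (.cons 800 n3642 (.cons 798 n3664 (.cons 841 n3724 (.cons 881 n3742 (.cons 879 n3751 (.cons 796 n3761 (.cons 882 n3787 (.cons 878 n3796 (.cons 880 n3810 (.cons 836 n3815 (.cons 877 n3822 (.cons 839 n4242 (.cons 797 n4351 (.cons 837 n5287 .nil))))))))))))))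
noncomputable def n5289 : Strat := .move 799 n135 (.cons 720 n229 (.cons 714 n268 (.cons 921 n401 (.cons 755 n466 (.cons 880 n638 (.cons 923 n715 (.cons 675 n779 (.cons 802 n826 (.cons 757 n867 (.cons 841 n904 (.cons 839 n981 (.cons 800 n1002 (.cons 797 n1079 (.cons 882 n1212 (.cons 717 n1350 (.cons 760 n1374 (.cons 716 n1432 (.cons 798 n1513 (.cons 922 n1569 (.cons 759 n1578 (.cons 718 n1589 (.cons 881 n3458 (.cons 758 n5288 .nil)))))))))))))))))))))))

end Vale.Agent.Snaky.R3_0
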