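import Vale.Agent.Snaky.Assemble

namespace Vale.Agent.Snaky.R3_1

open Vale.Agent.Snaky

noncomputable def n0 : Strat := .win 716 7 716
noncomputable def n1 : Strat := .win 798 7 757
noncomputable def n2 : Strat := .win 718 3 717
noncomputable def n3 : Strat := .win 800 3 758
noncomputable def n4 : Strat := .move 759 n2 (.cons 718 n3 .nil)
noncomputable def n5 : Strat := .move 922 n1 (.cons 798 n4 .nil)
noncomputable def n6 : Strat := .move 757 n0 (.cons 716 n5 .nil)
noncomputable def n7 : Strat := .win 921 1 757
noncomputable def n8 : Strat := .win 839 1 716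
noncomputable def n9 : Strat := .win 923 6 758
noncomputable def n10 : Strat := .win 841 6 717
noncomputable def n11 : Strat := .move 882 n9 (.cons 923 n10 .nil)
noncomputable def n12 : Strat := .move 717 n8 (.cons 839 n11 .nil)
noncomputable def n13 : Strat := .move 880 n7 (.cons 921 n12 .nil)
noncomputable def n14 : Strat := .move 758 n6 (.cons 757 n13 .nil)
noncomputable def n15 : Strat := .win 759 3 758
noncomputable def n16 : Strat := .win 841 3 799
noncomputable def n17 : Strat := .win 921 1 798
noncomputable def n18 : Strat := .win 1003 1 839
noncomputable def n19 : Strat := .move 962 n17 (.cons 921 n18 .nil)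
noncomputable def n20 : Strat := .move 963 n16 (.cons 841 n19 .nil)
noncomputable def n21 : Strat := .move 800 n15 (.cons 759 n20 .nil)
noncomputable def n22 : Strat := .win 923 6 799
noncomputable def n23 : Strat := .win 1005 6 840
noncomputable def n24 : Strat := .move 964 n22 (.cons 923 n23 .nil)
noncomputable def n25 : Strat := .move 963 n16 (.cons 841 n24 .nil)
noncomputable def n26 : Strat := .move 800 n15 (.cons 759 n25 .nil)
noncomputable def n27 : Strat := .win 964 6 799
noncomputable def n28 : Strat := .win 962 1 798
noncomputable def n29 : Strat := .win 880 1 757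
noncomputable def n30 : Strat := .win 882 6 758
noncomputable def n31 : Strat := .move 758 n29 (.cons 880 n30 .nil)
noncomputable def n32 : Strat := .move 921 n28 (.cons 962 n31 .nil)
noncomputable def n33 : Strat := .move 923 n27 (.cons 964 n32 .nil)
noncomputable def n34 : Strat := .move 922 n21 (.cons 921 n26 (.cons 963 n33 .nil))
noncomputable def n35 : Strat := .win 759 3 717
noncomputable def n36 : Strat := .win 677 3 676
noncomputable def n37 : Strat := .move 718 n35 (.cons 759 n36 .nil)
noncomputable def n38 : Strat := .move 717 n8 (.cons 839 n37 .nil)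
noncomputable def n39 : Strat := .move 880 n7 (.cons 921 n38 .nil)
noncomputable def n40 : Strat := .move 717 n8 (.cons 839 n10 .nil)
noncomputable def n41 : Strat := .move 882 n9 (.cons 923 n40 .nil)
noncomputable def n42 : Strat := .move 880 n7 (.cons 921 n41 .nil)
noncomputable def n43 : Strat := .win 757 7 716
noncomputable def n44 : Strat := .win 675 7 675
noncomputable def n45 : Strat := .move 716 n43 (.cons 757 n44 .nil)
noncomputable def n46 : Strat := .move 717 n10 (.cons 841 n45 .nil)
noncomputable def n47 : Strat := .move 882 n9 (.cons 923 n46 .nil)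
noncomputable def n48 : Strat := .win 801 0 756
noncomputable def n49 : Strat := .win 755 0 755
noncomputable def n50 : Strat := .move 800 n48 (.cons 801 n49 .nil)
noncomputable def n51 : Strat := .win 760 4 756
noncomputable def n52 : Strat := .win 796 4 755
noncomputable def n53 : Strat := .move 797 n51 (.cons 760 n52 .nil)
noncomputable def n54 : Strat := .win 761 4 757
noncomputable def n55 : Strat := .win 797 4 756
noncomputable def n56 : Strat := .move 760 n54 (.cons 761 n55 .nil)
noncomputable def n57 : Strat := .win 839 7 715
noncomputable def n58 : Strat := .win 714 2 714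
noncomputable def n59 : Strat := .move 715 n57 (.cons 839 n58 .nil)
noncomputable def n60 : Strat := .move 798 n53 (.cons 796 n56 (.cons 760 n59 .nil))
noncomputable def n61 : Strat := .move 756 n50 (.cons 755 n60 .nil)
noncomputable def n62 : Strat := .move 880 n7 (.cons 921 n61 .nil)
noncomputable def n63 : Strat := .move 759 n2 (.cons 718 n62 .nil)
noncomputable def n64 : Strat := .move 757 n0 (.cons 716 n63 .nil)
noncomputable def n65 : Strat := .move 758 n39 (.cons 677 n42 (.cons 921 n47 (.cons 717 n64 .nil)))
noncomputable def n66 : Strat := .move 717 n8 (.cons 839 n45 .nil)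
noncomputable def n67 : Strat := .move 880 n7 (.cons 921 n66 .nil)
noncomputable def n68 : Strat := .move 923 n30 (.cons 882 n27 .nil)
noncomputable def n69 : Strat := .move 922 n1 (.cons 798 n68 .nil)
noncomputable def n70 : Strat := .move 757 n0 (.cons 716 n69 .nil)
noncomputable def n71 : Strat := .move 758 n67 (.cons 880 n70 (.cons 757 n13 .nil))
noncomputable def n72 : Strat := .win 757 7 757
noncomputable def n73 : Strat := .win 839 7 798
noncomputable def n74 : Strat := .move 798 n72 (.cons 757 n73 .nil)
noncomputable def n75 : Strat := .move 963 n16 (.cons 841 n74 .nil)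
noncomputable def n76 : Strat := .move 800 n15 (.cons 759 n75 .nil)
noncomputable def n77 : Strat := .move 963 n73 (.cons 839 n24 .nil)
noncomputable def n78 : Strat := .move 798 n72 (.cons 757 n77 .nil)
noncomputable def n79 : Strat := .win 758 6 758
noncomputable def n80 : Strat := .win 883 5 879
noncomputable def n81 : Strat := .win 919 5 878
noncomputable def n82 : Strat := .move 920 n80 (.cons 883 n81 .nil)
noncomputable def n83 : Strat := .move 921 n28 (.cons 962 n82 .nil)
noncomputable def n84 : Strat := .move 882 n79 (.cons 758 n83 .nil)
noncomputable def n85 : Strat := .move 923 n27 (.cons 964 n84 .nil)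
noncomputable def n86 : Strat := .move 798 n72 (.cons 757 n85 .nil)
noncomputable def n87 : Strat := .move 800 n15 (.cons 759 n86 .nil)
noncomputable def n88 : Strat := .move 922 n76 (.cons 839 n26 (.cons 800 n78 (.cons 963 n87 .nil)))
noncomputable def n89 : Strat := .move 800 n15 (.cons 759 n16 .nil)
noncomputable def n90 : Strat := .move 963 n73 (.cons 839 n89 .nil)
noncomputable def n91 : Strat := .move 798 n72 (.cons 757 n90 .nil)
noncomputable def n92 : Strat := .move 963 n73 (.cons 839 n19 .nil)
noncomputable def n93 : Strat := .move 798 n72 (.cons 757 n92 .nil)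
noncomputable def n94 : Strat := .move 758 n29 (.cons 880 n4 .nil)
noncomputable def n95 : Strat := .move 921 n28 (.cons 962 n94 .nil)
noncomputable def n96 : Strat := .move 922 n91 (.cons 841 n93 (.cons 798 n95 .nil))
noncomputable def n97 : Strat := .win 922 3 758
noncomputable def n98 : Strat := .win 802 2 757
noncomputable def n99 : Strat := .win 756 0 756
noncomputable def n100 : Strat := .move 801 n98 (.cons 802 n99 .nil)
noncomputable def n101 : Strat := .move 800 n97 (.cons 922 n100 .nil)
noncomputable def n102 : Strat := .move 759 n2 (.cons 718 n101 .nil)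
noncomputable def n103 : Strat := .move 757 n0 (.cons 716 n102 .nil)
noncomputable def n104 : Strat := .win 717 6 717
noncomputable def n105 : Strat := .win 719 3 718
noncomputable def n106 : Strat := .win 762 4 758
noncomputable def n107 : Strat := .win 798 4 757
noncomputable def n108 : Strat := .move 761 n106 (.cons 762 n107 .nil)
noncomputable def n109 : Strat := .move 760 n105 (.cons 719 n108 .nil)
noncomputable def n110 : Strat := .move 841 n104 (.cons 717 n109 .nil)
noncomputable def n111 : Strat := .move 882 n9 (.cons 923 n110 .nil)
noncomputable def n112 : Strat := .move 800 n97 (.cons 922 n111 .nil)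
noncomputable def n113 : Strat := .move 759 n2 (.cons 718 n112 .nil)
noncomputable def n114 : Strat := .move 758 n103 (.cons 922 n47 (.cons 716 n113 .nil))
noncomputable def n115 : Strat := .win 802 4 798
noncomputable def n116 : Strat := .win 838 4 797
noncomputable def n117 : Strat := .move 839 n115 (.cons 802 n116 .nil)
noncomputable def n118 : Strat := .win 839 4 798
noncomputable def n119 : Strat := .win 844 0 799
noncomputable def n120 : Strat := .win 842 0 798
noncomputable def n121 : Strat := .move 843 n119 (.cons 844 n120 .nil)
noncomputable def n122 : Strat := .move 802 n118 (.cons 839 n121 .nil)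
noncomputable def n123 : Strat := .win 842 0 797
noncomputable def n124 : Strat := .win 796 0 796
noncomputable def n125 : Strat := .move 797 n123 (.cons 842 n124 .nil)
noncomputable def n126 : Strat := .win 797 0 797
noncomputable def n127 : Strat := .win 843 0 798
noncomputable def n128 : Strat := .move 842 n126 (.cons 797 n127 .nil)
noncomputable def n129 : Strat := .win 882 3 759
noncomputable def n130 : Strat := .win 761 5 757
noncomputable def n131 : Strat := .move 760 n129 (.cons 882 n130 .nil)
noncomputable def n132 : Strat := .move 841 n125 (.cons 796 n128 (.cons 842 n131 .nil))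
noncomputable def n133 : Strat := .move 801 n117 (.cons 838 n122 (.cons 802 n132 .nil))
noncomputable def n134 : Strat := .move 923 n27 (.cons 964 n133 .nil)
noncomputable def n135 : Strat := .move 800 n15 (.cons 759 n134 .nil)
noncomputable def n136 : Strat := .move 798 n72 (.cons 757 n135 .nil)
noncomputable def n137 : Strat := .move 922 n91 (.cons 800 n78 (.cons 839 n21 (.cons 963 n136 .nil)))
noncomputable def n138 : Strat := .move 921 n29 (.cons 880 n28 .nil)
noncomputable def n139 : Strat := .move 922 n1 (.cons 798 n138 .nil)
noncomputable def n140 : Strat := .move 757 n0 (.cons 716 n139 .nil)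
noncomputable def n141 : Strat := .move 758 n6 (.cons 800 n140 (.cons 757 n39 .nil))
noncomputable def n142 : Strat := .move 881 n14 (.cons 757 n34 (.cons 922 n65 (.cons 800 n71 (.cons 880 n88 (.cons 882 n96 (.cons 921 n114 (.cons 758 n137 (.cons 841 n141 .nil))))))))
noncomputable def n143 : Strat := .move 758 n6 (.cons 800 n67 (.cons 757 n13 .nil))
noncomputable def n144 : Strat := .win 758 1 757
noncomputable def n145 : Strat := .win 878 0 878
noncomputable def n146 : Strat := .win 924 2 879
noncomputable def n147 : Strat := .move 879 n145 (.cons 878 n146 .nil)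
noncomputable def n148 : Strat := .move 923 n27 (.cons 964 n147 .nil)
noncomputable def n149 : Strat := .move 880 n144 (.cons 758 n148 .nil)
noncomputable def n150 : Strat := .move 921 n28 (.cons 962 n149 .nil)
noncomputable def n151 : Strat := .move 922 n91 (.cons 800 n150 .nil)
noncomputable def n152 : Strat := .move 841 n123 (.cons 842 n124 .nil)
noncomputable def n153 : Strat := .win 841 0 797
noncomputable def n154 : Strat := .move 842 n127 (.cons 843 n153 .nil)
noncomputable def n155 : Strat := .win 839 4 797
noncomputable def n156 : Strat := .win 837 4 796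
noncomputable def n157 : Strat := .move 838 n155 (.cons 839 n156 .nil)
noncomputable def n158 : Strat := .move 801 n154 (.cons 841 n157 .nil)
noncomputable def n159 : Strat := .win 841 0 796
noncomputable def n160 : Strat := .win 754 2 754
noncomputable def n161 : Strat := .win 756 2 755
noncomputable def n162 : Strat := .move 755 n160 (.cons 754 n161 .nil)
noncomputable def n163 : Strat := .move 796 n159 (.cons 841 n162 .nil)
noncomputable def n164 : Strat := .win 836 4 795
noncomputable def n165 : Strat := .win 838 4 796
noncomputable def n166 : Strat := .move 837 n164 (.cons 836 n165 .nil)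
noncomputable def n167 : Strat := .move 796 n162 (.cons 756 n166 .nil)
noncomputable def n168 : Strat := .move 797 n152 (.cons 796 n158 (.cons 842 n163 (.cons 841 n167 .nil)))
noncomputable def n169 : Strat := .move 923 n27 (.cons 964 n168 .nil)
noncomputable def n170 : Strat := .move 800 n15 (.cons 759 n169 .nil)
noncomputable def n171 : Strat := .move 798 n72 (.cons 757 n170 .nil)
noncomputable def n172 : Strat := .move 922 n91 (.cons 800 n78 (.cons 757 n21 (.cons 963 n171 .nil)))
noncomputable def n173 : Strat := .move 758 n13 (.cons 839 n47 (.cons 882 n39 (.cons 717 n64 .nil)))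
noncomputable def n174 : Strat := .move 922 n3 (.cons 800 n68 .nil)
noncomputable def n175 : Strat := .move 759 n2 (.cons 718 n174 .nil)
noncomputable def n176 : Strat := .move 922 n3 (.cons 800 n138 .nil)
noncomputable def n177 : Strat := .move 759 n2 (.cons 718 n176 .nil)
noncomputable def n178 : Strat := .move 758 n13 (.cons 839 n175 (.cons 882 n177 .nil))
noncomputable def n179 : Strat := .move 757 n0 (.cons 716 n1 .nil)
noncomputable def n180 : Strat := .move 922 n3 (.cons 800 n179 .nil)
noncomputable def n181 : Strat := .move 759 n2 (.cons 718 n180 .nil)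
noncomputable def n182 : Strat := .move 758 n181 (.cons 922 n47 (.cons 716 n175 .nil))
noncomputable def n183 : Strat := .win 922 7 757
noncomputable def n184 : Strat := .win 796 5 755
noncomputable def n185 : Strat := .move 797 n51 (.cons 760 n184 .nil)
noncomputable def n186 : Strat := .move 798 n183 (.cons 922 n185 .nil)
noncomputable def n187 : Strat := .move 759 n2 (.cons 718 n186 .nil)
noncomputable def n188 : Strat := .move 757 n0 (.cons 716 n187 .nil)
noncomputable def n189 : Strat := .move 758 n188 (.cons 760 n39 (.cons 759 n67 .nil))
noncomputable def n190 : Strat := .move 881 n143 (.cons 717 n151 (.cons 758 n172 (.cons 922 n173 (.cons 798 n178 (.cons 800 n71 (.cons 839 n182 (.cons 923 n189 .nil)))))))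
noncomputable def n191 : Strat := .move 718 n36 (.cons 677 n35 .nil)
noncomputable def n192 : Strat := .move 881 n43 (.cons 757 n191 .nil)
noncomputable def n193 : Strat := .move 716 n44 (.cons 675 n192 .nil)
noncomputable def n194 : Strat := .win 880 1 716
noncomputable def n195 : Strat := .win 798 1 675
noncomputable def n196 : Strat := .win 718 3 676
noncomputable def n197 : Strat := .win 636 3 635
noncomputable def n198 : Strat := .move 677 n196 (.cons 718 n197 .nil)
noncomputable def n199 : Strat := .move 676 n195 (.cons 798 n198 .nil)
noncomputable def n200 : Strat := .move 839 n194 (.cons 880 n199 .nil)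
noncomputable def n201 : Strat := .win 676 1 675
noncomputable def n202 : Strat := .win 882 6 717
noncomputable def n203 : Strat := .win 842 2 797
noncomputable def n204 : Strat := .move 797 n124 (.cons 796 n203 .nil)
noncomputable def n205 : Strat := .move 841 n202 (.cons 882 n204 .nil)
noncomputable def n206 : Strat := .move 798 n201 (.cons 676 n205 .nil)
noncomputable def n207 : Strat := .move 839 n194 (.cons 880 n206 .nil)
noncomputable def n208 : Strat := .move 717 n193 (.cons 881 n200 (.cons 677 n207 .nil))
noncomputable def n209 : Strat := .win 800 6 676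
noncomputable def n210 : Strat := .win 716 7 675
noncomputable def n211 : Strat := .win 634 7 634
noncomputable def n212 : Strat := .move 675 n210 (.cons 716 n211 .nil)
noncomputable def n213 : Strat := .move 676 n209 (.cons 800 n212 .nil)
noncomputable def n214 : Strat := .move 841 n202 (.cons 882 n213 .nil)
noncomputable def n215 : Strat := .win 760 0 715
noncomputable def n216 : Strat := .win 714 0 714
noncomputable def n217 : Strat := .move 759 n215 (.cons 760 n216 .nil)
noncomputable def n218 : Strat := .win 719 4 715
noncomputable def n219 : Strat := .win 755 4 714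
noncomputable def n220 : Strat := .move 756 n218 (.cons 719 n219 .nil)
noncomputable def n221 : Strat := .win 720 4 716
noncomputable def n222 : Strat := .win 756 4 715
noncomputable def n223 : Strat := .move 719 n221 (.cons 720 n222 .nil)
noncomputable def n224 : Strat := .win 798 7 674
noncomputable def n225 : Strat := .win 673 2 673
noncomputable def n226 : Strat := .move 674 n224 (.cons 798 n225 .nil)
noncomputable def n227 : Strat := .move 757 n220 (.cons 755 n223 (.cons 719 n226 .nil))
noncomputable def n228 : Strat := .move 715 n217 (.cons 714 n227 .nil)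
noncomputable def n229 : Strat := .move 839 n194 (.cons 880 n228 .nil)
noncomputable def n230 : Strat := .move 718 n36 (.cons 677 n229 .nil)
noncomputable def n231 : Strat := .move 716 n44 (.cons 675 n230 .nil)
noncomputable def n232 : Strat := .move 717 n200 (.cons 839 n214 (.cons 676 n231 .nil))
noncomputable def n233 : Strat := .move 759 n2 (.cons 718 n185 .nil)
noncomputable def n234 : Strat := .move 798 n183 (.cons 922 n233 .nil)
noncomputable def n235 : Strat := .move 757 n0 (.cons 716 n234 .nil)
noncomputable def n236 : Strat := .move 882 n10 (.cons 841 n9 .nil)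
noncomputable def n237 : Strat := .move 717 n8 (.cons 839 n236 .nil)
noncomputable def n238 : Strat := .move 880 n7 (.cons 921 n237 .nil)
noncomputable def n239 : Strat := .move 881 n235 (.cons 760 n238 .nil)
noncomputable def n240 : Strat := .move 881 n6 (.cons 800 n140 (.cons 757 n177 (.cons 922 n64 .nil)))
noncomputable def n241 : Strat := .move 676 n209 (.cons 800 n198 .nil)
noncomputable def n242 : Strat := .move 841 n202 (.cons 882 n241 .nil)
noncomputable def n243 : Strat := .move 880 n8 (.cons 839 n7 .nil)
noncomputable def n244 : Strat := .move 881 n35 (.cons 759 n243 .nil)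
noncomputable def n245 : Strat := .move 718 n36 (.cons 677 n244 .nil)
noncomputable def n246 : Strat := .move 839 n194 (.cons 880 n195 .nil)
noncomputable def n247 : Strat := .move 676 n209 (.cons 800 n246 .nil)
noncomputable def n248 : Strat := .move 841 n202 (.cons 882 n247 .nil)
noncomputable def n249 : Strat := .move 717 n242 (.cons 841 n245 (.cons 718 n248 .nil))
noncomputable def n250 : Strat := .move 676 n195 (.cons 798 n212 .nil)
noncomputable def n251 : Strat := .move 839 n194 (.cons 880 n250 .nil)
noncomputable def n252 : Strat := .move 881 n43 (.cons 757 n236 .nil)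
noncomputable def n253 : Strat := .move 716 n44 (.cons 675 n252 .nil)
noncomputable def n254 : Strat := .move 841 n202 (.cons 882 n209 .nil)
noncomputable def n255 : Strat := .move 676 n195 (.cons 798 n254 .nil)
noncomputable def n256 : Strat := .move 839 n194 (.cons 880 n255 .nil)
noncomputable def n257 : Strat := .move 717 n251 (.cons 839 n253 (.cons 716 n256 .nil))
noncomputable def n258 : Strat := .move 922 n3 (.cons 800 n1 .nil)
noncomputable def n259 : Strat := .move 757 n0 (.cons 716 n258 .nil)
noncomputable def n260 : Strat := .move 759 n2 (.cons 718 n259 .nil)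
noncomputable def n261 : Strat := .win 842 5 838
noncomputable def n262 : Strat := .win 878 5 837
noncomputable def n263 : Strat := .move 879 n261 (.cons 842 n262 .nil)
noncomputable def n264 : Strat := .move 880 n7 (.cons 921 n263 .nil)
noncomputable def n265 : Strat := .move 841 n104 (.cons 717 n264 .nil)
noncomputable def n266 : Strat := .move 882 n9 (.cons 923 n265 .nil)
noncomputable def n267 : Strat := .move 757 n0 (.cons 716 n266 .nil)
noncomputable def n268 : Strat := .move 759 n2 (.cons 718 n267 .nil)
noncomputable def n269 : Strat := .move 881 n260 (.cons 759 n70 (.cons 757 n177 (.cons 922 n268 .nil)))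
noncomputable def n270 : Strat := .win 881 3 717
noncomputable def n271 : Strat := .win 761 2 716
noncomputable def n272 : Strat := .win 715 0 715
noncomputable def n273 : Strat := .move 760 n271 (.cons 761 n272 .nil)
noncomputable def n274 : Strat := .move 759 n270 (.cons 881 n273 .nil)
noncomputable def n275 : Strat := .move 718 n36 (.cons 677 n274 .nil)
noncomputable def n276 : Strat := .move 716 n44 (.cons 675 n275 .nil)
noncomputable def n277 : Strat := .win 881 7 716
noncomputable def n278 : Strat := .win 839 1 675
noncomputable def n279 : Strat := .win 635 1 634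
noncomputable def n280 : Strat := .move 798 n278 (.cons 839 n279 .nil)
noncomputable def n281 : Strat := .move 676 n280 (.cons 798 n254 .nil)
noncomputable def n282 : Strat := .move 757 n277 (.cons 881 n281 .nil)
noncomputable def n283 : Strat := .move 716 n44 (.cons 675 n282 .nil)
noncomputable def n284 : Strat := .move 717 n276 (.cons 718 n283 (.cons 881 n214 (.cons 716 n242 .nil)))
noncomputable def n285 : Strat := .move 716 n44 (.cons 675 n43 .nil)
noncomputable def n286 : Strat := .move 881 n35 (.cons 759 n285 .nil)
noncomputable def n287 : Strat := .move 718 n36 (.cons 677 n286 .nil)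
noncomputable def n288 : Strat := .win 676 6 676
noncomputable def n289 : Strat := .win 801 5 797
noncomputable def n290 : Strat := .win 837 5 796
noncomputable def n291 : Strat := .move 838 n289 (.cons 801 n290 .nil)
noncomputable def n292 : Strat := .move 839 n194 (.cons 880 n291 .nil)
noncomputable def n293 : Strat := .move 800 n288 (.cons 676 n292 .nil)
noncomputable def n294 : Strat := .move 841 n202 (.cons 882 n293 .nil)
noncomputable def n295 : Strat := .move 716 n44 (.cons 675 n294 .nil)
noncomputable def n296 : Strat := .move 718 n36 (.cons 677 n295 .nil)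
noncomputable def n297 : Strat := .move 881 n43 (.cons 757 n243 .nil)
noncomputable def n298 : Strat := .move 716 n44 (.cons 675 n297 .nil)
noncomputable def n299 : Strat := .move 717 n287 (.cons 881 n296 (.cons 718 n298 (.cons 716 n245 .nil)))
noncomputable def n300 : Strat := .move 758 n208 (.cons 881 n232 (.cons 636 n239 (.cons 717 n240 (.cons 757 n249 (.cons 759 n257 (.cons 839 n269 (.cons 880 n284 (.cons 798 n299 .nil))))))))
noncomputable def n301 : Strat := .move 717 n193 (.cons 718 n251 (.cons 675 n248 .nil))
noncomputable def n302 : Strat := .move 881 n238 (.cons 839 n175 (.cons 882 n181 .nil))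
noncomputable def n303 : Strat := .move 839 n195 (.cons 798 n194 .nil)
noncomputable def n304 : Strat := .move 676 n209 (.cons 800 n303 .nil)
noncomputable def n305 : Strat := .move 841 n202 (.cons 882 n304 .nil)
noncomputable def n306 : Strat := .move 718 n36 (.cons 677 n305 .nil)
noncomputable def n307 : Strat := .move 716 n44 (.cons 675 n306 .nil)
noncomputable def n308 : Strat := .move 757 n221 (.cons 720 n222 .nil)
noncomputable def n309 : Strat := .win 757 4 716
noncomputable def n310 : Strat := .win 762 0 717
noncomputable def n311 : Strat := .win 760 0 716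
noncomputable def n312 : Strat := .move 761 n310 (.cons 762 n311 .nil)
noncomputable def n313 : Strat := .move 720 n309 (.cons 757 n312 .nil)
noncomputable def n314 : Strat := .move 715 n215 (.cons 760 n216 .nil)
noncomputable def n315 : Strat := .win 761 0 716
noncomputable def n316 : Strat := .move 760 n272 (.cons 715 n315 .nil)
noncomputable def n317 : Strat := .win 800 3 677
noncomputable def n318 : Strat := .win 679 5 675
noncomputable def n319 : Strat := .move 678 n317 (.cons 800 n318 .nil)
noncomputable def n320 : Strat := .move 759 n314 (.cons 714 n316 (.cons 760 n319 .nil))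
noncomputable def n321 : Strat := .move 719 n308 (.cons 756 n313 (.cons 720 n320 .nil))
noncomputable def n322 : Strat := .move 841 n202 (.cons 882 n321 .nil)
noncomputable def n323 : Strat := .move 718 n36 (.cons 677 n322 .nil)
noncomputable def n324 : Strat := .move 716 n44 (.cons 675 n323 .nil)
noncomputable def n325 : Strat := .move 717 n307 (.cons 839 n214 (.cons 716 n248 (.cons 882 n200 (.cons 676 n324 .nil))))
noncomputable def n326 : Strat := .move 759 n2 (.cons 718 n258 .nil)
noncomputable def n327 : Strat := .move 757 n0 (.cons 716 n326 .nil)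
noncomputable def n328 : Strat := .move 717 n8 (.cons 839 n191 .nil)
noncomputable def n329 : Strat := .move 880 n7 (.cons 921 n328 .nil)
noncomputable def n330 : Strat := .move 881 n140 (.cons 962 n327 (.cons 757 n329 .nil))
noncomputable def n331 : Strat := .move 881 n238 (.cons 839 n175 (.cons 882 n329 .nil))
noncomputable def n332 : Strat := .move 717 n8 (.cons 839 n285 .nil)
noncomputable def n333 : Strat := .move 880 n7 (.cons 921 n332 .nil)
noncomputable def n334 : Strat := .move 881 n42 (.cons 880 n70 (.cons 923 n333 .nil))
noncomputable def n335 : Strat := .move 717 n10 (.cons 841 n285 .nil)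
noncomputable def n336 : Strat := .move 882 n9 (.cons 923 n335 .nil)
noncomputable def n337 : Strat := .move 881 n181 (.cons 716 n175 (.cons 800 n70 (.cons 922 n336 .nil)))
noncomputable def n338 : Strat := .move 841 n261 (.cons 842 n262 .nil)
noncomputable def n339 : Strat := .win 883 2 838
noncomputable def n340 : Strat := .win 837 0 837
noncomputable def n341 : Strat := .move 838 n339 (.cons 883 n340 .nil)
noncomputable def n342 : Strat := .win 798 1 756
noncomputable def n343 : Strat := .win 919 4 878
noncomputable def n344 : Strat := .move 920 n342 (.cons 798 n343 .nil)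
noncomputable def n345 : Strat := .move 839 n341 (.cons 837 n344 .nil)
noncomputable def n346 : Strat := .move 879 n338 (.cons 878 n345 .nil)
noncomputable def n347 : Strat := .move 757 n0 (.cons 716 n346 .nil)
noncomputable def n348 : Strat := .move 882 n9 (.cons 923 n347 .nil)
noncomputable def n349 : Strat := .move 880 n7 (.cons 921 n348 .nil)
noncomputable def n350 : Strat := .move 881 n181 (.cons 757 n177 (.cons 800 n70 (.cons 922 n349 .nil)))
noncomputable def n351 : Strat := .move 758 n301 (.cons 634 n302 (.cons 881 n325 (.cons 841 n330 (.cons 798 n331 (.cons 718 n334 (.cons 839 n337 (.cons 717 n350 .nil)))))))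
noncomputable def n352 : Strat := .move 881 n13 (.cons 841 n39 (.cons 717 n177 (.cons 880 n113 .nil)))
noncomputable def n353 : Strat := .move 676 n195 (.cons 798 n209 .nil)
noncomputable def n354 : Strat := .move 841 n202 (.cons 882 n353 .nil)
noncomputable def n355 : Strat := .move 839 n194 (.cons 880 n354 .nil)
noncomputable def n356 : Strat := .move 716 n44 (.cons 675 n355 .nil)
noncomputable def n357 : Strat := .move 800 n290 (.cons 837 n289 .nil)
noncomputable def n358 : Strat := .win 800 5 796
noncomputable def n359 : Strat := .win 795 2 795
noncomputable def n360 : Strat := .win 797 2 796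
noncomputable def n361 : Strat := .move 796 n359 (.cons 795 n360 .nil)
noncomputable def n362 : Strat := .move 837 n358 (.cons 800 n361 .nil)
noncomputable def n363 : Strat := .win 877 4 836
noncomputable def n364 : Strat := .win 879 4 837
noncomputable def n365 : Strat := .move 878 n363 (.cons 877 n364 .nil)
noncomputable def n366 : Strat := .move 837 n359 (.cons 795 n365 .nil)
noncomputable def n367 : Strat := .move 796 n360 (.cons 797 n366 .nil)
noncomputable def n368 : Strat := .win 800 5 797
noncomputable def n369 : Strat := .win 796 2 796
noncomputable def n370 : Strat := .win 802 5 798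
noncomputable def n371 : Strat := .win 798 2 797
noncomputable def n372 : Strat := .move 842 n370 (.cons 802 n371 .nil)
noncomputable def n373 : Strat := .move 797 n369 (.cons 796 n372 .nil)
noncomputable def n374 : Strat := .move 801 n368 (.cons 800 n373 .nil)
noncomputable def n375 : Strat := .move 838 n357 (.cons 801 n362 (.cons 800 n367 (.cons 837 n374 .nil)))
noncomputable def n376 : Strat := .move 841 n202 (.cons 882 n375 .nil)
noncomputable def n377 : Strat := .move 839 n194 (.cons 880 n376 .nil)
noncomputable def n378 : Strat := .move 717 n356 (.cons 839 n214 (.cons 841 n251 (.cons 675 n355 (.cons 676 n377 .nil))))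
noncomputable def n379 : Strat := .move 717 n276 (.cons 759 n214 (.cons 716 n242 .nil))
noncomputable def n380 : Strat := .move 841 n262 (.cons 878 n261 .nil)
noncomputable def n381 : Strat := .win 841 5 837
noncomputable def n382 : Strat := .win 836 2 836
noncomputable def n383 : Strat := .win 838 2 837
noncomputable def n384 : Strat := .move 837 n382 (.cons 836 n383 .nil)
noncomputable def n385 : Strat := .move 878 n381 (.cons 841 n384 .nil)
noncomputable def n386 : Strat := .win 918 4 877
noncomputable def n387 : Strat := .win 920 4 878
noncomputable def n388 : Strat := .move 919 n386 (.cons 918 n387 .nil)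
noncomputable def n389 : Strat := .move 878 n382 (.cons 836 n388 .nil)
noncomputable def n390 : Strat := .move 837 n383 (.cons 838 n389 .nil)
noncomputable def n391 : Strat := .win 841 5 838
noncomputable def n392 : Strat := .win 837 2 837
noncomputable def n393 : Strat := .win 843 5 839
noncomputable def n394 : Strat := .win 839 2 838
noncomputable def n395 : Strat := .move 883 n393 (.cons 843 n394 .nil)
noncomputable def n396 : Strat := .move 838 n392 (.cons 837 n395 .nil)
noncomputable def n397 : Strat := .move 842 n391 (.cons 841 n396 .nil)
noncomputable def n398 : Strat := .move 879 n380 (.cons 842 n385 (.cons 841 n390 (.cons 878 n397 .nil)))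
noncomputable def n399 : Strat := .move 882 n9 (.cons 923 n398 .nil)
noncomputable def n400 : Strat := .move 880 n7 (.cons 921 n399 .nil)
noncomputable def n401 : Strat := .move 881 n177 (.cons 800 n400 (.cons 880 n175 .nil))
noncomputable def n402 : Strat := .move 717 n276 (.cons 759 n251 (.cons 675 n245 .nil))
noncomputable def n403 : Strat := .move 758 n352 (.cons 759 n378 (.cons 839 n379 (.cons 717 n401 (.cons 841 n402 .nil))))
noncomputable def n404 : Strat := .move 717 n251 (.cons 676 n298 (.cons 839 n253 (.cons 716 n256 .nil)))
noncomputable def n405 : Strat := .move 881 n70 (.cons 882 n140 (.cons 798 n400 .nil))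
noncomputable def n406 : Strat := .move 921 n28 (.cons 962 n29 .nil)
noncomputable def n407 : Strat := .move 923 n27 (.cons 964 n30 .nil)
noncomputable def n408 : Strat := .move 922 n406 (.cons 880 n407 .nil)
noncomputable def n409 : Strat := .move 676 n197 (.cons 636 n408 .nil)
noncomputable def n410 : Strat := .move 677 n196 (.cons 718 n409 .nil)
noncomputable def n411 : Strat := .move 881 n43 (.cons 757 n410 .nil)
noncomputable def n412 : Strat := .move 716 n44 (.cons 675 n411 .nil)
noncomputable def n413 : Strat := .win 755 5 714
noncomputable def n414 : Strat := .move 756 n218 (.cons 719 n413 .nil)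
noncomputable def n415 : Strat := .move 718 n36 (.cons 677 n414 .nil)
noncomputable def n416 : Strat := .move 757 n277 (.cons 881 n415 .nil)
noncomputable def n417 : Strat := .move 716 n44 (.cons 675 n416 .nil)
noncomputable def n418 : Strat := .move 717 n253 (.cons 757 n214 (.cons 716 n242 (.cons 841 n412 (.cons 882 n417 .nil))))
noncomputable def n419 : Strat := .move 718 n36 (.cons 677 n223 .nil)
noncomputable def n420 : Strat := .move 798 n201 (.cons 676 n419 .nil)
noncomputable def n421 : Strat := .move 839 n194 (.cons 880 n420 .nil)
noncomputable def n422 : Strat := .move 757 n277 (.cons 881 n421 .nil)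
noncomputable def n423 : Strat := .move 716 n44 (.cons 675 n422 .nil)
noncomputable def n424 : Strat := .move 717 n423 (.cons 839 n412 (.cons 757 n251 (.cons 716 n200 (.cons 676 n298 (.cons 880 n417 .nil)))))
noncomputable def n425 : Strat := .move 757 n277 (.cons 881 n419 .nil)
noncomputable def n426 : Strat := .move 716 n44 (.cons 675 n425 .nil)
noncomputable def n427 : Strat := .move 839 n250 (.cons 676 n426 (.cons 716 n255 .nil))
noncomputable def n428 : Strat := .move 717 n427 (.cons 841 n417 (.cons 719 n214 (.cons 716 n242 .nil)))
noncomputable def n429 : Strat := .move 717 n256 (.cons 839 n242 (.cons 841 n200 (.cons 676 n377 .nil)))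
noncomputable def n430 : Strat := .move 717 n251 (.cons 839 n417 (.cons 716 n200 .nil))
noncomputable def n431 : Strat := .move 758 n404 (.cons 757 n378 (.cons 717 n405 (.cons 839 n418 (.cons 841 n424 (.cons 880 n428 (.cons 716 n429 (.cons 882 n430 .nil)))))))
noncomputable def n432 : Strat := .move 717 n10 (.cons 841 n37 .nil)
noncomputable def n433 : Strat := .move 882 n9 (.cons 923 n432 .nil)
noncomputable def n434 : Strat := .move 758 n235 (.cons 757 n433 (.cons 759 n47 .nil))
noncomputable def n435 : Strat := .move 758 n30 (.cons 882 n179 .nil)
noncomputable def n436 : Strat := .move 923 n27 (.cons 964 n435 .nil)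
noncomputable def n437 : Strat := .win 963 1 799
noncomputable def n438 : Strat := .win 760 3 759
noncomputable def n439 : Strat := .win 803 4 799
noncomputable def n440 : Strat := .move 802 n439 (.cons 803 n118 .nil)
noncomputable def n441 : Strat := .move 801 n438 (.cons 760 n440 .nil)
noncomputable def n442 : Strat := .move 841 n437 (.cons 963 n441 .nil)
noncomputable def n443 : Strat := .move 800 n15 (.cons 759 n442 .nil)
noncomputable def n444 : Strat := .move 882 n79 (.cons 758 n443 .nil)
noncomputable def n445 : Strat := .move 923 n27 (.cons 964 n444 .nil)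
noncomputable def n446 : Strat := .move 922 n91 (.cons 841 n78 (.cons 963 n436 (.cons 798 n445 .nil)))
noncomputable def n447 : Strat := .move 922 n76 (.cons 841 n78 (.cons 798 n26 (.cons 963 n136 .nil)))
noncomputable def n448 : Strat := .move 800 n97 (.cons 922 n336 .nil)
noncomputable def n449 : Strat := .move 759 n2 (.cons 718 n448 .nil)
noncomputable def n450 : Strat := .move 801 n99 (.cons 756 n98 .nil)
noncomputable def n451 : Strat := .move 757 n0 (.cons 716 n450 .nil)
noncomputable def n452 : Strat := .move 800 n97 (.cons 922 n451 .nil)
noncomputable def n453 : Strat := .move 759 n2 (.cons 718 n452 .nil)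
noncomputable def n454 : Strat := .move 758 n449 (.cons 759 n47 (.cons 882 n453 (.cons 757 n433 .nil)))
noncomputable def n455 : Strat := .move 963 n16 (.cons 841 n73 .nil)
noncomputable def n456 : Strat := .move 800 n15 (.cons 759 n455 .nil)
noncomputable def n457 : Strat := .move 798 n72 (.cons 757 n456 .nil)
noncomputable def n458 : Strat := .move 841 n124 (.cons 796 n123 .nil)
noncomputable def n459 : Strat := .move 796 n164 (.cons 836 n162 .nil)
noncomputable def n460 : Strat := .move 837 n165 (.cons 838 n459 .nil)
noncomputable def n461 : Strat := .move 801 n127 (.cons 843 n157 .nil)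
noncomputable def n462 : Strat := .move 842 n153 (.cons 841 n461 .nil)
noncomputable def n463 : Strat := .move 797 n458 (.cons 842 n163 (.cons 841 n460 (.cons 796 n462 .nil)))
noncomputable def n464 : Strat := .move 800 n15 (.cons 759 n463 .nil)
noncomputable def n465 : Strat := .move 798 n72 (.cons 757 n464 .nil)
noncomputable def n466 : Strat := .move 922 n457 (.cons 759 n78 (.cons 798 n26 (.cons 963 n465 .nil)))
noncomputable def n467 : Strat := .move 841 n202 (.cons 882 n288 .nil)
noncomputable def n468 : Strat := .win 841 6 676
noncomputable def n469 : Strat := .win 635 6 635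
noncomputable def n470 : Strat := .move 676 n468 (.cons 841 n469 .nil)
noncomputable def n471 : Strat := .move 880 n8 (.cons 839 n470 .nil)
noncomputable def n472 : Strat := .move 676 n469 (.cons 635 n303 .nil)
noncomputable def n473 : Strat := .move 841 n202 (.cons 882 n292 .nil)
noncomputable def n474 : Strat := .move 717 n467 (.cons 882 n471 (.cons 841 n472 (.cons 676 n473 .nil)))
noncomputable def n475 : Strat := .move 800 n97 (.cons 922 n474 .nil)
noncomputable def n476 : Strat := .move 759 n2 (.cons 718 n475 .nil)
noncomputable def n477 : Strat := .move 839 n194 (.cons 880 n201 .nil)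
noncomputable def n478 : Strat := .move 676 n279 (.cons 635 n278 .nil)
noncomputable def n479 : Strat := .move 676 n209 (.cons 800 n279 .nil)
noncomputable def n480 : Strat := .move 841 n202 (.cons 882 n479 .nil)
noncomputable def n481 : Strat := .win 797 2 797
noncomputable def n482 : Strat := .win 843 2 798
noncomputable def n483 : Strat := .move 842 n481 (.cons 797 n482 .nil)
noncomputable def n484 : Strat := .move 841 n202 (.cons 882 n483 .nil)
noncomputable def n485 : Strat := .move 839 n194 (.cons 880 n484 .nil)
noncomputable def n486 : Strat := .move 717 n477 (.cons 880 n478 (.cons 839 n480 (.cons 676 n485 .nil)))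
noncomputable def n487 : Strat := .move 798 n183 (.cons 922 n486 .nil)
noncomputable def n488 : Strat := .move 757 n0 (.cons 716 n487 .nil)
noncomputable def n489 : Strat := .move 841 n209 (.cons 800 n202 .nil)
noncomputable def n490 : Strat := .move 676 n195 (.cons 798 n489 .nil)
noncomputable def n491 : Strat := .move 839 n194 (.cons 880 n490 .nil)
noncomputable def n492 : Strat := .move 717 n36 (.cons 677 n491 .nil)
noncomputable def n493 : Strat := .move 718 n35 (.cons 759 n492 .nil)
noncomputable def n494 : Strat := .move 757 n0 (.cons 716 n493 .nil)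
noncomputable def n495 : Strat := .move 758 n188 (.cons 757 n476 (.cons 759 n488 (.cons 798 n453 (.cons 922 n494 .nil))))
noncomputable def n496 : Strat := .move 677 n197 (.cons 636 n196 .nil)
noncomputable def n497 : Strat := .move 676 n195 (.cons 798 n496 .nil)
noncomputable def n498 : Strat := .move 839 n194 (.cons 880 n497 .nil)
noncomputable def n499 : Strat := .move 717 n10 (.cons 841 n498 .nil)
noncomputable def n500 : Strat := .move 882 n9 (.cons 923 n499 .nil)
noncomputable def n501 : Strat := .win 760 5 756
noncomputable def n502 : Strat := .move 797 n184 (.cons 796 n501 .nil)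
noncomputable def n503 : Strat := .win 760 4 757
noncomputable def n504 : Strat := .move 717 n201 (.cons 676 n194 .nil)
noncomputable def n505 : Strat := .move 801 n116 (.cons 838 n115 .nil)
noncomputable def n506 : Strat := .move 839 n504 (.cons 880 n505 .nil)
noncomputable def n507 : Strat := .move 761 n503 (.cons 760 n506 .nil)
noncomputable def n508 : Strat := .move 797 n184 (.cons 796 n506 .nil)
noncomputable def n509 : Strat := .move 798 n502 (.cons 797 n507 (.cons 760 n508 .nil))
noncomputable def n510 : Strat := .move 800 n97 (.cons 922 n509 .nil)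
noncomputable def n511 : Strat := .move 759 n2 (.cons 718 n510 .nil)
noncomputable def n512 : Strat := .move 675 n211 (.cons 634 n210 .nil)
noncomputable def n513 : Strat := .move 676 n195 (.cons 798 n512 .nil)
noncomputable def n514 : Strat := .move 839 n194 (.cons 880 n513 .nil)
noncomputable def n515 : Strat := .move 717 n10 (.cons 841 n514 .nil)
noncomputable def n516 : Strat := .move 882 n9 (.cons 923 n515 .nil)
noncomputable def n517 : Strat := .move 758 n113 (.cons 759 n500 (.cons 882 n511 (.cons 798 n433 (.cons 717 n175 (.cons 718 n516 .nil)))))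
noncomputable def n518 : Strat := .move 798 n54 (.cons 761 n55 .nil)
noncomputable def n519 : Strat := .win 803 0 758
noncomputable def n520 : Strat := .win 801 0 757
noncomputable def n521 : Strat := .move 802 n519 (.cons 803 n520 .nil)
noncomputable def n522 : Strat := .move 761 n107 (.cons 798 n521 .nil)
noncomputable def n523 : Strat := .move 756 n48 (.cons 801 n49 .nil)
noncomputable def n524 : Strat := .win 802 0 757
noncomputable def n525 : Strat := .move 801 n99 (.cons 756 n524 .nil)
noncomputable def n526 : Strat := .win 841 3 718
noncomputable def n527 : Strat := .win 720 5 716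
noncomputable def n528 : Strat := .move 719 n526 (.cons 841 n527 .nil)
noncomputable def n529 : Strat := .move 800 n523 (.cons 755 n525 (.cons 801 n528 .nil))
noncomputable def n530 : Strat := .move 760 n518 (.cons 797 n522 (.cons 761 n529 .nil))
noncomputable def n531 : Strat := .move 882 n9 (.cons 923 n530 .nil)
noncomputable def n532 : Strat := .move 759 n2 (.cons 718 n531 .nil)
noncomputable def n533 : Strat := .move 757 n0 (.cons 716 n532 .nil)
noncomputable def n534 : Strat := .move 800 n49 (.cons 755 n48 .nil)
noncomputable def n535 : Strat := .win 800 0 755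
noncomputable def n536 : Strat := .win 713 2 713
noncomputable def n537 : Strat := .win 715 2 714
noncomputable def n538 : Strat := .move 714 n536 (.cons 713 n537 .nil)
noncomputable def n539 : Strat := .move 755 n535 (.cons 800 n538 .nil)
noncomputable def n540 : Strat := .win 797 4 755
noncomputable def n541 : Strat := .win 795 4 754
noncomputable def n542 : Strat := .move 755 n541 (.cons 795 n538 .nil)
noncomputable def n543 : Strat := .move 796 n540 (.cons 797 n542 .nil)
noncomputable def n544 : Strat := .win 800 0 756
noncomputable def n545 : Strat := .win 798 4 756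
noncomputable def n546 : Strat := .move 797 n545 (.cons 798 n52 .nil)
noncomputable def n547 : Strat := .move 760 n524 (.cons 802 n546 .nil)
noncomputable def n548 : Strat := .move 801 n544 (.cons 800 n547 .nil)
noncomputable def n549 : Strat := .move 756 n534 (.cons 801 n539 (.cons 800 n543 (.cons 755 n548 .nil)))
noncomputable def n550 : Strat := .move 759 n2 (.cons 718 n549 .nil)
noncomputable def n551 : Strat := .move 757 n0 (.cons 716 n550 .nil)
noncomputable def n552 : Strat := .move 758 n47 (.cons 757 n433 (.cons 923 n494 (.cons 717 n533 (.cons 841 n551 .nil))))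
noncomputable def n553 : Strat := .move 758 n30 (.cons 882 n4 .nil)
noncomputable def n554 : Strat := .move 923 n27 (.cons 964 n553 .nil)
noncomputable def n555 : Strat := .win 1044 1 880
noncomputable def n556 : Strat := .win 962 1 839
noncomputable def n557 : Strat := .move 1003 n555 (.cons 1044 n556 .nil)
noncomputable def n558 : Strat := .win 1046 6 881
noncomputable def n559 : Strat := .win 964 6 840
noncomputable def n560 : Strat := .move 1005 n558 (.cons 1046 n559 .nil)
noncomputable def n561 : Strat := .move 1004 n557 (.cons 962 n560 .nil)
noncomputable def n562 : Strat := .move 758 n2 (.cons 718 n561 .nil)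
noncomputable def n563 : Strat := .move 759 n3 (.cons 800 n562 .nil)
noncomputable def n564 : Strat := .move 963 n73 (.cons 839 n563 .nil)
noncomputable def n565 : Strat := .move 798 n72 (.cons 757 n564 .nil)
noncomputable def n566 : Strat := .win 963 7 798
noncomputable def n567 : Strat := .win 801 4 797
noncomputable def n568 : Strat := .move 838 n567 (.cons 801 n290 .nil)
noncomputable def n569 : Strat := .move 800 n15 (.cons 759 n568 .nil)
noncomputable def n570 : Strat := .move 839 n566 (.cons 963 n569 .nil)
noncomputable def n571 : Strat := .move 798 n72 (.cons 757 n570 .nil)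
noncomputable def n572 : Strat := .move 922 n78 (.cons 798 n554 (.cons 923 n565 (.cons 964 n571 .nil)))
noncomputable def n573 : Strat := .win 800 3 799
noncomputable def n574 : Strat := .win 882 3 840
noncomputable def n575 : Strat := .move 1004 n574 (.cons 882 n557 .nil)
noncomputable def n576 : Strat := .move 841 n573 (.cons 800 n575 .nil)
noncomputable def n577 : Strat := .move 963 n73 (.cons 839 n576 .nil)
noncomputable def n578 : Strat := .move 798 n72 (.cons 757 n577 .nil)
noncomputable def n579 : Strat := .win 800 1 799
noncomputable def n580 : Strat := .win 1004 3 840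
noncomputable def n581 : Strat := .move 841 n579 (.cons 800 n580 .nil)
noncomputable def n582 : Strat := .win 841 3 840
noncomputable def n583 : Strat := .win 1045 3 881
noncomputable def n584 : Strat := .move 1004 n582 (.cons 841 n583 .nil)
noncomputable def n585 : Strat := .move 1004 n583 (.cons 1045 n557 .nil)
noncomputable def n586 : Strat := .win 798 7 798
noncomputable def n587 : Strat := .win 883 0 838
noncomputable def n588 : Strat := .move 838 n587 (.cons 883 n340 .nil)
noncomputable def n589 : Strat := .move 839 n586 (.cons 798 n588 .nil)
noncomputable def n590 : Strat := .move 841 n579 (.cons 800 n589 .nil)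
noncomputable def n591 : Strat := .move 963 n581 (.cons 800 n584 (.cons 841 n585 (.cons 1004 n590 .nil)))
noncomputable def n592 : Strat := .move 882 n79 (.cons 758 n591 .nil)
noncomputable def n593 : Strat := .move 923 n27 (.cons 964 n592 .nil)
noncomputable def n594 : Strat := .move 963 n23 (.cons 1005 n576 .nil)
noncomputable def n595 : Strat := .move 964 n22 (.cons 923 n594 .nil)
noncomputable def n596 : Strat := .move 922 n78 (.cons 923 n578 (.cons 757 n593 (.cons 963 n436 (.cons 798 n595 .nil))))
noncomputable def n597 : Strat := .move 881 n114 (.cons 800 n434 (.cons 718 n446 (.cons 758 n447 (.cons 798 n454 (.cons 882 n466 (.cons 923 n495 (.cons 757 n517 (.cons 922 n552 (.cons 841 n572 (.cons 759 n596 .nil))))))))))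
noncomputable def n598 : Strat := .win 756 2 756
noncomputable def n599 : Strat := .move 801 n98 (.cons 802 n598 .nil)
noncomputable def n600 : Strat := .win 801 2 756
noncomputable def n601 : Strat := .move 756 n49 (.cons 755 n600 .nil)
noncomputable def n602 : Strat := .win 756 0 755
noncomputable def n603 : Strat := .move 842 n126 (.cons 797 n482 .nil)
noncomputable def n604 : Strat := .move 717 n288 (.cons 676 n202 .nil)
noncomputable def n605 : Strat := .move 841 n125 (.cons 796 n603 (.cons 842 n604 .nil))
noncomputable def n606 : Strat := .move 755 n602 (.cons 756 n605 .nil)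
noncomputable def n607 : Strat := .move 841 n125 (.cons 796 n128 (.cons 842 n604 .nil))
noncomputable def n608 : Strat := .move 801 n98 (.cons 802 n607 .nil)
noncomputable def n609 : Strat := .move 800 n599 (.cons 802 n601 (.cons 801 n606 (.cons 756 n608 .nil)))
noncomputable def n610 : Strat := .move 798 n183 (.cons 922 n609 .nil)
noncomputable def n611 : Strat := .move 757 n0 (.cons 716 n610 .nil)
noncomputable def n612 : Strat := .move 676 n209 (.cons 800 n496 .nil)
noncomputable def n613 : Strat := .move 841 n202 (.cons 882 n612 .nil)
noncomputable def n614 : Strat := .move 717 n8 (.cons 839 n613 .nil)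
noncomputable def n615 : Strat := .move 880 n7 (.cons 921 n614 .nil)
noncomputable def n616 : Strat := .move 758 n67 (.cons 880 n611 (.cons 757 n615 (.cons 717 n140 .nil)))
noncomputable def n617 : Strat := .move 838 n567 (.cons 801 n156 .nil)
noncomputable def n618 : Strat := .move 801 n115 (.cons 802 n116 .nil)
noncomputable def n619 : Strat := .win 880 7 756
noncomputable def n620 : Strat := .win 755 2 755
noncomputable def n621 : Strat := .move 756 n619 (.cons 880 n620 .nil)
noncomputable def n622 : Strat := .move 839 n617 (.cons 837 n618 (.cons 801 n621 .nil))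
noncomputable def n623 : Strat := .move 797 n152 (.cons 796 n622 .nil)
noncomputable def n624 : Strat := .move 921 n28 (.cons 962 n623 .nil)
noncomputable def n625 : Strat := .move 800 n15 (.cons 759 n624 .nil)
noncomputable def n626 : Strat := .move 798 n72 (.cons 757 n625 .nil)
noncomputable def n627 : Strat := .move 922 n91 (.cons 800 n93 (.cons 839 n21 (.cons 963 n626 .nil)))
noncomputable def n628 : Strat := .move 758 n39 (.cons 921 n453 (.cons 718 n67 .nil))
noncomputable def n629 : Strat := .move 756 n52 (.cons 796 n50 .nil)
noncomputable def n630 : Strat := .move 797 n545 (.cons 798 n629 .nil)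
noncomputable def n631 : Strat := .move 800 n106 (.cons 762 n99 .nil)
noncomputable def n632 : Strat := .win 721 5 717
noncomputable def n633 : Strat := .win 719 5 716
noncomputable def n634 : Strat := .move 720 n632 (.cons 721 n633 .nil)
noncomputable def n635 : Strat := .move 761 n631 (.cons 756 n634 .nil)
noncomputable def n636 : Strat := .move 801 n524 (.cons 802 n635 .nil)
noncomputable def n637 : Strat := .move 760 n518 (.cons 761 n630 (.cons 797 n522 (.cons 798 n636 .nil)))
noncomputable def n638 : Strat := .move 757 n0 (.cons 716 n637 .nil)
noncomputable def n639 : Strat := .move 759 n2 (.cons 718 n638 .nil)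
noncomputable def n640 : Strat := .move 758 n39 (.cons 921 n494 (.cons 677 n67 (.cons 839 n639 .nil)))
noncomputable def n641 : Strat := .move 798 n72 (.cons 757 n455 .nil)
noncomputable def n642 : Strat := .move 800 n15 (.cons 759 n641 .nil)
noncomputable def n643 : Strat := .move 839 n116 (.cons 838 n115 .nil)
noncomputable def n644 : Strat := .move 801 n127 (.cons 843 n643 .nil)
noncomputable def n645 : Strat := .move 842 n153 (.cons 841 n644 .nil)
noncomputable def n646 : Strat := .move 797 n458 (.cons 842 n163 (.cons 841 n460 (.cons 796 n645 .nil)))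
noncomputable def n647 : Strat := .move 798 n72 (.cons 757 n646 .nil)
noncomputable def n648 : Strat := .move 800 n15 (.cons 759 n647 .nil)
noncomputable def n649 : Strat := .move 922 n642 (.cons 839 n21 (.cons 800 n93 (.cons 963 n648 .nil)))
noncomputable def n650 : Strat := .move 758 n29 (.cons 880 n179 .nil)
noncomputable def n651 : Strat := .move 921 n28 (.cons 962 n650 .nil)
noncomputable def n652 : Strat := .move 758 n0 (.cons 716 n561 .nil)
noncomputable def n653 : Strat := .move 757 n1 (.cons 798 n652 .nil)
noncomputable def n654 : Strat := .move 963 n16 (.cons 841 n653 .nil)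
noncomputable def n655 : Strat := .move 800 n15 (.cons 759 n654 .nil)
noncomputable def n656 : Strat := .win 963 3 799
noncomputable def n657 : Strat := .move 798 n72 (.cons 757 n603 .nil)
noncomputable def n658 : Strat := .move 841 n656 (.cons 963 n657 .nil)
noncomputable def n659 : Strat := .move 800 n15 (.cons 759 n658 .nil)
noncomputable def n660 : Strat := .move 922 n21 (.cons 759 n651 (.cons 921 n655 (.cons 962 n659 .nil)))
noncomputable def n661 : Strat := .win 880 7 839
noncomputable def n662 : Strat := .move 1004 n661 (.cons 880 n557 .nil)
noncomputable def n663 : Strat := .move 839 n586 (.cons 798 n662 .nil)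
noncomputable def n664 : Strat := .move 963 n16 (.cons 841 n663 .nil)
noncomputable def n665 : Strat := .move 800 n15 (.cons 759 n664 .nil)
noncomputable def n666 : Strat := .win 798 6 798
noncomputable def n667 : Strat := .win 1004 7 839
noncomputable def n668 : Strat := .move 839 n666 (.cons 798 n667 .nil)
noncomputable def n669 : Strat := .win 1045 7 880
noncomputable def n670 : Strat := .win 839 7 839
noncomputable def n671 : Strat := .move 1004 n669 (.cons 1045 n670 .nil)
noncomputable def n672 : Strat := .move 800 n16 (.cons 841 n671 .nil)
noncomputable def n673 : Strat := .move 1004 n574 (.cons 882 n669 .nil)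
noncomputable def n674 : Strat := .move 841 n573 (.cons 800 n673 .nil)
noncomputable def n675 : Strat := .win 879 4 838
noncomputable def n676 : Strat := .win 843 4 839
noncomputable def n677 : Strat := .move 842 n675 (.cons 879 n676 .nil)
noncomputable def n678 : Strat := .move 841 n573 (.cons 800 n677 .nil)
noncomputable def n679 : Strat := .move 839 n666 (.cons 798 n678 .nil)
noncomputable def n680 : Strat := .move 963 n668 (.cons 798 n672 (.cons 839 n674 (.cons 1004 n679 .nil)))
noncomputable def n681 : Strat := .move 880 n144 (.cons 758 n680 .nil)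
noncomputable def n682 : Strat := .move 921 n28 (.cons 962 n681 .nil)
noncomputable def n683 : Strat := .win 798 2 798
noncomputable def n684 : Strat := .win 844 2 799
noncomputable def n685 : Strat := .move 843 n683 (.cons 798 n684 .nil)
noncomputable def n686 : Strat := .move 798 n126 (.cons 797 n482 .nil)
noncomputable def n687 : Strat := .win 838 5 797
noncomputable def n688 : Strat := .move 801 n687 (.cons 838 n115 .nil)
noncomputable def n689 : Strat := .win 798 0 797
noncomputable def n690 : Strat := .move 838 n369 (.cons 796 n290 .nil)
noncomputable def n691 : Strat := .move 797 n689 (.cons 798 n690 .nil)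
noncomputable def n692 : Strat := .win 717 1 716
noncomputable def n693 : Strat := .move 758 n692 (.cons 717 n7 .nil)
noncomputable def n694 : Strat := .move 880 n675 (.cons 879 n693 .nil)
noncomputable def n695 : Strat := .move 839 n291 (.cons 837 n688 (.cons 801 n691 (.cons 838 n694 .nil)))
noncomputable def n696 : Strat := .win 880 4 839
noncomputable def n697 : Strat := .move 843 n684 (.cons 844 n696 .nil)
noncomputable def n698 : Strat := .move 842 n685 (.cons 844 n686 (.cons 843 n695 (.cons 798 n697 .nil)))
noncomputable def n699 : Strat := .move 841 n656 (.cons 963 n698 .nil)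
noncomputable def n700 : Strat := .move 800 n15 (.cons 759 n699 .nil)
noncomputable def n701 : Strat := .move 1004 n661 (.cons 880 n560 .nil)
noncomputable def n702 : Strat := .move 839 n586 (.cons 798 n701 .nil)
noncomputable def n703 : Strat := .move 963 n18 (.cons 1003 n702 .nil)
noncomputable def n704 : Strat := .move 962 n17 (.cons 921 n703 .nil)
noncomputable def n705 : Strat := .move 922 n21 (.cons 921 n665 (.cons 759 n682 (.cons 962 n700 (.cons 963 n95 (.cons 800 n704 .nil)))))
noncomputable def n706 : Strat := .move 881 n189 (.cons 759 n616 (.cons 921 n495 (.cons 758 n627 (.cons 798 n628 (.cons 922 n640 (.cons 880 n649 (.cons 839 n660 (.cons 757 n705 .nil))))))))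
noncomputable def n707 : Strat := .move 962 n18 (.cons 1003 n17 .nil)
noncomputable def n708 : Strat := .move 964 n23 (.cons 1005 n22 .nil)
noncomputable def n709 : Strat := .move 963 n707 (.cons 921 n708 .nil)
noncomputable def n710 : Strat := .move 717 n36 (.cons 677 n709 .nil)
noncomputable def n711 : Strat := .move 718 n35 (.cons 759 n710 .nil)
noncomputable def n712 : Strat := .move 922 n1 (.cons 798 n711 .nil)
noncomputable def n713 : Strat := .move 757 n0 (.cons 716 n712 .nil)
noncomputable def n714 : Strat := .move 758 n70 (.cons 757 n433 (.cons 882 n713 (.cons 923 n235 .nil)))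
noncomputable def n715 : Strat := .move 758 n67 (.cons 880 n713 (.cons 717 n140 (.cons 757 n39 (.cons 921 n235 .nil))))
noncomputable def n716 : Strat := .move 758 n67 (.cons 880 n235 (.cons 716 n39 .nil))
noncomputable def n717 : Strat := .move 758 n13 (.cons 841 n39 (.cons 839 n433 (.cons 717 n400 .nil)))
noncomputable def n718 : Strat := .move 922 n150 (.cons 758 n78 (.cons 923 n93 .nil))
noncomputable def n719 : Strat := .move 963 n23 (.cons 1005 n19 .nil)
noncomputable def n720 : Strat := .move 964 n22 (.cons 923 n719 .nil)
noncomputable def n721 : Strat := .move 798 n72 (.cons 757 n720 .nil)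
noncomputable def n722 : Strat := .move 882 n80 (.cons 883 n81 .nil)
noncomputable def n723 : Strat := .move 879 n146 (.cons 924 n145 .nil)
noncomputable def n724 : Strat := .win 925 2 880
noncomputable def n725 : Strat := .win 879 2 879
noncomputable def n726 : Strat := .move 924 n724 (.cons 925 n725 .nil)
noncomputable def n727 : Strat := .win 839 1 797
noncomputable def n728 : Strat := .win 960 4 919
noncomputable def n729 : Strat := .move 961 n727 (.cons 839 n728 .nil)
noncomputable def n730 : Strat := .move 880 n723 (.cons 878 n726 (.cons 924 n729 .nil))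
noncomputable def n731 : Strat := .move 920 n722 (.cons 919 n730 .nil)
noncomputable def n732 : Strat := .move 923 n27 (.cons 964 n731 .nil)
noncomputable def n733 : Strat := .move 921 n28 (.cons 962 n732 .nil)
noncomputable def n734 : Strat := .move 798 n77 (.cons 963 n733 (.cons 923 n92 (.cons 839 n720 .nil)))
noncomputable def n735 : Strat := .move 798 n72 (.cons 757 n731 .nil)
noncomputable def n736 : Strat := .move 921 n28 (.cons 962 n735 .nil)
noncomputable def n737 : Strat := .move 923 n27 (.cons 964 n736 .nil)
noncomputable def n738 : Strat := .move 963 n18 (.cons 1003 n24 .nil)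
noncomputable def n739 : Strat := .move 962 n17 (.cons 921 n738 .nil)
noncomputable def n740 : Strat := .move 922 n78 (.cons 923 n93 (.cons 839 n721 (.cons 757 n734 (.cons 963 n737 (.cons 798 n739 .nil)))))
noncomputable def n741 : Strat := .move 881 n71 (.cons 880 n714 (.cons 882 n715 (.cons 921 n434 (.cons 923 n716 (.cons 757 n717 (.cons 717 n718 (.cons 758 n740 .nil)))))))
noncomputable def n742 : Strat := .win 963 6 798
noncomputable def n743 : Strat := .win 756 7 756
noncomputable def n744 : Strat := .win 795 0 795
noncomputable def n745 : Strat := .move 796 n744 (.cons 795 n159 .nil)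
noncomputable def n746 : Strat := .move 797 n743 (.cons 756 n745 .nil)
noncomputable def n747 : Strat := .move 839 n742 (.cons 963 n746 .nil)
noncomputable def n748 : Strat := .move 880 n144 (.cons 758 n747 .nil)
noncomputable def n749 : Strat := .move 921 n28 (.cons 962 n748 .nil)
noncomputable def n750 : Strat := .move 798 n72 (.cons 757 n749 .nil)
noncomputable def n751 : Strat := .move 922 n457 (.cons 963 n95 (.cons 800 n750 .nil))
noncomputable def n752 : Strat := .move 758 n13 (.cons 841 n260 .nil)
noncomputable def n753 : Strat := .move 922 n457 (.cons 798 n21 (.cons 800 n93 (.cons 963 n626 .nil)))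
noncomputable def n754 : Strat := .move 756 n49 (.cons 755 n48 .nil)
noncomputable def n755 : Strat := .move 798 n55 (.cons 797 n54 .nil)
noncomputable def n756 : Strat := .move 841 n105 (.cons 719 n104 .nil)
noncomputable def n757 : Strat := .move 760 n755 (.cons 761 n756 .nil)
noncomputable def n758 : Strat := .move 882 n9 (.cons 923 n757 .nil)
noncomputable def n759 : Strat := .move 800 n450 (.cons 802 n754 (.cons 801 n758 .nil))
noncomputable def n760 : Strat := .move 757 n0 (.cons 716 n759 .nil)
noncomputable def n761 : Strat := .move 759 n2 (.cons 718 n760 .nil)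
noncomputable def n762 : Strat := .move 758 n39 (.cons 677 n67 (.cons 839 n268 (.cons 880 n761 (.cons 717 n64 .nil))))
noncomputable def n763 : Strat := .move 758 n39 (.cons 677 n42 (.cons 839 n453 .nil))
noncomputable def n764 : Strat := .move 758 n67 (.cons 757 n13 (.cons 839 n188 .nil))
noncomputable def n765 : Strat := .win 800 0 797
noncomputable def n766 : Strat := .move 797 n765 (.cons 800 n124 .nil)
noncomputable def n767 : Strat := .move 842 n482 (.cons 843 n766 .nil)
noncomputable def n768 : Strat := .move 841 n104 (.cons 717 n767 .nil)
noncomputable def n769 : Strat := .move 882 n9 (.cons 923 n768 .nil)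
noncomputable def n770 : Strat := .move 798 n183 (.cons 922 n769 .nil)
noncomputable def n771 : Strat := .move 757 n0 (.cons 716 n770 .nil)
noncomputable def n772 : Strat := .win 839 1 756
noncomputable def n773 : Strat := .move 920 n343 (.cons 919 n772 .nil)
noncomputable def n774 : Strat := .move 879 n773 (.cons 839 n338 .nil)
noncomputable def n775 : Strat := .move 882 n9 (.cons 923 n774 .nil)
noncomputable def n776 : Strat := .move 880 n7 (.cons 921 n775 .nil)
noncomputable def n777 : Strat := .move 798 n183 (.cons 922 n776 .nil)
noncomputable def n778 : Strat := .move 757 n0 (.cons 716 n777 .nil)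
noncomputable def n779 : Strat := .move 758 n13 (.cons 923 n67 (.cons 839 n771 (.cons 717 n778 .nil)))
noncomputable def n780 : Strat := .win 795 5 754
noncomputable def n781 : Strat := .move 796 n159 (.cons 841 n780 .nil)
noncomputable def n782 : Strat := .move 759 n51 (.cons 760 n184 .nil)
noncomputable def n783 : Strat := .move 801 n598 (.cons 756 n98 .nil)
noncomputable def n784 : Strat := .move 756 n600 (.cons 801 n49 .nil)
noncomputable def n785 : Strat := .win 759 4 756
noncomputable def n786 : Strat := .move 801 n130 (.cons 761 n98 .nil)
noncomputable def n787 : Strat := .move 760 n785 (.cons 759 n786 .nil)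
noncomputable def n788 : Strat := .move 882 n104 (.cons 717 n9 .nil)
noncomputable def n789 : Strat := .move 841 n123 (.cons 842 n788 .nil)
noncomputable def n790 : Strat := .move 800 n783 (.cons 802 n784 (.cons 756 n787 (.cons 801 n789 .nil)))
noncomputable def n791 : Strat := .move 797 n781 (.cons 795 n782 (.cons 796 n790 .nil))
noncomputable def n792 : Strat := .move 798 n183 (.cons 922 n791 .nil)
noncomputable def n793 : Strat := .move 757 n0 (.cons 716 n792 .nil)
noncomputable def n794 : Strat := .move 717 n477 (.cons 880 n478 (.cons 839 n11 .nil))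
noncomputable def n795 : Strat := .move 798 n183 (.cons 922 n794 .nil)
noncomputable def n796 : Strat := .move 757 n0 (.cons 716 n795 .nil)
noncomputable def n797 : Strat := .move 676 n278 (.cons 839 n279 .nil)
noncomputable def n798 : Strat := .move 798 n56 (.cons 797 n797 .nil)
noncomputable def n799 : Strat := .move 717 n10 (.cons 841 n798 .nil)
noncomputable def n800 : Strat := .move 882 n9 (.cons 923 n799 .nil)
noncomputable def n801 : Strat := .move 759 n2 (.cons 718 n800 .nil)
noncomputable def n802 : Strat := .move 757 n0 (.cons 716 n801 .nil)
noncomputable def n803 : Strat := .move 758 n103 (.cons 757 n113 (.cons 718 n793 (.cons 800 n235 (.cons 759 n796 (.cons 922 n802 .nil)))))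
noncomputable def n804 : Strat := .move 800 n97 (.cons 922 n450 .nil)
noncomputable def n805 : Strat := .move 757 n0 (.cons 716 n804 .nil)
noncomputable def n806 : Strat := .move 759 n2 (.cons 718 n805 .nil)
noncomputable def n807 : Strat := .move 758 n806 (.cons 759 n771 (.cons 922 n268 (.cons 716 n113 .nil)))
noncomputable def n808 : Strat := .move 717 n8 (.cons 839 n470 .nil)
noncomputable def n809 : Strat := .move 880 n7 (.cons 921 n808 .nil)
noncomputable def n810 : Strat := .move 800 n97 (.cons 922 n809 .nil)
noncomputable def n811 : Strat := .move 759 n2 (.cons 718 n810 .nil)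
noncomputable def n812 : Strat := .move 882 n9 (.cons 923 n263 .nil)
noncomputable def n813 : Strat := .win 839 4 838
noncomputable def n814 : Strat := .move 879 n813 (.cons 839 n262 .nil)
noncomputable def n815 : Strat := .move 842 n676 (.cons 843 n814 .nil)
noncomputable def n816 : Strat := .win 879 5 838
noncomputable def n817 : Strat := .move 842 n816 (.cons 879 n676 .nil)
noncomputable def n818 : Strat := .move 882 n9 (.cons 923 n817 .nil)
noncomputable def n819 : Strat := .move 882 n105 (.cons 719 n9 .nil)
noncomputable def n820 : Strat := .move 760 n108 (.cons 798 n819 .nil)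
noncomputable def n821 : Strat := .move 841 n812 (.cons 882 n815 (.cons 878 n818 (.cons 842 n820 .nil)))
noncomputable def n822 : Strat := .move 880 n7 (.cons 921 n821 .nil)
noncomputable def n823 : Strat := .move 800 n97 (.cons 922 n822 .nil)
noncomputable def n824 : Strat := .move 759 n2 (.cons 718 n823 .nil)
noncomputable def n825 : Strat := .move 758 n13 (.cons 880 n113 (.cons 882 n811 (.cons 841 n39 (.cons 717 n824 .nil))))
noncomputable def n826 : Strat := .win 759 5 755
noncomputable def n827 : Strat := .move 796 n780 (.cons 795 n826 .nil)
noncomputable def n828 : Strat := .move 797 n781 (.cons 796 n790 (.cons 841 n827 .nil))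
noncomputable def n829 : Strat := .move 798 n183 (.cons 922 n828 .nil)
noncomputable def n830 : Strat := .move 757 n0 (.cons 716 n829 .nil)
noncomputable def n831 : Strat := .move 841 n788 (.cons 923 n125 .nil)
noncomputable def n832 : Strat := .move 755 n602 (.cons 756 n831 .nil)
noncomputable def n833 : Strat := .move 801 n98 (.cons 802 n831 .nil)
noncomputable def n834 : Strat := .move 800 n599 (.cons 802 n601 (.cons 801 n832 (.cons 756 n833 .nil)))
noncomputable def n835 : Strat := .move 798 n183 (.cons 922 n834 .nil)
noncomputable def n836 : Strat := .move 757 n0 (.cons 716 n835 .nil)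
noncomputable def n837 : Strat := .move 758 n453 (.cons 757 n113 (.cons 922 n761 (.cons 718 n830 (.cons 759 n836 (.cons 800 n235 .nil)))))
noncomputable def n838 : Strat := .win 715 7 715
noncomputable def n839 : Strat := .win 754 0 754
noncomputable def n840 : Strat := .move 755 n839 (.cons 754 n535 .nil)
noncomputable def n841 : Strat := .move 756 n838 (.cons 715 n840 .nil)
noncomputable def n842 : Strat := .move 839 n692 (.cons 717 n841 .nil)
noncomputable def n843 : Strat := .move 880 n7 (.cons 921 n842 .nil)
noncomputable def n844 : Strat := .move 798 n183 (.cons 922 n843 .nil)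
noncomputable def n845 : Strat := .move 757 n0 (.cons 716 n844 .nil)
noncomputable def n846 : Strat := .move 758 n188 (.cons 757 n39 (.cons 718 n845 .nil))
noncomputable def n847 : Strat := .move 881 n751 (.cons 756 n752 (.cons 758 n753 (.cons 922 n762 (.cons 798 n763 (.cons 800 n764 (.cons 759 n779 (.cons 921 n803 (.cons 839 n807 (.cons 757 n825 (.cons 880 n837 (.cons 841 n846 .nil)))))))))))
noncomputable def n848 : Strat := .move 717 n193 (.cons 718 n256 .nil)
noncomputable def n849 : Strat := .move 881 n6 (.cons 798 n175 (.cons 759 n70 (.cons 922 n64 .nil)))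
noncomputable def n850 : Strat := .move 839 n199 (.cons 718 n255 (.cons 676 n193 .nil))
noncomputable def n851 : Strat := .move 757 n277 (.cons 881 n414 .nil)
noncomputable def n852 : Strat := .move 718 n36 (.cons 677 n851 .nil)
noncomputable def n853 : Strat := .move 716 n44 (.cons 675 n852 .nil)
noncomputable def n854 : Strat := .move 760 n272 (.cons 715 n271 .nil)
noncomputable def n855 : Strat := .move 716 n44 (.cons 675 n854 .nil)
noncomputable def n856 : Strat := .move 759 n270 (.cons 881 n855 .nil)
noncomputable def n857 : Strat := .move 718 n36 (.cons 677 n856 .nil)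
noncomputable def n858 : Strat := .win 678 3 677
noncomputable def n859 : Strat := .win 721 4 717
noncomputable def n860 : Strat := .move 720 n859 (.cons 721 n309 .nil)
noncomputable def n861 : Strat := .move 719 n858 (.cons 678 n860 .nil)
noncomputable def n862 : Strat := .move 800 n288 (.cons 676 n861 .nil)
noncomputable def n863 : Strat := .move 841 n202 (.cons 882 n862 .nil)
noncomputable def n864 : Strat := .move 759 n270 (.cons 881 n863 .nil)
noncomputable def n865 : Strat := .move 718 n36 (.cons 677 n864 .nil)
noncomputable def n866 : Strat := .win 594 1 593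
noncomputable def n867 : Strat := .win 798 1 634
noncomputable def n868 : Strat := .move 635 n866 (.cons 594 n867 .nil)
noncomputable def n869 : Strat := .move 676 n280 (.cons 839 n868 (.cons 798 n254 .nil))
noncomputable def n870 : Strat := .move 757 n277 (.cons 881 n869 .nil)
noncomputable def n871 : Strat := .move 716 n44 (.cons 675 n870 .nil)
noncomputable def n872 : Strat := .move 635 n867 (.cons 798 n866 .nil)
noncomputable def n873 : Strat := .move 757 n223 (.cons 756 n872 .nil)
noncomputable def n874 : Strat := .move 676 n209 (.cons 800 n873 .nil)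
noncomputable def n875 : Strat := .move 841 n202 (.cons 882 n874 .nil)
noncomputable def n876 : Strat := .move 718 n36 (.cons 677 n875 .nil)
noncomputable def n877 : Strat := .move 716 n44 (.cons 675 n876 .nil)
noncomputable def n878 : Strat := .move 717 n850 (.cons 841 n853 (.cons 757 n857 (.cons 716 n865 (.cons 718 n871 (.cons 881 n877 .nil)))))
noncomputable def n879 : Strat := .move 718 n36 (.cons 677 n491 .nil)
noncomputable def n880 : Strat := .move 716 n44 (.cons 675 n879 .nil)
noncomputable def n881 : Strat := .move 717 n880 (.cons 716 n256 (.cons 841 n200 (.cons 880 n877 (.cons 798 n296 (.cons 676 n231 .nil)))))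
noncomputable def n882 : Strat := .move 881 n333 (.cons 675 n329 (.cons 880 n70 .nil))
noncomputable def n883 : Strat := .move 841 n209 (.cons 800 n303 .nil)
noncomputable def n884 : Strat := .move 800 n468 (.cons 841 n469 .nil)
noncomputable def n885 : Strat := .move 676 n883 (.cons 800 n246 (.cons 839 n884 .nil))
noncomputable def n886 : Strat := .move 759 n270 (.cons 881 n885 .nil)
noncomputable def n887 : Strat := .move 718 n36 (.cons 677 n886 .nil)
noncomputable def n888 : Strat := .move 717 n256 (.cons 880 n865 (.cons 882 n887 (.cons 800 n245 .nil)))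
noncomputable def n889 : Strat := .move 717 n256 (.cons 880 n871 (.cons 839 n253 (.cons 882 n251 .nil)))
noncomputable def n890 : Strat := .win 677 1 676
noncomputable def n891 : Strat := .win 881 1 717
noncomputable def n892 : Strat := .move 718 n890 (.cons 677 n891 .nil)
noncomputable def n893 : Strat := .win 718 1 717
noncomputable def n894 : Strat := .move 881 n893 (.cons 718 n97 .nil)
noncomputable def n895 : Strat := .move 759 n892 (.cons 677 n894 (.cons 718 n292 .nil))
noncomputable def n896 : Strat := .move 800 n288 (.cons 676 n895 .nil)
noncomputable def n897 : Strat := .move 841 n896 (.cons 676 n287 (.cons 718 n213 .nil))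
noncomputable def n898 : Strat := .move 881 n35 (.cons 759 n43 .nil)
noncomputable def n899 : Strat := .move 718 n36 (.cons 677 n898 .nil)
noncomputable def n900 : Strat := .move 716 n44 (.cons 675 n899 .nil)
noncomputable def n901 : Strat := .move 717 n897 (.cons 716 n887 (.cons 718 n251 (.cons 676 n900 .nil)))
noncomputable def n902 : Strat := .move 717 n857 (.cons 715 n200 (.cons 718 n256 .nil))
noncomputable def n903 : Strat := .win 800 3 718
noncomputable def n904 : Strat := .move 719 n903 (.cons 800 n527 .nil)
noncomputable def n905 : Strat := .move 760 n755 (.cons 761 n904 .nil)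
noncomputable def n906 : Strat := .move 841 n104 (.cons 717 n905 .nil)
noncomputable def n907 : Strat := .move 882 n9 (.cons 923 n906 .nil)
noncomputable def n908 : Strat := .move 757 n0 (.cons 716 n907 .nil)
noncomputable def n909 : Strat := .move 759 n2 (.cons 718 n908 .nil)
noncomputable def n910 : Strat := .move 881 n181 (.cons 798 n175 (.cons 759 n70 (.cons 922 n909 .nil)))
noncomputable def n911 : Strat := .move 716 n44 (.cons 675 n898 .nil)
noncomputable def n912 : Strat := .move 718 n36 (.cons 677 n911 .nil)
noncomputable def n913 : Strat := .move 839 n194 (.cons 880 n912 .nil)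
noncomputable def n914 : Strat := .move 717 n913 (.cons 881 n296 (.cons 839 n287 (.cons 718 n253 (.cons 716 n245 .nil))))
noncomputable def n915 : Strat := .move 758 n848 (.cons 717 n849 (.cons 880 n878 (.cons 881 n881 (.cons 800 n882 (.cons 716 n888 (.cons 718 n889 (.cons 882 n901 (.cons 757 n902 (.cons 839 n910 (.cons 798 n914 .nil))))))))))
noncomputable def n916 : Strat := .move 758 n6 (.cons 922 n64 (.cons 798 n175 (.cons 759 n70 .nil)))
noncomputable def n917 : Strat := .move 758 n177 (.cons 800 n400 (.cons 880 n175 .nil))
noncomputable def n918 : Strat := .move 838 n394 (.cons 839 n392 .nil)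
noncomputable def n919 : Strat := .move 842 n393 (.cons 843 n391 .nil)
noncomputable def n920 : Strat := .move 883 n918 (.cons 837 n919 .nil)
noncomputable def n921 : Strat := .move 878 n384 (.cons 838 n388 .nil)
noncomputable def n922 : Strat := .move 879 n338 (.cons 878 n920 (.cons 842 n385 (.cons 841 n921 .nil)))
noncomputable def n923 : Strat := .move 759 n2 (.cons 718 n922 .nil)
noncomputable def n924 : Strat := .move 882 n9 (.cons 923 n923 .nil)
noncomputable def n925 : Strat := .move 880 n7 (.cons 921 n924 .nil)
noncomputable def n926 : Strat := .move 758 n64 (.cons 921 n533 (.cons 801 n349 (.cons 798 n925 .nil)))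
noncomputable def n927 : Strat := .move 922 n91 (.cons 800 n78 (.cons 757 n21 (.cons 963 n136 .nil)))
noncomputable def n928 : Strat := .win 839 7 756
noncomputable def n929 : Strat := .move 756 n620 (.cons 755 n928 .nil)
noncomputable def n930 : Strat := .move 797 n152 (.cons 796 n929 .nil)
noncomputable def n931 : Strat := .move 800 n15 (.cons 759 n930 .nil)
noncomputable def n932 : Strat := .move 798 n72 (.cons 757 n931 .nil)
noncomputable def n933 : Strat := .move 880 n144 (.cons 758 n932 .nil)
noncomputable def n934 : Strat := .move 921 n28 (.cons 962 n933 .nil)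
noncomputable def n935 : Strat := .move 922 n91 (.cons 800 n93 (.cons 839 n21 (.cons 963 n934 .nil)))
noncomputable def n936 : Strat := .move 842 n482 (.cons 843 n126 .nil)
noncomputable def n937 : Strat := .move 841 n656 (.cons 963 n936 .nil)
noncomputable def n938 : Strat := .move 800 n15 (.cons 759 n937 .nil)
noncomputable def n939 : Strat := .move 798 n72 (.cons 757 n938 .nil)
noncomputable def n940 : Strat := .move 922 n939 (.cons 797 n33 .nil)
noncomputable def n941 : Strat := .move 922 n76 (.cons 800 n78 (.cons 798 n26 (.cons 963 n436 .nil)))
noncomputable def n942 : Strat := .move 881 n916 (.cons 800 n718 (.cons 757 n917 (.cons 922 n926 (.cons 758 n927 (.cons 923 n935 (.cons 839 n940 (.cons 921 n941 .nil)))))))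
noncomputable def n943 : Strat := .move 758 n177 (.cons 759 n67 (.cons 921 n453 .nil))
noncomputable def n944 : Strat := .move 922 n93 (.cons 921 n78 (.cons 839 n150 .nil))
noncomputable def n945 : Strat := .move 797 n184 (.cons 796 n51 .nil)
noncomputable def n946 : Strat := .move 759 n2 (.cons 718 n945 .nil)
noncomputable def n947 : Strat := .move 757 n0 (.cons 716 n946 .nil)
noncomputable def n948 : Strat := .move 755 n535 (.cons 800 n839 .nil)
noncomputable def n949 : Strat := .move 756 n838 (.cons 715 n948 .nil)
noncomputable def n950 : Strat := .move 839 n692 (.cons 717 n949 .nil)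
noncomputable def n951 : Strat := .move 880 n7 (.cons 921 n950 .nil)
noncomputable def n952 : Strat := .move 757 n0 (.cons 716 n951 .nil)
noncomputable def n953 : Strat := .win 800 5 756
noncomputable def n954 : Strat := .move 760 n54 (.cons 761 n953 .nil)
noncomputable def n955 : Strat := .move 797 n184 (.cons 796 n954 .nil)
noncomputable def n956 : Strat := .move 759 n2 (.cons 718 n955 .nil)
noncomputable def n957 : Strat := .move 798 n947 (.cons 760 n952 (.cons 757 n956 .nil))
noncomputable def n958 : Strat := .move 760 n524 (.cons 802 n755 .nil)
noncomputable def n959 : Strat := .move 801 n544 (.cons 800 n958 .nil)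
noncomputable def n960 : Strat := .move 756 n534 (.cons 800 n543 (.cons 755 n959 .nil))
noncomputable def n961 : Strat := .move 757 n0 (.cons 716 n960 .nil)
noncomputable def n962 : Strat := .move 759 n2 (.cons 718 n961 .nil)
noncomputable def n963 : Strat := .move 758 n957 (.cons 754 n39 (.cons 759 n67 (.cons 717 n64 (.cons 839 n962 .nil))))
noncomputable def n964 : Strat := .move 923 n27 (.cons 964 n723 .nil)
noncomputable def n965 : Strat := .move 880 n144 (.cons 758 n964 .nil)
noncomputable def n966 : Strat := .move 921 n28 (.cons 962 n965 .nil)
noncomputable def n967 : Strat := .move 800 n15 (.cons 759 n966 .nil)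
noncomputable def n968 : Strat := .move 798 n90 (.cons 839 n938 (.cons 759 n92 (.cons 963 n967 .nil)))
noncomputable def n969 : Strat := .move 922 n968 (.cons 798 n150 (.cons 924 n21 (.cons 921 n26 .nil)))
noncomputable def n970 : Strat := .move 922 n939 (.cons 759 n150 .nil)
noncomputable def n971 : Strat := .move 881 n96 (.cons 798 n943 (.cons 800 n715 (.cons 759 n944 (.cons 921 n466 (.cons 922 n963 (.cons 757 n969 (.cons 839 n970 .nil)))))))
noncomputable def n972 : Strat := .move 717 n248 (.cons 880 n242 (.cons 882 n200 (.cons 676 n245 .nil)))
noncomputable def n973 : Strat := .move 881 n35 (.cons 759 n236 .nil)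
noncomputable def n974 : Strat := .move 718 n36 (.cons 677 n973 .nil)
noncomputable def n975 : Strat := .win 595 3 594
noncomputable def n976 : Strat := .win 677 3 635
noncomputable def n977 : Strat := .move 636 n975 (.cons 595 n976 .nil)
noncomputable def n978 : Strat := .win 593 7 593
noncomputable def n979 : Strat := .win 675 7 634
noncomputable def n980 : Strat := .move 634 n978 (.cons 593 n979 .nil)
noncomputable def n981 : Strat := .move 635 n977 (.cons 677 n980 .nil)
noncomputable def n982 : Strat := .move 881 n9 (.cons 923 n981 .nil)
noncomputable def n983 : Strat := .move 882 n10 (.cons 841 n982 .nil)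
noncomputable def n984 : Strat := .move 676 n195 (.cons 798 n983 .nil)
noncomputable def n985 : Strat := .move 839 n194 (.cons 880 n984 .nil)
noncomputable def n986 : Strat := .move 717 n245 (.cons 881 n200 (.cons 839 n974 (.cons 718 n985 (.cons 677 n207 .nil))))
noncomputable def n987 : Strat := .move 881 n42 (.cons 717 n177 (.cons 880 n175 .nil))
noncomputable def n988 : Strat := .move 838 n340 (.cons 837 n339 .nil)
noncomputable def n989 : Strat := .move 882 n9 (.cons 923 n988 .nil)
noncomputable def n990 : Strat := .move 839 n692 (.cons 717 n989 .nil)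
noncomputable def n991 : Strat := .move 880 n7 (.cons 921 n990 .nil)
noncomputable def n992 : Strat := .move 881 n177 (.cons 962 n175 (.cons 759 n991 .nil))
noncomputable def n993 : Strat := .move 842 n676 (.cons 843 n816 .nil)
noncomputable def n994 : Strat := .move 880 n7 (.cons 921 n993 .nil)
noncomputable def n995 : Strat := .move 841 n104 (.cons 717 n994 .nil)
noncomputable def n996 : Strat := .move 882 n9 (.cons 923 n995 .nil)
noncomputable def n997 : Strat := .move 881 n175 (.cons 964 n113 (.cons 882 n177 (.cons 922 n996 .nil)))
noncomputable def n998 : Strat := .move 841 n104 (.cons 717 n993 .nil)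
noncomputable def n999 : Strat := .move 882 n9 (.cons 923 n998 .nil)
noncomputable def n1000 : Strat := .move 880 n7 (.cons 921 n999 .nil)
noncomputable def n1001 : Strat := .win 757 6 757
noncomputable def n1002 : Strat := .move 798 n1001 (.cons 757 n566 .nil)
noncomputable def n1003 : Strat := .move 963 n586 (.cons 798 n667 .nil)
noncomputable def n1004 : Strat := .move 963 n16 (.cons 841 n667 .nil)
noncomputable def n1005 : Strat := .move 800 n15 (.cons 759 n1004 .nil)
noncomputable def n1006 : Strat := .move 800 n15 (.cons 759 n505 .nil)
noncomputable def n1007 : Strat := .move 798 n1001 (.cons 757 n1006 .nil)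
noncomputable def n1008 : Strat := .move 922 n1002 (.cons 757 n1003 (.cons 798 n1005 (.cons 963 n1007 .nil)))
noncomputable def n1009 : Strat := .move 839 n692 (.cons 717 n1008 .nil)
noncomputable def n1010 : Strat := .move 880 n7 (.cons 921 n1009 .nil)
noncomputable def n1011 : Strat := .win 759 1 758
noncomputable def n1012 : Strat := .move 800 n1011 (.cons 759 n656 .nil)
noncomputable def n1013 : Strat := .move 963 n573 (.cons 800 n580 .nil)
noncomputable def n1014 : Strat := .move 963 n73 (.cons 839 n580 .nil)
noncomputable def n1015 : Strat := .move 798 n72 (.cons 757 n1014 .nil)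
noncomputable def n1016 : Strat := .move 798 n72 (.cons 757 n125 .nil)
noncomputable def n1017 : Strat := .move 800 n1011 (.cons 759 n1016 .nil)
noncomputable def n1018 : Strat := .move 922 n1012 (.cons 759 n1013 (.cons 800 n1015 (.cons 963 n1017 .nil)))
noncomputable def n1019 : Strat := .move 841 n104 (.cons 717 n1018 .nil)
noncomputable def n1020 : Strat := .move 882 n9 (.cons 923 n1019 .nil)
noncomputable def n1021 : Strat := .move 881 n1000 (.cons 882 n1010 (.cons 880 n1020 (.cons 841 n991 (.cons 717 n400 .nil))))
noncomputable def n1022 : Strat := .move 963 n73 (.cons 839 n707 .nil)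
noncomputable def n1023 : Strat := .move 798 n72 (.cons 757 n1022 .nil)
noncomputable def n1024 : Strat := .move 922 n3 (.cons 800 n1023 .nil)
noncomputable def n1025 : Strat := .move 759 n2 (.cons 718 n1024 .nil)
noncomputable def n1026 : Strat := .move 717 n10 (.cons 841 n191 .nil)
noncomputable def n1027 : Strat := .move 882 n9 (.cons 923 n1026 .nil)
noncomputable def n1028 : Strat := .move 963 n73 (.cons 839 n573 .nil)
noncomputable def n1029 : Strat := .move 798 n72 (.cons 757 n1028 .nil)
noncomputable def n1030 : Strat := .move 798 n72 (.cons 757 n767 .nil)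
noncomputable def n1031 : Strat := .move 963 n580 (.cons 1004 n707 .nil)
noncomputable def n1032 : Strat := .move 922 n1013 (.cons 1004 n1029 (.cons 963 n1030 (.cons 800 n1031 .nil)))
noncomputable def n1033 : Strat := .move 841 n104 (.cons 717 n1032 .nil)
noncomputable def n1034 : Strat := .move 882 n9 (.cons 923 n1033 .nil)
noncomputable def n1035 : Strat := .move 881 n175 (.cons 882 n1025 (.cons 718 n1020 (.cons 922 n1027 (.cons 759 n1034 .nil))))
noncomputable def n1036 : Strat := .move 963 n73 (.cons 839 n708 .nil)
noncomputable def n1037 : Strat := .move 798 n72 (.cons 757 n1036 .nil)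
noncomputable def n1038 : Strat := .move 922 n28 (.cons 962 n1037 .nil)
noncomputable def n1039 : Strat := .move 921 n29 (.cons 880 n1038 .nil)
noncomputable def n1040 : Strat := .move 757 n99 (.cons 756 n98 .nil)
noncomputable def n1041 : Strat := .win 757 2 757
noncomputable def n1042 : Strat := .win 803 2 758
noncomputable def n1043 : Strat := .move 802 n1041 (.cons 757 n1042 .nil)
noncomputable def n1044 : Strat := .move 797 n501 (.cons 760 n184 .nil)
noncomputable def n1045 : Strat := .win 797 5 756
noncomputable def n1046 : Strat := .move 760 n1045 (.cons 797 n54 .nil)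
noncomputable def n1047 : Strat := .win 757 0 756
noncomputable def n1048 : Strat := .move 797 n620 (.cons 755 n184 .nil)
noncomputable def n1049 : Strat := .move 756 n1047 (.cons 757 n1048 .nil)
noncomputable def n1050 : Strat := .move 839 n116 (.cons 838 n504 .nil)
noncomputable def n1051 : Strat := .move 798 n1044 (.cons 796 n1046 (.cons 760 n1049 (.cons 797 n1050 .nil)))
noncomputable def n1052 : Strat := .move 802 n1042 (.cons 803 n118 .nil)
noncomputable def n1053 : Strat := .move 801 n1040 (.cons 756 n1043 (.cons 802 n1051 (.cons 757 n1052 .nil)))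
noncomputable def n1054 : Strat := .move 800 n97 (.cons 922 n1053 .nil)
noncomputable def n1055 : Strat := .move 759 n2 (.cons 718 n1054 .nil)
noncomputable def n1056 : Strat := .move 881 n177 (.cons 880 n1025 (.cons 718 n1010 (.cons 922 n329 (.cons 759 n1039 (.cons 921 n1055 .nil)))))
noncomputable def n1057 : Strat := .move 881 n177 (.cons 880 n175 (.cons 718 n400 .nil))
noncomputable def n1058 : Strat := .move 758 n972 (.cons 759 n429 (.cons 800 n986 (.cons 636 n987 (.cons 841 n992 (.cons 839 n997 (.cons 718 n1021 (.cons 880 n1035 (.cons 882 n1056 (.cons 717 n1057 .nil)))))))))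
noncomputable def n1059 : Strat := .move 881 n238 (.cons 717 n175 (.cons 882 n177 .nil))
noncomputable def n1060 : Strat := .move 718 n36 (.cons 677 n294 .nil)
noncomputable def n1061 : Strat := .move 716 n44 (.cons 675 n1060 .nil)
noncomputable def n1062 : Strat := .move 759 n216 (.cons 714 n215 .nil)
noncomputable def n1063 : Strat := .win 759 0 714
noncomputable def n1064 : Strat := .win 672 2 672
noncomputable def n1065 : Strat := .win 674 2 673
noncomputable def n1066 : Strat := .move 673 n1064 (.cons 672 n1065 .nil)
noncomputable def n1067 : Strat := .move 714 n1063 (.cons 759 n1066 .nil)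
noncomputable def n1068 : Strat := .win 759 0 715
noncomputable def n1069 : Strat := .move 757 n222 (.cons 756 n221 .nil)
noncomputable def n1070 : Strat := .move 719 n315 (.cons 761 n1069 .nil)
noncomputable def n1071 : Strat := .move 760 n1068 (.cons 759 n1070 .nil)
noncomputable def n1072 : Strat := .win 756 4 714
noncomputable def n1073 : Strat := .win 754 4 713
noncomputable def n1074 : Strat := .move 714 n1073 (.cons 754 n1066 .nil)
noncomputable def n1075 : Strat := .move 755 n1072 (.cons 756 n1074 .nil)
noncomputable def n1076 : Strat := .move 715 n1062 (.cons 760 n1067 (.cons 714 n1071 (.cons 759 n1075 .nil)))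
noncomputable def n1077 : Strat := .move 716 n44 (.cons 675 n1076 .nil)
noncomputable def n1078 : Strat := .move 718 n36 (.cons 677 n1077 .nil)
noncomputable def n1079 : Strat := .move 717 n1061 (.cons 841 n1078 (.cons 718 n214 (.cons 716 n242 .nil)))
noncomputable def n1080 : Strat := .move 881 n177 (.cons 759 n67 (.cons 921 n453 .nil))
noncomputable def n1081 : Strat := .move 881 n175 (.cons 759 n400 (.cons 882 n177 .nil))
noncomputable def n1082 : Strat := .move 881 n175 (.cons 759 n336 (.cons 923 n453 .nil))
noncomputable def n1083 : Strat := .move 881 n238 (.cons 717 n400 (.cons 839 n336 (.cons 882 n67 .nil)))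
noncomputable def n1084 : Strat := .move 758 n1059 (.cons 881 n1079 (.cons 882 n1080 (.cons 717 n1081 (.cons 839 n1082 (.cons 759 n1083 .nil)))))
noncomputable def n1085 : Strat := .move 717 n287 (.cons 716 n242 (.cons 718 n251 .nil))
noncomputable def n1086 : Strat := .move 797 n203 (.cons 842 n124 .nil)
noncomputable def n1087 : Strat := .move 841 n202 (.cons 882 n1086 .nil)
noncomputable def n1088 : Strat := .move 798 n201 (.cons 676 n1087 .nil)
noncomputable def n1089 : Strat := .move 839 n194 (.cons 880 n1088 .nil)
noncomputable def n1090 : Strat := .move 718 n36 (.cons 677 n1089 .nil)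
noncomputable def n1091 : Strat := .move 716 n44 (.cons 675 n1090 .nil)
noncomputable def n1092 : Strat := .win 800 6 635
noncomputable def n1093 : Strat := .win 594 6 594
noncomputable def n1094 : Strat := .move 635 n1092 (.cons 800 n1093 .nil)
noncomputable def n1095 : Strat := .move 759 n314 (.cons 714 n854 (.cons 760 n1094 .nil))
noncomputable def n1096 : Strat := .move 676 n195 (.cons 798 n1095 .nil)
noncomputable def n1097 : Strat := .move 839 n194 (.cons 880 n1096 .nil)
noncomputable def n1098 : Strat := .move 718 n36 (.cons 677 n1097 .nil)
noncomputable def n1099 : Strat := .move 716 n44 (.cons 675 n1098 .nil)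
noncomputable def n1100 : Strat := .move 717 n307 (.cons 716 n242 (.cons 718 n214 (.cons 800 n1091 (.cons 841 n1099 (.cons 676 n324 .nil)))))
noncomputable def n1101 : Strat := .move 881 n333 (.cons 880 n70 (.cons 757 n238 .nil))
noncomputable def n1102 : Strat := .move 717 n44 (.cons 675 n899 .nil)
noncomputable def n1103 : Strat := .win 717 7 675
noncomputable def n1104 : Strat := .win 634 6 634
noncomputable def n1105 : Strat := .move 675 n1103 (.cons 717 n1104 .nil)
noncomputable def n1106 : Strat := .move 757 n277 (.cons 881 n1105 .nil)
noncomputable def n1107 : Strat := .move 717 n44 (.cons 675 n275 .nil)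
noncomputable def n1108 : Strat := .move 881 n43 (.cons 757 n175 .nil)
noncomputable def n1109 : Strat := .win 759 3 677
noncomputable def n1110 : Strat := .move 678 n1109 (.cons 759 n318 .nil)
noncomputable def n1111 : Strat := .move 719 n308 (.cons 756 n1110 .nil)
noncomputable def n1112 : Strat := .move 800 n288 (.cons 676 n1111 .nil)
noncomputable def n1113 : Strat := .move 841 n202 (.cons 882 n1112 .nil)
noncomputable def n1114 : Strat := .move 718 n36 (.cons 677 n1113 .nil)
noncomputable def n1115 : Strat := .move 717 n44 (.cons 675 n1114 .nil)
noncomputable def n1116 : Strat := .move 716 n1102 (.cons 677 n1106 (.cons 757 n1107 (.cons 675 n1108 (.cons 881 n1115 .nil))))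
noncomputable def n1117 : Strat := .move 716 n43 (.cons 757 n177 .nil)
noncomputable def n1118 : Strat := .move 881 n1117 (.cons 757 n177 (.cons 759 n70 (.cons 922 n64 .nil)))
noncomputable def n1119 : Strat := .win 798 6 675
noncomputable def n1120 : Strat := .move 675 n1104 (.cons 634 n1119 .nil)
noncomputable def n1121 : Strat := .move 757 n277 (.cons 881 n1120 .nil)
noncomputable def n1122 : Strat := .move 717 n44 (.cons 675 n1098 .nil)
noncomputable def n1123 : Strat := .move 881 n43 (.cons 757 n177 .nil)
noncomputable def n1124 : Strat := .move 716 n1102 (.cons 717 n1121 (.cons 757 n1107 (.cons 881 n1122 (.cons 675 n1123 .nil))))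
noncomputable def n1125 : Strat := .move 758 n1085 (.cons 881 n1100 (.cons 716 n249 (.cons 800 n1101 (.cons 839 n1116 (.cons 717 n1118 (.cons 882 n1124 .nil))))))
noncomputable def n1126 : Strat := .move 881 n39 (.cons 677 n42 (.cons 921 n47 (.cons 717 n64 .nil)))
noncomputable def n1127 : Strat := .move 881 n957 (.cons 754 n39 (.cons 759 n67 (.cons 717 n64 (.cons 839 n962 .nil))))
noncomputable def n1128 : Strat := .move 881 n47 (.cons 757 n433 (.cons 923 n494 (.cons 717 n533 (.cons 841 n551 .nil))))
noncomputable def n1129 : Strat := .move 881 n64 (.cons 921 n533 (.cons 801 n349 (.cons 798 n925 .nil)))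
noncomputable def n1130 : Strat := .move 839 n194 (.cons 880 n353 .nil)
noncomputable def n1131 : Strat := .move 841 n202 (.cons 882 n1130 .nil)
noncomputable def n1132 : Strat := .move 717 n242 (.cons 636 n1131 (.cons 841 n857 .nil))
noncomputable def n1133 : Strat := .move 717 n912 (.cons 718 n256 .nil)
noncomputable def n1134 : Strat := .win 674 7 674
noncomputable def n1135 : Strat := .win 713 0 713
noncomputable def n1136 : Strat := .move 714 n1135 (.cons 713 n1063 .nil)
noncomputable def n1137 : Strat := .move 715 n1134 (.cons 674 n1136 .nil)
noncomputable def n1138 : Strat := .move 798 n201 (.cons 676 n1137 .nil)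
noncomputable def n1139 : Strat := .move 839 n194 (.cons 880 n1138 .nil)
noncomputable def n1140 : Strat := .move 757 n277 (.cons 881 n1139 .nil)
noncomputable def n1141 : Strat := .move 716 n44 (.cons 675 n1140 .nil)
noncomputable def n1142 : Strat := .win 878 4 837
noncomputable def n1143 : Strat := .win 798 1 715
noncomputable def n1144 : Strat := .move 879 n1142 (.cons 878 n1143 .nil)
noncomputable def n1145 : Strat := .move 800 n289 (.cons 801 n290 .nil)
noncomputable def n1146 : Strat := .move 838 n1144 (.cons 798 n1145 .nil)
noncomputable def n1147 : Strat := .move 841 n202 (.cons 882 n1146 .nil)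
noncomputable def n1148 : Strat := .move 839 n194 (.cons 880 n1147 .nil)
noncomputable def n1149 : Strat := .move 757 n277 (.cons 881 n1148 .nil)
noncomputable def n1150 : Strat := .move 716 n44 (.cons 675 n1149 .nil)
noncomputable def n1151 : Strat := .move 757 n277 (.cons 881 n872 .nil)
noncomputable def n1152 : Strat := .move 676 n209 (.cons 800 n1151 .nil)
noncomputable def n1153 : Strat := .move 841 n202 (.cons 882 n1152 .nil)
noncomputable def n1154 : Strat := .move 716 n44 (.cons 675 n1153 .nil)
noncomputable def n1155 : Strat := .move 881 n43 (.cons 757 n7 .nil)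
noncomputable def n1156 : Strat := .move 880 n8 (.cons 839 n1155 .nil)
noncomputable def n1157 : Strat := .move 677 n197 (.cons 636 n1156 .nil)
noncomputable def n1158 : Strat := .move 676 n209 (.cons 800 n1157 .nil)
noncomputable def n1159 : Strat := .move 841 n202 (.cons 882 n1158 .nil)
noncomputable def n1160 : Strat := .move 716 n44 (.cons 675 n1159 .nil)
noncomputable def n1161 : Strat := .move 717 n256 (.cons 880 n283 (.cons 841 n1141 (.cons 676 n1150 (.cons 839 n1154 (.cons 798 n1160 .nil)))))
noncomputable def n1162 : Strat := .move 759 n270 (.cons 881 n854 .nil)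
noncomputable def n1163 : Strat := .move 716 n44 (.cons 675 n1162 .nil)
noncomputable def n1164 : Strat := .move 718 n36 (.cons 677 n1163 .nil)
noncomputable def n1165 : Strat := .move 717 n1164 (.cons 718 n1154 (.cons 881 n214 (.cons 675 n865 .nil)))
noncomputable def n1166 : Strat := .move 717 n912 (.cons 718 n1160 (.cons 677 n253 (.cons 881 n296 (.cons 675 n865 .nil))))
noncomputable def n1167 : Strat := .move 841 n202 (.cons 882 n900 .nil)
noncomputable def n1168 : Strat := .move 717 n1167 (.cons 881 n251 (.cons 675 n245 .nil))
noncomputable def n1169 : Strat := .move 717 n251 (.cons 676 n417 (.cons 716 n256 .nil))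
noncomputable def n1170 : Strat := .move 881 n42 (.cons 880 n1027 (.cons 882 n329 (.cons 717 n925 .nil)))
noncomputable def n1171 : Strat := .move 758 n1126 (.cons 882 n1127 (.cons 921 n1128 (.cons 717 n1129 (.cons 881 n232 (.cons 757 n1132 (.cons 760 n1133 (.cons 718 n1161 (.cons 839 n1165 (.cons 798 n1166 (.cons 800 n1168 (.cons 759 n1169 (.cons 716 n1170 .nil))))))))))))
noncomputable def n1172 : Strat := .move 920 n81 (.cons 919 n80 .nil)
noncomputable def n1173 : Strat := .move 921 n28 (.cons 962 n1172 .nil)
noncomputable def n1174 : Strat := .move 882 n79 (.cons 758 n1173 .nil)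
noncomputable def n1175 : Strat := .move 923 n27 (.cons 964 n1174 .nil)
noncomputable def n1176 : Strat := .move 922 n78 (.cons 1005 n93 (.cons 963 n436 (.cons 798 n1175 .nil)))
noncomputable def n1177 : Strat := .move 758 n453 (.cons 756 n175 (.cons 759 n47 .nil))
noncomputable def n1178 : Strat := .move 759 n3 (.cons 800 n2 .nil)
noncomputable def n1179 : Strat := .move 758 n30 (.cons 882 n1178 .nil)
noncomputable def n1180 : Strat := .move 963 n18 (.cons 1003 n1179 .nil)
noncomputable def n1181 : Strat := .move 962 n17 (.cons 921 n1180 .nil)
noncomputable def n1182 : Strat := .move 923 n27 (.cons 964 n1181 .nil)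
noncomputable def n1183 : Strat := .move 922 n26 (.cons 923 n21 (.cons 841 n1182 (.cons 759 n1175 .nil)))
noncomputable def n1184 : Strat := .move 757 n0 (.cons 716 n100 .nil)
noncomputable def n1185 : Strat := .move 759 n2 (.cons 718 n1184 .nil)
noncomputable def n1186 : Strat := .move 759 n2 (.cons 718 n111 .nil)
noncomputable def n1187 : Strat := .win 798 2 756
noncomputable def n1188 : Strat := .move 756 n49 (.cons 755 n1187 .nil)
noncomputable def n1189 : Strat := .move 801 n98 (.cons 802 n1188 .nil)
noncomputable def n1190 : Strat := .move 757 n0 (.cons 716 n1189 .nil)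
noncomputable def n1191 : Strat := .move 800 n1185 (.cons 757 n1186 (.cons 759 n1190 .nil))
noncomputable def n1192 : Strat := .move 760 n755 (.cons 797 n522 (.cons 798 n636 (.cons 761 n630 .nil)))
noncomputable def n1193 : Strat := .move 759 n2 (.cons 718 n1192 .nil)
noncomputable def n1194 : Strat := .move 757 n0 (.cons 716 n1193 .nil)
noncomputable def n1195 : Strat := .move 758 n1191 (.cons 759 n47 (.cons 716 n1027 (.cons 717 n1194 .nil)))
noncomputable def n1196 : Strat := .move 881 n88 (.cons 800 n714 (.cons 759 n1176 (.cons 923 n649 (.cons 798 n1177 (.cons 757 n1183 (.cons 922 n1195 .nil))))))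
noncomputable def n1197 : Strat := .move 881 n181 (.cons 759 n70 (.cons 798 n175 (.cons 922 n268 .nil)))
noncomputable def n1198 : Strat := .move 760 n315 (.cons 761 n272 .nil)
noncomputable def n1199 : Strat := .move 759 n314 (.cons 714 n1198 (.cons 760 n319 .nil))
noncomputable def n1200 : Strat := .move 719 n1069 (.cons 720 n1199 .nil)
noncomputable def n1201 : Strat := .move 716 n44 (.cons 675 n1200 .nil)
noncomputable def n1202 : Strat := .move 718 n36 (.cons 677 n1201 .nil)
noncomputable def n1203 : Strat := .move 760 n315 (.cons 761 n1068 .nil)
noncomputable def n1204 : Strat := .win 757 4 715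
noncomputable def n1205 : Strat := .move 756 n1204 (.cons 757 n219 .nil)
noncomputable def n1206 : Strat := .move 719 n1203 (.cons 759 n1205 .nil)
noncomputable def n1207 : Strat := .move 755 n1073 (.cons 754 n1072 .nil)
noncomputable def n1208 : Strat := .move 714 n1066 (.cons 674 n1207 .nil)
noncomputable def n1209 : Strat := .move 715 n217 (.cons 714 n1206 (.cons 760 n1067 (.cons 759 n1208 .nil)))
noncomputable def n1210 : Strat := .move 718 n36 (.cons 677 n1209 .nil)
noncomputable def n1211 : Strat := .move 716 n44 (.cons 675 n1210 .nil)
noncomputable def n1212 : Strat := .move 841 n213 (.cons 716 n241 (.cons 676 n1202 (.cons 800 n1211 .nil)))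
noncomputable def n1213 : Strat := .move 715 n216 (.cons 714 n215 .nil)
noncomputable def n1214 : Strat := .move 719 n308 (.cons 756 n860 (.cons 720 n319 .nil))
noncomputable def n1215 : Strat := .move 841 n202 (.cons 882 n1214 .nil)
noncomputable def n1216 : Strat := .move 759 n273 (.cons 761 n1213 (.cons 760 n1215 .nil))
noncomputable def n1217 : Strat := .move 718 n36 (.cons 677 n1216 .nil)
noncomputable def n1218 : Strat := .move 716 n44 (.cons 675 n1217 .nil)
noncomputable def n1219 : Strat := .move 841 n202 (.cons 882 n1211 .nil)
noncomputable def n1220 : Strat := .move 715 n1062 (.cons 760 n1067 (.cons 759 n1075 (.cons 714 n1071 .nil)))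
noncomputable def n1221 : Strat := .move 716 n44 (.cons 675 n1220 .nil)
noncomputable def n1222 : Strat := .move 718 n36 (.cons 677 n1221 .nil)
noncomputable def n1223 : Strat := .move 717 n214 (.cons 716 n242 (.cons 882 n1212 (.cons 676 n1218 (.cons 800 n1219 (.cons 841 n1222 .nil)))))
noncomputable def n1224 : Strat := .move 880 n7 (.cons 921 n260 .nil)
noncomputable def n1225 : Strat := .move 760 n518 (.cons 797 n522 (.cons 798 n636 (.cons 761 n630 .nil)))
noncomputable def n1226 : Strat := .move 757 n0 (.cons 716 n1225 .nil)
noncomputable def n1227 : Strat := .move 759 n2 (.cons 718 n1226 .nil)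
noncomputable def n1228 : Strat := .move 881 n1224 (.cons 716 n175 (.cons 759 n70 (.cons 922 n1227 .nil)))
noncomputable def n1229 : Strat := .move 881 n70 (.cons 964 n140 (.cons 922 n996 .nil))
noncomputable def n1230 : Strat := .move 881 n260 (.cons 716 n177 (.cons 922 n962 (.cons 800 n140 .nil)))
noncomputable def n1231 : Strat := .move 758 n1197 (.cons 881 n1223 (.cons 759 n418 (.cons 757 n379 (.cons 716 n997 (.cons 717 n1228 (.cons 718 n1229 (.cons 882 n1230 .nil)))))))
noncomputable def n1232 : Strat := .win 922 6 757
noncomputable def n1233 : Strat := .move 798 n1232 (.cons 922 n841 .nil)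
noncomputable def n1234 : Strat := .move 757 n0 (.cons 716 n1233 .nil)
noncomputable def n1235 : Strat := .move 839 n692 (.cons 717 n1234 .nil)
noncomputable def n1236 : Strat := .move 880 n7 (.cons 921 n1235 .nil)
noncomputable def n1237 : Strat := .move 717 n45 (.cons 716 n11 .nil)
noncomputable def n1238 : Strat := .move 758 n1236 (.cons 716 n1000 (.cons 880 n1237 (.cons 717 n70 .nil)))
noncomputable def n1239 : Strat := .move 758 n70 (.cons 964 n140 (.cons 922 n996 .nil))
noncomputable def n1240 : Strat := .move 758 n1000 (.cons 882 n1010 (.cons 880 n1020 (.cons 841 n991 (.cons 717 n400 .nil))))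
noncomputable def n1241 : Strat := .move 922 n93 (.cons 921 n91 (.cons 839 n150 .nil))
noncomputable def n1242 : Strat := .move 963 n16 (.cons 841 n671 .nil)
noncomputable def n1243 : Strat := .move 800 n15 (.cons 759 n1242 .nil)
noncomputable def n1244 : Strat := .move 880 n144 (.cons 758 n1243 .nil)
noncomputable def n1245 : Strat := .move 921 n28 (.cons 962 n1244 .nil)
noncomputable def n1246 : Strat := .move 841 n656 (.cons 963 n1016 .nil)
noncomputable def n1247 : Strat := .move 800 n15 (.cons 759 n1246 .nil)
noncomputable def n1248 : Strat := .move 921 n28 (.cons 962 n1247 .nil)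
noncomputable def n1249 : Strat := .move 922 n91 (.cons 798 n1245 (.cons 800 n93 (.cons 839 n1248 (.cons 963 n934 .nil))))
noncomputable def n1250 : Strat := .move 880 n144 (.cons 758 n147 .nil)
noncomputable def n1251 : Strat := .move 921 n28 (.cons 962 n1250 .nil)
noncomputable def n1252 : Strat := .move 923 n27 (.cons 964 n1251 .nil)
noncomputable def n1253 : Strat := .move 922 n1252 (.cons 758 n21 (.cons 962 n445 .nil))
noncomputable def n1254 : Strat := .move 922 n78 (.cons 757 n21 (.cons 963 n136 .nil))
noncomputable def n1255 : Strat := .move 758 n42 (.cons 839 n996 (.cons 880 n47 (.cons 923 n67 (.cons 717 n349 .nil))))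
noncomputable def n1256 : Strat := .move 758 n140 (.cons 716 n991 (.cons 880 n70 .nil))
noncomputable def n1257 : Strat := .move 881 n1238 (.cons 839 n1239 (.cons 921 n446 (.cons 716 n1240 (.cons 882 n1241 (.cons 923 n1249 (.cons 757 n1253 (.cons 758 n1254 (.cons 922 n1255 (.cons 841 n1256 .nil)))))))))
noncomputable def n1258 : Strat := .move 881 n6 (.cons 800 n140 (.cons 757 n39 .nil))
noncomputable def n1259 : Strat := .win 879 1 715
noncomputable def n1260 : Strat := .move 800 n567 (.cons 801 n290 .nil)
noncomputable def n1261 : Strat := .move 838 n1259 (.cons 879 n1260 .nil)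
noncomputable def n1262 : Strat := .move 757 n1137 (.cons 715 n1261 .nil)
noncomputable def n1263 : Strat := .move 716 n44 (.cons 675 n1262 .nil)
noncomputable def n1264 : Strat := .move 798 n201 (.cons 676 n1263 .nil)
noncomputable def n1265 : Strat := .move 839 n194 (.cons 880 n1264 .nil)
noncomputable def n1266 : Strat := .move 717 n200 (.cons 677 n1265 (.cons 676 n231 (.cons 798 n1078 .nil)))
noncomputable def n1267 : Strat := .move 881 n140 (.cons 716 n991 (.cons 880 n70 .nil))
noncomputable def n1268 : Strat := .move 801 n524 (.cons 802 n544 .nil)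
noncomputable def n1269 : Strat := .move 760 n1268 (.cons 800 n546 .nil)
noncomputable def n1270 : Strat := .move 796 n541 (.cons 795 n540 .nil)
noncomputable def n1271 : Strat := .move 755 n538 (.cons 715 n1270 .nil)
noncomputable def n1272 : Strat := .move 756 n50 (.cons 755 n1269 (.cons 801 n539 (.cons 800 n1271 .nil)))
noncomputable def n1273 : Strat := .move 759 n2 (.cons 718 n1272 .nil)
noncomputable def n1274 : Strat := .move 757 n0 (.cons 716 n1273 .nil)
noncomputable def n1275 : Strat := .move 882 n9 (.cons 923 n1274 .nil)
noncomputable def n1276 : Strat := .move 881 n327 (.cons 718 n70 (.cons 798 n175 (.cons 922 n1275 .nil)))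
noncomputable def n1277 : Strat := .move 758 n1258 (.cons 881 n1266 (.cons 757 n402 (.cons 759 n424 (.cons 716 n992 (.cons 718 n1267 (.cons 880 n1276 .nil))))))
noncomputable def n1278 : Strat := .win 798 4 797
noncomputable def n1279 : Strat := .move 801 n115 (.cons 802 n1278 .nil)
noncomputable def n1280 : Strat := .move 838 n290 (.cons 837 n1279 .nil)
noncomputable def n1281 : Strat := .win 757 2 756
noncomputable def n1282 : Strat := .move 756 n620 (.cons 755 n1281 .nil)
noncomputable def n1283 : Strat := .move 797 n153 (.cons 841 n1282 .nil)
noncomputable def n1284 : Strat := .move 842 n127 (.cons 843 n1283 .nil)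
noncomputable def n1285 : Strat := .win 716 6 716
noncomputable def n1286 : Strat := .move 881 n1285 (.cons 716 n183 .nil)
noncomputable def n1287 : Strat := .move 757 n598 (.cons 756 n1286 .nil)
noncomputable def n1288 : Strat := .win 759 5 756
noncomputable def n1289 : Strat := .move 760 n1288 (.cons 759 n130 .nil)
noncomputable def n1290 : Strat := .move 797 n153 (.cons 841 n1289 .nil)
noncomputable def n1291 : Strat := .move 842 n127 (.cons 843 n1290 .nil)
noncomputable def n1292 : Strat := .move 798 n1284 (.cons 843 n1287 (.cons 757 n1291 .nil))
noncomputable def n1293 : Strat := .move 801 n115 (.cons 802 n1292 .nil)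
noncomputable def n1294 : Strat := .win 674 6 674
noncomputable def n1295 : Strat := .win 880 6 715
noncomputable def n1296 : Strat := .move 715 n1294 (.cons 674 n1295 .nil)
noncomputable def n1297 : Strat := .move 756 n620 (.cons 755 n1296 .nil)
noncomputable def n1298 : Strat := .move 798 n123 (.cons 842 n1297 .nil)
noncomputable def n1299 : Strat := .move 797 n369 (.cons 796 n1298 .nil)
noncomputable def n1300 : Strat := .move 841 n289 (.cons 801 n1299 .nil)
noncomputable def n1301 : Strat := .move 838 n290 (.cons 837 n1300 .nil)
noncomputable def n1302 : Strat := .win 964 7 799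
noncomputable def n1303 : Strat := .move 843 n684 (.cons 844 n683 .nil)
noncomputable def n1304 : Strat := .win 880 4 838
noncomputable def n1305 : Strat := .move 879 n1304 (.cons 880 n1142 .nil)
noncomputable def n1306 : Strat := .move 842 n1303 (.cons 798 n1305 .nil)
noncomputable def n1307 : Strat := .move 923 n1302 (.cons 964 n1306 .nil)
noncomputable def n1308 : Strat := .move 882 n587 (.cons 883 n1307 .nil)
noncomputable def n1309 : Strat := .win 921 6 756
noncomputable def n1310 : Strat := .win 715 6 715
noncomputable def n1311 : Strat := .move 880 n1309 (.cons 921 n1310 .nil)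
noncomputable def n1312 : Strat := .win 714 7 714
noncomputable def n1313 : Strat := .win 798 2 755
noncomputable def n1314 : Strat := .move 755 n1312 (.cons 714 n1313 .nil)
noncomputable def n1315 : Strat := .move 756 n1311 (.cons 715 n1314 .nil)
noncomputable def n1316 : Strat := .move 879 n1142 (.cons 878 n1315 .nil)
noncomputable def n1317 : Strat := .move 797 n369 (.cons 796 n1316 .nil)
noncomputable def n1318 : Strat := .move 718 n891 (.cons 881 n890 .nil)
noncomputable def n1319 : Strat := .move 759 n501 (.cons 760 n1318 .nil)
noncomputable def n1320 : Strat := .move 798 n123 (.cons 842 n1319 .nil)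
noncomputable def n1321 : Strat := .move 797 n369 (.cons 796 n1320 .nil)
noncomputable def n1322 : Strat := .win 842 4 838
noncomputable def n1323 : Strat := .move 756 n1309 (.cons 921 n1310 .nil)
noncomputable def n1324 : Strat := .move 797 n369 (.cons 796 n1323 .nil)
noncomputable def n1325 : Strat := .move 880 n1322 (.cons 842 n1324 .nil)
noncomputable def n1326 : Strat := .move 879 n1142 (.cons 878 n1325 .nil)
noncomputable def n1327 : Strat := .move 841 n1299 (.cons 797 n1308 (.cons 842 n1317 (.cons 880 n1321 (.cons 798 n1326 .nil))))
noncomputable def n1328 : Strat := .move 838 n290 (.cons 837 n1327 .nil)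
noncomputable def n1329 : Strat := .move 841 n289 (.cons 801 n1326 .nil)
noncomputable def n1330 : Strat := .move 838 n290 (.cons 837 n1329 .nil)
noncomputable def n1331 : Strat := .move 800 n1280 (.cons 838 n1293 (.cons 802 n1301 (.cons 801 n1328 (.cons 798 n1330 .nil))))
noncomputable def n1332 : Strat := .win 836 5 795
noncomputable def n1333 : Strat := .win 673 6 673
noncomputable def n1334 : Strat := .win 879 6 714
noncomputable def n1335 : Strat := .move 714 n1333 (.cons 673 n1334 .nil)
noncomputable def n1336 : Strat := .move 755 n160 (.cons 754 n1335 .nil)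
noncomputable def n1337 : Strat := .move 797 n159 (.cons 841 n1336 .nil)
noncomputable def n1338 : Strat := .move 796 n359 (.cons 795 n1337 .nil)
noncomputable def n1339 : Strat := .move 798 n1332 (.cons 836 n1338 .nil)
noncomputable def n1340 : Strat := .win 798 5 795
noncomputable def n1341 : Strat := .win 878 4 836
noncomputable def n1342 : Strat := .win 876 4 835
noncomputable def n1343 : Strat := .move 877 n1341 (.cons 878 n1342 .nil)
noncomputable def n1344 : Strat := .move 836 n1340 (.cons 798 n1343 .nil)
noncomputable def n1345 : Strat := .move 841 n360 (.cons 797 n365 .nil)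
noncomputable def n1346 : Strat := .move 796 n359 (.cons 795 n1345 .nil)
noncomputable def n1347 : Strat := .move 837 n1339 (.cons 673 n1344 (.cons 836 n1346 .nil))
noncomputable def n1348 : Strat := .win 920 6 755
noncomputable def n1349 : Strat := .win 714 6 714
noncomputable def n1350 : Strat := .move 879 n1348 (.cons 920 n1349 .nil)
noncomputable def n1351 : Strat := .win 756 3 755
noncomputable def n1352 : Strat := .win 960 3 796
noncomputable def n1353 : Strat := .move 797 n1351 (.cons 756 n1352 .nil)
noncomputable def n1354 : Strat := .win 797 3 755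
noncomputable def n1355 : Strat := .win 715 3 714
noncomputable def n1356 : Strat := .move 756 n1354 (.cons 797 n1355 .nil)
noncomputable def n1357 : Strat := .win 961 6 796
noncomputable def n1358 : Strat := .win 879 6 755
noncomputable def n1359 : Strat := .move 920 n1357 (.cons 961 n1358 .nil)
noncomputable def n1360 : Strat := .move 919 n1353 (.cons 960 n1356 (.cons 756 n1359 .nil))
noncomputable def n1361 : Strat := .win 674 3 673
noncomputable def n1362 : Strat := .win 756 3 714
noncomputable def n1363 : Strat := .move 715 n1361 (.cons 674 n1362 .nil)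
noncomputable def n1364 : Strat := .move 714 n1334 (.cons 879 n1363 .nil)
noncomputable def n1365 : Strat := .win 672 7 672
noncomputable def n1366 : Strat := .win 754 7 713
noncomputable def n1367 : Strat := .move 713 n1365 (.cons 672 n1366 .nil)
noncomputable def n1368 : Strat := .move 714 n1363 (.cons 756 n1367 .nil)
noncomputable def n1369 : Strat := .move 755 n1350 (.cons 714 n1360 (.cons 920 n1364 (.cons 879 n1368 .nil)))
noncomputable def n1370 : Strat := .move 796 n359 (.cons 795 n1369 .nil)
noncomputable def n1371 : Strat := .move 878 n363 (.cons 877 n1370 .nil)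
noncomputable def n1372 : Strat := .win 796 2 795
noncomputable def n1373 : Strat := .win 794 2 794
noncomputable def n1374 : Strat := .move 795 n1372 (.cons 796 n1373 .nil)
noncomputable def n1375 : Strat := .move 836 n1340 (.cons 798 n1374 .nil)
noncomputable def n1376 : Strat := .move 837 n1344 (.cons 798 n1371 (.cons 878 n1375 .nil))
noncomputable def n1377 : Strat := .move 841 n360 (.cons 797 n364 .nil)
noncomputable def n1378 : Strat := .move 796 n359 (.cons 795 n1377 .nil)
noncomputable def n1379 : Strat := .move 878 n363 (.cons 877 n1378 .nil)
noncomputable def n1380 : Strat := .win 841 2 796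
noncomputable def n1381 : Strat := .win 919 3 755
noncomputable def n1382 : Strat := .win 715 1 714
noncomputable def n1383 : Strat := .move 756 n1381 (.cons 919 n1382 .nil)
noncomputable def n1384 : Strat := .move 797 n1380 (.cons 841 n1383 .nil)
noncomputable def n1385 : Strat := .move 878 n363 (.cons 877 n1384 .nil)
noncomputable def n1386 : Strat := .move 796 n359 (.cons 795 n1385 .nil)
noncomputable def n1387 : Strat := .win 882 0 837
noncomputable def n1388 : Strat := .win 836 0 836
noncomputable def n1389 : Strat := .move 842 n676 (.cons 843 n675 .nil)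
noncomputable def n1390 : Strat := .move 841 n360 (.cons 797 n1389 .nil)
noncomputable def n1391 : Strat := .move 880 n1388 (.cons 836 n1390 .nil)
noncomputable def n1392 : Strat := .move 881 n1387 (.cons 882 n1391 .nil)
noncomputable def n1393 : Strat := .move 796 n359 (.cons 795 n1392 .nil)
noncomputable def n1394 : Strat := .win 841 4 837
noncomputable def n1395 : Strat := .win 756 1 755
noncomputable def n1396 : Strat := .move 797 n1395 (.cons 756 n1352 .nil)
noncomputable def n1397 : Strat := .move 880 n386 (.cons 918 n1388 .nil)
noncomputable def n1398 : Strat := .move 919 n1396 (.cons 960 n1397 .nil)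
noncomputable def n1399 : Strat := .move 881 n1387 (.cons 882 n1398 .nil)
noncomputable def n1400 : Strat := .move 879 n1394 (.cons 841 n1399 .nil)
noncomputable def n1401 : Strat := .move 878 n363 (.cons 877 n1400 .nil)
noncomputable def n1402 : Strat := .move 755 n1348 (.cons 920 n1349 .nil)
noncomputable def n1403 : Strat := .move 796 n359 (.cons 795 n1402 .nil)
noncomputable def n1404 : Strat := .move 879 n1394 (.cons 841 n1403 .nil)
noncomputable def n1405 : Strat := .move 878 n363 (.cons 877 n1404 .nil)
noncomputable def n1406 : Strat := .move 837 n1379 (.cons 879 n1386 (.cons 878 n1393 (.cons 796 n1401 (.cons 841 n1371 (.cons 797 n1405 .nil)))))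
noncomputable def n1407 : Strat := .move 837 n1344 (.cons 798 n1405 (.cons 878 n1375 .nil))
noncomputable def n1408 : Strat := .move 837 n1375 (.cons 798 n1386 (.cons 796 n1344 .nil))
noncomputable def n1409 : Strat := .win 880 0 836
noncomputable def n1410 : Strat := .move 881 n1387 (.cons 882 n1409 .nil)
noncomputable def n1411 : Strat := .move 836 n1340 (.cons 798 n1410 .nil)
noncomputable def n1412 : Strat := .win 880 0 878
noncomputable def n1413 : Strat := .move 923 n27 (.cons 964 n1412 .nil)
noncomputable def n1414 : Strat := .move 798 n566 (.cons 963 n72 .nil)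
noncomputable def n1415 : Strat := .move 922 n1413 (.cons 880 n1414 .nil)
noncomputable def n1416 : Strat := .move 881 n1387 (.cons 882 n1415 .nil)
noncomputable def n1417 : Strat := .move 879 n1394 (.cons 841 n1416 .nil)
noncomputable def n1418 : Strat := .move 878 n363 (.cons 877 n1417 .nil)
noncomputable def n1419 : Strat := .move 837 n1344 (.cons 798 n1401 (.cons 878 n1411 (.cons 836 n1418 .nil)))
noncomputable def n1420 : Strat := .win 881 0 837
noncomputable def n1421 : Strat := .move 882 n1420 (.cons 881 n587 .nil)
noncomputable def n1422 : Strat := .move 841 n360 (.cons 797 n1421 .nil)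
noncomputable def n1423 : Strat := .move 796 n359 (.cons 795 n1422 .nil)
noncomputable def n1424 : Strat := .move 837 n1339 (.cons 798 n1393 (.cons 796 n1411 (.cons 836 n1423 .nil)))
noncomputable def n1425 : Strat := .move 842 n371 (.cons 798 n1304 .nil)
noncomputable def n1426 : Strat := .move 879 n1142 (.cons 878 n1425 .nil)
noncomputable def n1427 : Strat := .move 797 n369 (.cons 796 n1426 .nil)
noncomputable def n1428 : Strat := .win 920 3 756
noncomputable def n1429 : Strat := .win 716 1 715
noncomputable def n1430 : Strat := .move 757 n1428 (.cons 920 n1429 .nil)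
noncomputable def n1431 : Strat := .move 879 n1142 (.cons 878 n1430 .nil)
noncomputable def n1432 : Strat := .move 798 n203 (.cons 842 n1431 .nil)
noncomputable def n1433 : Strat := .move 797 n369 (.cons 796 n1432 .nil)
noncomputable def n1434 : Strat := .win 924 0 879
noncomputable def n1435 : Strat := .move 923 n1434 (.cons 924 n1302 .nil)
noncomputable def n1436 : Strat := .move 881 n340 (.cons 837 n1435 .nil)
noncomputable def n1437 : Strat := .move 882 n587 (.cons 883 n1436 .nil)
noncomputable def n1438 : Strat := .move 880 n1322 (.cons 842 n1437 .nil)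
noncomputable def n1439 : Strat := .move 879 n1142 (.cons 878 n1438 .nil)
noncomputable def n1440 : Strat := .move 757 n183 (.cons 922 n1285 .nil)
noncomputable def n1441 : Strat := .move 881 n340 (.cons 837 n1440 .nil)
noncomputable def n1442 : Strat := .move 882 n587 (.cons 883 n1441 .nil)
noncomputable def n1443 : Strat := .move 798 n203 (.cons 842 n1442 .nil)
noncomputable def n1444 : Strat := .move 797 n369 (.cons 796 n1443 .nil)
noncomputable def n1445 : Strat := .move 882 n587 (.cons 883 n1420 .nil)
noncomputable def n1446 : Strat := .move 837 n363 (.cons 877 n1445 .nil)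
noncomputable def n1447 : Strat := .move 878 n364 (.cons 879 n1446 .nil)
noncomputable def n1448 : Strat := .move 797 n369 (.cons 796 n1447 .nil)
noncomputable def n1449 : Strat := .move 841 n1427 (.cons 880 n1433 (.cons 797 n1439 (.cons 879 n1444 (.cons 842 n1448 .nil))))
noncomputable def n1450 : Strat := .move 841 n369 (.cons 796 n1426 .nil)
noncomputable def n1451 : Strat := .move 880 n1322 (.cons 842 n1323 .nil)
noncomputable def n1452 : Strat := .move 879 n1142 (.cons 878 n1451 .nil)
noncomputable def n1453 : Strat := .move 841 n369 (.cons 796 n1452 .nil)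
noncomputable def n1454 : Strat := .move 841 n369 (.cons 796 n1432 .nil)
noncomputable def n1455 : Strat := .win 803 5 799
noncomputable def n1456 : Strat := .win 801 5 798
noncomputable def n1457 : Strat := .move 802 n1455 (.cons 803 n1456 .nil)
noncomputable def n1458 : Strat := .win 844 4 840
noncomputable def n1459 : Strat := .move 881 n1458 (.cons 844 n696 .nil)
noncomputable def n1460 : Strat := .move 843 n1457 (.cons 801 n1459 .nil)
noncomputable def n1461 : Strat := .move 882 n587 (.cons 883 n1460 .nil)
noncomputable def n1462 : Strat := .move 842 n371 (.cons 798 n1461 .nil)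
noncomputable def n1463 : Strat := .move 841 n369 (.cons 796 n1462 .nil)
noncomputable def n1464 : Strat := .win 794 0 794
noncomputable def n1465 : Strat := .win 798 0 795
noncomputable def n1466 : Strat := .move 795 n1464 (.cons 794 n1465 .nil)
noncomputable def n1467 : Strat := .move 796 n1380 (.cons 841 n1466 .nil)
noncomputable def n1468 : Strat := .move 841 n1142 (.cons 878 n1425 .nil)
noncomputable def n1469 : Strat := .move 798 n203 (.cons 842 n1430 .nil)
noncomputable def n1470 : Strat := .move 841 n1142 (.cons 878 n1469 .nil)
noncomputable def n1471 : Strat := .move 880 n1310 (.cons 715 n1309 .nil)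
noncomputable def n1472 : Strat := .win 877 5 836
noncomputable def n1473 : Strat := .win 919 1 755
noncomputable def n1474 : Strat := .move 878 n1472 (.cons 877 n1473 .nil)
noncomputable def n1475 : Strat := .move 880 n1310 (.cons 715 n1474 .nil)
noncomputable def n1476 : Strat := .move 880 n1309 (.cons 921 n1474 .nil)
noncomputable def n1477 : Strat := .win 716 3 715
noncomputable def n1478 : Strat := .move 755 n839 (.cons 754 n1312 .nil)
noncomputable def n1479 : Strat := .move 798 n1428 (.cons 920 n1478 .nil)
noncomputable def n1480 : Strat := .move 757 n1477 (.cons 716 n1479 .nil)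
noncomputable def n1481 : Strat := .move 756 n1471 (.cons 921 n1475 (.cons 715 n1476 (.cons 880 n1480 .nil)))
noncomputable def n1482 : Strat := .move 841 n1142 (.cons 878 n1451 .nil)
noncomputable def n1483 : Strat := .move 798 n1428 (.cons 920 n1296 .nil)
noncomputable def n1484 : Strat := .move 757 n1477 (.cons 716 n1483 .nil)
noncomputable def n1485 : Strat := .win 880 6 756
noncomputable def n1486 : Strat := .win 962 6 797
noncomputable def n1487 : Strat := .win 798 3 756
noncomputable def n1488 : Strat := .move 757 n1487 (.cons 798 n1477 .nil)
noncomputable def n1489 : Strat := .move 920 n1486 (.cons 962 n1488 .nil)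
noncomputable def n1490 : Strat := .move 921 n1485 (.cons 880 n1489 .nil)
noncomputable def n1491 : Strat := .move 756 n1471 (.cons 921 n1484 (.cons 715 n1490 (.cons 880 n1480 .nil)))
noncomputable def n1492 : Strat := .move 879 n1468 (.cons 880 n1470 (.cons 841 n1481 (.cons 798 n1482 (.cons 878 n1491 .nil))))
noncomputable def n1493 : Strat := .win 962 3 798
noncomputable def n1494 : Strat := .win 879 6 756
noncomputable def n1495 : Strat := .move 921 n1493 (.cons 962 n1494 .nil)
noncomputable def n1496 : Strat := .move 880 n1310 (.cons 715 n1495 .nil)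
noncomputable def n1497 : Strat := .move 757 n342 (.cons 798 n1477 .nil)
noncomputable def n1498 : Strat := .win 961 3 797
noncomputable def n1499 : Strat := .win 757 1 756
noncomputable def n1500 : Strat := .move 798 n1498 (.cons 961 n1499 .nil)
noncomputable def n1501 : Strat := .win 796 7 755
noncomputable def n1502 : Strat := .move 755 n1501 (.cons 796 n1312 .nil)
noncomputable def n1503 : Strat := .move 920 n1497 (.cons 716 n1500 (.cons 798 n1502 .nil))
noncomputable def n1504 : Strat := .move 879 n1474 (.cons 919 n1503 .nil)
noncomputable def n1505 : Strat := .move 880 n1310 (.cons 715 n1504 .nil)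
noncomputable def n1506 : Strat := .move 880 n1474 (.cons 919 n1503 .nil)
noncomputable def n1507 : Strat := .win 960 1 796
noncomputable def n1508 : Strat := .win 878 1 755
noncomputable def n1509 : Strat := .move 919 n1507 (.cons 960 n1508 .nil)
noncomputable def n1510 : Strat := .move 920 n1486 (.cons 962 n1509 .nil)
noncomputable def n1511 : Strat := .move 921 n1485 (.cons 880 n1510 .nil)
noncomputable def n1512 : Strat := .move 879 n1476 (.cons 921 n1506 (.cons 877 n1511 (.cons 880 n1480 .nil)))
noncomputable def n1513 : Strat := .win 798 6 674
noncomputable def n1514 : Strat := .win 634 3 633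
noncomputable def n1515 : Strat := .win 716 3 674
noncomputable def n1516 : Strat := .move 675 n1514 (.cons 634 n1515 .nil)
noncomputable def n1517 : Strat := .move 674 n1513 (.cons 798 n1516 .nil)
noncomputable def n1518 : Strat := .move 715 n1295 (.cons 880 n1517 .nil)
noncomputable def n1519 : Strat := .move 920 n1487 (.cons 798 n1509 .nil)
noncomputable def n1520 : Strat := .move 757 n1477 (.cons 716 n1519 .nil)
noncomputable def n1521 : Strat := .win 920 7 755
noncomputable def n1522 : Strat := .move 795 n1465 (.cons 798 n1464 .nil)
noncomputable def n1523 : Strat := .move 796 n1521 (.cons 920 n1522 .nil)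
noncomputable def n1524 : Strat := .move 755 n1312 (.cons 714 n1523 .nil)
noncomputable def n1525 : Strat := .win 755 7 714
noncomputable def n1526 : Strat := .win 673 7 673
noncomputable def n1527 : Strat := .win 757 3 715
noncomputable def n1528 : Strat := .win 675 3 674
noncomputable def n1529 : Strat := .move 716 n1527 (.cons 757 n1528 .nil)
noncomputable def n1530 : Strat := .move 715 n1526 (.cons 673 n1529 .nil)
noncomputable def n1531 : Strat := .move 714 n1525 (.cons 755 n1530 .nil)
noncomputable def n1532 : Strat := .move 879 n1480 (.cons 754 n1520 (.cons 757 n1524 (.cons 798 n1531 .nil)))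
noncomputable def n1533 : Strat := .move 756 n1496 (.cons 921 n1505 (.cons 715 n1512 (.cons 879 n1518 (.cons 880 n1532 .nil))))
noncomputable def n1534 : Strat := .move 797 n1450 (.cons 798 n1453 (.cons 880 n1454 (.cons 879 n1463 (.cons 842 n1467 (.cons 796 n1492 (.cons 841 n1533 .nil))))))
noncomputable def n1535 : Strat := .move 838 n1347 (.cons 841 n1376 (.cons 798 n1406 (.cons 797 n1407 (.cons 879 n1408 (.cons 796 n1419 (.cons 878 n1424 (.cons 836 n1449 (.cons 837 n1534 .nil))))))))
noncomputable def n1536 : Strat := .move 800 n290 (.cons 837 n1329 .nil)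
noncomputable def n1537 : Strat := .move 837 n358 (.cons 800 n1371 .nil)
noncomputable def n1538 : Strat := .move 837 n358 (.cons 800 n1393 .nil)
noncomputable def n1539 : Strat := .win 841 5 797
noncomputable def n1540 : Strat := .move 801 n115 (.cons 802 n1539 .nil)
noncomputable def n1541 : Strat := .move 800 n290 (.cons 837 n1540 .nil)
noncomputable def n1542 : Strat := .move 800 n289 (.cons 801 n1326 .nil)
noncomputable def n1543 : Strat := .win 922 1 758
noncomputable def n1544 : Strat := .move 881 n1543 (.cons 922 n893 .nil)
noncomputable def n1545 : Strat := .win 760 3 718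
noncomputable def n1546 : Strat := .move 719 n858 (.cons 678 n1545 .nil)
noncomputable def n1547 : Strat := .move 718 n890 (.cons 677 n1546 .nil)
noncomputable def n1548 : Strat := .win 881 1 758
noncomputable def n1549 : Strat := .move 923 n437 (.cons 963 n1302 .nil)
noncomputable def n1550 : Strat := .move 922 n1548 (.cons 881 n1549 .nil)
noncomputable def n1551 : Strat := .move 759 n1318 (.cons 677 n1544 (.cons 881 n1547 (.cons 718 n1550 .nil)))
noncomputable def n1552 : Strat := .move 882 n587 (.cons 883 n1551 .nil)
noncomputable def n1553 : Strat := .move 800 n289 (.cons 801 n1552 .nil)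
noncomputable def n1554 : Strat := .move 841 n1542 (.cons 800 n1326 (.cons 879 n1553 .nil))
noncomputable def n1555 : Strat := .move 838 n1536 (.cons 800 n1406 (.cons 841 n1537 (.cons 878 n1538 (.cons 879 n1541 (.cons 837 n1554 .nil)))))
noncomputable def n1556 : Strat := .move 841 n289 (.cons 801 n1321 .nil)
noncomputable def n1557 : Strat := .move 838 n290 (.cons 837 n1556 .nil)
noncomputable def n1558 : Strat := .move 798 n1284 (.cons 797 n1287 (.cons 757 n1291 .nil))
noncomputable def n1559 : Strat := .move 801 n115 (.cons 802 n1558 .nil)
noncomputable def n1560 : Strat := .move 838 n290 (.cons 837 n1540 .nil)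
noncomputable def n1561 : Strat := .win 675 6 675
noncomputable def n1562 : Strat := .win 881 6 716
noncomputable def n1563 : Strat := .move 716 n1561 (.cons 675 n1562 .nil)
noncomputable def n1564 : Strat := .move 757 n598 (.cons 756 n1563 .nil)
noncomputable def n1565 : Strat := .move 798 n116 (.cons 838 n1564 .nil)
noncomputable def n1566 : Strat := .move 801 n115 (.cons 802 n1565 .nil)
noncomputable def n1567 : Strat := .move 798 n123 (.cons 842 n1431 .nil)
noncomputable def n1568 : Strat := .move 797 n369 (.cons 796 n1567 .nil)
noncomputable def n1569 : Strat := .move 881 n893 (.cons 718 n1543 .nil)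
noncomputable def n1570 : Strat := .move 759 n1318 (.cons 677 n1569 (.cons 881 n1547 (.cons 718 n1550 .nil)))
noncomputable def n1571 : Strat := .move 882 n587 (.cons 883 n1570 .nil)
noncomputable def n1572 : Strat := .move 841 n1321 (.cons 759 n1568 (.cons 798 n1571 .nil))
noncomputable def n1573 : Strat := .move 838 n290 (.cons 837 n1572 .nil)
noncomputable def n1574 : Strat := .move 800 n1557 (.cons 838 n1559 (.cons 798 n1560 (.cons 841 n1566 (.cons 801 n1573 .nil))))
noncomputable def n1575 : Strat := .win 798 4 795
noncomputable def n1576 : Strat := .move 877 n1342 (.cons 876 n1341 .nil)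
noncomputable def n1577 : Strat := .move 836 n1575 (.cons 798 n1576 .nil)
noncomputable def n1578 : Strat := .move 797 n1380 (.cons 841 n1577 .nil)
noncomputable def n1579 : Strat := .move 796 n359 (.cons 795 n1578 .nil)
noncomputable def n1580 : Strat := .move 837 n358 (.cons 800 n1579 .nil)
noncomputable def n1581 : Strat := .move 800 n567 (.cons 801 n1297 .nil)
noncomputable def n1582 : Strat := .move 798 n203 (.cons 842 n1581 .nil)
noncomputable def n1583 : Strat := .move 797 n369 (.cons 796 n1582 .nil)
noncomputable def n1584 : Strat := .move 800 n567 (.cons 801 n1431 .nil)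
noncomputable def n1585 : Strat := .move 798 n203 (.cons 842 n1584 .nil)
noncomputable def n1586 : Strat := .move 797 n369 (.cons 796 n1585 .nil)
noncomputable def n1587 : Strat := .move 879 n1142 (.cons 878 n1304 .nil)
noncomputable def n1588 : Strat := .move 842 n370 (.cons 802 n1587 .nil)
noncomputable def n1589 : Strat := .move 801 n368 (.cons 800 n1588 .nil)
noncomputable def n1590 : Strat := .move 800 n289 (.cons 801 n1317 .nil)
noncomputable def n1591 : Strat := .move 841 n1583 (.cons 674 n1586 (.cons 797 n1589 (.cons 800 n1427 (.cons 842 n1590 .nil))))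
noncomputable def n1592 : Strat := .move 837 n358 (.cons 800 n1379 .nil)
noncomputable def n1593 : Strat := .move 800 n290 (.cons 837 n567 .nil)
noncomputable def n1594 : Strat := .win 880 1 756
noncomputable def n1595 : Strat := .move 757 n1594 (.cons 880 n1429 .nil)
noncomputable def n1596 : Strat := .move 920 n1498 (.cons 961 n1595 .nil)
noncomputable def n1597 : Strat := .move 879 n1394 (.cons 841 n1596 .nil)
noncomputable def n1598 : Strat := .move 878 n363 (.cons 877 n1597 .nil)
noncomputable def n1599 : Strat := .move 837 n1332 (.cons 836 n1598 .nil)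
noncomputable def n1600 : Strat := .win 800 4 797
noncomputable def n1601 : Strat := .move 842 n482 (.cons 843 n370 .nil)
noncomputable def n1602 : Strat := .move 842 n1304 (.cons 880 n370 .nil)
noncomputable def n1603 : Strat := .move 879 n1142 (.cons 878 n1602 .nil)
noncomputable def n1604 : Strat := .move 920 n1594 (.cons 880 n1498 .nil)
noncomputable def n1605 : Strat := .move 757 n1429 (.cons 716 n1604 .nil)
noncomputable def n1606 : Strat := .move 879 n1142 (.cons 878 n1605 .nil)
noncomputable def n1607 : Strat := .move 841 n1601 (.cons 843 n1603 (.cons 842 n1606 .nil))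
noncomputable def n1608 : Strat := .move 801 n1600 (.cons 800 n1607 .nil)
noncomputable def n1609 : Strat := .move 798 n1593 (.cons 800 n1599 (.cons 837 n1608 .nil))
noncomputable def n1610 : Strat := .move 800 n290 (.cons 837 n1279 .nil)
noncomputable def n1611 : Strat := .move 798 n1332 (.cons 836 n1598 .nil)
noncomputable def n1612 : Strat := .move 837 n1579 (.cons 798 n1379 (.cons 797 n1611 (.cons 878 n1375 .nil)))
noncomputable def n1613 : Strat := .move 838 n1580 (.cons 837 n1591 (.cons 798 n1592 (.cons 797 n1609 (.cons 878 n1610 (.cons 800 n1612 .nil)))))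
noncomputable def n1614 : Strat := .move 716 n1562 (.cons 881 n1561 .nil)
noncomputable def n1615 : Strat := .move 757 n598 (.cons 756 n1614 .nil)
noncomputable def n1616 : Strat := .move 800 n116 (.cons 838 n1615 .nil)
noncomputable def n1617 : Strat := .move 801 n370 (.cons 802 n1616 .nil)
noncomputable def n1618 : Strat := .move 842 n482 (.cons 843 n1617 .nil)
noncomputable def n1619 : Strat := .move 838 n567 (.cons 801 n1297 .nil)
noncomputable def n1620 : Strat := .move 800 n1619 (.cons 801 n1319 .nil)
noncomputable def n1621 : Strat := .move 797 n124 (.cons 796 n1620 .nil)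
noncomputable def n1622 : Strat := .move 841 n204 (.cons 796 n483 (.cons 797 n1618 (.cons 842 n1621 .nil)))
noncomputable def n1623 : Strat := .win 678 1 677
noncomputable def n1624 : Strat := .win 882 1 718
noncomputable def n1625 : Strat := .move 719 n1623 (.cons 678 n1624 .nil)
noncomputable def n1626 : Strat := .move 760 n130 (.cons 761 n1625 .nil)
noncomputable def n1627 : Strat := .move 800 n116 (.cons 838 n1626 .nil)
noncomputable def n1628 : Strat := .move 801 n370 (.cons 802 n1627 .nil)
noncomputable def n1629 : Strat := .move 842 n482 (.cons 843 n1628 .nil)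
noncomputable def n1630 : Strat := .move 715 n1295 (.cons 880 n1294 .nil)
noncomputable def n1631 : Strat := .move 756 n620 (.cons 755 n1630 .nil)
noncomputable def n1632 : Strat := .move 838 n567 (.cons 801 n1631 .nil)
noncomputable def n1633 : Strat := .move 800 n618 (.cons 802 n1632 (.cons 801 n1319 .nil))
noncomputable def n1634 : Strat := .move 797 n124 (.cons 796 n1633 .nil)
noncomputable def n1635 : Strat := .move 841 n204 (.cons 797 n1629 (.cons 842 n1634 .nil))
noncomputable def n1636 : Strat := .win 880 7 715
noncomputable def n1637 : Strat := .win 676 3 675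
noncomputable def n1638 : Strat := .win 718 4 714
noncomputable def n1639 : Strat := .move 755 n1638 (.cons 718 n839 .nil)
noncomputable def n1640 : Strat := .move 717 n1637 (.cons 676 n1639 .nil)
noncomputable def n1641 : Strat := .move 756 n1636 (.cons 880 n1640 .nil)
noncomputable def n1642 : Strat := .move 715 n1134 (.cons 674 n1641 .nil)
noncomputable def n1643 : Strat := .move 716 n1561 (.cons 675 n1642 .nil)
noncomputable def n1644 : Strat := .win 881 7 757
noncomputable def n1645 : Strat := .move 921 n1493 (.cons 962 n742 .nil)
noncomputable def n1646 : Strat := .win 920 1 756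
noncomputable def n1647 : Strat := .win 838 4 837
noncomputable def n1648 : Strat := .move 878 n1647 (.cons 838 n1472 .nil)
noncomputable def n1649 : Strat := .move 841 n1322 (.cons 842 n1648 .nil)
noncomputable def n1650 : Strat := .move 879 n1646 (.cons 920 n1649 .nil)
noncomputable def n1651 : Strat := .move 880 n1645 (.cons 921 n1650 .nil)
noncomputable def n1652 : Strat := .move 922 n1644 (.cons 881 n1651 .nil)
noncomputable def n1653 : Strat := .move 757 n1563 (.cons 881 n1643 (.cons 675 n1286 (.cons 716 n1652 .nil)))
noncomputable def n1654 : Strat := .move 841 n124 (.cons 796 n203 .nil)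
noncomputable def n1655 : Strat := .move 800 n161 (.cons 756 n505 .nil)
noncomputable def n1656 : Strat := .move 755 n160 (.cons 754 n1655 .nil)
noncomputable def n1657 : Strat := .move 796 n744 (.cons 795 n1656 .nil)
noncomputable def n1658 : Strat := .move 838 n567 (.cons 801 n1431 .nil)
noncomputable def n1659 : Strat := .win 921 7 756
noncomputable def n1660 : Strat := .win 838 6 715
noncomputable def n1661 : Strat := .move 715 n1660 (.cons 838 n1294 .nil)
noncomputable def n1662 : Strat := .move 880 n1659 (.cons 921 n1661 .nil)
noncomputable def n1663 : Strat := .move 756 n620 (.cons 755 n1662 .nil)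
noncomputable def n1664 : Strat := .move 756 n1281 (.cons 757 n620 .nil)
noncomputable def n1665 : Strat := .move 801 n115 (.cons 802 n1664 .nil)
noncomputable def n1666 : Strat := .move 800 n1619 (.cons 674 n1658 (.cons 801 n1663 (.cons 838 n1665 .nil)))
noncomputable def n1667 : Strat := .move 841 n203 (.cons 842 n1666 .nil)
noncomputable def n1668 : Strat := .move 797 n1654 (.cons 842 n745 (.cons 841 n1657 (.cons 796 n1667 .nil)))
noncomputable def n1669 : Strat := .move 838 n567 (.cons 801 n1319 .nil)
noncomputable def n1670 : Strat := .move 800 n618 (.cons 802 n1669 (.cons 801 n1319 .nil))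
noncomputable def n1671 : Strat := .move 797 n124 (.cons 796 n1670 .nil)
noncomputable def n1672 : Strat := .move 841 n204 (.cons 796 n483 (.cons 797 n1618 (.cons 842 n1671 .nil)))
noncomputable def n1673 : Strat := .win 797 2 755
noncomputable def n1674 : Strat := .move 800 n1673 (.cons 797 n600 .nil)
noncomputable def n1675 : Strat := .move 755 n839 (.cons 754 n1674 .nil)
noncomputable def n1676 : Strat := .move 756 n1636 (.cons 880 n1675 .nil)
noncomputable def n1677 : Strat := .move 715 n1134 (.cons 674 n1676 .nil)
noncomputable def n1678 : Strat := .move 716 n1561 (.cons 675 n1677 .nil)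
noncomputable def n1679 : Strat := .move 878 n381 (.cons 841 n1472 .nil)
noncomputable def n1680 : Strat := .move 879 n1646 (.cons 920 n1679 .nil)
noncomputable def n1681 : Strat := .win 961 1 797
noncomputable def n1682 : Strat := .win 879 1 756
noncomputable def n1683 : Strat := .move 920 n1681 (.cons 961 n1682 .nil)
noncomputable def n1684 : Strat := .move 921 n1493 (.cons 962 n1683 .nil)
noncomputable def n1685 : Strat := .win 797 7 756
noncomputable def n1686 : Strat := .move 756 n1685 (.cons 797 n838 .nil)
noncomputable def n1687 : Strat := .move 921 n1493 (.cons 962 n1686 .nil)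
noncomputable def n1688 : Strat := .move 880 n1680 (.cons 877 n1684 (.cons 879 n1687 .nil))
noncomputable def n1689 : Strat := .move 881 n183 (.cons 922 n1688 .nil)
noncomputable def n1690 : Strat := .move 757 n1286 (.cons 881 n1678 (.cons 716 n1689 .nil))
noncomputable def n1691 : Strat := .move 797 n123 (.cons 842 n1319 .nil)
noncomputable def n1692 : Strat := .move 800 n567 (.cons 801 n1691 .nil)
noncomputable def n1693 : Strat := .move 842 n1304 (.cons 880 n482 .nil)
noncomputable def n1694 : Strat := .move 879 n1142 (.cons 878 n1693 .nil)
noncomputable def n1695 : Strat := .move 800 n567 (.cons 801 n1694 .nil)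
noncomputable def n1696 : Strat := .move 797 n124 (.cons 796 n1319 .nil)
noncomputable def n1697 : Strat := .move 800 n567 (.cons 801 n1696 .nil)
noncomputable def n1698 : Strat := .move 838 n204 (.cons 796 n1692 (.cons 797 n1695 (.cons 842 n1697 .nil)))
noncomputable def n1699 : Strat := .move 800 n618 (.cons 801 n1319 .nil)
noncomputable def n1700 : Strat := .move 797 n124 (.cons 796 n1699 .nil)
noncomputable def n1701 : Strat := .move 841 n1698 (.cons 796 n483 (.cons 843 n204 (.cons 797 n1629 (.cons 842 n1700 .nil))))
noncomputable def n1702 : Strat := .move 755 n1673 (.cons 797 n839 .nil)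
noncomputable def n1703 : Strat := .move 800 n600 (.cons 801 n1702 .nil)
noncomputable def n1704 : Strat := .move 756 n838 (.cons 715 n1703 .nil)
noncomputable def n1705 : Strat := .move 880 n1645 (.cons 921 n1704 .nil)
noncomputable def n1706 : Strat := .move 922 n1644 (.cons 881 n1705 .nil)
noncomputable def n1707 : Strat := .move 757 n1563 (.cons 716 n1706 (.cons 881 n1678 .nil))
noncomputable def n1708 : Strat := .move 798 n1622 (.cons 757 n1635 (.cons 797 n1653 (.cons 881 n1668 (.cons 880 n1672 (.cons 838 n1690 (.cons 756 n1701 (.cons 841 n1707 .nil)))))))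
noncomputable def n1709 : Strat := .move 800 n290 (.cons 837 n1327 .nil)
noncomputable def n1710 : Strat := .move 878 n363 (.cons 877 n1377 .nil)
noncomputable def n1711 : Strat := .move 796 n359 (.cons 795 n1710 .nil)
noncomputable def n1712 : Strat := .move 837 n1344 (.cons 878 n1375 (.cons 836 n1711 .nil))
noncomputable def n1713 : Strat := .move 837 n358 (.cons 800 n1344 .nil)
noncomputable def n1714 : Strat := .move 837 n358 (.cons 800 n1375 .nil)
noncomputable def n1715 : Strat := .move 800 n1299 (.cons 797 n1308 (.cons 842 n1317 (.cons 880 n1321 (.cons 798 n1326 .nil))))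
noncomputable def n1716 : Strat := .win 800 2 799
noncomputable def n1717 : Strat := .win 881 4 840
noncomputable def n1718 : Strat := .move 882 n1717 (.cons 881 n587 .nil)
noncomputable def n1719 : Strat := .move 844 n1716 (.cons 800 n1718 .nil)
noncomputable def n1720 : Strat := .move 843 n683 (.cons 798 n1719 .nil)
noncomputable def n1721 : Strat := .move 842 n1304 (.cons 880 n1720 .nil)
noncomputable def n1722 : Strat := .move 879 n1142 (.cons 878 n1721 .nil)
noncomputable def n1723 : Strat := .win 800 2 755
noncomputable def n1724 : Strat := .win 757 0 754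
noncomputable def n1725 : Strat := .win 753 0 753
noncomputable def n1726 : Strat := .move 754 n1724 (.cons 757 n1725 .nil)
noncomputable def n1727 : Strat := .move 755 n1723 (.cons 800 n1726 .nil)
noncomputable def n1728 : Strat := .move 756 n1296 (.cons 880 n1727 .nil)
noncomputable def n1729 : Strat := .move 798 n203 (.cons 842 n1728 .nil)
noncomputable def n1730 : Strat := .move 797 n369 (.cons 796 n1729 .nil)
noncomputable def n1731 : Strat := .move 797 n369 (.cons 796 n1452 .nil)
noncomputable def n1732 : Strat := .win 757 3 756
noncomputable def n1733 : Strat := .move 920 n1498 (.cons 961 n1732 .nil)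
noncomputable def n1734 : Strat := .move 755 n1723 (.cons 800 n1312 .nil)
noncomputable def n1735 : Strat := .move 756 n1311 (.cons 715 n1734 .nil)
noncomputable def n1736 : Strat := .move 798 n1430 (.cons 716 n1733 (.cons 920 n1735 .nil))
noncomputable def n1737 : Strat := .move 879 n1142 (.cons 878 n1736 .nil)
noncomputable def n1738 : Strat := .move 797 n369 (.cons 796 n1737 .nil)
noncomputable def n1739 : Strat := .move 841 n1715 (.cons 797 n1722 (.cons 879 n1730 (.cons 798 n1731 (.cons 842 n1738 (.cons 880 n1433 .nil)))))
noncomputable def n1740 : Strat := .move 838 n1709 (.cons 800 n1712 (.cons 798 n1592 (.cons 796 n1713 (.cons 878 n1714 (.cons 837 n1739 .nil)))))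
noncomputable def n1741 : Strat := .move 800 n289 (.cons 801 n1308 .nil)
noncomputable def n1742 : Strat := .move 843 n683 (.cons 798 n1457 .nil)
noncomputable def n1743 : Strat := .move 842 n1304 (.cons 880 n1742 .nil)
noncomputable def n1744 : Strat := .move 879 n1142 (.cons 878 n1743 .nil)
noncomputable def n1745 : Strat := .move 843 n683 (.cons 798 n1459 .nil)
noncomputable def n1746 : Strat := .move 882 n587 (.cons 883 n1745 .nil)
noncomputable def n1747 : Strat := .move 842 n370 (.cons 802 n1746 .nil)
noncomputable def n1748 : Strat := .move 801 n368 (.cons 800 n1747 .nil)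
noncomputable def n1749 : Strat := .move 801 n368 (.cons 800 n1603 .nil)
noncomputable def n1750 : Strat := .move 882 n587 (.cons 883 n1550 .nil)
noncomputable def n1751 : Strat := .win 842 6 718
noncomputable def n1752 : Strat := .win 882 0 838
noncomputable def n1753 : Strat := .move 883 n1751 (.cons 842 n1752 .nil)
noncomputable def n1754 : Strat := .move 718 n890 (.cons 677 n1753 .nil)
noncomputable def n1755 : Strat := .move 759 n892 (.cons 677 n894 (.cons 718 n1750 (.cons 881 n1754 .nil)))
noncomputable def n1756 : Strat := .move 800 n289 (.cons 801 n1755 .nil)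
noncomputable def n1757 : Strat := .move 841 n1741 (.cons 800 n1744 (.cons 801 n1722 (.cons 879 n1748 (.cons 843 n1749 (.cons 880 n1756 (.cons 842 n1553 .nil))))))
noncomputable def n1758 : Strat := .move 838 n1713 (.cons 800 n1407 (.cons 798 n1541 (.cons 837 n1757 .nil)))
noncomputable def n1759 : Strat := .move 841 n289 (.cons 801 n1317 .nil)
noncomputable def n1760 : Strat := .move 800 n290 (.cons 837 n1759 .nil)
noncomputable def n1761 : Strat := .move 837 n1344 (.cons 877 n1375 (.cons 836 n1711 .nil))
noncomputable def n1762 : Strat := .win 798 5 756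
noncomputable def n1763 : Strat := .move 760 n105 (.cons 719 n1762 .nil)
noncomputable def n1764 : Strat := .move 759 n1318 (.cons 677 n1544 (.cons 881 n1763 .nil))
noncomputable def n1765 : Strat := .move 882 n587 (.cons 883 n1764 .nil)
noncomputable def n1766 : Strat := .move 797 n369 (.cons 796 n1765 .nil)
noncomputable def n1767 : Strat := .move 800 n289 (.cons 801 n1766 .nil)
noncomputable def n1768 : Strat := .move 798 n1498 (.cons 961 n1732 .nil)
noncomputable def n1769 : Strat := .move 921 n1486 (.cons 962 n1485 .nil)
noncomputable def n1770 : Strat := .move 920 n1488 (.cons 716 n1768 (.cons 798 n1769 .nil))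
noncomputable def n1771 : Strat := .move 716 n1528 (.cons 675 n1527 .nil)
noncomputable def n1772 : Strat := .move 715 n1295 (.cons 880 n1771 .nil)
noncomputable def n1773 : Strat := .move 714 n1526 (.cons 673 n1525 .nil)
noncomputable def n1774 : Strat := .move 715 n1771 (.cons 757 n1773 .nil)
noncomputable def n1775 : Strat := .move 756 n1311 (.cons 715 n1770 (.cons 921 n1772 (.cons 880 n1774 .nil)))
noncomputable def n1776 : Strat := .move 879 n1142 (.cons 878 n1775 .nil)
noncomputable def n1777 : Strat := .move 797 n369 (.cons 796 n1776 .nil)
noncomputable def n1778 : Strat := .move 841 n1590 (.cons 801 n1738 (.cons 879 n1767 (.cons 796 n1553 (.cons 800 n1777 .nil))))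
noncomputable def n1779 : Strat := .move 838 n1760 (.cons 800 n1761 (.cons 798 n1541 (.cons 841 n1610 (.cons 837 n1778 .nil))))
noncomputable def n1780 : Strat := .move 837 n358 (.cons 800 n1401 .nil)
noncomputable def n1781 : Strat := .move 798 n482 (.cons 843 n126 .nil)
noncomputable def n1782 : Strat := .move 842 n1304 (.cons 880 n1781 .nil)
noncomputable def n1783 : Strat := .move 879 n1142 (.cons 878 n1782 .nil)
noncomputable def n1784 : Strat := .move 800 n289 (.cons 801 n1783 .nil)
noncomputable def n1785 : Strat := .move 798 n481 (.cons 797 n482 .nil)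
noncomputable def n1786 : Strat := .move 842 n1304 (.cons 880 n1785 .nil)
noncomputable def n1787 : Strat := .move 879 n1142 (.cons 878 n1786 .nil)
noncomputable def n1788 : Strat := .move 842 n1305 (.cons 878 n1303 .nil)
noncomputable def n1789 : Strat := .move 923 n1302 (.cons 964 n1788 .nil)
noncomputable def n1790 : Strat := .move 882 n587 (.cons 883 n1789 .nil)
noncomputable def n1791 : Strat := .move 800 n289 (.cons 801 n1790 .nil)
noncomputable def n1792 : Strat := .move 841 n1784 (.cons 800 n1787 (.cons 797 n1791 (.cons 842 n1553 .nil)))
noncomputable def n1793 : Strat := .move 838 n1610 (.cons 800 n1419 (.cons 798 n1780 (.cons 837 n1792 .nil)))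
noncomputable def n1794 : Strat := .move 800 n289 (.cons 801 n1299 .nil)
noncomputable def n1795 : Strat := .move 797 n369 (.cons 796 n1462 .nil)
noncomputable def n1796 : Strat := .move 841 n1794 (.cons 800 n1795 (.cons 801 n1730 (.cons 842 n1767 (.cons 797 n1748 (.cons 798 n1553 .nil)))))
noncomputable def n1797 : Strat := .move 838 n1714 (.cons 800 n1408 (.cons 798 n1541 (.cons 837 n1796 .nil)))
noncomputable def n1798 : Strat := .move 838 n290 (.cons 837 n1278 .nil)
noncomputable def n1799 : Strat := .move 801 n115 (.cons 802 n1798 .nil)
noncomputable def n1800 : Strat := .move 838 n290 (.cons 837 n1539 .nil)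
noncomputable def n1801 : Strat := .move 801 n115 (.cons 802 n1800 .nil)
noncomputable def n1802 : Strat := .move 801 n1278 (.cons 798 n1539 .nil)
noncomputable def n1803 : Strat := .move 838 n290 (.cons 837 n1802 .nil)
noncomputable def n1804 : Strat := .move 759 n1318 (.cons 677 n1569 (.cons 881 n1763 .nil))
noncomputable def n1805 : Strat := .move 882 n587 (.cons 883 n1804 .nil)
noncomputable def n1806 : Strat := .move 797 n369 (.cons 796 n1805 .nil)
noncomputable def n1807 : Strat := .move 841 n1299 (.cons 755 n1321 (.cons 842 n1806 (.cons 798 n1571 .nil)))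
noncomputable def n1808 : Strat := .move 838 n290 (.cons 837 n1807 .nil)
noncomputable def n1809 : Strat := .move 800 n1799 (.cons 838 n1559 (.cons 798 n1801 (.cons 802 n1803 (.cons 801 n1808 .nil))))
noncomputable def n1810 : Strat := .move 878 n1355 (.cons 715 n1381 .nil)
noncomputable def n1811 : Strat := .move 756 n1723 (.cons 800 n1810 .nil)
noncomputable def n1812 : Strat := .move 755 n160 (.cons 754 n1811 .nil)
noncomputable def n1813 : Strat := .move 837 n164 (.cons 836 n1812 .nil)
noncomputable def n1814 : Strat := .move 796 n744 (.cons 795 n1813 .nil)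
noncomputable def n1815 : Strat := .move 841 n123 (.cons 842 n1319 .nil)
noncomputable def n1816 : Strat := .move 759 n501 (.cons 760 n894 .nil)
noncomputable def n1817 : Strat := .move 841 n123 (.cons 842 n1816 .nil)
noncomputable def n1818 : Strat := .move 760 n130 (.cons 761 n1288 .nil)
noncomputable def n1819 : Strat := .move 801 n115 (.cons 802 n1818 .nil)
noncomputable def n1820 : Strat := .move 841 n123 (.cons 842 n1819 .nil)
noncomputable def n1821 : Strat := .move 801 n115 (.cons 802 n1289 .nil)
noncomputable def n1822 : Strat := .move 801 n115 (.cons 802 n127 .nil)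
noncomputable def n1823 : Strat := .move 842 n153 (.cons 841 n1822 .nil)
noncomputable def n1824 : Strat := .move 800 n1815 (.cons 677 n1817 (.cons 718 n1820 (.cons 841 n1821 (.cons 760 n1823 .nil))))
noncomputable def n1825 : Strat := .move 797 n1654 (.cons 841 n1814 (.cons 796 n1824 .nil))
noncomputable def n1826 : Strat := .move 881 n1232 (.cons 922 n1680 .nil)
noncomputable def n1827 : Strat := .move 841 n262 (.cons 878 n1322 .nil)
noncomputable def n1828 : Strat := .move 879 n1646 (.cons 920 n1827 .nil)
noncomputable def n1829 : Strat := .move 881 n1232 (.cons 922 n1828 .nil)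
noncomputable def n1830 : Strat := .win 881 6 757
noncomputable def n1831 : Strat := .move 922 n1830 (.cons 881 n1645 .nil)
noncomputable def n1832 : Strat := .move 920 n1682 (.cons 879 n1681 .nil)
noncomputable def n1833 : Strat := .move 921 n1493 (.cons 962 n1832 .nil)
noncomputable def n1834 : Strat := .move 880 n1826 (.cons 877 n1829 (.cons 878 n1831 (.cons 881 n1833 .nil)))
noncomputable def n1835 : Strat := .move 757 n1286 (.cons 881 n1643 (.cons 716 n1834 .nil))
noncomputable def n1836 : Strat := .win 878 3 714
noncomputable def n1837 : Strat := .move 837 n1836 (.cons 878 n164 .nil)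
noncomputable def n1838 : Strat := .move 715 n1294 (.cons 674 n1837 .nil)
noncomputable def n1839 : Strat := .move 756 n1723 (.cons 800 n1838 .nil)
noncomputable def n1840 : Strat := .move 755 n160 (.cons 754 n1839 .nil)
noncomputable def n1841 : Strat := .move 796 n744 (.cons 795 n1840 .nil)
noncomputable def n1842 : Strat := .win 757 7 715
noncomputable def n1843 : Strat := .move 715 n1842 (.cons 757 n1294 .nil)
noncomputable def n1844 : Strat := .move 880 n1659 (.cons 921 n1843 .nil)
noncomputable def n1845 : Strat := .move 756 n620 (.cons 755 n1844 .nil)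
noncomputable def n1846 : Strat := .move 800 n1665 (.cons 801 n1845 (.cons 756 n1819 .nil))
noncomputable def n1847 : Strat := .move 841 n203 (.cons 842 n1846 .nil)
noncomputable def n1848 : Strat := .move 797 n745 (.cons 841 n1841 (.cons 795 n1654 (.cons 796 n1847 .nil)))
noncomputable def n1849 : Strat := .move 921 n1685 (.cons 797 n1493 .nil)
noncomputable def n1850 : Strat := .move 756 n838 (.cons 715 n1849 .nil)
noncomputable def n1851 : Strat := .move 880 n1684 (.cons 961 n1850 (.cons 921 n1704 .nil))
noncomputable def n1852 : Strat := .move 881 n1285 (.cons 716 n1851 .nil)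
noncomputable def n1853 : Strat := .move 880 n1645 (.cons 963 n1850 (.cons 921 n1704 .nil))
noncomputable def n1854 : Strat := .move 922 n1644 (.cons 881 n1853 .nil)
noncomputable def n1855 : Strat := .move 757 n1286 (.cons 922 n1852 (.cons 716 n1854 (.cons 881 n1678 .nil)))
noncomputable def n1856 : Strat := .move 800 n1319 (.cons 677 n1665 .nil)
noncomputable def n1857 : Strat := .move 841 n203 (.cons 842 n1856 .nil)
noncomputable def n1858 : Strat := .move 800 n161 (.cons 756 n1819 .nil)
noncomputable def n1859 : Strat := .move 755 n160 (.cons 754 n1858 .nil)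
noncomputable def n1860 : Strat := .move 796 n744 (.cons 795 n1859 .nil)
noncomputable def n1861 : Strat := .move 797 n1654 (.cons 842 n745 (.cons 796 n1857 (.cons 841 n1860 .nil)))
noncomputable def n1862 : Strat := .win 756 7 715
noncomputable def n1863 : Strat := .move 880 n1862 (.cons 756 n1684 .nil)
noncomputable def n1864 : Strat := .move 715 n1134 (.cons 674 n1863 .nil)
noncomputable def n1865 : Strat := .move 716 n1561 (.cons 675 n1864 .nil)
noncomputable def n1866 : Strat := .move 757 n1286 (.cons 922 n1563 (.cons 716 n1689 (.cons 881 n1865 .nil)))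
noncomputable def n1867 : Strat := .move 719 n1624 (.cons 882 n1623 .nil)
noncomputable def n1868 : Strat := .move 760 n130 (.cons 761 n1867 .nil)
noncomputable def n1869 : Strat := .move 841 n126 (.cons 797 n1868 .nil)
noncomputable def n1870 : Strat := .move 842 n127 (.cons 843 n1869 .nil)
noncomputable def n1871 : Strat := .move 801 n115 (.cons 802 n1870 .nil)
noncomputable def n1872 : Strat := .move 797 n124 (.cons 796 n123 .nil)
noncomputable def n1873 : Strat := .move 922 n72 (.cons 757 n656 .nil)
noncomputable def n1874 : Strat := .move 797 n501 (.cons 760 n124 .nil)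
noncomputable def n1875 : Strat := .move 759 n893 (.cons 718 n1874 .nil)
noncomputable def n1876 : Strat := .move 881 n1873 (.cons 922 n1875 .nil)
noncomputable def n1877 : Strat := .move 881 n656 (.cons 963 n1001 .nil)
noncomputable def n1878 : Strat := .move 881 n15 (.cons 759 n656 .nil)
noncomputable def n1879 : Strat := .move 881 n15 (.cons 759 n1001 .nil)
noncomputable def n1880 : Strat := .move 921 n742 (.cons 963 n1493 .nil)
noncomputable def n1881 : Strat := .move 922 n1877 (.cons 757 n1878 (.cons 963 n1879 (.cons 881 n1880 .nil)))
noncomputable def n1882 : Strat := .move 880 n675 (.cons 879 n1881 .nil)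
noncomputable def n1883 : Strat := .move 842 n482 (.cons 843 n1882 .nil)
noncomputable def n1884 : Strat := .move 841 n603 (.cons 843 n1872 (.cons 842 n1876 (.cons 797 n1883 .nil)))
noncomputable def n1885 : Strat := .win 883 7 718
noncomputable def n1886 : Strat := .move 842 n1885 (.cons 883 n127 .nil)
noncomputable def n1887 : Strat := .move 718 n890 (.cons 677 n1886 .nil)
noncomputable def n1888 : Strat := .move 759 n1045 (.cons 797 n1887 .nil)
noncomputable def n1889 : Strat := .move 760 n130 (.cons 761 n1888 .nil)
noncomputable def n1890 : Strat := .move 801 n115 (.cons 802 n1889 .nil)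
noncomputable def n1891 : Strat := .win 841 1 717
noncomputable def n1892 : Strat := .move 718 n1891 (.cons 841 n890 .nil)
noncomputable def n1893 : Strat := .move 881 n97 (.cons 922 n1892 .nil)
noncomputable def n1894 : Strat := .move 759 n1045 (.cons 797 n1893 .nil)
noncomputable def n1895 : Strat := .move 760 n130 (.cons 761 n1894 .nil)
noncomputable def n1896 : Strat := .move 801 n115 (.cons 802 n1895 .nil)
noncomputable def n1897 : Strat := .move 881 n566 (.cons 963 n72 .nil)
noncomputable def n1898 : Strat := .move 881 n15 (.cons 759 n566 .nil)
noncomputable def n1899 : Strat := .move 881 n15 (.cons 759 n72 .nil)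
noncomputable def n1900 : Strat := .move 841 n675 (.cons 879 n126 .nil)
noncomputable def n1901 : Strat := .move 880 n1900 (.cons 797 n1880 .nil)
noncomputable def n1902 : Strat := .move 922 n1897 (.cons 757 n1898 (.cons 963 n1899 (.cons 881 n1901 .nil)))
noncomputable def n1903 : Strat := .move 842 n127 (.cons 843 n1902 .nil)
noncomputable def n1904 : Strat := .move 801 n115 (.cons 802 n1903 .nil)
noncomputable def n1905 : Strat := .move 801 n115 (.cons 802 n1868 .nil)
noncomputable def n1906 : Strat := .move 842 n482 (.cons 843 n1905 .nil)
noncomputable def n1907 : Strat := .win 923 3 759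
noncomputable def n1908 : Strat := .win 842 1 718
noncomputable def n1909 : Strat := .move 719 n1908 (.cons 842 n1623 .nil)
noncomputable def n1910 : Strat := .move 882 n1907 (.cons 923 n1909 .nil)
noncomputable def n1911 : Strat := .move 760 n130 (.cons 761 n1910 .nil)
noncomputable def n1912 : Strat := .move 801 n115 (.cons 802 n1911 .nil)
noncomputable def n1913 : Strat := .win 759 3 718
noncomputable def n1914 : Strat := .move 719 n1913 (.cons 759 n1623 .nil)
noncomputable def n1915 : Strat := .move 882 n1907 (.cons 923 n1914 .nil)
noncomputable def n1916 : Strat := .move 760 n130 (.cons 761 n1915 .nil)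
noncomputable def n1917 : Strat := .move 801 n115 (.cons 802 n1916 .nil)
noncomputable def n1918 : Strat := .move 841 n1906 (.cons 801 n1883 (.cons 843 n1912 (.cons 842 n1917 .nil)))
noncomputable def n1919 : Strat := .move 800 n1871 (.cons 801 n1884 (.cons 841 n1890 (.cons 842 n1896 (.cons 760 n1904 (.cons 797 n1918 .nil)))))
noncomputable def n1920 : Strat := .move 798 n1690 (.cons 757 n1825 (.cons 797 n1835 (.cons 881 n1848 (.cons 841 n1855 (.cons 715 n1861 (.cons 755 n1866 (.cons 756 n1919 .nil)))))))
noncomputable def n1921 : Strat := .win 800 4 796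
noncomputable def n1922 : Strat := .move 837 n1921 (.cons 800 n1332 .nil)
noncomputable def n1923 : Strat := .move 800 n567 (.cons 801 n1631 .nil)
noncomputable def n1924 : Strat := .move 796 n744 (.cons 795 n1336 .nil)
noncomputable def n1925 : Strat := .move 837 n1332 (.cons 836 n1924 .nil)
noncomputable def n1926 : Strat := .move 838 n1922 (.cons 837 n1923 (.cons 800 n1925 .nil))
noncomputable def n1927 : Strat := .move 838 n156 (.cons 837 n567 .nil)
noncomputable def n1928 : Strat := .move 801 n115 (.cons 802 n1281 .nil)
noncomputable def n1929 : Strat := .move 756 n620 (.cons 755 n1928 .nil)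
noncomputable def n1930 : Strat := .move 838 n156 (.cons 837 n1631 .nil)
noncomputable def n1931 : Strat := .move 800 n1927 (.cons 837 n618 (.cons 838 n1929 (.cons 801 n1930 .nil)))
noncomputable def n1932 : Strat := .win 918 1 754
noncomputable def n1933 : Strat := .win 838 4 836
noncomputable def n1934 : Strat := .move 877 n1932 (.cons 918 n1933 .nil)
noncomputable def n1935 : Strat := .move 756 n1355 (.cons 715 n1381 .nil)
noncomputable def n1936 : Strat := .move 878 n1934 (.cons 838 n1935 .nil)
noncomputable def n1937 : Strat := .move 755 n160 (.cons 754 n1936 .nil)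
noncomputable def n1938 : Strat := .move 837 n164 (.cons 836 n1937 .nil)
noncomputable def n1939 : Strat := .move 796 n744 (.cons 795 n1938 .nil)
noncomputable def n1940 : Strat := .move 714 n1334 (.cons 879 n1333 .nil)
noncomputable def n1941 : Strat := .move 755 n160 (.cons 754 n1940 .nil)
noncomputable def n1942 : Strat := .move 838 n1921 (.cons 800 n1941 .nil)
noncomputable def n1943 : Strat := .move 837 n164 (.cons 836 n1942 .nil)
noncomputable def n1944 : Strat := .move 796 n744 (.cons 795 n1943 .nil)
noncomputable def n1945 : Strat := .move 796 n744 (.cons 795 n164 .nil)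
noncomputable def n1946 : Strat := .move 837 n165 (.cons 838 n1945 .nil)
noncomputable def n1947 : Strat := .move 800 n1927 (.cons 838 n1821 (.cons 801 n1946 .nil))
noncomputable def n1948 : Strat := .move 797 n1926 (.cons 838 n1841 (.cons 796 n1931 (.cons 800 n1939 (.cons 837 n1657 (.cons 756 n1944 (.cons 755 n1947 .nil))))))
noncomputable def n1949 : Strat := .move 838 n290 (.cons 837 n567 .nil)
noncomputable def n1950 : Strat := .move 880 n1310 (.cons 715 n1659 .nil)
noncomputable def n1951 : Strat := .move 756 n620 (.cons 755 n1950 .nil)
noncomputable def n1952 : Strat := .move 838 n156 (.cons 837 n1951 .nil)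
noncomputable def n1953 : Strat := .move 796 n744 (.cons 795 n162 .nil)
noncomputable def n1954 : Strat := .move 838 n156 (.cons 837 n1953 .nil)
noncomputable def n1955 : Strat := .move 755 n161 (.cons 756 n160 .nil)
noncomputable def n1956 : Strat := .move 796 n744 (.cons 795 n1955 .nil)
noncomputable def n1957 : Strat := .move 797 n1930 (.cons 674 n1952 (.cons 715 n1954 (.cons 838 n1956 (.cons 755 n1946 .nil))))
noncomputable def n1958 : Strat := .move 800 n1949 (.cons 838 n1890 (.cons 801 n1957 .nil))
noncomputable def n1959 : Strat := .move 838 n1259 (.cons 879 n1593 .nil)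
noncomputable def n1960 : Strat := .move 716 n1561 (.cons 675 n1959 .nil)
noncomputable def n1961 : Strat := .move 921 n1681 (.cons 961 n1493 .nil)
noncomputable def n1962 : Strat := .move 920 n1682 (.cons 879 n1961 .nil)
noncomputable def n1963 : Strat := .move 838 n1260 (.cons 837 n1962 .nil)
noncomputable def n1964 : Strat := .move 881 n1232 (.cons 922 n1963 .nil)
noncomputable def n1965 : Strat := .move 881 n1232 (.cons 922 n1684 .nil)
noncomputable def n1966 : Strat := .move 756 n838 (.cons 715 n1965 .nil)
noncomputable def n1967 : Strat := .move 838 n1388 (.cons 836 n358 .nil)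
noncomputable def n1968 : Strat := .move 838 n1387 (.cons 882 n1388 .nil)
noncomputable def n1969 : Strat := .move 838 n1387 (.cons 882 n358 .nil)
noncomputable def n1970 : Strat := .move 878 n382 (.cons 836 n1472 .nil)
noncomputable def n1971 : Strat := .move 837 n1967 (.cons 800 n1968 (.cons 836 n1969 (.cons 838 n1970 .nil)))
noncomputable def n1972 : Strat := .move 879 n1646 (.cons 920 n1971 .nil)
noncomputable def n1973 : Strat := .move 881 n1232 (.cons 922 n1972 .nil)
noncomputable def n1974 : Strat := .move 756 n838 (.cons 715 n1683 .nil)
noncomputable def n1975 : Strat := .move 921 n1493 (.cons 962 n1974 .nil)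
noncomputable def n1976 : Strat := .move 880 n1964 (.cons 800 n1966 (.cons 961 n1973 (.cons 881 n1975 (.cons 879 n1831 .nil))))
noncomputable def n1977 : Strat := .move 757 n1563 (.cons 881 n1960 (.cons 675 n1286 (.cons 716 n1976 .nil)))
noncomputable def n1978 : Strat := .move 801 n115 (.cons 802 n1564 .nil)
noncomputable def n1979 : Strat := .move 801 n116 (.cons 838 n1564 .nil)
noncomputable def n1980 : Strat := .win 675 1 674
noncomputable def n1981 : Strat := .move 716 n1562 (.cons 881 n1980 .nil)
noncomputable def n1982 : Strat := .move 881 n183 (.cons 922 n1285 .nil)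
noncomputable def n1983 : Strat := .move 716 n1259 (.cons 879 n1980 .nil)
noncomputable def n1984 : Strat := .move 796 n160 (.cons 754 n744 .nil)
noncomputable def n1985 : Strat := .move 755 n161 (.cons 756 n1984 .nil)
noncomputable def n1986 : Strat := .move 757 n1981 (.cons 675 n1982 (.cons 881 n1983 (.cons 716 n1985 .nil)))
noncomputable def n1987 : Strat := .move 838 n156 (.cons 837 n1986 .nil)
noncomputable def n1988 : Strat := .move 757 n1562 (.cons 881 n1980 .nil)
noncomputable def n1989 : Strat := .move 757 n1259 (.cons 879 n1562 .nil)
noncomputable def n1990 : Strat := .move 757 n1259 (.cons 879 n1980 .nil)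
noncomputable def n1991 : Strat := .move 715 n1528 (.cons 675 n1294 .nil)
noncomputable def n1992 : Strat := .move 716 n1988 (.cons 675 n1989 (.cons 881 n1990 (.cons 757 n1991 .nil)))
noncomputable def n1993 : Strat := .move 756 n620 (.cons 755 n1992 .nil)
noncomputable def n1994 : Strat := .move 838 n156 (.cons 837 n1993 .nil)
noncomputable def n1995 : Strat := .move 796 n164 (.cons 836 n744 .nil)
noncomputable def n1996 : Strat := .move 759 n501 (.cons 760 n1995 .nil)
noncomputable def n1997 : Strat := .move 837 n165 (.cons 838 n1996 .nil)
noncomputable def n1998 : Strat := .move 797 n1987 (.cons 796 n1994 (.cons 879 n1997 (.cons 838 n1956 .nil)))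
noncomputable def n1999 : Strat := .move 800 n618 (.cons 838 n1978 (.cons 802 n1979 (.cons 801 n1998 .nil)))
noncomputable def n2000 : Strat := .move 837 n358 (.cons 800 n1332 .nil)
noncomputable def n2001 : Strat := .move 838 n1259 (.cons 879 n2000 .nil)
noncomputable def n2002 : Strat := .move 716 n1561 (.cons 675 n2001 .nil)
noncomputable def n2003 : Strat := .move 880 n1684 (.cons 961 n1850 (.cons 921 n1972 .nil))
noncomputable def n2004 : Strat := .move 881 n183 (.cons 922 n2003 .nil)
noncomputable def n2005 : Strat := .move 757 n1563 (.cons 675 n1286 (.cons 881 n2002 (.cons 716 n2004 .nil)))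
noncomputable def n2006 : Strat := .move 838 n358 (.cons 800 n1332 .nil)
noncomputable def n2007 : Strat := .move 878 n1472 (.cons 877 n382 .nil)
noncomputable def n2008 : Strat := .move 879 n1646 (.cons 920 n2007 .nil)
noncomputable def n2009 : Strat := .move 921 n743 (.cons 756 n1493 .nil)
noncomputable def n2010 : Strat := .move 797 n1995 (.cons 795 n2009 .nil)
noncomputable def n2011 : Strat := .move 880 n1684 (.cons 921 n2008 (.cons 879 n2010 .nil))
noncomputable def n2012 : Strat := .move 838 n358 (.cons 800 n1387 .nil)
noncomputable def n2013 : Strat := .move 837 n2006 (.cons 838 n2011 (.cons 836 n2012 .nil))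
noncomputable def n2014 : Strat := .move 881 n183 (.cons 922 n2013 .nil)
noncomputable def n2015 : Strat := .move 757 n1286 (.cons 922 n1563 (.cons 881 n1960 (.cons 716 n2014 .nil)))
noncomputable def n2016 : Strat := .move 880 n1964 (.cons 961 n1973 (.cons 837 n1831 (.cons 881 n1833 .nil)))
noncomputable def n2017 : Strat := .move 757 n1563 (.cons 675 n1286 (.cons 881 n2002 (.cons 716 n2016 .nil)))
noncomputable def n2018 : Strat := .move 757 n1285 (.cons 716 n183 .nil)
noncomputable def n2019 : Strat := .move 881 n1387 (.cons 882 n2018 .nil)
noncomputable def n2020 : Strat := .move 837 n1332 (.cons 836 n2019 .nil)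
noncomputable def n2021 : Strat := .win 713 7 713
noncomputable def n2022 : Strat := .win 797 2 754
noncomputable def n2023 : Strat := .move 754 n2021 (.cons 713 n2022 .nil)
noncomputable def n2024 : Strat := .move 755 n1350 (.cons 714 n2023 .nil)
noncomputable def n2025 : Strat := .move 878 n363 (.cons 877 n2024 .nil)
noncomputable def n2026 : Strat := .move 796 n359 (.cons 795 n2025 .nil)
noncomputable def n2027 : Strat := .move 837 n1332 (.cons 836 n2026 .nil)
noncomputable def n2028 : Strat := .move 882 n339 (.cons 883 n340 .nil)
noncomputable def n2029 : Strat := .move 880 n2028 (.cons 837 n1684 .nil)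
noncomputable def n2030 : Strat := .move 881 n183 (.cons 922 n2029 .nil)
noncomputable def n2031 : Strat := .move 716 n1561 (.cons 675 n1259 .nil)
noncomputable def n2032 : Strat := .move 757 n1563 (.cons 716 n2030 (.cons 881 n2031 .nil))
noncomputable def n2033 : Strat := .move 756 n1296 (.cons 880 n1478 .nil)
noncomputable def n2034 : Strat := .move 797 n1428 (.cons 920 n2033 .nil)
noncomputable def n2035 : Strat := .move 757 n1429 (.cons 716 n2034 .nil)
noncomputable def n2036 : Strat := .win 755 7 755
noncomputable def n2037 : Strat := .move 796 n2036 (.cons 755 n744 .nil)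
noncomputable def n2038 : Strat := .move 919 n1508 (.cons 878 n1507 .nil)
noncomputable def n2039 : Strat := .move 756 n2038 (.cons 960 n1630 .nil)
noncomputable def n2040 : Strat := .move 797 n2037 (.cons 795 n2039 .nil)
noncomputable def n2041 : Strat := .move 920 n1498 (.cons 961 n2040 .nil)
noncomputable def n2042 : Strat := .win 797 3 756
noncomputable def n2043 : Strat := .move 920 n1498 (.cons 961 n2042 .nil)
noncomputable def n2044 : Strat := .move 757 n1429 (.cons 716 n2043 .nil)
noncomputable def n2045 : Strat := .move 922 n1830 (.cons 881 n1880 .nil)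
noncomputable def n2046 : Strat := .move 880 n1646 (.cons 920 n2045 .nil)
noncomputable def n2047 : Strat := .move 757 n1429 (.cons 716 n2046 .nil)
noncomputable def n2048 : Strat := .win 797 6 756
noncomputable def n2049 : Strat := .move 921 n2048 (.cons 797 n1493 .nil)
noncomputable def n2050 : Strat := .move 880 n838 (.cons 715 n2049 .nil)
noncomputable def n2051 : Strat := .move 757 n1429 (.cons 716 n2050 .nil)
noncomputable def n2052 : Strat := .move 754 n1725 (.cons 753 n1724 .nil)
noncomputable def n2053 : Strat := .move 755 n1312 (.cons 714 n2052 .nil)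
noncomputable def n2054 : Strat := .move 797 n1630 (.cons 674 n1311 (.cons 880 n2053 .nil))
noncomputable def n2055 : Strat := .win 633 6 633
noncomputable def n2056 : Strat := .win 797 6 674
noncomputable def n2057 : Strat := .move 674 n2055 (.cons 633 n2056 .nil)
noncomputable def n2058 : Strat := .move 715 n1636 (.cons 880 n2057 .nil)
noncomputable def n2059 : Strat := .move 757 n1429 (.cons 716 n2058 .nil)
noncomputable def n2060 : Strat := .move 881 n28 (.cons 962 n566 .nil)
noncomputable def n2061 : Strat := .win 881 1 798
noncomputable def n2062 : Strat := .win 880 3 798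
noncomputable def n2063 : Strat := .move 962 n2061 (.cons 881 n2062 .nil)
noncomputable def n2064 : Strat := .win 880 6 798
noncomputable def n2065 : Strat := .win 881 7 798
noncomputable def n2066 : Strat := .move 963 n2064 (.cons 880 n2065 .nil)
noncomputable def n2067 : Strat := .move 880 n742 (.cons 963 n1493 .nil)
noncomputable def n2068 : Strat := .move 921 n2060 (.cons 963 n2063 (.cons 962 n2066 (.cons 881 n2067 .nil)))
noncomputable def n2069 : Strat := .move 757 n1429 (.cons 716 n1644 .nil)
noncomputable def n2070 : Strat := .move 757 n838 (.cons 715 n1429 .nil)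
noncomputable def n2071 : Strat := .move 880 n2070 (.cons 716 n1880 .nil)
noncomputable def n2072 : Strat := .move 922 n1897 (.cons 757 n2068 (.cons 963 n2069 (.cons 881 n2071 .nil)))
noncomputable def n2073 : Strat := .move 757 n1429 (.cons 716 n1478 .nil)
noncomputable def n2074 : Strat := .move 715 n1294 (.cons 674 n1773 .nil)
noncomputable def n2075 : Strat := .win 757 1 715
noncomputable def n2076 : Strat := .move 716 n2075 (.cons 757 n1991 .nil)
noncomputable def n2077 : Strat := .move 797 n2073 (.cons 757 n2074 (.cons 714 n2076 .nil))
noncomputable def n2078 : Strat := .move 755 n1312 (.cons 714 n839 .nil)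
noncomputable def n2079 : Strat := .move 757 n1429 (.cons 716 n2078 .nil)
noncomputable def n2080 : Strat := .move 878 n1473 (.cons 919 n1472 .nil)
noncomputable def n2081 : Strat := .move 880 n1309 (.cons 921 n2080 .nil)
noncomputable def n2082 : Strat := .move 797 n2079 (.cons 757 n2081 .nil)
noncomputable def n2083 : Strat := .move 797 n1630 (.cons 674 n1311 (.cons 880 n2074 (.cons 715 n2081 .nil)))
noncomputable def n2084 : Strat := .move 756 n2051 (.cons 716 n2054 (.cons 921 n2059 (.cons 797 n2072 (.cons 880 n2077 (.cons 715 n2082 (.cons 757 n2083 .nil))))))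
noncomputable def n2085 : Strat := .move 879 n2035 (.cons 757 n2041 (.cons 880 n2044 (.cons 797 n2047 (.cons 920 n2084 .nil))))
noncomputable def n2086 : Strat := .move 838 n2020 (.cons 757 n2027 (.cons 836 n2032 (.cons 837 n2085 .nil)))
noncomputable def n2087 : Strat := .move 798 n1948 (.cons 757 n1958 (.cons 838 n1855 (.cons 797 n1977 (.cons 880 n1999 (.cons 801 n2005 (.cons 715 n2015 (.cons 756 n2017 (.cons 800 n2086 .nil))))))))
noncomputable def n2088 : Strat := .move 839 n1331 (.cons 800 n1535 (.cons 798 n1555 (.cons 880 n1574 (.cons 881 n1613 (.cons 837 n1708 (.cons 801 n1740 (.cons 797 n1758 (.cons 842 n1779 (.cons 796 n1793 (.cons 879 n1797 (.cons 878 n1809 (.cons 838 n1920 (.cons 841 n2087 .nil)))))))))))))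
noncomputable def n2089 : Strat := .move 842 n482 (.cons 843 n765 .nil)
noncomputable def n2090 : Strat := .move 841 n124 (.cons 796 n2089 .nil)
noncomputable def n2091 : Strat := .move 839 n567 (.cons 801 n1631 .nil)
noncomputable def n2092 : Strat := .move 838 n156 (.cons 837 n2091 .nil)
noncomputable def n2093 : Strat := .move 841 n123 (.cons 842 n2092 .nil)
noncomputable def n2094 : Strat := .move 801 n1664 (.cons 755 n440 .nil)
noncomputable def n2095 : Strat := .move 718 n890 (.cons 677 n2094 .nil)
noncomputable def n2096 : Strat := .move 759 n501 (.cons 760 n2095 .nil)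
noncomputable def n2097 : Strat := .move 841 n123 (.cons 842 n2096 .nil)
noncomputable def n2098 : Strat := .move 757 n1429 (.cons 716 n1428 .nil)
noncomputable def n2099 : Strat := .move 879 n1142 (.cons 878 n2098 .nil)
noncomputable def n2100 : Strat := .move 839 n567 (.cons 801 n2099 .nil)
noncomputable def n2101 : Strat := .move 838 n156 (.cons 837 n2100 .nil)
noncomputable def n2102 : Strat := .move 841 n123 (.cons 842 n2101 .nil)
noncomputable def n2103 : Strat := .move 801 n155 (.cons 839 n1282 .nil)
noncomputable def n2104 : Strat := .move 838 n156 (.cons 837 n2103 .nil)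
noncomputable def n2105 : Strat := .win 839 4 837
noncomputable def n2106 : Strat := .move 878 n1473 (.cons 919 n2105 .nil)
noncomputable def n2107 : Strat := .move 757 n1477 (.cons 716 n1428 .nil)
noncomputable def n2108 : Strat := .move 879 n2106 (.cons 839 n2107 .nil)
noncomputable def n2109 : Strat := .move 756 n620 (.cons 755 n2108 .nil)
noncomputable def n2110 : Strat := .move 838 n156 (.cons 837 n2109 .nil)
noncomputable def n2111 : Strat := .move 841 n123 (.cons 842 n2110 .nil)
noncomputable def n2112 : Strat := .move 801 n130 (.cons 761 n1664 .nil)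
noncomputable def n2113 : Strat := .move 760 n1288 (.cons 759 n2112 .nil)
noncomputable def n2114 : Strat := .move 841 n123 (.cons 842 n2113 .nil)
noncomputable def n2115 : Strat := .move 800 n2093 (.cons 838 n2097 (.cons 756 n2102 (.cons 841 n2104 (.cons 801 n2111 (.cons 839 n2114 .nil)))))
noncomputable def n2116 : Strat := .win 839 0 795
noncomputable def n2117 : Strat := .win 755 2 754
noncomputable def n2118 : Strat := .win 753 2 753
noncomputable def n2119 : Strat := .move 754 n2117 (.cons 755 n2118 .nil)
noncomputable def n2120 : Strat := .move 795 n2116 (.cons 839 n2119 .nil)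
noncomputable def n2121 : Strat := .win 837 4 795
noncomputable def n2122 : Strat := .win 835 4 794
noncomputable def n2123 : Strat := .move 836 n2121 (.cons 837 n2122 .nil)
noncomputable def n2124 : Strat := .move 795 n2116 (.cons 839 n2123 .nil)
noncomputable def n2125 : Strat := .move 800 n165 (.cons 838 n162 .nil)
noncomputable def n2126 : Strat := .move 837 n164 (.cons 836 n2125 .nil)
noncomputable def n2127 : Strat := .move 796 n2120 (.cons 755 n2124 (.cons 795 n2126 .nil))
noncomputable def n2128 : Strat := .win 839 2 797
noncomputable def n2129 : Strat := .move 842 n482 (.cons 843 n2128 .nil)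
noncomputable def n2130 : Strat := .move 841 n124 (.cons 796 n2129 .nil)
noncomputable def n2131 : Strat := .move 797 n2090 (.cons 796 n2115 (.cons 841 n2127 (.cons 800 n2130 .nil)))
noncomputable def n2132 : Strat := .win 921 3 757
noncomputable def n2133 : Strat := .move 880 n692 (.cons 717 n2132 .nil)
noncomputable def n2134 : Strat := .move 757 n1646 (.cons 920 n1429 .nil)
noncomputable def n2135 : Strat := .move 920 n1499 (.cons 757 n1498 .nil)
noncomputable def n2136 : Strat := .move 841 n1322 (.cons 842 n1142 .nil)
noncomputable def n2137 : Strat := .move 879 n2134 (.cons 716 n2135 (.cons 920 n2136 .nil))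
noncomputable def n2138 : Strat := .move 880 n2132 (.cons 921 n2137 .nil)
noncomputable def n2139 : Strat := .move 841 n202 (.cons 882 n1142 .nil)
noncomputable def n2140 : Strat := .move 716 n44 (.cons 675 n2075 .nil)
noncomputable def n2141 : Strat := .move 879 n2139 (.cons 878 n2140 .nil)
noncomputable def n2142 : Strat := .move 717 n201 (.cons 676 n2141 .nil)
noncomputable def n2143 : Strat := .move 758 n504 (.cons 676 n2133 (.cons 717 n2138 (.cons 880 n2142 .nil)))
noncomputable def n2144 : Strat := .move 800 n567 (.cons 801 n2143 .nil)
noncomputable def n2145 : Strat := .move 838 n1260 (.cons 800 n1599 (.cons 837 n2144 .nil))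
noncomputable def n2146 : Strat := .move 758 n692 (.cons 717 n2132 .nil)
noncomputable def n2147 : Strat := .win 923 2 878
noncomputable def n2148 : Strat := .move 922 n2147 (.cons 923 n742 .nil)
noncomputable def n2149 : Strat := .move 878 n1472 (.cons 877 n2148 .nil)
noncomputable def n2150 : Strat := .move 879 n1499 (.cons 757 n2149 .nil)
noncomputable def n2151 : Strat := .move 920 n1681 (.cons 961 n2150 .nil)
noncomputable def n2152 : Strat := .move 921 n1493 (.cons 962 n2151 .nil)
noncomputable def n2153 : Strat := .move 758 n692 (.cons 717 n949 .nil)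
noncomputable def n2154 : Strat := .move 715 n1862 (.cons 756 n1134 .nil)
noncomputable def n2155 : Strat := .move 716 n1561 (.cons 675 n2154 .nil)
noncomputable def n2156 : Strat := .win 758 1 716
noncomputable def n2157 : Strat := .move 716 n1561 (.cons 675 n1637 .nil)
noncomputable def n2158 : Strat := .move 717 n2156 (.cons 758 n2157 .nil)
noncomputable def n2159 : Strat := .move 757 n2153 (.cons 758 n2155 (.cons 715 n2158 .nil))
noncomputable def n2160 : Strat := .move 880 n2146 (.cons 758 n2152 (.cons 921 n2159 .nil))
noncomputable def n2161 : Strat := .move 716 n1561 (.cons 675 n1261 .nil)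
noncomputable def n2162 : Strat := .move 756 n219 (.cons 755 n218 .nil)
noncomputable def n2163 : Strat := .win 678 5 674
noncomputable def n2164 : Strat := .win 758 3 676
noncomputable def n2165 : Strat := .move 677 n2163 (.cons 678 n2164 .nil)
noncomputable def n2166 : Strat := .move 718 n2162 (.cons 719 n2165 .nil)
noncomputable def n2167 : Strat := .move 715 n1134 (.cons 674 n2166 .nil)
noncomputable def n2168 : Strat := .move 717 n1637 (.cons 676 n2167 .nil)
noncomputable def n2169 : Strat := .move 716 n1561 (.cons 675 n2168 .nil)
noncomputable def n2170 : Strat := .move 716 n1261 (.cons 800 n2168 .nil)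
noncomputable def n2171 : Strat := .win 759 5 715
noncomputable def n2172 : Strat := .move 719 n2171 (.cons 759 n221 .nil)
noncomputable def n2173 : Strat := .move 756 n413 (.cons 755 n2172 .nil)
noncomputable def n2174 : Strat := .move 718 n36 (.cons 677 n2173 .nil)
noncomputable def n2175 : Strat := .move 717 n201 (.cons 676 n2174 .nil)
noncomputable def n2176 : Strat := .move 800 n98 (.cons 802 n116 .nil)
noncomputable def n2177 : Strat := .move 800 n598 (.cons 756 n98 .nil)
noncomputable def n2178 : Strat := .move 800 n598 (.cons 756 n116 .nil)
noncomputable def n2179 : Strat := .move 842 n370 (.cons 802 n482 .nil)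
noncomputable def n2180 : Strat := .move 801 n2176 (.cons 838 n2177 (.cons 802 n2178 (.cons 800 n2179 .nil)))
noncomputable def n2181 : Strat := .move 841 n202 (.cons 882 n2180 .nil)
noncomputable def n2182 : Strat := .move 717 n201 (.cons 676 n2181 .nil)
noncomputable def n2183 : Strat := .move 800 n600 (.cons 801 n49 .nil)
noncomputable def n2184 : Strat := .move 714 n537 (.cons 715 n536 .nil)
noncomputable def n2185 : Strat := .win 719 5 715
noncomputable def n2186 : Strat := .win 717 5 714
noncomputable def n2187 : Strat := .move 718 n2185 (.cons 719 n2186 .nil)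
noncomputable def n2188 : Strat := .move 759 n2184 (.cons 713 n2187 .nil)
noncomputable def n2189 : Strat := .move 755 n839 (.cons 754 n2188 .nil)
noncomputable def n2190 : Strat := .move 718 n890 (.cons 677 n2185 .nil)
noncomputable def n2191 : Strat := .move 800 n48 (.cons 801 n2190 .nil)
noncomputable def n2192 : Strat := .win 636 1 635
noncomputable def n2193 : Strat := .win 717 3 676
noncomputable def n2194 : Strat := .move 677 n2192 (.cons 636 n2193 .nil)
noncomputable def n2195 : Strat := .move 718 n2185 (.cons 719 n2194 .nil)
noncomputable def n2196 : Strat := .move 760 n524 (.cons 802 n54 .nil)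
noncomputable def n2197 : Strat := .move 801 n544 (.cons 800 n2196 .nil)
noncomputable def n2198 : Strat := .move 759 n2191 (.cons 800 n2195 (.cons 719 n2197 .nil))
noncomputable def n2199 : Strat := .move 756 n2183 (.cons 801 n840 (.cons 800 n2189 (.cons 755 n2198 .nil)))
noncomputable def n2200 : Strat := .move 755 n839 (.cons 754 n2184 .nil)
noncomputable def n2201 : Strat := .win 718 5 715
noncomputable def n2202 : Strat := .move 719 n527 (.cons 720 n2201 .nil)
noncomputable def n2203 : Strat := .move 760 n54 (.cons 761 n2202 .nil)
noncomputable def n2204 : Strat := .move 759 n2200 (.cons 755 n2203 .nil)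
noncomputable def n2205 : Strat := .move 759 n2191 (.cons 800 n2203 (.cons 719 n2197 .nil))
noncomputable def n2206 : Strat := .move 756 n2183 (.cons 801 n840 (.cons 800 n2204 (.cons 755 n2205 .nil)))
noncomputable def n2207 : Strat := .move 837 n1332 (.cons 836 n358 .nil)
noncomputable def n2208 : Strat := .move 837 n363 (.cons 877 n1332 .nil)
noncomputable def n2209 : Strat := .move 841 n364 (.cons 879 n202 .nil)
noncomputable def n2210 : Strat := .move 878 n2208 (.cons 836 n2209 .nil)
noncomputable def n2211 : Strat := .move 717 n201 (.cons 676 n2210 .nil)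
noncomputable def n2212 : Strat := .move 717 n202 (.cons 882 n201 .nil)
noncomputable def n2213 : Strat := .move 882 n587 (.cons 883 n104 .nil)
noncomputable def n2214 : Strat := .move 841 n2212 (.cons 676 n2213 (.cons 882 n2179 .nil))
noncomputable def n2215 : Strat := .move 801 n1600 (.cons 800 n2214 .nil)
noncomputable def n2216 : Strat := .move 838 n1260 (.cons 801 n2207 (.cons 800 n2211 (.cons 837 n2215 .nil)))
noncomputable def n2217 : Strat := .move 758 n2175 (.cons 719 n2182 (.cons 676 n2199 (.cons 717 n2206 (.cons 756 n2216 .nil))))
noncomputable def n2218 : Strat := .move 757 n2161 (.cons 800 n2169 (.cons 675 n2170 (.cons 716 n2217 .nil)))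
noncomputable def n2219 : Strat := .move 838 n1593 (.cons 800 n1599 (.cons 837 n1608 .nil))
noncomputable def n2220 : Strat := .win 838 1 715
noncomputable def n2221 : Strat := .move 879 n2220 (.cons 838 n1646 .nil)
noncomputable def n2222 : Strat := .move 716 n1561 (.cons 675 n2221 .nil)
noncomputable def n2223 : Strat := .move 715 n1134 (.cons 674 n1862 .nil)
noncomputable def n2224 : Strat := .move 716 n1561 (.cons 675 n2223 .nil)
noncomputable def n2225 : Strat := .move 757 n2222 (.cons 838 n2224 (.cons 716 n1650 .nil))
noncomputable def n2226 : Strat := .move 758 n2132 (.cons 921 n2225 .nil)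
noncomputable def n2227 : Strat := .win 878 2 878
noncomputable def n2228 : Strat := .move 923 n2227 (.cons 878 n146 .nil)
noncomputable def n2229 : Strat := .move 879 n1499 (.cons 757 n2228 .nil)
noncomputable def n2230 : Strat := .move 920 n1681 (.cons 961 n2229 .nil)
noncomputable def n2231 : Strat := .move 922 n742 (.cons 963 n2230 .nil)
noncomputable def n2232 : Strat := .move 921 n1493 (.cons 962 n2231 .nil)
noncomputable def n2233 : Strat := .move 758 n692 (.cons 717 n2225 .nil)
noncomputable def n2234 : Strat := .move 880 n2146 (.cons 717 n2226 (.cons 758 n2232 (.cons 921 n2233 .nil)))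
noncomputable def n2235 : Strat := .move 837 n1332 (.cons 836 n1405 .nil)
noncomputable def n2236 : Strat := .win 923 7 758
noncomputable def n2237 : Strat := .move 758 n2236 (.cons 923 n104 .nil)
noncomputable def n2238 : Strat := .move 882 n587 (.cons 883 n2237 .nil)
noncomputable def n2239 : Strat := .move 842 n482 (.cons 843 n1305 .nil)
noncomputable def n2240 : Strat := .move 841 n2238 (.cons 923 n2239 .nil)
noncomputable def n2241 : Strat := .move 800 n567 (.cons 801 n2240 .nil)
noncomputable def n2242 : Strat := .move 838 n1260 (.cons 801 n2207 (.cons 800 n2235 (.cons 837 n2241 .nil)))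
noncomputable def n2243 : Strat := .win 757 7 674
noncomputable def n2244 : Strat := .move 674 n225 (.cons 673 n2243 .nil)
noncomputable def n2245 : Strat := .move 715 n217 (.cons 714 n2244 .nil)
noncomputable def n2246 : Strat := .move 718 n36 (.cons 677 n2245 .nil)
noncomputable def n2247 : Strat := .move 716 n44 (.cons 675 n2246 .nil)
noncomputable def n2248 : Strat := .move 717 n201 (.cons 676 n2247 .nil)
noncomputable def n2249 : Strat := .move 757 n949 (.cons 754 n2222 .nil)
noncomputable def n2250 : Strat := .move 880 n2132 (.cons 921 n2249 .nil)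
noncomputable def n2251 : Strat := .move 758 n504 (.cons 676 n2133 (.cons 880 n2248 (.cons 717 n2250 .nil)))
noncomputable def n2252 : Strat := .move 714 n1063 (.cons 759 n1135 .nil)
noncomputable def n2253 : Strat := .move 715 n1134 (.cons 674 n2252 .nil)
noncomputable def n2254 : Strat := .move 758 n194 (.cons 880 n2253 .nil)
noncomputable def n2255 : Strat := .move 717 n1637 (.cons 676 n2254 .nil)
noncomputable def n2256 : Strat := .move 716 n1561 (.cons 675 n2255 .nil)
noncomputable def n2257 : Strat := .move 758 n194 (.cons 880 n419 .nil)
noncomputable def n2258 : Strat := .move 717 n1637 (.cons 676 n2257 .nil)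
noncomputable def n2259 : Strat := .move 716 n1561 (.cons 675 n2258 .nil)
noncomputable def n2260 : Strat := .move 801 n116 (.cons 838 n98 .nil)
noncomputable def n2261 : Strat := .move 880 n838 (.cons 715 n2132 .nil)
noncomputable def n2262 : Strat := .move 756 n49 (.cons 755 n2261 .nil)
noncomputable def n2263 : Strat := .move 800 n2260 (.cons 801 n2262 .nil)
noncomputable def n2264 : Strat := .move 758 n504 (.cons 676 n2133 (.cons 717 n2263 (.cons 880 n2175 .nil)))
noncomputable def n2265 : Strat := .move 758 n2132 (.cons 921 n692 .nil)
noncomputable def n2266 : Strat := .move 880 n1862 (.cons 756 n2265 .nil)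
noncomputable def n2267 : Strat := .move 715 n1134 (.cons 674 n2266 .nil)
noncomputable def n2268 : Strat := .move 716 n1561 (.cons 675 n2267 .nil)
noncomputable def n2269 : Strat := .move 718 n219 (.cons 755 n218 .nil)
noncomputable def n2270 : Strat := .move 756 n1636 (.cons 880 n2269 .nil)
noncomputable def n2271 : Strat := .move 715 n1134 (.cons 674 n2270 .nil)
noncomputable def n2272 : Strat := .move 717 n1637 (.cons 676 n2271 .nil)
noncomputable def n2273 : Strat := .move 716 n1561 (.cons 675 n2272 .nil)
noncomputable def n2274 : Strat := .win 758 0 755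
noncomputable def n2275 : Strat := .move 755 n2274 (.cons 758 n839 .nil)
noncomputable def n2276 : Strat := .move 800 n600 (.cons 801 n2275 .nil)
noncomputable def n2277 : Strat := .move 756 n1636 (.cons 880 n2276 .nil)
noncomputable def n2278 : Strat := .move 715 n1134 (.cons 674 n2277 .nil)
noncomputable def n2279 : Strat := .move 716 n1561 (.cons 675 n2278 .nil)
noncomputable def n2280 : Strat := .move 757 n2256 (.cons 759 n2259 (.cons 716 n2264 (.cons 880 n2169 (.cons 676 n2268 (.cons 758 n2273 (.cons 717 n2279 .nil))))))
noncomputable def n2281 : Strat := .move 839 n2145 (.cons 838 n2160 (.cons 880 n2218 (.cons 758 n2219 (.cons 800 n2234 (.cons 757 n2242 (.cons 877 n2251 (.cons 879 n2280 .nil)))))))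
noncomputable def n2282 : Strat := .move 800 n161 (.cons 756 n165 .nil)
noncomputable def n2283 : Strat := .move 837 n164 (.cons 836 n2282 .nil)
noncomputable def n2284 : Strat := .move 755 n160 (.cons 754 n2283 .nil)
noncomputable def n2285 : Strat := .move 796 n159 (.cons 841 n2284 .nil)
noncomputable def n2286 : Strat := .win 879 3 715
noncomputable def n2287 : Strat := .move 838 n2286 (.cons 879 n156 .nil)
noncomputable def n2288 : Strat := .move 716 n1561 (.cons 675 n2287 .nil)
noncomputable def n2289 : Strat := .move 757 n600 (.cons 801 n2288 .nil)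
noncomputable def n2290 : Strat := .move 756 n620 (.cons 755 n2289 .nil)
noncomputable def n2291 : Strat := .win 758 2 757
noncomputable def n2292 : Strat := .move 802 n2291 (.cons 758 n439 .nil)
noncomputable def n2293 : Strat := .move 757 n598 (.cons 756 n2292 .nil)
noncomputable def n2294 : Strat := .move 801 n130 (.cons 761 n2293 .nil)
noncomputable def n2295 : Strat := .move 760 n1288 (.cons 759 n2294 .nil)
noncomputable def n2296 : Strat := .move 841 n123 (.cons 842 n2295 .nil)
noncomputable def n2297 : Strat := .win 758 7 758
noncomputable def n2298 : Strat := .move 923 n1302 (.cons 964 n2297 .nil)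
noncomputable def n2299 : Strat := .win 758 6 717
noncomputable def n2300 : Strat := .win 676 7 676
noncomputable def n2301 : Strat := .move 718 n2300 (.cons 676 n890 .nil)
noncomputable def n2302 : Strat := .move 717 n2299 (.cons 758 n2301 .nil)
noncomputable def n2303 : Strat := .win 965 6 800
noncomputable def n2304 : Strat := .win 883 6 759
noncomputable def n2305 : Strat := .move 924 n2303 (.cons 965 n2304 .nil)
noncomputable def n2306 : Strat := .move 923 n1302 (.cons 964 n2305 .nil)
noncomputable def n2307 : Strat := .move 882 n2237 (.cons 717 n2298 (.cons 923 n2302 (.cons 758 n2306 .nil)))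
noncomputable def n2308 : Strat := .move 759 n501 (.cons 760 n2307 .nil)
noncomputable def n2309 : Strat := .move 841 n123 (.cons 842 n2308 .nil)
noncomputable def n2310 : Strat := .move 800 n2114 (.cons 841 n2290 (.cons 755 n2296 (.cons 757 n2309 .nil)))
noncomputable def n2311 : Strat := .win 757 5 754
noncomputable def n2312 : Strat := .move 795 n2311 (.cons 757 n2123 .nil)
noncomputable def n2313 : Strat := .move 758 n826 (.cons 759 n2312 .nil)
noncomputable def n2314 : Strat := .win 632 6 632
noncomputable def n2315 : Strat := .win 838 6 673
noncomputable def n2316 : Strat := .move 673 n2314 (.cons 632 n2315 .nil)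
noncomputable def n2317 : Strat := .move 757 n536 (.cons 713 n541 .nil)
noncomputable def n2318 : Strat := .move 714 n2316 (.cons 838 n2317 .nil)
noncomputable def n2319 : Strat := .move 758 n826 (.cons 759 n2318 .nil)
noncomputable def n2320 : Strat := .move 756 n1723 (.cons 800 n2319 .nil)
noncomputable def n2321 : Strat := .move 755 n160 (.cons 754 n2320 .nil)
noncomputable def n2322 : Strat := .move 796 n2284 (.cons 755 n2313 (.cons 836 n2321 .nil))
noncomputable def n2323 : Strat := .move 795 n2311 (.cons 757 n2119 .nil)
noncomputable def n2324 : Strat := .move 758 n826 (.cons 759 n2323 .nil)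
noncomputable def n2325 : Strat := .move 796 n159 (.cons 841 n2324 .nil)
noncomputable def n2326 : Strat := .move 796 n159 (.cons 841 n2313 .nil)
noncomputable def n2327 : Strat := .move 797 n2285 (.cons 796 n2310 (.cons 841 n2322 (.cons 800 n2325 (.cons 755 n2326 .nil))))
noncomputable def n2328 : Strat := .move 758 n826 (.cons 759 n2311 .nil)
noncomputable def n2329 : Strat := .move 795 n2116 (.cons 839 n2328 .nil)
noncomputable def n2330 : Strat := .win 839 4 836
noncomputable def n2331 : Strat := .move 877 n2330 (.cons 839 n1932 .nil)
noncomputable def n2332 : Strat := .move 838 n1940 (.cons 673 n1350 (.cons 879 n2331 .nil))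
noncomputable def n2333 : Strat := .move 878 n1935 (.cons 919 n2332 .nil)
noncomputable def n2334 : Strat := .move 755 n160 (.cons 754 n2333 .nil)
noncomputable def n2335 : Strat := .move 837 n164 (.cons 836 n2334 .nil)
noncomputable def n2336 : Strat := .move 796 n2120 (.cons 839 n2324 (.cons 754 n2329 (.cons 795 n2335 .nil)))
noncomputable def n2337 : Strat := .win 674 1 673
noncomputable def n2338 : Strat := .move 715 n1836 (.cons 878 n2337 .nil)
noncomputable def n2339 : Strat := .move 837 n164 (.cons 836 n2338 .nil)
noncomputable def n2340 : Strat := .move 756 n1723 (.cons 800 n2339 .nil)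
noncomputable def n2341 : Strat := .move 755 n160 (.cons 754 n2340 .nil)
noncomputable def n2342 : Strat := .move 796 n2120 (.cons 755 n2329 (.cons 795 n2341 .nil))
noncomputable def n2343 : Strat := .move 796 n2124 (.cons 836 n2120 (.cons 795 n1943 .nil))
noncomputable def n2344 : Strat := .move 795 n2116 (.cons 839 n2311 .nil)
noncomputable def n2345 : Strat := .move 758 n826 (.cons 759 n2344 .nil)
noncomputable def n2346 : Strat := .win 758 5 755
noncomputable def n2347 : Strat := .move 759 n2346 (.cons 758 n501 .nil)
noncomputable def n2348 : Strat := .move 800 n161 (.cons 756 n2347 .nil)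
noncomputable def n2349 : Strat := .move 755 n160 (.cons 754 n2348 .nil)
noncomputable def n2350 : Strat := .move 796 n2120 (.cons 753 n2345 (.cons 795 n2349 .nil))
noncomputable def n2351 : Strat := .move 800 n165 (.cons 838 n2347 .nil)
noncomputable def n2352 : Strat := .move 837 n164 (.cons 836 n2351 .nil)
noncomputable def n2353 : Strat := .move 796 n2124 (.cons 795 n2352 (.cons 837 n2329 .nil))
noncomputable def n2354 : Strat := .move 718 n2185 (.cons 719 n890 .nil)
noncomputable def n2355 : Strat := .move 757 n48 (.cons 801 n2354 .nil)
noncomputable def n2356 : Strat := .move 756 n620 (.cons 755 n2355 .nil)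
noncomputable def n2357 : Strat := .move 758 n184 (.cons 796 n2356 .nil)
noncomputable def n2358 : Strat := .move 759 n501 (.cons 760 n2357 .nil)
noncomputable def n2359 : Strat := .move 801 n155 (.cons 839 n1289 .nil)
noncomputable def n2360 : Strat := .move 838 n156 (.cons 837 n2359 .nil)
noncomputable def n2361 : Strat := .move 796 n2346 (.cons 758 n160 .nil)
noncomputable def n2362 : Strat := .move 755 n161 (.cons 756 n2361 .nil)
noncomputable def n2363 : Strat := .move 838 n156 (.cons 837 n2362 .nil)
noncomputable def n2364 : Strat := .move 759 n501 (.cons 760 n2363 .nil)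
noncomputable def n2365 : Strat := .move 800 n2104 (.cons 838 n2358 (.cons 757 n2360 (.cons 801 n2364 .nil)))
noncomputable def n2366 : Strat := .move 800 n156 (.cons 837 n2103 .nil)
noncomputable def n2367 : Strat := .move 879 n1477 (.cons 716 n1428 .nil)
noncomputable def n2368 : Strat := .move 757 n600 (.cons 801 n2367 .nil)
noncomputable def n2369 : Strat := .move 756 n620 (.cons 755 n2368 .nil)
noncomputable def n2370 : Strat := .move 800 n156 (.cons 837 n2369 .nil)
noncomputable def n2371 : Strat := .move 800 n156 (.cons 837 n2359 .nil)
noncomputable def n2372 : Strat := .win 835 5 794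
noncomputable def n2373 : Strat := .win 839 5 795
noncomputable def n2374 : Strat := .move 836 n2372 (.cons 835 n2373 .nil)
noncomputable def n2375 : Strat := .move 837 n1921 (.cons 800 n2374 .nil)
noncomputable def n2376 : Strat := .move 839 n1295 (.cons 880 n1294 .nil)
noncomputable def n2377 : Strat := .win 839 6 715
noncomputable def n2378 : Strat := .move 880 n1309 (.cons 921 n2377 .nil)
noncomputable def n2379 : Strat := .move 879 n2107 (.cons 920 n1529 (.cons 716 n2378 .nil))
noncomputable def n2380 : Strat := .win 839 6 674
noncomputable def n2381 : Strat := .move 674 n2380 (.cons 839 n1516 .nil)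
noncomputable def n2382 : Strat := .win 632 7 632
noncomputable def n2383 : Strat := .win 714 7 673
noncomputable def n2384 : Strat := .move 673 n2382 (.cons 632 n2383 .nil)
noncomputable def n2385 : Strat := .move 674 n1516 (.cons 716 n2384 .nil)
noncomputable def n2386 : Strat := .move 715 n2376 (.cons 674 n2379 (.cons 880 n2381 (.cons 839 n2385 .nil)))
noncomputable def n2387 : Strat := .move 756 n620 (.cons 755 n2386 .nil)
noncomputable def n2388 : Strat := .move 800 n2103 (.cons 839 n2369 (.cons 757 n2359 (.cons 801 n2387 .nil)))
noncomputable def n2389 : Strat := .win 839 1 715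
noncomputable def n2390 : Strat := .move 716 n1980 (.cons 675 n2389 .nil)
noncomputable def n2391 : Strat := .move 757 n1428 (.cons 920 n2390 .nil)
noncomputable def n2392 : Strat := .win 756 3 715
noncomputable def n2393 : Strat := .move 716 n1980 (.cons 675 n2392 .nil)
noncomputable def n2394 : Strat := .move 757 n1428 (.cons 920 n2393 .nil)
noncomputable def n2395 : Strat := .win 837 1 714
noncomputable def n2396 : Strat := .move 878 n2395 (.cons 837 n1473 .nil)
noncomputable def n2397 : Strat := .move 674 n2380 (.cons 839 n2055 .nil)
noncomputable def n2398 : Strat := .move 715 n2396 (.cons 919 n2397 .nil)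
noncomputable def n2399 : Strat := .move 756 n1478 (.cons 714 n2398 .nil)
noncomputable def n2400 : Strat := .move 757 n1428 (.cons 920 n2399 .nil)
noncomputable def n2401 : Strat := .move 757 n1477 (.cons 716 n1478 .nil)
noncomputable def n2402 : Strat := .move 757 n1478 (.cons 714 n2398 .nil)
noncomputable def n2403 : Strat := .move 715 n2377 (.cons 839 n2396 .nil)
noncomputable def n2404 : Strat := .move 880 n1309 (.cons 921 n2403 .nil)
noncomputable def n2405 : Strat := .move 756 n2401 (.cons 716 n2402 (.cons 757 n2404 .nil))
noncomputable def n2406 : Strat := .move 839 n1310 (.cons 715 n1474 .nil)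
noncomputable def n2407 : Strat := .move 880 n1309 (.cons 921 n2406 .nil)
noncomputable def n2408 : Strat := .move 715 n2395 (.cons 837 n1773 .nil)
noncomputable def n2409 : Strat := .move 878 n1473 (.cons 919 n2408 .nil)
noncomputable def n2410 : Strat := .move 715 n2377 (.cons 839 n1773 .nil)
noncomputable def n2411 : Strat := .move 880 n1309 (.cons 921 n2410 .nil)
noncomputable def n2412 : Strat := .move 756 n2407 (.cons 877 n2404 (.cons 880 n2409 (.cons 878 n2411 (.cons 715 n1511 .nil))))
noncomputable def n2413 : Strat := .move 879 n2391 (.cons 839 n2394 (.cons 716 n2400 (.cons 920 n2405 (.cons 757 n2412 .nil))))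
noncomputable def n2414 : Strat := .move 838 n2366 (.cons 839 n2370 (.cons 757 n2371 (.cons 801 n2375 (.cons 837 n2388 (.cons 800 n2413 .nil)))))
noncomputable def n2415 : Strat := .move 797 n2127 (.cons 800 n2336 (.cons 839 n2322 (.cons 838 n2342 (.cons 756 n2343 (.cons 837 n2350 (.cons 755 n2353 (.cons 795 n2365 (.cons 796 n2414 .nil))))))))
noncomputable def n2416 : Strat := .move 839 n744 (.cons 795 n1941 .nil)
noncomputable def n2417 : Strat := .move 838 n1921 (.cons 800 n2416 .nil)
noncomputable def n2418 : Strat := .move 837 n164 (.cons 836 n2417 .nil)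
noncomputable def n2419 : Strat := .move 796 n159 (.cons 841 n2418 .nil)
noncomputable def n2420 : Strat := .move 796 n159 (.cons 841 n2120 .nil)
noncomputable def n2421 : Strat := .move 839 n567 (.cons 801 n2238 .nil)
noncomputable def n2422 : Strat := .move 838 n156 (.cons 837 n2421 .nil)
noncomputable def n2423 : Strat := .move 841 n123 (.cons 842 n2422 .nil)
noncomputable def n2424 : Strat := .move 800 n2093 (.cons 674 n2423 (.cons 841 n2360 (.cons 839 n2309 .nil)))
noncomputable def n2425 : Strat := .move 796 n2418 (.cons 837 n2120 (.cons 755 n2124 (.cons 795 n2126 .nil)))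
noncomputable def n2426 : Strat := .move 797 n2419 (.cons 837 n2090 (.cons 800 n2420 (.cons 796 n2424 (.cons 841 n2425 .nil))))
noncomputable def n2427 : Strat := .move 797 n2093 (.cons 838 n2097 (.cons 756 n2102 (.cons 841 n2104 (.cons 801 n2111 (.cons 839 n2114 .nil)))))
noncomputable def n2428 : Strat := .move 797 n2114 (.cons 841 n2290 (.cons 755 n2296 (.cons 757 n2309 .nil)))
noncomputable def n2429 : Strat := .move 801 n1281 (.cons 757 n1289 .nil)
noncomputable def n2430 : Strat := .move 756 n620 (.cons 755 n2429 .nil)
noncomputable def n2431 : Strat := .move 801 n1281 (.cons 757 n440 .nil)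
noncomputable def n2432 : Strat := .move 756 n620 (.cons 755 n2431 .nil)
noncomputable def n2433 : Strat := .move 841 n123 (.cons 842 n2432 .nil)
noncomputable def n2434 : Strat := .move 801 n130 (.cons 761 n440 .nil)
noncomputable def n2435 : Strat := .move 760 n1288 (.cons 759 n2434 .nil)
noncomputable def n2436 : Strat := .move 841 n123 (.cons 842 n2435 .nil)
noncomputable def n2437 : Strat := .move 797 n2097 (.cons 841 n2430 (.cons 759 n2433 (.cons 755 n2436 (.cons 801 n2309 .nil))))
noncomputable def n2438 : Strat := .move 841 n2092 (.cons 838 n2096 (.cons 801 n2110 (.cons 756 n2101 (.cons 839 n2113 .nil))))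
noncomputable def n2439 : Strat := .move 880 n1659 (.cons 921 n1310 .nil)
noncomputable def n2440 : Strat := .move 878 n1394 (.cons 841 n1473 .nil)
noncomputable def n2441 : Strat := .move 879 n2098 (.cons 920 n2440 .nil)
noncomputable def n2442 : Strat := .move 839 n1630 (.cons 674 n2439 (.cons 880 n2441 .nil))
noncomputable def n2443 : Strat := .move 756 n620 (.cons 755 n2442 .nil)
noncomputable def n2444 : Strat := .move 838 n156 (.cons 837 n2443 .nil)
noncomputable def n2445 : Strat := .move 797 n2438 (.cons 756 n2360 (.cons 801 n2444 (.cons 838 n2430 .nil)))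
noncomputable def n2446 : Strat := .move 797 n2093 (.cons 674 n2423 (.cons 841 n2360 (.cons 839 n2309 .nil)))
noncomputable def n2447 : Strat := .move 801 n155 (.cons 839 n1664 .nil)
noncomputable def n2448 : Strat := .move 838 n156 (.cons 837 n2447 .nil)
noncomputable def n2449 : Strat := .move 841 n123 (.cons 842 n2448 .nil)
noncomputable def n2450 : Strat := .win 762 5 758
noncomputable def n2451 : Strat := .win 760 5 757
noncomputable def n2452 : Strat := .move 761 n2450 (.cons 762 n2451 .nil)
noncomputable def n2453 : Strat := .move 802 n439 (.cons 803 n2452 .nil)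
noncomputable def n2454 : Strat := .move 801 n1281 (.cons 757 n2453 .nil)
noncomputable def n2455 : Strat := .move 756 n620 (.cons 755 n2454 .nil)
noncomputable def n2456 : Strat := .move 841 n123 (.cons 842 n2455 .nil)
noncomputable def n2457 : Strat := .move 797 n2093 (.cons 674 n2449 (.cons 841 n2104 (.cons 838 n2433 (.cons 756 n2102 (.cons 839 n2456 (.cons 801 n2111 .nil))))))
noncomputable def n2458 : Strat := .move 801 n1281 (.cons 757 n155 .nil)
noncomputable def n2459 : Strat := .move 756 n620 (.cons 755 n2458 .nil)
noncomputable def n2460 : Strat := .move 838 n156 (.cons 837 n2459 .nil)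
noncomputable def n2461 : Strat := .move 841 n123 (.cons 842 n2290 .nil)
noncomputable def n2462 : Strat := .move 797 n2093 (.cons 674 n2102 (.cons 841 n2460 (.cons 838 n2433 (.cons 839 n2461 (.cons 801 n2111 .nil)))))
noncomputable def n2463 : Strat := .win 924 6 759
noncomputable def n2464 : Strat := .win 839 0 838
noncomputable def n2465 : Strat := .move 883 n2463 (.cons 924 n2464 .nil)
noncomputable def n2466 : Strat := .move 882 n2237 (.cons 717 n2298 (.cons 923 n2465 .nil))
noncomputable def n2467 : Strat := .move 759 n501 (.cons 760 n2466 .nil)
noncomputable def n2468 : Strat := .move 838 n156 (.cons 837 n2467 .nil)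
noncomputable def n2469 : Strat := .move 841 n123 (.cons 842 n2468 .nil)
noncomputable def n2470 : Strat := .move 802 n118 (.cons 839 n439 .nil)
noncomputable def n2471 : Strat := .move 801 n643 (.cons 838 n2470 (.cons 839 n1289 .nil))
noncomputable def n2472 : Strat := .move 841 n123 (.cons 842 n2471 .nil)
noncomputable def n2473 : Strat := .move 797 n2102 (.cons 841 n2360 (.cons 801 n2469 (.cons 837 n2472 (.cons 838 n2436 (.cons 839 n2296 .nil)))))
noncomputable def n2474 : Strat := .move 843 n120 (.cons 842 n119 .nil)
noncomputable def n2475 : Strat := .move 802 n2291 (.cons 758 n2474 .nil)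
noncomputable def n2476 : Strat := .move 757 n598 (.cons 756 n2475 .nil)
noncomputable def n2477 : Strat := .win 758 3 757
noncomputable def n2478 : Strat := .move 921 n1493 (.cons 962 n2477 .nil)
noncomputable def n2479 : Strat := .win 841 4 838
noncomputable def n2480 : Strat := .move 879 n2479 (.cons 841 n1646 .nil)
noncomputable def n2481 : Strat := .move 880 n2265 (.cons 717 n2478 (.cons 921 n2480 .nil))
noncomputable def n2482 : Strat := .move 842 n127 (.cons 843 n2481 .nil)
noncomputable def n2483 : Strat := .move 757 n598 (.cons 756 n2482 .nil)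
noncomputable def n2484 : Strat := .move 839 n116 (.cons 838 n2483 .nil)
noncomputable def n2485 : Strat := .move 801 n643 (.cons 839 n2476 (.cons 802 n2484 .nil))
noncomputable def n2486 : Strat := .move 842 n153 (.cons 841 n127 .nil)
noncomputable def n2487 : Strat := .move 841 n123 (.cons 842 n1818 .nil)
noncomputable def n2488 : Strat := .move 797 n2486 (.cons 843 n2487 (.cons 842 n1289 .nil))
noncomputable def n2489 : Strat := .move 839 n116 (.cons 838 n2488 .nil)
noncomputable def n2490 : Strat := .move 802 n118 (.cons 839 n2474 .nil)
noncomputable def n2491 : Strat := .move 841 n126 (.cons 797 n1867 .nil)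
noncomputable def n2492 : Strat := .move 760 n130 (.cons 761 n2491 .nil)
noncomputable def n2493 : Strat := .move 842 n127 (.cons 843 n2492 .nil)
noncomputable def n2494 : Strat := .move 801 n643 (.cons 802 n2489 (.cons 838 n2490 (.cons 839 n2493 .nil)))
noncomputable def n2495 : Strat := .move 797 n123 (.cons 842 n2110 .nil)
noncomputable def n2496 : Strat := .move 797 n2110 (.cons 837 n2308 .nil)
noncomputable def n2497 : Strat := .move 797 n123 (.cons 842 n2308 .nil)
noncomputable def n2498 : Strat := .move 758 n104 (.cons 717 n2236 .nil)
noncomputable def n2499 : Strat := .win 883 6 718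
noncomputable def n2500 : Strat := .move 718 n2499 (.cons 883 n890 .nil)
noncomputable def n2501 : Strat := .win 718 6 718
noncomputable def n2502 : Strat := .move 883 n2463 (.cons 924 n2501 .nil)
noncomputable def n2503 : Strat := .move 759 n2500 (.cons 677 n2502 (.cons 883 n1547 (.cons 718 n2306 .nil)))
noncomputable def n2504 : Strat := .move 760 n54 (.cons 761 n105 .nil)
noncomputable def n2505 : Strat := .move 759 n2500 (.cons 677 n2502 (.cons 883 n2504 .nil))
noncomputable def n2506 : Strat := .move 758 n104 (.cons 717 n2505 .nil)
noncomputable def n2507 : Strat := .move 882 n2498 (.cons 758 n2503 (.cons 923 n2506 .nil))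
noncomputable def n2508 : Strat := .move 842 n482 (.cons 843 n2507 .nil)
noncomputable def n2509 : Strat := .move 841 n2495 (.cons 842 n2496 (.cons 838 n2497 (.cons 797 n2508 .nil)))
noncomputable def n2510 : Strat := .move 921 n2477 (.cons 758 n1493 .nil)
noncomputable def n2511 : Strat := .move 716 n1259 (.cons 879 n1561 .nil)
noncomputable def n2512 : Strat := .move 879 n1646 (.cons 920 n1429 .nil)
noncomputable def n2513 : Strat := .move 756 n49 (.cons 755 n838 .nil)
noncomputable def n2514 : Strat := .move 757 n2511 (.cons 675 n2512 (.cons 879 n2513 .nil))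
noncomputable def n2515 : Strat := .move 758 n692 (.cons 717 n2514 .nil)
noncomputable def n2516 : Strat := .move 757 n2511 (.cons 675 n2512 (.cons 879 n1686 .nil))
noncomputable def n2517 : Strat := .move 921 n1493 (.cons 962 n2516 .nil)
noncomputable def n2518 : Strat := .move 880 n2510 (.cons 921 n2515 (.cons 758 n2517 .nil))
noncomputable def n2519 : Strat := .move 838 n290 (.cons 837 n2518 .nil)
noncomputable def n2520 : Strat := .move 797 n620 (.cons 755 n1818 .nil)
noncomputable def n2521 : Strat := .move 756 n1281 (.cons 757 n2520 .nil)
noncomputable def n2522 : Strat := .move 801 n115 (.cons 802 n2521 .nil)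
noncomputable def n2523 : Strat := .move 839 n505 (.cons 801 n2519 (.cons 838 n2522 .nil))
noncomputable def n2524 : Strat := .move 800 n2427 (.cons 839 n2428 (.cons 838 n2437 (.cons 842 n2445 (.cons 757 n2446 (.cons 759 n2457 (.cons 760 n2462 (.cons 755 n2473 (.cons 797 n2485 (.cons 756 n2494 (.cons 801 n2509 (.cons 841 n2523 .nil)))))))))))
noncomputable def n2525 : Strat := .move 800 n2097 (.cons 841 n2430 (.cons 759 n2433 (.cons 755 n2436 (.cons 801 n2309 .nil))))
noncomputable def n2526 : Strat := .win 757 4 754
noncomputable def n2527 : Strat := .move 836 n2122 (.cons 835 n2121 .nil)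
noncomputable def n2528 : Strat := .move 795 n2526 (.cons 757 n2527 .nil)
noncomputable def n2529 : Strat := .move 758 n826 (.cons 759 n2528 .nil)
noncomputable def n2530 : Strat := .move 756 n1723 (.cons 800 n2529 .nil)
noncomputable def n2531 : Strat := .move 755 n160 (.cons 754 n2530 .nil)
noncomputable def n2532 : Strat := .move 796 n159 (.cons 841 n2531 .nil)
noncomputable def n2533 : Strat := .move 796 n159 (.cons 841 n2329 .nil)
noncomputable def n2534 : Strat := .move 797 n2420 (.cons 796 n2525 (.cons 841 n2342 (.cons 839 n2532 (.cons 755 n2533 .nil))))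
noncomputable def n2535 : Strat := .move 800 n123 (.cons 842 n2110 .nil)
noncomputable def n2536 : Strat := .move 800 n2110 (.cons 837 n2308 .nil)
noncomputable def n2537 : Strat := .move 841 n2535 (.cons 842 n2536 (.cons 800 n2129 (.cons 839 n2089 .nil)))
noncomputable def n2538 : Strat := .move 796 n2120 (.cons 755 n2124 (.cons 839 n2284 .nil))
noncomputable def n2539 : Strat := .move 796 n159 (.cons 841 n2124 .nil)
noncomputable def n2540 : Strat := .move 797 n2420 (.cons 796 n2537 (.cons 841 n2538 (.cons 839 n2285 (.cons 755 n2539 .nil))))
noncomputable def n2541 : Strat := .move 800 n2093 (.cons 674 n2449 (.cons 841 n2104 (.cons 838 n2433 (.cons 756 n2102 (.cons 839 n2456 (.cons 801 n2111 .nil))))))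
noncomputable def n2542 : Strat := .move 755 n160 (.cons 754 n2282 .nil)
noncomputable def n2543 : Strat := .move 837 n164 (.cons 836 n2542 .nil)
noncomputable def n2544 : Strat := .move 796 n2120 (.cons 755 n2124 (.cons 795 n2543 .nil))
noncomputable def n2545 : Strat := .move 797 n2090 (.cons 800 n2130 (.cons 796 n2541 (.cons 841 n2544 .nil)))
noncomputable def n2546 : Strat := .move 800 n123 (.cons 842 n2471 .nil)
noncomputable def n2547 : Strat := .move 801 n643 (.cons 838 n2470 (.cons 839 n1282 .nil))
noncomputable def n2548 : Strat := .move 801 n1664 (.cons 755 n117 .nil)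
noncomputable def n2549 : Strat := .move 718 n890 (.cons 677 n2548 .nil)
noncomputable def n2550 : Strat := .move 759 n501 (.cons 760 n2549 .nil)
noncomputable def n2551 : Strat := .move 800 n2471 (.cons 838 n2096 (.cons 759 n2547 (.cons 803 n2550 (.cons 839 n2113 (.cons 801 n2308 .nil)))))
noncomputable def n2552 : Strat := .move 841 n2546 (.cons 800 n2129 (.cons 839 n2089 (.cons 842 n2551 .nil)))
noncomputable def n2553 : Strat := .move 797 n2420 (.cons 841 n2350 (.cons 753 n2090 (.cons 796 n2552 .nil)))
noncomputable def n2554 : Strat := .move 800 n123 (.cons 842 n2101 .nil)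
noncomputable def n2555 : Strat := .move 841 n124 (.cons 796 n2554 .nil)
noncomputable def n2556 : Strat := .move 923 n2297 (.cons 758 n1302 .nil)
noncomputable def n2557 : Strat := .move 882 n587 (.cons 883 n2556 .nil)
noncomputable def n2558 : Strat := .move 839 n567 (.cons 801 n2557 .nil)
noncomputable def n2559 : Strat := .move 838 n156 (.cons 837 n2558 .nil)
noncomputable def n2560 : Strat := .move 802 n1041 (.cons 757 n439 .nil)
noncomputable def n2561 : Strat := .move 801 n1818 (.cons 759 n2560 .nil)
noncomputable def n2562 : Strat := .move 758 n604 (.cons 882 n2561 .nil)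
noncomputable def n2563 : Strat := .move 838 n156 (.cons 837 n2562 .nil)
noncomputable def n2564 : Strat := .move 883 n2464 (.cons 839 n2463 .nil)
noncomputable def n2565 : Strat := .move 882 n2556 (.cons 964 n2237 (.cons 758 n2564 .nil))
noncomputable def n2566 : Strat := .move 838 n156 (.cons 837 n2565 .nil)
noncomputable def n2567 : Strat := .move 759 n501 (.cons 760 n2566 .nil)
noncomputable def n2568 : Strat := .move 801 n130 (.cons 761 n117 .nil)
noncomputable def n2569 : Strat := .move 760 n1288 (.cons 759 n2568 .nil)
noncomputable def n2570 : Strat := .move 800 n2101 (.cons 716 n2559 (.cons 839 n2563 (.cons 801 n2567 (.cons 837 n2569 (.cons 838 n2435 .nil)))))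
noncomputable def n2571 : Strat := .move 841 n2554 (.cons 800 n2129 (.cons 839 n2089 (.cons 842 n2570 .nil)))
noncomputable def n2572 : Strat := .move 797 n2555 (.cons 796 n2571 (.cons 841 n2343 (.cons 839 n2090 (.cons 800 n2130 .nil))))
noncomputable def n2573 : Strat := .move 800 n2102 (.cons 841 n2360 (.cons 801 n2469 (.cons 837 n2472 (.cons 838 n2436 (.cons 839 n2296 .nil)))))
noncomputable def n2574 : Strat := .move 797 n2539 (.cons 841 n2353 (.cons 839 n2326 (.cons 836 n2090 (.cons 796 n2573 .nil))))
noncomputable def n2575 : Strat := .move 800 n2093 (.cons 674 n2102 (.cons 841 n2460 (.cons 838 n2433 (.cons 839 n2461 (.cons 801 n2111 .nil)))))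
noncomputable def n2576 : Strat := .move 839 n744 (.cons 795 n1943 .nil)
noncomputable def n2577 : Strat := .move 796 n2576 (.cons 837 n2120 (.cons 795 n2543 (.cons 755 n2124 .nil)))
noncomputable def n2578 : Strat := .move 797 n2090 (.cons 800 n2130 (.cons 796 n2575 (.cons 841 n2577 .nil)))
noncomputable def n2579 : Strat := .move 796 n159 (.cons 841 n744 .nil)
noncomputable def n2580 : Strat := .move 920 n1732 (.cons 757 n1498 .nil)
noncomputable def n2581 : Strat := .move 879 n1142 (.cons 878 n2580 .nil)
noncomputable def n2582 : Strat := .move 841 n203 (.cons 842 n2581 .nil)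
noncomputable def n2583 : Strat := .move 837 n164 (.cons 836 n1941 .nil)
noncomputable def n2584 : Strat := .move 796 n744 (.cons 795 n2583 .nil)
noncomputable def n2585 : Strat := .move 797 n2579 (.cons 796 n2582 (.cons 841 n2584 .nil))
noncomputable def n2586 : Strat := .move 717 n194 (.cons 880 n201 .nil)
noncomputable def n2587 : Strat := .move 758 n826 (.cons 759 n2586 .nil)
noncomputable def n2588 : Strat := .move 797 n159 (.cons 841 n2587 .nil)
noncomputable def n2589 : Strat := .move 796 n359 (.cons 795 n2588 .nil)
noncomputable def n2590 : Strat := .move 837 n1332 (.cons 836 n2589 .nil)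
noncomputable def n2591 : Strat := .move 756 n1310 (.cons 715 n1659 .nil)
noncomputable def n2592 : Strat := .move 879 n1142 (.cons 878 n2135 .nil)
noncomputable def n2593 : Strat := .move 841 n203 (.cons 842 n2592 .nil)
noncomputable def n2594 : Strat := .move 880 n2510 (.cons 962 n2591 (.cons 921 n2593 .nil))
noncomputable def n2595 : Strat := .move 796 n744 (.cons 795 n2587 .nil)
noncomputable def n2596 : Strat := .move 797 n2579 (.cons 795 n1654 (.cons 796 n2594 (.cons 841 n2595 .nil)))
noncomputable def n2597 : Strat := .move 838 n2585 (.cons 841 n2027 (.cons 920 n2590 (.cons 797 n1599 (.cons 837 n2596 .nil))))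
noncomputable def n2598 : Strat := .move 921 n1493 (.cons 962 n743 .nil)
noncomputable def n2599 : Strat := .move 878 n1472 (.cons 877 n1647 .nil)
noncomputable def n2600 : Strat := .move 879 n1646 (.cons 920 n2599 .nil)
noncomputable def n2601 : Strat := .move 757 n2222 (.cons 716 n2600 (.cons 920 n2224 .nil))
noncomputable def n2602 : Strat := .move 920 n1681 (.cons 961 n1499 .nil)
noncomputable def n2603 : Strat := .move 879 n2602 (.cons 757 n2599 .nil)
noncomputable def n2604 : Strat := .move 921 n1493 (.cons 962 n2603 .nil)
noncomputable def n2605 : Strat := .move 880 n2598 (.cons 921 n2601 (.cons 756 n2604 .nil))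
noncomputable def n2606 : Strat := .move 841 n203 (.cons 842 n2605 .nil)
noncomputable def n2607 : Strat := .move 797 n2579 (.cons 796 n2606 (.cons 841 n1939 .nil))
noncomputable def n2608 : Strat := .move 797 n744 (.cons 795 n159 .nil)
noncomputable def n2609 : Strat := .win 759 4 755
noncomputable def n2610 : Strat := .move 797 n2609 (.cons 759 n744 .nil)
noncomputable def n2611 : Strat := .move 797 n2609 (.cons 759 n159 .nil)
noncomputable def n2612 : Strat := .move 755 n541 (.cons 795 n839 .nil)
noncomputable def n2613 : Strat := .move 796 n2608 (.cons 841 n2610 (.cons 795 n2611 (.cons 797 n2612 .nil)))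
noncomputable def n2614 : Strat := .move 756 n838 (.cons 715 n2613 .nil)
noncomputable def n2615 : Strat := .move 757 n2222 (.cons 838 n2224 (.cons 716 n2614 .nil))
noncomputable def n2616 : Strat := .move 758 n692 (.cons 717 n2615 .nil)
noncomputable def n2617 : Strat := .move 797 n743 (.cons 756 n2579 .nil)
noncomputable def n2618 : Strat := .move 921 n1493 (.cons 962 n2617 .nil)
noncomputable def n2619 : Strat := .move 880 n2510 (.cons 962 n2146 (.cons 921 n2616 (.cons 758 n2618 .nil)))
noncomputable def n2620 : Strat := .move 716 n1637 (.cons 676 n1561 .nil)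
noncomputable def n2621 : Strat := .move 717 n2156 (.cons 758 n2620 .nil)
noncomputable def n2622 : Strat := .move 757 n2621 (.cons 717 n2600 .nil)
noncomputable def n2623 : Strat := .move 880 n2146 (.cons 758 n2604 (.cons 921 n2622 .nil))
noncomputable def n2624 : Strat := .move 797 n203 (.cons 842 n2623 .nil)
noncomputable def n2625 : Strat := .move 797 n124 (.cons 796 n2623 .nil)
noncomputable def n2626 : Strat := .move 880 n675 (.cons 879 n2146 .nil)
noncomputable def n2627 : Strat := .move 842 n482 (.cons 843 n2626 .nil)
noncomputable def n2628 : Strat := .move 841 n204 (.cons 796 n2624 (.cons 842 n2625 (.cons 797 n2627 .nil)))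
noncomputable def n2629 : Strat := .move 921 n2477 (.cons 758 n743 .nil)
noncomputable def n2630 : Strat := .move 756 n1659 (.cons 921 n1661 .nil)
noncomputable def n2631 : Strat := .move 880 n2146 (.cons 921 n2622 (.cons 717 n2629 (.cons 758 n2630 .nil)))
noncomputable def n2632 : Strat := .move 841 n203 (.cons 842 n2631 .nil)
noncomputable def n2633 : Strat := .move 758 n826 (.cons 759 n504 .nil)
noncomputable def n2634 : Strat := .move 796 n744 (.cons 795 n2633 .nil)
noncomputable def n2635 : Strat := .move 797 n2579 (.cons 796 n2632 (.cons 841 n2634 .nil))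
noncomputable def n2636 : Strat := .move 758 n692 (.cons 717 n2224 .nil)
noncomputable def n2637 : Strat := .move 758 n692 (.cons 717 n2614 .nil)
noncomputable def n2638 : Strat := .move 757 n2636 (.cons 674 n2637 (.cons 758 n2155 (.cons 756 n2158 .nil)))
noncomputable def n2639 : Strat := .move 880 n2510 (.cons 758 n2618 (.cons 962 n2146 (.cons 921 n2638 .nil)))
noncomputable def n2640 : Strat := .move 837 n1332 (.cons 836 n1338 .nil)
noncomputable def n2641 : Strat := .move 878 n363 (.cons 877 n1383 .nil)
noncomputable def n2642 : Strat := .move 797 n159 (.cons 841 n2641 .nil)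
noncomputable def n2643 : Strat := .move 796 n359 (.cons 795 n2642 .nil)
noncomputable def n2644 : Strat := .move 837 n1332 (.cons 836 n2643 .nil)
noncomputable def n2645 : Strat := .move 842 n482 (.cons 843 n481 .nil)
noncomputable def n2646 : Strat := .move 797 n124 (.cons 796 n2581 .nil)
noncomputable def n2647 : Strat := .move 878 n364 (.cons 879 n363 .nil)
noncomputable def n2648 : Strat := .move 837 n1332 (.cons 836 n2647 .nil)
noncomputable def n2649 : Strat := .move 717 n2299 (.cons 758 n2648 .nil)
noncomputable def n2650 : Strat := .move 882 n587 (.cons 883 n2649 .nil)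
noncomputable def n2651 : Strat := .move 841 n204 (.cons 796 n2645 (.cons 842 n2646 (.cons 797 n2650 .nil)))
noncomputable def n2652 : Strat := .win 756 7 714
noncomputable def n2653 : Strat := .move 714 n2652 (.cons 756 n1333 .nil)
noncomputable def n2654 : Strat := .move 879 n1521 (.cons 920 n2653 .nil)
noncomputable def n2655 : Strat := .move 755 n160 (.cons 754 n2654 .nil)
noncomputable def n2656 : Strat := .move 796 n744 (.cons 795 n2655 .nil)
noncomputable def n2657 : Strat := .move 797 n1654 (.cons 796 n2582 (.cons 842 n2579 (.cons 841 n2656 .nil)))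
noncomputable def n2658 : Strat := .move 841 n364 (.cons 879 n483 .nil)
noncomputable def n2659 : Strat := .move 878 n363 (.cons 877 n2658 .nil)
noncomputable def n2660 : Strat := .move 837 n1332 (.cons 836 n2659 .nil)
noncomputable def n2661 : Strat := .move 838 n2640 (.cons 797 n2235 (.cons 841 n2027 (.cons 714 n2644 (.cons 795 n2651 (.cons 837 n2657 (.cons 796 n2660 .nil))))))
noncomputable def n2662 : Strat := .move 879 n1646 (.cons 920 n2220 .nil)
noncomputable def n2663 : Strat := .move 880 n2156 (.cons 758 n2662 .nil)
noncomputable def n2664 : Strat := .move 717 n1637 (.cons 676 n2663 .nil)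
noncomputable def n2665 : Strat := .move 716 n1561 (.cons 675 n2664 .nil)
noncomputable def n2666 : Strat := .move 756 n838 (.cons 715 n1685 .nil)
noncomputable def n2667 : Strat := .move 921 n1493 (.cons 962 n2666 .nil)
noncomputable def n2668 : Strat := .move 716 n1134 (.cons 674 n2220 .nil)
noncomputable def n2669 : Strat := .move 715 n1862 (.cons 756 n2668 .nil)
noncomputable def n2670 : Strat := .move 879 n1646 (.cons 920 n2669 .nil)
noncomputable def n2671 : Strat := .move 758 n692 (.cons 717 n2670 .nil)
noncomputable def n2672 : Strat := .move 880 n2146 (.cons 717 n2510 (.cons 758 n2667 (.cons 921 n2671 .nil)))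
noncomputable def n2673 : Strat := .move 880 n1862 (.cons 756 n2478 .nil)
noncomputable def n2674 : Strat := .move 715 n1134 (.cons 674 n2673 .nil)
noncomputable def n2675 : Strat := .move 716 n1561 (.cons 675 n2674 .nil)
noncomputable def n2676 : Strat := .win 797 5 755
noncomputable def n2677 : Strat := .move 715 n58 (.cons 714 n1636 .nil)
noncomputable def n2678 : Strat := .move 756 n2261 (.cons 921 n2677 (.cons 715 n2612 .nil))
noncomputable def n2679 : Strat := .move 796 n2676 (.cons 797 n2678 .nil)
noncomputable def n2680 : Strat := .move 760 n55 (.cons 797 n54 .nil)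
noncomputable def n2681 : Strat := .move 756 n2201 (.cons 718 n838 .nil)
noncomputable def n2682 : Strat := .move 760 n527 (.cons 720 n54 .nil)
noncomputable def n2683 : Strat := .move 719 n2681 (.cons 715 n2682 .nil)
noncomputable def n2684 : Strat := .move 880 n2132 (.cons 921 n2683 .nil)
noncomputable def n2685 : Strat := .move 759 n185 (.cons 760 n2679 (.cons 796 n2680 (.cons 797 n2684 .nil)))
noncomputable def n2686 : Strat := .move 758 n2133 (.cons 880 n2175 (.cons 717 n2685 .nil))
noncomputable def n2687 : Strat := .move 757 n2665 (.cons 880 n2169 (.cons 758 n2273 (.cons 675 n2672 (.cons 717 n2675 (.cons 716 n2686 .nil)))))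
noncomputable def n2688 : Strat := .move 837 n1332 (.cons 836 n365 .nil)
noncomputable def n2689 : Strat := .move 797 n124 (.cons 796 n2688 .nil)
noncomputable def n2690 : Strat := .move 880 n1493 (.cons 962 n2477 .nil)
noncomputable def n2691 : Strat := .win 756 6 756
noncomputable def n2692 : Strat := .move 880 n2691 (.cons 756 n1493 .nil)
noncomputable def n2693 : Strat := .move 880 n2691 (.cons 756 n2477 .nil)
noncomputable def n2694 : Strat := .move 920 n1486 (.cons 962 n1498 .nil)
noncomputable def n2695 : Strat := .move 921 n2690 (.cons 758 n2692 (.cons 962 n2693 (.cons 880 n2694 .nil)))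
noncomputable def n2696 : Strat := .move 879 n1142 (.cons 878 n2695 .nil)
noncomputable def n2697 : Strat := .move 797 n124 (.cons 796 n2696 .nil)
noncomputable def n2698 : Strat := .win 797 0 796
noncomputable def n2699 : Strat := .move 837 n1332 (.cons 836 n359 .nil)
noncomputable def n2700 : Strat := .move 796 n2698 (.cons 797 n2699 .nil)
noncomputable def n2701 : Strat := .move 838 n2689 (.cons 837 n2697 (.cons 797 n2648 (.cons 879 n2700 .nil)))
noncomputable def n2702 : Strat := .move 841 n204 (.cons 797 n2627 (.cons 842 n2701 .nil))
noncomputable def n2703 : Strat := .move 839 n2597 (.cons 797 n2234 (.cons 758 n2607 (.cons 842 n2619 (.cons 756 n2628 (.cons 962 n2635 (.cons 838 n2639 (.cons 880 n2661 (.cons 841 n2687 (.cons 757 n2702 .nil)))))))))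
noncomputable def n2704 : Strat := .move 798 n2131 (.cons 797 n2281 (.cons 839 n2327 (.cons 841 n2415 (.cons 757 n2426 (.cons 796 n2524 (.cons 838 n2534 (.cons 801 n2540 (.cons 759 n2545 (.cons 837 n2553 (.cons 756 n2572 (.cons 755 n2574 (.cons 760 n2578 (.cons 800 n2703 .nil)))))))))))))
noncomputable def n2705 : Strat := .move 799 n142 (.cons 762 n190 (.cons 1005 n300 (.cons 801 n351 (.cons 757 n403 (.cons 759 n431 (.cons 921 n597 (.cons 923 n706 (.cons 800 n741 (.cons 964 n847 (.cons 842 n915 (.cons 717 n942 (.cons 882 n971 (.cons 716 n1058 (.cons 798 n1084 (.cons 838 n1125 (.cons 922 n1171 (.cons 880 n1196 (.cons 839 n1231 (.cons 718 n1257 (.cons 841 n1277 (.cons 758 n2088 (.cons 881 n2704 .nil))))))))))))))))))))))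

end Vale.Agent.Snaky.R3_1
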