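import Vale.Agent.Snaky.Assemble

namespace Vale.Agent.Snaky.R3_2

open Vale.Agent.Snaky

noncomputable def n0 : Strat := .win 797 2 797
noncomputable def n1 : Strat := .win 799 2 798
noncomputable def n2 : Strat := .win 879 4 838
noncomputable def n3 : Strat := .win 881 4 839
noncomputable def n4 : Strat := .move 880 n2 (.cons 879 n3 .nil)
noncomputable def n5 : Strat := .move 843 n1 (.cons 799 n4 .nil)
noncomputable def n6 : Strat := .move 798 n0 (.cons 797 n5 .nil)
noncomputable def n7 : Strat := .win 884 0 839
noncomputable def n8 : Strat := .win 882 0 838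
noncomputable def n9 : Strat := .win 802 5 798
noncomputable def n10 : Strat := .win 800 5 797
noncomputable def n11 : Strat := .move 801 n9 (.cons 802 n10 .nil)
noncomputable def n12 : Strat := .move 838 n8 (.cons 882 n11 .nil)
noncomputable def n13 : Strat := .move 883 n7 (.cons 884 n12 .nil)
noncomputable def n14 : Strat := .move 839 n6 (.cons 798 n13 .nil)
noncomputable def n15 : Strat := .win 798 2 798
noncomputable def n16 : Strat := .win 800 2 799
noncomputable def n17 : Strat := .win 880 4 839
noncomputable def n18 : Strat := .win 882 4 840
noncomputable def n19 : Strat := .move 881 n17 (.cons 880 n18 .nil)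
noncomputable def n20 : Strat := .move 844 n16 (.cons 800 n19 .nil)
noncomputable def n21 : Strat := .move 799 n15 (.cons 798 n20 .nil)
noncomputable def n22 : Strat := .win 884 0 840
noncomputable def n23 : Strat := .win 886 0 841
noncomputable def n24 : Strat := .move 885 n22 (.cons 884 n23 .nil)
noncomputable def n25 : Strat := .move 844 n16 (.cons 800 n24 .nil)
noncomputable def n26 : Strat := .move 799 n15 (.cons 798 n25 .nil)
noncomputable def n27 : Strat := .win 802 5 799
noncomputable def n28 : Strat := .win 804 5 800
noncomputable def n29 : Strat := .move 803 n27 (.cons 802 n28 .nil)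
noncomputable def n30 : Strat := .move 844 n18 (.cons 882 n29 .nil)
noncomputable def n31 : Strat := .move 881 n17 (.cons 880 n30 .nil)
noncomputable def n32 : Strat := .win 803 5 799
noncomputable def n33 : Strat := .win 923 6 758
noncomputable def n34 : Strat := .win 717 6 717
noncomputable def n35 : Strat := .move 882 n33 (.cons 923 n34 .nil)
noncomputable def n36 : Strat := .win 922 3 758
noncomputable def n37 : Strat := .win 718 1 717
noncomputable def n38 : Strat := .move 759 n36 (.cons 922 n37 .nil)
noncomputable def n39 : Strat := .win 963 3 799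
noncomputable def n40 : Strat := .win 759 3 758
noncomputable def n41 : Strat := .move 922 n39 (.cons 963 n40 .nil)
noncomputable def n42 : Strat := .win 801 2 757
noncomputable def n43 : Strat := .win 716 7 716
noncomputable def n44 : Strat := .move 757 n42 (.cons 801 n43 .nil)
noncomputable def n45 : Strat := .move 800 n38 (.cons 718 n41 (.cons 922 n44 .nil))
noncomputable def n46 : Strat := .move 758 n35 (.cons 717 n45 .nil)
noncomputable def n47 : Strat := .move 802 n32 (.cons 803 n46 .nil)
noncomputable def n48 : Strat := .move 881 n17 (.cons 880 n47 .nil)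
noncomputable def n49 : Strat := .move 799 n15 (.cons 798 n48 .nil)
noncomputable def n50 : Strat := .move 843 n21 (.cons 882 n26 (.cons 799 n31 (.cons 844 n49 .nil)))
noncomputable def n51 : Strat := .win 880 4 838
noncomputable def n52 : Strat := .win 878 4 837
noncomputable def n53 : Strat := .move 879 n51 (.cons 880 n52 .nil)
noncomputable def n54 : Strat := .move 838 n8 (.cons 882 n53 .nil)
noncomputable def n55 : Strat := .move 883 n7 (.cons 884 n54 .nil)
noncomputable def n56 : Strat := .win 801 5 798
noncomputable def n57 : Strat := .move 802 n56 (.cons 801 n32 .nil)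
noncomputable def n58 : Strat := .move 843 n3 (.cons 881 n57 .nil)
noncomputable def n59 : Strat := .move 880 n2 (.cons 879 n58 .nil)
noncomputable def n60 : Strat := .move 839 n55 (.cons 883 n59 (.cons 880 n13 .nil))
noncomputable def n61 : Strat := .move 838 n10 (.cons 800 n53 .nil)
noncomputable def n62 : Strat := .move 801 n9 (.cons 802 n61 .nil)
noncomputable def n63 : Strat := .move 838 n8 (.cons 882 n10 .nil)
noncomputable def n64 : Strat := .move 883 n7 (.cons 884 n63 .nil)
noncomputable def n65 : Strat := .move 801 n9 (.cons 802 n64 .nil)
noncomputable def n66 : Strat := .win 798 2 797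
noncomputable def n67 : Strat := .win 796 2 796
noncomputable def n68 : Strat := .move 797 n66 (.cons 798 n67 .nil)
noncomputable def n69 : Strat := .move 838 n8 (.cons 882 n68 .nil)
noncomputable def n70 : Strat := .move 883 n7 (.cons 884 n69 .nil)
noncomputable def n71 : Strat := .win 922 6 757
noncomputable def n72 : Strat := .win 716 6 716
noncomputable def n73 : Strat := .move 881 n71 (.cons 922 n72 .nil)
noncomputable def n74 : Strat := .win 921 3 757
noncomputable def n75 : Strat := .win 717 1 716
noncomputable def n76 : Strat := .move 758 n74 (.cons 921 n75 .nil)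
noncomputable def n77 : Strat := .win 962 3 798
noncomputable def n78 : Strat := .win 758 3 757
noncomputable def n79 : Strat := .move 921 n77 (.cons 962 n78 .nil)
noncomputable def n80 : Strat := .win 800 2 756
noncomputable def n81 : Strat := .win 715 7 715
noncomputable def n82 : Strat := .move 756 n80 (.cons 800 n81 .nil)
noncomputable def n83 : Strat := .move 799 n76 (.cons 717 n79 (.cons 921 n82 .nil))
noncomputable def n84 : Strat := .move 757 n73 (.cons 716 n83 .nil)
noncomputable def n85 : Strat := .move 801 n9 (.cons 802 n84 .nil)
noncomputable def n86 : Strat := .move 880 n2 (.cons 879 n85 .nil)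
noncomputable def n87 : Strat := .move 798 n0 (.cons 797 n86 .nil)
noncomputable def n88 : Strat := .move 839 n62 (.cons 878 n65 (.cons 801 n70 (.cons 838 n87 .nil)))
noncomputable def n89 : Strat := .move 838 n10 (.cons 800 n68 .nil)
noncomputable def n90 : Strat := .move 801 n9 (.cons 802 n89 .nil)
noncomputable def n91 : Strat := .win 883 0 839
noncomputable def n92 : Strat := .win 885 0 840
noncomputable def n93 : Strat := .move 884 n91 (.cons 883 n92 .nil)
noncomputable def n94 : Strat := .move 843 n1 (.cons 799 n93 .nil)
noncomputable def n95 : Strat := .move 798 n0 (.cons 797 n94 .nil)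
noncomputable def n96 : Strat := .move 883 n7 (.cons 884 n8 .nil)
noncomputable def n97 : Strat := .move 838 n10 (.cons 800 n96 .nil)
noncomputable def n98 : Strat := .move 801 n9 (.cons 802 n97 .nil)
noncomputable def n99 : Strat := .move 839 n90 (.cons 801 n95 (.cons 798 n98 .nil))
noncomputable def n100 : Strat := .move 798 n0 (.cons 797 n1 .nil)
noncomputable def n101 : Strat := .move 843 n3 (.cons 881 n100 .nil)
noncomputable def n102 : Strat := .move 880 n2 (.cons 879 n101 .nil)
noncomputable def n103 : Strat := .move 843 n1 (.cons 799 n57 .nil)
noncomputable def n104 : Strat := .move 798 n0 (.cons 797 n103 .nil)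
noncomputable def n105 : Strat := .win 838 0 838
noncomputable def n106 : Strat := .win 923 1 759
noncomputable def n107 : Strat := .win 719 1 718
noncomputable def n108 : Strat := .move 760 n106 (.cons 923 n107 .nil)
noncomputable def n109 : Strat := .move 801 n9 (.cons 802 n108 .nil)
noncomputable def n110 : Strat := .move 882 n105 (.cons 838 n109 .nil)
noncomputable def n111 : Strat := .move 883 n7 (.cons 884 n110 .nil)
noncomputable def n112 : Strat := .move 798 n0 (.cons 797 n111 .nil)
noncomputable def n113 : Strat := .move 880 n2 (.cons 879 n112 .nil)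
noncomputable def n114 : Strat := .move 839 n102 (.cons 799 n59 (.cons 880 n104 (.cons 843 n113 .nil)))
noncomputable def n115 : Strat := .move 799 n15 (.cons 798 n16 .nil)
noncomputable def n116 : Strat := .move 844 n18 (.cons 882 n115 .nil)
noncomputable def n117 : Strat := .move 881 n17 (.cons 880 n116 .nil)
noncomputable def n118 : Strat := .move 844 n18 (.cons 882 n24 .nil)
noncomputable def n119 : Strat := .move 881 n17 (.cons 880 n118 .nil)
noncomputable def n120 : Strat := .win 839 0 839
noncomputable def n121 : Strat := .win 924 1 760
noncomputable def n122 : Strat := .win 720 1 719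
noncomputable def n123 : Strat := .move 761 n121 (.cons 924 n122 .nil)
noncomputable def n124 : Strat := .move 802 n32 (.cons 803 n123 .nil)
noncomputable def n125 : Strat := .move 883 n120 (.cons 839 n124 .nil)
noncomputable def n126 : Strat := .move 884 n92 (.cons 885 n125 .nil)
noncomputable def n127 : Strat := .move 799 n15 (.cons 798 n126 .nil)
noncomputable def n128 : Strat := .move 881 n17 (.cons 880 n127 .nil)
noncomputable def n129 : Strat := .move 843 n117 (.cons 800 n119 (.cons 881 n26 (.cons 844 n128 .nil)))
noncomputable def n130 : Strat := .move 839 n6 (.cons 881 n104 (.cons 798 n59 (.cons 843 n90 .nil)))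
noncomputable def n131 : Strat := .move 843 n1 (.cons 799 n3 .nil)
noncomputable def n132 : Strat := .move 880 n2 (.cons 879 n131 .nil)
noncomputable def n133 : Strat := .move 798 n0 (.cons 797 n132 .nil)
noncomputable def n134 : Strat := .win 843 2 798
noncomputable def n135 : Strat := .win 676 1 675
noncomputable def n136 : Strat := .win 880 1 716
noncomputable def n137 : Strat := .move 717 n135 (.cons 676 n136 .nil)
noncomputable def n138 : Strat := .win 757 7 757
noncomputable def n139 : Strat := .win 963 7 798
noncomputable def n140 : Strat := .move 922 n138 (.cons 757 n139 .nil)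
noncomputable def n141 : Strat := .win 922 7 757
noncomputable def n142 : Strat := .move 757 n141 (.cons 922 n72 .nil)
noncomputable def n143 : Strat := .win 880 1 757
noncomputable def n144 : Strat := .win 962 1 798
noncomputable def n145 : Strat := .move 922 n144 (.cons 962 n139 .nil)
noncomputable def n146 : Strat := .move 921 n143 (.cons 880 n145 .nil)
noncomputable def n147 : Strat := .move 883 n105 (.cons 838 n7 .nil)
noncomputable def n148 : Strat := .move 882 n33 (.cons 923 n147 .nil)
noncomputable def n149 : Strat := .move 881 n140 (.cons 963 n142 (.cons 757 n146 (.cons 922 n148 .nil)))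
noncomputable def n150 : Strat := .win 882 6 717
noncomputable def n151 : Strat := .move 717 n135 (.cons 676 n150 .nil)
noncomputable def n152 : Strat := .move 758 n137 (.cons 717 n149 (.cons 880 n151 .nil))
noncomputable def n153 : Strat := .move 799 n134 (.cons 843 n152 .nil)
noncomputable def n154 : Strat := .move 798 n0 (.cons 797 n153 .nil)
noncomputable def n155 : Strat := .win 801 4 797
noncomputable def n156 : Strat := .win 837 5 796
noncomputable def n157 : Strat := .move 800 n155 (.cons 801 n156 .nil)
noncomputable def n158 : Strat := .win 836 5 795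
noncomputable def n159 : Strat := .win 800 5 796
noncomputable def n160 : Strat := .move 837 n158 (.cons 836 n159 .nil)
noncomputable def n161 : Strat := .move 838 n157 (.cons 801 n160 (.cons 800 n96 .nil))
noncomputable def n162 : Strat := .move 799 n134 (.cons 843 n161 .nil)
noncomputable def n163 : Strat := .move 798 n0 (.cons 797 n162 .nil)
noncomputable def n164 : Strat := .move 839 n133 (.cons 798 n55 (.cons 879 n154 (.cons 880 n163 .nil)))
noncomputable def n165 : Strat := .move 842 n14 (.cons 839 n50 (.cons 799 n60 (.cons 843 n88 (.cons 881 n99 (.cons 800 n114 (.cons 801 n129 (.cons 882 n130 (.cons 802 n164 .nil))))))))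
noncomputable def n166 : Strat := .move 879 n52 (.cons 878 n51 .nil)
noncomputable def n167 : Strat := .move 842 n66 (.cons 798 n166 .nil)
noncomputable def n168 : Strat := .move 797 n67 (.cons 796 n167 .nil)
noncomputable def n169 : Strat := .win 883 0 838
noncomputable def n170 : Strat := .win 881 0 837
noncomputable def n171 : Strat := .win 879 4 837
noncomputable def n172 : Strat := .win 877 4 836
noncomputable def n173 : Strat := .move 878 n171 (.cons 879 n172 .nil)
noncomputable def n174 : Strat := .move 837 n170 (.cons 881 n173 .nil)
noncomputable def n175 : Strat := .move 882 n169 (.cons 883 n174 .nil)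
noncomputable def n176 : Strat := .win 801 5 797
noncomputable def n177 : Strat := .win 799 5 796
noncomputable def n178 : Strat := .move 800 n176 (.cons 801 n177 .nil)
noncomputable def n179 : Strat := .move 837 n170 (.cons 881 n178 .nil)
noncomputable def n180 : Strat := .move 882 n169 (.cons 883 n179 .nil)
noncomputable def n181 : Strat := .move 838 n168 (.cons 798 n175 (.cons 879 n180 .nil))
noncomputable def n182 : Strat := .win 842 2 797
noncomputable def n183 : Strat := .win 716 1 715
noncomputable def n184 : Strat := .win 920 3 756
noncomputable def n185 : Strat := .move 757 n183 (.cons 716 n184 .nil)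
noncomputable def n186 : Strat := .move 798 n182 (.cons 842 n185 .nil)
noncomputable def n187 : Strat := .move 879 n52 (.cons 878 n186 .nil)
noncomputable def n188 : Strat := .move 797 n67 (.cons 796 n187 .nil)
noncomputable def n189 : Strat := .move 837 n177 (.cons 799 n173 .nil)
noncomputable def n190 : Strat := .move 800 n176 (.cons 801 n189 .nil)
noncomputable def n191 : Strat := .win 837 4 796
noncomputable def n192 : Strat := .win 755 2 755
noncomputable def n193 : Strat := .win 674 6 674
noncomputable def n194 : Strat := .win 880 6 715
noncomputable def n195 : Strat := .move 715 n193 (.cons 674 n194 .nil)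
noncomputable def n196 : Strat := .move 756 n192 (.cons 755 n195 .nil)
noncomputable def n197 : Strat := .move 799 n191 (.cons 837 n196 .nil)
noncomputable def n198 : Strat := .move 800 n176 (.cons 801 n197 .nil)
noncomputable def n199 : Strat := .move 798 n182 (.cons 842 n198 .nil)
noncomputable def n200 : Strat := .move 797 n67 (.cons 796 n199 .nil)
noncomputable def n201 : Strat := .move 838 n188 (.cons 842 n190 (.cons 878 n200 .nil))
noncomputable def n202 : Strat := .move 797 n67 (.cons 796 n66 .nil)
noncomputable def n203 : Strat := .move 838 n10 (.cons 800 n202 .nil)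
noncomputable def n204 : Strat := .move 801 n9 (.cons 802 n203 .nil)
noncomputable def n205 : Strat := .move 883 n8 (.cons 882 n7 .nil)
noncomputable def n206 : Strat := .move 838 n10 (.cons 800 n205 .nil)
noncomputable def n207 : Strat := .move 801 n9 (.cons 802 n206 .nil)
noncomputable def n208 : Strat := .move 842 n6 (.cons 881 n204 (.cons 798 n207 .nil))
noncomputable def n209 : Strat := .move 842 n6 (.cons 799 n59 (.cons 880 n104 (.cons 843 n87 .nil)))
noncomputable def n210 : Strat := .win 797 2 796
noncomputable def n211 : Strat := .win 795 2 795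
noncomputable def n212 : Strat := .move 796 n210 (.cons 797 n211 .nil)
noncomputable def n213 : Strat := .move 837 n170 (.cons 881 n212 .nil)
noncomputable def n214 : Strat := .move 882 n169 (.cons 883 n213 .nil)
noncomputable def n215 : Strat := .win 961 3 797
noncomputable def n216 : Strat := .win 757 3 756
noncomputable def n217 : Strat := .move 798 n215 (.cons 961 n216 .nil)
noncomputable def n218 : Strat := .win 798 3 797
noncomputable def n219 : Strat := .win 1001 1 837
noncomputable def n220 : Strat := .win 919 1 796
noncomputable def n221 : Strat := .move 960 n219 (.cons 1001 n220 .nil)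
noncomputable def n222 : Strat := .move 961 n218 (.cons 798 n221 .nil)
noncomputable def n223 : Strat := .win 921 6 756
noncomputable def n224 : Strat := .win 715 6 715
noncomputable def n225 : Strat := .move 756 n223 (.cons 921 n224 .nil)
noncomputable def n226 : Strat := .win 756 6 756
noncomputable def n227 : Strat := .win 962 6 797
noncomputable def n228 : Strat := .move 921 n226 (.cons 756 n227 .nil)
noncomputable def n229 : Strat := .win 881 4 878
noncomputable def n230 : Strat := .win 960 1 796
noncomputable def n231 : Strat := .move 919 n229 (.cons 881 n230 .nil)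
noncomputable def n232 : Strat := .move 880 n225 (.cons 715 n228 (.cons 921 n231 .nil))
noncomputable def n233 : Strat := .move 920 n217 (.cons 757 n222 (.cons 961 n232 .nil))
noncomputable def n234 : Strat := .move 882 n169 (.cons 883 n233 .nil)
noncomputable def n235 : Strat := .move 879 n52 (.cons 878 n234 .nil)
noncomputable def n236 : Strat := .move 797 n67 (.cons 796 n235 .nil)
noncomputable def n237 : Strat := .move 838 n214 (.cons 883 n190 (.cons 837 n236 .nil))
noncomputable def n238 : Strat := .move 801 n10 (.cons 800 n9 .nil)
noncomputable def n239 : Strat := .move 842 n51 (.cons 880 n238 .nil)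
noncomputable def n240 : Strat := .move 879 n52 (.cons 878 n239 .nil)
noncomputable def n241 : Strat := .move 838 n175 (.cons 879 n180 (.cons 882 n240 .nil))
noncomputable def n242 : Strat := .move 842 n66 (.cons 798 n238 .nil)
noncomputable def n243 : Strat := .move 797 n67 (.cons 796 n242 .nil)
noncomputable def n244 : Strat := .move 838 n180 (.cons 801 n214 (.cons 837 n243 .nil))
noncomputable def n245 : Strat := .win 842 4 838
noncomputable def n246 : Strat := .win 962 7 797
noncomputable def n247 : Strat := .move 921 n246 (.cons 962 n226 .nil)
noncomputable def n248 : Strat := .move 880 n245 (.cons 842 n247 .nil)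
noncomputable def n249 : Strat := .move 879 n52 (.cons 878 n248 .nil)
noncomputable def n250 : Strat := .move 797 n67 (.cons 796 n249 .nil)
noncomputable def n251 : Strat := .move 838 n250 (.cons 880 n214 (.cons 797 n175 .nil))
noncomputable def n252 : Strat := .move 839 n181 (.cons 883 n201 (.cons 877 n208 (.cons 838 n209 (.cons 842 n237 (.cons 798 n241 (.cons 880 n244 (.cons 801 n251 .nil)))))))
noncomputable def n253 : Strat := .move 882 n169 (.cons 883 n170 .nil)
noncomputable def n254 : Strat := .move 837 n177 (.cons 799 n253 .nil)
noncomputable def n255 : Strat := .move 800 n176 (.cons 801 n254 .nil)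
noncomputable def n256 : Strat := .move 838 n255 (.cons 881 n168 .nil)
noncomputable def n257 : Strat := .move 801 n9 (.cons 802 n63 .nil)
noncomputable def n258 : Strat := .move 883 n7 (.cons 884 n257 .nil)
noncomputable def n259 : Strat := .move 842 n6 (.cons 799 n258 .nil)
noncomputable def n260 : Strat := .win 718 6 718
noncomputable def n261 : Strat := .win 924 7 759
noncomputable def n262 : Strat := .move 759 n260 (.cons 718 n261 .nil)
noncomputable def n263 : Strat := .move 883 n7 (.cons 884 n262 .nil)
noncomputable def n264 : Strat := .move 801 n9 (.cons 802 n263 .nil)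
noncomputable def n265 : Strat := .move 884 n92 (.cons 885 n91 .nil)
noncomputable def n266 : Strat := .move 881 n17 (.cons 880 n265 .nil)
noncomputable def n267 : Strat := .move 843 n1 (.cons 799 n266 .nil)
noncomputable def n268 : Strat := .move 798 n0 (.cons 797 n267 .nil)
noncomputable def n269 : Strat := .win 843 0 798
noncomputable def n270 : Strat := .win 756 2 756
noncomputable def n271 : Strat := .win 675 6 675
noncomputable def n272 : Strat := .win 881 6 716
noncomputable def n273 : Strat := .move 716 n271 (.cons 675 n272 .nil)
noncomputable def n274 : Strat := .move 757 n270 (.cons 756 n273 .nil)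
noncomputable def n275 : Strat := .move 799 n269 (.cons 843 n274 .nil)
noncomputable def n276 : Strat := .move 798 n0 (.cons 797 n275 .nil)
noncomputable def n277 : Strat := .move 801 n9 (.cons 802 n276 .nil)
noncomputable def n278 : Strat := .move 800 n264 (.cons 801 n268 (.cons 883 n277 .nil))
noncomputable def n279 : Strat := .move 882 n106 (.cons 923 n107 .nil)
noncomputable def n280 : Strat := .move 759 n261 (.cons 924 n260 .nil)
noncomputable def n281 : Strat := .win 965 7 800
noncomputable def n282 : Strat := .win 759 7 759
noncomputable def n283 : Strat := .move 924 n281 (.cons 965 n282 .nil)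
noncomputable def n284 : Strat := .win 799 5 757
noncomputable def n285 : Strat := .win 720 3 719
noncomputable def n286 : Strat := .move 761 n284 (.cons 799 n285 .nil)
noncomputable def n287 : Strat := .move 800 n280 (.cons 718 n283 (.cons 924 n286 .nil))
noncomputable def n288 : Strat := .move 760 n279 (.cons 719 n287 .nil)
noncomputable def n289 : Strat := .move 798 n0 (.cons 797 n288 .nil)
noncomputable def n290 : Strat := .move 883 n7 (.cons 884 n289 .nil)
noncomputable def n291 : Strat := .move 801 n9 (.cons 802 n290 .nil)
noncomputable def n292 : Strat := .move 842 n278 (.cons 798 n59 (.cons 880 n104 (.cons 801 n6 (.cons 843 n291 .nil))))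
noncomputable def n293 : Strat := .move 837 n170 (.cons 881 n177 .nil)
noncomputable def n294 : Strat := .move 800 n176 (.cons 801 n293 .nil)
noncomputable def n295 : Strat := .move 882 n169 (.cons 883 n294 .nil)
noncomputable def n296 : Strat := .move 838 n175 (.cons 877 n295 (.cons 882 n240 .nil))
noncomputable def n297 : Strat := .move 837 n177 (.cons 799 n212 .nil)
noncomputable def n298 : Strat := .move 800 n176 (.cons 801 n297 .nil)
noncomputable def n299 : Strat := .move 842 n66 (.cons 798 n205 .nil)
noncomputable def n300 : Strat := .move 797 n67 (.cons 796 n299 .nil)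
noncomputable def n301 : Strat := .move 838 n298 (.cons 800 n300 (.cons 797 n255 .nil))
noncomputable def n302 : Strat := .move 798 n182 (.cons 842 n197 .nil)
noncomputable def n303 : Strat := .move 797 n67 (.cons 796 n302 .nil)
noncomputable def n304 : Strat := .win 837 0 837
noncomputable def n305 : Strat := .win 759 1 758
noncomputable def n306 : Strat := .move 922 n39 (.cons 963 n305 .nil)
noncomputable def n307 : Strat := .move 881 n304 (.cons 837 n306 .nil)
noncomputable def n308 : Strat := .move 882 n169 (.cons 883 n307 .nil)
noncomputable def n309 : Strat := .move 800 n254 (.cons 882 n303 (.cons 799 n308 (.cons 837 n300 .nil)))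
noncomputable def n310 : Strat := .win 919 4 878
noncomputable def n311 : Strat := .win 757 1 756
noncomputable def n312 : Strat := .move 798 n311 (.cons 757 n215 .nil)
noncomputable def n313 : Strat := .move 920 n310 (.cons 919 n312 .nil)
noncomputable def n314 : Strat := .move 880 n245 (.cons 842 n313 .nil)
noncomputable def n315 : Strat := .move 881 n304 (.cons 837 n314 .nil)
noncomputable def n316 : Strat := .move 882 n169 (.cons 883 n315 .nil)
noncomputable def n317 : Strat := .move 879 n52 (.cons 878 n316 .nil)
noncomputable def n318 : Strat := .move 842 n66 (.cons 798 n51 .nil)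
noncomputable def n319 : Strat := .move 879 n52 (.cons 878 n318 .nil)
noncomputable def n320 : Strat := .move 797 n67 (.cons 796 n319 .nil)
noncomputable def n321 : Strat := .move 838 n309 (.cons 842 n214 (.cons 797 n317 (.cons 837 n320 .nil)))
noncomputable def n322 : Strat := .move 838 n320 (.cons 880 n298 (.cons 797 n190 .nil))
noncomputable def n323 : Strat := .move 880 n223 (.cons 921 n224 .nil)
noncomputable def n324 : Strat := .move 757 n184 (.cons 920 n183 .nil)
noncomputable def n325 : Strat := .move 920 n215 (.cons 961 n216 .nil)
noncomputable def n326 : Strat := .win 799 2 755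
noncomputable def n327 : Strat := .win 714 7 714
noncomputable def n328 : Strat := .move 755 n326 (.cons 799 n327 .nil)
noncomputable def n329 : Strat := .move 798 n324 (.cons 716 n325 (.cons 920 n328 .nil))
noncomputable def n330 : Strat := .move 756 n323 (.cons 715 n329 .nil)
noncomputable def n331 : Strat := .move 800 n176 (.cons 801 n330 .nil)
noncomputable def n332 : Strat := .move 879 n52 (.cons 878 n331 .nil)
noncomputable def n333 : Strat := .move 797 n67 (.cons 796 n332 .nil)
noncomputable def n334 : Strat := .move 838 n190 (.cons 801 n214 (.cons 837 n333 .nil))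
noncomputable def n335 : Strat := .move 838 n8 (.cons 882 n202 .nil)
noncomputable def n336 : Strat := .move 883 n7 (.cons 884 n335 .nil)
noncomputable def n337 : Strat := .move 842 n102 (.cons 799 n59 (.cons 880 n336 .nil))
noncomputable def n338 : Strat := .move 838 n8 (.cons 882 n166 .nil)
noncomputable def n339 : Strat := .move 883 n7 (.cons 884 n338 .nil)
noncomputable def n340 : Strat := .move 842 n339 (.cons 878 n258 (.cons 882 n59 .nil))
noncomputable def n341 : Strat := .move 839 n256 (.cons 878 n259 (.cons 838 n292 (.cons 798 n296 (.cons 880 n301 (.cons 801 n321 (.cons 883 n322 (.cons 842 n334 (.cons 800 n337 (.cons 799 n340 .nil)))))))))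
noncomputable def n342 : Strat := .move 842 n133 (.cons 881 n258 .nil)
noncomputable def n343 : Strat := .move 838 n214 (.cons 882 n190 (.cons 837 n236 .nil))
noncomputable def n344 : Strat := .move 758 n75 (.cons 717 n74 .nil)
noncomputable def n345 : Strat := .move 799 n134 (.cons 843 n344 .nil)
noncomputable def n346 : Strat := .move 880 n2 (.cons 879 n345 .nil)
noncomputable def n347 : Strat := .move 798 n0 (.cons 797 n346 .nil)
noncomputable def n348 : Strat := .move 843 n3 (.cons 881 n93 .nil)
noncomputable def n349 : Strat := .move 880 n2 (.cons 879 n348 .nil)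
noncomputable def n350 : Strat := .win 838 5 797
noncomputable def n351 : Strat := .move 883 n7 (.cons 884 n280 .nil)
noncomputable def n352 : Strat := .move 800 n350 (.cons 838 n351 .nil)
noncomputable def n353 : Strat := .move 801 n9 (.cons 802 n352 .nil)
noncomputable def n354 : Strat := .move 880 n2 (.cons 879 n353 .nil)
noncomputable def n355 : Strat := .move 798 n0 (.cons 797 n354 .nil)
noncomputable def n356 : Strat := .win 838 4 797
noncomputable def n357 : Strat := .move 800 n356 (.cons 838 n274 .nil)
noncomputable def n358 : Strat := .move 801 n9 (.cons 802 n357 .nil)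
noncomputable def n359 : Strat := .move 799 n134 (.cons 843 n358 .nil)
noncomputable def n360 : Strat := .move 798 n0 (.cons 797 n359 .nil)
noncomputable def n361 : Strat := .move 842 n347 (.cons 717 n133 (.cons 797 n349 (.cons 843 n355 (.cons 880 n360 .nil))))
noncomputable def n362 : Strat := .win 923 7 758
noncomputable def n363 : Strat := .move 758 n362 (.cons 923 n34 .nil)
noncomputable def n364 : Strat := .move 882 n169 (.cons 883 n363 .nil)
noncomputable def n365 : Strat := .move 799 n156 (.cons 837 n364 .nil)
noncomputable def n366 : Strat := .move 800 n176 (.cons 801 n365 .nil)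
noncomputable def n367 : Strat := .move 879 n52 (.cons 878 n366 .nil)
noncomputable def n368 : Strat := .move 797 n67 (.cons 796 n367 .nil)
noncomputable def n369 : Strat := .move 838 n168 (.cons 797 n240 (.cons 879 n300 (.cons 842 n368 .nil)))
noncomputable def n370 : Strat := .move 798 n0 (.cons 797 n131 .nil)
noncomputable def n371 : Strat := .move 880 n2 (.cons 879 n370 .nil)
noncomputable def n372 : Strat := .win 843 4 839
noncomputable def n373 : Strat := .win 757 6 757
noncomputable def n374 : Strat := .move 922 n373 (.cons 757 n139 .nil)
noncomputable def n375 : Strat := .move 798 n0 (.cons 797 n374 .nil)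
noncomputable def n376 : Strat := .move 881 n372 (.cons 843 n375 .nil)
noncomputable def n377 : Strat := .move 880 n2 (.cons 879 n376 .nil)
noncomputable def n378 : Strat := .move 881 n372 (.cons 843 n109 .nil)
noncomputable def n379 : Strat := .move 882 n105 (.cons 838 n378 .nil)
noncomputable def n380 : Strat := .move 883 n7 (.cons 884 n379 .nil)
noncomputable def n381 : Strat := .move 880 n2 (.cons 879 n380 .nil)
noncomputable def n382 : Strat := .move 842 n371 (.cons 879 n95 (.cons 799 n377 (.cons 798 n381 (.cons 843 n113 .nil))))
noncomputable def n383 : Strat := .move 881 n372 (.cons 843 n374 .nil)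
noncomputable def n384 : Strat := .move 798 n0 (.cons 797 n383 .nil)
noncomputable def n385 : Strat := .move 880 n2 (.cons 879 n384 .nil)
noncomputable def n386 : Strat := .win 920 4 879
noncomputable def n387 : Strat := .win 758 1 757
noncomputable def n388 : Strat := .move 799 n387 (.cons 758 n77 .nil)
noncomputable def n389 : Strat := .move 921 n386 (.cons 920 n388 .nil)
noncomputable def n390 : Strat := .move 882 n105 (.cons 838 n389 .nil)
noncomputable def n391 : Strat := .move 883 n7 (.cons 884 n390 .nil)
noncomputable def n392 : Strat := .move 881 n372 (.cons 843 n391 .nil)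
noncomputable def n393 : Strat := .move 880 n2 (.cons 879 n392 .nil)
noncomputable def n394 : Strat := .move 842 n385 (.cons 843 n336 (.cons 797 n393 .nil))
noncomputable def n395 : Strat := .move 842 n51 (.cons 880 n205 .nil)
noncomputable def n396 : Strat := .move 879 n52 (.cons 878 n395 .nil)
noncomputable def n397 : Strat := .move 921 n226 (.cons 756 n246 .nil)
noncomputable def n398 : Strat := .move 797 n67 (.cons 796 n397 .nil)
noncomputable def n399 : Strat := .move 880 n245 (.cons 842 n398 .nil)
noncomputable def n400 : Strat := .move 879 n52 (.cons 878 n399 .nil)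
noncomputable def n401 : Strat := .move 838 n175 (.cons 837 n396 (.cons 879 n180 (.cons 882 n400 .nil)))
noncomputable def n402 : Strat := .move 879 n52 (.cons 878 n185 .nil)
noncomputable def n403 : Strat := .move 798 n182 (.cons 842 n402 .nil)
noncomputable def n404 : Strat := .move 797 n67 (.cons 796 n403 .nil)
noncomputable def n405 : Strat := .move 838 n255 (.cons 800 n404 .nil)
noncomputable def n406 : Strat := .move 838 n180 (.cons 801 n175 (.cons 881 n240 .nil))
noncomputable def n407 : Strat := .move 838 n180 (.cons 881 n300 (.cons 883 n298 .nil))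
noncomputable def n408 : Strat := .move 797 n67 (.cons 796 n318 .nil)
noncomputable def n409 : Strat := .move 879 n52 (.cons 878 n408 .nil)
noncomputable def n410 : Strat := .move 838 n409 (.cons 880 n300 (.cons 796 n396 (.cons 842 n214 .nil)))
noncomputable def n411 : Strat := .move 880 n2 (.cons 879 n344 .nil)
noncomputable def n412 : Strat := .move 799 n134 (.cons 843 n411 .nil)
noncomputable def n413 : Strat := .move 798 n0 (.cons 797 n412 .nil)
noncomputable def n414 : Strat := .win 799 2 756
noncomputable def n415 : Strat := .move 756 n414 (.cons 799 n81 .nil)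
noncomputable def n416 : Strat := .move 757 n73 (.cons 716 n415 .nil)
noncomputable def n417 : Strat := .move 800 n350 (.cons 838 n416 .nil)
noncomputable def n418 : Strat := .move 801 n9 (.cons 802 n417 .nil)
noncomputable def n419 : Strat := .move 880 n2 (.cons 879 n418 .nil)
noncomputable def n420 : Strat := .move 798 n0 (.cons 797 n419 .nil)
noncomputable def n421 : Strat := .win 882 0 837
noncomputable def n422 : Strat := .win 836 0 836
noncomputable def n423 : Strat := .move 837 n421 (.cons 882 n422 .nil)
noncomputable def n424 : Strat := .move 838 n10 (.cons 800 n423 .nil)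
noncomputable def n425 : Strat := .move 801 n9 (.cons 802 n424 .nil)
noncomputable def n426 : Strat := .move 881 n372 (.cons 843 n425 .nil)
noncomputable def n427 : Strat := .move 880 n2 (.cons 879 n426 .nil)
noncomputable def n428 : Strat := .move 842 n413 (.cons 879 n360 (.cons 843 n420 (.cons 798 n427 .nil)))
noncomputable def n429 : Strat := .win 800 5 757
noncomputable def n430 : Strat := .move 761 n285 (.cons 720 n429 .nil)
noncomputable def n431 : Strat := .move 760 n279 (.cons 719 n430 .nil)
noncomputable def n432 : Strat := .move 883 n7 (.cons 884 n431 .nil)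
noncomputable def n433 : Strat := .move 801 n9 (.cons 802 n432 .nil)
noncomputable def n434 : Strat := .move 799 n134 (.cons 843 n433 .nil)
noncomputable def n435 : Strat := .move 798 n0 (.cons 797 n434 .nil)
noncomputable def n436 : Strat := .move 799 n77 (.cons 962 n78 .nil)
noncomputable def n437 : Strat := .win 799 3 798
noncomputable def n438 : Strat := .win 1002 1 838
noncomputable def n439 : Strat := .win 920 1 797
noncomputable def n440 : Strat := .move 961 n438 (.cons 1002 n439 .nil)
noncomputable def n441 : Strat := .move 962 n437 (.cons 799 n440 .nil)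
noncomputable def n442 : Strat := .move 757 n71 (.cons 922 n72 .nil)
noncomputable def n443 : Strat := .win 963 6 798
noncomputable def n444 : Strat := .move 922 n373 (.cons 757 n443 .nil)
noncomputable def n445 : Strat := .win 882 4 879
noncomputable def n446 : Strat := .win 961 1 797
noncomputable def n447 : Strat := .move 920 n445 (.cons 882 n446 .nil)
noncomputable def n448 : Strat := .move 881 n442 (.cons 716 n444 (.cons 922 n447 .nil))
noncomputable def n449 : Strat := .move 921 n436 (.cons 758 n441 (.cons 962 n448 .nil))
noncomputable def n450 : Strat := .move 883 n7 (.cons 884 n449 .nil)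
noncomputable def n451 : Strat := .move 880 n2 (.cons 879 n450 .nil)
noncomputable def n452 : Strat := .move 798 n0 (.cons 797 n451 .nil)
noncomputable def n453 : Strat := .move 842 n133 (.cons 880 n435 (.cons 843 n452 (.cons 799 n377 (.cons 798 n349 .nil))))
noncomputable def n454 : Strat := .move 839 n181 (.cons 837 n342 (.cons 842 n343 (.cons 882 n361 (.cons 881 n369 (.cons 800 n382 (.cons 801 n394 (.cons 798 n401 (.cons 880 n405 (.cons 797 n406 (.cons 879 n407 (.cons 799 n410 (.cons 883 n428 (.cons 838 n453 .nil)))))))))))))
noncomputable def n455 : Strat := .move 839 n6 (.cons 843 n87 (.cons 879 n104 (.cons 798 n59 .nil)))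
noncomputable def n456 : Strat := .move 839 n133 (.cons 880 n435 (.cons 843 n452 (.cons 799 n377 (.cons 798 n349 .nil))))
noncomputable def n457 : Strat := .win 1003 3 839
noncomputable def n458 : Strat := .move 881 n457 (.cons 1003 n373 .nil)
noncomputable def n459 : Strat := .move 962 n440 (.cons 920 n458 .nil)
noncomputable def n460 : Strat := .move 922 n443 (.cons 963 n459 .nil)
noncomputable def n461 : Strat := .win 799 3 757
noncomputable def n462 : Strat := .win 717 3 716
noncomputable def n463 : Strat := .move 757 n462 (.cons 717 n73 .nil)
noncomputable def n464 : Strat := .move 758 n461 (.cons 799 n463 .nil)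
noncomputable def n465 : Strat := .move 921 n436 (.cons 758 n441 (.cons 799 n460 (.cons 962 n464 .nil)))
noncomputable def n466 : Strat := .move 798 n0 (.cons 797 n465 .nil)
noncomputable def n467 : Strat := .move 880 n2 (.cons 879 n466 .nil)
noncomputable def n468 : Strat := .win 964 1 800
noncomputable def n469 : Strat := .win 882 1 759
noncomputable def n470 : Strat := .move 923 n468 (.cons 964 n469 .nil)
noncomputable def n471 : Strat := .win 800 7 759
noncomputable def n472 : Strat := .win 718 7 718
noncomputable def n473 : Strat := .move 759 n471 (.cons 800 n472 .nil)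
noncomputable def n474 : Strat := .move 924 n470 (.cons 882 n473 .nil)
noncomputable def n475 : Strat := .win 882 1 718
noncomputable def n476 : Strat := .win 679 3 678
noncomputable def n477 : Strat := .win 761 3 719
noncomputable def n478 : Strat := .move 720 n476 (.cons 679 n477 .nil)
noncomputable def n479 : Strat := .move 719 n475 (.cons 882 n478 .nil)
noncomputable def n480 : Strat := .win 677 7 677
noncomputable def n481 : Strat := .win 759 7 718
noncomputable def n482 : Strat := .move 718 n480 (.cons 677 n481 .nil)
noncomputable def n483 : Strat := .move 719 n478 (.cons 761 n482 .nil)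
noncomputable def n484 : Strat := .move 760 n279 (.cons 719 n474 (.cons 923 n479 (.cons 882 n483 .nil)))
noncomputable def n485 : Strat := .move 880 n2 (.cons 879 n484 .nil)
noncomputable def n486 : Strat := .move 883 n7 (.cons 884 n485 .nil)
noncomputable def n487 : Strat := .move 801 n9 (.cons 802 n486 .nil)
noncomputable def n488 : Strat := .move 839 n87 (.cons 880 n291 (.cons 800 n467 (.cons 798 n487 .nil)))
noncomputable def n489 : Strat := .move 843 n21 (.cons 799 n31 (.cons 844 n49 (.cons 880 n26 .nil)))
noncomputable def n490 : Strat := .win 839 5 798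
noncomputable def n491 : Strat := .win 844 0 799
noncomputable def n492 : Strat := .win 757 2 757
noncomputable def n493 : Strat := .win 676 6 676
noncomputable def n494 : Strat := .move 717 n493 (.cons 676 n150 .nil)
noncomputable def n495 : Strat := .move 758 n492 (.cons 757 n494 .nil)
noncomputable def n496 : Strat := .move 800 n491 (.cons 844 n495 .nil)
noncomputable def n497 : Strat := .move 799 n15 (.cons 798 n496 .nil)
noncomputable def n498 : Strat := .move 801 n490 (.cons 839 n497 .nil)
noncomputable def n499 : Strat := .move 802 n32 (.cons 803 n498 .nil)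
noncomputable def n500 : Strat := .move 839 n91 (.cons 883 n56 .nil)
noncomputable def n501 : Strat := .move 884 n92 (.cons 885 n500 .nil)
noncomputable def n502 : Strat := .move 802 n32 (.cons 803 n501 .nil)
noncomputable def n503 : Strat := .move 843 n499 (.cons 802 n26 (.cons 799 n502 .nil))
noncomputable def n504 : Strat := .move 839 n56 (.cons 801 n93 .nil)
noncomputable def n505 : Strat := .move 802 n32 (.cons 803 n504 .nil)
noncomputable def n506 : Strat := .move 843 n21 (.cons 882 n505 .nil)
noncomputable def n507 : Strat := .move 839 n56 (.cons 801 n4 .nil)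
noncomputable def n508 : Strat := .move 802 n32 (.cons 803 n507 .nil)
noncomputable def n509 : Strat := .move 843 n508 (.cons 801 n119 (.cons 880 n502 .nil))
noncomputable def n510 : Strat := .move 800 n40 (.cons 759 n39 .nil)
noncomputable def n511 : Strat := .win 882 4 880
noncomputable def n512 : Strat := .move 921 n511 (.cons 882 n144 .nil)
noncomputable def n513 : Strat := .move 922 n510 (.cons 963 n512 .nil)
noncomputable def n514 : Strat := .move 883 n120 (.cons 839 n513 .nil)
noncomputable def n515 : Strat := .move 884 n92 (.cons 885 n514 .nil)
noncomputable def n516 : Strat := .move 799 n15 (.cons 798 n515 .nil)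
noncomputable def n517 : Strat := .move 881 n17 (.cons 880 n516 .nil)
noncomputable def n518 : Strat := .move 843 n117 (.cons 881 n26 (.cons 800 n119 (.cons 844 n517 .nil)))
noncomputable def n519 : Strat := .move 842 n455 (.cons 803 n456 (.cons 843 n488 (.cons 839 n489 (.cons 881 n503 (.cons 757 n506 (.cons 801 n129 (.cons 800 n509 (.cons 802 n518 .nil))))))))
noncomputable def n520 : Strat := .move 843 n21 (.cons 799 n502 .nil)
noncomputable def n521 : Strat := .move 843 n26 (.cons 799 n31 (.cons 844 n49 .nil))
noncomputable def n522 : Strat := .move 843 n502 (.cons 839 n31 (.cons 802 n119 .nil))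
noncomputable def n523 : Strat := .win 761 1 760
noncomputable def n524 : Strat := .win 965 3 801
noncomputable def n525 : Strat := .move 924 n523 (.cons 761 n524 .nil)
noncomputable def n526 : Strat := .move 802 n32 (.cons 803 n525 .nil)
noncomputable def n527 : Strat := .move 883 n120 (.cons 839 n526 .nil)
noncomputable def n528 : Strat := .move 884 n92 (.cons 885 n527 .nil)
noncomputable def n529 : Strat := .move 843 n21 (.cons 799 n119 (.cons 881 n26 (.cons 844 n528 .nil)))
noncomputable def n530 : Strat := .win 844 2 799
noncomputable def n531 : Strat := .win 839 4 798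
noncomputable def n532 : Strat := .win 762 5 758
noncomputable def n533 : Strat := .win 679 1 678
noncomputable def n534 : Strat := .win 883 1 719
noncomputable def n535 : Strat := .move 720 n533 (.cons 679 n534 .nil)
noncomputable def n536 : Strat := .move 761 n532 (.cons 762 n535 .nil)
noncomputable def n537 : Strat := .move 801 n531 (.cons 839 n536 .nil)
noncomputable def n538 : Strat := .move 800 n530 (.cons 844 n537 .nil)
noncomputable def n539 : Strat := .move 799 n15 (.cons 798 n538 .nil)
noncomputable def n540 : Strat := .move 802 n32 (.cons 803 n539 .nil)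
noncomputable def n541 : Strat := .move 843 n540 (.cons 802 n26 (.cons 799 n502 .nil))
noncomputable def n542 : Strat := .move 838 n176 (.cons 801 n156 .nil)
noncomputable def n543 : Strat := .move 800 n38 (.cons 718 n41 (.cons 922 n542 .nil))
noncomputable def n544 : Strat := .move 839 n91 (.cons 883 n543 .nil)
noncomputable def n545 : Strat := .move 884 n92 (.cons 885 n544 .nil)
noncomputable def n546 : Strat := .move 881 n17 (.cons 880 n545 .nil)
noncomputable def n547 : Strat := .move 799 n15 (.cons 798 n546 .nil)
noncomputable def n548 : Strat := .move 843 n21 (.cons 799 n119 (.cons 882 n26 (.cons 844 n547 .nil)))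
noncomputable def n549 : Strat := .move 844 n16 (.cons 800 n29 .nil)
noncomputable def n550 : Strat := .move 799 n15 (.cons 798 n549 .nil)
noncomputable def n551 : Strat := .win 844 4 840
noncomputable def n552 : Strat := .move 758 n33 (.cons 923 n34 .nil)
noncomputable def n553 : Strat := .move 799 n15 (.cons 798 n552 .nil)
noncomputable def n554 : Strat := .move 882 n551 (.cons 844 n553 .nil)
noncomputable def n555 : Strat := .move 881 n17 (.cons 880 n554 .nil)
noncomputable def n556 : Strat := .move 802 n32 (.cons 803 n555 .nil)
noncomputable def n557 : Strat := .win 846 2 801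
noncomputable def n558 : Strat := .win 800 2 800
noncomputable def n559 : Strat := .move 845 n557 (.cons 846 n558 .nil)
noncomputable def n560 : Strat := .move 844 n18 (.cons 882 n559 .nil)
noncomputable def n561 : Strat := .move 881 n17 (.cons 880 n560 .nil)
noncomputable def n562 : Strat := .move 801 n490 (.cons 839 n561 .nil)
noncomputable def n563 : Strat := .move 802 n32 (.cons 803 n562 .nil)
noncomputable def n564 : Strat := .win 800 2 757
noncomputable def n565 : Strat := .move 757 n43 (.cons 716 n564 .nil)
noncomputable def n566 : Strat := .move 758 n35 (.cons 717 n565 .nil)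
noncomputable def n567 : Strat := .move 881 n17 (.cons 880 n566 .nil)
noncomputable def n568 : Strat := .move 799 n15 (.cons 798 n567 .nil)
noncomputable def n569 : Strat := .move 801 n490 (.cons 839 n568 .nil)
noncomputable def n570 : Strat := .move 802 n32 (.cons 803 n569 .nil)
noncomputable def n571 : Strat := .move 843 n21 (.cons 880 n550 (.cons 800 n556 (.cons 799 n563 (.cons 844 n570 .nil))))
noncomputable def n572 : Strat := .move 839 n360 (.cons 802 n154 (.cons 843 n65 (.cons 838 n104 .nil)))
noncomputable def n573 : Strat := .move 883 n7 (.cons 884 n288 .nil)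
noncomputable def n574 : Strat := .move 801 n9 (.cons 802 n573 .nil)
noncomputable def n575 : Strat := .move 798 n0 (.cons 797 n574 .nil)
noncomputable def n576 : Strat := .win 761 5 757
noncomputable def n577 : Strat := .win 678 1 677
noncomputable def n578 : Strat := .move 719 n577 (.cons 678 n475 .nil)
noncomputable def n579 : Strat := .move 760 n576 (.cons 761 n578 .nil)
noncomputable def n580 : Strat := .move 799 n274 (.cons 757 n579 .nil)
noncomputable def n581 : Strat := .move 798 n0 (.cons 797 n580 .nil)
noncomputable def n582 : Strat := .move 800 n350 (.cons 838 n581 .nil)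
noncomputable def n583 : Strat := .move 801 n9 (.cons 802 n582 .nil)
noncomputable def n584 : Strat := .move 800 n350 (.cons 838 n263 .nil)
noncomputable def n585 : Strat := .move 801 n9 (.cons 802 n584 .nil)
noncomputable def n586 : Strat := .move 839 n65 (.cons 801 n70 (.cons 838 n575 (.cons 883 n583 (.cons 882 n585 .nil))))
noncomputable def n587 : Strat := .move 842 n520 (.cons 839 n521 (.cons 799 n522 (.cons 801 n529 (.cons 882 n541 (.cons 802 n548 (.cons 884 n571 (.cons 844 n572 (.cons 843 n586 .nil))))))))
noncomputable def n588 : Strat := .move 842 n62 (.cons 878 n65 (.cons 801 n70 (.cons 838 n87 .nil)))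
noncomputable def n589 : Strat := .move 842 n87 (.cons 880 n291 (.cons 800 n467 (.cons 798 n487 .nil)))
noncomputable def n590 : Strat := .move 838 n10 (.cons 800 n166 .nil)
noncomputable def n591 : Strat := .move 801 n9 (.cons 802 n590 .nil)
noncomputable def n592 : Strat := .move 881 n72 (.cons 716 n71 .nil)
noncomputable def n593 : Strat := .win 758 3 716
noncomputable def n594 : Strat := .win 676 3 675
noncomputable def n595 : Strat := .win 674 7 674
noncomputable def n596 : Strat := .win 756 7 715
noncomputable def n597 : Strat := .move 715 n595 (.cons 674 n596 .nil)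
noncomputable def n598 : Strat := .move 716 n594 (.cons 676 n597 .nil)
noncomputable def n599 : Strat := .move 717 n593 (.cons 758 n598 .nil)
noncomputable def n600 : Strat := .win 881 6 757
noncomputable def n601 : Strat := .move 758 n461 (.cons 799 n462 .nil)
noncomputable def n602 : Strat := .move 921 n443 (.cons 963 n601 .nil)
noncomputable def n603 : Strat := .move 922 n600 (.cons 881 n602 .nil)
noncomputable def n604 : Strat := .move 757 n592 (.cons 881 n599 (.cons 716 n603 .nil))
noncomputable def n605 : Strat := .move 880 n2 (.cons 879 n604 .nil)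
noncomputable def n606 : Strat := .move 798 n0 (.cons 797 n605 .nil)
noncomputable def n607 : Strat := .move 842 n90 (.cons 798 n591 (.cons 800 n606 .nil))
noncomputable def n608 : Strat := .move 842 n207 (.cons 838 n487 (.cons 882 n591 (.cons 801 n339 .nil)))
noncomputable def n609 : Strat := .move 838 n214 (.cons 797 n175 (.cons 882 n188 .nil))
noncomputable def n610 : Strat := .move 838 n255 (.cons 799 n175 (.cons 882 n190 (.cons 837 n333 .nil)))
noncomputable def n611 : Strat := .move 842 n65 (.cons 801 n70 (.cons 838 n575 (.cons 883 n583 (.cons 882 n585 .nil))))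
noncomputable def n612 : Strat := .move 839 n588 (.cons 838 n589 (.cons 882 n607 (.cons 798 n608 (.cons 801 n609 (.cons 842 n610 (.cons 879 n611 .nil))))))
noncomputable def n613 : Strat := .move 842 n65 (.cons 800 n102 .nil)
noncomputable def n614 : Strat := .move 838 n214 (.cons 795 n295 (.cons 883 n190 (.cons 837 n236 .nil)))
noncomputable def n615 : Strat := .move 882 n169 (.cons 883 n293 .nil)
noncomputable def n616 : Strat := .move 800 n176 (.cons 801 n615 .nil)
noncomputable def n617 : Strat := .move 838 n298 (.cons 795 n616 (.cons 800 n300 .nil))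
noncomputable def n618 : Strat := .move 838 n175 (.cons 882 n240 (.cons 879 n180 .nil))
noncomputable def n619 : Strat := .move 842 n104 (.cons 803 n133 (.cons 798 n591 .nil))
noncomputable def n620 : Strat := .move 842 n51 (.cons 880 n202 .nil)
noncomputable def n621 : Strat := .move 879 n52 (.cons 878 n620 .nil)
noncomputable def n622 : Strat := .move 798 n216 (.cons 757 n215 .nil)
noncomputable def n623 : Strat := .win 880 4 878
noncomputable def n624 : Strat := .move 919 n623 (.cons 880 n230 .nil)
noncomputable def n625 : Strat := .move 920 n622 (.cons 961 n624 .nil)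
noncomputable def n626 : Strat := .move 881 n304 (.cons 837 n625 .nil)
noncomputable def n627 : Strat := .move 882 n169 (.cons 883 n626 .nil)
noncomputable def n628 : Strat := .move 797 n67 (.cons 796 n627 .nil)
noncomputable def n629 : Strat := .move 879 n52 (.cons 878 n628 .nil)
noncomputable def n630 : Strat := .move 838 n621 (.cons 798 n396 (.cons 879 n300 (.cons 842 n629 .nil)))
noncomputable def n631 : Strat := .move 838 n168 (.cons 797 n190 (.cons 879 n243 .nil))
noncomputable def n632 : Strat := .move 842 n102 (.cons 798 n59 (.cons 881 n104 (.cons 843 n487 .nil)))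
noncomputable def n633 : Strat := .move 839 n181 (.cons 837 n613 (.cons 842 n614 (.cons 880 n617 (.cons 798 n618 (.cons 882 n619 (.cons 799 n630 (.cons 881 n631 (.cons 838 n632 .nil))))))))
noncomputable def n634 : Strat := .move 838 n188 (.cons 920 n190 (.cons 879 n298 .nil))
noncomputable def n635 : Strat := .move 838 n190 (.cons 877 n298 (.cons 799 n400 .nil))
noncomputable def n636 : Strat := .move 842 n59 (.cons 881 n204 (.cons 802 n377 .nil))
noncomputable def n637 : Strat := .move 799 n78 (.cons 758 n77 .nil)
noncomputable def n638 : Strat := .move 921 n443 (.cons 963 n637 .nil)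
noncomputable def n639 : Strat := .move 922 n600 (.cons 881 n638 .nil)
noncomputable def n640 : Strat := .move 757 n592 (.cons 881 n599 (.cons 716 n639 .nil))
noncomputable def n641 : Strat := .move 798 n0 (.cons 797 n640 .nil)
noncomputable def n642 : Strat := .move 880 n2 (.cons 879 n641 .nil)
noncomputable def n643 : Strat := .move 842 n371 (.cons 799 n59 (.cons 880 n104 (.cons 843 n642 .nil)))
noncomputable def n644 : Strat := .move 881 n421 (.cons 882 n422 .nil)
noncomputable def n645 : Strat := .win 881 0 836
noncomputable def n646 : Strat := .win 835 0 835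
noncomputable def n647 : Strat := .move 836 n645 (.cons 881 n646 .nil)
noncomputable def n648 : Strat := .move 800 n177 (.cons 799 n647 .nil)
noncomputable def n649 : Strat := .win 798 5 795
noncomputable def n650 : Strat := .move 836 n649 (.cons 798 n646 .nil)
noncomputable def n651 : Strat := .move 799 n159 (.cons 800 n650 .nil)
noncomputable def n652 : Strat := .win 921 1 757
noncomputable def n653 : Strat := .move 758 n652 (.cons 921 n75 .nil)
noncomputable def n654 : Strat := .move 799 n159 (.cons 800 n653 .nil)
noncomputable def n655 : Strat := .move 881 n421 (.cons 882 n654 .nil)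
noncomputable def n656 : Strat := .move 837 n644 (.cons 882 n648 (.cons 881 n651 (.cons 836 n655 .nil)))
noncomputable def n657 : Strat := .move 880 n245 (.cons 842 n656 .nil)
noncomputable def n658 : Strat := .move 879 n52 (.cons 878 n657 .nil)
noncomputable def n659 : Strat := .win 800 4 796
noncomputable def n660 : Strat := .move 799 n659 (.cons 800 n158 .nil)
noncomputable def n661 : Strat := .win 880 0 836
noncomputable def n662 : Strat := .win 835 5 794
noncomputable def n663 : Strat := .move 836 n661 (.cons 880 n662 .nil)
noncomputable def n664 : Strat := .move 881 n421 (.cons 882 n663 .nil)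
noncomputable def n665 : Strat := .move 881 n421 (.cons 882 n140 .nil)
noncomputable def n666 : Strat := .move 799 n659 (.cons 800 n665 .nil)
noncomputable def n667 : Strat := .move 837 n660 (.cons 799 n664 (.cons 836 n666 .nil))
noncomputable def n668 : Strat := .move 798 n182 (.cons 842 n667 .nil)
noncomputable def n669 : Strat := .move 797 n67 (.cons 796 n668 .nil)
noncomputable def n670 : Strat := .move 881 n661 (.cons 880 n421 .nil)
noncomputable def n671 : Strat := .move 836 n649 (.cons 798 n670 .nil)
noncomputable def n672 : Strat := .move 799 n159 (.cons 800 n671 .nil)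
noncomputable def n673 : Strat := .move 837 n172 (.cons 877 n672 .nil)
noncomputable def n674 : Strat := .move 878 n171 (.cons 879 n673 .nil)
noncomputable def n675 : Strat := .move 797 n67 (.cons 796 n674 .nil)
noncomputable def n676 : Strat := .move 838 n188 (.cons 797 n658 (.cons 879 n669 (.cons 798 n400 (.cons 842 n675 .nil))))
noncomputable def n677 : Strat := .win 756 7 756
noncomputable def n678 : Strat := .move 921 n246 (.cons 962 n677 .nil)
noncomputable def n679 : Strat := .win 921 7 756
noncomputable def n680 : Strat := .move 756 n224 (.cons 715 n679 .nil)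
noncomputable def n681 : Strat := .win 756 6 715
noncomputable def n682 : Strat := .move 837 n422 (.cons 836 n421 .nil)
noncomputable def n683 : Strat := .move 881 n682 (.cons 882 n442 .nil)
noncomputable def n684 : Strat := .move 715 n681 (.cons 756 n683 .nil)
noncomputable def n685 : Strat := .move 921 n246 (.cons 962 n683 .nil)
noncomputable def n686 : Strat := .move 880 n678 (.cons 962 n680 (.cons 921 n684 (.cons 756 n685 .nil)))
noncomputable def n687 : Strat := .move 798 n182 (.cons 842 n686 .nil)
noncomputable def n688 : Strat := .move 797 n67 (.cons 796 n687 .nil)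
noncomputable def n689 : Strat := .win 794 2 794
noncomputable def n690 : Strat := .win 796 2 795
noncomputable def n691 : Strat := .move 795 n689 (.cons 794 n690 .nil)
noncomputable def n692 : Strat := .move 836 n661 (.cons 880 n691 .nil)
noncomputable def n693 : Strat := .move 881 n421 (.cons 882 n692 .nil)
noncomputable def n694 : Strat := .move 837 n177 (.cons 799 n693 .nil)
noncomputable def n695 : Strat := .move 800 n176 (.cons 801 n694 .nil)
noncomputable def n696 : Strat := .win 760 5 756
noncomputable def n697 : Strat := .win 677 1 676
noncomputable def n698 : Strat := .win 881 1 717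
noncomputable def n699 : Strat := .move 718 n697 (.cons 677 n698 .nil)
noncomputable def n700 : Strat := .move 759 n696 (.cons 760 n699 .nil)
noncomputable def n701 : Strat := .move 799 n196 (.cons 756 n700 .nil)
noncomputable def n702 : Strat := .move 800 n176 (.cons 801 n701 .nil)
noncomputable def n703 : Strat := .move 798 n182 (.cons 842 n702 .nil)
noncomputable def n704 : Strat := .move 797 n67 (.cons 796 n703 .nil)
noncomputable def n705 : Strat := .win 876 4 835
noncomputable def n706 : Strat := .win 878 4 836
noncomputable def n707 : Strat := .move 877 n705 (.cons 876 n706 .nil)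
noncomputable def n708 : Strat := .move 836 n661 (.cons 880 n707 .nil)
noncomputable def n709 : Strat := .move 881 n421 (.cons 882 n708 .nil)
noncomputable def n710 : Strat := .move 837 n177 (.cons 799 n709 .nil)
noncomputable def n711 : Strat := .move 800 n176 (.cons 801 n710 .nil)
noncomputable def n712 : Strat := .move 838 n298 (.cons 800 n688 (.cons 797 n695 (.cons 837 n704 (.cons 796 n711 .nil))))
noncomputable def n713 : Strat := .move 921 n227 (.cons 962 n226 .nil)
noncomputable def n714 : Strat := .move 880 n225 (.cons 715 n713 (.cons 921 n231 .nil))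
noncomputable def n715 : Strat := .move 920 n622 (.cons 961 n714 .nil)
noncomputable def n716 : Strat := .move 797 n67 (.cons 796 n715 .nil)
noncomputable def n717 : Strat := .move 879 n52 (.cons 878 n716 .nil)
noncomputable def n718 : Strat := .win 798 3 756
noncomputable def n719 : Strat := .win 716 3 715
noncomputable def n720 : Strat := .move 757 n718 (.cons 798 n719 .nil)
noncomputable def n721 : Strat := .move 756 n720 (.cons 716 n323 .nil)
noncomputable def n722 : Strat := .win 1003 6 838
noncomputable def n723 : Strat := .win 921 6 797
noncomputable def n724 : Strat := .move 962 n722 (.cons 1003 n723 .nil)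
noncomputable def n725 : Strat := .move 961 n221 (.cons 919 n724 .nil)
noncomputable def n726 : Strat := .move 920 n217 (.cons 757 n222 (.cons 961 n721 (.cons 798 n725 .nil)))
noncomputable def n727 : Strat := .move 879 n52 (.cons 878 n726 .nil)
noncomputable def n728 : Strat := .move 797 n67 (.cons 796 n727 .nil)
noncomputable def n729 : Strat := .move 882 n213 (.cons 797 n174 (.cons 837 n717 (.cons 881 n728 .nil)))
noncomputable def n730 : Strat := .move 838 n190 (.cons 879 n298 (.cons 801 n675 (.cons 800 n729 (.cons 837 n333 .nil))))
noncomputable def n731 : Strat := .move 837 n172 (.cons 877 n693 .nil)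
noncomputable def n732 : Strat := .move 878 n171 (.cons 879 n731 .nil)
noncomputable def n733 : Strat := .move 838 n190 (.cons 879 n695 (.cons 801 n658 (.cons 837 n240 (.cons 800 n732 .nil))))
noncomputable def n734 : Strat := .move 839 n634 (.cons 838 n209 (.cons 798 n635 (.cons 799 n636 (.cons 800 n643 (.cons 801 n676 (.cons 879 n712 (.cons 842 n730 (.cons 797 n733 .nil))))))))
noncomputable def n735 : Strat := .move 880 n58 (.cons 801 n101 (.cons 843 n13 .nil))
noncomputable def n736 : Strat := .move 839 n59 (.cons 879 n735 (.cons 881 n90 (.cons 802 n6 .nil)))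
noncomputable def n737 : Strat := .move 844 n16 (.cons 800 n18 .nil)
noncomputable def n738 : Strat := .move 881 n17 (.cons 880 n737 .nil)
noncomputable def n739 : Strat := .move 799 n15 (.cons 798 n738 .nil)
noncomputable def n740 : Strat := .move 843 n26 (.cons 886 n739 (.cons 799 n31 (.cons 844 n49 .nil)))
noncomputable def n741 : Strat := .move 839 n62 (.cons 878 n65 (.cons 801 n70 (.cons 838 n291 .nil)))
noncomputable def n742 : Strat := .move 839 n13 (.cons 800 n55 (.cons 883 n62 (.cons 838 n59 .nil)))
noncomputable def n743 : Strat := .move 839 n91 (.cons 883 n100 .nil)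
noncomputable def n744 : Strat := .move 884 n92 (.cons 885 n743 .nil)
noncomputable def n745 : Strat := .move 843 n117 (.cons 800 n119 (.cons 881 n26 (.cons 844 n744 .nil)))
noncomputable def n746 : Strat := .move 843 n26 (.cons 799 n505 (.cons 884 n550 .nil))
noncomputable def n747 : Strat := .move 839 n62 (.cons 801 n6 (.cons 880 n90 .nil))
noncomputable def n748 : Strat := .move 839 n6 (.cons 799 n55 (.cons 880 n104 .nil))
noncomputable def n749 : Strat := .move 842 n736 (.cons 839 n740 (.cons 843 n741 (.cons 799 n742 (.cons 801 n745 (.cons 880 n746 (.cons 884 n747 (.cons 800 n748 .nil)))))))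
noncomputable def n750 : Strat := .move 842 n133 (.cons 798 n55 (.cons 879 n154 (.cons 880 n163 .nil)))
noncomputable def n751 : Strat := .move 837 n177 (.cons 799 n647 .nil)
noncomputable def n752 : Strat := .move 800 n176 (.cons 801 n751 .nil)
noncomputable def n753 : Strat := .move 880 n245 (.cons 842 n752 .nil)
noncomputable def n754 : Strat := .move 879 n52 (.cons 878 n753 .nil)
noncomputable def n755 : Strat := .win 965 6 800
noncomputable def n756 : Strat := .win 881 0 879
noncomputable def n757 : Strat := .move 924 n755 (.cons 965 n756 .nil)
noncomputable def n758 : Strat := .win 758 7 758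
noncomputable def n759 : Strat := .win 964 7 799
noncomputable def n760 : Strat := .move 799 n758 (.cons 758 n759 .nil)
noncomputable def n761 : Strat := .move 923 n757 (.cons 881 n760 .nil)
noncomputable def n762 : Strat := .move 800 n176 (.cons 801 n761 .nil)
noncomputable def n763 : Strat := .move 882 n169 (.cons 883 n762 .nil)
noncomputable def n764 : Strat := .move 880 n245 (.cons 842 n763 .nil)
noncomputable def n765 : Strat := .move 879 n52 (.cons 878 n764 .nil)
noncomputable def n766 : Strat := .move 838 n180 (.cons 882 n754 (.cons 801 n175 (.cons 881 n367 (.cons 837 n765 .nil))))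
noncomputable def n767 : Strat := .move 838 n188 (.cons 797 n367 (.cons 879 n200 .nil))
noncomputable def n768 : Strat := .win 881 4 879
noncomputable def n769 : Strat := .move 920 n768 (.cons 881 n446 .nil)
noncomputable def n770 : Strat := .move 921 n637 (.cons 962 n769 .nil)
noncomputable def n771 : Strat := .move 882 n105 (.cons 838 n770 .nil)
noncomputable def n772 : Strat := .move 883 n7 (.cons 884 n771 .nil)
noncomputable def n773 : Strat := .move 798 n0 (.cons 797 n772 .nil)
noncomputable def n774 : Strat := .move 880 n2 (.cons 879 n773 .nil)
noncomputable def n775 : Strat := .move 842 n371 (.cons 879 n95 (.cons 799 n377 (.cons 798 n393 (.cons 843 n774 .nil))))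
noncomputable def n776 : Strat := .win 799 5 795
noncomputable def n777 : Strat := .move 836 n776 (.cons 799 n662 .nil)
noncomputable def n778 : Strat := .move 837 n170 (.cons 881 n777 .nil)
noncomputable def n779 : Strat := .move 882 n169 (.cons 883 n778 .nil)
noncomputable def n780 : Strat := .move 798 n182 (.cons 842 n779 .nil)
noncomputable def n781 : Strat := .move 797 n67 (.cons 796 n780 .nil)
noncomputable def n782 : Strat := .win 922 1 758
noncomputable def n783 : Strat := .move 881 n782 (.cons 922 n37 .nil)
noncomputable def n784 : Strat := .win 719 3 718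
noncomputable def n785 : Strat := .win 799 5 756
noncomputable def n786 : Strat := .move 760 n784 (.cons 719 n785 .nil)
noncomputable def n787 : Strat := .move 759 n783 (.cons 718 n786 .nil)
noncomputable def n788 : Strat := .move 882 n169 (.cons 883 n787 .nil)
noncomputable def n789 : Strat := .move 800 n176 (.cons 801 n788 .nil)
noncomputable def n790 : Strat := .move 798 n182 (.cons 842 n789 .nil)
noncomputable def n791 : Strat := .move 797 n67 (.cons 796 n790 .nil)
noncomputable def n792 : Strat := .move 838 n180 (.cons 882 n200 (.cons 800 n781 (.cons 837 n791 (.cons 799 n214 .nil))))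
noncomputable def n793 : Strat := .move 838 n188 (.cons 842 n190 (.cons 879 n200 .nil))
noncomputable def n794 : Strat := .move 842 n339 (.cons 883 n377 (.cons 880 n336 .nil))
noncomputable def n795 : Strat := .move 842 n133 (.cons 798 n349 (.cons 879 n95 (.cons 843 n452 .nil)))
noncomputable def n796 : Strat := .move 799 n191 (.cons 837 n700 .nil)
noncomputable def n797 : Strat := .move 800 n176 (.cons 801 n796 .nil)
noncomputable def n798 : Strat := .move 798 n182 (.cons 842 n797 .nil)
noncomputable def n799 : Strat := .move 797 n67 (.cons 796 n798 .nil)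
noncomputable def n800 : Strat := .move 838 n214 (.cons 797 n180 (.cons 883 n799 (.cons 881 n404 .nil)))
noncomputable def n801 : Strat := .move 839 n750 (.cons 797 n766 (.cons 842 n237 (.cons 881 n767 (.cons 800 n775 (.cons 879 n792 (.cons 883 n793 (.cons 799 n794 (.cons 838 n795 (.cons 880 n800 .nil)))))))))
noncomputable def n802 : Strat := .move 842 n90 (.cons 801 n95 (.cons 798 n98 .nil))
noncomputable def n803 : Strat := .move 882 n169 (.cons 883 n728 .nil)
noncomputable def n804 : Strat := .move 838 n298 (.cons 797 n190 (.cons 800 n803 .nil))
noncomputable def n805 : Strat := .move 758 n34 (.cons 717 n362 .nil)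
noncomputable def n806 : Strat := .move 882 n169 (.cons 883 n805 .nil)
noncomputable def n807 : Strat := .move 799 n156 (.cons 837 n806 .nil)
noncomputable def n808 : Strat := .move 800 n176 (.cons 801 n807 .nil)
noncomputable def n809 : Strat := .move 838 n190 (.cons 800 n396 (.cons 878 n808 .nil))
noncomputable def n810 : Strat := .move 842 n104 (.cons 843 n336 (.cons 798 n339 .nil))
noncomputable def n811 : Strat := .move 842 n104 (.cons 802 n413 (.cons 799 n204 (.cons 798 n591 .nil)))
noncomputable def n812 : Strat := .move 885 n23 (.cons 886 n22 .nil)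
noncomputable def n813 : Strat := .move 803 n28 (.cons 804 n27 .nil)
noncomputable def n814 : Strat := .move 844 n812 (.cons 884 n813 .nil)
noncomputable def n815 : Strat := .move 838 n52 (.cons 878 n814 .nil)
noncomputable def n816 : Strat := .move 879 n51 (.cons 880 n815 .nil)
noncomputable def n817 : Strat := .move 843 n1 (.cons 799 n816 .nil)
noncomputable def n818 : Strat := .move 798 n0 (.cons 797 n817 .nil)
noncomputable def n819 : Strat := .move 842 n95 (.cons 799 n336 (.cons 798 n339 (.cons 883 n818 (.cons 884 n413 .nil))))
noncomputable def n820 : Strat := .win 880 6 756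
noncomputable def n821 : Strat := .move 921 n227 (.cons 962 n820 .nil)
noncomputable def n822 : Strat := .move 920 n720 (.cons 716 n217 (.cons 798 n821 .nil))
noncomputable def n823 : Strat := .win 675 3 674
noncomputable def n824 : Strat := .win 757 3 715
noncomputable def n825 : Strat := .move 716 n823 (.cons 675 n824 .nil)
noncomputable def n826 : Strat := .move 715 n194 (.cons 880 n825 .nil)
noncomputable def n827 : Strat := .win 673 7 673
noncomputable def n828 : Strat := .win 755 7 714
noncomputable def n829 : Strat := .move 714 n827 (.cons 673 n828 .nil)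
noncomputable def n830 : Strat := .move 715 n825 (.cons 757 n829 .nil)
noncomputable def n831 : Strat := .move 756 n323 (.cons 715 n822 (.cons 921 n826 (.cons 880 n830 .nil)))
noncomputable def n832 : Strat := .move 879 n52 (.cons 878 n831 .nil)
noncomputable def n833 : Strat := .move 797 n67 (.cons 796 n832 .nil)
noncomputable def n834 : Strat := .move 882 n169 (.cons 883 n833 .nil)
noncomputable def n835 : Strat := .move 838 n320 (.cons 797 n240 (.cons 880 n243 (.cons 842 n834 .nil)))
noncomputable def n836 : Strat := .win 964 3 800
noncomputable def n837 : Strat := .win 760 1 759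
noncomputable def n838 : Strat := .move 923 n836 (.cons 964 n837 .nil)
noncomputable def n839 : Strat := .move 801 n9 (.cons 802 n838 .nil)
noncomputable def n840 : Strat := .move 883 n7 (.cons 884 n839 .nil)
noncomputable def n841 : Strat := .move 880 n74 (.cons 921 n2 .nil)
noncomputable def n842 : Strat := .move 758 n34 (.cons 717 n841 .nil)
noncomputable def n843 : Strat := .move 799 n134 (.cons 843 n842 .nil)
noncomputable def n844 : Strat := .move 798 n0 (.cons 797 n843 .nil)
noncomputable def n845 : Strat := .move 883 n7 (.cons 884 n844 .nil)
noncomputable def n846 : Strat := .move 883 n839 (.cons 801 n844 .nil)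
noncomputable def n847 : Strat := .win 800 3 759
noncomputable def n848 : Strat := .move 760 n107 (.cons 719 n847 .nil)
noncomputable def n849 : Strat := .move 923 n836 (.cons 964 n848 .nil)
noncomputable def n850 : Strat := .move 801 n9 (.cons 802 n849 .nil)
noncomputable def n851 : Strat := .move 882 n840 (.cons 801 n845 (.cons 884 n846 (.cons 883 n850 .nil)))
noncomputable def n852 : Strat := .move 883 n7 (.cons 884 n484 .nil)
noncomputable def n853 : Strat := .move 801 n9 (.cons 802 n852 .nil)
noncomputable def n854 : Strat := .move 880 n2 (.cons 879 n853 .nil)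
noncomputable def n855 : Strat := .move 842 n851 (.cons 797 n854 (.cons 801 n95 (.cons 883 n104 .nil)))
noncomputable def n856 : Strat := .move 839 n802 (.cons 842 n804 (.cons 797 n809 (.cons 800 n810 (.cons 882 n811 (.cons 801 n819 (.cons 799 n835 (.cons 838 n855 .nil)))))))
noncomputable def n857 : Strat := .move 843 n26 (.cons 886 n550 (.cons 844 n744 (.cons 799 n528 .nil)))
noncomputable def n858 : Strat := .move 843 n119 (.cons 880 n528 (.cons 884 n31 .nil))
noncomputable def n859 : Strat := .move 799 n15 (.cons 798 n737 .nil)
noncomputable def n860 : Strat := .move 881 n17 (.cons 880 n859 .nil)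
noncomputable def n861 : Strat := .move 882 n34 (.cons 717 n33 .nil)
noncomputable def n862 : Strat := .win 759 3 717
noncomputable def n863 : Strat := .win 677 3 676
noncomputable def n864 : Strat := .win 675 7 675
noncomputable def n865 : Strat := .win 757 7 716
noncomputable def n866 : Strat := .move 716 n864 (.cons 675 n865 .nil)
noncomputable def n867 : Strat := .move 717 n863 (.cons 677 n866 .nil)
noncomputable def n868 : Strat := .move 718 n862 (.cons 759 n867 .nil)
noncomputable def n869 : Strat := .win 882 6 758
noncomputable def n870 : Strat := .win 964 6 799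
noncomputable def n871 : Strat := .move 922 n870 (.cons 964 n510 .nil)
noncomputable def n872 : Strat := .move 923 n869 (.cons 882 n871 .nil)
noncomputable def n873 : Strat := .move 758 n861 (.cons 882 n868 (.cons 717 n872 .nil))
noncomputable def n874 : Strat := .move 799 n15 (.cons 798 n873 .nil)
noncomputable def n875 : Strat := .move 881 n17 (.cons 880 n874 .nil)
noncomputable def n876 : Strat := .move 843 n860 (.cons 798 n31 (.cons 882 n550 (.cons 844 n875 .nil)))
noncomputable def n877 : Strat := .move 839 n385 (.cons 843 n336 (.cons 797 n393 .nil))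
noncomputable def n878 : Strat := .move 757 n601 (.cons 717 n73 .nil)
noncomputable def n879 : Strat := .win 1004 6 839
noncomputable def n880 : Strat := .win 922 6 798
noncomputable def n881 : Strat := .move 963 n879 (.cons 1004 n880 .nil)
noncomputable def n882 : Strat := .move 962 n440 (.cons 920 n881 .nil)
noncomputable def n883 : Strat := .move 921 n436 (.cons 758 n441 (.cons 962 n878 (.cons 799 n882 .nil)))
noncomputable def n884 : Strat := .move 880 n2 (.cons 879 n883 .nil)
noncomputable def n885 : Strat := .move 798 n0 (.cons 797 n884 .nil)
noncomputable def n886 : Strat := .move 883 n69 (.cons 798 n338 (.cons 882 n885 .nil))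
noncomputable def n887 : Strat := .move 883 n7 (.cons 884 n885 .nil)
noncomputable def n888 : Strat := .move 717 n594 (.cons 676 n593 .nil)
noncomputable def n889 : Strat := .move 716 n272 (.cons 881 n888 .nil)
noncomputable def n890 : Strat := .move 757 n592 (.cons 922 n889 (.cons 881 n599 (.cons 716 n603 .nil)))
noncomputable def n891 : Strat := .move 880 n2 (.cons 879 n890 .nil)
noncomputable def n892 : Strat := .move 798 n0 (.cons 797 n891 .nil)
noncomputable def n893 : Strat := .move 839 n70 (.cons 798 n339 (.cons 884 n886 (.cons 882 n887 (.cons 883 n892 .nil))))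
noncomputable def n894 : Strat := .move 842 n129 (.cons 880 n857 (.cons 798 n858 (.cons 884 n876 (.cons 803 n877 (.cons 843 n893 .nil)))))
noncomputable def n895 : Strat := .move 842 n585 (.cons 883 n59 (.cons 801 n349 .nil))
noncomputable def n896 : Strat := .move 799 n759 (.cons 964 n758 .nil)
noncomputable def n897 : Strat := .win 799 7 799
noncomputable def n898 : Strat := .win 1004 1 840
noncomputable def n899 : Strat := .win 922 1 799
noncomputable def n900 : Strat := .move 963 n898 (.cons 1004 n899 .nil)
noncomputable def n901 : Strat := .move 964 n897 (.cons 799 n900 .nil)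
noncomputable def n902 : Strat := .move 759 n782 (.cons 922 n37 .nil)
noncomputable def n903 : Strat := .win 963 1 799
noncomputable def n904 : Strat := .move 922 n305 (.cons 759 n903 .nil)
noncomputable def n905 : Strat := .win 880 0 879
noncomputable def n906 : Strat := .move 924 n905 (.cons 880 n755 .nil)
noncomputable def n907 : Strat := .move 881 n902 (.cons 718 n904 (.cons 922 n906 .nil))
noncomputable def n908 : Strat := .move 923 n896 (.cons 758 n901 (.cons 964 n907 .nil))
noncomputable def n909 : Strat := .move 879 n52 (.cons 878 n908 .nil)
noncomputable def n910 : Strat := .move 882 n169 (.cons 883 n909 .nil)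
noncomputable def n911 : Strat := .move 800 n176 (.cons 801 n910 .nil)
noncomputable def n912 : Strat := .move 838 n180 (.cons 800 n175 (.cons 881 n190 (.cons 837 n911 .nil)))
noncomputable def n913 : Strat := .move 923 n837 (.cons 760 n836 .nil)
noncomputable def n914 : Strat := .move 801 n9 (.cons 802 n913 .nil)
noncomputable def n915 : Strat := .move 882 n105 (.cons 838 n914 .nil)
noncomputable def n916 : Strat := .move 883 n7 (.cons 884 n915 .nil)
noncomputable def n917 : Strat := .move 842 n59 (.cons 801 n349 (.cons 843 n916 .nil))
noncomputable def n918 : Strat := .move 881 n37 (.cons 718 n782 .nil)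
noncomputable def n919 : Strat := .win 758 7 717
noncomputable def n920 : Strat := .win 676 7 676
noncomputable def n921 : Strat := .win 678 3 677
noncomputable def n922 : Strat := .win 760 3 718
noncomputable def n923 : Strat := .move 719 n921 (.cons 678 n922 .nil)
noncomputable def n924 : Strat := .move 718 n920 (.cons 676 n923 .nil)
noncomputable def n925 : Strat := .move 717 n919 (.cons 758 n924 .nil)
noncomputable def n926 : Strat := .win 881 1 758
noncomputable def n927 : Strat := .win 799 7 758
noncomputable def n928 : Strat := .win 717 7 717
noncomputable def n929 : Strat := .move 758 n927 (.cons 799 n928 .nil)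
noncomputable def n930 : Strat := .move 923 n903 (.cons 963 n929 .nil)
noncomputable def n931 : Strat := .move 922 n926 (.cons 881 n930 .nil)
noncomputable def n932 : Strat := .move 759 n918 (.cons 881 n925 (.cons 718 n931 .nil))
noncomputable def n933 : Strat := .move 882 n169 (.cons 883 n932 .nil)
noncomputable def n934 : Strat := .move 800 n176 (.cons 801 n933 .nil)
noncomputable def n935 : Strat := .move 838 n616 (.cons 881 n190 (.cons 800 n175 (.cons 837 n934 .nil)))
noncomputable def n936 : Strat := .win 920 1 756
noncomputable def n937 : Strat := .move 757 n183 (.cons 716 n936 .nil)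
noncomputable def n938 : Strat := .win 920 3 797
noncomputable def n939 : Strat := .move 921 n78 (.cons 758 n77 .nil)
noncomputable def n940 : Strat := .move 799 n939 (.cons 962 n76 (.cons 758 n160 .nil))
noncomputable def n941 : Strat := .move 961 n938 (.cons 920 n940 .nil)
noncomputable def n942 : Strat := .move 757 n183 (.cons 716 n940 .nil)
noncomputable def n943 : Strat := .move 798 n937 (.cons 757 n941 (.cons 920 n942 .nil))
noncomputable def n944 : Strat := .move 880 n245 (.cons 842 n943 .nil)
noncomputable def n945 : Strat := .move 879 n52 (.cons 878 n944 .nil)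
noncomputable def n946 : Strat := .move 836 n649 (.cons 798 n691 .nil)
noncomputable def n947 : Strat := .move 799 n159 (.cons 800 n946 .nil)
noncomputable def n948 : Strat := .move 837 n170 (.cons 881 n947 .nil)
noncomputable def n949 : Strat := .move 882 n169 (.cons 883 n948 .nil)
noncomputable def n950 : Strat := .move 838 n175 (.cons 882 n945 (.cons 879 n949 (.cons 837 n396 .nil)))
noncomputable def n951 : Strat := .move 882 n105 (.cons 838 n838 .nil)
noncomputable def n952 : Strat := .move 883 n7 (.cons 884 n951 .nil)
noncomputable def n953 : Strat := .move 801 n9 (.cons 802 n952 .nil)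
noncomputable def n954 : Strat := .move 881 n17 (.cons 880 n551 .nil)
noncomputable def n955 : Strat := .win 845 4 841
noncomputable def n956 : Strat := .win 881 4 840
noncomputable def n957 : Strat := .move 844 n955 (.cons 845 n956 .nil)
noncomputable def n958 : Strat := .move 798 n1 (.cons 799 n957 .nil)
noncomputable def n959 : Strat := .move 844 n16 (.cons 800 n955 .nil)
noncomputable def n960 : Strat := .move 799 n15 (.cons 798 n959 .nil)
noncomputable def n961 : Strat := .move 881 n17 (.cons 880 n553 .nil)
noncomputable def n962 : Strat := .move 843 n954 (.cons 880 n958 (.cons 881 n960 (.cons 844 n961 .nil)))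
noncomputable def n963 : Strat := .move 882 n105 (.cons 838 n962 .nil)
noncomputable def n964 : Strat := .move 883 n7 (.cons 884 n963 .nil)
noncomputable def n965 : Strat := .win 798 0 798
noncomputable def n966 : Strat := .move 799 n965 (.cons 798 n530 .nil)
noncomputable def n967 : Strat := .win 799 2 799
noncomputable def n968 : Strat := .win 845 2 800
noncomputable def n969 : Strat := .move 844 n967 (.cons 799 n968 .nil)
noncomputable def n970 : Strat := .move 844 n18 (.cons 882 n968 .nil)
noncomputable def n971 : Strat := .move 881 n17 (.cons 880 n970 .nil)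
noncomputable def n972 : Strat := .move 922 n40 (.cons 759 n39 .nil)
noncomputable def n973 : Strat := .move 881 n17 (.cons 880 n972 .nil)
noncomputable def n974 : Strat := .move 799 n965 (.cons 798 n973 .nil)
noncomputable def n975 : Strat := .move 843 n966 (.cons 798 n969 (.cons 799 n971 (.cons 844 n974 .nil)))
noncomputable def n976 : Strat := .move 800 n350 (.cons 838 n975 .nil)
noncomputable def n977 : Strat := .move 801 n9 (.cons 802 n976 .nil)
noncomputable def n978 : Strat := .move 881 n18 (.cons 882 n17 .nil)
noncomputable def n979 : Strat := .move 844 n16 (.cons 800 n978 .nil)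
noncomputable def n980 : Strat := .move 799 n15 (.cons 798 n979 .nil)
noncomputable def n981 : Strat := .move 843 n92 (.cons 885 n980 .nil)
noncomputable def n982 : Strat := .move 884 n91 (.cons 883 n981 .nil)
noncomputable def n983 : Strat := .move 801 n9 (.cons 802 n982 .nil)
noncomputable def n984 : Strat := .move 842 n585 (.cons 718 n953 (.cons 801 n964 (.cons 883 n977 (.cons 838 n983 .nil))))
noncomputable def n985 : Strat := .move 799 n16 (.cons 800 n15 .nil)
noncomputable def n986 : Strat := .move 882 n955 (.cons 845 n956 .nil)
noncomputable def n987 : Strat := .move 844 n985 (.cons 798 n986 .nil)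
noncomputable def n988 : Strat := .move 924 n524 (.cons 965 n987 .nil)
noncomputable def n989 : Strat := .move 843 n32 (.cons 803 n988 .nil)
noncomputable def n990 : Strat := .move 802 n56 (.cons 801 n989 .nil)
noncomputable def n991 : Strat := .move 883 n7 (.cons 884 n990 .nil)
noncomputable def n992 : Strat := .move 842 n59 (.cons 801 n349 (.cons 879 n983 (.cons 881 n854 (.cons 880 n991 .nil))))
noncomputable def n993 : Strat := .move 839 n895 (.cons 842 n912 (.cons 800 n917 (.cons 880 n935 (.cons 881 n809 (.cons 801 n950 (.cons 879 n984 (.cons 883 n733 (.cons 838 n992 .nil))))))))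
noncomputable def n994 : Strat := .move 842 n207 (.cons 882 n59 (.cons 801 n102 .nil))
noncomputable def n995 : Strat := .move 842 n59 (.cons 803 n371 (.cons 843 n204 .nil))
noncomputable def n996 : Strat := .move 923 n759 (.cons 964 n758 .nil)
noncomputable def n997 : Strat := .win 798 5 756
noncomputable def n998 : Strat := .move 760 n997 (.cons 798 n784 .nil)
noncomputable def n999 : Strat := .move 799 n363 (.cons 717 n996 (.cons 923 n998 .nil))
noncomputable def n1000 : Strat := .move 759 n783 (.cons 718 n999 .nil)
noncomputable def n1001 : Strat := .move 797 n67 (.cons 796 n1000 .nil)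
noncomputable def n1002 : Strat := .move 882 n169 (.cons 883 n1001 .nil)
noncomputable def n1003 : Strat := .move 800 n176 (.cons 801 n1002 .nil)
noncomputable def n1004 : Strat := .move 838 n255 (.cons 881 n298 (.cons 800 n214 (.cons 837 n1003 .nil)))
noncomputable def n1005 : Strat := .move 842 n59 (.cons 843 n336 .nil)
noncomputable def n1006 : Strat := .move 838 n180 (.cons 799 n175 (.cons 882 n240 .nil))
noncomputable def n1007 : Strat := .move 838 n168 (.cons 880 n214 (.cons 797 n175 .nil))
noncomputable def n1008 : Strat := .move 798 n0 (.cons 797 n345 .nil)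
noncomputable def n1009 : Strat := .move 880 n2 (.cons 879 n1008 .nil)
noncomputable def n1010 : Strat := .move 842 n204 (.cons 801 n336 (.cons 798 n207 (.cons 838 n1009 .nil)))
noncomputable def n1011 : Strat := .move 802 n32 (.cons 803 n56 .nil)
noncomputable def n1012 : Strat := .move 799 n15 (.cons 798 n1011 .nil)
noncomputable def n1013 : Strat := .move 843 n3 (.cons 881 n1012 .nil)
noncomputable def n1014 : Strat := .move 880 n2 (.cons 879 n1013 .nil)
noncomputable def n1015 : Strat := .move 798 n1 (.cons 799 n0 .nil)
noncomputable def n1016 : Strat := .move 843 n3 (.cons 881 n1015 .nil)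
noncomputable def n1017 : Strat := .move 880 n2 (.cons 879 n1016 .nil)
noncomputable def n1018 : Strat := .move 883 n7 (.cons 884 n1017 .nil)
noncomputable def n1019 : Strat := .move 882 n840 (.cons 883 n1014 (.cons 801 n1018 .nil))
noncomputable def n1020 : Strat := .move 842 n1019 (.cons 881 n1009 (.cons 880 n104 (.cons 797 n59 (.cons 843 n487 .nil))))
noncomputable def n1021 : Strat := .move 839 n994 (.cons 882 n995 (.cons 842 n1004 (.cons 800 n1005 (.cons 798 n1006 (.cons 801 n1007 (.cons 881 n1010 (.cons 838 n1020 .nil)))))))
noncomputable def n1022 : Strat := .move 842 n55 (.cons 883 n59 (.cons 880 n13 .nil))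
noncomputable def n1023 : Strat := .move 924 n282 (.cons 759 n281 .nil)
noncomputable def n1024 : Strat := .move 883 n7 (.cons 884 n1023 .nil)
noncomputable def n1025 : Strat := .move 798 n0 (.cons 797 n1024 .nil)
noncomputable def n1026 : Strat := .move 801 n9 (.cons 802 n1025 .nil)
noncomputable def n1027 : Strat := .win 882 1 758
noncomputable def n1028 : Strat := .move 922 n1027 (.cons 882 n39 .nil)
noncomputable def n1029 : Strat := .move 759 n37 (.cons 718 n1028 .nil)
noncomputable def n1030 : Strat := .move 881 n372 (.cons 843 n1029 .nil)
noncomputable def n1031 : Strat := .move 880 n2 (.cons 879 n1030 .nil)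
noncomputable def n1032 : Strat := .move 801 n9 (.cons 802 n1031 .nil)
noncomputable def n1033 : Strat := .win 882 6 759
noncomputable def n1034 : Strat := .move 924 n281 (.cons 965 n1033 .nil)
noncomputable def n1035 : Strat := .move 759 n260 (.cons 718 n1034 .nil)
noncomputable def n1036 : Strat := .move 883 n7 (.cons 884 n1035 .nil)
noncomputable def n1037 : Strat := .move 843 n3 (.cons 881 n265 .nil)
noncomputable def n1038 : Strat := .move 880 n2 (.cons 879 n1037 .nil)
noncomputable def n1039 : Strat := .move 801 n9 (.cons 802 n1038 .nil)
noncomputable def n1040 : Strat := .move 800 n1026 (.cons 884 n1032 (.cons 801 n1036 (.cons 759 n1039 .nil)))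
noncomputable def n1041 : Strat := .move 882 n107 (.cons 719 n106 .nil)
noncomputable def n1042 : Strat := .move 719 n480 (.cons 677 n478 .nil)
noncomputable def n1043 : Strat := .move 718 n481 (.cons 759 n1042 .nil)
noncomputable def n1044 : Strat := .move 924 n471 (.cons 800 n468 .nil)
noncomputable def n1045 : Strat := .move 759 n472 (.cons 718 n1044 .nil)
noncomputable def n1046 : Strat := .move 923 n469 (.cons 882 n1045 .nil)
noncomputable def n1047 : Strat := .move 760 n1041 (.cons 923 n479 (.cons 882 n1043 (.cons 719 n1046 .nil)))
noncomputable def n1048 : Strat := .move 801 n9 (.cons 802 n1047 .nil)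
noncomputable def n1049 : Strat := .move 883 n7 (.cons 884 n1048 .nil)
noncomputable def n1050 : Strat := .move 842 n1040 (.cons 880 n1049 (.cons 883 n59 (.cons 801 n349 .nil)))
noncomputable def n1051 : Strat := .move 842 n13 (.cons 883 n204 (.cons 801 n336 (.cons 838 n1049 .nil)))
noncomputable def n1052 : Strat := .move 920 n622 (.cons 961 n720 (.cons 757 n821 .nil))
noncomputable def n1053 : Strat := .move 756 n323 (.cons 715 n1052 (.cons 921 n826 (.cons 880 n830 .nil)))
noncomputable def n1054 : Strat := .move 797 n67 (.cons 796 n1053 .nil)
noncomputable def n1055 : Strat := .move 879 n52 (.cons 878 n1054 .nil)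
noncomputable def n1056 : Strat := .move 800 n176 (.cons 801 n1055 .nil)
noncomputable def n1057 : Strat := .move 838 n175 (.cons 879 n214 (.cons 881 n834 (.cons 883 n1056 .nil)))
noncomputable def n1058 : Strat := .move 839 n1022 (.cons 838 n1050 (.cons 883 n636 (.cons 880 n1051 (.cons 802 n794 (.cons 842 n1057 .nil)))))
noncomputable def n1059 : Strat := .move 842 n102 (.cons 799 n59 (.cons 880 n104 (.cons 843 n113 .nil)))
noncomputable def n1060 : Strat := .move 797 n67 (.cons 796 n225 .nil)
noncomputable def n1061 : Strat := .move 880 n245 (.cons 842 n1060 .nil)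
noncomputable def n1062 : Strat := .move 879 n52 (.cons 878 n1061 .nil)
noncomputable def n1063 : Strat := .move 881 n304 (.cons 837 n1062 .nil)
noncomputable def n1064 : Strat := .move 882 n169 (.cons 883 n1063 .nil)
noncomputable def n1065 : Strat := .move 843 n265 (.cons 883 n1011 .nil)
noncomputable def n1066 : Strat := .move 837 n211 (.cons 795 n1065 .nil)
noncomputable def n1067 : Strat := .move 796 n210 (.cons 797 n1066 .nil)
noncomputable def n1068 : Strat := .move 842 n51 (.cons 880 n1067 .nil)
noncomputable def n1069 : Strat := .move 879 n52 (.cons 878 n1068 .nil)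
noncomputable def n1070 : Strat := .move 838 n175 (.cons 877 n1064 (.cons 879 n214 (.cons 837 n396 (.cons 882 n1069 (.cons 883 n400 .nil)))))
noncomputable def n1071 : Strat := .move 837 n172 (.cons 877 n1065 .nil)
noncomputable def n1072 : Strat := .move 878 n171 (.cons 879 n1071 .nil)
noncomputable def n1073 : Strat := .move 842 n66 (.cons 798 n1072 .nil)
noncomputable def n1074 : Strat := .move 797 n67 (.cons 796 n1073 .nil)
noncomputable def n1075 : Strat := .move 838 n300 (.cons 797 n175 (.cons 882 n1074 (.cons 883 n404 .nil)))
noncomputable def n1076 : Strat := .move 880 n101 (.cons 843 n112 (.cons 798 n58 .nil))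
noncomputable def n1077 : Strat := .move 842 n1076 (.cons 883 n104 (.cons 797 n916 (.cons 802 n95 .nil)))
noncomputable def n1078 : Strat := .move 880 n245 (.cons 842 n397 .nil)
noncomputable def n1079 : Strat := .move 797 n67 (.cons 796 n1078 .nil)
noncomputable def n1080 : Strat := .move 879 n52 (.cons 878 n1079 .nil)
noncomputable def n1081 : Strat := .move 879 n183 (.cons 716 n184 .nil)
noncomputable def n1082 : Strat := .move 921 n677 (.cons 756 n246 .nil)
noncomputable def n1083 : Strat := .move 756 n679 (.cons 921 n224 .nil)
noncomputable def n1084 : Strat := .win 879 1 756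
noncomputable def n1085 : Strat := .move 921 n446 (.cons 961 n246 .nil)
noncomputable def n1086 : Strat := .move 920 n1084 (.cons 879 n1085 .nil)
noncomputable def n1087 : Strat := .move 882 n304 (.cons 837 n169 .nil)
noncomputable def n1088 : Strat := .move 881 n71 (.cons 922 n1087 .nil)
noncomputable def n1089 : Strat := .move 880 n1082 (.cons 962 n1083 (.cons 756 n1086 (.cons 921 n1088 .nil)))
noncomputable def n1090 : Strat := .win 675 1 674
noncomputable def n1091 : Strat := .move 716 n1090 (.cons 675 n272 .nil)
noncomputable def n1092 : Strat := .move 757 n1081 (.cons 716 n1089 (.cons 879 n1091 .nil))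
noncomputable def n1093 : Strat := .move 798 n182 (.cons 842 n1092 .nil)
noncomputable def n1094 : Strat := .move 797 n67 (.cons 796 n1093 .nil)
noncomputable def n1095 : Strat := .move 881 n304 (.cons 837 n313 .nil)
noncomputable def n1096 : Strat := .move 882 n169 (.cons 883 n1095 .nil)
noncomputable def n1097 : Strat := .move 880 n245 (.cons 842 n1096 .nil)
noncomputable def n1098 : Strat := .move 879 n52 (.cons 878 n1097 .nil)
noncomputable def n1099 : Strat := .move 838 n1080 (.cons 878 n1094 (.cons 842 n214 (.cons 796 n1098 .nil)))
noncomputable def n1100 : Strat := .move 882 n169 (.cons 883 n715 .nil)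
noncomputable def n1101 : Strat := .move 879 n52 (.cons 878 n1100 .nil)
noncomputable def n1102 : Strat := .move 797 n67 (.cons 796 n1101 .nil)
noncomputable def n1103 : Strat := .move 880 n224 (.cons 715 n223 .nil)
noncomputable def n1104 : Strat := .move 715 n823 (.cons 675 n829 .nil)
noncomputable def n1105 : Strat := .move 716 n824 (.cons 757 n1104 .nil)
noncomputable def n1106 : Strat := .move 920 n227 (.cons 962 n720 .nil)
noncomputable def n1107 : Strat := .move 921 n820 (.cons 880 n1106 .nil)
noncomputable def n1108 : Strat := .move 756 n1103 (.cons 880 n1105 (.cons 715 n1107 .nil))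
noncomputable def n1109 : Strat := .move 879 n52 (.cons 878 n1108 .nil)
noncomputable def n1110 : Strat := .move 797 n67 (.cons 796 n1109 .nil)
noncomputable def n1111 : Strat := .move 838 n214 (.cons 797 n175 (.cons 883 n729 (.cons 837 n1102 (.cons 881 n803 (.cons 882 n1110 .nil)))))
noncomputable def n1112 : Strat := .move 839 n1059 (.cons 798 n1070 (.cons 797 n917 (.cons 883 n643 (.cons 881 n810 (.cons 802 n775 (.cons 880 n1075 (.cons 879 n1077 (.cons 843 n1099 (.cons 842 n1111 .nil)))))))))
noncomputable def n1113 : Strat := .move 838 n180 (.cons 882 n240 (.cons 800 n175 .nil))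
noncomputable def n1114 : Strat := .move 922 n903 (.cons 963 n305 .nil)
noncomputable def n1115 : Strat := .move 881 n902 (.cons 718 n1114 (.cons 922 n906 .nil))
noncomputable def n1116 : Strat := .move 923 n760 (.cons 964 n1115 .nil)
noncomputable def n1117 : Strat := .move 879 n52 (.cons 878 n1116 .nil)
noncomputable def n1118 : Strat := .move 800 n176 (.cons 801 n1117 .nil)
noncomputable def n1119 : Strat := .move 882 n169 (.cons 883 n1118 .nil)
noncomputable def n1120 : Strat := .move 838 n180 (.cons 799 n175 (.cons 882 n190 (.cons 837 n1119 .nil)))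
noncomputable def n1121 : Strat := .move 718 n698 (.cons 881 n923 .nil)
noncomputable def n1122 : Strat := .move 759 n918 (.cons 922 n1121 (.cons 881 n925 (.cons 718 n931 .nil)))
noncomputable def n1123 : Strat := .move 882 n169 (.cons 883 n1122 .nil)
noncomputable def n1124 : Strat := .move 800 n176 (.cons 801 n1123 .nil)
noncomputable def n1125 : Strat := .move 838 n616 (.cons 881 n298 (.cons 800 n214 (.cons 837 n1124 .nil)))
noncomputable def n1126 : Strat := .move 838 n175 (.cons 883 n400 (.cons 879 n214 .nil))
noncomputable def n1127 : Strat := .move 838 n240 (.cons 800 n396 (.cons 842 n1119 (.cons 880 n1124 .nil)))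
noncomputable def n1128 : Strat := .move 880 n58 (.cons 801 n348 (.cons 843 n853 .nil))
noncomputable def n1129 : Strat := .move 883 n7 (.cons 884 n1047 .nil)
noncomputable def n1130 : Strat := .move 801 n9 (.cons 802 n1129 .nil)
noncomputable def n1131 : Strat := .move 842 n59 (.cons 801 n349 (.cons 843 n487 (.cons 879 n1128 (.cons 880 n1130 .nil))))
noncomputable def n1132 : Strat := .move 839 n1113 (.cons 842 n1120 (.cons 800 n1070 (.cons 880 n1125 (.cons 883 n635 (.cons 801 n1126 (.cons 837 n1127 (.cons 838 n1131 .nil)))))))
noncomputable def n1133 : Strat := .move 838 n255 (.cons 837 n243 (.cons 801 n214 .nil))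
noncomputable def n1134 : Strat := .move 843 n1015 (.cons 797 n957 .nil)
noncomputable def n1135 : Strat := .move 760 n107 (.cons 719 n1134 .nil)
noncomputable def n1136 : Strat := .move 801 n9 (.cons 802 n1135 .nil)
noncomputable def n1137 : Strat := .move 883 n7 (.cons 884 n1136 .nil)
noncomputable def n1138 : Strat := .move 843 n1 (.cons 799 n957 .nil)
noncomputable def n1139 : Strat := .move 798 n0 (.cons 797 n1138 .nil)
noncomputable def n1140 : Strat := .move 883 n7 (.cons 884 n1139 .nil)
noncomputable def n1141 : Strat := .win 760 3 759
noncomputable def n1142 : Strat := .win 797 0 797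
noncomputable def n1143 : Strat := .move 798 n269 (.cons 843 n1142 .nil)
noncomputable def n1144 : Strat := .move 799 n758 (.cons 758 n1143 .nil)
noncomputable def n1145 : Strat := .move 800 n1141 (.cons 760 n1144 .nil)
noncomputable def n1146 : Strat := .move 923 n836 (.cons 964 n1145 .nil)
noncomputable def n1147 : Strat := .move 801 n9 (.cons 802 n1146 .nil)
noncomputable def n1148 : Strat := .move 882 n840 (.cons 923 n1137 (.cons 801 n1140 (.cons 883 n1147 .nil)))
noncomputable def n1149 : Strat := .move 842 n1148 (.cons 798 n1130 (.cons 801 n95 (.cons 883 n104 .nil)))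
noncomputable def n1150 : Strat := .move 838 n298 (.cons 800 n1074 (.cons 797 n190 (.cons 837 n243 (.cons 801 n404 .nil))))
noncomputable def n1151 : Strat := .move 838 n214 (.cons 795 n175 (.cons 883 n404 .nil))
noncomputable def n1152 : Strat := .move 879 n52 (.cons 878 n324 .nil)
noncomputable def n1153 : Strat := .move 798 n182 (.cons 842 n1152 .nil)
noncomputable def n1154 : Strat := .move 797 n67 (.cons 796 n1153 .nil)
noncomputable def n1155 : Strat := .move 800 n176 (.cons 801 n1154 .nil)
noncomputable def n1156 : Strat := .move 882 n294 (.cons 801 n213 (.cons 837 n1155 .nil))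
noncomputable def n1157 : Strat := .move 838 n1156 (.cons 800 n404 (.cons 920 n298 (.cons 797 n190 .nil)))
noncomputable def n1158 : Strat := .move 839 n1133 (.cons 800 n1075 (.cons 798 n1125 (.cons 797 n935 (.cons 838 n1149 (.cons 882 n1150 (.cons 801 n1151 (.cons 883 n1157 .nil)))))))
noncomputable def n1159 : Strat := .move 842 n6 (.cons 881 n104 (.cons 798 n59 (.cons 843 n90 .nil)))
noncomputable def n1160 : Strat := .move 842 n59 (.cons 881 n204 (.cons 801 n349 .nil))
noncomputable def n1161 : Strat := .move 842 n133 (.cons 881 n104 (.cons 798 n59 (.cons 843 n606 .nil)))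
noncomputable def n1162 : Strat := .move 842 n59 (.cons 803 n349 (.cons 879 n585 .nil))
noncomputable def n1163 : Strat := .move 842 n104 (.cons 797 n585 (.cons 801 n95 .nil))
noncomputable def n1164 : Strat := .move 842 n133 (.cons 843 n887 (.cons 799 n349 (.cons 879 n95 .nil)))
noncomputable def n1165 : Strat := .move 838 n190 (.cons 800 n1110 (.cons 879 n298 .nil))
noncomputable def n1166 : Strat := .move 839 n1159 (.cons 880 n1150 (.cons 799 n1160 (.cons 843 n607 (.cons 800 n1161 (.cons 797 n1162 (.cons 879 n1163 (.cons 801 n1164 (.cons 842 n1165 .nil))))))))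
noncomputable def n1167 : Strat := .move 922 n39 (.cons 963 n1027 .nil)
noncomputable def n1168 : Strat := .move 759 n37 (.cons 718 n1167 .nil)
noncomputable def n1169 : Strat := .win 758 6 758
noncomputable def n1170 : Strat := .win 842 0 797
noncomputable def n1171 : Strat := .win 796 0 796
noncomputable def n1172 : Strat := .move 797 n1170 (.cons 842 n1171 .nil)
noncomputable def n1173 : Strat := .move 798 n138 (.cons 757 n1172 .nil)
noncomputable def n1174 : Strat := .move 882 n1169 (.cons 758 n1173 .nil)
noncomputable def n1175 : Strat := .move 923 n870 (.cons 964 n1174 .nil)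
noncomputable def n1176 : Strat := .move 799 n40 (.cons 759 n1175 .nil)
noncomputable def n1177 : Strat := .move 922 n39 (.cons 963 n1176 .nil)
noncomputable def n1178 : Strat := .win 799 3 758
noncomputable def n1179 : Strat := .move 922 n39 (.cons 963 n1178 .nil)
noncomputable def n1180 : Strat := .move 759 n37 (.cons 718 n1179 .nil)
noncomputable def n1181 : Strat := .move 921 n143 (.cons 880 n144 .nil)
noncomputable def n1182 : Strat := .move 758 n869 (.cons 882 n1181 .nil)
noncomputable def n1183 : Strat := .move 923 n870 (.cons 964 n1182 .nil)
noncomputable def n1184 : Strat := .move 842 n1142 (.cons 797 n134 .nil)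
noncomputable def n1185 : Strat := .move 798 n138 (.cons 757 n1184 .nil)
noncomputable def n1186 : Strat := .move 799 n1183 (.cons 880 n1185 .nil)
noncomputable def n1187 : Strat := .move 922 n39 (.cons 963 n1186 .nil)
noncomputable def n1188 : Strat := .win 755 0 755
noncomputable def n1189 : Strat := .win 801 0 756
noncomputable def n1190 : Strat := .move 756 n1188 (.cons 755 n1189 .nil)
noncomputable def n1191 : Strat := .move 757 n43 (.cons 716 n1190 .nil)
noncomputable def n1192 : Strat := .move 799 n33 (.cons 923 n1191 .nil)
noncomputable def n1193 : Strat := .move 758 n928 (.cons 717 n1192 .nil)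
noncomputable def n1194 : Strat := .win 762 4 758
noncomputable def n1195 : Strat := .win 798 4 757
noncomputable def n1196 : Strat := .move 761 n1194 (.cons 762 n1195 .nil)
noncomputable def n1197 : Strat := .move 760 n784 (.cons 719 n1196 .nil)
noncomputable def n1198 : Strat := .move 799 n33 (.cons 923 n1197 .nil)
noncomputable def n1199 : Strat := .move 758 n928 (.cons 717 n1198 .nil)
noncomputable def n1200 : Strat := .win 924 6 759
noncomputable def n1201 : Strat := .move 843 n551 (.cons 844 n17 .nil)
noncomputable def n1202 : Strat := .win 801 1 759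
noncomputable def n1203 : Strat := .move 760 n1202 (.cons 801 n784 .nil)
noncomputable def n1204 : Strat := .win 1005 3 841
noncomputable def n1205 : Strat := .move 964 n1204 (.cons 1005 n897 .nil)
noncomputable def n1206 : Strat := .move 923 n1203 (.cons 719 n1205 .nil)
noncomputable def n1207 : Strat := .move 842 n1201 (.cons 880 n1206 .nil)
noncomputable def n1208 : Strat := .move 883 n1200 (.cons 924 n1207 .nil)
noncomputable def n1209 : Strat := .win 802 0 757
noncomputable def n1210 : Strat := .win 756 0 756
noncomputable def n1211 : Strat := .move 801 n1209 (.cons 802 n1210 .nil)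
noncomputable def n1212 : Strat := .win 715 2 715
noncomputable def n1213 : Strat := .win 799 7 716
noncomputable def n1214 : Strat := .move 716 n1212 (.cons 715 n1213 .nil)
noncomputable def n1215 : Strat := .move 757 n1211 (.cons 756 n1214 .nil)
noncomputable def n1216 : Strat := .move 760 n784 (.cons 719 n1215 .nil)
noncomputable def n1217 : Strat := .move 758 n928 (.cons 717 n1216 .nil)
noncomputable def n1218 : Strat := .win 801 3 759
noncomputable def n1219 : Strat := .win 883 6 759
noncomputable def n1220 : Strat := .move 924 n755 (.cons 965 n1219 .nil)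
noncomputable def n1221 : Strat := .move 923 n1218 (.cons 801 n1220 .nil)
noncomputable def n1222 : Strat := .move 760 n784 (.cons 719 n1221 .nil)
noncomputable def n1223 : Strat := .move 882 n1193 (.cons 756 n1199 (.cons 758 n1208 (.cons 923 n1217 (.cons 799 n1222 .nil))))
noncomputable def n1224 : Strat := .move 759 n37 (.cons 718 n1223 .nil)
noncomputable def n1225 : Strat := .move 881 n1168 (.cons 718 n1177 (.cons 882 n1180 (.cons 759 n1187 (.cons 922 n1224 .nil))))
noncomputable def n1226 : Strat := .win 842 3 800
noncomputable def n1227 : Strat := .move 801 n1141 (.cons 760 n1226 .nil)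
noncomputable def n1228 : Strat := .move 964 n897 (.cons 799 n1227 .nil)
noncomputable def n1229 : Strat := .move 759 n784 (.cons 719 n1220 .nil)
noncomputable def n1230 : Strat := .move 760 n1218 (.cons 801 n1229 .nil)
noncomputable def n1231 : Strat := .move 799 n758 (.cons 758 n1230 .nil)
noncomputable def n1232 : Strat := .win 924 6 800
noncomputable def n1233 : Strat := .win 1006 6 841
noncomputable def n1234 : Strat := .move 965 n1232 (.cons 924 n1233 .nil)
noncomputable def n1235 : Strat := .move 964 n1226 (.cons 842 n1234 .nil)
noncomputable def n1236 : Strat := .move 801 n1141 (.cons 760 n1235 .nil)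
noncomputable def n1237 : Strat := .move 923 n760 (.cons 758 n1228 (.cons 964 n1231 (.cons 799 n1236 .nil)))
noncomputable def n1238 : Strat := .win 842 6 718
noncomputable def n1239 : Strat := .move 719 n922 (.cons 760 n921 .nil)
noncomputable def n1240 : Strat := .move 718 n1238 (.cons 842 n1239 .nil)
noncomputable def n1241 : Strat := .move 883 n1200 (.cons 924 n1240 .nil)
noncomputable def n1242 : Strat := .move 924 n1219 (.cons 883 n755 .nil)
noncomputable def n1243 : Strat := .move 923 n1218 (.cons 801 n1242 .nil)
noncomputable def n1244 : Strat := .move 760 n784 (.cons 719 n1243 .nil)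
noncomputable def n1245 : Strat := .win 923 3 759
noncomputable def n1246 : Strat := .move 757 n1209 (.cons 802 n1210 .nil)
noncomputable def n1247 : Strat := .move 758 n928 (.cons 717 n1246 .nil)
noncomputable def n1248 : Strat := .move 801 n1245 (.cons 923 n1247 .nil)
noncomputable def n1249 : Strat := .move 760 n784 (.cons 719 n1248 .nil)
noncomputable def n1250 : Strat := .move 717 n919 (.cons 758 n920 .nil)
noncomputable def n1251 : Strat := .move 718 n1238 (.cons 842 n1250 .nil)
noncomputable def n1252 : Strat := .move 883 n1200 (.cons 924 n1251 .nil)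
noncomputable def n1253 : Strat := .move 759 n1241 (.cons 718 n1244 (.cons 924 n1249 (.cons 760 n1252 .nil)))
noncomputable def n1254 : Strat := .move 964 n897 (.cons 799 n1234 .nil)
noncomputable def n1255 : Strat := .move 842 n269 (.cons 843 n1142 .nil)
noncomputable def n1256 : Strat := .win 757 2 756
noncomputable def n1257 : Strat := .move 756 n192 (.cons 755 n1256 .nil)
noncomputable def n1258 : Strat := .move 797 n1171 (.cons 796 n1257 .nil)
noncomputable def n1259 : Strat := .win 842 0 798
noncomputable def n1260 : Strat := .win 803 4 799
noncomputable def n1261 : Strat := .move 802 n491 (.cons 844 n1260 .nil)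
noncomputable def n1262 : Strat := .move 843 n1259 (.cons 842 n1261 .nil)
noncomputable def n1263 : Strat := .move 798 n1172 (.cons 796 n1255 (.cons 842 n1258 (.cons 797 n1262 .nil)))
noncomputable def n1264 : Strat := .move 801 n1141 (.cons 760 n1263 .nil)
noncomputable def n1265 : Strat := .move 799 n758 (.cons 758 n1264 .nil)
noncomputable def n1266 : Strat := .move 923 n760 (.cons 758 n1254 (.cons 799 n1236 (.cons 964 n1265 .nil)))
noncomputable def n1267 : Strat := .move 923 n758 (.cons 758 n759 .nil)
noncomputable def n1268 : Strat := .move 718 n697 (.cons 677 n923 .nil)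
noncomputable def n1269 : Strat := .move 759 n1219 (.cons 883 n1268 .nil)
noncomputable def n1270 : Strat := .move 924 n755 (.cons 965 n1269 .nil)
noncomputable def n1271 : Strat := .move 923 n759 (.cons 964 n1270 .nil)
noncomputable def n1272 : Strat := .move 883 n1238 (.cons 842 n1200 .nil)
noncomputable def n1273 : Strat := .move 718 n697 (.cons 677 n1272 .nil)
noncomputable def n1274 : Strat := .move 759 n1197 (.cons 762 n1268 (.cons 760 n1273 .nil))
noncomputable def n1275 : Strat := .move 758 n34 (.cons 717 n1274 .nil)
noncomputable def n1276 : Strat := .move 799 n805 (.cons 717 n1267 (.cons 758 n1271 (.cons 923 n1275 .nil)))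
noncomputable def n1277 : Strat := .win 759 6 759
noncomputable def n1278 : Strat := .win 885 2 840
noncomputable def n1279 : Strat := .win 921 5 880
noncomputable def n1280 : Strat := .move 922 n1279 (.cons 921 n903 .nil)
noncomputable def n1281 : Strat := .move 884 n1278 (.cons 885 n1280 .nil)
noncomputable def n1282 : Strat := .move 883 n1277 (.cons 759 n1281 .nil)
noncomputable def n1283 : Strat := .move 924 n755 (.cons 965 n1282 .nil)
noncomputable def n1284 : Strat := .move 801 n1141 (.cons 760 n1283 .nil)
noncomputable def n1285 : Strat := .move 923 n1228 (.cons 842 n1254 (.cons 964 n1284 .nil))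
noncomputable def n1286 : Strat := .move 760 n784 (.cons 719 n1218 .nil)
noncomputable def n1287 : Strat := .move 759 n928 (.cons 717 n1286 .nil)
noncomputable def n1288 : Strat := .move 758 n927 (.cons 799 n1287 .nil)
noncomputable def n1289 : Strat := .move 759 n1219 (.cons 883 n1286 .nil)
noncomputable def n1290 : Strat := .move 924 n755 (.cons 965 n1289 .nil)
noncomputable def n1291 : Strat := .move 923 n760 (.cons 758 n1254 (.cons 964 n1288 (.cons 799 n1290 .nil)))
noncomputable def n1292 : Strat := .move 797 n1171 (.cons 796 n1170 .nil)
noncomputable def n1293 : Strat := .move 802 n492 (.cons 757 n1260 .nil)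
noncomputable def n1294 : Strat := .win 802 2 757
noncomputable def n1295 : Strat := .move 757 n270 (.cons 756 n1294 .nil)
noncomputable def n1296 : Strat := .move 760 n107 (.cons 719 n576 .nil)
noncomputable def n1297 : Strat := .move 801 n1293 (.cons 803 n1295 (.cons 757 n1296 .nil))
noncomputable def n1298 : Strat := .move 842 n134 (.cons 843 n1297 .nil)
noncomputable def n1299 : Strat := .win 759 5 756
noncomputable def n1300 : Strat := .move 760 n576 (.cons 761 n1299 .nil)
noncomputable def n1301 : Strat := .move 801 n1293 (.cons 803 n1295 (.cons 757 n1300 .nil))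
noncomputable def n1302 : Strat := .move 797 n1171 (.cons 796 n1301 .nil)
noncomputable def n1303 : Strat := .move 798 n1292 (.cons 796 n1184 (.cons 797 n1298 (.cons 842 n1302 .nil)))
noncomputable def n1304 : Strat := .move 758 n34 (.cons 717 n1303 .nil)
noncomputable def n1305 : Strat := .move 923 n759 (.cons 964 n1264 .nil)
noncomputable def n1306 : Strat := .move 799 n805 (.cons 923 n1304 (.cons 717 n1267 (.cons 758 n1305 .nil)))
noncomputable def n1307 : Strat := .move 799 n758 (.cons 758 n1283 .nil)
noncomputable def n1308 : Strat := .move 923 n760 (.cons 964 n1307 (.cons 799 n1283 .nil))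
noncomputable def n1309 : Strat := .move 718 n1238 (.cons 842 n697 .nil)
noncomputable def n1310 : Strat := .move 799 n1309 (.cons 677 n1196 .nil)
noncomputable def n1311 : Strat := .move 883 n1200 (.cons 924 n1310 .nil)
noncomputable def n1312 : Strat := .move 760 n784 (.cons 719 n1311 .nil)
noncomputable def n1313 : Strat := .move 758 n928 (.cons 717 n1312 .nil)
noncomputable def n1314 : Strat := .win 799 1 676
noncomputable def n1315 : Strat := .win 801 6 677
noncomputable def n1316 : Strat := .win 883 6 718
noncomputable def n1317 : Strat := .move 842 n1315 (.cons 801 n1316 .nil)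
noncomputable def n1318 : Strat := .move 677 n1314 (.cons 799 n1317 .nil)
noncomputable def n1319 : Strat := .move 718 n921 (.cons 678 n1318 .nil)
noncomputable def n1320 : Strat := .move 719 n922 (.cons 760 n1319 .nil)
noncomputable def n1321 : Strat := .move 758 n928 (.cons 717 n1320 .nil)
noncomputable def n1322 : Strat := .move 718 n920 (.cons 676 n1239 .nil)
noncomputable def n1323 : Strat := .move 717 n919 (.cons 758 n1322 .nil)
noncomputable def n1324 : Strat := .win 803 0 758
noncomputable def n1325 : Strat := .win 801 0 757
noncomputable def n1326 : Strat := .move 802 n1324 (.cons 803 n1325 .nil)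
noncomputable def n1327 : Strat := .move 799 n1195 (.cons 798 n1194 .nil)
noncomputable def n1328 : Strat := .move 761 n1326 (.cons 801 n1327 .nil)
noncomputable def n1329 : Strat := .win 714 2 714
noncomputable def n1330 : Strat := .win 716 2 715
noncomputable def n1331 : Strat := .move 715 n1329 (.cons 714 n1330 .nil)
noncomputable def n1332 : Strat := .move 756 n1189 (.cons 801 n1331 .nil)
noncomputable def n1333 : Strat := .win 796 4 755
noncomputable def n1334 : Strat := .win 798 4 756
noncomputable def n1335 : Strat := .move 797 n1333 (.cons 796 n1334 .nil)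
noncomputable def n1336 : Strat := .move 756 n1331 (.cons 716 n1335 .nil)
noncomputable def n1337 : Strat := .move 757 n1211 (.cons 756 n1328 (.cons 802 n1332 (.cons 801 n1336 .nil)))
noncomputable def n1338 : Strat := .move 758 n928 (.cons 717 n1337 .nil)
noncomputable def n1339 : Strat := .move 760 n784 (.cons 719 n1338 .nil)
noncomputable def n1340 : Strat := .move 759 n1313 (.cons 761 n1252 (.cons 758 n1241 (.cons 924 n1321 (.cons 883 n1323 (.cons 718 n1339 .nil)))))
noncomputable def n1341 : Strat := .move 882 n1237 (.cons 799 n1253 (.cons 759 n1266 (.cons 801 n1276 (.cons 758 n1285 (.cons 842 n1291 (.cons 924 n1306 (.cons 760 n1308 (.cons 923 n1340 .nil))))))))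
noncomputable def n1342 : Strat := .move 882 n922 (.cons 760 n919 .nil)
noncomputable def n1343 : Strat := .move 717 n920 (.cons 676 n1342 .nil)
noncomputable def n1344 : Strat := .move 719 n921 (.cons 678 n1343 .nil)
noncomputable def n1345 : Strat := .move 718 n698 (.cons 881 n1344 .nil)
noncomputable def n1346 : Strat := .move 882 n919 (.cons 758 n1272 .nil)
noncomputable def n1347 : Strat := .move 717 n920 (.cons 676 n1346 .nil)
noncomputable def n1348 : Strat := .move 718 n698 (.cons 881 n1347 .nil)
noncomputable def n1349 : Strat := .move 881 n782 (.cons 922 n1222 .nil)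
noncomputable def n1350 : Strat := .win 1005 7 840
noncomputable def n1351 : Strat := .move 965 n1233 (.cons 1006 n1232 .nil)
noncomputable def n1352 : Strat := .move 964 n1350 (.cons 1005 n1351 .nil)
noncomputable def n1353 : Strat := .move 923 n1218 (.cons 801 n1352 .nil)
noncomputable def n1354 : Strat := .move 760 n784 (.cons 719 n1353 .nil)
noncomputable def n1355 : Strat := .move 881 n782 (.cons 922 n1354 .nil)
noncomputable def n1356 : Strat := .move 881 n782 (.cons 922 n1249 .nil)
noncomputable def n1357 : Strat := .win 842 5 838
noncomputable def n1358 : Strat := .win 878 5 837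
noncomputable def n1359 : Strat := .move 879 n1357 (.cons 842 n1358 .nil)
noncomputable def n1360 : Strat := .win 879 5 838
noncomputable def n1361 : Strat := .move 842 n1360 (.cons 879 n372 .nil)
noncomputable def n1362 : Strat := .win 921 4 879
noncomputable def n1363 : Strat := .move 920 n310 (.cons 919 n1362 .nil)
noncomputable def n1364 : Strat := .move 879 n1358 (.cons 878 n1363 .nil)
noncomputable def n1365 : Strat := .win 842 4 839
noncomputable def n1366 : Strat := .win 844 5 840
noncomputable def n1367 : Strat := .move 884 n1366 (.cons 844 n1278 .nil)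
noncomputable def n1368 : Strat := .move 843 n1365 (.cons 842 n1367 .nil)
noncomputable def n1369 : Strat := .move 880 n1359 (.cons 878 n1361 (.cons 842 n1364 (.cons 879 n1368 .nil)))
noncomputable def n1370 : Strat := .move 883 n1200 (.cons 924 n1369 .nil)
noncomputable def n1371 : Strat := .move 881 n782 (.cons 922 n1370 .nil)
noncomputable def n1372 : Strat := .move 882 n1349 (.cons 883 n1355 (.cons 924 n1356 (.cons 801 n1371 (.cons 881 n1244 .nil))))
noncomputable def n1373 : Strat := .win 882 3 718
noncomputable def n1374 : Strat := .win 677 6 677
noncomputable def n1375 : Strat := .move 801 n476 (.cons 679 n1374 .nil)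
noncomputable def n1376 : Strat := .win 722 4 718
noncomputable def n1377 : Strat := .win 758 4 717
noncomputable def n1378 : Strat := .move 721 n1376 (.cons 722 n1377 .nil)
noncomputable def n1379 : Strat := .move 720 n1375 (.cons 677 n1378 .nil)
noncomputable def n1380 : Strat := .move 760 n1373 (.cons 882 n1379 .nil)
noncomputable def n1381 : Strat := .move 842 n1316 (.cons 883 n1380 .nil)
noncomputable def n1382 : Strat := .move 719 n921 (.cons 678 n1381 .nil)
noncomputable def n1383 : Strat := .win 717 7 676
noncomputable def n1384 : Strat := .win 635 7 635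
noncomputable def n1385 : Strat := .move 676 n1383 (.cons 717 n1384 .nil)
noncomputable def n1386 : Strat := .move 677 n1315 (.cons 801 n1385 .nil)
noncomputable def n1387 : Strat := .move 842 n1316 (.cons 883 n1386 .nil)
noncomputable def n1388 : Strat := .move 718 n1344 (.cons 678 n1347 (.cons 717 n1382 (.cons 882 n1387 .nil)))
noncomputable def n1389 : Strat := .move 718 n698 (.cons 881 n1382 .nil)
noncomputable def n1390 : Strat := .win 761 0 716
noncomputable def n1391 : Strat := .win 715 0 715
noncomputable def n1392 : Strat := .move 716 n1390 (.cons 761 n1391 .nil)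
noncomputable def n1393 : Strat := .move 717 n920 (.cons 676 n1392 .nil)
noncomputable def n1394 : Strat := .move 760 n1373 (.cons 882 n1393 .nil)
noncomputable def n1395 : Strat := .move 719 n921 (.cons 678 n1394 .nil)
noncomputable def n1396 : Strat := .move 718 n698 (.cons 881 n1395 .nil)
noncomputable def n1397 : Strat := .move 718 n698 (.cons 881 n1387 .nil)
noncomputable def n1398 : Strat := .move 759 n1345 (.cons 678 n1348 (.cons 718 n1372 (.cons 881 n1388 (.cons 717 n1389 (.cons 758 n1396 (.cons 882 n1397 .nil))))))
noncomputable def n1399 : Strat := .move 882 n782 (.cons 922 n1199 .nil)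
noncomputable def n1400 : Strat := .move 759 n37 (.cons 718 n1399 .nil)
noncomputable def n1401 : Strat := .move 882 n1199 (.cons 717 n1370 .nil)
noncomputable def n1402 : Strat := .move 759 n37 (.cons 718 n1401 .nil)
noncomputable def n1403 : Strat := .move 799 n40 (.cons 759 n1183 .nil)
noncomputable def n1404 : Strat := .move 922 n39 (.cons 963 n1403 .nil)
noncomputable def n1405 : Strat := .win 798 7 757
noncomputable def n1406 : Strat := .move 757 n43 (.cons 716 n1405 .nil)
noncomputable def n1407 : Strat := .move 758 n869 (.cons 882 n1406 .nil)
noncomputable def n1408 : Strat := .move 923 n870 (.cons 964 n1407 .nil)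
noncomputable def n1409 : Strat := .move 799 n1183 (.cons 962 n1408 (.cons 923 n1185 .nil))
noncomputable def n1410 : Strat := .move 922 n39 (.cons 963 n1409 .nil)
noncomputable def n1411 : Strat := .move 882 n782 (.cons 922 n1370 .nil)
noncomputable def n1412 : Strat := .move 759 n37 (.cons 718 n1411 .nil)
noncomputable def n1413 : Strat := .move 881 n1400 (.cons 882 n1180 (.cons 922 n1402 (.cons 718 n1404 (.cons 759 n1410 (.cons 799 n1412 .nil)))))
noncomputable def n1414 : Strat := .move 881 n782 (.cons 922 n1191 .nil)
noncomputable def n1415 : Strat := .move 758 n34 (.cons 717 n1414 .nil)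
noncomputable def n1416 : Strat := .move 923 n759 (.cons 964 n1218 .nil)
noncomputable def n1417 : Strat := .move 760 n784 (.cons 719 n1416 .nil)
noncomputable def n1418 : Strat := .move 881 n782 (.cons 922 n1417 .nil)
noncomputable def n1419 : Strat := .move 759 n805 (.cons 717 n1267 (.cons 923 n1415 (.cons 758 n1418 .nil)))
noncomputable def n1420 : Strat := .move 759 n782 (.cons 922 n1191 .nil)
noncomputable def n1421 : Strat := .move 880 n652 (.cons 921 n1359 .nil)
noncomputable def n1422 : Strat := .move 881 n1420 (.cons 755 n306 (.cons 922 n1421 .nil))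
noncomputable def n1423 : Strat := .move 758 n34 (.cons 717 n1422 .nil)
noncomputable def n1424 : Strat := .move 881 n305 (.cons 759 n1173 .nil)
noncomputable def n1425 : Strat := .move 922 n903 (.cons 963 n1424 .nil)
noncomputable def n1426 : Strat := .move 923 n759 (.cons 964 n1425 .nil)
noncomputable def n1427 : Strat := .move 799 n1419 (.cons 881 n1267 (.cons 964 n805 (.cons 923 n1423 (.cons 758 n1426 .nil))))
noncomputable def n1428 : Strat := .move 759 n1349 (.cons 883 n1355 (.cons 924 n1356 (.cons 801 n1371 (.cons 881 n1244 .nil))))
noncomputable def n1429 : Strat := .win 881 7 757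
noncomputable def n1430 : Strat := .move 757 n1429 (.cons 881 n270 .nil)
noncomputable def n1431 : Strat := .move 798 n1172 (.cons 796 n1255 (.cons 842 n1430 .nil))
noncomputable def n1432 : Strat := .move 922 n903 (.cons 963 n1431 .nil)
noncomputable def n1433 : Strat := .move 801 n1141 (.cons 760 n1432 .nil)
noncomputable def n1434 : Strat := .move 799 n758 (.cons 758 n1433 .nil)
noncomputable def n1435 : Strat := .move 963 n899 (.cons 922 n898 .nil)
noncomputable def n1436 : Strat := .move 964 n1226 (.cons 842 n1435 .nil)
noncomputable def n1437 : Strat := .move 801 n1141 (.cons 760 n1436 .nil)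
noncomputable def n1438 : Strat := .move 923 n760 (.cons 964 n1434 (.cons 799 n1437 .nil))
noncomputable def n1439 : Strat := .move 881 n1193 (.cons 756 n1199 (.cons 758 n1208 (.cons 923 n1217 (.cons 799 n1222 .nil))))
noncomputable def n1440 : Strat := .win 881 7 716
noncomputable def n1441 : Strat := .win 798 6 675
noncomputable def n1442 : Strat := .win 634 6 634
noncomputable def n1443 : Strat := .move 675 n1441 (.cons 798 n1442 .nil)
noncomputable def n1444 : Strat := .move 716 n1440 (.cons 881 n1443 .nil)
noncomputable def n1445 : Strat := .move 757 n1190 (.cons 801 n1444 .nil)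
noncomputable def n1446 : Strat := .move 799 n362 (.cons 923 n1445 .nil)
noncomputable def n1447 : Strat := .move 758 n928 (.cons 717 n1446 .nil)
noncomputable def n1448 : Strat := .move 881 n1199 (.cons 717 n1370 .nil)
noncomputable def n1449 : Strat := .move 716 n1440 (.cons 881 n1212 .nil)
noncomputable def n1450 : Strat := .move 757 n1211 (.cons 756 n1449 .nil)
noncomputable def n1451 : Strat := .move 799 n1196 (.cons 798 n1450 .nil)
noncomputable def n1452 : Strat := .move 760 n784 (.cons 719 n1451 .nil)
noncomputable def n1453 : Strat := .move 758 n928 (.cons 717 n1452 .nil)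
noncomputable def n1454 : Strat := .move 759 n1439 (.cons 758 n1244 (.cons 760 n1447 (.cons 801 n1448 (.cons 923 n1453 .nil))))
noncomputable def n1455 : Strat := .win 799 6 758
noncomputable def n1456 : Strat := .move 760 n1218 (.cons 801 n784 .nil)
noncomputable def n1457 : Strat := .move 923 n1455 (.cons 799 n1456 .nil)
noncomputable def n1458 : Strat := .move 758 n928 (.cons 717 n1457 .nil)
noncomputable def n1459 : Strat := .move 881 n782 (.cons 922 n1458 .nil)
noncomputable def n1460 : Strat := .move 881 n782 (.cons 922 n1208 .nil)
noncomputable def n1461 : Strat := .move 881 n782 (.cons 922 n1199 .nil)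
noncomputable def n1462 : Strat := .move 923 n927 (.cons 799 n1286 .nil)
noncomputable def n1463 : Strat := .move 758 n928 (.cons 717 n1462 .nil)
noncomputable def n1464 : Strat := .move 923 n1455 (.cons 799 n1220 .nil)
noncomputable def n1465 : Strat := .move 758 n928 (.cons 717 n1464 .nil)
noncomputable def n1466 : Strat := .move 881 n782 (.cons 922 n1465 .nil)
noncomputable def n1467 : Strat := .win 799 1 757
noncomputable def n1468 : Strat := .move 921 n1467 (.cons 799 n386 .nil)
noncomputable def n1469 : Strat := .move 880 n1359 (.cons 878 n1361 (.cons 842 n1468 .nil))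
noncomputable def n1470 : Strat := .move 758 n928 (.cons 717 n1469 .nil)
noncomputable def n1471 : Strat := .move 883 n1200 (.cons 924 n1470 .nil)
noncomputable def n1472 : Strat := .move 881 n782 (.cons 922 n1471 .nil)
noncomputable def n1473 : Strat := .move 759 n1459 (.cons 758 n1460 (.cons 801 n1461 (.cons 881 n1463 (.cons 760 n1466 (.cons 923 n1472 (.cons 799 n1349 .nil))))))
noncomputable def n1474 : Strat := .move 756 n1189 (.cons 801 n1188 .nil)
noncomputable def n1475 : Strat := .move 757 n43 (.cons 716 n1474 .nil)
noncomputable def n1476 : Strat := .move 759 n782 (.cons 922 n1475 .nil)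
noncomputable def n1477 : Strat := .move 881 n1476 (.cons 922 n1421 .nil)
noncomputable def n1478 : Strat := .move 758 n34 (.cons 717 n1477 .nil)
noncomputable def n1479 : Strat := .move 923 n758 (.cons 758 n1425 .nil)
noncomputable def n1480 : Strat := .move 843 n15 (.cons 798 n530 .nil)
noncomputable def n1481 : Strat := .move 798 n1142 (.cons 797 n134 .nil)
noncomputable def n1482 : Strat := .move 922 n305 (.cons 759 n39 .nil)
noncomputable def n1483 : Strat := .move 881 n17 (.cons 880 n1482 .nil)
noncomputable def n1484 : Strat := .move 843 n530 (.cons 844 n1483 .nil)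
noncomputable def n1485 : Strat := .move 881 n138 (.cons 757 n305 .nil)
noncomputable def n1486 : Strat := .move 922 n903 (.cons 963 n1485 .nil)
noncomputable def n1487 : Strat := .move 759 n1456 (.cons 719 n1220 .nil)
noncomputable def n1488 : Strat := .move 801 n270 (.cons 756 n1141 .nil)
noncomputable def n1489 : Strat := .move 922 n1429 (.cons 881 n903 .nil)
noncomputable def n1490 : Strat := .move 757 n1488 (.cons 760 n1489 .nil)
noncomputable def n1491 : Strat := .move 923 n1486 (.cons 922 n1487 (.cons 759 n1490 .nil))
noncomputable def n1492 : Strat := .move 798 n1142 (.cons 797 n1491 .nil)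
noncomputable def n1493 : Strat := .move 842 n1480 (.cons 844 n1481 (.cons 798 n1484 (.cons 843 n1492 .nil)))
noncomputable def n1494 : Strat := .move 799 n805 (.cons 923 n1478 (.cons 717 n1479 (.cons 758 n1493 .nil)))
noncomputable def n1495 : Strat := .move 881 n306 (.cons 759 n1421 .nil)
noncomputable def n1496 : Strat := .move 758 n34 (.cons 717 n1495 .nil)
noncomputable def n1497 : Strat := .move 799 n1267 (.cons 923 n1496 (.cons 758 n1426 .nil))
noncomputable def n1498 : Strat := .move 921 n144 (.cons 962 n143 .nil)
noncomputable def n1499 : Strat := .move 922 n39 (.cons 963 n1498 .nil)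
noncomputable def n1500 : Strat := .win 759 0 756
noncomputable def n1501 : Strat := .move 756 n1500 (.cons 759 n1188 .nil)
noncomputable def n1502 : Strat := .move 801 n1294 (.cons 802 n1501 .nil)
noncomputable def n1503 : Strat := .move 757 n43 (.cons 716 n1502 .nil)
noncomputable def n1504 : Strat := .move 881 n306 (.cons 759 n1499 (.cons 922 n1503 .nil))
noncomputable def n1505 : Strat := .move 758 n34 (.cons 717 n1504 .nil)
noncomputable def n1506 : Strat := .win 884 4 880
noncomputable def n1507 : Strat := .win 920 5 879
noncomputable def n1508 : Strat := .move 883 n1506 (.cons 884 n1507 .nil)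
noncomputable def n1509 : Strat := .move 921 n144 (.cons 962 n1508 .nil)
noncomputable def n1510 : Strat := .move 881 n305 (.cons 759 n1509 .nil)
noncomputable def n1511 : Strat := .move 922 n903 (.cons 963 n1510 .nil)
noncomputable def n1512 : Strat := .move 923 n759 (.cons 964 n1511 .nil)
noncomputable def n1513 : Strat := .move 799 n1267 (.cons 964 n805 (.cons 923 n1505 (.cons 758 n1512 .nil)))
noncomputable def n1514 : Strat := .move 799 n759 (.cons 964 n1425 .nil)
noncomputable def n1515 : Strat := .move 801 n1226 (.cons 842 n1141 .nil)
noncomputable def n1516 : Strat := .move 964 n1350 (.cons 1005 n1515 .nil)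
noncomputable def n1517 : Strat := .move 881 n305 (.cons 759 n1516 .nil)
noncomputable def n1518 : Strat := .move 922 n903 (.cons 963 n1517 .nil)
noncomputable def n1519 : Strat := .win 961 4 920
noncomputable def n1520 : Strat := .win 799 1 798
noncomputable def n1521 : Strat := .move 962 n1519 (.cons 961 n1520 .nil)
noncomputable def n1522 : Strat := .move 921 n1508 (.cons 920 n1521 .nil)
noncomputable def n1523 : Strat := .move 924 n755 (.cons 965 n1522 .nil)
noncomputable def n1524 : Strat := .move 881 n305 (.cons 759 n1523 .nil)
noncomputable def n1525 : Strat := .move 922 n903 (.cons 963 n1524 .nil)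
noncomputable def n1526 : Strat := .move 923 n1514 (.cons 922 n1228 (.cons 799 n1518 (.cons 964 n1525 .nil)))
noncomputable def n1527 : Strat := .move 759 n782 (.cons 922 n1217 .nil)
noncomputable def n1528 : Strat := .move 758 n34 (.cons 717 n1181 .nil)
noncomputable def n1529 : Strat := .move 799 n1173 (.cons 796 n1528 .nil)
noncomputable def n1530 : Strat := .move 922 n39 (.cons 963 n1529 .nil)
noncomputable def n1531 : Strat := .move 759 n1217 (.cons 717 n1370 .nil)
noncomputable def n1532 : Strat := .move 881 n1527 (.cons 759 n1530 (.cons 717 n306 (.cons 922 n1531 .nil)))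
noncomputable def n1533 : Strat := .move 923 n760 (.cons 799 n1236 (.cons 964 n1231 .nil))
noncomputable def n1534 : Strat := .move 882 n1427 (.cons 799 n1428 (.cons 759 n1438 (.cons 922 n1454 (.cons 757 n1473 (.cons 964 n1494 (.cons 801 n1497 (.cons 842 n1513 (.cons 758 n1526 (.cons 923 n1532 (.cons 881 n1533 .nil))))))))))
noncomputable def n1535 : Strat := .move 881 n37 (.cons 718 n1223 .nil)
noncomputable def n1536 : Strat := .win 719 3 677
noncomputable def n1537 : Strat := .win 637 3 636
noncomputable def n1538 : Strat := .move 678 n1536 (.cons 719 n1537 .nil)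
noncomputable def n1539 : Strat := .move 677 n1314 (.cons 799 n1538 .nil)
noncomputable def n1540 : Strat := .move 677 n1314 (.cons 799 n1385 .nil)
noncomputable def n1541 : Strat := .move 718 n1539 (.cons 799 n1344 (.cons 719 n1540 .nil))
noncomputable def n1542 : Strat := .move 718 n698 (.cons 881 n1540 .nil)
noncomputable def n1543 : Strat := .move 718 n698 (.cons 881 n1539 .nil)
noncomputable def n1544 : Strat := .move 882 n1439 (.cons 758 n1244 (.cons 760 n1447 (.cons 801 n1448 (.cons 923 n1453 .nil))))
noncomputable def n1545 : Strat := .move 759 n1535 (.cons 881 n1541 (.cons 799 n1345 (.cons 719 n1542 (.cons 717 n1543 (.cons 718 n1544 .nil)))))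
noncomputable def n1546 : Strat := .move 718 n698 (.cons 881 n697 .nil)
noncomputable def n1547 : Strat := .move 842 n1316 (.cons 883 n1481 .nil)
noncomputable def n1548 : Strat := .move 718 n697 (.cons 677 n1547 .nil)
noncomputable def n1549 : Strat := .move 718 n698 (.cons 881 n1547 .nil)
noncomputable def n1550 : Strat := .win 881 3 758
noncomputable def n1551 : Strat := .move 923 n759 (.cons 964 n903 .nil)
noncomputable def n1552 : Strat := .move 923 n1218 (.cons 801 n759 .nil)
noncomputable def n1553 : Strat := .move 760 n784 (.cons 719 n1552 .nil)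
noncomputable def n1554 : Strat := .win 797 5 756
noncomputable def n1555 : Strat := .win 801 5 757
noncomputable def n1556 : Strat := .move 761 n1555 (.cons 801 n1194 .nil)
noncomputable def n1557 : Strat := .move 798 n1554 (.cons 797 n1556 .nil)
noncomputable def n1558 : Strat := .move 760 n784 (.cons 719 n1557 .nil)
noncomputable def n1559 : Strat := .move 882 n1551 (.cons 963 n1553 (.cons 923 n1558 .nil))
noncomputable def n1560 : Strat := .move 922 n1550 (.cons 881 n1559 .nil)
noncomputable def n1561 : Strat := .move 799 n1546 (.cons 881 n1548 (.cons 677 n1549 (.cons 718 n1560 .nil)))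
noncomputable def n1562 : Strat := .move 799 n697 (.cons 677 n1547 .nil)
noncomputable def n1563 : Strat := .move 718 n1562 (.cons 799 n1395 .nil)
noncomputable def n1564 : Strat := .move 842 n1316 (.cons 883 n1315 .nil)
noncomputable def n1565 : Strat := .move 677 n1314 (.cons 799 n1564 .nil)
noncomputable def n1566 : Strat := .move 718 n698 (.cons 881 n1565 .nil)
noncomputable def n1567 : Strat := .move 964 n1350 (.cons 1005 n897 .nil)
noncomputable def n1568 : Strat := .move 923 n1218 (.cons 801 n1567 .nil)
noncomputable def n1569 : Strat := .move 760 n784 (.cons 719 n1568 .nil)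
noncomputable def n1570 : Strat := .move 881 n782 (.cons 922 n1569 .nil)
noncomputable def n1571 : Strat := .move 923 n755 (.cons 965 n1567 .nil)
noncomputable def n1572 : Strat := .move 924 n1219 (.cons 883 n1571 .nil)
noncomputable def n1573 : Strat := .move 881 n782 (.cons 922 n1572 .nil)
noncomputable def n1574 : Strat := .move 882 n1460 (.cons 922 n1244 (.cons 883 n1570 (.cons 801 n1573 (.cons 923 n1371 .nil))))
noncomputable def n1575 : Strat := .move 759 n1561 (.cons 881 n1563 (.cons 799 n1396 (.cons 719 n1566 (.cons 718 n1574 .nil))))
noncomputable def n1576 : Strat := .move 718 n1539 (.cons 719 n1540 (.cons 799 n1344 .nil))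
noncomputable def n1577 : Strat := .move 881 n37 (.cons 718 n1167 .nil)
noncomputable def n1578 : Strat := .move 882 n782 (.cons 922 n1217 .nil)
noncomputable def n1579 : Strat := .move 882 n1217 (.cons 717 n1370 .nil)
noncomputable def n1580 : Strat := .move 881 n1578 (.cons 882 n1179 (.cons 799 n1167 (.cons 922 n1579 .nil)))
noncomputable def n1581 : Strat := .move 759 n1543 (.cons 881 n1576 (.cons 677 n1577 (.cons 718 n1580 .nil)))
noncomputable def n1582 : Strat := .move 759 n37 (.cons 718 n1027 .nil)
noncomputable def n1583 : Strat := .move 922 n39 (.cons 963 n1582 .nil)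
noncomputable def n1584 : Strat := .move 759 n1027 (.cons 882 n1178 .nil)
noncomputable def n1585 : Strat := .move 922 n39 (.cons 963 n1584 .nil)
noncomputable def n1586 : Strat := .move 922 n1027 (.cons 882 n1178 .nil)
noncomputable def n1587 : Strat := .move 759 n37 (.cons 718 n1586 .nil)
noncomputable def n1588 : Strat := .win 883 5 879
noncomputable def n1589 : Strat := .win 919 5 878
noncomputable def n1590 : Strat := .move 920 n1588 (.cons 883 n1589 .nil)
noncomputable def n1591 : Strat := .move 921 n144 (.cons 962 n1590 .nil)
noncomputable def n1592 : Strat := .move 882 n1169 (.cons 758 n1591 .nil)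
noncomputable def n1593 : Strat := .move 923 n870 (.cons 964 n1592 .nil)
noncomputable def n1594 : Strat := .move 799 n1175 (.cons 758 n1185 (.cons 842 n1593 .nil))
noncomputable def n1595 : Strat := .move 922 n39 (.cons 963 n1594 .nil)
noncomputable def n1596 : Strat := .move 799 n1169 (.cons 758 n759 .nil)
noncomputable def n1597 : Strat := .move 964 n897 (.cons 799 n1350 .nil)
noncomputable def n1598 : Strat := .move 923 n1596 (.cons 758 n1597 (.cons 799 n1242 .nil))
noncomputable def n1599 : Strat := .move 923 n1596 (.cons 758 n1597 (.cons 799 n1286 .nil))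
noncomputable def n1600 : Strat := .move 882 n1598 (.cons 758 n1208 (.cons 1005 n1222 (.cons 923 n1370 (.cons 883 n1599 .nil))))
noncomputable def n1601 : Strat := .move 759 n37 (.cons 718 n1600 .nil)
noncomputable def n1602 : Strat := .move 881 n1583 (.cons 718 n1585 (.cons 963 n1587 (.cons 882 n1180 (.cons 759 n1595 (.cons 922 n1601 .nil)))))
noncomputable def n1603 : Strat := .move 882 n1193 (.cons 756 n1199 (.cons 758 n1569 (.cons 923 n1217 (.cons 799 n1354 .nil))))
noncomputable def n1604 : Strat := .move 759 n37 (.cons 718 n1603 .nil)
noncomputable def n1605 : Strat := .move 881 n1583 (.cons 718 n1585 (.cons 963 n1587 (.cons 882 n1180 (.cons 922 n1604 (.cons 759 n1187 .nil)))))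
noncomputable def n1606 : Strat := .move 882 n782 (.cons 922 n1193 .nil)
noncomputable def n1607 : Strat := .move 759 n37 (.cons 718 n1606 .nil)
noncomputable def n1608 : Strat := .move 799 n1183 (.cons 923 n1185 .nil)
noncomputable def n1609 : Strat := .move 922 n39 (.cons 963 n1608 .nil)
noncomputable def n1610 : Strat := .move 882 n1193 (.cons 717 n1370 .nil)
noncomputable def n1611 : Strat := .move 759 n37 (.cons 718 n1610 .nil)
noncomputable def n1612 : Strat := .move 881 n1607 (.cons 882 n1180 (.cons 799 n1168 (.cons 718 n1404 (.cons 759 n1609 (.cons 922 n1611 .nil)))))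
noncomputable def n1613 : Strat := .move 799 n1185 (.cons 843 n1183 .nil)
noncomputable def n1614 : Strat := .move 922 n39 (.cons 963 n1613 .nil)
noncomputable def n1615 : Strat := .move 882 n1193 (.cons 756 n1199 (.cons 758 n1569 (.cons 799 n1249 (.cons 923 n1217 .nil))))
noncomputable def n1616 : Strat := .move 759 n37 (.cons 718 n1615 .nil)
noncomputable def n1617 : Strat := .move 881 n1168 (.cons 718 n1585 (.cons 963 n1587 (.cons 882 n1180 (.cons 759 n1614 (.cons 922 n1616 .nil)))))
noncomputable def n1618 : Strat := .move 881 n37 (.cons 718 n1179 .nil)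
noncomputable def n1619 : Strat := .move 881 n782 (.cons 922 n1217 .nil)
noncomputable def n1620 : Strat := .move 882 n1459 (.cons 881 n1463 (.cons 801 n1461 (.cons 758 n1349 (.cons 760 n1466 (.cons 923 n1619 .nil)))))
noncomputable def n1621 : Strat := .move 759 n1577 (.cons 882 n1618 (.cons 881 n1541 (.cons 718 n1620 .nil)))
noncomputable def n1622 : Strat := .move 882 n34 (.cons 717 n362 .nil)
noncomputable def n1623 : Strat := .win 798 2 756
noncomputable def n1624 : Strat := .move 801 n1623 (.cons 798 n1294 .nil)
noncomputable def n1625 : Strat := .move 756 n1188 (.cons 755 n1624 .nil)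
noncomputable def n1626 : Strat := .move 757 n1440 (.cons 881 n1625 .nil)
noncomputable def n1627 : Strat := .move 716 n864 (.cons 675 n1626 .nil)
noncomputable def n1628 : Strat := .move 717 n493 (.cons 676 n1627 .nil)
noncomputable def n1629 : Strat := .move 801 n270 (.cons 756 n1294 .nil)
noncomputable def n1630 : Strat := .win 801 2 756
noncomputable def n1631 : Strat := .move 756 n1630 (.cons 801 n1188 .nil)
noncomputable def n1632 : Strat := .move 716 n271 (.cons 675 n1440 .nil)
noncomputable def n1633 : Strat := .move 757 n1629 (.cons 802 n1631 (.cons 756 n1632 .nil))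
noncomputable def n1634 : Strat := .move 798 n1142 (.cons 797 n1633 .nil)
noncomputable def n1635 : Strat := .move 881 n17 (.cons 880 n43 .nil)
noncomputable def n1636 : Strat := .move 802 n32 (.cons 803 n42 .nil)
noncomputable def n1637 : Strat := .move 757 n1635 (.cons 716 n1636 .nil)
noncomputable def n1638 : Strat := .move 843 n530 (.cons 844 n1637 .nil)
noncomputable def n1639 : Strat := .move 842 n1480 (.cons 844 n1481 (.cons 843 n1634 (.cons 798 n1638 .nil)))
noncomputable def n1640 : Strat := .move 882 n362 (.cons 923 n1639 .nil)
noncomputable def n1641 : Strat := .move 758 n1622 (.cons 882 n1628 (.cons 717 n1640 .nil))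
noncomputable def n1642 : Strat := .win 879 3 715
noncomputable def n1643 : Strat := .move 838 n1642 (.cons 879 n191 .nil)
noncomputable def n1644 : Strat := .move 716 n271 (.cons 675 n1643 .nil)
noncomputable def n1645 : Strat := .move 757 n1630 (.cons 801 n1644 .nil)
noncomputable def n1646 : Strat := .move 756 n192 (.cons 755 n1645 .nil)
noncomputable def n1647 : Strat := .move 797 n1171 (.cons 796 n1646 .nil)
noncomputable def n1648 : Strat := .move 719 n475 (.cons 882 n577 .nil)
noncomputable def n1649 : Strat := .move 760 n576 (.cons 761 n1648 .nil)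
noncomputable def n1650 : Strat := .move 842 n269 (.cons 843 n1649 .nil)
noncomputable def n1651 : Strat := .move 882 n107 (.cons 719 n1245 .nil)
noncomputable def n1652 : Strat := .move 760 n576 (.cons 761 n1651 .nil)
noncomputable def n1653 : Strat := .move 842 n269 (.cons 843 n1652 .nil)
noncomputable def n1654 : Strat := .win 760 5 757
noncomputable def n1655 : Strat := .move 761 n532 (.cons 762 n1654 .nil)
noncomputable def n1656 : Strat := .move 802 n1260 (.cons 803 n1655 .nil)
noncomputable def n1657 : Strat := .move 842 n269 (.cons 843 n1656 .nil)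
noncomputable def n1658 : Strat := .move 761 n1654 (.cons 760 n532 .nil)
noncomputable def n1659 : Strat := .move 802 n1260 (.cons 803 n1658 .nil)
noncomputable def n1660 : Strat := .move 802 n1260 (.cons 803 n491 .nil)
noncomputable def n1661 : Strat := .move 843 n1259 (.cons 842 n1660 .nil)
noncomputable def n1662 : Strat := .move 801 n1650 (.cons 678 n1653 (.cons 719 n1657 (.cons 842 n1659 (.cons 760 n1661 .nil))))
noncomputable def n1663 : Strat := .move 798 n1184 (.cons 842 n1647 (.cons 797 n1662 .nil))
noncomputable def n1664 : Strat := .win 719 4 715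
noncomputable def n1665 : Strat := .move 756 n1664 (.cons 719 n1188 .nil)
noncomputable def n1666 : Strat := .move 718 n863 (.cons 677 n1665 .nil)
noncomputable def n1667 : Strat := .move 757 n1440 (.cons 881 n1666 .nil)
noncomputable def n1668 : Strat := .move 716 n864 (.cons 675 n1667 .nil)
noncomputable def n1669 : Strat := .move 717 n493 (.cons 676 n1668 .nil)
noncomputable def n1670 : Strat := .move 882 n33 (.cons 923 n1421 .nil)
noncomputable def n1671 : Strat := .move 880 n652 (.cons 921 n1361 .nil)
noncomputable def n1672 : Strat := .move 882 n33 (.cons 923 n1671 .nil)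
noncomputable def n1673 : Strat := .move 882 n33 (.cons 923 n1499 .nil)
noncomputable def n1674 : Strat := .move 922 n39 (.cons 963 n1181 .nil)
noncomputable def n1675 : Strat := .move 922 n39 (.cons 963 n870 .nil)
noncomputable def n1676 : Strat := .move 923 n869 (.cons 882 n1675 .nil)
noncomputable def n1677 : Strat := .move 881 n1670 (.cons 878 n1672 (.cons 879 n1673 (.cons 882 n1674 (.cons 880 n1676 .nil))))
noncomputable def n1678 : Strat := .move 758 n1622 (.cons 882 n1669 (.cons 717 n1677 .nil))
noncomputable def n1679 : Strat := .move 756 n1623 (.cons 798 n1188 .nil)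
noncomputable def n1680 : Strat := .move 801 n1294 (.cons 802 n1679 .nil)
noncomputable def n1681 : Strat := .move 757 n43 (.cons 716 n1680 .nil)
noncomputable def n1682 : Strat := .move 881 n1499 (.cons 922 n1681 .nil)
noncomputable def n1683 : Strat := .move 882 n362 (.cons 923 n1682 .nil)
noncomputable def n1684 : Strat := .move 758 n1622 (.cons 882 n1628 (.cons 717 n1683 .nil))
noncomputable def n1685 : Strat := .win 758 2 757
noncomputable def n1686 : Strat := .move 757 n1685 (.cons 758 n270 .nil)
noncomputable def n1687 : Strat := .move 802 n1260 (.cons 803 n1686 .nil)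
noncomputable def n1688 : Strat := .win 758 7 716
noncomputable def n1689 : Strat := .move 716 n1688 (.cons 758 n271 .nil)
noncomputable def n1690 : Strat := .move 881 n141 (.cons 922 n1689 .nil)
noncomputable def n1691 : Strat := .move 757 n270 (.cons 756 n1690 .nil)
noncomputable def n1692 : Strat := .move 801 n1687 (.cons 756 n1656 (.cons 802 n1691 .nil))
noncomputable def n1693 : Strat := .move 842 n134 (.cons 843 n1692 .nil)
noncomputable def n1694 : Strat := .move 798 n1184 (.cons 842 n1647 (.cons 797 n1693 .nil))
noncomputable def n1695 : Strat := .move 801 n1296 (.cons 761 n1293 .nil)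
noncomputable def n1696 : Strat := .move 758 n34 (.cons 717 n1695 .nil)
noncomputable def n1697 : Strat := .move 922 n903 (.cons 963 n1429 .nil)
noncomputable def n1698 : Strat := .move 801 n1141 (.cons 760 n270 .nil)
noncomputable def n1699 : Strat := .move 757 n1697 (.cons 881 n1698 .nil)
noncomputable def n1700 : Strat := .move 923 n759 (.cons 964 n1699 .nil)
noncomputable def n1701 : Strat := .move 882 n1267 (.cons 964 n805 (.cons 923 n1696 (.cons 758 n1700 .nil)))
noncomputable def n1702 : Strat := .move 798 n1142 (.cons 797 n1701 .nil)
noncomputable def n1703 : Strat := .move 883 n121 (.cons 924 n122 .nil)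
noncomputable def n1704 : Strat := .win 721 3 720
noncomputable def n1705 : Strat := .win 801 5 758
noncomputable def n1706 : Strat := .move 762 n1704 (.cons 721 n1705 .nil)
noncomputable def n1707 : Strat := .move 761 n1703 (.cons 720 n1706 .nil)
noncomputable def n1708 : Strat := .move 884 n92 (.cons 885 n1707 .nil)
noncomputable def n1709 : Strat := .move 802 n32 (.cons 803 n1708 .nil)
noncomputable def n1710 : Strat := .move 843 n530 (.cons 844 n1709 .nil)
noncomputable def n1711 : Strat := .move 842 n1480 (.cons 844 n1481 (.cons 843 n1702 (.cons 798 n1710 .nil)))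
noncomputable def n1712 : Strat := .move 880 n1360 (.cons 879 n652 .nil)
noncomputable def n1713 : Strat := .move 922 n138 (.cons 757 n39 .nil)
noncomputable def n1714 : Strat := .move 881 n1712 (.cons 921 n1713 .nil)
noncomputable def n1715 : Strat := .move 798 n1142 (.cons 797 n1714 .nil)
noncomputable def n1716 : Strat := .move 842 n1480 (.cons 844 n1481 (.cons 843 n1715 (.cons 798 n1638 .nil)))
noncomputable def n1717 : Strat := .move 758 n34 (.cons 717 n1716 .nil)
noncomputable def n1718 : Strat := .win 881 1 798
noncomputable def n1719 : Strat := .move 962 n1519 (.cons 961 n1718 .nil)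
noncomputable def n1720 : Strat := .win 884 5 880
noncomputable def n1721 : Strat := .move 883 n1720 (.cons 884 n1507 .nil)
noncomputable def n1722 : Strat := .move 921 n1719 (.cons 881 n1721 .nil)
noncomputable def n1723 : Strat := .move 924 n755 (.cons 965 n1722 .nil)
noncomputable def n1724 : Strat := .move 922 n903 (.cons 963 n1723 .nil)
noncomputable def n1725 : Strat := .move 923 n759 (.cons 964 n1724 .nil)
noncomputable def n1726 : Strat := .move 882 n1267 (.cons 964 n805 (.cons 923 n1717 (.cons 758 n1725 .nil)))
noncomputable def n1727 : Strat := .move 720 n534 (.cons 883 n533 .nil)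
noncomputable def n1728 : Strat := .move 761 n532 (.cons 762 n1727 .nil)
noncomputable def n1729 : Strat := .move 842 n965 (.cons 798 n1728 .nil)
noncomputable def n1730 : Strat := .move 843 n491 (.cons 844 n1729 .nil)
noncomputable def n1731 : Strat := .move 802 n1260 (.cons 803 n1730 .nil)
noncomputable def n1732 : Strat := .move 843 n965 (.cons 798 n530 .nil)
noncomputable def n1733 : Strat := .move 798 n1142 (.cons 797 n269 .nil)
noncomputable def n1734 : Strat := .move 923 n758 (.cons 758 n836 .nil)
noncomputable def n1735 : Strat := .move 798 n576 (.cons 761 n1142 .nil)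
noncomputable def n1736 : Strat := .move 760 n107 (.cons 719 n1735 .nil)
noncomputable def n1737 : Strat := .move 882 n1734 (.cons 923 n1736 .nil)
noncomputable def n1738 : Strat := .move 882 n836 (.cons 964 n1169 .nil)
noncomputable def n1739 : Strat := .move 882 n1141 (.cons 760 n836 .nil)
noncomputable def n1740 : Strat := .move 882 n1141 (.cons 760 n1169 .nil)
noncomputable def n1741 : Strat := .move 922 n870 (.cons 964 n39 .nil)
noncomputable def n1742 : Strat := .move 923 n1738 (.cons 758 n1739 (.cons 964 n1740 (.cons 882 n1741 .nil)))
noncomputable def n1743 : Strat := .move 881 n17 (.cons 880 n1742 .nil)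
noncomputable def n1744 : Strat := .move 843 n530 (.cons 844 n1743 .nil)
noncomputable def n1745 : Strat := .move 842 n1732 (.cons 844 n1733 (.cons 843 n1737 (.cons 798 n1744 .nil)))
noncomputable def n1746 : Strat := .win 798 5 757
noncomputable def n1747 : Strat := .win 884 7 719
noncomputable def n1748 : Strat := .move 843 n1747 (.cons 884 n491 .nil)
noncomputable def n1749 : Strat := .move 719 n577 (.cons 678 n1748 .nil)
noncomputable def n1750 : Strat := .move 760 n1746 (.cons 798 n1749 .nil)
noncomputable def n1751 : Strat := .move 761 n532 (.cons 762 n1750 .nil)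
noncomputable def n1752 : Strat := .move 802 n1260 (.cons 803 n1751 .nil)
noncomputable def n1753 : Strat := .win 842 1 718
noncomputable def n1754 : Strat := .move 719 n1753 (.cons 842 n577 .nil)
noncomputable def n1755 : Strat := .move 882 n1245 (.cons 923 n1754 .nil)
noncomputable def n1756 : Strat := .move 760 n1746 (.cons 798 n1755 .nil)
noncomputable def n1757 : Strat := .move 761 n532 (.cons 762 n1756 .nil)
noncomputable def n1758 : Strat := .move 802 n1260 (.cons 803 n1757 .nil)
noncomputable def n1759 : Strat := .move 882 n759 (.cons 964 n758 .nil)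
noncomputable def n1760 : Strat := .move 882 n1141 (.cons 760 n759 .nil)
noncomputable def n1761 : Strat := .move 882 n1141 (.cons 760 n758 .nil)
noncomputable def n1762 : Strat := .move 842 n17 (.cons 880 n965 .nil)
noncomputable def n1763 : Strat := .move 881 n1762 (.cons 798 n1741 .nil)
noncomputable def n1764 : Strat := .move 923 n1759 (.cons 758 n1760 (.cons 964 n1761 (.cons 882 n1763 .nil)))
noncomputable def n1765 : Strat := .move 843 n491 (.cons 844 n1764 .nil)
noncomputable def n1766 : Strat := .move 802 n1260 (.cons 803 n1765 .nil)
noncomputable def n1767 : Strat := .move 802 n1260 (.cons 803 n1728 .nil)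
noncomputable def n1768 : Strat := .move 843 n530 (.cons 844 n1767 .nil)
noncomputable def n1769 : Strat := .win 924 3 760
noncomputable def n1770 : Strat := .win 760 3 719
noncomputable def n1771 : Strat := .move 720 n1770 (.cons 760 n533 .nil)
noncomputable def n1772 : Strat := .move 883 n1769 (.cons 924 n1771 .nil)
noncomputable def n1773 : Strat := .move 761 n532 (.cons 762 n1772 .nil)
noncomputable def n1774 : Strat := .move 802 n1260 (.cons 803 n1773 .nil)
noncomputable def n1775 : Strat := .move 842 n1768 (.cons 843 n1774 (.cons 802 n1744 .nil))
noncomputable def n1776 : Strat := .move 801 n1731 (.cons 802 n1745 (.cons 842 n1752 (.cons 843 n1758 (.cons 761 n1766 (.cons 798 n1775 .nil)))))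
noncomputable def n1777 : Strat := .move 799 n1641 (.cons 758 n1663 (.cons 798 n1678 (.cons 842 n1684 (.cons 882 n1694 (.cons 716 n1711 (.cons 756 n1726 (.cons 757 n1776 .nil)))))))
noncomputable def n1778 : Strat := .move 881 n37 (.cons 718 n36 .nil)
noncomputable def n1779 : Strat := .move 759 n696 (.cons 760 n1778 .nil)
noncomputable def n1780 : Strat := .move 797 n1171 (.cons 796 n1779 .nil)
noncomputable def n1781 : Strat := .win 842 2 798
noncomputable def n1782 : Strat := .move 801 n1660 (.cons 802 n1691 .nil)
noncomputable def n1783 : Strat := .move 843 n1781 (.cons 842 n1782 .nil)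
noncomputable def n1784 : Strat := .move 798 n1292 (.cons 842 n1780 (.cons 796 n1184 (.cons 797 n1783 .nil)))
noncomputable def n1785 : Strat := .move 759 n37 (.cons 718 n36 .nil)
noncomputable def n1786 : Strat := .move 881 n17 (.cons 880 n1785 .nil)
noncomputable def n1787 : Strat := .move 843 n530 (.cons 844 n1786 .nil)
noncomputable def n1788 : Strat := .move 843 n17 (.cons 880 n1785 .nil)
noncomputable def n1789 : Strat := .move 843 n17 (.cons 880 n41 .nil)
noncomputable def n1790 : Strat := .move 921 n144 (.cons 962 n387 .nil)
noncomputable def n1791 : Strat := .move 880 n372 (.cons 843 n1790 .nil)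
noncomputable def n1792 : Strat := .move 922 n39 (.cons 963 n1791 .nil)
noncomputable def n1793 : Strat := .win 759 1 717
noncomputable def n1794 : Strat := .move 717 n863 (.cons 677 n493 .nil)
noncomputable def n1795 : Strat := .move 758 n652 (.cons 921 n1794 .nil)
noncomputable def n1796 : Strat := .move 880 n372 (.cons 843 n1795 .nil)
noncomputable def n1797 : Strat := .move 718 n1793 (.cons 759 n1796 .nil)
noncomputable def n1798 : Strat := .move 881 n1788 (.cons 718 n1789 (.cons 843 n1785 (.cons 759 n1792 (.cons 922 n1797 .nil))))
noncomputable def n1799 : Strat := .move 717 n493 (.cons 676 n866 .nil)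
noncomputable def n1800 : Strat := .move 758 n1799 (.cons 675 n1499 .nil)
noncomputable def n1801 : Strat := .move 759 n37 (.cons 718 n1475 .nil)
noncomputable def n1802 : Strat := .move 759 n37 (.cons 718 n1799 .nil)
noncomputable def n1803 : Strat := .move 718 n1793 (.cons 759 n1794 .nil)
noncomputable def n1804 : Strat := .move 758 n1801 (.cons 755 n1802 (.cons 759 n1799 (.cons 757 n1803 .nil)))
noncomputable def n1805 : Strat := .move 881 n1785 (.cons 718 n41 (.cons 759 n1800 (.cons 922 n1804 .nil)))
noncomputable def n1806 : Strat := .move 842 n1787 (.cons 759 n1710 (.cons 844 n1798 (.cons 843 n1805 .nil)))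
noncomputable def n1807 : Strat := .move 797 n1171 (.cons 796 n696 .nil)
noncomputable def n1808 : Strat := .move 716 n271 (.cons 675 n1688 .nil)
noncomputable def n1809 : Strat := .move 757 n270 (.cons 756 n1808 .nil)
noncomputable def n1810 : Strat := .move 802 n532 (.cons 762 n1260 .nil)
noncomputable def n1811 : Strat := .move 761 n1654 (.cons 760 n1810 .nil)
noncomputable def n1812 : Strat := .move 801 n1809 (.cons 757 n1811 .nil)
noncomputable def n1813 : Strat := .move 756 n1630 (.cons 801 n192 .nil)
noncomputable def n1814 : Strat := .move 757 n1813 (.cons 755 n1808 .nil)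
noncomputable def n1815 : Strat := .move 797 n1171 (.cons 796 n1814 .nil)
noncomputable def n1816 : Strat := .move 798 n1807 (.cons 797 n1812 (.cons 760 n1815 .nil))
noncomputable def n1817 : Strat := .move 759 n37 (.cons 718 n1816 .nil)
noncomputable def n1818 : Strat := .move 757 n1405 (.cons 798 n43 .nil)
noncomputable def n1819 : Strat := .move 758 n143 (.cons 880 n1818 .nil)
noncomputable def n1820 : Strat := .move 921 n144 (.cons 962 n1819 .nil)
noncomputable def n1821 : Strat := .move 922 n39 (.cons 963 n1820 .nil)
noncomputable def n1822 : Strat := .move 881 n41 (.cons 922 n1817 (.cons 759 n1821 .nil))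
noncomputable def n1823 : Strat := .move 718 n1316 (.cons 883 n697 .nil)
noncomputable def n1824 : Strat := .move 881 n36 (.cons 922 n37 .nil)
noncomputable def n1825 : Strat := .move 759 n699 (.cons 881 n1823 (.cons 677 n1824 (.cons 718 n1811 .nil)))
noncomputable def n1826 : Strat := .move 842 n269 (.cons 843 n1825 .nil)
noncomputable def n1827 : Strat := .move 759 n697 (.cons 677 n698 .nil)
noncomputable def n1828 : Strat := .move 759 n1316 (.cons 883 n697 .nil)
noncomputable def n1829 : Strat := .move 759 n1316 (.cons 883 n698 .nil)
noncomputable def n1830 : Strat := .move 719 n480 (.cons 677 n577 .nil)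
noncomputable def n1831 : Strat := .move 718 n1827 (.cons 881 n1828 (.cons 677 n1829 (.cons 759 n1830 .nil)))
noncomputable def n1832 : Strat := .move 760 n576 (.cons 761 n1831 .nil)
noncomputable def n1833 : Strat := .move 842 n269 (.cons 843 n1832 .nil)
noncomputable def n1834 : Strat := .move 801 n1826 (.cons 922 n1657 (.cons 762 n1833 (.cons 842 n1659 (.cons 761 n1661 .nil))))
noncomputable def n1835 : Strat := .move 798 n1292 (.cons 842 n1780 (.cons 796 n1184 (.cons 797 n1834 .nil)))
noncomputable def n1836 : Strat := .win 760 0 715
noncomputable def n1837 : Strat := .win 714 0 714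
noncomputable def n1838 : Strat := .move 715 n1836 (.cons 760 n1837 .nil)
noncomputable def n1839 : Strat := .move 716 n864 (.cons 675 n1838 .nil)
noncomputable def n1840 : Strat := .move 759 n698 (.cons 881 n1839 .nil)
noncomputable def n1841 : Strat := .move 718 n863 (.cons 677 n1840 .nil)
noncomputable def n1842 : Strat := .move 717 n493 (.cons 676 n1841 .nil)
noncomputable def n1843 : Strat := .win 756 4 715
noncomputable def n1844 : Strat := .win 720 4 716
noncomputable def n1845 : Strat := .move 757 n1843 (.cons 756 n1844 .nil)
noncomputable def n1846 : Strat := .win 679 5 675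
noncomputable def n1847 : Strat := .win 759 3 677
noncomputable def n1848 : Strat := .move 678 n1846 (.cons 679 n1847 .nil)
noncomputable def n1849 : Strat := .move 719 n1845 (.cons 720 n1848 .nil)
noncomputable def n1850 : Strat := .move 716 n864 (.cons 675 n1849 .nil)
noncomputable def n1851 : Strat := .move 718 n863 (.cons 677 n1850 .nil)
noncomputable def n1852 : Strat := .move 717 n493 (.cons 676 n1851 .nil)
noncomputable def n1853 : Strat := .move 881 n865 (.cons 757 n1499 .nil)
noncomputable def n1854 : Strat := .move 716 n864 (.cons 675 n1853 .nil)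
noncomputable def n1855 : Strat := .move 717 n493 (.cons 676 n1854 .nil)
noncomputable def n1856 : Strat := .move 798 n1170 (.cons 842 n1171 .nil)
noncomputable def n1857 : Strat := .win 760 4 756
noncomputable def n1858 : Strat := .move 798 n1857 (.cons 760 n1170 .nil)
noncomputable def n1859 : Strat := .move 798 n1857 (.cons 760 n1171 .nil)
noncomputable def n1860 : Strat := .move 756 n1333 (.cons 796 n1188 .nil)
noncomputable def n1861 : Strat := .move 797 n1856 (.cons 796 n1858 (.cons 842 n1859 (.cons 798 n1860 .nil)))
noncomputable def n1862 : Strat := .move 757 n43 (.cons 716 n1861 .nil)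
noncomputable def n1863 : Strat := .move 759 n37 (.cons 718 n1862 .nil)
noncomputable def n1864 : Strat := .move 922 n39 (.cons 963 n1406 .nil)
noncomputable def n1865 : Strat := .move 881 n1785 (.cons 718 n41 (.cons 922 n1863 (.cons 759 n1864 .nil)))
noncomputable def n1866 : Strat := .move 717 n493 (.cons 676 n863 .nil)
noncomputable def n1867 : Strat := .move 718 n1793 (.cons 759 n1866 .nil)
noncomputable def n1868 : Strat := .move 881 n1785 (.cons 718 n41 (.cons 759 n1674 (.cons 922 n1867 .nil)))
noncomputable def n1869 : Strat := .move 758 n1842 (.cons 881 n1852 (.cons 759 n1855 (.cons 675 n1865 (.cons 716 n1868 .nil))))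
noncomputable def n1870 : Strat := .move 759 n696 (.cons 760 n1546 .nil)
noncomputable def n1871 : Strat := .move 797 n1171 (.cons 796 n1870 .nil)
noncomputable def n1872 : Strat := .move 801 n1687 (.cons 758 n1656 (.cons 802 n1832 .nil))
noncomputable def n1873 : Strat := .move 842 n134 (.cons 843 n1872 .nil)
noncomputable def n1874 : Strat := .move 798 n1292 (.cons 842 n1871 (.cons 796 n1184 (.cons 797 n1873 .nil)))
noncomputable def n1875 : Strat := .move 759 n697 (.cons 677 n1547 .nil)
noncomputable def n1876 : Strat := .move 760 n1390 (.cons 761 n1391 .nil)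
noncomputable def n1877 : Strat := .win 674 2 674
noncomputable def n1878 : Strat := .win 758 7 675
noncomputable def n1879 : Strat := .move 675 n1877 (.cons 674 n1878 .nil)
noncomputable def n1880 : Strat := .move 716 n1876 (.cons 715 n1879 .nil)
noncomputable def n1881 : Strat := .move 719 n921 (.cons 678 n1880 .nil)
noncomputable def n1882 : Strat := .move 717 n920 (.cons 676 n1881 .nil)
noncomputable def n1883 : Strat := .move 759 n697 (.cons 677 n1882 .nil)
noncomputable def n1884 : Strat := .move 759 n1547 (.cons 883 n1882 .nil)
noncomputable def n1885 : Strat := .move 760 n576 (.cons 761 n1830 .nil)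
noncomputable def n1886 : Strat := .move 801 n1687 (.cons 802 n1885 .nil)
noncomputable def n1887 : Strat := .move 842 n134 (.cons 843 n1886 .nil)
noncomputable def n1888 : Strat := .move 756 n1256 (.cons 757 n192 .nil)
noncomputable def n1889 : Strat := .move 797 n1171 (.cons 796 n1888 .nil)
noncomputable def n1890 : Strat := .move 797 n1171 (.cons 796 n1656 .nil)
noncomputable def n1891 : Strat := .move 801 n1687 (.cons 758 n1889 (.cons 757 n1890 .nil))
noncomputable def n1892 : Strat := .move 798 n1184 (.cons 797 n1887 (.cons 843 n1292 (.cons 842 n1891 .nil)))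
noncomputable def n1893 : Strat := .move 718 n1875 (.cons 883 n1883 (.cons 677 n1884 (.cons 759 n1892 .nil)))
noncomputable def n1894 : Strat := .move 799 n1784 (.cons 798 n1806 (.cons 759 n1694 (.cons 842 n1822 (.cons 758 n1835 (.cons 801 n1869 (.cons 922 n1874 (.cons 881 n1893 .nil)))))))
noncomputable def n1895 : Strat := .move 800 n1225 (.cons 881 n1341 (.cons 799 n1398 (.cons 801 n1413 (.cons 718 n1534 (.cons 922 n1545 (.cons 758 n1575 (.cons 923 n1581 (.cons 717 n1602 (.cons 883 n1605 (.cons 760 n1612 (.cons 924 n1617 (.cons 921 n1621 (.cons 759 n1777 (.cons 882 n1894 .nil))))))))))))))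
noncomputable def n1896 : Strat := .win 884 2 839
noncomputable def n1897 : Strat := .move 839 n105 (.cons 838 n1896 .nil)
noncomputable def n1898 : Strat := .move 883 n1200 (.cons 924 n1897 .nil)
noncomputable def n1899 : Strat := .move 882 n1193 (.cons 756 n1199 (.cons 758 n1898 .nil))
noncomputable def n1900 : Strat := .move 759 n37 (.cons 718 n1899 .nil)
noncomputable def n1901 : Strat := .move 758 n43 (.cons 716 n1181 .nil)
noncomputable def n1902 : Strat := .move 757 n1405 (.cons 798 n1901 .nil)
noncomputable def n1903 : Strat := .move 799 n40 (.cons 759 n1902 .nil)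
noncomputable def n1904 : Strat := .move 922 n39 (.cons 963 n1903 .nil)
noncomputable def n1905 : Strat := .move 717 n150 (.cons 882 n493 .nil)
noncomputable def n1906 : Strat := .move 758 n1181 (.cons 962 n1905 .nil)
noncomputable def n1907 : Strat := .move 797 n1171 (.cons 796 n1906 .nil)
noncomputable def n1908 : Strat := .move 798 n138 (.cons 757 n1907 .nil)
noncomputable def n1909 : Strat := .move 802 n531 (.cons 839 n1260 .nil)
noncomputable def n1910 : Strat := .win 802 4 798
noncomputable def n1911 : Strat := .move 839 n1910 (.cons 802 n356 .nil)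
noncomputable def n1912 : Strat := .win 882 3 759
noncomputable def n1913 : Strat := .move 760 n1912 (.cons 882 n576 .nil)
noncomputable def n1914 : Strat := .move 801 n1909 (.cons 803 n1911 (.cons 839 n1913 .nil))
noncomputable def n1915 : Strat := .move 923 n870 (.cons 964 n1914 .nil)
noncomputable def n1916 : Strat := .move 798 n138 (.cons 757 n1915 .nil)
noncomputable def n1917 : Strat := .move 799 n1183 (.cons 923 n1908 (.cons 882 n1902 (.cons 962 n1408 (.cons 758 n1916 .nil))))
noncomputable def n1918 : Strat := .move 922 n39 (.cons 963 n1917 .nil)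
noncomputable def n1919 : Strat := .move 881 n1583 (.cons 922 n1900 (.cons 882 n1904 (.cons 759 n1918 .nil)))
noncomputable def n1920 : Strat := .move 761 n1195 (.cons 798 n1194 .nil)
noncomputable def n1921 : Strat := .move 760 n784 (.cons 719 n1920 .nil)
noncomputable def n1922 : Strat := .move 882 n362 (.cons 923 n1921 .nil)
noncomputable def n1923 : Strat := .move 718 n697 (.cons 677 n1839 .nil)
noncomputable def n1924 : Strat := .move 717 n493 (.cons 676 n1923 .nil)
noncomputable def n1925 : Strat := .move 758 n494 (.cons 717 n1922 (.cons 882 n1924 .nil))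
noncomputable def n1926 : Strat := .win 716 0 716
noncomputable def n1927 : Strat := .move 717 n1926 (.cons 716 n920 .nil)
noncomputable def n1928 : Strat := .move 761 n1194 (.cons 762 n1927 .nil)
noncomputable def n1929 : Strat := .move 760 n1373 (.cons 882 n1928 .nil)
noncomputable def n1930 : Strat := .move 719 n921 (.cons 678 n1929 .nil)
noncomputable def n1931 : Strat := .move 718 n697 (.cons 677 n1930 .nil)
noncomputable def n1932 : Strat := .move 718 n697 (.cons 677 n1882 .nil)
noncomputable def n1933 : Strat := .move 882 n922 (.cons 760 n996 .nil)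
noncomputable def n1934 : Strat := .move 719 n921 (.cons 678 n1933 .nil)
noncomputable def n1935 : Strat := .move 718 n697 (.cons 677 n1934 .nil)
noncomputable def n1936 : Strat := .win 721 4 717
noncomputable def n1937 : Strat := .win 757 4 716
noncomputable def n1938 : Strat := .move 720 n1936 (.cons 721 n1937 .nil)
noncomputable def n1939 : Strat := .move 719 n921 (.cons 678 n1938 .nil)
noncomputable def n1940 : Strat := .move 758 n150 (.cons 882 n1939 .nil)
noncomputable def n1941 : Strat := .move 717 n920 (.cons 676 n1940 .nil)
noncomputable def n1942 : Strat := .move 718 n697 (.cons 677 n1941 .nil)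
noncomputable def n1943 : Strat := .move 758 n34 (.cons 717 n1921 .nil)
noncomputable def n1944 : Strat := .move 882 n805 (.cons 717 n1267 (.cons 758 n1417 (.cons 923 n1943 .nil)))
noncomputable def n1945 : Strat := .move 923 n759 (.cons 964 n1242 .nil)
noncomputable def n1946 : Strat := .win 758 6 717
noncomputable def n1947 : Strat := .move 718 n697 (.cons 677 n920 .nil)
noncomputable def n1948 : Strat := .move 717 n1946 (.cons 758 n1947 .nil)
noncomputable def n1949 : Strat := .move 882 n805 (.cons 717 n1267 (.cons 758 n1945 (.cons 923 n1948 .nil)))
noncomputable def n1950 : Strat := .move 759 n1925 (.cons 758 n1931 (.cons 882 n1932 (.cons 717 n1935 (.cons 760 n1942 (.cons 718 n1944 (.cons 719 n1949 .nil))))))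
noncomputable def n1951 : Strat := .move 715 n194 (.cons 880 n193 .nil)
noncomputable def n1952 : Strat := .move 756 n192 (.cons 755 n1951 .nil)
noncomputable def n1953 : Strat := .move 839 n155 (.cons 801 n1952 .nil)
noncomputable def n1954 : Strat := .move 838 n191 (.cons 837 n1953 .nil)
noncomputable def n1955 : Strat := .move 797 n1171 (.cons 796 n1954 .nil)
noncomputable def n1956 : Strat := .win 919 1 755
noncomputable def n1957 : Strat := .win 839 4 837
noncomputable def n1958 : Strat := .move 878 n1956 (.cons 919 n1957 .nil)
noncomputable def n1959 : Strat := .move 757 n719 (.cons 716 n184 .nil)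
noncomputable def n1960 : Strat := .move 879 n1958 (.cons 839 n1959 .nil)
noncomputable def n1961 : Strat := .move 756 n192 (.cons 755 n1960 .nil)
noncomputable def n1962 : Strat := .move 838 n191 (.cons 837 n1961 .nil)
noncomputable def n1963 : Strat := .move 797 n1171 (.cons 796 n1962 .nil)
noncomputable def n1964 : Strat := .move 801 n1256 (.cons 757 n1656 .nil)
noncomputable def n1965 : Strat := .move 756 n192 (.cons 755 n1964 .nil)
noncomputable def n1966 : Strat := .move 797 n1171 (.cons 796 n1965 .nil)
noncomputable def n1967 : Strat := .move 839 n356 (.cons 838 n1910 .nil)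
noncomputable def n1968 : Strat := .move 802 n1260 (.cons 803 n531 .nil)
noncomputable def n1969 : Strat := .move 758 n150 (.cons 882 n135 .nil)
noncomputable def n1970 : Strat := .move 758 n136 (.cons 880 n150 .nil)
noncomputable def n1971 : Strat := .move 758 n136 (.cons 880 n135 .nil)
noncomputable def n1972 : Strat := .move 716 n594 (.cons 676 n271 .nil)
noncomputable def n1973 : Strat := .move 717 n1969 (.cons 676 n1970 (.cons 882 n1971 (.cons 758 n1972 .nil)))
noncomputable def n1974 : Strat := .move 757 n270 (.cons 756 n1973 .nil)
noncomputable def n1975 : Strat := .move 839 n356 (.cons 838 n1974 .nil)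
noncomputable def n1976 : Strat := .move 757 n270 (.cons 756 n1685 .nil)
noncomputable def n1977 : Strat := .move 802 n1260 (.cons 803 n1976 .nil)
noncomputable def n1978 : Strat := .move 801 n1967 (.cons 838 n1968 (.cons 802 n1975 (.cons 839 n1977 .nil)))
noncomputable def n1979 : Strat := .win 839 4 797
noncomputable def n1980 : Strat := .move 797 n1171 (.cons 796 n191 .nil)
noncomputable def n1981 : Strat := .move 838 n1979 (.cons 839 n1980 .nil)
noncomputable def n1982 : Strat := .move 801 n1967 (.cons 838 n1968 (.cons 839 n1659 (.cons 802 n1981 .nil)))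
noncomputable def n1983 : Strat := .move 798 n1955 (.cons 801 n1963 (.cons 839 n1966 (.cons 755 n1978 (.cons 756 n1982 .nil))))
noncomputable def n1984 : Strat := .move 882 n1946 (.cons 758 n1239 .nil)
noncomputable def n1985 : Strat := .move 717 n920 (.cons 676 n1984 .nil)
noncomputable def n1986 : Strat := .move 718 n697 (.cons 677 n1985 .nil)
noncomputable def n1987 : Strat := .move 720 n1937 (.cons 757 n1936 .nil)
noncomputable def n1988 : Strat := .move 717 n493 (.cons 676 n1987 .nil)
noncomputable def n1989 : Strat := .win 756 5 715
noncomputable def n1990 : Strat := .win 760 5 716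
noncomputable def n1991 : Strat := .move 720 n1990 (.cons 760 n1936 .nil)
noncomputable def n1992 : Strat := .move 757 n1989 (.cons 756 n1991 .nil)
noncomputable def n1993 : Strat := .move 757 n1844 (.cons 720 n1989 .nil)
noncomputable def n1994 : Strat := .move 717 n493 (.cons 676 n1993 .nil)
noncomputable def n1995 : Strat := .move 801 n1910 (.cons 802 n350 .nil)
noncomputable def n1996 : Strat := .move 717 n136 (.cons 880 n493 .nil)
noncomputable def n1997 : Strat := .move 839 n1995 (.cons 838 n1996 .nil)
noncomputable def n1998 : Strat := .move 758 n1988 (.cons 717 n1992 (.cons 721 n1994 (.cons 757 n1997 .nil)))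
noncomputable def n1999 : Strat := .move 719 n921 (.cons 678 n1998 .nil)
noncomputable def n2000 : Strat := .move 718 n697 (.cons 677 n1999 .nil)
noncomputable def n2001 : Strat := .move 798 n1555 (.cons 801 n1554 .nil)
noncomputable def n2002 : Strat := .move 761 n1194 (.cons 762 n2001 .nil)
noncomputable def n2003 : Strat := .move 760 n1373 (.cons 882 n2002 .nil)
noncomputable def n2004 : Strat := .move 719 n921 (.cons 678 n2003 .nil)
noncomputable def n2005 : Strat := .move 718 n697 (.cons 677 n2004 .nil)
noncomputable def n2006 : Strat := .move 923 n759 (.cons 964 n1286 .nil)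
noncomputable def n2007 : Strat := .move 882 n805 (.cons 717 n1267 (.cons 923 n1943 (.cons 758 n2006 .nil)))
noncomputable def n2008 : Strat := .move 759 n1986 (.cons 882 n2000 (.cons 758 n2005 (.cons 760 n1942 (.cons 678 n2007 (.cons 719 n1949 .nil)))))
noncomputable def n2009 : Strat := .move 839 n350 (.cons 838 n1910 .nil)
noncomputable def n2010 : Strat := .win 759 3 718
noncomputable def n2011 : Strat := .move 719 n2010 (.cons 759 n577 .nil)
noncomputable def n2012 : Strat := .move 882 n1245 (.cons 923 n2011 .nil)
noncomputable def n2013 : Strat := .move 760 n576 (.cons 761 n2012 .nil)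
noncomputable def n2014 : Strat := .move 798 n1258 (.cons 797 n2013 .nil)
noncomputable def n2015 : Strat := .move 839 n350 (.cons 838 n2014 .nil)
noncomputable def n2016 : Strat := .move 839 n1910 (.cons 802 n2014 .nil)
noncomputable def n2017 : Strat := .move 882 n2010 (.cons 759 n1245 .nil)
noncomputable def n2018 : Strat := .move 719 n577 (.cons 678 n2017 .nil)
noncomputable def n2019 : Strat := .move 760 n1746 (.cons 798 n2018 .nil)
noncomputable def n2020 : Strat := .move 761 n532 (.cons 762 n2019 .nil)
noncomputable def n2021 : Strat := .move 802 n1260 (.cons 803 n2020 .nil)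
noncomputable def n2022 : Strat := .move 801 n2009 (.cons 802 n2015 (.cons 838 n2016 (.cons 839 n2021 .nil)))
noncomputable def n2023 : Strat := .move 801 n1141 (.cons 760 n2009 .nil)
noncomputable def n2024 : Strat := .move 923 n759 (.cons 964 n2023 .nil)
noncomputable def n2025 : Strat := .move 718 n920 (.cons 676 n697 .nil)
noncomputable def n2026 : Strat := .move 797 n696 (.cons 760 n1171 .nil)
noncomputable def n2027 : Strat := .move 759 n2025 (.cons 677 n2026 .nil)
noncomputable def n2028 : Strat := .move 801 n270 (.cons 756 n1910 .nil)
noncomputable def n2029 : Strat := .move 716 n271 (.cons 675 n594 .nil)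
noncomputable def n2030 : Strat := .move 757 n2028 (.cons 802 n2029 .nil)
noncomputable def n2031 : Strat := .move 797 n192 (.cons 755 n1171 .nil)
noncomputable def n2032 : Strat := .move 801 n1256 (.cons 757 n1910 .nil)
noncomputable def n2033 : Strat := .move 756 n2031 (.cons 796 n2032 .nil)
noncomputable def n2034 : Strat := .move 798 n2027 (.cons 759 n2030 (.cons 676 n2033 .nil))
noncomputable def n2035 : Strat := .move 838 n156 (.cons 837 n169 .nil)
noncomputable def n2036 : Strat := .move 839 n542 (.cons 838 n2034 (.cons 801 n2035 .nil))
noncomputable def n2037 : Strat := .move 717 n1946 (.cons 758 n2036 .nil)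
noncomputable def n2038 : Strat := .move 882 n805 (.cons 758 n2024 (.cons 923 n2037 .nil))
noncomputable def n2039 : Strat := .move 923 n758 (.cons 758 n2023 .nil)
noncomputable def n2040 : Strat := .move 760 n784 (.cons 719 n2002 .nil)
noncomputable def n2041 : Strat := .move 759 n1947 (.cons 677 n2040 .nil)
noncomputable def n2042 : Strat := .move 717 n1946 (.cons 758 n2041 .nil)
noncomputable def n2043 : Strat := .move 882 n1267 (.cons 758 n2024 (.cons 964 n2039 (.cons 923 n2042 .nil)))
noncomputable def n2044 : Strat := .move 758 n34 (.cons 717 n1268 .nil)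
noncomputable def n2045 : Strat := .win 803 2 758
noncomputable def n2046 : Strat := .move 801 n531 (.cons 839 n2045 .nil)
noncomputable def n2047 : Strat := .win 757 0 757
noncomputable def n2048 : Strat := .move 801 n2047 (.cons 757 n531 .nil)
noncomputable def n2049 : Strat := .move 801 n2047 (.cons 757 n2045 .nil)
noncomputable def n2050 : Strat := .move 761 n1324 (.cons 803 n1194 .nil)
noncomputable def n2051 : Strat := .move 802 n2046 (.cons 803 n2048 (.cons 839 n2049 (.cons 801 n2050 .nil)))
noncomputable def n2052 : Strat := .move 760 n784 (.cons 719 n2051 .nil)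
noncomputable def n2053 : Strat := .move 758 n34 (.cons 717 n2052 .nil)
noncomputable def n2054 : Strat := .move 839 n105 (.cons 838 n1268 .nil)
noncomputable def n2055 : Strat := .move 883 n1200 (.cons 924 n2054 .nil)
noncomputable def n2056 : Strat := .move 759 n2044 (.cons 678 n2053 (.cons 719 n1948 (.cons 717 n2055 .nil)))
noncomputable def n2057 : Strat := .move 882 n1267 (.cons 758 n2024 (.cons 964 n805 (.cons 923 n2056 .nil)))
noncomputable def n2058 : Strat := .move 838 n156 (.cons 837 n806 .nil)
noncomputable def n2059 : Strat := .win 798 2 755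
noncomputable def n2060 : Strat := .move 755 n327 (.cons 714 n2059 .nil)
noncomputable def n2061 : Strat := .move 756 n323 (.cons 715 n2060 .nil)
noncomputable def n2062 : Strat := .move 879 n52 (.cons 878 n2061 .nil)
noncomputable def n2063 : Strat := .move 797 n67 (.cons 796 n2062 .nil)
noncomputable def n2064 : Strat := .move 838 n156 (.cons 837 n2063 .nil)
noncomputable def n2065 : Strat := .move 838 n169 (.cons 883 n805 .nil)
noncomputable def n2066 : Strat := .move 924 n755 (.cons 965 n1277 .nil)
noncomputable def n2067 : Strat := .move 883 n105 (.cons 838 n2066 .nil)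
noncomputable def n2068 : Strat := .move 923 n759 (.cons 964 n2067 .nil)
noncomputable def n2069 : Strat := .move 759 n1200 (.cons 924 n2025 .nil)
noncomputable def n2070 : Strat := .move 883 n105 (.cons 838 n2069 .nil)
noncomputable def n2071 : Strat := .move 717 n1946 (.cons 758 n2070 .nil)
noncomputable def n2072 : Strat := .move 882 n2065 (.cons 838 n805 (.cons 717 n1267 (.cons 758 n2068 (.cons 923 n2071 .nil))))
noncomputable def n2073 : Strat := .win 757 7 715
noncomputable def n2074 : Strat := .move 715 n2073 (.cons 757 n193 .nil)
noncomputable def n2075 : Strat := .move 880 n679 (.cons 921 n2074 .nil)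
noncomputable def n2076 : Strat := .move 756 n192 (.cons 755 n2075 .nil)
noncomputable def n2077 : Strat := .move 797 n1171 (.cons 796 n2076 .nil)
noncomputable def n2078 : Strat := .move 759 n1219 (.cons 883 n696 .nil)
noncomputable def n2079 : Strat := .move 923 n755 (.cons 965 n759 .nil)
noncomputable def n2080 : Strat := .move 924 n2078 (.cons 760 n2079 .nil)
noncomputable def n2081 : Strat := .move 797 n1171 (.cons 796 n2080 .nil)
noncomputable def n2082 : Strat := .move 760 n784 (.cons 719 n1554 .nil)
noncomputable def n2083 : Strat := .move 759 n2026 (.cons 796 n2082 (.cons 760 n2025 .nil))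
noncomputable def n2084 : Strat := .move 717 n1946 (.cons 758 n2083 .nil)
noncomputable def n2085 : Strat := .move 882 n805 (.cons 717 n1267 (.cons 758 n2081 (.cons 923 n2084 .nil)))
noncomputable def n2086 : Strat := .move 756 n1188 (.cons 755 n81 .nil)
noncomputable def n2087 : Strat := .move 758 n75 (.cons 717 n2086 .nil)
noncomputable def n2088 : Strat := .move 716 n271 (.cons 675 n597 .nil)
noncomputable def n2089 : Strat := .win 758 1 716
noncomputable def n2090 : Strat := .move 717 n2089 (.cons 758 n1972 .nil)
noncomputable def n2091 : Strat := .move 757 n2087 (.cons 758 n2088 (.cons 715 n2090 .nil))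
noncomputable def n2092 : Strat := .move 920 n446 (.cons 961 n1084 .nil)
noncomputable def n2093 : Strat := .win 797 7 756
noncomputable def n2094 : Strat := .move 756 n2093 (.cons 797 n81 .nil)
noncomputable def n2095 : Strat := .move 757 n2092 (.cons 879 n2094 .nil)
noncomputable def n2096 : Strat := .move 921 n77 (.cons 962 n2095 .nil)
noncomputable def n2097 : Strat := .move 880 n344 (.cons 717 n79 (.cons 921 n2091 (.cons 758 n2096 .nil)))
noncomputable def n2098 : Strat := .move 921 n77 (.cons 962 n2092 .nil)
noncomputable def n2099 : Strat := .move 757 n2088 (.cons 716 n2098 .nil)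
noncomputable def n2100 : Strat := .move 880 n344 (.cons 717 n79 (.cons 758 n2099 (.cons 921 n2091 .nil)))
noncomputable def n2101 : Strat := .move 798 n2077 (.cons 880 n2085 (.cons 796 n2097 (.cons 797 n2100 .nil)))
noncomputable def n2102 : Strat := .move 839 n2058 (.cons 882 n2064 (.cons 837 n2072 (.cons 838 n2101 .nil)))
noncomputable def n2103 : Strat := .move 801 n1979 (.cons 839 n1888 .nil)
noncomputable def n2104 : Strat := .move 838 n191 (.cons 837 n2103 .nil)
noncomputable def n2105 : Strat := .move 797 n1171 (.cons 796 n2104 .nil)
noncomputable def n2106 : Strat := .move 879 n719 (.cons 716 n184 .nil)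
noncomputable def n2107 : Strat := .move 757 n1630 (.cons 801 n2106 .nil)
noncomputable def n2108 : Strat := .move 756 n192 (.cons 755 n2107 .nil)
noncomputable def n2109 : Strat := .move 838 n191 (.cons 837 n2108 .nil)
noncomputable def n2110 : Strat := .move 797 n1171 (.cons 796 n2109 .nil)
noncomputable def n2111 : Strat := .move 797 n1299 (.cons 759 n192 .nil)
noncomputable def n2112 : Strat := .move 756 n1256 (.cons 757 n2111 .nil)
noncomputable def n2113 : Strat := .move 760 n576 (.cons 761 n2112 .nil)
noncomputable def n2114 : Strat := .move 839 n356 (.cons 838 n2113 .nil)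
noncomputable def n2115 : Strat := .move 801 n1967 (.cons 802 n2114 (.cons 839 n1977 .nil))
noncomputable def n2116 : Strat := .move 801 n1256 (.cons 757 n1909 .nil)
noncomputable def n2117 : Strat := .move 756 n192 (.cons 755 n2116 .nil)
noncomputable def n2118 : Strat := .move 797 n1171 (.cons 796 n2117 .nil)
noncomputable def n2119 : Strat := .move 801 n1979 (.cons 839 n1300 .nil)
noncomputable def n2120 : Strat := .move 838 n191 (.cons 837 n2119 .nil)
noncomputable def n2121 : Strat := .move 797 n1171 (.cons 796 n2120 .nil)
noncomputable def n2122 : Strat := .move 801 n356 (.cons 838 n1910 .nil)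
noncomputable def n2123 : Strat := .move 838 n155 (.cons 801 n156 .nil)
noncomputable def n2124 : Strat := .win 880 1 756
noncomputable def n2125 : Strat := .move 920 n2124 (.cons 880 n215 .nil)
noncomputable def n2126 : Strat := .move 757 n183 (.cons 716 n2125 .nil)
noncomputable def n2127 : Strat := .move 879 n52 (.cons 878 n2126 .nil)
noncomputable def n2128 : Strat := .move 838 n156 (.cons 837 n2127 .nil)
noncomputable def n2129 : Strat := .move 757 n1084 (.cons 879 n270 .nil)
noncomputable def n2130 : Strat := .move 921 n446 (.cons 961 n77 .nil)
noncomputable def n2131 : Strat := .move 920 n2129 (.cons 756 n2130 .nil)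
noncomputable def n2132 : Strat := .move 801 n1910 (.cons 802 n2131 .nil)
noncomputable def n2133 : Strat := .move 756 n81 (.cons 715 n1630 .nil)
noncomputable def n2134 : Strat := .move 757 n2028 (.cons 802 n2133 (.cons 756 n1972 .nil))
noncomputable def n2135 : Strat := .move 717 n2089 (.cons 758 n2134 .nil)
noncomputable def n2136 : Strat := .move 880 n344 (.cons 758 n2132 (.cons 921 n2135 .nil))
noncomputable def n2137 : Strat := .move 839 n2122 (.cons 802 n2123 (.cons 801 n2128 (.cons 838 n2136 .nil)))
noncomputable def n2138 : Strat := .move 798 n2105 (.cons 801 n1963 (.cons 839 n2110 (.cons 796 n2115 (.cons 838 n2118 (.cons 756 n2121 (.cons 797 n2137 .nil))))))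
noncomputable def n2139 : Strat := .move 802 n1260 (.cons 803 n495 .nil)
noncomputable def n2140 : Strat := .move 717 n150 (.cons 882 n135 .nil)
noncomputable def n2141 : Strat := .move 882 n362 (.cons 923 n34 .nil)
noncomputable def n2142 : Strat := .move 717 n136 (.cons 880 n135 .nil)
noncomputable def n2143 : Strat := .move 756 n1256 (.cons 757 n2031 .nil)
noncomputable def n2144 : Strat := .move 758 n2140 (.cons 676 n2141 (.cons 882 n2142 (.cons 717 n2143 .nil)))
noncomputable def n2145 : Strat := .move 839 n356 (.cons 838 n2144 .nil)
noncomputable def n2146 : Strat := .move 839 n356 (.cons 838 n1258 .nil)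
noncomputable def n2147 : Strat := .move 798 n2145 (.cons 923 n2146 (.cons 755 n1975 (.cons 839 n1889 (.cons 756 n1981 .nil))))
noncomputable def n2148 : Strat := .move 801 n1968 (.cons 803 n2009 (.cons 839 n2139 (.cons 802 n2147 .nil)))
noncomputable def n2149 : Strat := .move 799 n1950 (.cons 759 n1983 (.cons 716 n2008 (.cons 758 n2022 (.cons 761 n2038 (.cons 757 n2043 (.cons 798 n2057 (.cons 801 n2102 (.cons 882 n2138 (.cons 760 n2148 .nil)))))))))
noncomputable def n2150 : Strat := .win 762 0 717
noncomputable def n2151 : Strat := .win 760 0 716
noncomputable def n2152 : Strat := .move 761 n2150 (.cons 762 n2151 .nil)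
noncomputable def n2153 : Strat := .move 758 n1937 (.cons 757 n1936 .nil)
noncomputable def n2154 : Strat := .move 720 n2152 (.cons 760 n2153 .nil)
noncomputable def n2155 : Strat := .win 673 2 673
noncomputable def n2156 : Strat := .win 675 2 674
noncomputable def n2157 : Strat := .move 674 n2155 (.cons 673 n2156 .nil)
noncomputable def n2158 : Strat := .move 715 n1836 (.cons 760 n2157 .nil)
noncomputable def n2159 : Strat := .win 755 4 714
noncomputable def n2160 : Strat := .win 757 4 715
noncomputable def n2161 : Strat := .move 756 n2159 (.cons 755 n2160 .nil)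
noncomputable def n2162 : Strat := .move 715 n2157 (.cons 675 n2161 .nil)
noncomputable def n2163 : Strat := .move 716 n1876 (.cons 715 n2154 (.cons 761 n2158 (.cons 760 n2162 .nil)))
noncomputable def n2164 : Strat := .move 717 n920 (.cons 676 n2163 .nil)
noncomputable def n2165 : Strat := .move 719 n921 (.cons 678 n2164 .nil)
noncomputable def n2166 : Strat := .move 718 n698 (.cons 881 n2165 .nil)
noncomputable def n2167 : Strat := .move 718 n921 (.cons 678 n1343 .nil)
noncomputable def n2168 : Strat := .move 718 n921 (.cons 678 n2164 .nil)
noncomputable def n2169 : Strat := .move 760 n1373 (.cons 882 n1392 .nil)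
noncomputable def n2170 : Strat := .move 717 n920 (.cons 676 n2169 .nil)
noncomputable def n2171 : Strat := .move 718 n921 (.cons 678 n2170 .nil)
noncomputable def n2172 : Strat := .win 882 7 717
noncomputable def n2173 : Strat := .move 758 n2172 (.cons 882 n1987 .nil)
noncomputable def n2174 : Strat := .move 717 n920 (.cons 676 n2173 .nil)
noncomputable def n2175 : Strat := .move 718 n921 (.cons 678 n2174 .nil)
noncomputable def n2176 : Strat := .win 637 1 636
noncomputable def n2177 : Strat := .win 801 1 677
noncomputable def n2178 : Strat := .move 678 n2176 (.cons 637 n2177 .nil)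
noncomputable def n2179 : Strat := .move 760 n1373 (.cons 882 n2178 .nil)
noncomputable def n2180 : Strat := .win 720 5 716
noncomputable def n2181 : Strat := .move 757 n2180 (.cons 720 n1211 .nil)
noncomputable def n2182 : Strat := .win 757 5 716
noncomputable def n2183 : Strat := .win 718 4 717
noncomputable def n2184 : Strat := .move 721 n2183 (.cons 718 n1376 .nil)
noncomputable def n2185 : Strat := .move 720 n2182 (.cons 757 n2184 .nil)
noncomputable def n2186 : Strat := .win 716 2 716
noncomputable def n2187 : Strat := .win 635 6 635
noncomputable def n2188 : Strat := .win 718 7 676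
noncomputable def n2189 : Strat := .move 676 n2187 (.cons 635 n2188 .nil)
noncomputable def n2190 : Strat := .move 717 n2186 (.cons 716 n2189 .nil)
noncomputable def n2191 : Strat := .win 804 0 759
noncomputable def n2192 : Strat := .win 802 0 758
noncomputable def n2193 : Strat := .move 803 n2191 (.cons 804 n2192 .nil)
noncomputable def n2194 : Strat := .win 801 4 759
noncomputable def n2195 : Strat := .win 718 2 718
noncomputable def n2196 : Strat := .move 763 n2194 (.cons 801 n2195 .nil)
noncomputable def n2197 : Strat := .move 762 n2193 (.cons 802 n2196 .nil)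
noncomputable def n2198 : Strat := .win 722 5 718
noncomputable def n2199 : Strat := .win 720 5 717
noncomputable def n2200 : Strat := .move 721 n2198 (.cons 722 n2199 .nil)
noncomputable def n2201 : Strat := .move 762 n2193 (.cons 802 n2200 .nil)
noncomputable def n2202 : Strat := .move 761 n2190 (.cons 717 n2197 (.cons 718 n2201 .nil))
noncomputable def n2203 : Strat := .win 761 2 716
noncomputable def n2204 : Strat := .move 716 n2203 (.cons 761 n1212 .nil)
noncomputable def n2205 : Strat := .move 717 n2204 (.cons 715 n2189 .nil)
noncomputable def n2206 : Strat := .move 757 n1211 (.cons 756 n2205 .nil)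
noncomputable def n2207 : Strat := .move 758 n2181 (.cons 756 n2185 (.cons 757 n2202 (.cons 720 n2206 .nil)))
noncomputable def n2208 : Strat := .move 760 n1373 (.cons 882 n2207 .nil)
noncomputable def n2209 : Strat := .move 719 n2167 (.cons 882 n2168 (.cons 758 n2171 (.cons 760 n2175 (.cons 718 n2179 (.cons 678 n2208 .nil)))))
noncomputable def n2210 : Strat := .move 881 n782 (.cons 922 n1898 .nil)
noncomputable def n2211 : Strat := .move 883 n1200 (.cons 924 n1249 .nil)
noncomputable def n2212 : Strat := .move 882 n2210 (.cons 881 n2211 (.cons 924 n1356 .nil))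
noncomputable def n2213 : Strat := .move 759 n1345 (.cons 882 n2166 (.cons 719 n1577 (.cons 881 n2209 (.cons 718 n2212 .nil))))
noncomputable def n2214 : Strat := .move 801 n350 (.cons 838 n1910 .nil)
noncomputable def n2215 : Strat := .move 839 n136 (.cons 880 n2214 .nil)
noncomputable def n2216 : Strat := .move 717 n493 (.cons 676 n2215 .nil)
noncomputable def n2217 : Strat := .win 882 7 758
noncomputable def n2218 : Strat := .move 881 n1675 (.cons 922 n1681 .nil)
noncomputable def n2219 : Strat := .move 923 n2217 (.cons 882 n2218 .nil)
noncomputable def n2220 : Strat := .move 758 n494 (.cons 882 n2216 (.cons 676 n1622 (.cons 717 n2219 .nil)))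
noncomputable def n2221 : Strat := .move 923 n1141 (.cons 760 n2009 .nil)
noncomputable def n2222 : Strat := .move 923 n1141 (.cons 760 n1968 .nil)
noncomputable def n2223 : Strat := .move 761 n532 (.cons 762 n1746 .nil)
noncomputable def n2224 : Strat := .move 760 n1245 (.cons 923 n2223 .nil)
noncomputable def n2225 : Strat := .move 802 n1260 (.cons 803 n2224 .nil)
noncomputable def n2226 : Strat := .win 839 5 797
noncomputable def n2227 : Strat := .move 797 n191 (.cons 837 n1171 .nil)
noncomputable def n2228 : Strat := .move 798 n576 (.cons 761 n2227 .nil)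
noncomputable def n2229 : Strat := .move 760 n1245 (.cons 923 n2228 .nil)
noncomputable def n2230 : Strat := .move 838 n2226 (.cons 839 n2229 .nil)
noncomputable def n2231 : Strat := .move 801 n2221 (.cons 838 n2222 (.cons 923 n2009 (.cons 839 n2225 (.cons 802 n2230 .nil))))
noncomputable def n2232 : Strat := .move 798 n1258 (.cons 755 n1656 .nil)
noncomputable def n2233 : Strat := .move 716 n272 (.cons 881 n271 .nil)
noncomputable def n2234 : Strat := .move 757 n270 (.cons 756 n2233 .nil)
noncomputable def n2235 : Strat := .move 839 n356 (.cons 838 n2234 .nil)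
noncomputable def n2236 : Strat := .move 881 n72 (.cons 716 n141 .nil)
noncomputable def n2237 : Strat := .move 757 n270 (.cons 756 n2236 .nil)
noncomputable def n2238 : Strat := .move 839 n356 (.cons 838 n2237 .nil)
noncomputable def n2239 : Strat := .move 838 n1979 (.cons 839 n2227 .nil)
noncomputable def n2240 : Strat := .move 798 n2235 (.cons 675 n2238 (.cons 839 n1258 (.cons 757 n2239 .nil)))
noncomputable def n2241 : Strat := .move 801 n2009 (.cons 838 n1968 (.cons 839 n2232 (.cons 802 n2240 .nil)))
noncomputable def n2242 : Strat := .move 882 n2024 (.cons 839 n1725 (.cons 964 n2231 (.cons 923 n2241 .nil)))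
noncomputable def n2243 : Strat := .move 717 n493 (.cons 676 n136 .nil)
noncomputable def n2244 : Strat := .move 756 n1188 (.cons 755 n1623 .nil)
noncomputable def n2245 : Strat := .move 757 n43 (.cons 716 n2244 .nil)
noncomputable def n2246 : Strat := .move 922 n144 (.cons 962 n39 .nil)
noncomputable def n2247 : Strat := .move 921 n143 (.cons 880 n2246 .nil)
noncomputable def n2248 : Strat := .move 881 n2245 (.cons 757 n2247 .nil)
noncomputable def n2249 : Strat := .move 716 n1440 (.cons 881 n864 .nil)
noncomputable def n2250 : Strat := .move 757 n2244 (.cons 798 n2249 .nil)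
noncomputable def n2251 : Strat := .move 717 n493 (.cons 676 n2250 .nil)
noncomputable def n2252 : Strat := .move 758 n2243 (.cons 717 n2248 (.cons 880 n2251 .nil))
noncomputable def n2253 : Strat := .move 839 n350 (.cons 838 n2252 .nil)
noncomputable def n2254 : Strat := .move 798 n1654 (.cons 760 n1686 .nil)
noncomputable def n2255 : Strat := .move 761 n532 (.cons 762 n2254 .nil)
noncomputable def n2256 : Strat := .move 802 n1260 (.cons 803 n2255 .nil)
noncomputable def n2257 : Strat := .move 801 n1968 (.cons 802 n2253 (.cons 839 n2256 .nil))
noncomputable def n2258 : Strat := .move 839 n1995 (.cons 838 n2247 .nil)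
noncomputable def n2259 : Strat := .move 882 n33 (.cons 923 n2258 .nil)
noncomputable def n2260 : Strat := .move 839 n304 (.cons 837 n176 .nil)
noncomputable def n2261 : Strat := .move 839 n169 (.cons 883 n304 .nil)
noncomputable def n2262 : Strat := .move 839 n169 (.cons 883 n176 .nil)
noncomputable def n2263 : Strat := .win 837 2 837
noncomputable def n2264 : Strat := .move 879 n2263 (.cons 837 n1358 .nil)
noncomputable def n2265 : Strat := .move 838 n2260 (.cons 801 n2261 (.cons 837 n2262 (.cons 839 n2264 .nil)))
noncomputable def n2266 : Strat := .move 880 n652 (.cons 921 n2265 .nil)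
noncomputable def n2267 : Strat := .move 882 n33 (.cons 923 n2266 .nil)
noncomputable def n2268 : Strat := .move 881 n2259 (.cons 802 n1673 (.cons 962 n2267 (.cons 882 n1674 (.cons 921 n1676 .nil))))
noncomputable def n2269 : Strat := .move 758 n494 (.cons 882 n2216 (.cons 676 n1622 (.cons 717 n2268 .nil)))
noncomputable def n2270 : Strat := .move 839 n136 (.cons 880 n542 .nil)
noncomputable def n2271 : Strat := .move 717 n493 (.cons 676 n2270 .nil)
noncomputable def n2272 : Strat := .move 922 n39 (.cons 963 n1818 .nil)
noncomputable def n2273 : Strat := .move 881 n1499 (.cons 922 n2266 (.cons 880 n2272 .nil))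
noncomputable def n2274 : Strat := .move 882 n362 (.cons 923 n2273 .nil)
noncomputable def n2275 : Strat := .move 758 n494 (.cons 882 n2271 (.cons 676 n1622 (.cons 717 n2274 .nil)))
noncomputable def n2276 : Strat := .move 839 n156 (.cons 837 n806 .nil)
noncomputable def n2277 : Strat := .move 839 n156 (.cons 837 n2063 .nil)
noncomputable def n2278 : Strat := .move 839 n806 (.cons 883 n2063 .nil)
noncomputable def n2279 : Strat := .move 879 n1358 (.cons 878 n2263 .nil)
noncomputable def n2280 : Strat := .move 880 n652 (.cons 921 n2279 .nil)
noncomputable def n2281 : Strat := .move 881 n1499 (.cons 922 n2280 (.cons 880 n2272 .nil))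
noncomputable def n2282 : Strat := .move 882 n362 (.cons 923 n2281 .nil)
noncomputable def n2283 : Strat := .move 716 n865 (.cons 757 n864 .nil)
noncomputable def n2284 : Strat := .move 717 n493 (.cons 676 n2283 .nil)
noncomputable def n2285 : Strat := .move 881 n1499 (.cons 922 n2284 .nil)
noncomputable def n2286 : Strat := .move 758 n1622 (.cons 717 n2282 (.cons 923 n494 (.cons 882 n2285 .nil)))
noncomputable def n2287 : Strat := .move 838 n2276 (.cons 883 n2277 (.cons 837 n2278 (.cons 839 n2286 .nil)))
noncomputable def n2288 : Strat := .move 799 n2220 (.cons 758 n2242 (.cons 839 n1684 (.cons 882 n2257 (.cons 798 n2269 (.cons 881 n1983 (.cons 802 n2275 (.cons 801 n2287 .nil)))))))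
noncomputable def n2289 : Strat := .move 839 n1896 (.cons 884 n105 .nil)
noncomputable def n2290 : Strat := .move 883 n1200 (.cons 924 n2289 .nil)
noncomputable def n2291 : Strat := .move 799 n33 (.cons 923 n2290 .nil)
noncomputable def n2292 : Strat := .move 758 n928 (.cons 717 n2291 .nil)
noncomputable def n2293 : Strat := .move 882 n1199 (.cons 761 n2292 (.cons 758 n1898 .nil))
noncomputable def n2294 : Strat := .move 881 n37 (.cons 718 n2293 .nil)
noncomputable def n2295 : Strat := .move 881 n1199 (.cons 761 n2292 (.cons 758 n1898 .nil))
noncomputable def n2296 : Strat := .move 923 n927 (.cons 799 n1242 .nil)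
noncomputable def n2297 : Strat := .move 758 n928 (.cons 717 n2296 .nil)
noncomputable def n2298 : Strat := .move 882 n1461 (.cons 922 n2295 (.cons 758 n2210 (.cons 881 n2297 .nil)))
noncomputable def n2299 : Strat := .move 799 n362 (.cons 923 n1197 .nil)
noncomputable def n2300 : Strat := .move 758 n928 (.cons 717 n2299 .nil)
noncomputable def n2301 : Strat := .move 799 n697 (.cons 677 n996 .nil)
noncomputable def n2302 : Strat := .move 718 n921 (.cons 678 n2301 .nil)
noncomputable def n2303 : Strat := .move 719 n922 (.cons 760 n2302 .nil)
noncomputable def n2304 : Strat := .move 883 n1200 (.cons 924 n2303 .nil)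
noncomputable def n2305 : Strat := .move 677 n1384 (.cons 635 n1314 .nil)
noncomputable def n2306 : Strat := .move 676 n1383 (.cons 717 n2305 .nil)
noncomputable def n2307 : Strat := .move 718 n921 (.cons 678 n2306 .nil)
noncomputable def n2308 : Strat := .move 719 n922 (.cons 760 n2307 .nil)
noncomputable def n2309 : Strat := .move 883 n1200 (.cons 924 n2308 .nil)
noncomputable def n2310 : Strat := .move 883 n1200 (.cons 924 n1323 .nil)
noncomputable def n2311 : Strat := .move 882 n2300 (.cons 717 n2304 (.cons 758 n2309 (.cons 799 n2310 (.cons 760 n2297 .nil))))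
noncomputable def n2312 : Strat := .move 759 n1577 (.cons 922 n2294 (.cons 882 n1543 (.cons 718 n2298 (.cons 881 n2311 .nil))))
noncomputable def n2313 : Strat := .move 923 n759 (.cons 964 n1220 .nil)
noncomputable def n2314 : Strat := .move 799 n1417 (.cons 801 n2313 (.cons 923 n1558 .nil))
noncomputable def n2315 : Strat := .move 882 n1193 (.cons 758 n2314 (.cons 801 n1199 (.cons 923 n1217 (.cons 799 n1222 .nil))))
noncomputable def n2316 : Strat := .move 881 n37 (.cons 718 n2315 .nil)
noncomputable def n2317 : Strat := .move 881 n782 (.cons 922 n1598 .nil)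
noncomputable def n2318 : Strat := .move 923 n903 (.cons 963 n1242 .nil)
noncomputable def n2319 : Strat := .move 922 n926 (.cons 881 n2318 .nil)
noncomputable def n2320 : Strat := .move 882 n1463 (.cons 801 n1461 (.cons 923 n1619 (.cons 717 n2317 (.cons 799 n2319 .nil))))
noncomputable def n2321 : Strat := .move 882 n1463 (.cons 758 n1244 (.cons 760 n2297 (.cons 923 n925 .nil)))
noncomputable def n2322 : Strat := .move 759 n1577 (.cons 922 n2316 (.cons 718 n2320 (.cons 882 n1543 (.cons 881 n2321 .nil))))
noncomputable def n2323 : Strat := .move 719 n577 (.cons 678 n1373 .nil)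
noncomputable def n2324 : Strat := .move 798 n576 (.cons 761 n1554 .nil)
noncomputable def n2325 : Strat := .move 760 n2323 (.cons 882 n2324 .nil)
noncomputable def n2326 : Strat := .move 801 n1910 (.cons 802 n2325 .nil)
noncomputable def n2327 : Strat := .move 882 n169 (.cons 883 n784 .nil)
noncomputable def n2328 : Strat := .move 797 n67 (.cons 796 n997 .nil)
noncomputable def n2329 : Strat := .move 760 n2327 (.cons 719 n2328 .nil)
noncomputable def n2330 : Strat := .move 838 n156 (.cons 837 n2329 .nil)
noncomputable def n2331 : Strat := .move 839 n542 (.cons 838 n2326 (.cons 801 n2330 .nil))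
noncomputable def n2332 : Strat := .move 881 n36 (.cons 922 n2331 .nil)
noncomputable def n2333 : Strat := .move 799 n1778 (.cons 922 n1546 (.cons 718 n2332 (.cons 881 n1931 .nil)))
noncomputable def n2334 : Strat := .move 719 n921 (.cons 678 n2170 .nil)
noncomputable def n2335 : Strat := .move 718 n698 (.cons 881 n2334 .nil)
noncomputable def n2336 : Strat := .move 799 n697 (.cons 677 n1930 .nil)
noncomputable def n2337 : Strat := .move 799 n697 (.cons 677 n2002 .nil)
noncomputable def n2338 : Strat := .move 760 n1373 (.cons 882 n2337 .nil)
noncomputable def n2339 : Strat := .move 719 n921 (.cons 678 n2338 .nil)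
noncomputable def n2340 : Strat := .move 718 n2336 (.cons 677 n2334 (.cons 678 n1540 (.cons 676 n2339 .nil)))
noncomputable def n2341 : Strat := .move 881 n1898 (.cons 839 n2314 (.cons 883 n1569 .nil))
noncomputable def n2342 : Strat := .win 799 4 798
noncomputable def n2343 : Strat := .move 802 n2342 (.cons 799 n1260 .nil)
noncomputable def n2344 : Strat := .move 839 n350 (.cons 838 n2343 .nil)
noncomputable def n2345 : Strat := .move 801 n1245 (.cons 923 n2344 .nil)
noncomputable def n2346 : Strat := .move 760 n784 (.cons 719 n2345 .nil)
noncomputable def n2347 : Strat := .move 881 n782 (.cons 922 n2346 .nil)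
noncomputable def n2348 : Strat := .move 839 n105 (.cons 838 n2343 .nil)
noncomputable def n2349 : Strat := .move 801 n1245 (.cons 923 n2348 .nil)
noncomputable def n2350 : Strat := .move 760 n784 (.cons 719 n2349 .nil)
noncomputable def n2351 : Strat := .move 883 n1200 (.cons 924 n2350 .nil)
noncomputable def n2352 : Strat := .move 882 n2210 (.cons 922 n2341 (.cons 924 n2347 (.cons 838 n2319 (.cons 881 n2351 .nil))))
noncomputable def n2353 : Strat := .move 759 n2333 (.cons 882 n1543 (.cons 678 n1542 (.cons 799 n2335 (.cons 881 n2340 (.cons 718 n2352 .nil)))))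
noncomputable def n2354 : Strat := .move 715 n1837 (.cons 714 n1836 .nil)
noncomputable def n2355 : Strat := .move 716 n864 (.cons 675 n2354 .nil)
noncomputable def n2356 : Strat := .move 758 n150 (.cons 882 n2355 .nil)
noncomputable def n2357 : Strat := .move 717 n920 (.cons 676 n2356 .nil)
noncomputable def n2358 : Strat := .move 718 n697 (.cons 677 n2357 .nil)
noncomputable def n2359 : Strat := .move 758 n1905 (.cons 882 n1475 .nil)
noncomputable def n2360 : Strat := .move 881 n36 (.cons 922 n2359 .nil)
noncomputable def n2361 : Strat := .move 799 n1778 (.cons 922 n1546 (.cons 881 n2358 (.cons 718 n2360 .nil)))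
noncomputable def n2362 : Strat := .move 881 n1898 (.cons 839 n1217 .nil)
noncomputable def n2363 : Strat := .move 799 n1194 (.cons 762 n1195 .nil)
noncomputable def n2364 : Strat := .win 799 4 758
noncomputable def n2365 : Strat := .move 762 n2364 (.cons 799 n2193 .nil)
noncomputable def n2366 : Strat := .win 799 4 757
noncomputable def n2367 : Strat := .win 797 4 756
noncomputable def n2368 : Strat := .move 798 n2366 (.cons 799 n2367 .nil)
noncomputable def n2369 : Strat := .move 757 n1211 (.cons 756 n1326 (.cons 802 n2368 .nil))
noncomputable def n2370 : Strat := .move 761 n2363 (.cons 798 n2365 (.cons 762 n2369 (.cons 799 n2201 .nil)))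
noncomputable def n2371 : Strat := .move 760 n784 (.cons 719 n2370 .nil)
noncomputable def n2372 : Strat := .move 758 n928 (.cons 717 n2371 .nil)
noncomputable def n2373 : Strat := .move 882 n2210 (.cons 922 n2362 (.cons 924 n1619 (.cons 881 n2372 .nil)))
noncomputable def n2374 : Strat := .move 799 n697 (.cons 677 n2357 .nil)
noncomputable def n2375 : Strat := .move 719 n921 (.cons 678 n1342 .nil)
noncomputable def n2376 : Strat := .move 717 n920 (.cons 676 n2375 .nil)
noncomputable def n2377 : Strat := .move 718 n2374 (.cons 882 n1539 (.cons 677 n2376 .nil))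
noncomputable def n2378 : Strat := .move 759 n2361 (.cons 882 n1543 (.cons 718 n2373 (.cons 799 n1577 (.cons 881 n2377 .nil))))
noncomputable def n2379 : Strat := .move 801 n1141 (.cons 760 n1909 .nil)
noncomputable def n2380 : Strat := .move 882 n1169 (.cons 758 n2379 .nil)
noncomputable def n2381 : Strat := .move 923 n870 (.cons 964 n2380 .nil)
noncomputable def n2382 : Strat := .move 799 n40 (.cons 759 n2381 .nil)
noncomputable def n2383 : Strat := .move 922 n39 (.cons 963 n2382 .nil)
noncomputable def n2384 : Strat := .move 758 n33 (.cons 923 n1191 .nil)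
noncomputable def n2385 : Strat := .move 758 n33 (.cons 923 n1197 .nil)
noncomputable def n2386 : Strat := .move 799 n2384 (.cons 756 n2385 (.cons 923 n2290 .nil))
noncomputable def n2387 : Strat := .move 799 n1169 (.cons 758 n1456 .nil)
noncomputable def n2388 : Strat := .move 923 n1596 (.cons 964 n2387 (.cons 758 n1597 (.cons 799 n1286 .nil)))
noncomputable def n2389 : Strat := .move 882 n2386 (.cons 760 n1898 (.cons 839 n1598 (.cons 883 n2388 .nil)))
noncomputable def n2390 : Strat := .move 759 n37 (.cons 718 n2389 .nil)
noncomputable def n2391 : Strat := .move 799 n2381 (.cons 882 n1902 (.cons 758 n1916 .nil))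
noncomputable def n2392 : Strat := .move 922 n39 (.cons 963 n2391 .nil)
noncomputable def n2393 : Strat := .move 881 n1168 (.cons 718 n2383 (.cons 922 n2390 (.cons 882 n1904 (.cons 759 n2392 .nil))))
noncomputable def n2394 : Strat := .move 882 n1193 (.cons 717 n1898 .nil)
noncomputable def n2395 : Strat := .move 759 n37 (.cons 718 n2394 .nil)
noncomputable def n2396 : Strat := .move 758 n869 (.cons 882 n1498 .nil)
noncomputable def n2397 : Strat := .move 923 n870 (.cons 964 n2396 .nil)
noncomputable def n2398 : Strat := .move 922 n39 (.cons 963 n2397 .nil)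
noncomputable def n2399 : Strat := .win 839 1 716
noncomputable def n2400 : Strat := .move 880 n652 (.cons 921 n2399 .nil)
noncomputable def n2401 : Strat := .move 717 n493 (.cons 676 n2400 .nil)
noncomputable def n2402 : Strat := .move 882 n33 (.cons 923 n1681 .nil)
noncomputable def n2403 : Strat := .move 758 n861 (.cons 923 n494 (.cons 882 n2401 (.cons 717 n2402 .nil)))
noncomputable def n2404 : Strat := .move 922 n39 (.cons 963 n1902 .nil)
noncomputable def n2405 : Strat := .move 758 n869 (.cons 882 n1818 .nil)
noncomputable def n2406 : Strat := .move 923 n870 (.cons 964 n2405 .nil)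
noncomputable def n2407 : Strat := .move 922 n39 (.cons 963 n2406 .nil)
noncomputable def n2408 : Strat := .move 922 n39 (.cons 963 n138 .nil)
noncomputable def n2409 : Strat := .win 880 3 798
noncomputable def n2410 : Strat := .win 922 1 798
noncomputable def n2411 : Strat := .move 962 n2409 (.cons 880 n2410 .nil)
noncomputable def n2412 : Strat := .win 880 7 756
noncomputable def n2413 : Strat := .move 756 n2412 (.cons 880 n192 .nil)
noncomputable def n2414 : Strat := .move 921 n2246 (.cons 963 n2411 (.cons 962 n2413 .nil))
noncomputable def n2415 : Strat := .move 797 n1171 (.cons 796 n2414 .nil)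
noncomputable def n2416 : Strat := .move 839 n2123 (.cons 837 n2122 (.cons 838 n2415 .nil))
noncomputable def n2417 : Strat := .move 798 n2408 (.cons 922 n2105 (.cons 757 n2416 .nil))
noncomputable def n2418 : Strat := .move 799 n2398 (.cons 922 n2403 (.cons 882 n2404 (.cons 921 n2407 (.cons 758 n2417 .nil))))
noncomputable def n2419 : Strat := .move 881 n1583 (.cons 922 n2395 (.cons 718 n1404 (.cons 882 n1904 (.cons 759 n2418 .nil))))
noncomputable def n2420 : Strat := .move 799 n697 (.cons 677 n2355 .nil)
noncomputable def n2421 : Strat := .move 758 n2172 (.cons 882 n2420 .nil)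
noncomputable def n2422 : Strat := .move 717 n920 (.cons 676 n2421 .nil)
noncomputable def n2423 : Strat := .move 718 n698 (.cons 881 n2422 .nil)
noncomputable def n2424 : Strat := .move 718 n2422 (.cons 882 n1539 (.cons 799 n1344 .nil))
noncomputable def n2425 : Strat := .move 881 n782 (.cons 922 n1193 .nil)
noncomputable def n2426 : Strat := .move 881 n1193 (.cons 756 n1199 (.cons 758 n2346 (.cons 799 n1249 (.cons 923 n1217 .nil))))
noncomputable def n2427 : Strat := .move 923 n1218 (.cons 801 n927 .nil)
noncomputable def n2428 : Strat := .move 760 n784 (.cons 719 n2427 .nil)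
noncomputable def n2429 : Strat := .move 758 n928 (.cons 717 n2428 .nil)
noncomputable def n2430 : Strat := .move 882 n2425 (.cons 758 n2347 (.cons 922 n2426 (.cons 799 n1356 (.cons 923 n1619 (.cons 881 n2429 (.cons 801 n1461 .nil))))))
noncomputable def n2431 : Strat := .move 881 n37 (.cons 718 n1249 .nil)
noncomputable def n2432 : Strat := .move 882 n918 (.cons 718 n1356 (.cons 922 n2431 (.cons 881 n1249 .nil)))
noncomputable def n2433 : Strat := .move 759 n2423 (.cons 882 n1543 (.cons 881 n2424 (.cons 718 n2430 (.cons 799 n2432 .nil))))
noncomputable def n2434 : Strat := .move 757 n1844 (.cons 720 n1843 .nil)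
noncomputable def n2435 : Strat := .win 799 7 675
noncomputable def n2436 : Strat := .move 675 n2435 (.cons 799 n1877 .nil)
noncomputable def n2437 : Strat := .move 758 n2434 (.cons 756 n1938 (.cons 720 n2436 .nil))
noncomputable def n2438 : Strat := .move 716 n1876 (.cons 715 n2437 .nil)
noncomputable def n2439 : Strat := .move 719 n921 (.cons 678 n2438 .nil)
noncomputable def n2440 : Strat := .move 717 n920 (.cons 676 n2439 .nil)
noncomputable def n2441 : Strat := .move 718 n1539 (.cons 677 n2440 (.cons 799 n2165 (.cons 719 n1540 .nil)))
noncomputable def n2442 : Strat := .move 838 n176 (.cons 801 n189 .nil)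
noncomputable def n2443 : Strat := .move 799 n192 (.cons 755 n696 .nil)
noncomputable def n2444 : Strat := .move 756 n2443 (.cons 760 n195 .nil)
noncomputable def n2445 : Strat := .move 798 n1152 (.cons 879 n2444 .nil)
noncomputable def n2446 : Strat := .move 797 n67 (.cons 796 n2445 .nil)
noncomputable def n2447 : Strat := .move 796 n211 (.cons 795 n210 .nil)
noncomputable def n2448 : Strat := .move 837 n172 (.cons 877 n2447 .nil)
noncomputable def n2449 : Strat := .move 878 n171 (.cons 879 n2448 .nil)
noncomputable def n2450 : Strat := .move 838 n189 (.cons 837 n2446 (.cons 879 n297 (.cons 799 n2449 .nil)))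
noncomputable def n2451 : Strat := .move 838 n176 (.cons 801 n2127 .nil)
noncomputable def n2452 : Strat := .move 756 n1333 (.cons 796 n1189 .nil)
noncomputable def n2453 : Strat := .move 758 n1857 (.cons 760 n2452 .nil)
noncomputable def n2454 : Strat := .win 880 6 757
noncomputable def n2455 : Strat := .move 922 n2454 (.cons 880 n39 .nil)
noncomputable def n2456 : Strat := .move 881 n72 (.cons 716 n2455 .nil)
noncomputable def n2457 : Strat := .move 797 n2453 (.cons 758 n2456 .nil)
noncomputable def n2458 : Strat := .move 879 n1358 (.cons 878 n936 .nil)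
noncomputable def n2459 : Strat := .move 881 n71 (.cons 922 n2458 .nil)
noncomputable def n2460 : Strat := .move 758 n462 (.cons 717 n1189 .nil)
noncomputable def n2461 : Strat := .move 756 n81 (.cons 715 n2460 .nil)
noncomputable def n2462 : Strat := .move 880 n2459 (.cons 881 n2461 .nil)
noncomputable def n2463 : Strat := .win 635 3 634
noncomputable def n2464 : Strat := .win 717 3 675
noncomputable def n2465 : Strat := .move 676 n2463 (.cons 635 n2464 .nil)
noncomputable def n2466 : Strat := .win 633 7 633
noncomputable def n2467 : Strat := .win 715 7 674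
noncomputable def n2468 : Strat := .move 674 n2466 (.cons 633 n2467 .nil)
noncomputable def n2469 : Strat := .move 675 n2465 (.cons 717 n2468 .nil)
noncomputable def n2470 : Strat := .move 716 n272 (.cons 881 n2469 .nil)
noncomputable def n2471 : Strat := .win 880 3 716
noncomputable def n2472 : Strat := .win 635 1 634
noncomputable def n2473 : Strat := .win 716 3 675
noncomputable def n2474 : Strat := .move 676 n2472 (.cons 635 n2473 .nil)
noncomputable def n2475 : Strat := .move 717 n2471 (.cons 880 n2474 .nil)
noncomputable def n2476 : Strat := .win 880 7 715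
noncomputable def n2477 : Strat := .move 715 n1329 (.cons 714 n2476 .nil)
noncomputable def n2478 : Strat := .move 756 n1189 (.cons 801 n2477 .nil)
noncomputable def n2479 : Strat := .move 760 n2367 (.cons 797 n1211 .nil)
noncomputable def n2480 : Strat := .move 758 n2475 (.cons 717 n2478 (.cons 880 n2479 .nil))
noncomputable def n2481 : Strat := .move 757 n2457 (.cons 716 n2462 (.cons 880 n2470 (.cons 881 n2480 .nil)))
noncomputable def n2482 : Strat := .win 879 1 715
noncomputable def n2483 : Strat := .move 797 n1090 (.cons 675 n67 .nil)
noncomputable def n2484 : Strat := .move 838 n2482 (.cons 879 n2483 .nil)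
noncomputable def n2485 : Strat := .move 716 n272 (.cons 881 n2484 .nil)
noncomputable def n2486 : Strat := .move 717 n2471 (.cons 880 n594 .nil)
noncomputable def n2487 : Strat := .move 760 n1212 (.cons 715 n2367 .nil)
noncomputable def n2488 : Strat := .move 758 n2486 (.cons 676 n2487 .nil)
noncomputable def n2489 : Strat := .move 716 n272 (.cons 881 n2488 .nil)
noncomputable def n2490 : Strat := .win 877 5 836
noncomputable def n2491 : Strat := .win 838 4 837
noncomputable def n2492 : Strat := .move 878 n2490 (.cons 877 n2491 .nil)
noncomputable def n2493 : Strat := .move 879 n936 (.cons 920 n2492 .nil)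
noncomputable def n2494 : Strat := .win 795 0 795
noncomputable def n2495 : Strat := .win 838 2 796
noncomputable def n2496 : Strat := .move 796 n2494 (.cons 795 n2495 .nil)
noncomputable def n2497 : Strat := .move 758 n1857 (.cons 760 n462 .nil)
noncomputable def n2498 : Strat := .move 797 n2496 (.cons 838 n2497 .nil)
noncomputable def n2499 : Strat := .move 880 n2493 (.cons 879 n2498 (.cons 838 n2459 .nil))
noncomputable def n2500 : Strat := .win 756 4 755
noncomputable def n2501 : Strat := .move 796 n2500 (.cons 756 n2494 .nil)
noncomputable def n2502 : Strat := .move 758 n1857 (.cons 760 n2501 .nil)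
noncomputable def n2503 : Strat := .move 879 n183 (.cons 716 n52 .nil)
noncomputable def n2504 : Strat := .move 838 n67 (.cons 796 n2503 .nil)
noncomputable def n2505 : Strat := .move 756 n679 (.cons 921 n81 .nil)
noncomputable def n2506 : Strat := .move 880 n2497 (.cons 717 n2505 .nil)
noncomputable def n2507 : Strat := .move 797 n2496 (.cons 838 n2502 (.cons 795 n2504 (.cons 796 n2506 .nil)))
noncomputable def n2508 : Strat := .win 838 1 715
noncomputable def n2509 : Strat := .move 879 n936 (.cons 920 n2508 .nil)
noncomputable def n2510 : Strat := .move 717 n593 (.cons 758 n594 .nil)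
noncomputable def n2511 : Strat := .move 880 n2509 (.cons 838 n2510 .nil)
noncomputable def n2512 : Strat := .move 716 n272 (.cons 881 n2511 .nil)
noncomputable def n2513 : Strat := .move 757 n2485 (.cons 675 n2489 (.cons 716 n2499 (.cons 881 n2507 (.cons 797 n2512 .nil))))
noncomputable def n2514 : Strat := .win 760 0 757
noncomputable def n2515 : Strat := .move 802 n2514 (.cons 760 n2045 .nil)
noncomputable def n2516 : Strat := .move 758 n1210 (.cons 756 n2515 .nil)
noncomputable def n2517 : Strat := .move 757 n2516 (.cons 758 n2456 .nil)
noncomputable def n2518 : Strat := .move 801 n350 (.cons 838 n2517 .nil)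
noncomputable def n2519 : Strat := .move 920 n216 (.cons 757 n215 .nil)
noncomputable def n2520 : Strat := .move 879 n52 (.cons 878 n2519 .nil)
noncomputable def n2521 : Strat := .move 797 n67 (.cons 796 n2520 .nil)
noncomputable def n2522 : Strat := .move 838 n176 (.cons 801 n2521 .nil)
noncomputable def n2523 : Strat := .move 878 n172 (.cons 877 n171 .nil)
noncomputable def n2524 : Strat := .move 837 n211 (.cons 795 n2523 .nil)
noncomputable def n2525 : Strat := .move 796 n210 (.cons 797 n2524 .nil)
noncomputable def n2526 : Strat := .move 838 n176 (.cons 801 n2525 .nil)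
noncomputable def n2527 : Strat := .move 798 n2451 (.cons 838 n2481 (.cons 801 n2513 (.cons 879 n2518 (.cons 716 n2522 (.cons 757 n2526 .nil)))))
noncomputable def n2528 : Strat := .move 802 n1260 (.cons 803 n2342 .nil)
noncomputable def n2529 : Strat := .move 801 n350 (.cons 838 n2528 .nil)
noncomputable def n2530 : Strat := .move 801 n1210 (.cons 756 n1294 .nil)
noncomputable def n2531 : Strat := .move 758 n2530 (.cons 802 n1190 (.cons 756 n2243 .nil))
noncomputable def n2532 : Strat := .move 881 n72 (.cons 716 n36 .nil)
noncomputable def n2533 : Strat := .move 798 n2532 (.cons 922 n2028 .nil)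
noncomputable def n2534 : Strat := .win 798 6 716
noncomputable def n2535 : Strat := .move 716 n1688 (.cons 758 n2534 .nil)
noncomputable def n2536 : Strat := .move 881 n36 (.cons 922 n2535 .nil)
noncomputable def n2537 : Strat := .move 799 n2531 (.cons 755 n2533 (.cons 801 n2536 .nil))
noncomputable def n2538 : Strat := .move 922 n1178 (.cons 799 n39 .nil)
noncomputable def n2539 : Strat := .move 881 n72 (.cons 716 n2538 .nil)
noncomputable def n2540 : Strat := .move 799 n2532 (.cons 922 n2028 .nil)
noncomputable def n2541 : Strat := .move 799 n2028 (.cons 802 n2026 .nil)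
noncomputable def n2542 : Strat := .move 798 n2539 (.cons 963 n2540 (.cons 799 n2456 (.cons 881 n2541 .nil)))
noncomputable def n2543 : Strat := .win 799 2 757
noncomputable def n2544 : Strat := .move 802 n2543 (.cons 799 n2045 .nil)
noncomputable def n2545 : Strat := .move 801 n1210 (.cons 756 n2544 .nil)
noncomputable def n2546 : Strat := .move 799 n2530 (.cons 802 n1190 (.cons 756 n2243 .nil))
noncomputable def n2547 : Strat := .move 801 n1210 (.cons 756 n2515 .nil)
noncomputable def n2548 : Strat := .move 881 n43 (.cons 716 n36 .nil)
noncomputable def n2549 : Strat := .move 799 n2243 (.cons 880 n2548 .nil)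
noncomputable def n2550 : Strat := .move 758 n2545 (.cons 803 n2546 (.cons 799 n2547 (.cons 801 n2549 .nil)))
noncomputable def n2551 : Strat := .move 716 n594 (.cons 676 n272 .nil)
noncomputable def n2552 : Strat := .move 798 n2471 (.cons 880 n2551 .nil)
noncomputable def n2553 : Strat := .move 717 n2552 (.cons 798 n2547 .nil)
noncomputable def n2554 : Strat := .move 719 n577 (.cons 678 n2180 .nil)
noncomputable def n2555 : Strat := .move 801 n1209 (.cons 802 n2554 .nil)
noncomputable def n2556 : Strat := .move 798 n2367 (.cons 797 n272 .nil)
noncomputable def n2557 : Strat := .move 716 n1212 (.cons 715 n2556 .nil)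
noncomputable def n2558 : Strat := .move 760 n2555 (.cons 801 n2557 .nil)
noncomputable def n2559 : Strat := .win 713 2 713
noncomputable def n2560 : Strat := .win 715 2 714
noncomputable def n2561 : Strat := .move 714 n2559 (.cons 713 n2560 .nil)
noncomputable def n2562 : Strat := .win 795 4 754
noncomputable def n2563 : Strat := .win 797 4 755
noncomputable def n2564 : Strat := .move 796 n2562 (.cons 795 n2563 .nil)
noncomputable def n2565 : Strat := .move 755 n2561 (.cons 715 n2564 .nil)
noncomputable def n2566 : Strat := .move 756 n1189 (.cons 801 n2565 .nil)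
noncomputable def n2567 : Strat := .move 760 n2367 (.cons 797 n1212 .nil)
noncomputable def n2568 : Strat := .move 716 n272 (.cons 881 n2567 .nil)
noncomputable def n2569 : Strat := .move 796 n2494 (.cons 795 n2500 .nil)
noncomputable def n2570 : Strat := .move 797 n1857 (.cons 760 n2569 .nil)
noncomputable def n2571 : Strat := .move 717 n594 (.cons 676 n2471 .nil)
noncomputable def n2572 : Strat := .move 716 n272 (.cons 881 n2571 .nil)
noncomputable def n2573 : Strat := .move 798 n2568 (.cons 716 n2570 (.cons 797 n2572 .nil))
noncomputable def n2574 : Strat := .move 758 n2553 (.cons 756 n2558 (.cons 760 n2566 (.cons 801 n2573 .nil)))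
noncomputable def n2575 : Strat := .move 716 n1212 (.cons 715 n272 .nil)
noncomputable def n2576 : Strat := .move 758 n2367 (.cons 797 n2575 .nil)
noncomputable def n2577 : Strat := .move 678 n2177 (.cons 801 n2176 .nil)
noncomputable def n2578 : Strat := .move 758 n2180 (.cons 720 n2367 .nil)
noncomputable def n2579 : Strat := .move 719 n2577 (.cons 637 n2578 .nil)
noncomputable def n2580 : Strat := .move 760 n2576 (.cons 758 n2456 (.cons 881 n2579 .nil))
noncomputable def n2581 : Strat := .move 799 n2532 (.cons 922 n2026 .nil)
noncomputable def n2582 : Strat := .win 758 0 755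
noncomputable def n2583 : Strat := .win 754 0 754
noncomputable def n2584 : Strat := .move 755 n2582 (.cons 758 n2583 .nil)
noncomputable def n2585 : Strat := .move 756 n1630 (.cons 801 n2584 .nil)
noncomputable def n2586 : Strat := .move 799 n2026 (.cons 796 n2585 .nil)
noncomputable def n2587 : Strat := .move 798 n2539 (.cons 799 n2580 (.cons 963 n2581 (.cons 881 n2586 .nil)))
noncomputable def n2588 : Strat := .win 799 6 675
noncomputable def n2589 : Strat := .move 675 n2588 (.cons 799 n2465 .nil)
noncomputable def n2590 : Strat := .move 716 n272 (.cons 881 n2589 .nil)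
noncomputable def n2591 : Strat := .win 799 0 796
noncomputable def n2592 : Strat := .move 796 n2591 (.cons 799 n2494 .nil)
noncomputable def n2593 : Strat := .move 797 n1857 (.cons 760 n2592 .nil)
noncomputable def n2594 : Strat := .move 758 n2475 (.cons 717 n2593 .nil)
noncomputable def n2595 : Strat := .move 797 n2592 (.cons 795 n2497 .nil)
noncomputable def n2596 : Strat := .move 880 n2459 (.cons 881 n2595 .nil)
noncomputable def n2597 : Strat := .move 798 n2539 (.cons 799 n2456 (.cons 963 n2590 (.cons 881 n2594 (.cons 716 n2596 .nil))))
noncomputable def n2598 : Strat := .win 799 0 755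
noncomputable def n2599 : Strat := .move 755 n2598 (.cons 799 n2561 .nil)
noncomputable def n2600 : Strat := .move 756 n1189 (.cons 801 n2599 .nil)
noncomputable def n2601 : Strat := .move 798 n2475 (.cons 717 n2593 .nil)
noncomputable def n2602 : Strat := .move 758 n2545 (.cons 799 n2547 (.cons 803 n2600 (.cons 801 n2601 .nil)))
noncomputable def n2603 : Strat := .win 758 0 756
noncomputable def n2604 : Strat := .move 756 n1623 (.cons 798 n2603 .nil)
noncomputable def n2605 : Strat := .move 801 n1910 (.cons 802 n2604 .nil)
noncomputable def n2606 : Strat := .move 758 n1210 (.cons 756 n2548 .nil)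
noncomputable def n2607 : Strat := .move 801 n1910 (.cons 802 n2606 .nil)
noncomputable def n2608 : Strat := .move 799 n2605 (.cons 756 n2536 (.cons 798 n2607 (.cons 758 n2533 .nil)))
noncomputable def n2609 : Strat := .move 798 n2541 (.cons 799 n2462 (.cons 801 n2596 .nil))
noncomputable def n2610 : Strat := .move 757 n2537 (.cons 758 n2542 (.cons 798 n2550 (.cons 799 n2574 (.cons 802 n2587 (.cons 801 n2597 (.cons 881 n2602 (.cons 880 n2608 (.cons 716 n2609 .nil))))))))
noncomputable def n2611 : Strat := .move 839 n2442 (.cons 801 n2450 (.cons 799 n2527 (.cons 837 n2529 (.cons 838 n2610 .nil))))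
noncomputable def n2612 : Strat := .move 759 n1543 (.cons 881 n2441 (.cons 799 n2166 (.cons 719 n1542 (.cons 718 n2611 .nil))))
noncomputable def n2613 : Strat := .move 800 n1919 (.cons 881 n2149 (.cons 799 n2213 (.cons 759 n2288 (.cons 801 n2312 (.cons 839 n2322 (.cons 758 n2353 (.cons 923 n2378 (.cons 717 n2393 (.cons 760 n2419 (.cons 924 n2433 (.cons 882 n2612 .nil)))))))))))
noncomputable def n2614 : Strat := .move 841 n165 (.cons 718 n252 (.cons 717 n341 (.cons 803 n454 (.cons 838 n519 (.cons 879 n587 (.cons 843 n612 (.cons 922 n633 (.cons 883 n734 (.cons 921 n749 (.cons 802 n801 (.cons 881 n856 (.cons 801 n894 (.cons 797 n993 (.cons 757 n1021 (.cons 799 n1058 (.cons 800 n1112 (.cons 798 n1132 (.cons 880 n1158 (.cons 882 n1166 (.cons 839 n1895 (.cons 842 n2613 .nil)))))))))))))))))))))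

end Vale.Agent.Snaky.R3_2
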