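import Vale.Agent.Snaky.Assemble

namespace Vale.Agent.Snaky.R3_3

open Vale.Agent.Snaky

noncomputable def n0 : Strat := .win 675 7 675
noncomputable def n1 : Strat := .win 757 7 716
noncomputable def n2 : Strat := .win 677 3 676
noncomputable def n3 : Strat := .win 759 3 717
noncomputable def n4 : Strat := .move 718 n2 (.cons 677 n3 .nil)
noncomputable def n5 : Strat := .move 881 n1 (.cons 757 n4 .nil)
noncomputable def n6 : Strat := .move 716 n0 (.cons 675 n5 .nil)
noncomputable def n7 : Strat := .win 882 6 717
noncomputable def n8 : Strat := .win 800 6 676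
noncomputable def n9 : Strat := .win 880 1 716
noncomputable def n10 : Strat := .win 798 1 675
noncomputable def n11 : Strat := .move 839 n9 (.cons 880 n10 .nil)
noncomputable def n12 : Strat := .move 676 n8 (.cons 800 n11 .nil)
noncomputable def n13 : Strat := .move 841 n7 (.cons 882 n12 .nil)
noncomputable def n14 : Strat := .move 717 n6 (.cons 716 n13 .nil)
noncomputable def n15 : Strat := .win 716 7 716
noncomputable def n16 : Strat := .win 798 7 757
noncomputable def n17 : Strat := .win 718 3 717
noncomputable def n18 : Strat := .win 800 3 758
noncomputable def n19 : Strat := .move 759 n17 (.cons 718 n18 .nil)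
noncomputable def n20 : Strat := .move 922 n16 (.cons 798 n19 .nil)
noncomputable def n21 : Strat := .move 757 n15 (.cons 716 n20 .nil)
noncomputable def n22 : Strat := .win 921 1 757
noncomputable def n23 : Strat := .win 923 6 758
noncomputable def n24 : Strat := .win 839 1 716
noncomputable def n25 : Strat := .win 841 6 717
noncomputable def n26 : Strat := .move 717 n24 (.cons 839 n25 .nil)
noncomputable def n27 : Strat := .move 882 n23 (.cons 923 n26 .nil)
noncomputable def n28 : Strat := .move 880 n22 (.cons 921 n27 .nil)
noncomputable def n29 : Strat := .move 881 n21 (.cons 922 n28 .nil)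
noncomputable def n30 : Strat := .move 882 n25 (.cons 841 n23 .nil)
noncomputable def n31 : Strat := .move 881 n3 (.cons 759 n30 .nil)
noncomputable def n32 : Strat := .move 718 n2 (.cons 677 n31 .nil)
noncomputable def n33 : Strat := .move 880 n24 (.cons 839 n22 .nil)
noncomputable def n34 : Strat := .move 881 n3 (.cons 759 n33 .nil)
noncomputable def n35 : Strat := .move 718 n2 (.cons 677 n34 .nil)
noncomputable def n36 : Strat := .move 717 n13 (.cons 798 n32 (.cons 841 n35 .nil))
noncomputable def n37 : Strat := .move 841 n7 (.cons 882 n8 .nil)
noncomputable def n38 : Strat := .move 676 n10 (.cons 798 n37 .nil)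
noncomputable def n39 : Strat := .move 839 n9 (.cons 880 n38 .nil)
noncomputable def n40 : Strat := .move 881 n1 (.cons 757 n30 .nil)
noncomputable def n41 : Strat := .move 716 n0 (.cons 675 n40 .nil)
noncomputable def n42 : Strat := .win 716 7 675
noncomputable def n43 : Strat := .win 634 7 634
noncomputable def n44 : Strat := .move 675 n42 (.cons 716 n43 .nil)
noncomputable def n45 : Strat := .move 676 n10 (.cons 798 n44 .nil)
noncomputable def n46 : Strat := .move 839 n9 (.cons 880 n45 .nil)
noncomputable def n47 : Strat := .move 717 n39 (.cons 839 n41 (.cons 882 n46 .nil))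
noncomputable def n48 : Strat := .move 757 n15 (.cons 716 n16 .nil)
noncomputable def n49 : Strat := .move 922 n18 (.cons 800 n48 .nil)
noncomputable def n50 : Strat := .move 759 n17 (.cons 718 n49 .nil)
noncomputable def n51 : Strat := .move 716 n0 (.cons 675 n1 .nil)
noncomputable def n52 : Strat := .move 717 n25 (.cons 841 n51 .nil)
noncomputable def n53 : Strat := .move 882 n23 (.cons 923 n52 .nil)
noncomputable def n54 : Strat := .win 882 6 758
noncomputable def n55 : Strat := .win 964 6 799
noncomputable def n56 : Strat := .move 923 n54 (.cons 882 n55 .nil)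
noncomputable def n57 : Strat := .move 922 n18 (.cons 800 n56 .nil)
noncomputable def n58 : Strat := .move 759 n17 (.cons 718 n57 .nil)
noncomputable def n59 : Strat := .move 881 n50 (.cons 759 n53 (.cons 716 n58 .nil))
noncomputable def n60 : Strat := .move 717 n24 (.cons 839 n4 .nil)
noncomputable def n61 : Strat := .move 880 n22 (.cons 921 n60 .nil)
noncomputable def n62 : Strat := .win 880 1 757
noncomputable def n63 : Strat := .win 962 1 798
noncomputable def n64 : Strat := .move 921 n62 (.cons 880 n63 .nil)
noncomputable def n65 : Strat := .move 922 n16 (.cons 798 n64 .nil)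
noncomputable def n66 : Strat := .move 757 n15 (.cons 716 n65 .nil)
noncomputable def n67 : Strat := .move 881 n21 (.cons 757 n61 (.cons 718 n66 .nil))
noncomputable def n68 : Strat := .move 922 n18 (.cons 800 n64 .nil)
noncomputable def n69 : Strat := .move 759 n17 (.cons 718 n68 .nil)
noncomputable def n70 : Strat := .win 801 0 756
noncomputable def n71 : Strat := .win 755 0 755
noncomputable def n72 : Strat := .move 800 n70 (.cons 801 n71 .nil)
noncomputable def n73 : Strat := .win 760 4 756
noncomputable def n74 : Strat := .win 796 4 755
noncomputable def n75 : Strat := .move 797 n73 (.cons 760 n74 .nil)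
noncomputable def n76 : Strat := .win 761 4 757
noncomputable def n77 : Strat := .win 797 4 756
noncomputable def n78 : Strat := .move 760 n76 (.cons 761 n77 .nil)
noncomputable def n79 : Strat := .win 839 7 715
noncomputable def n80 : Strat := .win 714 2 714
noncomputable def n81 : Strat := .move 715 n79 (.cons 839 n80 .nil)
noncomputable def n82 : Strat := .move 798 n75 (.cons 796 n78 (.cons 760 n81 .nil))
noncomputable def n83 : Strat := .move 756 n72 (.cons 755 n82 .nil)
noncomputable def n84 : Strat := .move 880 n22 (.cons 921 n83 .nil)
noncomputable def n85 : Strat := .move 759 n17 (.cons 718 n84 .nil)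
noncomputable def n86 : Strat := .move 757 n15 (.cons 716 n85 .nil)
noncomputable def n87 : Strat := .move 881 n21 (.cons 757 n69 (.cons 800 n66 (.cons 922 n86 .nil)))
noncomputable def n88 : Strat := .move 676 n8 (.cons 800 n44 .nil)
noncomputable def n89 : Strat := .move 841 n7 (.cons 882 n88 .nil)
noncomputable def n90 : Strat := .win 718 3 676
noncomputable def n91 : Strat := .win 636 3 635
noncomputable def n92 : Strat := .move 677 n90 (.cons 718 n91 .nil)
noncomputable def n93 : Strat := .move 676 n10 (.cons 798 n92 .nil)
noncomputable def n94 : Strat := .move 839 n9 (.cons 880 n93 .nil)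
noncomputable def n95 : Strat := .win 760 0 715
noncomputable def n96 : Strat := .win 714 0 714
noncomputable def n97 : Strat := .move 759 n95 (.cons 760 n96 .nil)
noncomputable def n98 : Strat := .win 719 4 715
noncomputable def n99 : Strat := .win 755 4 714
noncomputable def n100 : Strat := .move 756 n98 (.cons 719 n99 .nil)
noncomputable def n101 : Strat := .win 720 4 716
noncomputable def n102 : Strat := .win 756 4 715
noncomputable def n103 : Strat := .move 719 n101 (.cons 720 n102 .nil)
noncomputable def n104 : Strat := .win 798 7 674
noncomputable def n105 : Strat := .win 673 2 673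
noncomputable def n106 : Strat := .move 674 n104 (.cons 798 n105 .nil)
noncomputable def n107 : Strat := .move 757 n100 (.cons 755 n103 (.cons 719 n106 .nil))
noncomputable def n108 : Strat := .move 715 n97 (.cons 714 n107 .nil)
noncomputable def n109 : Strat := .move 839 n9 (.cons 880 n108 .nil)
noncomputable def n110 : Strat := .move 718 n2 (.cons 677 n109 .nil)
noncomputable def n111 : Strat := .move 716 n0 (.cons 675 n110 .nil)
noncomputable def n112 : Strat := .move 717 n39 (.cons 839 n89 (.cons 841 n94 (.cons 676 n111 .nil)))
noncomputable def n113 : Strat := .move 881 n3 (.cons 759 n51 .nil)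
noncomputable def n114 : Strat := .move 718 n2 (.cons 677 n113 .nil)
noncomputable def n115 : Strat := .move 717 n114 (.cons 757 n32 (.cons 718 n89 .nil))
noncomputable def n116 : Strat := .move 881 n1 (.cons 757 n33 .nil)
noncomputable def n117 : Strat := .move 716 n0 (.cons 675 n116 .nil)
noncomputable def n118 : Strat := .move 717 n6 (.cons 716 n94 (.cons 677 n117 .nil))
noncomputable def n119 : Strat := .move 758 n14 (.cons 677 n29 (.cons 757 n36 (.cons 759 n47 (.cons 839 n59 (.cons 841 n67 (.cons 717 n87 (.cons 881 n112 (.cons 798 n115 (.cons 800 n118 .nil)))))))))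
noncomputable def n120 : Strat := .win 757 7 757
noncomputable def n121 : Strat := .win 759 3 758
noncomputable def n122 : Strat := .win 963 7 798
noncomputable def n123 : Strat := .win 801 4 797
noncomputable def n124 : Strat := .win 837 5 796
noncomputable def n125 : Strat := .move 838 n123 (.cons 801 n124 .nil)
noncomputable def n126 : Strat := .move 839 n122 (.cons 963 n125 .nil)
noncomputable def n127 : Strat := .move 800 n121 (.cons 759 n126 .nil)
noncomputable def n128 : Strat := .move 798 n120 (.cons 757 n127 .nil)
noncomputable def n129 : Strat := .move 758 n62 (.cons 880 n19 .nil)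
noncomputable def n130 : Strat := .move 921 n63 (.cons 962 n129 .nil)
noncomputable def n131 : Strat := .move 758 n62 (.cons 880 n48 .nil)
noncomputable def n132 : Strat := .move 921 n63 (.cons 962 n131 .nil)
noncomputable def n133 : Strat := .move 922 n128 (.cons 798 n130 (.cons 800 n132 .nil))
noncomputable def n134 : Strat := .move 882 n23 (.cons 923 n25 .nil)
noncomputable def n135 : Strat := .move 717 n24 (.cons 839 n134 .nil)
noncomputable def n136 : Strat := .move 880 n22 (.cons 921 n135 .nil)
noncomputable def n137 : Strat := .win 717 6 717
noncomputable def n138 : Strat := .win 842 5 838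
noncomputable def n139 : Strat := .win 878 5 837
noncomputable def n140 : Strat := .move 879 n138 (.cons 842 n139 .nil)
noncomputable def n141 : Strat := .move 880 n22 (.cons 921 n140 .nil)
noncomputable def n142 : Strat := .move 841 n137 (.cons 717 n141 .nil)
noncomputable def n143 : Strat := .move 882 n23 (.cons 923 n142 .nil)
noncomputable def n144 : Strat := .move 757 n15 (.cons 716 n143 .nil)
noncomputable def n145 : Strat := .win 922 7 757
noncomputable def n146 : Strat := .win 839 1 675
noncomputable def n147 : Strat := .win 635 1 634
noncomputable def n148 : Strat := .move 676 n146 (.cons 839 n147 .nil)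
noncomputable def n149 : Strat := .move 717 n25 (.cons 841 n148 .nil)
noncomputable def n150 : Strat := .move 882 n23 (.cons 923 n149 .nil)
noncomputable def n151 : Strat := .move 798 n145 (.cons 922 n150 .nil)
noncomputable def n152 : Strat := .move 757 n15 (.cons 716 n151 .nil)
noncomputable def n153 : Strat := .win 919 4 878
noncomputable def n154 : Strat := .win 839 1 756
noncomputable def n155 : Strat := .move 920 n153 (.cons 919 n154 .nil)
noncomputable def n156 : Strat := .move 841 n138 (.cons 842 n139 .nil)
noncomputable def n157 : Strat := .move 879 n155 (.cons 839 n156 .nil)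
noncomputable def n158 : Strat := .move 882 n23 (.cons 923 n157 .nil)
noncomputable def n159 : Strat := .move 880 n22 (.cons 921 n158 .nil)
noncomputable def n160 : Strat := .move 798 n145 (.cons 922 n159 .nil)
noncomputable def n161 : Strat := .move 757 n15 (.cons 716 n160 .nil)
noncomputable def n162 : Strat := .move 716 n1 (.cons 757 n0 .nil)
noncomputable def n163 : Strat := .move 717 n24 (.cons 839 n162 .nil)
noncomputable def n164 : Strat := .move 880 n22 (.cons 921 n163 .nil)
noncomputable def n165 : Strat := .move 758 n136 (.cons 839 n144 (.cons 880 n152 (.cons 717 n161 (.cons 923 n164 .nil))))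
noncomputable def n166 : Strat := .win 717 1 716
noncomputable def n167 : Strat := .win 837 0 837
noncomputable def n168 : Strat := .win 883 2 838
noncomputable def n169 : Strat := .move 838 n167 (.cons 837 n168 .nil)
noncomputable def n170 : Strat := .move 882 n23 (.cons 923 n169 .nil)
noncomputable def n171 : Strat := .move 839 n166 (.cons 717 n170 .nil)
noncomputable def n172 : Strat := .move 880 n22 (.cons 921 n171 .nil)
noncomputable def n173 : Strat := .win 922 3 758
noncomputable def n174 : Strat := .win 719 3 718
noncomputable def n175 : Strat := .win 762 4 758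
noncomputable def n176 : Strat := .win 798 4 757
noncomputable def n177 : Strat := .move 761 n175 (.cons 762 n176 .nil)
noncomputable def n178 : Strat := .move 760 n174 (.cons 719 n177 .nil)
noncomputable def n179 : Strat := .move 841 n137 (.cons 717 n178 .nil)
noncomputable def n180 : Strat := .move 882 n23 (.cons 923 n179 .nil)
noncomputable def n181 : Strat := .move 800 n173 (.cons 922 n180 .nil)
noncomputable def n182 : Strat := .move 759 n17 (.cons 718 n181 .nil)
noncomputable def n183 : Strat := .win 757 6 757
noncomputable def n184 : Strat := .move 798 n122 (.cons 963 n183 .nil)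
noncomputable def n185 : Strat := .move 922 n18 (.cons 800 n184 .nil)
noncomputable def n186 : Strat := .move 759 n17 (.cons 718 n185 .nil)
noncomputable def n187 : Strat := .move 839 n166 (.cons 717 n186 .nil)
noncomputable def n188 : Strat := .move 880 n22 (.cons 921 n187 .nil)
noncomputable def n189 : Strat := .win 925 0 880
noncomputable def n190 : Strat := .win 841 6 759
noncomputable def n191 : Strat := .move 924 n189 (.cons 925 n190 .nil)
noncomputable def n192 : Strat := .win 838 2 838
noncomputable def n193 : Strat := .win 884 2 839
noncomputable def n194 : Strat := .move 839 n192 (.cons 838 n193 .nil)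
noncomputable def n195 : Strat := .move 883 n191 (.cons 841 n194 .nil)
noncomputable def n196 : Strat := .move 880 n22 (.cons 921 n195 .nil)
noncomputable def n197 : Strat := .move 882 n23 (.cons 923 n196 .nil)
noncomputable def n198 : Strat := .move 800 n173 (.cons 922 n197 .nil)
noncomputable def n199 : Strat := .move 759 n17 (.cons 718 n198 .nil)
noncomputable def n200 : Strat := .move 758 n172 (.cons 880 n182 (.cons 923 n188 (.cons 717 n199 .nil)))
noncomputable def n201 : Strat := .win 841 3 799
noncomputable def n202 : Strat := .win 839 7 798
noncomputable def n203 : Strat := .move 963 n201 (.cons 841 n202 .nil)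
noncomputable def n204 : Strat := .move 800 n121 (.cons 759 n203 .nil)
noncomputable def n205 : Strat := .move 798 n120 (.cons 757 n204 .nil)
noncomputable def n206 : Strat := .win 921 1 798
noncomputable def n207 : Strat := .win 1003 1 839
noncomputable def n208 : Strat := .move 962 n206 (.cons 921 n207 .nil)
noncomputable def n209 : Strat := .move 963 n201 (.cons 841 n208 .nil)
noncomputable def n210 : Strat := .move 800 n121 (.cons 759 n209 .nil)
noncomputable def n211 : Strat := .win 842 0 797
noncomputable def n212 : Strat := .win 796 0 796
noncomputable def n213 : Strat := .move 841 n211 (.cons 842 n212 .nil)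
noncomputable def n214 : Strat := .win 837 4 796
noncomputable def n215 : Strat := .move 838 n123 (.cons 801 n214 .nil)
noncomputable def n216 : Strat := .win 802 4 798
noncomputable def n217 : Strat := .win 838 4 797
noncomputable def n218 : Strat := .move 801 n216 (.cons 802 n217 .nil)
noncomputable def n219 : Strat := .win 880 7 756
noncomputable def n220 : Strat := .win 755 2 755
noncomputable def n221 : Strat := .move 756 n219 (.cons 880 n220 .nil)
noncomputable def n222 : Strat := .move 839 n215 (.cons 837 n218 (.cons 801 n221 .nil))
noncomputable def n223 : Strat := .move 797 n213 (.cons 796 n222 .nil)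
noncomputable def n224 : Strat := .move 921 n63 (.cons 962 n223 .nil)
noncomputable def n225 : Strat := .move 800 n121 (.cons 759 n224 .nil)
noncomputable def n226 : Strat := .move 798 n120 (.cons 757 n225 .nil)
noncomputable def n227 : Strat := .win 756 7 756
noncomputable def n228 : Strat := .win 795 0 795
noncomputable def n229 : Strat := .win 841 0 796
noncomputable def n230 : Strat := .move 796 n228 (.cons 795 n229 .nil)
noncomputable def n231 : Strat := .move 797 n227 (.cons 756 n230 .nil)
noncomputable def n232 : Strat := .win 961 1 797
noncomputable def n233 : Strat := .win 883 4 879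
noncomputable def n234 : Strat := .win 919 5 878
noncomputable def n235 : Strat := .move 882 n233 (.cons 883 n234 .nil)
noncomputable def n236 : Strat := .move 920 n232 (.cons 961 n235 .nil)
noncomputable def n237 : Strat := .move 880 n231 (.cons 797 n236 .nil)
noncomputable def n238 : Strat := .move 921 n63 (.cons 962 n237 .nil)
noncomputable def n239 : Strat := .move 839 n122 (.cons 963 n238 .nil)
noncomputable def n240 : Strat := .move 798 n120 (.cons 757 n239 .nil)
noncomputable def n241 : Strat := .move 800 n121 (.cons 759 n125 .nil)
noncomputable def n242 : Strat := .move 839 n122 (.cons 963 n241 .nil)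
noncomputable def n243 : Strat := .move 798 n120 (.cons 757 n242 .nil)
noncomputable def n244 : Strat := .move 922 n205 (.cons 798 n210 (.cons 963 n226 (.cons 800 n240 (.cons 841 n243 .nil))))
noncomputable def n245 : Strat := .move 718 n3 (.cons 759 n2 .nil)
noncomputable def n246 : Strat := .move 717 n24 (.cons 839 n245 .nil)
noncomputable def n247 : Strat := .move 880 n22 (.cons 921 n246 .nil)
noncomputable def n248 : Strat := .move 759 n17 (.cons 718 n144 .nil)
noncomputable def n249 : Strat := .move 717 n25 (.cons 841 n162 .nil)
noncomputable def n250 : Strat := .move 882 n23 (.cons 923 n249 .nil)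
noncomputable def n251 : Strat := .move 758 n247 (.cons 839 n248 (.cons 717 n86 (.cons 921 n250 .nil)))
noncomputable def n252 : Strat := .win 756 0 756
noncomputable def n253 : Strat := .win 802 2 757
noncomputable def n254 : Strat := .move 801 n252 (.cons 756 n253 .nil)
noncomputable def n255 : Strat := .move 757 n15 (.cons 716 n254 .nil)
noncomputable def n256 : Strat := .move 800 n173 (.cons 922 n255 .nil)
noncomputable def n257 : Strat := .move 759 n17 (.cons 718 n256 .nil)
noncomputable def n258 : Strat := .move 758 n247 (.cons 759 n136 (.cons 717 n257 .nil))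
noncomputable def n259 : Strat := .move 758 n136 (.cons 717 n199 (.cons 839 n182 (.cons 882 n247 .nil)))
noncomputable def n260 : Strat := .move 800 n173 (.cons 922 n254 .nil)
noncomputable def n261 : Strat := .move 757 n15 (.cons 716 n260 .nil)
noncomputable def n262 : Strat := .move 759 n17 (.cons 718 n261 .nil)
noncomputable def n263 : Strat := .move 758 n262 (.cons 759 n144 (.cons 757 n182 .nil))
noncomputable def n264 : Strat := .move 801 n253 (.cons 802 n252 .nil)
noncomputable def n265 : Strat := .move 800 n173 (.cons 922 n264 .nil)
noncomputable def n266 : Strat := .move 759 n17 (.cons 718 n265 .nil)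
noncomputable def n267 : Strat := .move 757 n15 (.cons 716 n266 .nil)
noncomputable def n268 : Strat := .move 758 n267 (.cons 757 n182 (.cons 922 n250 .nil))
noncomputable def n269 : Strat := .move 881 n133 (.cons 759 n165 (.cons 716 n200 (.cons 758 n244 (.cons 922 n251 (.cons 798 n258 (.cons 757 n259 (.cons 839 n263 (.cons 921 n268 .nil))))))))
noncomputable def n270 : Strat := .move 798 n120 (.cons 757 n202 .nil)
noncomputable def n271 : Strat := .move 963 n201 (.cons 841 n270 .nil)
noncomputable def n272 : Strat := .move 800 n121 (.cons 759 n271 .nil)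
noncomputable def n273 : Strat := .move 758 n54 (.cons 882 n64 .nil)
noncomputable def n274 : Strat := .move 923 n55 (.cons 964 n273 .nil)
noncomputable def n275 : Strat := .move 922 n272 (.cons 841 n132 (.cons 798 n274 .nil))
noncomputable def n276 : Strat := .move 922 n18 (.cons 800 n16 .nil)
noncomputable def n277 : Strat := .move 759 n17 (.cons 718 n276 .nil)
noncomputable def n278 : Strat := .move 757 n15 (.cons 716 n277 .nil)
noncomputable def n279 : Strat := .move 758 n136 (.cons 841 n278 .nil)
noncomputable def n280 : Strat := .move 838 n168 (.cons 883 n167 .nil)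
noncomputable def n281 : Strat := .move 883 n193 (.cons 884 n192 .nil)
noncomputable def n282 : Strat := .win 798 1 756
noncomputable def n283 : Strat := .move 920 n282 (.cons 798 n153 .nil)
noncomputable def n284 : Strat := .move 839 n280 (.cons 837 n281 (.cons 883 n283 .nil))
noncomputable def n285 : Strat := .move 879 n156 (.cons 878 n284 .nil)
noncomputable def n286 : Strat := .move 757 n15 (.cons 716 n285 .nil)
noncomputable def n287 : Strat := .move 882 n23 (.cons 923 n286 .nil)
noncomputable def n288 : Strat := .move 880 n22 (.cons 921 n287 .nil)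
noncomputable def n289 : Strat := .move 758 n136 (.cons 841 n164 (.cons 880 n250 (.cons 717 n288 .nil)))
noncomputable def n290 : Strat := .move 758 n54 (.cons 882 n48 .nil)
noncomputable def n291 : Strat := .move 923 n55 (.cons 964 n290 .nil)
noncomputable def n292 : Strat := .move 922 n272 (.cons 839 n210 (.cons 800 n291 .nil))
noncomputable def n293 : Strat := .move 922 n272 (.cons 841 n132 (.cons 798 n210 .nil))
noncomputable def n294 : Strat := .move 880 n22 (.cons 921 n24 .nil)
noncomputable def n295 : Strat := .move 717 n25 (.cons 841 n294 .nil)
noncomputable def n296 : Strat := .move 882 n23 (.cons 923 n295 .nil)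
noncomputable def n297 : Strat := .move 717 n25 (.cons 841 n245 .nil)
noncomputable def n298 : Strat := .move 882 n23 (.cons 923 n297 .nil)
noncomputable def n299 : Strat := .move 758 n296 (.cons 839 n298 (.cons 882 n69 .nil))
noncomputable def n300 : Strat := .move 963 n202 (.cons 839 n208 .nil)
noncomputable def n301 : Strat := .move 798 n120 (.cons 757 n300 .nil)
noncomputable def n302 : Strat := .move 758 n62 (.cons 880 n56 .nil)
noncomputable def n303 : Strat := .move 921 n63 (.cons 962 n302 .nil)
noncomputable def n304 : Strat := .move 922 n132 (.cons 758 n301 (.cons 962 n291 (.cons 798 n303 .nil)))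
noncomputable def n305 : Strat := .move 758 n267 (.cons 756 n250 (.cons 757 n298 .nil))
noncomputable def n306 : Strat := .move 839 n216 (.cons 802 n217 .nil)
noncomputable def n307 : Strat := .win 839 4 798
noncomputable def n308 : Strat := .win 844 0 799
noncomputable def n309 : Strat := .win 842 0 798
noncomputable def n310 : Strat := .move 843 n308 (.cons 844 n309 .nil)
noncomputable def n311 : Strat := .move 802 n307 (.cons 839 n310 .nil)
noncomputable def n312 : Strat := .win 843 0 798
noncomputable def n313 : Strat := .win 841 0 797
noncomputable def n314 : Strat := .move 842 n312 (.cons 843 n313 .nil)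
noncomputable def n315 : Strat := .win 839 4 797
noncomputable def n316 : Strat := .move 838 n315 (.cons 839 n214 .nil)
noncomputable def n317 : Strat := .move 797 n314 (.cons 841 n316 .nil)
noncomputable def n318 : Strat := .win 762 5 758
noncomputable def n319 : Strat := .win 760 5 757
noncomputable def n320 : Strat := .move 761 n318 (.cons 762 n319 .nil)
noncomputable def n321 : Strat := .move 802 n310 (.cons 842 n320 .nil)
noncomputable def n322 : Strat := .move 801 n306 (.cons 838 n311 (.cons 802 n317 (.cons 839 n321 .nil)))
noncomputable def n323 : Strat := .move 921 n63 (.cons 962 n322 .nil)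
noncomputable def n324 : Strat := .move 800 n121 (.cons 759 n323 .nil)
noncomputable def n325 : Strat := .move 798 n120 (.cons 757 n324 .nil)
noncomputable def n326 : Strat := .move 922 n272 (.cons 798 n210 (.cons 841 n301 (.cons 963 n325 .nil)))
noncomputable def n327 : Strat := .move 881 n275 (.cons 963 n279 (.cons 922 n289 (.cons 880 n292 (.cons 882 n293 (.cons 798 n299 (.cons 841 n304 (.cons 921 n305 (.cons 758 n326 .nil))))))))
noncomputable def n328 : Strat := .move 758 n136 (.cons 717 n66 (.cons 921 n250 .nil))
noncomputable def n329 : Strat := .move 758 n164 (.cons 880 n250 (.cons 675 n28 (.cons 717 n288 .nil)))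
noncomputable def n330 : Strat := .move 922 n16 (.cons 798 n56 .nil)
noncomputable def n331 : Strat := .move 757 n15 (.cons 716 n330 .nil)
noncomputable def n332 : Strat := .move 962 n207 (.cons 1003 n206 .nil)
noncomputable def n333 : Strat := .win 1005 6 840
noncomputable def n334 : Strat := .win 923 6 799
noncomputable def n335 : Strat := .move 964 n333 (.cons 1005 n334 .nil)
noncomputable def n336 : Strat := .move 963 n332 (.cons 921 n335 .nil)
noncomputable def n337 : Strat := .move 717 n2 (.cons 677 n336 .nil)
noncomputable def n338 : Strat := .move 718 n3 (.cons 759 n337 .nil)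
noncomputable def n339 : Strat := .move 922 n16 (.cons 798 n338 .nil)
noncomputable def n340 : Strat := .move 757 n15 (.cons 716 n339 .nil)
noncomputable def n341 : Strat := .win 796 5 755
noncomputable def n342 : Strat := .move 797 n73 (.cons 760 n341 .nil)
noncomputable def n343 : Strat := .move 759 n17 (.cons 718 n342 .nil)
noncomputable def n344 : Strat := .move 798 n145 (.cons 922 n343 .nil)
noncomputable def n345 : Strat := .move 757 n15 (.cons 716 n344 .nil)
noncomputable def n346 : Strat := .move 758 n250 (.cons 716 n298 (.cons 717 n331 (.cons 882 n340 (.cons 923 n345 .nil))))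
noncomputable def n347 : Strat := .move 758 n164 (.cons 880 n340 (.cons 717 n66 (.cons 757 n247 (.cons 921 n345 .nil))))
noncomputable def n348 : Strat := .move 758 n250 (.cons 882 n345 (.cons 757 n298 .nil))
noncomputable def n349 : Strat := .move 758 n164 (.cons 880 n345 (.cons 757 n247 .nil))
noncomputable def n350 : Strat := .move 841 n139 (.cons 878 n138 .nil)
noncomputable def n351 : Strat := .win 841 5 837
noncomputable def n352 : Strat := .win 836 2 836
noncomputable def n353 : Strat := .win 838 2 837
noncomputable def n354 : Strat := .move 837 n352 (.cons 836 n353 .nil)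
noncomputable def n355 : Strat := .move 878 n351 (.cons 841 n354 .nil)
noncomputable def n356 : Strat := .win 918 4 877
noncomputable def n357 : Strat := .win 920 4 878
noncomputable def n358 : Strat := .move 919 n356 (.cons 918 n357 .nil)
noncomputable def n359 : Strat := .move 878 n352 (.cons 836 n358 .nil)
noncomputable def n360 : Strat := .move 837 n353 (.cons 838 n359 .nil)
noncomputable def n361 : Strat := .win 841 5 838
noncomputable def n362 : Strat := .win 843 5 839
noncomputable def n363 : Strat := .win 839 2 838
noncomputable def n364 : Strat := .win 837 2 837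
noncomputable def n365 : Strat := .move 838 n363 (.cons 839 n364 .nil)
noncomputable def n366 : Strat := .move 883 n362 (.cons 843 n365 .nil)
noncomputable def n367 : Strat := .move 842 n361 (.cons 841 n366 .nil)
noncomputable def n368 : Strat := .move 879 n350 (.cons 842 n355 (.cons 841 n360 (.cons 878 n367 .nil)))
noncomputable def n369 : Strat := .move 882 n23 (.cons 923 n368 .nil)
noncomputable def n370 : Strat := .move 880 n22 (.cons 921 n369 .nil)
noncomputable def n371 : Strat := .move 758 n28 (.cons 839 n298 (.cons 841 n247 (.cons 717 n370 .nil)))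
noncomputable def n372 : Strat := .win 758 1 757
noncomputable def n373 : Strat := .win 878 0 878
noncomputable def n374 : Strat := .win 924 2 879
noncomputable def n375 : Strat := .move 879 n373 (.cons 878 n374 .nil)
noncomputable def n376 : Strat := .move 923 n55 (.cons 964 n375 .nil)
noncomputable def n377 : Strat := .move 880 n372 (.cons 758 n376 .nil)
noncomputable def n378 : Strat := .move 921 n63 (.cons 962 n377 .nil)
noncomputable def n379 : Strat := .win 758 6 758
noncomputable def n380 : Strat := .win 839 2 839
noncomputable def n381 : Strat := .win 921 4 880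
noncomputable def n382 : Strat := .move 884 n380 (.cons 839 n381 .nil)
noncomputable def n383 : Strat := .win 885 4 881
noncomputable def n384 : Strat := .move 884 n381 (.cons 921 n383 .nil)
noncomputable def n385 : Strat := .win 924 0 879
noncomputable def n386 : Strat := .move 879 n385 (.cons 924 n373 .nil)
noncomputable def n387 : Strat := .win 879 0 879
noncomputable def n388 : Strat := .move 924 n387 (.cons 879 n189 .nil)
noncomputable def n389 : Strat := .win 921 4 879
noncomputable def n390 : Strat := .move 879 n153 (.cons 919 n373 .nil)
noncomputable def n391 : Strat := .move 920 n389 (.cons 921 n390 .nil)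
noncomputable def n392 : Strat := .move 839 n192 (.cons 838 n184 .nil)
noncomputable def n393 : Strat := .move 880 n386 (.cons 878 n388 (.cons 924 n391 (.cons 879 n392 .nil)))
noncomputable def n394 : Strat := .move 884 n380 (.cons 839 n383 .nil)
noncomputable def n395 : Strat := .move 883 n382 (.cons 839 n384 (.cons 884 n393 (.cons 921 n394 .nil)))
noncomputable def n396 : Strat := .move 882 n379 (.cons 758 n395 .nil)
noncomputable def n397 : Strat := .move 923 n55 (.cons 964 n396 .nil)
noncomputable def n398 : Strat := .move 964 n334 (.cons 923 n333 .nil)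
noncomputable def n399 : Strat := .move 963 n202 (.cons 839 n398 .nil)
noncomputable def n400 : Strat := .move 798 n120 (.cons 757 n399 .nil)
noncomputable def n401 : Strat := .move 922 n378 (.cons 962 n397 (.cons 758 n301 (.cons 921 n400 .nil)))
noncomputable def n402 : Strat := .win 883 5 879
noncomputable def n403 : Strat := .move 882 n402 (.cons 883 n234 .nil)
noncomputable def n404 : Strat := .move 879 n374 (.cons 924 n373 .nil)
noncomputable def n405 : Strat := .win 925 2 880
noncomputable def n406 : Strat := .win 879 2 879
noncomputable def n407 : Strat := .move 924 n405 (.cons 925 n406 .nil)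
noncomputable def n408 : Strat := .win 839 1 797
noncomputable def n409 : Strat := .win 960 4 919
noncomputable def n410 : Strat := .move 961 n408 (.cons 839 n409 .nil)
noncomputable def n411 : Strat := .move 880 n404 (.cons 878 n407 (.cons 924 n410 .nil))
noncomputable def n412 : Strat := .move 920 n403 (.cons 919 n411 .nil)
noncomputable def n413 : Strat := .move 923 n55 (.cons 964 n412 .nil)
noncomputable def n414 : Strat := .move 921 n63 (.cons 962 n413 .nil)
noncomputable def n415 : Strat := .move 880 n406 (.cons 879 n405 .nil)
noncomputable def n416 : Strat := .win 880 2 879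
noncomputable def n417 : Strat := .win 878 2 878
noncomputable def n418 : Strat := .move 879 n416 (.cons 880 n417 .nil)
noncomputable def n419 : Strat := .win 884 5 880
noncomputable def n420 : Strat := .win 882 5 879
noncomputable def n421 : Strat := .move 883 n419 (.cons 884 n420 .nil)
noncomputable def n422 : Strat := .move 924 n415 (.cons 925 n418 (.cons 879 n421 .nil))
noncomputable def n423 : Strat := .win 882 5 878
noncomputable def n424 : Strat := .win 877 2 877
noncomputable def n425 : Strat := .win 879 2 878
noncomputable def n426 : Strat := .move 878 n424 (.cons 877 n425 .nil)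
noncomputable def n427 : Strat := .move 919 n423 (.cons 882 n426 .nil)
noncomputable def n428 : Strat := .win 959 4 918
noncomputable def n429 : Strat := .win 961 4 919
noncomputable def n430 : Strat := .move 960 n428 (.cons 959 n429 .nil)
noncomputable def n431 : Strat := .move 919 n426 (.cons 879 n430 .nil)
noncomputable def n432 : Strat := .move 920 n403 (.cons 919 n422 (.cons 883 n427 (.cons 882 n431 .nil)))
noncomputable def n433 : Strat := .move 921 n63 (.cons 962 n432 .nil)
noncomputable def n434 : Strat := .move 923 n55 (.cons 964 n433 .nil)
noncomputable def n435 : Strat := .move 798 n300 (.cons 963 n414 (.cons 839 n434 (.cons 921 n399 .nil)))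
noncomputable def n436 : Strat := .move 798 n120 (.cons 757 n412 .nil)
noncomputable def n437 : Strat := .move 923 n55 (.cons 964 n436 .nil)
noncomputable def n438 : Strat := .move 921 n63 (.cons 962 n437 .nil)
noncomputable def n439 : Strat := .move 798 n120 (.cons 757 n434 .nil)
noncomputable def n440 : Strat := .move 882 n234 (.cons 919 n402 .nil)
noncomputable def n441 : Strat := .move 919 n424 (.cons 877 n430 .nil)
noncomputable def n442 : Strat := .move 878 n425 (.cons 879 n441 .nil)
noncomputable def n443 : Strat := .move 924 n419 (.cons 884 n416 .nil)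
noncomputable def n444 : Strat := .move 879 n417 (.cons 878 n443 .nil)
noncomputable def n445 : Strat := .move 883 n420 (.cons 882 n444 .nil)
noncomputable def n446 : Strat := .move 920 n440 (.cons 883 n427 (.cons 882 n442 (.cons 919 n445 .nil)))
noncomputable def n447 : Strat := .move 921 n63 (.cons 962 n446 .nil)
noncomputable def n448 : Strat := .move 923 n55 (.cons 964 n447 .nil)
noncomputable def n449 : Strat := .move 922 n301 (.cons 921 n400 (.cons 757 n435 (.cons 963 n438 (.cons 839 n439 (.cons 798 n448 .nil)))))
noncomputable def n450 : Strat := .move 881 n328 (.cons 922 n329 (.cons 880 n346 (.cons 882 n347 (.cons 921 n348 (.cons 923 n349 (.cons 757 n371 (.cons 717 n401 (.cons 758 n449 .nil))))))))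
noncomputable def n451 : Strat := .move 717 n24 (.cons 839 n51 .nil)
noncomputable def n452 : Strat := .move 880 n22 (.cons 921 n451 .nil)
noncomputable def n453 : Strat := .move 881 n61 (.cons 677 n452 (.cons 880 n257 .nil))
noncomputable def n454 : Strat := .move 717 n32 (.cons 718 n89 (.cons 841 n35 .nil))
noncomputable def n455 : Strat := .win 843 4 839
noncomputable def n456 : Strat := .win 879 5 838
noncomputable def n457 : Strat := .move 842 n455 (.cons 843 n456 .nil)
noncomputable def n458 : Strat := .move 841 n137 (.cons 717 n457 .nil)
noncomputable def n459 : Strat := .move 880 n22 (.cons 921 n458 .nil)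
noncomputable def n460 : Strat := .move 882 n23 (.cons 923 n459 .nil)
noncomputable def n461 : Strat := .win 922 1 758
noncomputable def n462 : Strat := .move 756 n70 (.cons 801 n71 .nil)
noncomputable def n463 : Strat := .move 757 n15 (.cons 716 n462 .nil)
noncomputable def n464 : Strat := .move 800 n461 (.cons 922 n463 .nil)
noncomputable def n465 : Strat := .move 759 n17 (.cons 718 n464 .nil)
noncomputable def n466 : Strat := .move 841 n137 (.cons 717 n465 .nil)
noncomputable def n467 : Strat := .move 882 n23 (.cons 923 n466 .nil)
noncomputable def n468 : Strat := .move 881 n460 (.cons 921 n467 (.cons 841 n69 .nil))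
noncomputable def n469 : Strat := .win 676 6 676
noncomputable def n470 : Strat := .win 801 5 797
noncomputable def n471 : Strat := .move 838 n470 (.cons 801 n124 .nil)
noncomputable def n472 : Strat := .move 839 n9 (.cons 880 n471 .nil)
noncomputable def n473 : Strat := .move 800 n469 (.cons 676 n472 .nil)
noncomputable def n474 : Strat := .move 841 n7 (.cons 882 n473 .nil)
noncomputable def n475 : Strat := .move 716 n0 (.cons 675 n474 .nil)
noncomputable def n476 : Strat := .move 718 n2 (.cons 677 n475 .nil)
noncomputable def n477 : Strat := .move 757 n101 (.cons 720 n102 .nil)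
noncomputable def n478 : Strat := .win 757 4 716
noncomputable def n479 : Strat := .win 762 0 717
noncomputable def n480 : Strat := .win 760 0 716
noncomputable def n481 : Strat := .move 761 n479 (.cons 762 n480 .nil)
noncomputable def n482 : Strat := .move 720 n478 (.cons 757 n481 .nil)
noncomputable def n483 : Strat := .win 680 5 676
noncomputable def n484 : Strat := .win 678 5 675
noncomputable def n485 : Strat := .move 679 n483 (.cons 680 n484 .nil)
noncomputable def n486 : Strat := .move 720 n479 (.cons 762 n485 .nil)
noncomputable def n487 : Strat := .move 761 n480 (.cons 760 n486 .nil)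
noncomputable def n488 : Strat := .win 757 4 715
noncomputable def n489 : Strat := .move 715 n99 (.cons 755 n97 .nil)
noncomputable def n490 : Strat := .move 756 n488 (.cons 757 n489 .nil)
noncomputable def n491 : Strat := .move 719 n477 (.cons 756 n482 (.cons 757 n487 (.cons 720 n490 .nil)))
noncomputable def n492 : Strat := .move 716 n0 (.cons 675 n491 .nil)
noncomputable def n493 : Strat := .move 718 n2 (.cons 677 n492 .nil)
noncomputable def n494 : Strat := .move 676 n8 (.cons 800 n92 .nil)
noncomputable def n495 : Strat := .move 841 n7 (.cons 882 n494 .nil)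
noncomputable def n496 : Strat := .move 717 n476 (.cons 839 n89 (.cons 841 n493 (.cons 716 n495 .nil)))
noncomputable def n497 : Strat := .win 881 7 716
noncomputable def n498 : Strat := .win 755 5 714
noncomputable def n499 : Strat := .move 756 n498 (.cons 755 n98 .nil)
noncomputable def n500 : Strat := .move 757 n497 (.cons 881 n499 .nil)
noncomputable def n501 : Strat := .move 716 n0 (.cons 675 n500 .nil)
noncomputable def n502 : Strat := .move 718 n2 (.cons 677 n501 .nil)
noncomputable def n503 : Strat := .move 717 n502 (.cons 716 n495 (.cons 718 n89 .nil))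
noncomputable def n504 : Strat := .move 880 n22 (.cons 921 n26 .nil)
noncomputable def n505 : Strat := .move 882 n23 (.cons 923 n504 .nil)
noncomputable def n506 : Strat := .win 841 5 797
noncomputable def n507 : Strat := .move 838 n506 (.cons 841 n124 .nil)
noncomputable def n508 : Strat := .move 801 n216 (.cons 802 n507 .nil)
noncomputable def n509 : Strat := .move 839 n166 (.cons 717 n508 .nil)
noncomputable def n510 : Strat := .move 800 n173 (.cons 922 n509 .nil)
noncomputable def n511 : Strat := .move 759 n17 (.cons 718 n510 .nil)
noncomputable def n512 : Strat := .move 880 n22 (.cons 921 n511 .nil)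
noncomputable def n513 : Strat := .win 924 6 759
noncomputable def n514 : Strat := .win 838 0 838
noncomputable def n515 : Strat := .move 839 n514 (.cons 838 n193 .nil)
noncomputable def n516 : Strat := .move 883 n513 (.cons 924 n515 .nil)
noncomputable def n517 : Strat := .move 841 n137 (.cons 717 n516 .nil)
noncomputable def n518 : Strat := .move 800 n173 (.cons 922 n517 .nil)
noncomputable def n519 : Strat := .move 759 n17 (.cons 718 n518 .nil)
noncomputable def n520 : Strat := .move 882 n23 (.cons 923 n519 .nil)
noncomputable def n521 : Strat := .move 881 n505 (.cons 882 n512 (.cons 880 n520 (.cons 717 n69 .nil)))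
noncomputable def n522 : Strat := .move 839 n193 (.cons 884 n192 .nil)
noncomputable def n523 : Strat := .win 926 0 881
noncomputable def n524 : Strat := .win 924 0 880
noncomputable def n525 : Strat := .move 925 n523 (.cons 926 n524 .nil)
noncomputable def n526 : Strat := .move 884 n380 (.cons 839 n525 .nil)
noncomputable def n527 : Strat := .move 879 n365 (.cons 837 n156 .nil)
noncomputable def n528 : Strat := .win 844 5 840
noncomputable def n529 : Strat := .win 842 5 839
noncomputable def n530 : Strat := .move 843 n528 (.cons 844 n529 .nil)
noncomputable def n531 : Strat := .move 884 n525 (.cons 924 n530 .nil)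
noncomputable def n532 : Strat := .move 883 n522 (.cons 838 n526 (.cons 884 n527 (.cons 839 n531 .nil)))
noncomputable def n533 : Strat := .move 882 n23 (.cons 923 n532 .nil)
noncomputable def n534 : Strat := .move 880 n22 (.cons 921 n533 .nil)
noncomputable def n535 : Strat := .move 759 n17 (.cons 718 n534 .nil)
noncomputable def n536 : Strat := .move 881 n28 (.cons 880 n53 (.cons 841 n452 (.cons 717 n535 .nil)))
noncomputable def n537 : Strat := .win 838 5 797
noncomputable def n538 : Strat := .move 801 n216 (.cons 802 n537 .nil)
noncomputable def n539 : Strat := .move 839 n9 (.cons 880 n538 .nil)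
noncomputable def n540 : Strat := .move 800 n469 (.cons 676 n539 .nil)
noncomputable def n541 : Strat := .move 841 n7 (.cons 882 n540 .nil)
noncomputable def n542 : Strat := .move 717 n89 (.cons 882 n117 (.cons 675 n541 .nil))
noncomputable def n543 : Strat := .move 800 n173 (.cons 922 n463 .nil)
noncomputable def n544 : Strat := .move 759 n17 (.cons 718 n543 .nil)
noncomputable def n545 : Strat := .move 880 n22 (.cons 921 n544 .nil)
noncomputable def n546 : Strat := .move 882 n23 (.cons 923 n545 .nil)
noncomputable def n547 : Strat := .move 883 n362 (.cons 843 n194 .nil)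
noncomputable def n548 : Strat := .move 842 n361 (.cons 841 n547 .nil)
noncomputable def n549 : Strat := .move 879 n350 (.cons 841 n360 (.cons 878 n548 .nil))
noncomputable def n550 : Strat := .move 880 n22 (.cons 921 n549 .nil)
noncomputable def n551 : Strat := .move 882 n23 (.cons 923 n550 .nil)
noncomputable def n552 : Strat := .move 881 n546 (.cons 921 n257 (.cons 716 n69 (.cons 800 n535 (.cons 759 n551 .nil))))
noncomputable def n553 : Strat := .move 758 n115 (.cons 923 n453 (.cons 757 n454 (.cons 675 n468 (.cons 881 n496 (.cons 759 n503 (.cons 716 n521 (.cons 800 n536 (.cons 718 n542 (.cons 717 n552 .nil)))))))))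
noncomputable def n554 : Strat := .move 758 n21 (.cons 757 n69 (.cons 800 n66 (.cons 922 n86 .nil)))
noncomputable def n555 : Strat := .move 842 n456 (.cons 879 n455 .nil)
noncomputable def n556 : Strat := .win 800 6 759
noncomputable def n557 : Strat := .move 924 n556 (.cons 800 n189 .nil)
noncomputable def n558 : Strat := .move 841 n140 (.cons 878 n555 (.cons 842 n557 .nil))
noncomputable def n559 : Strat := .move 883 n522 (.cons 838 n526 (.cons 884 n558 .nil))
noncomputable def n560 : Strat := .move 759 n17 (.cons 718 n559 .nil)
noncomputable def n561 : Strat := .move 882 n23 (.cons 923 n560 .nil)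
noncomputable def n562 : Strat := .move 880 n22 (.cons 921 n561 .nil)
noncomputable def n563 : Strat := .move 798 n76 (.cons 761 n77 .nil)
noncomputable def n564 : Strat := .win 803 0 758
noncomputable def n565 : Strat := .win 801 0 757
noncomputable def n566 : Strat := .move 802 n564 (.cons 803 n565 .nil)
noncomputable def n567 : Strat := .move 761 n176 (.cons 798 n566 .nil)
noncomputable def n568 : Strat := .win 802 0 757
noncomputable def n569 : Strat := .move 801 n252 (.cons 756 n568 .nil)
noncomputable def n570 : Strat := .win 841 3 718
noncomputable def n571 : Strat := .win 720 5 716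
noncomputable def n572 : Strat := .move 719 n570 (.cons 841 n571 .nil)
noncomputable def n573 : Strat := .move 800 n462 (.cons 755 n569 (.cons 801 n572 .nil))
noncomputable def n574 : Strat := .move 760 n563 (.cons 797 n567 (.cons 761 n573 .nil))
noncomputable def n575 : Strat := .move 882 n23 (.cons 923 n574 .nil)
noncomputable def n576 : Strat := .move 759 n17 (.cons 718 n575 .nil)
noncomputable def n577 : Strat := .move 757 n15 (.cons 716 n576 .nil)
noncomputable def n578 : Strat := .move 758 n86 (.cons 757 n562 (.cons 880 n577 (.cons 759 n288 .nil)))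
noncomputable def n579 : Strat := .move 758 n546 (.cons 921 n257 (.cons 716 n69 (.cons 800 n535 (.cons 759 n551 .nil))))
noncomputable def n580 : Strat := .win 884 4 880
noncomputable def n581 : Strat := .win 920 5 879
noncomputable def n582 : Strat := .move 883 n580 (.cons 884 n581 .nil)
noncomputable def n583 : Strat := .move 921 n63 (.cons 962 n582 .nil)
noncomputable def n584 : Strat := .move 923 n55 (.cons 964 n583 .nil)
noncomputable def n585 : Strat := .win 963 1 799
noncomputable def n586 : Strat := .move 797 n211 (.cons 842 n212 .nil)
noncomputable def n587 : Strat := .move 798 n120 (.cons 757 n586 .nil)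
noncomputable def n588 : Strat := .move 841 n585 (.cons 963 n587 .nil)
noncomputable def n589 : Strat := .move 800 n121 (.cons 759 n588 .nil)
noncomputable def n590 : Strat := .move 923 n55 (.cons 964 n589 .nil)
noncomputable def n591 : Strat := .win 963 3 799
noncomputable def n592 : Strat := .move 841 n591 (.cons 963 n587 .nil)
noncomputable def n593 : Strat := .move 800 n121 (.cons 759 n592 .nil)
noncomputable def n594 : Strat := .move 882 n584 (.cons 884 n590 (.cons 964 n593 .nil))
noncomputable def n595 : Strat := .move 922 n594 (.cons 800 n301 (.cons 962 n205 (.cons 963 n226 (.cons 757 n210 .nil))))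
noncomputable def n596 : Strat := .move 882 n379 (.cons 758 n583 .nil)
noncomputable def n597 : Strat := .move 923 n55 (.cons 964 n596 .nil)
noncomputable def n598 : Strat := .move 922 n272 (.cons 839 n210 (.cons 800 n400 (.cons 963 n597 .nil)))
noncomputable def n599 : Strat := .move 882 n379 (.cons 758 n582 .nil)
noncomputable def n600 : Strat := .move 923 n55 (.cons 964 n599 .nil)
noncomputable def n601 : Strat := .move 921 n63 (.cons 962 n600 .nil)
noncomputable def n602 : Strat := .move 963 n201 (.cons 841 n398 .nil)
noncomputable def n603 : Strat := .move 800 n121 (.cons 759 n602 .nil)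
noncomputable def n604 : Strat := .move 922 n601 (.cons 758 n210 (.cons 921 n603 .nil))
noncomputable def n605 : Strat := .move 839 n217 (.cons 838 n216 .nil)
noncomputable def n606 : Strat := .win 761 5 757
noncomputable def n607 : Strat := .win 841 3 759
noncomputable def n608 : Strat := .move 760 n606 (.cons 761 n607 .nil)
noncomputable def n609 : Strat := .move 801 n605 (.cons 802 n608 .nil)
noncomputable def n610 : Strat := .move 798 n120 (.cons 757 n609 .nil)
noncomputable def n611 : Strat := .move 800 n121 (.cons 759 n610 .nil)
noncomputable def n612 : Strat := .move 882 n379 (.cons 758 n611 .nil)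
noncomputable def n613 : Strat := .move 923 n55 (.cons 964 n612 .nil)
noncomputable def n614 : Strat := .move 922 n272 (.cons 800 n400 (.cons 757 n603 (.cons 963 n613 .nil)))
noncomputable def n615 : Strat := .move 881 n554 (.cons 922 n578 (.cons 800 n401 (.cons 798 n579 (.cons 758 n595 (.cons 880 n598 (.cons 757 n604 (.cons 921 n614 .nil)))))))
noncomputable def n616 : Strat := .move 800 n121 (.cons 759 n201 .nil)
noncomputable def n617 : Strat := .move 963 n202 (.cons 839 n616 .nil)
noncomputable def n618 : Strat := .move 798 n120 (.cons 757 n617 .nil)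
noncomputable def n619 : Strat := .move 758 n62 (.cons 880 n54 .nil)
noncomputable def n620 : Strat := .move 923 n55 (.cons 964 n619 .nil)
noncomputable def n621 : Strat := .move 921 n63 (.cons 962 n620 .nil)
noncomputable def n622 : Strat := .move 922 n618 (.cons 963 n621 .nil)
noncomputable def n623 : Strat := .move 880 n22 (.cons 921 n457 .nil)
noncomputable def n624 : Strat := .move 841 n137 (.cons 717 n623 .nil)
noncomputable def n625 : Strat := .move 882 n23 (.cons 923 n624 .nil)
noncomputable def n626 : Strat := .win 715 7 715
noncomputable def n627 : Strat := .win 754 0 754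
noncomputable def n628 : Strat := .win 800 0 755
noncomputable def n629 : Strat := .move 755 n627 (.cons 754 n628 .nil)
noncomputable def n630 : Strat := .move 756 n626 (.cons 715 n629 .nil)
noncomputable def n631 : Strat := .move 839 n166 (.cons 717 n630 .nil)
noncomputable def n632 : Strat := .move 880 n22 (.cons 921 n631 .nil)
noncomputable def n633 : Strat := .move 798 n145 (.cons 922 n632 .nil)
noncomputable def n634 : Strat := .move 757 n15 (.cons 716 n633 .nil)
noncomputable def n635 : Strat := .move 758 n625 (.cons 882 n634 (.cons 717 n161 (.cons 921 n152 .nil)))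
noncomputable def n636 : Strat := .win 920 1 756
noncomputable def n637 : Strat := .win 842 4 838
noncomputable def n638 : Strat := .move 841 n637 (.cons 842 n139 .nil)
noncomputable def n639 : Strat := .move 879 n636 (.cons 920 n638 .nil)
noncomputable def n640 : Strat := .move 798 n630 (.cons 756 n639 .nil)
noncomputable def n641 : Strat := .move 757 n15 (.cons 716 n640 .nil)
noncomputable def n642 : Strat := .move 839 n166 (.cons 717 n641 .nil)
noncomputable def n643 : Strat := .move 880 n22 (.cons 921 n642 .nil)
noncomputable def n644 : Strat := .move 758 n28 (.cons 921 n250 (.cons 841 n172 (.cons 717 n288 (.cons 882 n643 .nil))))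
noncomputable def n645 : Strat := .move 922 n301 (.cons 963 n226 (.cons 757 n210 (.cons 962 n205 .nil)))
noncomputable def n646 : Strat := .move 922 n618 (.cons 800 n400 (.cons 757 n210 (.cons 963 n597 .nil)))
noncomputable def n647 : Strat := .move 921 n63 (.cons 962 n599 .nil)
noncomputable def n648 : Strat := .move 923 n55 (.cons 964 n647 .nil)
noncomputable def n649 : Strat := .move 921 n63 (.cons 962 n619 .nil)
noncomputable def n650 : Strat := .move 923 n55 (.cons 964 n649 .nil)
noncomputable def n651 : Strat := .move 921 n63 (.cons 962 n593 .nil)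
noncomputable def n652 : Strat := .move 882 n379 (.cons 758 n589 .nil)
noncomputable def n653 : Strat := .move 923 n55 (.cons 964 n652 .nil)
noncomputable def n654 : Strat := .move 922 n648 (.cons 884 n650 (.cons 923 n651 (.cons 962 n653 .nil)))
noncomputable def n655 : Strat := .win 963 6 798
noncomputable def n656 : Strat := .move 800 n121 (.cons 759 n218 .nil)
noncomputable def n657 : Strat := .move 839 n655 (.cons 963 n656 .nil)
noncomputable def n658 : Strat := .move 798 n120 (.cons 757 n657 .nil)
noncomputable def n659 : Strat := .move 880 n372 (.cons 758 n658 .nil)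
noncomputable def n660 : Strat := .move 921 n63 (.cons 962 n659 .nil)
noncomputable def n661 : Strat := .move 922 n378 (.cons 921 n400 (.cons 964 n660 .nil))
noncomputable def n662 : Strat := .win 760 3 759
noncomputable def n663 : Strat := .win 803 4 799
noncomputable def n664 : Strat := .move 802 n663 (.cons 803 n307 .nil)
noncomputable def n665 : Strat := .move 801 n662 (.cons 760 n664 .nil)
noncomputable def n666 : Strat := .move 841 n585 (.cons 963 n665 .nil)
noncomputable def n667 : Strat := .move 800 n121 (.cons 759 n666 .nil)
noncomputable def n668 : Strat := .move 882 n379 (.cons 758 n667 .nil)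
noncomputable def n669 : Strat := .move 923 n55 (.cons 964 n668 .nil)
noncomputable def n670 : Strat := .move 922 n378 (.cons 880 n210 (.cons 921 n669 .nil))
noncomputable def n671 : Strat := .move 922 n618 (.cons 798 n669 (.cons 841 n400 (.cons 963 n613 (.cons 839 n653 .nil))))
noncomputable def n672 : Strat := .move 839 n655 (.cons 963 n231 .nil)
noncomputable def n673 : Strat := .move 798 n120 (.cons 757 n672 .nil)
noncomputable def n674 : Strat := .move 880 n372 (.cons 758 n673 .nil)
noncomputable def n675 : Strat := .move 921 n63 (.cons 962 n674 .nil)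
noncomputable def n676 : Strat := .move 922 n378 (.cons 880 n400 (.cons 964 n675 .nil))
noncomputable def n677 : Strat := .move 881 n622 (.cons 962 n635 (.cons 922 n644 (.cons 758 n645 (.cons 880 n646 (.cons 839 n654 (.cons 841 n661 (.cons 757 n670 (.cons 921 n671 (.cons 800 n676 .nil)))))))))
noncomputable def n678 : Strat := .move 758 n21 (.cons 757 n61 (.cons 718 n66 .nil))
noncomputable def n679 : Strat := .move 839 n166 (.cons 717 n169 .nil)
noncomputable def n680 : Strat := .move 880 n22 (.cons 921 n679 .nil)
noncomputable def n681 : Strat := .move 882 n23 (.cons 923 n680 .nil)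
noncomputable def n682 : Strat := .move 800 n71 (.cons 755 n70 .nil)
noncomputable def n683 : Strat := .win 713 2 713
noncomputable def n684 : Strat := .win 715 2 714
noncomputable def n685 : Strat := .move 714 n683 (.cons 713 n684 .nil)
noncomputable def n686 : Strat := .move 755 n628 (.cons 800 n685 .nil)
noncomputable def n687 : Strat := .win 797 4 755
noncomputable def n688 : Strat := .win 795 4 754
noncomputable def n689 : Strat := .move 755 n688 (.cons 795 n685 .nil)
noncomputable def n690 : Strat := .move 796 n687 (.cons 797 n689 .nil)
noncomputable def n691 : Strat := .win 800 0 756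
noncomputable def n692 : Strat := .win 798 4 756
noncomputable def n693 : Strat := .move 797 n692 (.cons 798 n74 .nil)
noncomputable def n694 : Strat := .move 760 n568 (.cons 802 n693 .nil)
noncomputable def n695 : Strat := .move 801 n691 (.cons 800 n694 .nil)
noncomputable def n696 : Strat := .move 756 n682 (.cons 801 n686 (.cons 800 n690 (.cons 755 n695 .nil)))
noncomputable def n697 : Strat := .move 759 n17 (.cons 718 n696 .nil)
noncomputable def n698 : Strat := .move 757 n15 (.cons 716 n697 .nil)
noncomputable def n699 : Strat := .move 758 n681 (.cons 880 n698 .nil)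
noncomputable def n700 : Strat := .move 677 n91 (.cons 636 n90 .nil)
noncomputable def n701 : Strat := .move 675 n43 (.cons 634 n42 .nil)
noncomputable def n702 : Strat := .move 676 n700 (.cons 718 n701 .nil)
noncomputable def n703 : Strat := .move 922 n55 (.cons 964 n702 .nil)
noncomputable def n704 : Strat := .move 923 n54 (.cons 882 n703 .nil)
noncomputable def n705 : Strat := .move 717 n24 (.cons 839 n704 .nil)
noncomputable def n706 : Strat := .move 880 n22 (.cons 921 n705 .nil)
noncomputable def n707 : Strat := .move 758 n61 (.cons 921 n58 (.cons 759 n706 (.cons 718 n172 .nil)))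
noncomputable def n708 : Strat := .move 758 n54 (.cons 882 n19 .nil)
noncomputable def n709 : Strat := .move 923 n55 (.cons 964 n708 .nil)
noncomputable def n710 : Strat := .move 839 n122 (.cons 963 n656 .nil)
noncomputable def n711 : Strat := .move 798 n120 (.cons 757 n710 .nil)
noncomputable def n712 : Strat := .move 923 n55 (.cons 964 n711 .nil)
noncomputable def n713 : Strat := .move 921 n63 (.cons 962 n712 .nil)
noncomputable def n714 : Strat := .move 922 n378 (.cons 880 n597 (.cons 962 n709 (.cons 964 n660 (.cons 758 n713 .nil))))
noncomputable def n715 : Strat := .move 880 n405 (.cons 925 n406 .nil)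
noncomputable def n716 : Strat := .move 924 n418 (.cons 878 n715 (.cons 880 n421 .nil))
noncomputable def n717 : Strat := .move 920 n403 (.cons 919 n716 (.cons 883 n427 (.cons 882 n431 .nil)))
noncomputable def n718 : Strat := .move 923 n55 (.cons 964 n717 .nil)
noncomputable def n719 : Strat := .move 921 n63 (.cons 962 n718 .nil)
noncomputable def n720 : Strat := .move 800 n121 (.cons 759 n719 .nil)
noncomputable def n721 : Strat := .move 922 n301 (.cons 757 n720 (.cons 921 n400 .nil))
noncomputable def n722 : Strat := .move 922 n400 (.cons 757 n709 (.cons 964 n243 .nil))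
noncomputable def n723 : Strat := .move 798 n120 (.cons 757 n621 .nil)
noncomputable def n724 : Strat := .move 923 n55 (.cons 964 n446 .nil)
noncomputable def n725 : Strat := .move 921 n63 (.cons 962 n724 .nil)
noncomputable def n726 : Strat := .move 922 n723 (.cons 882 n132 (.cons 921 n291 (.cons 757 n621 (.cons 758 n725 .nil))))
noncomputable def n727 : Strat := .move 881 n678 (.cons 922 n699 (.cons 757 n707 (.cons 716 n714 (.cons 718 n661 (.cons 758 n721 (.cons 921 n722 (.cons 839 n726 .nil)))))))
noncomputable def n728 : Strat := .win 843 2 798
noncomputable def n729 : Strat := .win 797 0 797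
noncomputable def n730 : Strat := .move 842 n728 (.cons 843 n729 .nil)
noncomputable def n731 : Strat := .move 841 n591 (.cons 963 n730 .nil)
noncomputable def n732 : Strat := .move 800 n121 (.cons 759 n731 .nil)
noncomputable def n733 : Strat := .move 798 n120 (.cons 757 n732 .nil)
noncomputable def n734 : Strat := .win 882 0 837
noncomputable def n735 : Strat := .win 836 5 795
noncomputable def n736 : Strat := .move 837 n734 (.cons 882 n735 .nil)
noncomputable def n737 : Strat := .move 800 n123 (.cons 801 n124 .nil)
noncomputable def n738 : Strat := .win 797 2 797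
noncomputable def n739 : Strat := .move 842 n738 (.cons 797 n728 .nil)
noncomputable def n740 : Strat := .win 842 2 797
noncomputable def n741 : Strat := .move 797 n740 (.cons 842 n212 .nil)
noncomputable def n742 : Strat := .win 800 4 797
noncomputable def n743 : Strat := .win 802 5 798
noncomputable def n744 : Strat := .move 842 n743 (.cons 802 n728 .nil)
noncomputable def n745 : Strat := .move 801 n742 (.cons 800 n744 .nil)
noncomputable def n746 : Strat := .win 883 0 838
noncomputable def n747 : Strat := .move 923 n55 (.cons 964 n379 .nil)
noncomputable def n748 : Strat := .move 882 n746 (.cons 883 n747 .nil)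
noncomputable def n749 : Strat := .move 841 n739 (.cons 843 n741 (.cons 797 n745 (.cons 842 n748 .nil)))
noncomputable def n750 : Strat := .move 838 n736 (.cons 836 n737 (.cons 837 n749 .nil))
noncomputable def n751 : Strat := .move 839 n122 (.cons 963 n750 .nil)
noncomputable def n752 : Strat := .move 798 n120 (.cons 757 n751 .nil)
noncomputable def n753 : Strat := .move 880 n22 (.cons 921 n166 .nil)
noncomputable def n754 : Strat := .move 758 n753 (.cons 880 n56 .nil)
noncomputable def n755 : Strat := .move 839 n122 (.cons 963 n754 .nil)
noncomputable def n756 : Strat := .move 798 n120 (.cons 757 n755 .nil)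
noncomputable def n757 : Strat := .move 922 n733 (.cons 798 n709 (.cons 759 n752 (.cons 800 n756 .nil)))
noncomputable def n758 : Strat := .win 841 6 676
noncomputable def n759 : Strat := .win 635 6 635
noncomputable def n760 : Strat := .move 676 n758 (.cons 841 n759 .nil)
noncomputable def n761 : Strat := .move 717 n24 (.cons 839 n760 .nil)
noncomputable def n762 : Strat := .move 880 n22 (.cons 921 n761 .nil)
noncomputable def n763 : Strat := .move 800 n173 (.cons 922 n762 .nil)
noncomputable def n764 : Strat := .move 759 n17 (.cons 718 n763 .nil)
noncomputable def n765 : Strat := .move 882 n23 (.cons 923 n280 .nil)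
noncomputable def n766 : Strat := .move 839 n166 (.cons 717 n765 .nil)
noncomputable def n767 : Strat := .move 880 n22 (.cons 921 n766 .nil)
noncomputable def n768 : Strat := .move 759 n17 (.cons 718 n767 .nil)
noncomputable def n769 : Strat := .move 758 n296 (.cons 717 n199 (.cons 882 n764 (.cons 921 n298 (.cons 841 n768 .nil))))
noncomputable def n770 : Strat := .move 758 n278 (.cons 759 n161 (.cons 922 n577 (.cons 757 n199 .nil)))
noncomputable def n771 : Strat := .move 798 n145 (.cons 922 n342 .nil)
noncomputable def n772 : Strat := .move 759 n17 (.cons 718 n771 .nil)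
noncomputable def n773 : Strat := .move 757 n15 (.cons 716 n772 .nil)
noncomputable def n774 : Strat := .move 757 n15 (.cons 716 n768 .nil)
noncomputable def n775 : Strat := .move 758 n773 (.cons 759 n634 (.cons 922 n774 (.cons 716 n58 .nil)))
noncomputable def n776 : Strat := .move 758 n250 (.cons 717 n577 (.cons 841 n774 (.cons 716 n505 (.cons 923 n247 .nil))))
noncomputable def n777 : Strat := .move 758 n773 (.cons 922 n247 (.cons 759 n634 .nil))
noncomputable def n778 : Strat := .move 798 n120 (.cons 757 n203 .nil)
noncomputable def n779 : Strat := .move 800 n121 (.cons 759 n778 .nil)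
noncomputable def n780 : Strat := .move 760 n607 (.cons 841 n606 .nil)
noncomputable def n781 : Strat := .move 801 n605 (.cons 802 n780 .nil)
noncomputable def n782 : Strat := .move 882 n379 (.cons 758 n781 .nil)
noncomputable def n783 : Strat := .move 923 n55 (.cons 964 n782 .nil)
noncomputable def n784 : Strat := .move 798 n120 (.cons 757 n783 .nil)
noncomputable def n785 : Strat := .move 800 n121 (.cons 759 n784 .nil)
noncomputable def n786 : Strat := .move 882 n379 (.cons 758 n665 .nil)
noncomputable def n787 : Strat := .move 923 n55 (.cons 964 n786 .nil)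
noncomputable def n788 : Strat := .move 841 n591 (.cons 963 n787 .nil)
noncomputable def n789 : Strat := .move 800 n121 (.cons 759 n788 .nil)
noncomputable def n790 : Strat := .move 842 n729 (.cons 797 n728 .nil)
noncomputable def n791 : Strat := .move 798 n120 (.cons 757 n790 .nil)
noncomputable def n792 : Strat := .move 841 n591 (.cons 963 n791 .nil)
noncomputable def n793 : Strat := .move 800 n121 (.cons 759 n792 .nil)
noncomputable def n794 : Strat := .move 922 n779 (.cons 759 n400 (.cons 963 n785 (.cons 798 n789 (.cons 839 n793 .nil))))
noncomputable def n795 : Strat := .move 842 n312 (.cons 843 n729 .nil)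
noncomputable def n796 : Strat := .win 882 3 759
noncomputable def n797 : Strat := .move 760 n606 (.cons 761 n796 .nil)
noncomputable def n798 : Strat := .move 798 n586 (.cons 796 n795 (.cons 842 n797 .nil))
noncomputable def n799 : Strat := .move 801 n664 (.cons 839 n798 .nil)
noncomputable def n800 : Strat := .move 923 n55 (.cons 964 n799 .nil)
noncomputable def n801 : Strat := .move 841 n591 (.cons 963 n800 .nil)
noncomputable def n802 : Strat := .move 800 n121 (.cons 759 n801 .nil)
noncomputable def n803 : Strat := .move 842 n729 (.cons 797 n312 .nil)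
noncomputable def n804 : Strat := .move 760 n796 (.cons 882 n606 .nil)
noncomputable def n805 : Strat := .move 841 n586 (.cons 796 n803 (.cons 842 n804 .nil))
noncomputable def n806 : Strat := .move 801 n306 (.cons 838 n311 (.cons 802 n805 .nil))
noncomputable def n807 : Strat := .move 923 n55 (.cons 964 n806 .nil)
noncomputable def n808 : Strat := .move 800 n121 (.cons 759 n807 .nil)
noncomputable def n809 : Strat := .move 798 n120 (.cons 757 n808 .nil)
noncomputable def n810 : Strat := .move 922 n205 (.cons 839 n793 (.cons 759 n400 (.cons 757 n802 (.cons 963 n809 (.cons 798 n603 .nil)))))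
noncomputable def n811 : Strat := .move 922 n709 (.cons 923 n793 (.cons 800 n291 .nil))
noncomputable def n812 : Strat := .move 921 n62 (.cons 880 n56 .nil)
noncomputable def n813 : Strat := .move 921 n62 (.cons 880 n48 .nil)
noncomputable def n814 : Strat := .move 922 n812 (.cons 964 n813 (.cons 921 n48 .nil))
noncomputable def n815 : Strat := .win 798 7 798
noncomputable def n816 : Strat := .win 1004 7 839
noncomputable def n817 : Strat := .move 963 n815 (.cons 798 n816 .nil)
noncomputable def n818 : Strat := .move 839 n166 (.cons 717 n817 .nil)
noncomputable def n819 : Strat := .move 880 n22 (.cons 921 n818 .nil)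
noncomputable def n820 : Strat := .move 717 n4 (.cons 759 n51 .nil)
noncomputable def n821 : Strat := .move 963 n333 (.cons 1005 n820 .nil)
noncomputable def n822 : Strat := .move 964 n334 (.cons 923 n821 .nil)
noncomputable def n823 : Strat := .move 921 n62 (.cons 880 n822 .nil)
noncomputable def n824 : Strat := .move 922 n48 (.cons 757 n819 (.cons 798 n823 .nil))
noncomputable def n825 : Strat := .move 717 n25 (.cons 841 n4 .nil)
noncomputable def n826 : Strat := .move 882 n23 (.cons 923 n825 .nil)
noncomputable def n827 : Strat := .move 921 n62 (.cons 880 n826 .nil)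
noncomputable def n828 : Strat := .move 922 n56 (.cons 964 n827 (.cons 882 n819 .nil))
noncomputable def n829 : Strat := .move 922 n48 (.cons 716 n56 .nil)
noncomputable def n830 : Strat := .move 717 n0 (.cons 675 n4 .nil)
noncomputable def n831 : Strat := .move 716 n1 (.cons 757 n830 .nil)
noncomputable def n832 : Strat := .move 921 n62 (.cons 880 n831 .nil)
noncomputable def n833 : Strat := .move 922 n812 (.cons 923 n832 (.cons 880 n56 .nil))
noncomputable def n834 : Strat := .move 922 n813 (.cons 757 n827 (.cons 880 n48 .nil))
noncomputable def n835 : Strat := .move 759 n17 (.cons 718 n78 .nil)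
noncomputable def n836 : Strat := .move 839 n166 (.cons 717 n835 .nil)
noncomputable def n837 : Strat := .move 880 n22 (.cons 921 n836 .nil)
noncomputable def n838 : Strat := .move 798 n145 (.cons 922 n837 .nil)
noncomputable def n839 : Strat := .move 757 n15 (.cons 716 n838 .nil)
noncomputable def n840 : Strat := .move 758 n814 (.cons 882 n824 (.cons 757 n828 (.cons 921 n829 (.cons 798 n833 (.cons 964 n834 (.cons 922 n250 (.cons 923 n839 .nil)))))))
noncomputable def n841 : Strat := .move 881 n757 (.cons 757 n769 (.cons 718 n635 (.cons 717 n770 (.cons 841 n775 (.cons 922 n776 (.cons 923 n777 (.cons 880 n794 (.cons 758 n810 (.cons 839 n811 (.cons 800 n840 .nil))))))))))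
noncomputable def n842 : Strat := .move 758 n54 (.cons 882 n62 .nil)
noncomputable def n843 : Strat := .move 923 n55 (.cons 964 n842 .nil)
noncomputable def n844 : Strat := .move 921 n63 (.cons 962 n843 .nil)
noncomputable def n845 : Strat := .move 800 n121 (.cons 759 n844 .nil)
noncomputable def n846 : Strat := .move 798 n120 (.cons 757 n845 .nil)
noncomputable def n847 : Strat := .move 922 n210 (.cons 963 n846 (.cons 800 n378 (.cons 921 n272 .nil)))
noncomputable def n848 : Strat := .move 758 n28 (.cons 839 n625 (.cons 921 n298 (.cons 923 n247 (.cons 717 n562 .nil))))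
noncomputable def n849 : Strat := .move 801 n217 (.cons 838 n216 .nil)
noncomputable def n850 : Strat := .move 839 n849 (.cons 802 n215 (.cons 838 n221 .nil))
noncomputable def n851 : Strat := .move 797 n213 (.cons 796 n850 .nil)
noncomputable def n852 : Strat := .move 921 n63 (.cons 962 n851 .nil)
noncomputable def n853 : Strat := .move 798 n120 (.cons 757 n852 .nil)
noncomputable def n854 : Strat := .move 800 n121 (.cons 759 n853 .nil)
noncomputable def n855 : Strat := .move 922 n210 (.cons 963 n854 (.cons 921 n272 (.cons 759 n301 .nil)))
noncomputable def n856 : Strat := .move 922 n210 (.cons 921 n272 (.cons 841 n597 .nil))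
noncomputable def n857 : Strat := .win 1045 3 881
noncomputable def n858 : Strat := .win 841 3 840
noncomputable def n859 : Strat := .move 1004 n857 (.cons 1045 n858 .nil)
noncomputable def n860 : Strat := .move 963 n202 (.cons 839 n859 .nil)
noncomputable def n861 : Strat := .move 798 n120 (.cons 757 n860 .nil)
noncomputable def n862 : Strat := .move 882 n379 (.cons 758 n861 .nil)
noncomputable def n863 : Strat := .move 923 n55 (.cons 964 n862 .nil)
noncomputable def n864 : Strat := .move 922 n272 (.cons 798 n603 (.cons 963 n613 (.cons 800 n863 (.cons 841 n712 .nil))))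
noncomputable def n865 : Strat := .win 800 1 799
noncomputable def n866 : Strat := .win 1004 3 840
noncomputable def n867 : Strat := .move 841 n865 (.cons 800 n866 .nil)
noncomputable def n868 : Strat := .move 1004 n858 (.cons 841 n857 .nil)
noncomputable def n869 : Strat := .move 963 n867 (.cons 800 n868 (.cons 841 n270 .nil))
noncomputable def n870 : Strat := .move 882 n379 (.cons 758 n869 .nil)
noncomputable def n871 : Strat := .move 923 n55 (.cons 964 n870 .nil)
noncomputable def n872 : Strat := .move 922 n378 (.cons 921 n871 (.cons 758 n301 .nil))
noncomputable def n873 : Strat := .move 922 n648 (.cons 884 n650 (.cons 923 n210 (.cons 962 n653 .nil)))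
noncomputable def n874 : Strat := .win 880 1 797
noncomputable def n875 : Strat := .move 961 n874 (.cons 880 n409 .nil)
noncomputable def n876 : Strat := .move 920 n403 (.cons 919 n875 .nil)
noncomputable def n877 : Strat := .move 839 n122 (.cons 963 n876 .nil)
noncomputable def n878 : Strat := .move 798 n120 (.cons 757 n877 .nil)
noncomputable def n879 : Strat := .move 923 n55 (.cons 964 n878 .nil)
noncomputable def n880 : Strat := .move 921 n63 (.cons 962 n879 .nil)
noncomputable def n881 : Strat := .move 922 n378 (.cons 921 n863 (.cons 923 n675 (.cons 758 n880 .nil)))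
noncomputable def n882 : Strat := .move 881 n847 (.cons 964 n200 (.cons 922 n848 (.cons 758 n855 (.cons 880 n856 (.cons 841 n714 (.cons 921 n864 (.cons 759 n872 (.cons 839 n873 (.cons 800 n881 .nil)))))))))
noncomputable def n883 : Strat := .move 923 n55 (.cons 964 n404 .nil)
noncomputable def n884 : Strat := .move 880 n372 (.cons 758 n883 .nil)
noncomputable def n885 : Strat := .move 921 n63 (.cons 962 n884 .nil)
noncomputable def n886 : Strat := .move 798 n120 (.cons 757 n885 .nil)
noncomputable def n887 : Strat := .move 800 n778 (.cons 798 n209 (.cons 963 n886 .nil))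
noncomputable def n888 : Strat := .move 838 n124 (.cons 837 n123 .nil)
noncomputable def n889 : Strat := .move 839 n122 (.cons 963 n888 .nil)
noncomputable def n890 : Strat := .move 798 n120 (.cons 757 n889 .nil)
noncomputable def n891 : Strat := .move 800 n121 (.cons 759 n890 .nil)
noncomputable def n892 : Strat := .move 922 n779 (.cons 759 n887 (.cons 841 n891 (.cons 839 n210 (.cons 800 n301 (.cons 963 n132 .nil)))))
noncomputable def n893 : Strat := .move 757 n15 (.cons 716 n264 .nil)
noncomputable def n894 : Strat := .move 759 n17 (.cons 718 n893 .nil)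
noncomputable def n895 : Strat := .move 676 n759 (.cons 635 n758 .nil)
noncomputable def n896 : Strat := .move 717 n24 (.cons 839 n895 .nil)
noncomputable def n897 : Strat := .move 880 n22 (.cons 921 n896 .nil)
noncomputable def n898 : Strat := .move 759 n17 (.cons 718 n897 .nil)
noncomputable def n899 : Strat := .win 756 2 756
noncomputable def n900 : Strat := .move 880 n166 (.cons 717 n22 .nil)
noncomputable def n901 : Strat := .move 839 n217 (.cons 838 n900 .nil)
noncomputable def n902 : Strat := .move 798 n899 (.cons 756 n901 .nil)
noncomputable def n903 : Strat := .move 801 n253 (.cons 802 n902 .nil)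
noncomputable def n904 : Strat := .move 757 n15 (.cons 716 n903 .nil)
noncomputable def n905 : Strat := .move 800 n894 (.cons 757 n898 (.cons 759 n904 .nil))
noncomputable def n906 : Strat := .win 721 5 717
noncomputable def n907 : Strat := .win 719 5 716
noncomputable def n908 : Strat := .move 720 n906 (.cons 721 n907 .nil)
noncomputable def n909 : Strat := .move 761 n564 (.cons 803 n908 .nil)
noncomputable def n910 : Strat := .move 802 n565 (.cons 801 n909 .nil)
noncomputable def n911 : Strat := .move 756 n74 (.cons 796 n72 .nil)
noncomputable def n912 : Strat := .move 797 n692 (.cons 798 n911 .nil)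
noncomputable def n913 : Strat := .move 760 n563 (.cons 797 n567 (.cons 798 n910 (.cons 761 n912 .nil)))
noncomputable def n914 : Strat := .move 757 n15 (.cons 716 n913 .nil)
noncomputable def n915 : Strat := .move 759 n17 (.cons 718 n914 .nil)
noncomputable def n916 : Strat := .move 758 n905 (.cons 717 n86 (.cons 839 n915 (.cons 801 n247 (.cons 759 n164 .nil))))
noncomputable def n917 : Strat := .move 922 n210 (.cons 1003 n603 (.cons 841 n378 .nil))
noncomputable def n918 : Strat := .move 841 n212 (.cons 796 n211 .nil)
noncomputable def n919 : Strat := .win 838 4 796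
noncomputable def n920 : Strat := .win 836 4 795
noncomputable def n921 : Strat := .win 754 2 754
noncomputable def n922 : Strat := .win 756 2 755
noncomputable def n923 : Strat := .move 755 n921 (.cons 754 n922 .nil)
noncomputable def n924 : Strat := .move 796 n920 (.cons 836 n923 .nil)
noncomputable def n925 : Strat := .move 837 n919 (.cons 838 n924 .nil)
noncomputable def n926 : Strat := .move 801 n312 (.cons 843 n316 .nil)
noncomputable def n927 : Strat := .move 842 n313 (.cons 841 n926 .nil)
noncomputable def n928 : Strat := .move 797 n918 (.cons 841 n925 (.cons 796 n927 .nil))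
noncomputable def n929 : Strat := .move 800 n121 (.cons 759 n928 .nil)
noncomputable def n930 : Strat := .move 798 n120 (.cons 757 n929 .nil)
noncomputable def n931 : Strat := .move 922 n205 (.cons 841 n400 (.cons 798 n603 (.cons 963 n930 .nil)))
noncomputable def n932 : Strat := .move 922 n887 (.cons 963 n378 (.cons 921 n400 (.cons 923 n301 .nil)))
noncomputable def n933 : Strat := .move 881 n892 (.cons 922 n916 (.cons 800 n347 (.cons 757 n917 (.cons 921 n931 (.cons 759 n932 .nil)))))
noncomputable def n934 : Strat := .move 880 n372 (.cons 758 n231 .nil)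
noncomputable def n935 : Strat := .move 921 n63 (.cons 962 n934 .nil)
noncomputable def n936 : Strat := .move 839 n241 (.cons 800 n935 .nil)
noncomputable def n937 : Strat := .move 798 n617 (.cons 963 n936 (.cons 759 n300 (.cons 839 n732 .nil)))
noncomputable def n938 : Strat := .move 798 n617 (.cons 759 n300 (.cons 963 n130 .nil))
noncomputable def n939 : Strat := .move 922 n937 (.cons 837 n938 (.cons 798 n597 (.cons 921 n603 .nil)))
noncomputable def n940 : Strat := .move 758 n296 (.cons 841 n247 (.cons 839 n298 (.cons 717 n562 .nil)))
noncomputable def n941 : Strat := .move 922 n210 (.cons 921 n603 (.cons 841 n597 .nil))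
noncomputable def n942 : Strat := .win 760 5 756
noncomputable def n943 : Strat := .move 797 n341 (.cons 796 n942 .nil)
noncomputable def n944 : Strat := .win 797 5 756
noncomputable def n945 : Strat := .move 760 n76 (.cons 761 n944 .nil)
noncomputable def n946 : Strat := .win 676 1 675
noncomputable def n947 : Strat := .move 717 n946 (.cons 676 n9 .nil)
noncomputable def n948 : Strat := .move 839 n947 (.cons 880 n849 .nil)
noncomputable def n949 : Strat := .move 760 n76 (.cons 761 n948 .nil)
noncomputable def n950 : Strat := .move 797 n341 (.cons 796 n948 .nil)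
noncomputable def n951 : Strat := .move 798 n943 (.cons 796 n945 (.cons 797 n949 (.cons 760 n950 .nil)))
noncomputable def n952 : Strat := .move 800 n173 (.cons 922 n951 .nil)
noncomputable def n953 : Strat := .move 759 n17 (.cons 718 n952 .nil)
noncomputable def n954 : Strat := .move 676 n10 (.cons 798 n700 .nil)
noncomputable def n955 : Strat := .move 839 n9 (.cons 880 n954 .nil)
noncomputable def n956 : Strat := .move 717 n25 (.cons 841 n955 .nil)
noncomputable def n957 : Strat := .move 882 n23 (.cons 923 n956 .nil)
noncomputable def n958 : Strat := .move 676 n10 (.cons 798 n701 .nil)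
noncomputable def n959 : Strat := .move 839 n9 (.cons 880 n958 .nil)
noncomputable def n960 : Strat := .move 717 n25 (.cons 841 n959 .nil)
noncomputable def n961 : Strat := .move 882 n23 (.cons 923 n960 .nil)
noncomputable def n962 : Strat := .move 758 n298 (.cons 841 n58 (.cons 882 n953 (.cons 759 n957 (.cons 718 n961 .nil))))
noncomputable def n963 : Strat := .win 880 7 839
noncomputable def n964 : Strat := .move 1004 n963 (.cons 880 n857 .nil)
noncomputable def n965 : Strat := .move 839 n815 (.cons 798 n964 .nil)
noncomputable def n966 : Strat := .move 838 n746 (.cons 883 n167 .nil)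
noncomputable def n967 : Strat := .move 839 n815 (.cons 798 n966 .nil)
noncomputable def n968 : Strat := .move 841 n865 (.cons 800 n967 .nil)
noncomputable def n969 : Strat := .move 963 n867 (.cons 800 n868 (.cons 841 n965 (.cons 1004 n968 .nil)))
noncomputable def n970 : Strat := .move 882 n379 (.cons 758 n969 .nil)
noncomputable def n971 : Strat := .move 923 n55 (.cons 964 n970 .nil)
noncomputable def n972 : Strat := .win 798 6 798
noncomputable def n973 : Strat := .move 839 n972 (.cons 798 n816 .nil)
noncomputable def n974 : Strat := .win 839 7 839
noncomputable def n975 : Strat := .win 1045 7 880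
noncomputable def n976 : Strat := .move 1004 n974 (.cons 839 n975 .nil)
noncomputable def n977 : Strat := .win 800 3 799
noncomputable def n978 : Strat := .win 882 3 840
noncomputable def n979 : Strat := .move 1004 n978 (.cons 882 n975 .nil)
noncomputable def n980 : Strat := .move 841 n977 (.cons 800 n979 .nil)
noncomputable def n981 : Strat := .win 879 4 838
noncomputable def n982 : Strat := .move 842 n981 (.cons 879 n455 .nil)
noncomputable def n983 : Strat := .move 841 n977 (.cons 800 n982 .nil)
noncomputable def n984 : Strat := .move 839 n972 (.cons 798 n983 .nil)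
noncomputable def n985 : Strat := .move 963 n973 (.cons 798 n976 (.cons 839 n980 (.cons 1004 n984 .nil)))
noncomputable def n986 : Strat := .move 880 n372 (.cons 758 n985 .nil)
noncomputable def n987 : Strat := .move 921 n63 (.cons 962 n986 .nil)
noncomputable def n988 : Strat := .move 841 n978 (.cons 882 n977 .nil)
noncomputable def n989 : Strat := .move 1004 n963 (.cons 880 n988 .nil)
noncomputable def n990 : Strat := .move 839 n815 (.cons 798 n989 .nil)
noncomputable def n991 : Strat := .move 963 n333 (.cons 1005 n990 .nil)
noncomputable def n992 : Strat := .move 964 n334 (.cons 923 n991 .nil)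
noncomputable def n993 : Strat := .move 921 n63 (.cons 962 n992 .nil)
noncomputable def n994 : Strat := .move 922 n378 (.cons 921 n971 (.cons 923 n987 (.cons 880 n597 (.cons 758 n993 .nil))))
noncomputable def n995 : Strat := .move 676 n8 (.cons 800 n700 .nil)
noncomputable def n996 : Strat := .move 841 n7 (.cons 882 n995 .nil)
noncomputable def n997 : Strat := .move 717 n24 (.cons 839 n996 .nil)
noncomputable def n998 : Strat := .move 880 n22 (.cons 921 n997 .nil)
noncomputable def n999 : Strat := .move 841 n7 (.cons 882 n469 .nil)
noncomputable def n1000 : Strat := .move 880 n24 (.cons 839 n760 .nil)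
noncomputable def n1001 : Strat := .move 676 n10 (.cons 798 n759 .nil)
noncomputable def n1002 : Strat := .move 839 n9 (.cons 880 n1001 .nil)
noncomputable def n1003 : Strat := .move 841 n7 (.cons 882 n472 .nil)
noncomputable def n1004 : Strat := .move 717 n999 (.cons 882 n1000 (.cons 841 n1002 (.cons 676 n1003 .nil)))
noncomputable def n1005 : Strat := .move 800 n173 (.cons 922 n1004 .nil)
noncomputable def n1006 : Strat := .move 759 n17 (.cons 718 n1005 .nil)
noncomputable def n1007 : Strat := .win 836 0 836
noncomputable def n1008 : Strat := .move 837 n1007 (.cons 836 n734 .nil)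
noncomputable def n1009 : Strat := .move 882 n167 (.cons 837 n168 .nil)
noncomputable def n1010 : Strat := .win 878 4 837
noncomputable def n1011 : Strat := .move 879 n637 (.cons 842 n1010 .nil)
noncomputable def n1012 : Strat := .win 882 0 838
noncomputable def n1013 : Strat := .win 884 0 839
noncomputable def n1014 : Strat := .move 842 n1013 (.cons 884 n455 .nil)
noncomputable def n1015 : Strat := .move 883 n1012 (.cons 882 n1014 .nil)
noncomputable def n1016 : Strat := .move 922 n591 (.cons 963 n121 .nil)
noncomputable def n1017 : Strat := .move 800 n470 (.cons 801 n1016 .nil)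
noncomputable def n1018 : Strat := .move 841 n982 (.cons 843 n1011 (.cons 879 n1015 (.cons 842 n1017 .nil)))
noncomputable def n1019 : Strat := .win 800 5 796
noncomputable def n1020 : Strat := .move 837 n1007 (.cons 836 n1019 .nil)
noncomputable def n1021 : Strat := .move 838 n1008 (.cons 836 n1009 (.cons 837 n1018 (.cons 882 n1020 .nil)))
noncomputable def n1022 : Strat := .move 839 n166 (.cons 717 n1021 .nil)
noncomputable def n1023 : Strat := .move 880 n22 (.cons 921 n1022 .nil)
noncomputable def n1024 : Strat := .move 676 n8 (.cons 800 n701 .nil)
noncomputable def n1025 : Strat := .move 841 n7 (.cons 882 n1024 .nil)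
noncomputable def n1026 : Strat := .move 717 n2 (.cons 677 n1025 .nil)
noncomputable def n1027 : Strat := .move 718 n3 (.cons 759 n1026 .nil)
noncomputable def n1028 : Strat := .move 758 n247 (.cons 759 n998 (.cons 921 n1006 (.cons 718 n1023 (.cons 717 n69 (.cons 880 n1027 .nil)))))
noncomputable def n1029 : Strat := .move 922 n210 (.cons 921 n603 (.cons 759 n993 (.cons 841 n720 (.cons 800 n435 .nil))))
noncomputable def n1030 : Strat := .move 881 n939 (.cons 922 n940 (.cons 882 n917 (.cons 880 n941 (.cons 800 n371 (.cons 841 n707 (.cons 921 n962 (.cons 759 n994 (.cons 923 n1028 (.cons 758 n1029 .nil)))))))))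
noncomputable def n1031 : Strat := .win 881 6 758
noncomputable def n1032 : Strat := .win 800 7 758
noncomputable def n1033 : Strat := .move 923 n1031 (.cons 881 n1032 .nil)
noncomputable def n1034 : Strat := .move 841 n137 (.cons 717 n1033 .nil)
noncomputable def n1035 : Strat := .move 881 n23 (.cons 923 n249 .nil)
noncomputable def n1036 : Strat := .move 798 n145 (.cons 922 n78 .nil)
noncomputable def n1037 : Strat := .move 759 n17 (.cons 718 n1036 .nil)
noncomputable def n1038 : Strat := .move 757 n15 (.cons 716 n1037 .nil)
noncomputable def n1039 : Strat := .move 881 n23 (.cons 923 n1038 .nil)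
noncomputable def n1040 : Strat := .move 718 n2 (.cons 677 n103 .nil)
noncomputable def n1041 : Strat := .move 757 n497 (.cons 881 n1040 .nil)
noncomputable def n1042 : Strat := .move 716 n0 (.cons 675 n1041 .nil)
noncomputable def n1043 : Strat := .move 717 n25 (.cons 841 n1042 .nil)
noncomputable def n1044 : Strat := .move 839 n10 (.cons 798 n9 .nil)
noncomputable def n1045 : Strat := .move 676 n91 (.cons 636 n1044 .nil)
noncomputable def n1046 : Strat := .move 677 n90 (.cons 718 n1045 .nil)
noncomputable def n1047 : Strat := .move 716 n0 (.cons 675 n1046 .nil)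
noncomputable def n1048 : Strat := .move 717 n25 (.cons 841 n1047 .nil)
noncomputable def n1049 : Strat := .move 882 n1034 (.cons 800 n1035 (.cons 841 n1039 (.cons 923 n1043 (.cons 881 n1048 .nil))))
noncomputable def n1050 : Strat := .move 881 n298 (.cons 841 n58 (.cons 882 n953 (.cons 759 n957 (.cons 718 n961 .nil))))
noncomputable def n1051 : Strat := .move 839 n9 (.cons 880 n946 .nil)
noncomputable def n1052 : Strat := .move 882 n25 (.cons 841 n148 .nil)
noncomputable def n1053 : Strat := .move 676 n8 (.cons 800 n147 .nil)
noncomputable def n1054 : Strat := .move 841 n7 (.cons 882 n1053 .nil)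
noncomputable def n1055 : Strat := .move 841 n7 (.cons 882 n739 .nil)
noncomputable def n1056 : Strat := .move 839 n9 (.cons 880 n1055 .nil)
noncomputable def n1057 : Strat := .move 717 n1051 (.cons 880 n1052 (.cons 839 n1054 (.cons 676 n1056 .nil)))
noncomputable def n1058 : Strat := .move 798 n145 (.cons 922 n1057 .nil)
noncomputable def n1059 : Strat := .move 757 n15 (.cons 716 n1058 .nil)
noncomputable def n1060 : Strat := .move 759 n17 (.cons 718 n83 .nil)
noncomputable def n1061 : Strat := .move 757 n15 (.cons 716 n1060 .nil)
noncomputable def n1062 : Strat := .move 801 n568 (.cons 802 n691 .nil)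
noncomputable def n1063 : Strat := .move 798 n77 (.cons 797 n76 .nil)
noncomputable def n1064 : Strat := .move 760 n1062 (.cons 800 n1063 .nil)
noncomputable def n1065 : Strat := .move 796 n688 (.cons 795 n687 .nil)
noncomputable def n1066 : Strat := .move 755 n685 (.cons 715 n1065 .nil)
noncomputable def n1067 : Strat := .move 756 n72 (.cons 755 n1064 (.cons 801 n686 (.cons 800 n1066 .nil)))
noncomputable def n1068 : Strat := .move 757 n15 (.cons 716 n1067 .nil)
noncomputable def n1069 : Strat := .move 759 n17 (.cons 718 n1068 .nil)
noncomputable def n1070 : Strat := .move 880 n60 (.cons 717 n1061 (.cons 839 n1069 (.cons 759 n451 .nil)))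
noncomputable def n1071 : Strat := .move 881 n773 (.cons 757 n1006 (.cons 759 n1059 (.cons 798 n257 (.cons 922 n1070 .nil))))
noncomputable def n1072 : Strat := .move 676 n8 (.cons 800 n10 .nil)
noncomputable def n1073 : Strat := .move 839 n9 (.cons 880 n1072 .nil)
noncomputable def n1074 : Strat := .move 841 n7 (.cons 882 n1073 .nil)
noncomputable def n1075 : Strat := .move 716 n0 (.cons 675 n1074 .nil)
noncomputable def n1076 : Strat := .move 718 n2 (.cons 677 n1075 .nil)
noncomputable def n1077 : Strat := .win 757 7 674
noncomputable def n1078 : Strat := .move 674 n1077 (.cons 757 n105 .nil)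
noncomputable def n1079 : Strat := .move 715 n97 (.cons 714 n1078 .nil)
noncomputable def n1080 : Strat := .move 798 n946 (.cons 676 n1079 .nil)
noncomputable def n1081 : Strat := .move 839 n9 (.cons 880 n1080 .nil)
noncomputable def n1082 : Strat := .move 718 n2 (.cons 677 n1081 .nil)
noncomputable def n1083 : Strat := .move 716 n0 (.cons 675 n1082 .nil)
noncomputable def n1084 : Strat := .move 676 n10 (.cons 798 n8 .nil)
noncomputable def n1085 : Strat := .move 839 n9 (.cons 880 n1084 .nil)
noncomputable def n1086 : Strat := .move 841 n7 (.cons 882 n1085 .nil)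
noncomputable def n1087 : Strat := .move 715 n95 (.cons 760 n96 .nil)
noncomputable def n1088 : Strat := .win 715 0 715
noncomputable def n1089 : Strat := .win 761 0 716
noncomputable def n1090 : Strat := .move 760 n1088 (.cons 715 n1089 .nil)
noncomputable def n1091 : Strat := .win 800 3 677
noncomputable def n1092 : Strat := .win 679 5 675
noncomputable def n1093 : Strat := .move 678 n1091 (.cons 800 n1092 .nil)
noncomputable def n1094 : Strat := .move 759 n1087 (.cons 714 n1090 (.cons 760 n1093 .nil))
noncomputable def n1095 : Strat := .move 719 n477 (.cons 756 n482 (.cons 720 n1094 .nil))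
noncomputable def n1096 : Strat := .move 841 n7 (.cons 882 n1095 .nil)
noncomputable def n1097 : Strat := .move 718 n2 (.cons 677 n1096 .nil)
noncomputable def n1098 : Strat := .move 716 n0 (.cons 675 n1097 .nil)
noncomputable def n1099 : Strat := .move 717 n1076 (.cons 839 n89 (.cons 841 n1083 (.cons 675 n1086 (.cons 676 n1098 .nil))))
noncomputable def n1100 : Strat := .win 798 1 634
noncomputable def n1101 : Strat := .win 594 1 593
noncomputable def n1102 : Strat := .move 635 n1100 (.cons 798 n1101 .nil)
noncomputable def n1103 : Strat := .move 676 n8 (.cons 800 n1102 .nil)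
noncomputable def n1104 : Strat := .move 841 n7 (.cons 882 n1103 .nil)
noncomputable def n1105 : Strat := .move 757 n497 (.cons 881 n1104 .nil)
noncomputable def n1106 : Strat := .move 716 n0 (.cons 675 n1105 .nil)
noncomputable def n1107 : Strat := .win 674 7 674
noncomputable def n1108 : Strat := .win 713 0 713
noncomputable def n1109 : Strat := .win 759 0 714
noncomputable def n1110 : Strat := .move 714 n1108 (.cons 713 n1109 .nil)
noncomputable def n1111 : Strat := .move 715 n1107 (.cons 674 n1110 .nil)
noncomputable def n1112 : Strat := .move 798 n946 (.cons 676 n1111 .nil)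
noncomputable def n1113 : Strat := .move 839 n9 (.cons 880 n1112 .nil)
noncomputable def n1114 : Strat := .move 757 n497 (.cons 881 n1113 .nil)
noncomputable def n1115 : Strat := .move 716 n0 (.cons 675 n1114 .nil)
noncomputable def n1116 : Strat := .win 798 1 715
noncomputable def n1117 : Strat := .move 879 n1010 (.cons 878 n1116 .nil)
noncomputable def n1118 : Strat := .move 800 n470 (.cons 801 n124 .nil)
noncomputable def n1119 : Strat := .move 838 n1117 (.cons 798 n1118 .nil)
noncomputable def n1120 : Strat := .move 841 n7 (.cons 882 n1119 .nil)
noncomputable def n1121 : Strat := .move 839 n9 (.cons 880 n1120 .nil)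
noncomputable def n1122 : Strat := .move 757 n497 (.cons 881 n1121 .nil)
noncomputable def n1123 : Strat := .move 716 n0 (.cons 675 n1122 .nil)
noncomputable def n1124 : Strat := .move 717 n13 (.cons 839 n1106 (.cons 882 n1115 (.cons 676 n1123 (.cons 798 n89 .nil))))
noncomputable def n1125 : Strat := .win 881 3 717
noncomputable def n1126 : Strat := .win 761 2 716
noncomputable def n1127 : Strat := .move 760 n1126 (.cons 761 n1088 .nil)
noncomputable def n1128 : Strat := .move 759 n1125 (.cons 881 n1127 .nil)
noncomputable def n1129 : Strat := .move 718 n2 (.cons 677 n1128 .nil)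
noncomputable def n1130 : Strat := .move 716 n0 (.cons 675 n1129 .nil)
noncomputable def n1131 : Strat := .move 717 n1130 (.cons 716 n495 (.cons 677 n1106 .nil))
noncomputable def n1132 : Strat := .move 881 n3 (.cons 759 n1 .nil)
noncomputable def n1133 : Strat := .move 718 n2 (.cons 677 n1132 .nil)
noncomputable def n1134 : Strat := .move 716 n0 (.cons 675 n1133 .nil)
noncomputable def n1135 : Strat := .win 800 6 718
noncomputable def n1136 : Strat := .move 883 n1013 (.cons 884 n1135 .nil)
noncomputable def n1137 : Strat := .move 798 n738 (.cons 797 n728 .nil)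
noncomputable def n1138 : Strat := .move 842 n1136 (.cons 800 n1137 .nil)
noncomputable def n1139 : Strat := .move 839 n9 (.cons 880 n1138 .nil)
noncomputable def n1140 : Strat := .move 841 n7 (.cons 882 n1139 .nil)
noncomputable def n1141 : Strat := .move 759 n1125 (.cons 881 n1140 .nil)
noncomputable def n1142 : Strat := .move 718 n2 (.cons 677 n1141 .nil)
noncomputable def n1143 : Strat := .move 717 n1134 (.cons 718 n1123 (.cons 881 n1098 (.cons 716 n1142 .nil)))
noncomputable def n1144 : Strat := .move 760 n1088 (.cons 715 n1126 .nil)
noncomputable def n1145 : Strat := .move 759 n1125 (.cons 881 n1144 .nil)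
noncomputable def n1146 : Strat := .move 716 n0 (.cons 675 n1145 .nil)
noncomputable def n1147 : Strat := .move 718 n2 (.cons 677 n1146 .nil)
noncomputable def n1148 : Strat := .win 678 3 677
noncomputable def n1149 : Strat := .win 721 4 717
noncomputable def n1150 : Strat := .move 720 n1149 (.cons 721 n478 .nil)
noncomputable def n1151 : Strat := .move 719 n1148 (.cons 678 n1150 .nil)
noncomputable def n1152 : Strat := .move 800 n469 (.cons 676 n1151 .nil)
noncomputable def n1153 : Strat := .move 841 n7 (.cons 882 n1152 .nil)
noncomputable def n1154 : Strat := .move 759 n1125 (.cons 881 n1153 .nil)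
noncomputable def n1155 : Strat := .move 718 n2 (.cons 677 n1154 .nil)
noncomputable def n1156 : Strat := .move 717 n1147 (.cons 718 n89 (.cons 675 n1155 .nil))
noncomputable def n1157 : Strat := .move 756 n98 (.cons 719 n498 .nil)
noncomputable def n1158 : Strat := .move 757 n497 (.cons 881 n1157 .nil)
noncomputable def n1159 : Strat := .move 718 n2 (.cons 677 n1158 .nil)
noncomputable def n1160 : Strat := .move 716 n0 (.cons 675 n1159 .nil)
noncomputable def n1161 : Strat := .move 717 n1160 (.cons 718 n1115 (.cons 881 n94 .nil))
noncomputable def n1162 : Strat := .win 716 2 716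
noncomputable def n1163 : Strat := .win 762 2 717
noncomputable def n1164 : Strat := .move 761 n1162 (.cons 716 n1163 .nil)
noncomputable def n1165 : Strat := .move 716 n1088 (.cons 715 n1126 .nil)
noncomputable def n1166 : Strat := .win 719 5 715
noncomputable def n1167 : Strat := .move 756 n1166 (.cons 719 n498 .nil)
noncomputable def n1168 : Strat := .win 756 5 715
noncomputable def n1169 : Strat := .move 719 n1168 (.cons 756 n101 .nil)
noncomputable def n1170 : Strat := .win 716 0 715
noncomputable def n1171 : Strat := .move 756 n80 (.cons 714 n498 .nil)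
noncomputable def n1172 : Strat := .move 715 n1170 (.cons 716 n1171 .nil)
noncomputable def n1173 : Strat := .move 839 n946 (.cons 676 n9 .nil)
noncomputable def n1174 : Strat := .move 798 n77 (.cons 797 n1173 .nil)
noncomputable def n1175 : Strat := .move 757 n1167 (.cons 755 n1169 (.cons 719 n1172 (.cons 756 n1174 .nil)))
noncomputable def n1176 : Strat := .move 761 n1163 (.cons 762 n176 .nil)
noncomputable def n1177 : Strat := .move 760 n1164 (.cons 762 n1165 (.cons 761 n1175 (.cons 716 n1176 .nil)))
noncomputable def n1178 : Strat := .move 759 n1125 (.cons 881 n1177 .nil)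
noncomputable def n1179 : Strat := .move 718 n2 (.cons 677 n1178 .nil)
noncomputable def n1180 : Strat := .move 717 n1155 (.cons 800 n32 (.cons 881 n1086 (.cons 882 n1179 .nil)))
noncomputable def n1181 : Strat := .win 800 6 635
noncomputable def n1182 : Strat := .win 594 6 594
noncomputable def n1183 : Strat := .move 635 n1181 (.cons 800 n1182 .nil)
noncomputable def n1184 : Strat := .move 676 n10 (.cons 798 n1183 .nil)
noncomputable def n1185 : Strat := .move 839 n9 (.cons 880 n1184 .nil)
noncomputable def n1186 : Strat := .move 759 n1125 (.cons 881 n1185 .nil)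
noncomputable def n1187 : Strat := .move 718 n2 (.cons 677 n1186 .nil)
noncomputable def n1188 : Strat := .move 841 n7 (.cons 882 n741 .nil)
noncomputable def n1189 : Strat := .move 798 n946 (.cons 676 n1188 .nil)
noncomputable def n1190 : Strat := .move 839 n9 (.cons 880 n1189 .nil)
noncomputable def n1191 : Strat := .move 718 n2 (.cons 677 n1190 .nil)
noncomputable def n1192 : Strat := .move 717 n13 (.cons 676 n1142 (.cons 880 n495 (.cons 841 n1187 (.cons 800 n1191 .nil))))
noncomputable def n1193 : Strat := .move 882 n23 (.cons 923 n544 .nil)
noncomputable def n1194 : Strat := .move 841 n178 (.cons 760 n516 .nil)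
noncomputable def n1195 : Strat := .move 882 n23 (.cons 923 n1194 .nil)
noncomputable def n1196 : Strat := .move 800 n173 (.cons 922 n1195 .nil)
noncomputable def n1197 : Strat := .move 759 n17 (.cons 718 n1196 .nil)
noncomputable def n1198 : Strat := .move 881 n1193 (.cons 922 n577 (.cons 882 n278 (.cons 718 n331 (.cons 757 n1197 .nil))))
noncomputable def n1199 : Strat := .move 798 n946 (.cons 676 n1040 .nil)
noncomputable def n1200 : Strat := .move 839 n9 (.cons 880 n1199 .nil)
noncomputable def n1201 : Strat := .move 757 n497 (.cons 881 n1200 .nil)
noncomputable def n1202 : Strat := .move 716 n0 (.cons 675 n1201 .nil)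
noncomputable def n1203 : Strat := .move 718 n2 (.cons 677 n1157 .nil)
noncomputable def n1204 : Strat := .move 757 n497 (.cons 881 n1203 .nil)
noncomputable def n1205 : Strat := .move 716 n0 (.cons 675 n1204 .nil)
noncomputable def n1206 : Strat := .move 717 n89 (.cons 716 n13 (.cons 882 n1202 (.cons 676 n1205 .nil)))
noncomputable def n1207 : Strat := .move 758 n1049 (.cons 757 n1050 (.cons 923 n1071 (.cons 881 n1099 (.cons 718 n1124 (.cons 880 n1131 (.cons 676 n1143 (.cons 798 n1156 (.cons 882 n1161 (.cons 675 n1180 (.cons 716 n1192 (.cons 717 n1198 (.cons 759 n1206 .nil))))))))))))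
noncomputable def n1208 : Strat := .move 758 n773 (.cons 759 n164 (.cons 716 n188 (.cons 757 n247 .nil)))
noncomputable def n1209 : Strat := .move 922 n618 (.cons 839 n210 (.cons 800 n301 (.cons 963 n226 .nil)))
noncomputable def n1210 : Strat := .move 758 n61 (.cons 677 n452 (.cons 880 n257 .nil))
noncomputable def n1211 : Strat := .move 922 n210 (.cons 962 n793 (.cons 963 n130 (.cons 800 n132 .nil)))
noncomputable def n1212 : Strat := .move 801 n314 (.cons 841 n605 .nil)
noncomputable def n1213 : Strat := .move 796 n229 (.cons 841 n923 .nil)
noncomputable def n1214 : Strat := .move 837 n920 (.cons 836 n919 .nil)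
noncomputable def n1215 : Strat := .move 796 n923 (.cons 756 n1214 .nil)
noncomputable def n1216 : Strat := .move 797 n213 (.cons 796 n1212 (.cons 842 n1213 (.cons 841 n1215 .nil)))
noncomputable def n1217 : Strat := .move 798 n120 (.cons 757 n1216 .nil)
noncomputable def n1218 : Strat := .move 800 n121 (.cons 759 n1217 .nil)
noncomputable def n1219 : Strat := .move 921 n63 (.cons 962 n1218 .nil)
noncomputable def n1220 : Strat := .move 922 n779 (.cons 963 n1219 (.cons 839 n210 (.cons 800 n301 .nil)))
noncomputable def n1221 : Strat := .move 801 n253 (.cons 802 n899 .nil)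
noncomputable def n1222 : Strat := .win 801 2 756
noncomputable def n1223 : Strat := .move 756 n71 (.cons 755 n1222 .nil)
noncomputable def n1224 : Strat := .move 717 n469 (.cons 676 n7 .nil)
noncomputable def n1225 : Strat := .move 841 n586 (.cons 796 n790 (.cons 842 n1224 .nil))
noncomputable def n1226 : Strat := .move 756 n71 (.cons 755 n1225 .nil)
noncomputable def n1227 : Strat := .move 841 n586 (.cons 796 n803 (.cons 842 n1224 .nil))
noncomputable def n1228 : Strat := .move 801 n253 (.cons 802 n1227 .nil)
noncomputable def n1229 : Strat := .move 800 n1221 (.cons 802 n1223 (.cons 801 n1226 (.cons 756 n1228 .nil)))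
noncomputable def n1230 : Strat := .move 798 n145 (.cons 922 n1229 .nil)
noncomputable def n1231 : Strat := .move 757 n15 (.cons 716 n1230 .nil)
noncomputable def n1232 : Strat := .move 839 n630 (.cons 756 n639 .nil)
noncomputable def n1233 : Strat := .move 880 n22 (.cons 921 n1232 .nil)
noncomputable def n1234 : Strat := .move 798 n145 (.cons 922 n1233 .nil)
noncomputable def n1235 : Strat := .move 757 n15 (.cons 716 n1234 .nil)
noncomputable def n1236 : Strat := .move 758 n164 (.cons 880 n1231 (.cons 757 n998 (.cons 717 n1235 .nil)))
noncomputable def n1237 : Strat := .move 758 n773 (.cons 757 n1006 (.cons 759 n1059 (.cons 798 n257 (.cons 922 n1070 .nil))))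
noncomputable def n1238 : Strat := .move 758 n22 (.cons 921 n60 .nil)
noncomputable def n1239 : Strat := .move 758 n60 (.cons 717 n1061 (.cons 839 n1069 (.cons 759 n451 .nil)))
noncomputable def n1240 : Strat := .move 758 n22 (.cons 921 n1069 .nil)
noncomputable def n1241 : Strat := .move 758 n22 (.cons 921 n451 .nil)
noncomputable def n1242 : Strat := .win 839 4 838
noncomputable def n1243 : Strat := .move 842 n455 (.cons 843 n1242 .nil)
noncomputable def n1244 : Strat := .move 841 n139 (.cons 878 n1243 .nil)
noncomputable def n1245 : Strat := .win 882 5 838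
noncomputable def n1246 : Strat := .move 842 n455 (.cons 843 n1245 .nil)
noncomputable def n1247 : Strat := .move 841 n139 (.cons 878 n1246 .nil)
noncomputable def n1248 : Strat := .win 961 3 797
noncomputable def n1249 : Strat := .win 757 1 756
noncomputable def n1250 : Strat := .move 798 n1248 (.cons 961 n1249 .nil)
noncomputable def n1251 : Strat := .move 920 n153 (.cons 919 n1250 .nil)
noncomputable def n1252 : Strat := .move 839 n168 (.cons 883 n1251 .nil)
noncomputable def n1253 : Strat := .move 838 n364 (.cons 837 n1252 .nil)
noncomputable def n1254 : Strat := .move 883 n389 (.cons 921 n526 .nil)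
noncomputable def n1255 : Strat := .move 920 n153 (.cons 919 n1254 .nil)
noncomputable def n1256 : Strat := .move 883 n389 (.cons 921 n531 .nil)
noncomputable def n1257 : Strat := .move 920 n153 (.cons 919 n1256 .nil)
noncomputable def n1258 : Strat := .move 883 n363 (.cons 839 n531 .nil)
noncomputable def n1259 : Strat := .move 838 n364 (.cons 837 n1258 .nil)
noncomputable def n1260 : Strat := .move 919 n357 (.cons 920 n356 .nil)
noncomputable def n1261 : Strat := .move 878 n352 (.cons 836 n1260 .nil)
noncomputable def n1262 : Strat := .move 837 n353 (.cons 838 n1261 .nil)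
noncomputable def n1263 : Strat := .move 882 n1253 (.cons 838 n1255 (.cons 839 n1257 (.cons 920 n1259 (.cons 883 n1262 .nil))))
noncomputable def n1264 : Strat := .move 837 n734 (.cons 882 n1007 .nil)
noncomputable def n1265 : Strat := .win 796 2 796
noncomputable def n1266 : Strat := .win 921 6 756
noncomputable def n1267 : Strat := .win 715 6 715
noncomputable def n1268 : Strat := .move 756 n1266 (.cons 921 n1267 .nil)
noncomputable def n1269 : Strat := .move 797 n1265 (.cons 796 n1268 .nil)
noncomputable def n1270 : Strat := .move 841 n637 (.cons 842 n1269 .nil)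
noncomputable def n1271 : Strat := .move 838 n1264 (.cons 837 n1270 .nil)
noncomputable def n1272 : Strat := .win 962 3 798
noncomputable def n1273 : Strat := .win 716 6 716
noncomputable def n1274 : Strat := .move 757 n1273 (.cons 716 n636 .nil)
noncomputable def n1275 : Strat := .move 797 n227 (.cons 756 n212 .nil)
noncomputable def n1276 : Strat := .move 798 n1274 (.cons 920 n1275 .nil)
noncomputable def n1277 : Strat := .move 921 n1272 (.cons 962 n1276 .nil)
noncomputable def n1278 : Strat := .move 841 n637 (.cons 842 n1277 .nil)
noncomputable def n1279 : Strat := .move 882 n168 (.cons 883 n153 .nil)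
noncomputable def n1280 : Strat := .win 798 1 797
noncomputable def n1281 : Strat := .win 1002 3 838
noncomputable def n1282 : Strat := .move 961 n1280 (.cons 798 n1281 .nil)
noncomputable def n1283 : Strat := .move 920 n1279 (.cons 919 n1282 .nil)
noncomputable def n1284 : Strat := .move 921 n1272 (.cons 962 n1283 .nil)
noncomputable def n1285 : Strat := .move 838 n1264 (.cons 882 n1020 (.cons 837 n1284 .nil))
noncomputable def n1286 : Strat := .move 837 n1019 (.cons 800 n1007 .nil)
noncomputable def n1287 : Strat := .move 882 n746 (.cons 883 n167 .nil)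
noncomputable def n1288 : Strat := .move 882 n746 (.cons 883 n153 .nil)
noncomputable def n1289 : Strat := .win 798 3 797
noncomputable def n1290 : Strat := .move 961 n1289 (.cons 798 n1281 .nil)
noncomputable def n1291 : Strat := .move 920 n1288 (.cons 919 n1290 .nil)
noncomputable def n1292 : Strat := .move 838 n1008 (.cons 882 n1286 (.cons 836 n1287 (.cons 837 n1291 .nil)))
noncomputable def n1293 : Strat := .move 841 n637 (.cons 842 n1292 .nil)
noncomputable def n1294 : Strat := .move 839 n1271 (.cons 882 n1278 (.cons 841 n1285 (.cons 921 n1293 .nil)))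
noncomputable def n1295 : Strat := .move 838 n1008 (.cons 882 n1286 (.cons 836 n1287 (.cons 837 n1269 .nil)))
noncomputable def n1296 : Strat := .move 798 n232 (.cons 961 n1249 .nil)
noncomputable def n1297 : Strat := .move 882 n233 (.cons 883 n153 .nil)
noncomputable def n1298 : Strat := .move 920 n1296 (.cons 757 n1282 (.cons 961 n1297 .nil))
noncomputable def n1299 : Strat := .move 921 n1272 (.cons 962 n1298 .nil)
noncomputable def n1300 : Strat := .move 839 n1295 (.cons 838 n1299 (.cons 882 n1277 (.cons 921 n1292 .nil)))
noncomputable def n1301 : Strat := .move 841 n139 (.cons 878 n1300 .nil)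
noncomputable def n1302 : Strat := .move 879 n1244 (.cons 839 n1247 (.cons 841 n1263 (.cons 878 n1294 (.cons 842 n1301 .nil))))
noncomputable def n1303 : Strat := .move 880 n1238 (.cons 921 n1239 (.cons 839 n1240 (.cons 759 n1241 (.cons 758 n1302 .nil))))
noncomputable def n1304 : Strat := .move 881 n1208 (.cons 758 n1209 (.cons 798 n1210 (.cons 800 n349 (.cons 839 n1211 (.cons 880 n1220 (.cons 757 n1028 (.cons 759 n1236 (.cons 921 n1237 (.cons 922 n1303 .nil)))))))))
noncomputable def n1305 : Strat := .move 920 n402 (.cons 883 n234 .nil)
noncomputable def n1306 : Strat := .move 921 n63 (.cons 962 n1305 .nil)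
noncomputable def n1307 : Strat := .move 882 n379 (.cons 758 n1306 .nil)
noncomputable def n1308 : Strat := .move 923 n55 (.cons 964 n1307 .nil)
noncomputable def n1309 : Strat := .move 798 n120 (.cons 757 n1308 .nil)
noncomputable def n1310 : Strat := .move 800 n121 (.cons 759 n1309 .nil)
noncomputable def n1311 : Strat := .move 922 n272 (.cons 839 n210 (.cons 800 n400 (.cons 963 n1310 .nil)))
noncomputable def n1312 : Strat := .move 758 n250 (.cons 717 n577 (.cons 841 n698 (.cons 757 n298 .nil)))
noncomputable def n1313 : Strat := .move 800 n271 (.cons 963 n1309 (.cons 757 n209 .nil))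
noncomputable def n1314 : Strat := .move 922 n1313 (.cons 757 n597 (.cons 962 n400 (.cons 923 n301 .nil)))
noncomputable def n1315 : Strat := .move 882 n23 (.cons 923 n278 .nil)
noncomputable def n1316 : Strat := .move 758 n1315 (.cons 922 n698 (.cons 798 n58 (.cons 759 n331 .nil)))
noncomputable def n1317 : Strat := .move 881 n1311 (.cons 922 n1312 (.cons 800 n346 (.cons 757 n941 (.cons 923 n1220 (.cons 759 n1314 (.cons 841 n1316 .nil))))))
noncomputable def n1318 : Strat := .move 758 n50 (.cons 759 n53 (.cons 716 n58 .nil))
noncomputable def n1319 : Strat := .move 922 n210 (.cons 800 n439 (.cons 962 n793 .nil))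
noncomputable def n1320 : Strat := .move 882 n23 (.cons 923 n458 .nil)
noncomputable def n1321 : Strat := .move 880 n22 (.cons 921 n1320 .nil)
noncomputable def n1322 : Strat := .move 717 n469 (.cons 676 n51 .nil)
noncomputable def n1323 : Strat := .move 800 n173 (.cons 922 n1322 .nil)
noncomputable def n1324 : Strat := .move 759 n17 (.cons 718 n1323 .nil)
noncomputable def n1325 : Strat := .move 717 n0 (.cons 675 n995 .nil)
noncomputable def n1326 : Strat := .move 716 n1 (.cons 757 n1325 .nil)
noncomputable def n1327 : Strat := .move 880 n22 (.cons 921 n1326 .nil)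
noncomputable def n1328 : Strat := .move 800 n469 (.cons 676 n1016 .nil)
noncomputable def n1329 : Strat := .move 717 n0 (.cons 675 n1328 .nil)
noncomputable def n1330 : Strat := .move 716 n1 (.cons 757 n1329 .nil)
noncomputable def n1331 : Strat := .move 880 n22 (.cons 921 n1330 .nil)
noncomputable def n1332 : Strat := .move 880 n22 (.cons 921 n831 .nil)
noncomputable def n1333 : Strat := .move 841 n544 (.cons 756 n1324 (.cons 759 n1327 (.cons 718 n1331 (.cons 800 n1332 (.cons 757 n69 .nil)))))
noncomputable def n1334 : Strat := .move 882 n23 (.cons 923 n465 .nil)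
noncomputable def n1335 : Strat := .move 800 n461 (.cons 922 n141 .nil)
noncomputable def n1336 : Strat := .move 759 n17 (.cons 718 n1335 .nil)
noncomputable def n1337 : Strat := .move 882 n23 (.cons 923 n1336 .nil)
noncomputable def n1338 : Strat := .move 882 n23 (.cons 923 n623 .nil)
noncomputable def n1339 : Strat := .move 841 n1334 (.cons 755 n1337 (.cons 882 n69 (.cons 800 n1338 .nil)))
noncomputable def n1340 : Strat := .move 758 n1321 (.cons 882 n1333 (.cons 717 n1339 (.cons 841 n69 (.cons 880 n58 .nil))))
noncomputable def n1341 : Strat := .move 797 n341 (.cons 796 n73 .nil)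
noncomputable def n1342 : Strat := .move 759 n17 (.cons 718 n1341 .nil)
noncomputable def n1343 : Strat := .move 757 n15 (.cons 716 n1342 .nil)
noncomputable def n1344 : Strat := .move 841 n137 (.cons 717 n140 .nil)
noncomputable def n1345 : Strat := .move 882 n23 (.cons 923 n1344 .nil)
noncomputable def n1346 : Strat := .move 880 n22 (.cons 921 n1345 .nil)
noncomputable def n1347 : Strat := .move 757 n1342 (.cons 797 n1346 .nil)
noncomputable def n1348 : Strat := .move 757 n15 (.cons 716 n1346 .nil)
noncomputable def n1349 : Strat := .win 800 5 756
noncomputable def n1350 : Strat := .move 760 n76 (.cons 761 n1349 .nil)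
noncomputable def n1351 : Strat := .move 797 n341 (.cons 796 n1350 .nil)
noncomputable def n1352 : Strat := .move 759 n17 (.cons 718 n1351 .nil)
noncomputable def n1353 : Strat := .move 798 n1343 (.cons 716 n1347 (.cons 797 n1348 (.cons 757 n1352 .nil)))
noncomputable def n1354 : Strat := .move 758 n1353 (.cons 882 n915 (.cons 759 n250 (.cons 757 n298 .nil)))
noncomputable def n1355 : Strat := .move 879 n1245 (.cons 882 n139 .nil)
noncomputable def n1356 : Strat := .move 842 n455 (.cons 843 n1355 .nil)
noncomputable def n1357 : Strat := .move 880 n372 (.cons 758 n1356 .nil)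
noncomputable def n1358 : Strat := .move 921 n63 (.cons 962 n1357 .nil)
noncomputable def n1359 : Strat := .move 841 n591 (.cons 963 n1358 .nil)
noncomputable def n1360 : Strat := .move 800 n121 (.cons 759 n1359 .nil)
noncomputable def n1361 : Strat := .win 965 6 800
noncomputable def n1362 : Strat := .move 880 n387 (.cons 879 n405 .nil)
noncomputable def n1363 : Strat := .move 924 n1361 (.cons 965 n1362 .nil)
noncomputable def n1364 : Strat := .move 841 n585 (.cons 963 n1363 .nil)
noncomputable def n1365 : Strat := .move 800 n121 (.cons 759 n1364 .nil)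
noncomputable def n1366 : Strat := .move 882 n379 (.cons 758 n1365 .nil)
noncomputable def n1367 : Strat := .move 923 n55 (.cons 964 n1366 .nil)
noncomputable def n1368 : Strat := .move 922 n650 (.cons 923 n1360 (.cons 880 n210 (.cons 962 n1367 .nil)))
noncomputable def n1369 : Strat := .move 881 n1318 (.cons 923 n1211 (.cons 841 n726 (.cons 716 n873 (.cons 758 n1319 (.cons 798 n1340 (.cons 922 n1354 (.cons 757 n1368 .nil)))))))
noncomputable def n1370 : Strat := .move 922 n378 (.cons 962 n752 (.cons 923 n301 .nil))
noncomputable def n1371 : Strat := .move 758 n136 (.cons 839 n250 (.cons 841 n164 (.cons 717 n288 .nil)))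
noncomputable def n1372 : Strat := .move 758 n505 (.cons 717 n551 (.cons 841 n164 (.cons 880 n250 .nil)))
noncomputable def n1373 : Strat := .move 922 n378 (.cons 878 n132 (.cons 921 n400 .nil))
noncomputable def n1374 : Strat := .move 798 n120 (.cons 757 n414 .nil)
noncomputable def n1375 : Strat := .move 922 n301 (.cons 962 n400 (.cons 963 n1374 (.cons 757 n993 (.cons 839 n448 .nil))))
noncomputable def n1376 : Strat := .move 758 n53 (.cons 716 n625 (.cons 841 n66 .nil))
noncomputable def n1377 : Strat := .win 1044 1 880
noncomputable def n1378 : Strat := .win 962 1 839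
noncomputable def n1379 : Strat := .move 1003 n1377 (.cons 1044 n1378 .nil)
noncomputable def n1380 : Strat := .move 1004 n978 (.cons 882 n1379 .nil)
noncomputable def n1381 : Strat := .move 841 n977 (.cons 800 n1380 .nil)
noncomputable def n1382 : Strat := .move 963 n202 (.cons 839 n1381 .nil)
noncomputable def n1383 : Strat := .move 798 n120 (.cons 757 n1382 .nil)
noncomputable def n1384 : Strat := .move 963 n333 (.cons 1005 n1381 .nil)
noncomputable def n1385 : Strat := .move 964 n334 (.cons 923 n1384 .nil)
noncomputable def n1386 : Strat := .move 922 n400 (.cons 923 n1383 (.cons 757 n971 (.cons 963 n291 (.cons 798 n1385 .nil))))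
noncomputable def n1387 : Strat := .move 881 n1370 (.cons 922 n1371 (.cons 880 n1314 (.cons 882 n932 (.cons 757 n994 (.cons 923 n1236 (.cons 798 n1372 (.cons 841 n1373 (.cons 758 n1375 (.cons 839 n1376 (.cons 921 n1386 .nil))))))))))
noncomputable def n1388 : Strat := .win 923 7 758
noncomputable def n1389 : Strat := .win 718 1 717
noncomputable def n1390 : Strat := .move 881 n1389 (.cons 718 n463 .nil)
noncomputable def n1391 : Strat := .move 759 n1390 (.cons 881 n178 .nil)
noncomputable def n1392 : Strat := .move 800 n1388 (.cons 923 n1391 .nil)
noncomputable def n1393 : Strat := .move 841 n137 (.cons 717 n1392 .nil)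
noncomputable def n1394 : Strat := .move 883 n192 (.cons 838 n193 .nil)
noncomputable def n1395 : Strat := .move 839 n1394 (.cons 884 n280 (.cons 838 n283 .nil))
noncomputable def n1396 : Strat := .move 879 n156 (.cons 878 n1395 .nil)
noncomputable def n1397 : Strat := .move 757 n15 (.cons 716 n1396 .nil)
noncomputable def n1398 : Strat := .move 880 n22 (.cons 921 n1397 .nil)
noncomputable def n1399 : Strat := .move 881 n23 (.cons 923 n1398 .nil)
noncomputable def n1400 : Strat := .move 717 n25 (.cons 841 n94 .nil)
noncomputable def n1401 : Strat := .move 881 n23 (.cons 923 n680 .nil)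
noncomputable def n1402 : Strat := .move 882 n1393 (.cons 717 n1399 (.cons 881 n1400 (.cons 841 n1401 .nil)))
noncomputable def n1403 : Strat := .move 881 n136 (.cons 839 n250 (.cons 841 n164 (.cons 717 n288 .nil)))
noncomputable def n1404 : Strat := .move 881 n28 (.cons 839 n625 (.cons 921 n298 (.cons 923 n247 (.cons 717 n562 .nil))))
noncomputable def n1405 : Strat := .move 881 n250 (.cons 717 n577 (.cons 841 n698 (.cons 757 n298 .nil)))
noncomputable def n1406 : Strat := .move 881 n905 (.cons 717 n86 (.cons 839 n915 (.cons 801 n247 (.cons 759 n164 .nil))))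
noncomputable def n1407 : Strat := .move 881 n86 (.cons 757 n562 (.cons 880 n577 (.cons 759 n288 .nil)))
noncomputable def n1408 : Strat := .move 881 n681 (.cons 880 n698 .nil)
noncomputable def n1409 : Strat := .move 882 n25 (.cons 841 n94 .nil)
noncomputable def n1410 : Strat := .move 717 n1409 (.cons 839 n89 (.cons 841 n94 (.cons 676 n111 .nil)))
noncomputable def n1411 : Strat := .move 758 n1402 (.cons 759 n1403 (.cons 716 n1404 (.cons 880 n1405 (.cons 882 n1406 (.cons 717 n1407 (.cons 841 n1408 (.cons 881 n1410 .nil)))))))
noncomputable def n1412 : Strat := .win 800 0 797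
noncomputable def n1413 : Strat := .move 842 n728 (.cons 843 n1412 .nil)
noncomputable def n1414 : Strat := .move 797 n212 (.cons 796 n1413 .nil)
noncomputable def n1415 : Strat := .win 678 1 677
noncomputable def n1416 : Strat := .win 882 1 718
noncomputable def n1417 : Strat := .move 719 n1415 (.cons 678 n1416 .nil)
noncomputable def n1418 : Strat := .move 760 n606 (.cons 761 n1417 .nil)
noncomputable def n1419 : Strat := .move 800 n217 (.cons 838 n1418 .nil)
noncomputable def n1420 : Strat := .move 801 n743 (.cons 802 n1419 .nil)
noncomputable def n1421 : Strat := .win 921 3 757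
noncomputable def n1422 : Strat := .move 758 n166 (.cons 717 n1421 .nil)
noncomputable def n1423 : Strat := .move 880 n981 (.cons 879 n1422 .nil)
noncomputable def n1424 : Strat := .move 839 n1420 (.cons 801 n1423 .nil)
noncomputable def n1425 : Strat := .move 842 n728 (.cons 843 n1424 .nil)
noncomputable def n1426 : Strat := .win 880 6 715
noncomputable def n1427 : Strat := .win 674 6 674
noncomputable def n1428 : Strat := .move 715 n1426 (.cons 880 n1427 .nil)
noncomputable def n1429 : Strat := .move 756 n220 (.cons 755 n1428 .nil)
noncomputable def n1430 : Strat := .move 839 n123 (.cons 801 n1429 .nil)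
noncomputable def n1431 : Strat := .move 838 n214 (.cons 837 n1430 .nil)
noncomputable def n1432 : Strat := .move 800 n211 (.cons 842 n1431 .nil)
noncomputable def n1433 : Strat := .move 797 n212 (.cons 796 n1432 .nil)
noncomputable def n1434 : Strat := .win 677 1 676
noncomputable def n1435 : Strat := .win 757 2 756
noncomputable def n1436 : Strat := .move 756 n1435 (.cons 757 n220 .nil)
noncomputable def n1437 : Strat := .move 801 n1436 (.cons 755 n664 .nil)
noncomputable def n1438 : Strat := .move 718 n1434 (.cons 677 n1437 .nil)
noncomputable def n1439 : Strat := .move 759 n942 (.cons 760 n1438 .nil)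
noncomputable def n1440 : Strat := .win 716 3 715
noncomputable def n1441 : Strat := .win 920 3 756
noncomputable def n1442 : Strat := .move 879 n1440 (.cons 716 n1441 .nil)
noncomputable def n1443 : Strat := .move 757 n1222 (.cons 801 n1442 .nil)
noncomputable def n1444 : Strat := .move 756 n220 (.cons 755 n1443 .nil)
noncomputable def n1445 : Strat := .move 838 n214 (.cons 837 n1444 .nil)
noncomputable def n1446 : Strat := .win 758 7 758
noncomputable def n1447 : Strat := .win 964 7 799
noncomputable def n1448 : Strat := .move 923 n1446 (.cons 758 n1447 .nil)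
noncomputable def n1449 : Strat := .move 758 n1388 (.cons 923 n137 .nil)
noncomputable def n1450 : Strat := .win 839 0 838
noncomputable def n1451 : Strat := .move 883 n513 (.cons 924 n1450 .nil)
noncomputable def n1452 : Strat := .move 882 n1448 (.cons 964 n1449 (.cons 758 n1451 .nil))
noncomputable def n1453 : Strat := .move 759 n942 (.cons 760 n1452 .nil)
noncomputable def n1454 : Strat := .move 838 n214 (.cons 837 n1453 .nil)
noncomputable def n1455 : Strat := .move 800 n1431 (.cons 838 n1439 (.cons 839 n1445 (.cons 801 n1454 .nil)))
noncomputable def n1456 : Strat := .move 797 n212 (.cons 796 n1455 .nil)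
noncomputable def n1457 : Strat := .win 839 2 797
noncomputable def n1458 : Strat := .move 842 n728 (.cons 843 n1457 .nil)
noncomputable def n1459 : Strat := .move 797 n212 (.cons 796 n1458 .nil)
noncomputable def n1460 : Strat := .move 841 n1414 (.cons 797 n1425 (.cons 843 n1433 (.cons 842 n1456 (.cons 800 n1459 .nil))))
noncomputable def n1461 : Strat := .win 800 4 796
noncomputable def n1462 : Strat := .move 837 n920 (.cons 836 n1461 .nil)
noncomputable def n1463 : Strat := .win 759 5 755
noncomputable def n1464 : Strat := .move 717 n9 (.cons 880 n946 .nil)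
noncomputable def n1465 : Strat := .move 758 n1463 (.cons 759 n1464 .nil)
noncomputable def n1466 : Strat := .move 838 n1462 (.cons 837 n1465 .nil)
noncomputable def n1467 : Strat := .move 839 n228 (.cons 795 n1466 .nil)
noncomputable def n1468 : Strat := .move 880 n166 (.cons 717 n1421 .nil)
noncomputable def n1469 : Strat := .move 758 n1463 (.cons 759 n1468 .nil)
noncomputable def n1470 : Strat := .win 879 6 714
noncomputable def n1471 : Strat := .win 673 6 673
noncomputable def n1472 : Strat := .move 714 n1470 (.cons 879 n1471 .nil)
noncomputable def n1473 : Strat := .move 755 n921 (.cons 754 n1472 .nil)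
noncomputable def n1474 : Strat := .move 838 n1461 (.cons 800 n1473 .nil)
noncomputable def n1475 : Strat := .move 837 n920 (.cons 836 n1474 .nil)
noncomputable def n1476 : Strat := .move 839 n1466 (.cons 838 n1469 (.cons 717 n1475 .nil))
noncomputable def n1477 : Strat := .win 839 0 795
noncomputable def n1478 : Strat := .win 757 5 754
noncomputable def n1479 : Strat := .move 795 n1477 (.cons 839 n1478 .nil)
noncomputable def n1480 : Strat := .move 758 n1463 (.cons 759 n1479 .nil)
noncomputable def n1481 : Strat := .move 800 n922 (.cons 756 n919 .nil)
noncomputable def n1482 : Strat := .move 837 n920 (.cons 836 n1481 .nil)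
noncomputable def n1483 : Strat := .move 755 n921 (.cons 754 n1482 .nil)
noncomputable def n1484 : Strat := .move 796 n1467 (.cons 795 n1476 (.cons 717 n1480 (.cons 839 n1483 .nil)))
noncomputable def n1485 : Strat := .move 756 n220 (.cons 755 n1435 .nil)
noncomputable def n1486 : Strat := .move 801 n315 (.cons 839 n1485 .nil)
noncomputable def n1487 : Strat := .move 838 n214 (.cons 837 n1486 .nil)
noncomputable def n1488 : Strat := .win 759 5 756
noncomputable def n1489 : Strat := .move 760 n1488 (.cons 759 n606 .nil)
noncomputable def n1490 : Strat := .move 801 n1435 (.cons 757 n1489 .nil)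
noncomputable def n1491 : Strat := .move 756 n220 (.cons 755 n1490 .nil)
noncomputable def n1492 : Strat := .win 803 2 758
noncomputable def n1493 : Strat := .win 757 2 757
noncomputable def n1494 : Strat := .move 758 n1492 (.cons 803 n1493 .nil)
noncomputable def n1495 : Strat := .move 802 n310 (.cons 842 n1494 .nil)
noncomputable def n1496 : Strat := .move 801 n315 (.cons 839 n1495 .nil)
noncomputable def n1497 : Strat := .move 759 n942 (.cons 760 n1496 .nil)
noncomputable def n1498 : Strat := .move 838 n214 (.cons 837 n1497 .nil)
noncomputable def n1499 : Strat := .move 839 n1426 (.cons 880 n1427 .nil)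
noncomputable def n1500 : Strat := .move 757 n1440 (.cons 716 n1441 .nil)
noncomputable def n1501 : Strat := .win 757 3 715
noncomputable def n1502 : Strat := .win 675 3 674
noncomputable def n1503 : Strat := .move 716 n1501 (.cons 757 n1502 .nil)
noncomputable def n1504 : Strat := .win 839 6 715
noncomputable def n1505 : Strat := .move 880 n1266 (.cons 921 n1504 .nil)
noncomputable def n1506 : Strat := .move 879 n1500 (.cons 920 n1503 (.cons 716 n1505 .nil))
noncomputable def n1507 : Strat := .win 839 6 674
noncomputable def n1508 : Strat := .win 634 3 633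
noncomputable def n1509 : Strat := .win 716 3 674
noncomputable def n1510 : Strat := .move 675 n1508 (.cons 634 n1509 .nil)
noncomputable def n1511 : Strat := .move 674 n1507 (.cons 839 n1510 .nil)
noncomputable def n1512 : Strat := .win 632 7 632
noncomputable def n1513 : Strat := .win 714 7 673
noncomputable def n1514 : Strat := .move 673 n1512 (.cons 632 n1513 .nil)
noncomputable def n1515 : Strat := .move 674 n1510 (.cons 716 n1514 .nil)
noncomputable def n1516 : Strat := .move 715 n1499 (.cons 674 n1506 (.cons 880 n1511 (.cons 839 n1515 .nil)))
noncomputable def n1517 : Strat := .move 756 n220 (.cons 755 n1516 .nil)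
noncomputable def n1518 : Strat := .move 838 n214 (.cons 837 n1517 .nil)
noncomputable def n1519 : Strat := .move 801 n315 (.cons 839 n1489 .nil)
noncomputable def n1520 : Strat := .move 838 n214 (.cons 837 n1519 .nil)
noncomputable def n1521 : Strat := .move 800 n1487 (.cons 838 n1491 (.cons 756 n1498 (.cons 801 n1518 (.cons 757 n1520 .nil))))
noncomputable def n1522 : Strat := .win 800 2 755
noncomputable def n1523 : Strat := .win 878 3 714
noncomputable def n1524 : Strat := .win 674 1 673
noncomputable def n1525 : Strat := .move 715 n1523 (.cons 878 n1524 .nil)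
noncomputable def n1526 : Strat := .move 837 n920 (.cons 836 n1525 .nil)
noncomputable def n1527 : Strat := .move 756 n1522 (.cons 800 n1526 .nil)
noncomputable def n1528 : Strat := .move 755 n921 (.cons 754 n1527 .nil)
noncomputable def n1529 : Strat := .win 837 4 795
noncomputable def n1530 : Strat := .win 835 4 794
noncomputable def n1531 : Strat := .move 836 n1529 (.cons 837 n1530 .nil)
noncomputable def n1532 : Strat := .move 795 n1478 (.cons 757 n1531 .nil)
noncomputable def n1533 : Strat := .move 758 n1463 (.cons 759 n1532 .nil)
noncomputable def n1534 : Strat := .win 632 6 632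
noncomputable def n1535 : Strat := .win 838 6 673
noncomputable def n1536 : Strat := .move 673 n1534 (.cons 632 n1535 .nil)
noncomputable def n1537 : Strat := .move 757 n683 (.cons 713 n688 .nil)
noncomputable def n1538 : Strat := .move 714 n1536 (.cons 838 n1537 .nil)
noncomputable def n1539 : Strat := .move 758 n1463 (.cons 759 n1538 .nil)
noncomputable def n1540 : Strat := .move 756 n1522 (.cons 800 n1539 .nil)
noncomputable def n1541 : Strat := .move 755 n921 (.cons 754 n1540 .nil)
noncomputable def n1542 : Strat := .move 796 n1483 (.cons 838 n1528 (.cons 755 n1533 (.cons 836 n1541 .nil)))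
noncomputable def n1543 : Strat := .move 839 n228 (.cons 795 n1473 .nil)
noncomputable def n1544 : Strat := .move 838 n1461 (.cons 800 n1543 .nil)
noncomputable def n1545 : Strat := .move 837 n920 (.cons 836 n1544 .nil)
noncomputable def n1546 : Strat := .win 755 2 754
noncomputable def n1547 : Strat := .win 753 2 753
noncomputable def n1548 : Strat := .move 754 n1546 (.cons 755 n1547 .nil)
noncomputable def n1549 : Strat := .move 795 n1477 (.cons 839 n1548 .nil)
noncomputable def n1550 : Strat := .move 795 n1477 (.cons 839 n1531 .nil)
noncomputable def n1551 : Strat := .move 796 n1545 (.cons 837 n1549 (.cons 839 n1483 (.cons 755 n1550 .nil)))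
noncomputable def n1552 : Strat := .move 796 n1550 (.cons 835 n1549 (.cons 795 n1475 .nil))
noncomputable def n1553 : Strat := .win 758 5 755
noncomputable def n1554 : Strat := .move 759 n1553 (.cons 758 n942 .nil)
noncomputable def n1555 : Strat := .move 800 n922 (.cons 756 n1554 .nil)
noncomputable def n1556 : Strat := .move 755 n921 (.cons 754 n1555 .nil)
noncomputable def n1557 : Strat := .move 758 n1463 (.cons 759 n1478 .nil)
noncomputable def n1558 : Strat := .move 795 n1477 (.cons 839 n1557 .nil)
noncomputable def n1559 : Strat := .move 796 n1549 (.cons 795 n1556 (.cons 755 n1558 .nil))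
noncomputable def n1560 : Strat := .move 839 n228 (.cons 795 n1469 .nil)
noncomputable def n1561 : Strat := .move 800 n919 (.cons 838 n1554 .nil)
noncomputable def n1562 : Strat := .move 837 n920 (.cons 836 n1561 .nil)
noncomputable def n1563 : Strat := .move 796 n1560 (.cons 839 n1533 (.cons 758 n1550 (.cons 795 n1562 .nil)))
noncomputable def n1564 : Strat := .win 918 1 754
noncomputable def n1565 : Strat := .win 838 4 836
noncomputable def n1566 : Strat := .move 877 n1564 (.cons 918 n1565 .nil)
noncomputable def n1567 : Strat := .win 715 3 714
noncomputable def n1568 : Strat := .win 919 3 755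
noncomputable def n1569 : Strat := .move 756 n1567 (.cons 715 n1568 .nil)
noncomputable def n1570 : Strat := .move 878 n1566 (.cons 838 n1569 .nil)
noncomputable def n1571 : Strat := .move 755 n921 (.cons 754 n1570 .nil)
noncomputable def n1572 : Strat := .move 837 n920 (.cons 836 n1571 .nil)
noncomputable def n1573 : Strat := .move 839 n1469 (.cons 759 n1572 .nil)
noncomputable def n1574 : Strat := .move 796 n1549 (.cons 839 n1533 (.cons 795 n1573 .nil))
noncomputable def n1575 : Strat := .move 797 n1484 (.cons 796 n1521 (.cons 839 n1542 (.cons 757 n1551 (.cons 756 n1552 (.cons 837 n1559 (.cons 755 n1563 (.cons 800 n1574 .nil)))))))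
noncomputable def n1576 : Strat := .move 800 n211 (.cons 842 n1445 .nil)
noncomputable def n1577 : Strat := .move 841 n212 (.cons 796 n1576 .nil)
noncomputable def n1578 : Strat := .move 796 n229 (.cons 841 n1533 .nil)
noncomputable def n1579 : Strat := .move 841 n211 (.cons 842 n1445 .nil)
noncomputable def n1580 : Strat := .win 879 3 715
noncomputable def n1581 : Strat := .win 675 1 674
noncomputable def n1582 : Strat := .move 716 n1580 (.cons 879 n1581 .nil)
noncomputable def n1583 : Strat := .move 838 n214 (.cons 837 n1582 .nil)
noncomputable def n1584 : Strat := .move 757 n1222 (.cons 801 n1583 .nil)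
noncomputable def n1585 : Strat := .move 756 n220 (.cons 755 n1584 .nil)
noncomputable def n1586 : Strat := .move 923 n1447 (.cons 964 n1446 .nil)
noncomputable def n1587 : Strat := .win 758 6 717
noncomputable def n1588 : Strat := .win 676 7 676
noncomputable def n1589 : Strat := .move 718 n1588 (.cons 676 n1434 .nil)
noncomputable def n1590 : Strat := .move 717 n1587 (.cons 758 n1589 .nil)
noncomputable def n1591 : Strat := .win 883 6 759
noncomputable def n1592 : Strat := .move 924 n1361 (.cons 965 n1591 .nil)
noncomputable def n1593 : Strat := .move 923 n1447 (.cons 964 n1592 .nil)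
noncomputable def n1594 : Strat := .move 882 n1449 (.cons 717 n1586 (.cons 923 n1590 (.cons 758 n1593 .nil)))
noncomputable def n1595 : Strat := .move 759 n942 (.cons 760 n1594 .nil)
noncomputable def n1596 : Strat := .move 841 n211 (.cons 842 n1595 .nil)
noncomputable def n1597 : Strat := .move 800 n1579 (.cons 842 n1585 (.cons 757 n1596 .nil))
noncomputable def n1598 : Strat := .move 796 n229 (.cons 841 n1483 .nil)
noncomputable def n1599 : Strat := .move 714 n1537 (.cons 795 n1536 .nil)
noncomputable def n1600 : Strat := .move 756 n1522 (.cons 800 n1599 .nil)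
noncomputable def n1601 : Strat := .move 758 n1463 (.cons 759 n1600 .nil)
noncomputable def n1602 : Strat := .move 755 n921 (.cons 754 n1601 .nil)
noncomputable def n1603 : Strat := .move 796 n229 (.cons 841 n1602 .nil)
noncomputable def n1604 : Strat := .move 797 n1577 (.cons 841 n1542 (.cons 800 n1578 (.cons 796 n1597 (.cons 757 n1598 (.cons 837 n1603 .nil)))))
noncomputable def n1605 : Strat := .move 796 n229 (.cons 841 n1549 .nil)
noncomputable def n1606 : Strat := .move 841 n212 (.cons 796 n1413 .nil)
noncomputable def n1607 : Strat := .move 796 n1549 (.cons 755 n1550 (.cons 839 n1483 .nil))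
noncomputable def n1608 : Strat := .move 801 n1435 (.cons 757 n315 .nil)
noncomputable def n1609 : Strat := .move 756 n220 (.cons 755 n1608 .nil)
noncomputable def n1610 : Strat := .move 838 n214 (.cons 837 n1609 .nil)
noncomputable def n1611 : Strat := .win 919 1 755
noncomputable def n1612 : Strat := .win 839 4 837
noncomputable def n1613 : Strat := .move 878 n1611 (.cons 919 n1612 .nil)
noncomputable def n1614 : Strat := .move 879 n1613 (.cons 839 n1500 .nil)
noncomputable def n1615 : Strat := .move 756 n220 (.cons 755 n1614 .nil)
noncomputable def n1616 : Strat := .move 838 n214 (.cons 837 n1615 .nil)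
noncomputable def n1617 : Strat := .move 841 n211 (.cons 842 n1616 .nil)
noncomputable def n1618 : Strat := .move 841 n211 (.cons 842 n1431 .nil)
noncomputable def n1619 : Strat := .move 801 n312 (.cons 843 n1489 .nil)
noncomputable def n1620 : Strat := .move 842 n313 (.cons 841 n1619 .nil)
noncomputable def n1621 : Strat := .move 800 n1610 (.cons 801 n1617 (.cons 757 n1618 (.cons 838 n1620 .nil)))
noncomputable def n1622 : Strat := .move 797 n1605 (.cons 795 n1606 (.cons 841 n1607 (.cons 796 n1621 .nil)))
noncomputable def n1623 : Strat := .move 841 n212 (.cons 796 n1458 .nil)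
noncomputable def n1624 : Strat := .move 883 n1450 (.cons 839 n513 .nil)
noncomputable def n1625 : Strat := .move 882 n1449 (.cons 717 n1586 (.cons 923 n1624 .nil))
noncomputable def n1626 : Strat := .move 838 n214 (.cons 837 n1625 .nil)
noncomputable def n1627 : Strat := .move 759 n942 (.cons 760 n1626 .nil)
noncomputable def n1628 : Strat := .move 841 n211 (.cons 842 n1627 .nil)
noncomputable def n1629 : Strat := .move 800 n1618 (.cons 841 n1520 (.cons 801 n1628 (.cons 839 n1596 .nil)))
noncomputable def n1630 : Strat := .move 797 n1606 (.cons 800 n1623 (.cons 841 n1551 (.cons 796 n1629 .nil)))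
noncomputable def n1631 : Strat := .move 797 n1412 (.cons 800 n1457 .nil)
noncomputable def n1632 : Strat := .move 842 n728 (.cons 843 n1631 .nil)
noncomputable def n1633 : Strat := .move 839 n738 (.cons 797 n1423 .nil)
noncomputable def n1634 : Strat := .move 842 n728 (.cons 843 n1633 .nil)
noncomputable def n1635 : Strat := .move 719 n1416 (.cons 882 n1415 .nil)
noncomputable def n1636 : Strat := .move 760 n606 (.cons 761 n1635 .nil)
noncomputable def n1637 : Strat := .win 923 3 759
noncomputable def n1638 : Strat := .win 719 1 718
noncomputable def n1639 : Strat := .move 882 n1637 (.cons 923 n1638 .nil)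
noncomputable def n1640 : Strat := .move 760 n606 (.cons 761 n1639 .nil)
noncomputable def n1641 : Strat := .win 758 2 757
noncomputable def n1642 : Strat := .move 757 n1641 (.cons 758 n899 .nil)
noncomputable def n1643 : Strat := .move 802 n663 (.cons 803 n1642 .nil)
noncomputable def n1644 : Strat := .move 801 n1636 (.cons 678 n1640 (.cons 760 n1643 .nil))
noncomputable def n1645 : Strat := .move 800 n729 (.cons 797 n1644 .nil)
noncomputable def n1646 : Strat := .move 842 n728 (.cons 843 n1645 .nil)
noncomputable def n1647 : Strat := .move 842 n738 (.cons 797 n1420 .nil)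
noncomputable def n1648 : Strat := .move 842 n738 (.cons 797 n1423 .nil)
noncomputable def n1649 : Strat := .move 758 n1421 (.cons 921 n166 .nil)
noncomputable def n1650 : Strat := .move 880 n981 (.cons 879 n1649 .nil)
noncomputable def n1651 : Strat := .move 800 n217 (.cons 838 n1650 .nil)
noncomputable def n1652 : Strat := .move 801 n743 (.cons 802 n1651 .nil)
noncomputable def n1653 : Strat := .move 842 n1420 (.cons 882 n1652 (.cons 838 n1423 .nil))
noncomputable def n1654 : Strat := .move 800 n123 (.cons 801 n214 .nil)
noncomputable def n1655 : Strat := .win 757 3 756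
noncomputable def n1656 : Strat := .move 920 n1655 (.cons 757 n1248 .nil)
noncomputable def n1657 : Strat := .move 879 n1010 (.cons 878 n1656 .nil)
noncomputable def n1658 : Strat := .move 797 n1654 (.cons 800 n1657 .nil)
noncomputable def n1659 : Strat := .move 800 n214 (.cons 837 n1429 .nil)
noncomputable def n1660 : Strat := .move 797 n1659 (.cons 800 n1657 .nil)
noncomputable def n1661 : Strat := .move 882 n746 (.cons 883 n1448 .nil)
noncomputable def n1662 : Strat := .move 800 n123 (.cons 801 n1661 .nil)
noncomputable def n1663 : Strat := .win 716 1 715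
noncomputable def n1664 : Strat := .win 880 1 756
noncomputable def n1665 : Strat := .move 920 n1664 (.cons 880 n1248 .nil)
noncomputable def n1666 : Strat := .move 757 n1663 (.cons 716 n1665 .nil)
noncomputable def n1667 : Strat := .move 879 n1010 (.cons 878 n1666 .nil)
noncomputable def n1668 : Strat := .move 838 n1658 (.cons 801 n1660 (.cons 961 n737 (.cons 837 n1662 (.cons 800 n1667 .nil))))
noncomputable def n1669 : Strat := .move 839 n1647 (.cons 800 n1648 (.cons 797 n1653 (.cons 842 n1668 .nil)))
noncomputable def n1670 : Strat := .move 839 n1420 (.cons 882 n1652 (.cons 838 n1423 .nil))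
noncomputable def n1671 : Strat := .move 842 n728 (.cons 843 n1670 .nil)
noncomputable def n1672 : Strat := .move 797 n1431 (.cons 838 n1439 (.cons 839 n1445 (.cons 801 n1454 .nil)))
noncomputable def n1673 : Strat := .move 882 n1448 (.cons 964 n1449 (.cons 758 n1593 (.cons 923 n1590 .nil)))
noncomputable def n1674 : Strat := .move 759 n942 (.cons 760 n1673 .nil)
noncomputable def n1675 : Strat := .move 797 n1454 (.cons 759 n1616 (.cons 838 n1674 .nil))
noncomputable def n1676 : Strat := .move 801 n1435 (.cons 757 n664 .nil)
noncomputable def n1677 : Strat := .move 756 n220 (.cons 755 n1676 .nil)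
noncomputable def n1678 : Strat := .move 797 n1439 (.cons 759 n1677 (.cons 801 n1674 .nil))
noncomputable def n1679 : Strat := .move 802 n663 (.cons 803 n320 .nil)
noncomputable def n1680 : Strat := .move 801 n1435 (.cons 757 n1679 .nil)
noncomputable def n1681 : Strat := .move 756 n220 (.cons 755 n1680 .nil)
noncomputable def n1682 : Strat := .move 757 n1663 (.cons 716 n1441 .nil)
noncomputable def n1683 : Strat := .move 879 n1010 (.cons 878 n1682 .nil)
noncomputable def n1684 : Strat := .move 839 n123 (.cons 801 n1683 .nil)
noncomputable def n1685 : Strat := .move 838 n214 (.cons 837 n1684 .nil)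
noncomputable def n1686 : Strat := .move 797 n1431 (.cons 838 n1677 (.cons 801 n1616 (.cons 839 n1681 (.cons 756 n1685 .nil))))
noncomputable def n1687 : Strat := .move 802 n307 (.cons 839 n663 .nil)
noncomputable def n1688 : Strat := .move 759 n174 (.cons 719 n944 .nil)
noncomputable def n1689 : Strat := .move 882 n1637 (.cons 923 n1688 .nil)
noncomputable def n1690 : Strat := .move 760 n606 (.cons 761 n1689 .nil)
noncomputable def n1691 : Strat := .move 801 n605 (.cons 838 n1687 (.cons 839 n1690 .nil))
noncomputable def n1692 : Strat := .win 675 6 675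
noncomputable def n1693 : Strat := .move 838 n1580 (.cons 879 n214 .nil)
noncomputable def n1694 : Strat := .move 716 n1692 (.cons 675 n1693 .nil)
noncomputable def n1695 : Strat := .move 757 n1222 (.cons 801 n1694 .nil)
noncomputable def n1696 : Strat := .move 756 n220 (.cons 755 n1695 .nil)
noncomputable def n1697 : Strat := .move 797 n1431 (.cons 838 n1677 (.cons 756 n1685 (.cons 839 n1696 (.cons 801 n1616 .nil))))
noncomputable def n1698 : Strat := .move 757 n899 (.cons 756 n1641 .nil)
noncomputable def n1699 : Strat := .move 802 n663 (.cons 803 n1698 .nil)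
noncomputable def n1700 : Strat := .move 758 n946 (.cons 676 n7 .nil)
noncomputable def n1701 : Strat := .move 758 n9 (.cons 880 n946 .nil)
noncomputable def n1702 : Strat := .move 758 n9 (.cons 880 n7 .nil)
noncomputable def n1703 : Strat := .win 676 3 675
noncomputable def n1704 : Strat := .move 716 n1703 (.cons 676 n1692 .nil)
noncomputable def n1705 : Strat := .move 717 n1700 (.cons 882 n1701 (.cons 676 n1702 (.cons 758 n1704 .nil)))
noncomputable def n1706 : Strat := .move 757 n899 (.cons 756 n1705 .nil)
noncomputable def n1707 : Strat := .move 839 n217 (.cons 838 n1706 .nil)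
noncomputable def n1708 : Strat := .move 801 n605 (.cons 839 n1699 (.cons 802 n1707 .nil))
noncomputable def n1709 : Strat := .move 838 n214 (.cons 837 n1448 .nil)
noncomputable def n1710 : Strat := .win 801 3 759
noncomputable def n1711 : Strat := .move 923 n1710 (.cons 801 n1447 .nil)
noncomputable def n1712 : Strat := .move 760 n1488 (.cons 759 n1711 .nil)
noncomputable def n1713 : Strat := .move 838 n214 (.cons 837 n1712 .nil)
noncomputable def n1714 : Strat := .move 759 n942 (.cons 760 n1590 .nil)
noncomputable def n1715 : Strat := .move 797 n1709 (.cons 758 n1713 (.cons 923 n1714 .nil))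
noncomputable def n1716 : Strat := .move 802 n1493 (.cons 757 n663 .nil)
noncomputable def n1717 : Strat := .move 757 n253 (.cons 802 n899 .nil)
noncomputable def n1718 : Strat := .move 760 n606 (.cons 761 n1688 .nil)
noncomputable def n1719 : Strat := .move 801 n1716 (.cons 803 n1717 (.cons 757 n1718 .nil))
noncomputable def n1720 : Strat := .move 758 n137 (.cons 717 n1719 .nil)
noncomputable def n1721 : Strat := .move 760 n1710 (.cons 801 n1688 .nil)
noncomputable def n1722 : Strat := .move 923 n1447 (.cons 964 n1721 .nil)
noncomputable def n1723 : Strat := .move 882 n1715 (.cons 923 n1720 (.cons 759 n1586 (.cons 758 n1722 .nil)))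
noncomputable def n1724 : Strat := .move 800 n1672 (.cons 801 n1675 (.cons 838 n1678 (.cons 759 n1686 (.cons 757 n1691 (.cons 760 n1697 (.cons 797 n1708 (.cons 839 n1723 .nil)))))))
noncomputable def n1725 : Strat := .move 841 n1632 (.cons 800 n1634 (.cons 839 n1646 (.cons 843 n1669 (.cons 797 n1671 (.cons 842 n1724 .nil)))))
noncomputable def n1726 : Strat := .move 841 n212 (.cons 796 n1455 .nil)
noncomputable def n1727 : Strat := .move 800 n1431 (.cons 838 n1677 (.cons 756 n1685 (.cons 839 n1696 (.cons 801 n1616 .nil))))
noncomputable def n1728 : Strat := .move 841 n212 (.cons 796 n1727 .nil)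
noncomputable def n1729 : Strat := .move 800 n1439 (.cons 759 n1677 (.cons 801 n1674 .nil))
noncomputable def n1730 : Strat := .move 841 n212 (.cons 796 n1729 .nil)
noncomputable def n1731 : Strat := .move 676 n146 (.cons 839 n8 .nil)
noncomputable def n1732 : Strat := .move 717 n7 (.cons 882 n1731 .nil)
noncomputable def n1733 : Strat := .move 802 n663 (.cons 803 n1493 .nil)
noncomputable def n1734 : Strat := .move 801 n315 (.cons 839 n1733 .nil)
noncomputable def n1735 : Strat := .move 838 n214 (.cons 837 n1734 .nil)
noncomputable def n1736 : Strat := .move 802 n307 (.cons 839 n1493 .nil)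
noncomputable def n1737 : Strat := .move 801 n606 (.cons 761 n1736 .nil)
noncomputable def n1738 : Strat := .move 760 n1488 (.cons 759 n1737 .nil)
noncomputable def n1739 : Strat := .move 838 n1450 (.cons 839 n214 .nil)
noncomputable def n1740 : Strat := .move 759 n513 (.cons 924 n942 .nil)
noncomputable def n1741 : Strat := .move 883 n1739 (.cons 837 n1740 .nil)
noncomputable def n1742 : Strat := .move 882 n1388 (.cons 923 n1741 .nil)
noncomputable def n1743 : Strat := .move 801 n606 (.cons 761 n1733 .nil)
noncomputable def n1744 : Strat := .move 760 n1488 (.cons 759 n1743 .nil)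
noncomputable def n1745 : Strat := .move 800 n1735 (.cons 838 n1738 (.cons 801 n1742 (.cons 839 n1744 .nil)))
noncomputable def n1746 : Strat := .move 757 n1441 (.cons 920 n1663 .nil)
noncomputable def n1747 : Strat := .move 879 n1010 (.cons 878 n1746 .nil)
noncomputable def n1748 : Strat := .move 838 n1654 (.cons 837 n1747 .nil)
noncomputable def n1749 : Strat := .move 839 n947 (.cons 676 n1468 (.cons 717 n1748 .nil))
noncomputable def n1750 : Strat := .move 717 n7 (.cons 882 n1173 .nil)
noncomputable def n1751 : Strat := .move 717 n7 (.cons 882 n995 .nil)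
noncomputable def n1752 : Strat := .move 758 n1732 (.cons 717 n1745 (.cons 882 n1749 (.cons 800 n1750 (.cons 839 n1751 .nil))))
noncomputable def n1753 : Strat := .move 841 n212 (.cons 796 n1752 .nil)
noncomputable def n1754 : Strat := .move 800 n1454 (.cons 759 n1616 (.cons 838 n1674 .nil))
noncomputable def n1755 : Strat := .move 841 n212 (.cons 796 n1754 .nil)
noncomputable def n1756 : Strat := .move 841 n1431 (.cons 838 n1439 (.cons 839 n1445 (.cons 801 n1454 .nil)))
noncomputable def n1757 : Strat := .move 841 n1439 (.cons 759 n1677 (.cons 801 n1674 .nil))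
noncomputable def n1758 : Strat := .move 841 n1431 (.cons 838 n1677 (.cons 801 n1616 (.cons 839 n1681 (.cons 756 n1685 .nil))))
noncomputable def n1759 : Strat := .move 841 n1431 (.cons 838 n1677 (.cons 756 n1685 (.cons 839 n1696 (.cons 801 n1616 .nil))))
noncomputable def n1760 : Strat := .win 841 4 837
noncomputable def n1761 : Strat := .win 880 5 836
noncomputable def n1762 : Strat := .win 876 5 835
noncomputable def n1763 : Strat := .move 877 n1761 (.cons 880 n1762 .nil)
noncomputable def n1764 : Strat := .move 878 n1760 (.cons 841 n1763 .nil)
noncomputable def n1765 : Strat := .move 879 n1682 (.cons 920 n1764 .nil)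
noncomputable def n1766 : Strat := .move 839 n123 (.cons 801 n1765 .nil)
noncomputable def n1767 : Strat := .move 838 n214 (.cons 837 n1766 .nil)
noncomputable def n1768 : Strat := .move 841 n1454 (.cons 759 n1616 (.cons 838 n1674 .nil))
noncomputable def n1769 : Strat := .move 800 n1756 (.cons 838 n1757 (.cons 759 n1758 (.cons 760 n1759 (.cons 756 n1767 (.cons 839 n1585 (.cons 801 n1768 (.cons 757 n1431 .nil)))))))
noncomputable def n1770 : Strat := .move 796 n1549 (.cons 839 n1483 (.cons 755 n1550 .nil))
noncomputable def n1771 : Strat := .move 797 n1726 (.cons 760 n1728 (.cons 838 n1730 (.cons 756 n1753 (.cons 801 n1755 (.cons 796 n1769 (.cons 841 n1770 (.cons 800 n1605 (.cons 839 n1598 .nil))))))))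
noncomputable def n1772 : Strat := .move 797 n212 (.cons 796 n1412 .nil)
noncomputable def n1773 : Strat := .move 842 n728 (.cons 843 n1772 .nil)
noncomputable def n1774 : Strat := .win 758 3 757
noncomputable def n1775 : Strat := .move 921 n1774 (.cons 758 n1272 .nil)
noncomputable def n1776 : Strat := .move 880 n981 (.cons 879 n1775 .nil)
noncomputable def n1777 : Strat := .win 923 1 759
noncomputable def n1778 : Strat := .move 882 n1777 (.cons 923 n1638 .nil)
noncomputable def n1779 : Strat := .win 720 3 719
noncomputable def n1780 : Strat := .win 800 5 757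
noncomputable def n1781 : Strat := .move 761 n1779 (.cons 720 n1780 .nil)
noncomputable def n1782 : Strat := .move 760 n1778 (.cons 719 n1781 .nil)
noncomputable def n1783 : Strat := .move 883 n1013 (.cons 884 n1782 .nil)
noncomputable def n1784 : Strat := .move 801 n743 (.cons 802 n1783 .nil)
noncomputable def n1785 : Strat := .move 839 n1423 (.cons 717 n1776 (.cons 880 n1784 .nil))
noncomputable def n1786 : Strat := .move 842 n728 (.cons 843 n1785 .nil)
noncomputable def n1787 : Strat := .move 842 n1412 (.cons 800 n1457 .nil)
noncomputable def n1788 : Strat := .move 797 n212 (.cons 796 n1787 .nil)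
noncomputable def n1789 : Strat := .move 797 n212 (.cons 796 n1457 .nil)
noncomputable def n1790 : Strat := .move 842 n728 (.cons 843 n1789 .nil)
noncomputable def n1791 : Strat := .move 797 n212 (.cons 796 n1729 .nil)
noncomputable def n1792 : Strat := .move 841 n1773 (.cons 797 n1786 (.cons 843 n1788 (.cons 800 n1790 (.cons 842 n1791 .nil))))
noncomputable def n1793 : Strat := .move 800 n211 (.cons 842 n1454 .nil)
noncomputable def n1794 : Strat := .move 797 n212 (.cons 796 n1793 .nil)
noncomputable def n1795 : Strat := .move 797 n212 (.cons 796 n1754 .nil)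
noncomputable def n1796 : Strat := .move 758 n137 (.cons 717 n1388 .nil)
noncomputable def n1797 : Strat := .win 883 6 718
noncomputable def n1798 : Strat := .move 718 n1797 (.cons 883 n1434 .nil)
noncomputable def n1799 : Strat := .win 718 6 718
noncomputable def n1800 : Strat := .move 883 n513 (.cons 924 n1799 .nil)
noncomputable def n1801 : Strat := .win 760 3 718
noncomputable def n1802 : Strat := .move 719 n1148 (.cons 678 n1801 .nil)
noncomputable def n1803 : Strat := .move 718 n1434 (.cons 677 n1802 .nil)
noncomputable def n1804 : Strat := .move 759 n1798 (.cons 677 n1800 (.cons 883 n1803 (.cons 718 n1593 .nil)))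
noncomputable def n1805 : Strat := .move 760 n76 (.cons 761 n174 .nil)
noncomputable def n1806 : Strat := .move 759 n1798 (.cons 677 n1800 (.cons 883 n1805 .nil))
noncomputable def n1807 : Strat := .move 758 n137 (.cons 717 n1806 .nil)
noncomputable def n1808 : Strat := .move 882 n1796 (.cons 758 n1804 (.cons 923 n1807 .nil))
noncomputable def n1809 : Strat := .move 800 n729 (.cons 797 n1808 .nil)
noncomputable def n1810 : Strat := .move 842 n728 (.cons 843 n1809 .nil)
noncomputable def n1811 : Strat := .move 800 n211 (.cons 842 n1616 .nil)
noncomputable def n1812 : Strat := .move 797 n212 (.cons 796 n1811 .nil)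
noncomputable def n1813 : Strat := .move 797 n212 (.cons 796 n740 .nil)
noncomputable def n1814 : Strat := .win 758 1 716
noncomputable def n1815 : Strat := .move 717 n1814 (.cons 758 n1704 .nil)
noncomputable def n1816 : Strat := .win 877 5 836
noncomputable def n1817 : Strat := .win 838 4 837
noncomputable def n1818 : Strat := .move 878 n1816 (.cons 877 n1817 .nil)
noncomputable def n1819 : Strat := .move 879 n636 (.cons 920 n1818 .nil)
noncomputable def n1820 : Strat := .move 757 n1815 (.cons 717 n1819 .nil)
noncomputable def n1821 : Strat := .move 921 n1272 (.cons 962 n227 .nil)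
noncomputable def n1822 : Strat := .move 880 n1775 (.cons 921 n1820 (.cons 758 n1821 .nil))
noncomputable def n1823 : Strat := .move 797 n212 (.cons 796 n1822 .nil)
noncomputable def n1824 : Strat := .move 842 n728 (.cons 843 n738 .nil)
noncomputable def n1825 : Strat := .move 842 n728 (.cons 843 n1423 .nil)
noncomputable def n1826 : Strat := .move 839 n1813 (.cons 842 n1823 (.cons 796 n1824 (.cons 797 n1825 .nil)))
noncomputable def n1827 : Strat := .win 880 4 838
noncomputable def n1828 : Strat := .move 879 n1010 (.cons 878 n1827 .nil)
noncomputable def n1829 : Strat := .move 838 n1012 (.cons 882 n1828 .nil)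
noncomputable def n1830 : Strat := .move 883 n1013 (.cons 884 n1829 .nil)
noncomputable def n1831 : Strat := .move 837 n1019 (.cons 800 n735 .nil)
noncomputable def n1832 : Strat := .move 838 n1012 (.cons 882 n1831 .nil)
noncomputable def n1833 : Strat := .move 883 n1013 (.cons 884 n1832 .nil)
noncomputable def n1834 : Strat := .move 839 n1423 (.cons 921 n1830 (.cons 880 n1833 .nil))
noncomputable def n1835 : Strat := .move 842 n728 (.cons 843 n1834 .nil)
noncomputable def n1836 : Strat := .move 841 n1794 (.cons 842 n1795 (.cons 839 n1810 (.cons 758 n1812 (.cons 800 n1826 (.cons 797 n1835 .nil)))))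
noncomputable def n1837 : Strat := .move 800 n1431 (.cons 838 n1677 (.cons 801 n1616 (.cons 839 n1681 (.cons 756 n1685 .nil))))
noncomputable def n1838 : Strat := .move 797 n212 (.cons 796 n1837 .nil)
noncomputable def n1839 : Strat := .move 883 n1012 (.cons 882 n1013 .nil)
noncomputable def n1840 : Strat := .move 838 n742 (.cons 800 n1839 .nil)
noncomputable def n1841 : Strat := .move 801 n743 (.cons 802 n1840 .nil)
noncomputable def n1842 : Strat := .move 839 n1841 (.cons 800 n1423 .nil)
noncomputable def n1843 : Strat := .move 842 n728 (.cons 843 n1842 .nil)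
noncomputable def n1844 : Strat := .move 841 n1773 (.cons 842 n1838 (.cons 796 n1632 (.cons 800 n1634 (.cons 797 n1843 .nil))))
noncomputable def n1845 : Strat := .move 797 n212 (.cons 796 n1752 .nil)
noncomputable def n1846 : Strat := .move 839 n1841 (.cons 802 n1423 .nil)
noncomputable def n1847 : Strat := .move 842 n728 (.cons 843 n1846 .nil)
noncomputable def n1848 : Strat := .move 841 n1773 (.cons 842 n1845 (.cons 800 n1459 (.cons 797 n1847 .nil)))
noncomputable def n1849 : Strat := .move 797 n212 (.cons 796 n1727 .nil)
noncomputable def n1850 : Strat := .move 839 n1423 (.cons 921 n1841 .nil)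
noncomputable def n1851 : Strat := .move 842 n728 (.cons 843 n1850 .nil)
noncomputable def n1852 : Strat := .move 841 n1414 (.cons 842 n1849 (.cons 796 n1632 (.cons 800 n1459 (.cons 797 n1851 .nil))))
noncomputable def n1853 : Strat := .move 837 n735 (.cons 836 n1019 .nil)
noncomputable def n1854 : Strat := .win 877 4 836
noncomputable def n1855 : Strat := .move 757 n1664 (.cons 880 n1663 .nil)
noncomputable def n1856 : Strat := .move 920 n1248 (.cons 961 n1855 .nil)
noncomputable def n1857 : Strat := .move 879 n1760 (.cons 841 n1856 .nil)
noncomputable def n1858 : Strat := .move 878 n1854 (.cons 877 n1857 .nil)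
noncomputable def n1859 : Strat := .move 837 n735 (.cons 836 n1858 .nil)
noncomputable def n1860 : Strat := .move 882 n746 (.cons 883 n1449 .nil)
noncomputable def n1861 : Strat := .move 879 n1827 (.cons 880 n1010 .nil)
noncomputable def n1862 : Strat := .move 842 n728 (.cons 843 n1861 .nil)
noncomputable def n1863 : Strat := .move 841 n1860 (.cons 882 n1862 .nil)
noncomputable def n1864 : Strat := .move 800 n123 (.cons 801 n1863 .nil)
noncomputable def n1865 : Strat := .move 838 n737 (.cons 801 n1853 (.cons 800 n1859 (.cons 837 n1864 .nil)))
noncomputable def n1866 : Strat := .win 923 2 878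
noncomputable def n1867 : Strat := .move 922 n1866 (.cons 923 n655 .nil)
noncomputable def n1868 : Strat := .move 878 n1816 (.cons 877 n1867 .nil)
noncomputable def n1869 : Strat := .move 879 n1249 (.cons 757 n1868 .nil)
noncomputable def n1870 : Strat := .move 920 n232 (.cons 961 n1869 .nil)
noncomputable def n1871 : Strat := .move 921 n1272 (.cons 962 n1870 .nil)
noncomputable def n1872 : Strat := .move 755 n628 (.cons 800 n627 .nil)
noncomputable def n1873 : Strat := .move 756 n626 (.cons 715 n1872 .nil)
noncomputable def n1874 : Strat := .move 758 n166 (.cons 717 n1873 .nil)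
noncomputable def n1875 : Strat := .win 756 7 715
noncomputable def n1876 : Strat := .move 715 n1107 (.cons 674 n1875 .nil)
noncomputable def n1877 : Strat := .move 717 n1703 (.cons 676 n1876 .nil)
noncomputable def n1878 : Strat := .move 716 n1692 (.cons 675 n1877 .nil)
noncomputable def n1879 : Strat := .win 758 0 755
noncomputable def n1880 : Strat := .move 755 n1879 (.cons 758 n627 .nil)
noncomputable def n1881 : Strat := .move 800 n1222 (.cons 801 n1880 .nil)
noncomputable def n1882 : Strat := .move 756 n626 (.cons 715 n1881 .nil)
noncomputable def n1883 : Strat := .move 716 n1692 (.cons 675 n1703 .nil)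
noncomputable def n1884 : Strat := .move 717 n1814 (.cons 758 n1883 .nil)
noncomputable def n1885 : Strat := .move 757 n1874 (.cons 758 n1878 (.cons 717 n1882 (.cons 715 n1884 .nil)))
noncomputable def n1886 : Strat := .move 880 n1422 (.cons 758 n1871 (.cons 921 n1885 .nil))
noncomputable def n1887 : Strat := .win 795 2 795
noncomputable def n1888 : Strat := .win 920 6 755
noncomputable def n1889 : Strat := .win 714 6 714
noncomputable def n1890 : Strat := .move 755 n1888 (.cons 920 n1889 .nil)
noncomputable def n1891 : Strat := .move 796 n1887 (.cons 795 n1890 .nil)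
noncomputable def n1892 : Strat := .move 879 n1760 (.cons 841 n1891 .nil)
noncomputable def n1893 : Strat := .move 878 n1854 (.cons 877 n1892 .nil)
noncomputable def n1894 : Strat := .move 837 n735 (.cons 836 n1893 .nil)
noncomputable def n1895 : Strat := .move 923 n1032 (.cons 800 n1447 .nil)
noncomputable def n1896 : Strat := .move 758 n137 (.cons 717 n1895 .nil)
noncomputable def n1897 : Strat := .move 882 n746 (.cons 883 n1896 .nil)
noncomputable def n1898 : Strat := .move 883 n1013 (.cons 884 n1012 .nil)
noncomputable def n1899 : Strat := .move 842 n728 (.cons 843 n1898 .nil)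
noncomputable def n1900 : Strat := .move 800 n123 (.cons 801 n1899 .nil)
noncomputable def n1901 : Strat := .move 801 n743 (.cons 802 n1898 .nil)
noncomputable def n1902 : Strat := .move 842 n728 (.cons 843 n1901 .nil)
noncomputable def n1903 : Strat := .move 842 n728 (.cons 843 n743 .nil)
noncomputable def n1904 : Strat := .move 801 n742 (.cons 800 n1903 .nil)
noncomputable def n1905 : Strat := .move 841 n1662 (.cons 801 n1897 (.cons 923 n1900 (.cons 800 n1902 (.cons 883 n1904 .nil))))
noncomputable def n1906 : Strat := .move 838 n737 (.cons 800 n1894 (.cons 837 n1905 .nil))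
noncomputable def n1907 : Strat := .move 842 n1827 (.cons 880 n728 .nil)
noncomputable def n1908 : Strat := .move 879 n1010 (.cons 878 n1907 .nil)
noncomputable def n1909 : Strat := .move 841 n1899 (.cons 884 n1908 (.cons 842 n1667 .nil))
noncomputable def n1910 : Strat := .move 800 n124 (.cons 837 n1909 .nil)
noncomputable def n1911 : Strat := .move 800 n123 (.cons 801 n1909 .nil)
noncomputable def n1912 : Strat := .move 838 n737 (.cons 801 n1910 (.cons 800 n1859 (.cons 837 n1911 .nil)))
noncomputable def n1913 : Strat := .win 838 1 715
noncomputable def n1914 : Strat := .move 879 n1913 (.cons 838 n636 .nil)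
noncomputable def n1915 : Strat := .move 716 n1692 (.cons 675 n1914 .nil)
noncomputable def n1916 : Strat := .move 878 n1817 (.cons 838 n1816 .nil)
noncomputable def n1917 : Strat := .move 841 n637 (.cons 842 n1916 .nil)
noncomputable def n1918 : Strat := .move 879 n636 (.cons 920 n1917 .nil)
noncomputable def n1919 : Strat := .move 716 n1692 (.cons 675 n1876 .nil)
noncomputable def n1920 : Strat := .move 757 n1915 (.cons 716 n1918 (.cons 920 n1919 .nil))
noncomputable def n1921 : Strat := .move 758 n166 (.cons 717 n1920 .nil)
noncomputable def n1922 : Strat := .move 758 n1421 (.cons 921 n1920 .nil)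
noncomputable def n1923 : Strat := .move 880 n1422 (.cons 921 n1921 (.cons 717 n1922 (.cons 758 n1871 .nil)))
noncomputable def n1924 : Strat := .move 757 n1873 (.cons 755 n1915 .nil)
noncomputable def n1925 : Strat := .move 880 n1421 (.cons 921 n1924 .nil)
noncomputable def n1926 : Strat := .move 674 n105 (.cons 673 n1077 .nil)
noncomputable def n1927 : Strat := .move 715 n97 (.cons 714 n1926 .nil)
noncomputable def n1928 : Strat := .move 718 n2 (.cons 677 n1927 .nil)
noncomputable def n1929 : Strat := .move 716 n0 (.cons 675 n1928 .nil)
noncomputable def n1930 : Strat := .move 717 n946 (.cons 676 n1929 .nil)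
noncomputable def n1931 : Strat := .move 758 n947 (.cons 676 n1468 (.cons 717 n1925 (.cons 880 n1930 .nil)))
noncomputable def n1932 : Strat := .win 879 1 715
noncomputable def n1933 : Strat := .move 838 n1932 (.cons 879 n1831 .nil)
noncomputable def n1934 : Strat := .move 716 n1692 (.cons 675 n1933 .nil)
noncomputable def n1935 : Strat := .move 757 n1873 (.cons 754 n1919 (.cons 756 n1934 .nil))
noncomputable def n1936 : Strat := .move 880 n1421 (.cons 921 n1935 .nil)
noncomputable def n1937 : Strat := .move 758 n947 (.cons 676 n1468 (.cons 717 n1936 (.cons 880 n1930 .nil)))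
noncomputable def n1938 : Strat := .move 714 n1109 (.cons 759 n1108 .nil)
noncomputable def n1939 : Strat := .move 715 n1107 (.cons 674 n1938 .nil)
noncomputable def n1940 : Strat := .move 758 n9 (.cons 880 n1939 .nil)
noncomputable def n1941 : Strat := .move 717 n1703 (.cons 676 n1940 .nil)
noncomputable def n1942 : Strat := .move 716 n1692 (.cons 675 n1941 .nil)
noncomputable def n1943 : Strat := .move 801 n217 (.cons 838 n253 .nil)
noncomputable def n1944 : Strat := .move 756 n1222 (.cons 801 n71 .nil)
noncomputable def n1945 : Strat := .move 880 n626 (.cons 715 n1421 .nil)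
noncomputable def n1946 : Strat := .move 756 n71 (.cons 755 n1945 .nil)
noncomputable def n1947 : Strat := .move 800 n1943 (.cons 802 n1944 (.cons 801 n1946 .nil))
noncomputable def n1948 : Strat := .win 759 5 715
noncomputable def n1949 : Strat := .move 719 n1948 (.cons 759 n101 .nil)
noncomputable def n1950 : Strat := .move 756 n498 (.cons 755 n1949 .nil)
noncomputable def n1951 : Strat := .move 718 n2 (.cons 677 n1950 .nil)
noncomputable def n1952 : Strat := .move 717 n946 (.cons 676 n1951 .nil)
noncomputable def n1953 : Strat := .move 758 n947 (.cons 717 n1947 (.cons 880 n1952 .nil))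
noncomputable def n1954 : Strat := .move 756 n99 (.cons 755 n98 .nil)
noncomputable def n1955 : Strat := .win 678 5 674
noncomputable def n1956 : Strat := .win 758 3 676
noncomputable def n1957 : Strat := .move 677 n1955 (.cons 678 n1956 .nil)
noncomputable def n1958 : Strat := .move 718 n1954 (.cons 719 n1957 .nil)
noncomputable def n1959 : Strat := .move 715 n1107 (.cons 674 n1958 .nil)
noncomputable def n1960 : Strat := .move 717 n1703 (.cons 676 n1959 .nil)
noncomputable def n1961 : Strat := .move 716 n1692 (.cons 675 n1960 .nil)
noncomputable def n1962 : Strat := .move 758 n9 (.cons 880 n1040 .nil)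
noncomputable def n1963 : Strat := .move 717 n1703 (.cons 676 n1962 .nil)
noncomputable def n1964 : Strat := .move 716 n1692 (.cons 675 n1963 .nil)
noncomputable def n1965 : Strat := .move 880 n1875 (.cons 756 n1649 .nil)
noncomputable def n1966 : Strat := .move 715 n1107 (.cons 674 n1965 .nil)
noncomputable def n1967 : Strat := .move 716 n1692 (.cons 675 n1966 .nil)
noncomputable def n1968 : Strat := .win 880 7 715
noncomputable def n1969 : Strat := .win 718 4 714
noncomputable def n1970 : Strat := .move 755 n1969 (.cons 718 n627 .nil)
noncomputable def n1971 : Strat := .move 717 n1703 (.cons 676 n1970 .nil)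
noncomputable def n1972 : Strat := .move 756 n1968 (.cons 880 n1971 .nil)
noncomputable def n1973 : Strat := .move 715 n1107 (.cons 674 n1972 .nil)
noncomputable def n1974 : Strat := .move 716 n1692 (.cons 675 n1973 .nil)
noncomputable def n1975 : Strat := .move 756 n1968 (.cons 880 n1881 .nil)
noncomputable def n1976 : Strat := .move 715 n1107 (.cons 674 n1975 .nil)
noncomputable def n1977 : Strat := .move 716 n1692 (.cons 675 n1976 .nil)
noncomputable def n1978 : Strat := .move 757 n1942 (.cons 716 n1953 (.cons 880 n1961 (.cons 715 n1964 (.cons 676 n1967 (.cons 758 n1974 (.cons 717 n1977 .nil))))))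
noncomputable def n1979 : Strat := .move 839 n1865 (.cons 838 n1886 (.cons 880 n1906 (.cons 758 n1912 (.cons 800 n1923 (.cons 878 n1931 (.cons 920 n1937 (.cons 879 n1978 .nil)))))))
noncomputable def n1980 : Strat := .move 922 n655 (.cons 963 n231 .nil)
noncomputable def n1981 : Strat := .move 921 n1774 (.cons 758 n1980 .nil)
noncomputable def n1982 : Strat := .move 797 n228 (.cons 795 n229 .nil)
noncomputable def n1983 : Strat := .win 759 4 755
noncomputable def n1984 : Strat := .move 797 n1983 (.cons 759 n228 .nil)
noncomputable def n1985 : Strat := .move 797 n1983 (.cons 759 n229 .nil)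
noncomputable def n1986 : Strat := .move 755 n688 (.cons 795 n627 .nil)
noncomputable def n1987 : Strat := .move 796 n1982 (.cons 841 n1984 (.cons 795 n1985 (.cons 797 n1986 .nil)))
noncomputable def n1988 : Strat := .move 756 n626 (.cons 715 n1987 .nil)
noncomputable def n1989 : Strat := .move 757 n1915 (.cons 716 n1988 .nil)
noncomputable def n1990 : Strat := .move 758 n166 (.cons 717 n1989 .nil)
noncomputable def n1991 : Strat := .move 921 n1272 (.cons 962 n1980 .nil)
noncomputable def n1992 : Strat := .move 880 n1775 (.cons 962 n1981 (.cons 921 n1990 (.cons 758 n1991 .nil)))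
noncomputable def n1993 : Strat := .move 921 n1272 (.cons 962 n1774 .nil)
noncomputable def n1994 : Strat := .move 715 n1875 (.cons 756 n1107 .nil)
noncomputable def n1995 : Strat := .move 880 n1993 (.cons 758 n1994 .nil)
noncomputable def n1996 : Strat := .move 837 n735 (.cons 836 n1995 .nil)
noncomputable def n1997 : Strat := .move 838 n1932 (.cons 879 n1996 .nil)
noncomputable def n1998 : Strat := .move 882 n746 (.cons 883 n1587 .nil)
noncomputable def n1999 : Strat := .move 841 n739 (.cons 843 n741 (.cons 797 n1998 .nil))
noncomputable def n2000 : Strat := .move 838 n1932 (.cons 879 n1999 .nil)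
noncomputable def n2001 : Strat := .move 717 n1703 (.cons 676 n2000 .nil)
noncomputable def n2002 : Strat := .move 718 n99 (.cons 755 n98 .nil)
noncomputable def n2003 : Strat := .move 756 n1968 (.cons 880 n2002 .nil)
noncomputable def n2004 : Strat := .move 715 n1107 (.cons 674 n2003 .nil)
noncomputable def n2005 : Strat := .move 717 n1703 (.cons 676 n2004 .nil)
noncomputable def n2006 : Strat := .move 716 n1941 (.cons 717 n1997 (.cons 880 n2001 (.cons 758 n2005 .nil)))
noncomputable def n2007 : Strat := .win 797 0 796
noncomputable def n2008 : Strat := .move 837 n1887 (.cons 795 n735 .nil)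
noncomputable def n2009 : Strat := .move 796 n2007 (.cons 797 n2008 .nil)
noncomputable def n2010 : Strat := .move 841 n739 (.cons 843 n741 (.cons 797 n1899 (.cons 842 n2009 .nil)))
noncomputable def n2011 : Strat := .move 838 n1932 (.cons 879 n2010 .nil)
noncomputable def n2012 : Strat := .move 716 n2001 (.cons 797 n1960 (.cons 717 n2011 .nil))
noncomputable def n2013 : Strat := .move 716 n2005 (.cons 756 n2011 .nil)
noncomputable def n2014 : Strat := .move 880 n1875 (.cons 756 n1993 .nil)
noncomputable def n2015 : Strat := .move 715 n1107 (.cons 674 n2014 .nil)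
noncomputable def n2016 : Strat := .move 716 n1997 (.cons 838 n2015 (.cons 880 n2011 .nil))
noncomputable def n2017 : Strat := .win 879 1 756
noncomputable def n2018 : Strat := .move 920 n232 (.cons 961 n2017 .nil)
noncomputable def n2019 : Strat := .move 921 n1272 (.cons 962 n2018 .nil)
noncomputable def n2020 : Strat := .move 880 n1875 (.cons 756 n2019 .nil)
noncomputable def n2021 : Strat := .move 715 n1107 (.cons 674 n2020 .nil)
noncomputable def n2022 : Strat := .move 716 n1941 (.cons 717 n2015 (.cons 880 n1960 (.cons 758 n2021 (.cons 715 n1963 .nil))))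
noncomputable def n2023 : Strat := .move 716 n1941 (.cons 758 n2011 .nil)
noncomputable def n2024 : Strat := .move 758 n166 (.cons 717 n1988 .nil)
noncomputable def n2025 : Strat := .move 758 n1421 (.cons 921 n1988 .nil)
noncomputable def n2026 : Strat := .win 797 7 756
noncomputable def n2027 : Strat := .move 756 n626 (.cons 715 n2026 .nil)
noncomputable def n2028 : Strat := .move 921 n1272 (.cons 962 n2027 .nil)
noncomputable def n2029 : Strat := .move 880 n1422 (.cons 921 n2024 (.cons 717 n2025 (.cons 758 n2028 .nil)))
noncomputable def n2030 : Strat := .move 838 n1010 (.cons 878 n1663 .nil)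
noncomputable def n2031 : Strat := .move 841 n637 (.cons 842 n2030 .nil)
noncomputable def n2032 : Strat := .move 879 n636 (.cons 920 n2031 .nil)
noncomputable def n2033 : Strat := .move 880 n1422 (.cons 717 n1775 (.cons 758 n2032 .nil))
noncomputable def n2034 : Strat := .move 757 n2006 (.cons 880 n2012 (.cons 758 n2013 (.cons 717 n2016 (.cons 838 n2022 (.cons 756 n2023 (.cons 716 n2029 (.cons 715 n2033 .nil)))))))
noncomputable def n2035 : Strat := .win 921 7 756
noncomputable def n2036 : Strat := .win 838 6 715
noncomputable def n2037 : Strat := .move 715 n2036 (.cons 838 n1427 .nil)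
noncomputable def n2038 : Strat := .move 756 n2035 (.cons 921 n2037 .nil)
noncomputable def n2039 : Strat := .move 757 n1915 (.cons 716 n1819 (.cons 920 n1919 .nil))
noncomputable def n2040 : Strat := .move 920 n232 (.cons 961 n1249 .nil)
noncomputable def n2041 : Strat := .move 879 n2040 (.cons 757 n1818 .nil)
noncomputable def n2042 : Strat := .move 921 n1272 (.cons 962 n2041 .nil)
noncomputable def n2043 : Strat := .move 880 n1821 (.cons 962 n2038 (.cons 921 n2039 (.cons 756 n2042 .nil)))
noncomputable def n2044 : Strat := .move 797 n212 (.cons 796 n2043 .nil)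
noncomputable def n2045 : Strat := .move 838 n1010 (.cons 878 n1898 .nil)
noncomputable def n2046 : Strat := .move 879 n1827 (.cons 880 n2045 .nil)
noncomputable def n2047 : Strat := .move 842 n728 (.cons 843 n2046 .nil)
noncomputable def n2048 : Strat := .move 841 n1824 (.cons 842 n2044 (.cons 797 n2047 .nil))
noncomputable def n2049 : Strat := .move 880 n1422 (.cons 758 n2038 (.cons 921 n1820 .nil))
noncomputable def n2050 : Strat := .move 797 n212 (.cons 796 n2049 .nil)
noncomputable def n2051 : Strat := .move 797 n740 (.cons 842 n2049 .nil)
noncomputable def n2052 : Strat := .move 841 n1813 (.cons 842 n2050 (.cons 796 n2051 (.cons 797 n1825 .nil)))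
noncomputable def n2053 : Strat := .move 837 n735 (.cons 836 n1887 .nil)
noncomputable def n2054 : Strat := .move 838 n2053 (.cons 795 n1667 .nil)
noncomputable def n2055 : Strat := .move 796 n2007 (.cons 797 n2054 .nil)
noncomputable def n2056 : Strat := .move 841 n1824 (.cons 797 n1825 (.cons 843 n1813 (.cons 842 n2055 .nil)))
noncomputable def n2057 : Strat := .move 920 n1249 (.cons 757 n1248 .nil)
noncomputable def n2058 : Strat := .move 880 n1649 (.cons 717 n1993 (.cons 921 n2057 .nil))
noncomputable def n2059 : Strat := .move 879 n1010 (.cons 878 n2058 .nil)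
noncomputable def n2060 : Strat := .move 838 n2053 (.cons 837 n2059 .nil)
noncomputable def n2061 : Strat := .move 796 n2007 (.cons 797 n2060 .nil)
noncomputable def n2062 : Strat := .move 841 n1813 (.cons 797 n1825 (.cons 842 n2061 .nil))
noncomputable def n2063 : Strat := .move 838 n2053 (.cons 836 n1667 .nil)
noncomputable def n2064 : Strat := .move 796 n2007 (.cons 797 n2063 .nil)
noncomputable def n2065 : Strat := .move 841 n1824 (.cons 797 n2047 (.cons 843 n1813 (.cons 842 n2064 .nil)))
noncomputable def n2066 : Strat := .move 717 n9 (.cons 880 n1929 .nil)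
noncomputable def n2067 : Strat := .move 879 n636 (.cons 920 n1913 .nil)
noncomputable def n2068 : Strat := .move 880 n1421 (.cons 921 n2067 .nil)
noncomputable def n2069 : Strat := .move 716 n1692 (.cons 675 n2068 .nil)
noncomputable def n2070 : Strat := .win 718 5 715
noncomputable def n2071 : Strat := .move 756 n2070 (.cons 718 n626 .nil)
noncomputable def n2072 : Strat := .move 760 n571 (.cons 720 n76 .nil)
noncomputable def n2073 : Strat := .move 719 n2071 (.cons 715 n2072 .nil)
noncomputable def n2074 : Strat := .move 880 n1421 (.cons 921 n2073 .nil)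
noncomputable def n2075 : Strat := .win 797 5 755
noncomputable def n2076 : Strat := .move 715 n80 (.cons 714 n1968 .nil)
noncomputable def n2077 : Strat := .move 756 n1945 (.cons 921 n2076 (.cons 715 n1986 .nil))
noncomputable def n2078 : Strat := .move 796 n2075 (.cons 797 n2077 .nil)
noncomputable def n2079 : Strat := .move 759 n1341 (.cons 796 n78 (.cons 797 n2074 (.cons 760 n2078 .nil)))
noncomputable def n2080 : Strat := .win 760 2 715
noncomputable def n2081 : Strat := .win 756 2 714
noncomputable def n2082 : Strat := .move 714 n2081 (.cons 756 n1108 .nil)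
noncomputable def n2083 : Strat := .move 759 n2080 (.cons 760 n2082 .nil)
noncomputable def n2084 : Strat := .move 715 n1107 (.cons 674 n2083 .nil)
noncomputable def n2085 : Strat := .move 716 n1692 (.cons 675 n2084 .nil)
noncomputable def n2086 : Strat := .move 757 n2069 (.cons 716 n2079 (.cons 880 n2085 .nil))
noncomputable def n2087 : Strat := .move 758 n947 (.cons 880 n1930 (.cons 676 n2066 (.cons 717 n2086 .nil)))
noncomputable def n2088 : Strat := .move 760 n1777 (.cons 923 n1638 .nil)
noncomputable def n2089 : Strat := .move 801 n743 (.cons 802 n2088 .nil)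
noncomputable def n2090 : Strat := .move 882 n514 (.cons 838 n2089 .nil)
noncomputable def n2091 : Strat := .move 883 n1013 (.cons 884 n2090 .nil)
noncomputable def n2092 : Strat := .move 842 n728 (.cons 843 n2091 .nil)
noncomputable def n2093 : Strat := .move 797 n212 (.cons 796 n1657 .nil)
noncomputable def n2094 : Strat := .win 879 4 837
noncomputable def n2095 : Strat := .move 878 n1854 (.cons 877 n2094 .nil)
noncomputable def n2096 : Strat := .move 796 n1887 (.cons 795 n2095 .nil)
noncomputable def n2097 : Strat := .move 837 n735 (.cons 836 n2096 .nil)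
noncomputable def n2098 : Strat := .win 797 3 756
noncomputable def n2099 : Strat := .move 920 n2098 (.cons 797 n1248 .nil)
noncomputable def n2100 : Strat := .move 757 n1663 (.cons 716 n2099 .nil)
noncomputable def n2101 : Strat := .move 879 n1010 (.cons 878 n2100 .nil)
noncomputable def n2102 : Strat := .move 796 n2007 (.cons 797 n2053 .nil)
noncomputable def n2103 : Strat := .move 838 n2093 (.cons 797 n2097 (.cons 796 n2101 (.cons 878 n2102 .nil)))
noncomputable def n2104 : Strat := .move 841 n1813 (.cons 797 n2092 (.cons 842 n2103 .nil))
noncomputable def n2105 : Strat := .move 841 n212 (.cons 796 n740 .nil)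
noncomputable def n2106 : Strat := .move 797 n227 (.cons 756 n2105 .nil)
noncomputable def n2107 : Strat := .move 921 n1272 (.cons 962 n2106 .nil)
noncomputable def n2108 : Strat := .move 758 n166 (.cons 717 n1919 .nil)
noncomputable def n2109 : Strat := .move 879 n636 (.cons 920 n1876 .nil)
noncomputable def n2110 : Strat := .move 716 n1692 (.cons 675 n2109 .nil)
noncomputable def n2111 : Strat := .move 757 n2108 (.cons 674 n2024 (.cons 758 n2110 (.cons 715 n1884 .nil)))
noncomputable def n2112 : Strat := .move 880 n1775 (.cons 758 n2107 (.cons 962 n1422 (.cons 921 n2111 .nil)))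
noncomputable def n2113 : Strat := .move 797 n229 (.cons 841 n228 .nil)
noncomputable def n2114 : Strat := .move 756 n626 (.cons 715 n1986 .nil)
noncomputable def n2115 : Strat := .move 716 n1932 (.cons 879 n1692 .nil)
noncomputable def n2116 : Strat := .move 838 n2008 (.cons 836 n2115 .nil)
noncomputable def n2117 : Strat := .move 757 n1919 (.cons 716 n2114 (.cons 756 n2116 .nil))
noncomputable def n2118 : Strat := .move 797 n229 (.cons 841 n1463 .nil)
noncomputable def n2119 : Strat := .move 796 n2113 (.cons 797 n2117 (.cons 795 n2118 .nil))
noncomputable def n2120 : Strat := .move 880 n1421 (.cons 921 n2119 .nil)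
noncomputable def n2121 : Strat := .move 841 n7 (.cons 882 n1813 .nil)
noncomputable def n2122 : Strat := .move 717 n946 (.cons 676 n2121 .nil)
noncomputable def n2123 : Strat := .move 758 n947 (.cons 676 n1468 (.cons 717 n2120 (.cons 880 n2122 .nil)))
noncomputable def n2124 : Strat := .move 837 n735 (.cons 836 n2095 .nil)
noncomputable def n2125 : Strat := .move 797 n212 (.cons 796 n2124 .nil)
noncomputable def n2126 : Strat := .move 882 n746 (.cons 883 n2095 .nil)
noncomputable def n2127 : Strat := .move 837 n735 (.cons 836 n2126 .nil)
noncomputable def n2128 : Strat := .move 880 n1272 (.cons 962 n1774 .nil)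
noncomputable def n2129 : Strat := .win 756 6 756
noncomputable def n2130 : Strat := .move 880 n2129 (.cons 756 n1272 .nil)
noncomputable def n2131 : Strat := .move 880 n2129 (.cons 756 n1774 .nil)
noncomputable def n2132 : Strat := .win 962 6 797
noncomputable def n2133 : Strat := .move 920 n2132 (.cons 962 n1248 .nil)
noncomputable def n2134 : Strat := .move 921 n2128 (.cons 758 n2130 (.cons 962 n2131 (.cons 880 n2133 .nil)))
noncomputable def n2135 : Strat := .move 879 n1010 (.cons 878 n2134 .nil)
noncomputable def n2136 : Strat := .move 797 n212 (.cons 796 n2135 .nil)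
noncomputable def n2137 : Strat := .move 838 n2125 (.cons 797 n2127 (.cons 878 n2102 (.cons 837 n2136 .nil)))
noncomputable def n2138 : Strat := .move 841 n1824 (.cons 797 n1825 (.cons 843 n1813 (.cons 842 n2137 .nil)))
noncomputable def n2139 : Strat := .move 796 n229 (.cons 841 n228 .nil)
noncomputable def n2140 : Strat := .move 797 n227 (.cons 756 n2139 .nil)
noncomputable def n2141 : Strat := .move 921 n1272 (.cons 962 n2140 .nil)
noncomputable def n2142 : Strat := .move 796 n1463 (.cons 759 n228 .nil)
noncomputable def n2143 : Strat := .move 841 n740 (.cons 842 n212 .nil)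
noncomputable def n2144 : Strat := .move 716 n1107 (.cons 674 n1692 .nil)
noncomputable def n2145 : Strat := .move 715 n1875 (.cons 756 n2144 .nil)
noncomputable def n2146 : Strat := .move 797 n230 (.cons 841 n2142 (.cons 795 n2143 (.cons 796 n2145 .nil)))
noncomputable def n2147 : Strat := .move 758 n166 (.cons 717 n2146 .nil)
noncomputable def n2148 : Strat := .move 716 n1692 (.cons 675 n1994 .nil)
noncomputable def n2149 : Strat := .move 757 n2147 (.cons 674 n2024 (.cons 841 n2108 (.cons 758 n2148 (.cons 756 n1884 .nil))))
noncomputable def n2150 : Strat := .move 880 n1775 (.cons 962 n1422 (.cons 758 n2141 (.cons 921 n2149 .nil)))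
noncomputable def n2151 : Strat := .move 839 n1992 (.cons 797 n1923 (.cons 675 n2034 (.cons 758 n2048 (.cons 962 n2052 (.cons 756 n2056 (.cons 716 n2062 (.cons 921 n2065 (.cons 841 n2087 (.cons 880 n2104 (.cons 838 n2112 (.cons 920 n2123 (.cons 757 n2138 (.cons 879 n2150 .nil)))))))))))))
noncomputable def n2152 : Strat := .move 841 n212 (.cons 796 n1787 .nil)
noncomputable def n2153 : Strat := .move 801 n315 (.cons 839 n1436 .nil)
noncomputable def n2154 : Strat := .move 838 n214 (.cons 837 n2153 .nil)
noncomputable def n2155 : Strat := .move 841 n211 (.cons 842 n2154 .nil)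
noncomputable def n2156 : Strat := .move 841 n211 (.cons 842 n1439 .nil)
noncomputable def n2157 : Strat := .move 801 n606 (.cons 761 n1436 .nil)
noncomputable def n2158 : Strat := .move 760 n1488 (.cons 759 n2157 .nil)
noncomputable def n2159 : Strat := .move 838 n214 (.cons 837 n2158 .nil)
noncomputable def n2160 : Strat := .move 841 n211 (.cons 842 n2159 .nil)
noncomputable def n2161 : Strat := .move 838 n214 (.cons 837 n1624 .nil)
noncomputable def n2162 : Strat := .move 882 n1449 (.cons 717 n1586 (.cons 923 n1590 (.cons 758 n2161 .nil)))
noncomputable def n2163 : Strat := .move 759 n942 (.cons 760 n2162 .nil)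
noncomputable def n2164 : Strat := .move 841 n211 (.cons 842 n2163 .nil)
noncomputable def n2165 : Strat := .move 800 n2155 (.cons 841 n1431 (.cons 838 n2156 (.cons 839 n2160 (.cons 801 n2164 .nil))))
noncomputable def n2166 : Strat := .move 800 n919 (.cons 838 n923 .nil)
noncomputable def n2167 : Strat := .move 837 n920 (.cons 836 n2166 .nil)
noncomputable def n2168 : Strat := .move 796 n1549 (.cons 754 n1558 (.cons 795 n2167 .nil))
noncomputable def n2169 : Strat := .move 797 n1606 (.cons 843 n2152 (.cons 842 n1605 (.cons 796 n2165 (.cons 841 n2168 .nil))))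
noncomputable def n2170 : Strat := .move 798 n1460 (.cons 841 n1575 (.cons 839 n1604 (.cons 758 n1622 (.cons 757 n1630 (.cons 796 n1725 (.cons 842 n1771 (.cons 838 n1792 (.cons 801 n1836 (.cons 759 n1844 (.cons 756 n1848 (.cons 760 n1852 (.cons 797 n1979 (.cons 800 n2151 (.cons 879 n2169 .nil))))))))))))))
noncomputable def n2171 : Strat := .move 881 n1389 (.cons 718 n173 .nil)
noncomputable def n2172 : Strat := .move 759 n942 (.cons 760 n2171 .nil)
noncomputable def n2173 : Strat := .move 800 n1431 (.cons 715 n2154 (.cons 838 n2172 .nil))
noncomputable def n2174 : Strat := .move 797 n212 (.cons 796 n2173 .nil)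
noncomputable def n2175 : Strat := .win 881 6 716
noncomputable def n2176 : Strat := .move 716 n2175 (.cons 881 n1692 .nil)
noncomputable def n2177 : Strat := .move 757 n899 (.cons 756 n2176 .nil)
noncomputable def n2178 : Strat := .move 800 n217 (.cons 838 n2177 .nil)
noncomputable def n2179 : Strat := .move 801 n743 (.cons 802 n2178 .nil)
noncomputable def n2180 : Strat := .move 839 n738 (.cons 797 n2179 .nil)
noncomputable def n2181 : Strat := .move 842 n728 (.cons 843 n2180 .nil)
noncomputable def n2182 : Strat := .move 838 n1839 (.cons 884 n1831 .nil)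
noncomputable def n2183 : Strat := .move 921 n1272 (.cons 962 n2182 .nil)
noncomputable def n2184 : Strat := .move 880 n981 (.cons 879 n2183 .nil)
noncomputable def n2185 : Strat := .win 922 6 757
noncomputable def n2186 : Strat := .move 881 n1273 (.cons 716 n2185 .nil)
noncomputable def n2187 : Strat := .win 800 2 756
noncomputable def n2188 : Strat := .move 756 n626 (.cons 715 n2187 .nil)
noncomputable def n2189 : Strat := .move 757 n2176 (.cons 675 n2186 (.cons 881 n2188 .nil))
noncomputable def n2190 : Strat := .move 880 n981 (.cons 879 n2189 .nil)
noncomputable def n2191 : Strat := .move 801 n743 (.cons 802 n2190 .nil)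
noncomputable def n2192 : Strat := .move 838 n1010 (.cons 878 n1839 .nil)
noncomputable def n2193 : Strat := .move 879 n1827 (.cons 880 n2192 .nil)
noncomputable def n2194 : Strat := .move 839 n2179 (.cons 801 n2184 (.cons 838 n2191 (.cons 800 n2193 .nil)))
noncomputable def n2195 : Strat := .move 842 n728 (.cons 843 n2194 .nil)
noncomputable def n2196 : Strat := .move 839 n738 (.cons 797 n2193 .nil)
noncomputable def n2197 : Strat := .move 842 n728 (.cons 843 n2196 .nil)
noncomputable def n2198 : Strat := .move 798 n1773 (.cons 842 n2174 (.cons 796 n2181 (.cons 797 n2195 (.cons 800 n2197 .nil))))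
noncomputable def n2199 : Strat := .win 800 2 799
noncomputable def n2200 : Strat := .win 884 0 840
noncomputable def n2201 : Strat := .win 886 0 841
noncomputable def n2202 : Strat := .move 885 n2200 (.cons 884 n2201 .nil)
noncomputable def n2203 : Strat := .move 844 n2199 (.cons 800 n2202 .nil)
noncomputable def n2204 : Strat := .win 802 5 799
noncomputable def n2205 : Strat := .win 804 5 800
noncomputable def n2206 : Strat := .move 803 n2204 (.cons 802 n2205 .nil)
noncomputable def n2207 : Strat := .move 844 n2199 (.cons 800 n2206 .nil)
noncomputable def n2208 : Strat := .win 803 5 799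
noncomputable def n2209 : Strat := .win 801 5 798
noncomputable def n2210 : Strat := .win 883 0 839
noncomputable def n2211 : Strat := .win 885 0 840
noncomputable def n2212 : Strat := .move 884 n2210 (.cons 883 n2211 .nil)
noncomputable def n2213 : Strat := .move 839 n2209 (.cons 801 n2212 .nil)
noncomputable def n2214 : Strat := .move 802 n2208 (.cons 803 n2213 .nil)
noncomputable def n2215 : Strat := .move 843 n2203 (.cons 884 n2207 (.cons 844 n2214 .nil))
noncomputable def n2216 : Strat := .win 924 1 760
noncomputable def n2217 : Strat := .win 720 1 719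
noncomputable def n2218 : Strat := .move 883 n2216 (.cons 924 n2217 .nil)
noncomputable def n2219 : Strat := .win 925 7 760
noncomputable def n2220 : Strat := .win 719 6 719
noncomputable def n2221 : Strat := .move 760 n2219 (.cons 925 n2220 .nil)
noncomputable def n2222 : Strat := .win 800 5 758
noncomputable def n2223 : Strat := .win 721 3 720
noncomputable def n2224 : Strat := .move 762 n2222 (.cons 800 n2223 .nil)
noncomputable def n2225 : Strat := .move 801 n2221 (.cons 719 n2224 .nil)
noncomputable def n2226 : Strat := .move 761 n2218 (.cons 720 n2225 .nil)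
noncomputable def n2227 : Strat := .move 884 n2211 (.cons 885 n2226 .nil)
noncomputable def n2228 : Strat := .move 802 n2208 (.cons 803 n2227 .nil)
noncomputable def n2229 : Strat := .win 880 4 839
noncomputable def n2230 : Strat := .win 882 4 840
noncomputable def n2231 : Strat := .move 844 n2230 (.cons 882 n2202 .nil)
noncomputable def n2232 : Strat := .move 881 n2229 (.cons 880 n2231 .nil)
noncomputable def n2233 : Strat := .move 881 n2229 (.cons 880 n2230 .nil)
noncomputable def n2234 : Strat := .move 844 n2199 (.cons 800 n2233 .nil)
noncomputable def n2235 : Strat := .move 843 n2203 (.cons 844 n2228 (.cons 800 n2232 (.cons 885 n2234 .nil)))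
noncomputable def n2236 : Strat := .win 881 4 839
noncomputable def n2237 : Strat := .move 802 n2209 (.cons 801 n2208 .nil)
noncomputable def n2238 : Strat := .move 843 n2236 (.cons 881 n2237 .nil)
noncomputable def n2239 : Strat := .move 880 n981 (.cons 879 n2238 .nil)
noncomputable def n2240 : Strat := .move 838 n1012 (.cons 882 n1861 .nil)
noncomputable def n2241 : Strat := .move 883 n1013 (.cons 884 n2240 .nil)
noncomputable def n2242 : Strat := .win 760 1 759
noncomputable def n2243 : Strat := .move 801 n2242 (.cons 760 n743 .nil)
noncomputable def n2244 : Strat := .move 923 n1447 (.cons 964 n2243 .nil)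
noncomputable def n2245 : Strat := .move 882 n514 (.cons 838 n2244 .nil)
noncomputable def n2246 : Strat := .move 883 n1013 (.cons 884 n2245 .nil)
noncomputable def n2247 : Strat := .move 839 n2239 (.cons 881 n2241 (.cons 879 n2246 .nil))
noncomputable def n2248 : Strat := .move 844 n2199 (.cons 800 n2230 .nil)
noncomputable def n2249 : Strat := .move 881 n2229 (.cons 880 n2248 .nil)
noncomputable def n2250 : Strat := .win 839 0 839
noncomputable def n2251 : Strat := .move 761 n2216 (.cons 924 n2217 .nil)
noncomputable def n2252 : Strat := .move 802 n2208 (.cons 803 n2251 .nil)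
noncomputable def n2253 : Strat := .move 883 n2250 (.cons 839 n2252 .nil)
noncomputable def n2254 : Strat := .move 884 n2211 (.cons 885 n2253 .nil)
noncomputable def n2255 : Strat := .move 881 n2229 (.cons 880 n2254 .nil)
noncomputable def n2256 : Strat := .move 843 n2203 (.cons 885 n2249 (.cons 844 n2255 .nil))
noncomputable def n2257 : Strat := .move 800 n591 (.cons 963 n121 .nil)
noncomputable def n2258 : Strat := .win 882 4 880
noncomputable def n2259 : Strat := .move 921 n2258 (.cons 882 n63 .nil)
noncomputable def n2260 : Strat := .move 922 n2257 (.cons 759 n2259 .nil)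
noncomputable def n2261 : Strat := .move 883 n2250 (.cons 839 n2260 .nil)
noncomputable def n2262 : Strat := .move 884 n2211 (.cons 885 n2261 .nil)
noncomputable def n2263 : Strat := .move 881 n2229 (.cons 880 n2262 .nil)
noncomputable def n2264 : Strat := .move 843 n2234 (.cons 844 n2263 (.cons 880 n2203 (.cons 800 n2232 .nil)))
noncomputable def n2265 : Strat := .move 880 n981 (.cons 879 n2236 .nil)
noncomputable def n2266 : Strat := .move 839 n2209 (.cons 801 n2265 .nil)
noncomputable def n2267 : Strat := .move 802 n2208 (.cons 803 n2266 .nil)
noncomputable def n2268 : Strat := .move 843 n2207 (.cons 803 n2234 (.cons 844 n2267 .nil))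
noncomputable def n2269 : Strat := .win 800 5 797
noncomputable def n2270 : Strat := .move 838 n2269 (.cons 800 n1898 .nil)
noncomputable def n2271 : Strat := .move 801 n743 (.cons 802 n2270 .nil)
noncomputable def n2272 : Strat := .move 881 n734 (.cons 882 n1007 .nil)
noncomputable def n2273 : Strat := .win 797 2 796
noncomputable def n2274 : Strat := .move 796 n1887 (.cons 795 n2273 .nil)
noncomputable def n2275 : Strat := .move 837 n2272 (.cons 836 n2274 .nil)
noncomputable def n2276 : Strat := .move 838 n2269 (.cons 800 n2275 .nil)
noncomputable def n2277 : Strat := .move 880 n981 (.cons 879 n2276 .nil)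
noncomputable def n2278 : Strat := .move 801 n743 (.cons 802 n2277 .nil)
noncomputable def n2279 : Strat := .move 838 n2269 (.cons 800 n1861 .nil)
noncomputable def n2280 : Strat := .move 801 n743 (.cons 802 n2279 .nil)
noncomputable def n2281 : Strat := .win 964 1 800
noncomputable def n2282 : Strat := .win 882 1 759
noncomputable def n2283 : Strat := .move 923 n2281 (.cons 964 n2282 .nil)
noncomputable def n2284 : Strat := .win 800 7 759
noncomputable def n2285 : Strat := .win 718 7 718
noncomputable def n2286 : Strat := .move 759 n2284 (.cons 800 n2285 .nil)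
noncomputable def n2287 : Strat := .move 924 n2283 (.cons 882 n2286 .nil)
noncomputable def n2288 : Strat := .win 679 3 678
noncomputable def n2289 : Strat := .win 761 3 719
noncomputable def n2290 : Strat := .move 720 n2288 (.cons 679 n2289 .nil)
noncomputable def n2291 : Strat := .move 719 n1416 (.cons 882 n2290 .nil)
noncomputable def n2292 : Strat := .win 677 7 677
noncomputable def n2293 : Strat := .win 759 7 718
noncomputable def n2294 : Strat := .move 718 n2292 (.cons 677 n2293 .nil)
noncomputable def n2295 : Strat := .move 719 n2290 (.cons 761 n2294 .nil)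
noncomputable def n2296 : Strat := .move 760 n1778 (.cons 719 n2287 (.cons 923 n2291 (.cons 882 n2295 .nil)))
noncomputable def n2297 : Strat := .move 883 n1013 (.cons 884 n2296 .nil)
noncomputable def n2298 : Strat := .move 801 n743 (.cons 802 n2297 .nil)
noncomputable def n2299 : Strat := .move 839 n2271 (.cons 801 n2241 (.cons 883 n2278 (.cons 882 n2280 (.cons 838 n2298 .nil))))
noncomputable def n2300 : Strat := .move 842 n2215 (.cons 839 n2235 (.cons 800 n2247 (.cons 801 n2256 (.cons 802 n2264 (.cons 884 n2268 (.cons 843 n2299 .nil))))))
noncomputable def n2301 : Strat := .move 798 n728 (.cons 843 n2196 .nil)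
noncomputable def n2302 : Strat := .win 798 2 798
noncomputable def n2303 : Strat := .move 843 n2302 (.cons 798 n2232 .nil)
noncomputable def n2304 : Strat := .win 881 6 757
noncomputable def n2305 : Strat := .move 921 n655 (.cons 963 n1272 .nil)
noncomputable def n2306 : Strat := .move 922 n2304 (.cons 881 n2305 .nil)
noncomputable def n2307 : Strat := .move 757 n2176 (.cons 675 n2186 (.cons 881 n1919 (.cons 716 n2306 .nil)))
noncomputable def n2308 : Strat := .move 880 n981 (.cons 879 n2307 .nil)
noncomputable def n2309 : Strat := .move 839 n738 (.cons 797 n2308 .nil)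
noncomputable def n2310 : Strat := .move 798 n728 (.cons 843 n2309 .nil)
noncomputable def n2311 : Strat := .move 839 n2210 (.cons 883 n2209 .nil)
noncomputable def n2312 : Strat := .move 884 n2211 (.cons 885 n2311 .nil)
noncomputable def n2313 : Strat := .move 802 n2208 (.cons 803 n2312 .nil)
noncomputable def n2314 : Strat := .move 843 n2302 (.cons 798 n2313 .nil)
noncomputable def n2315 : Strat := .move 798 n738 (.cons 797 n2193 .nil)
noncomputable def n2316 : Strat := .move 798 n2193 (.cons 882 n2308 (.cons 879 n2091 .nil))
noncomputable def n2317 : Strat := .move 838 n1012 (.cons 882 n2124 .nil)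
noncomputable def n2318 : Strat := .move 883 n1013 (.cons 884 n2317 .nil)
noncomputable def n2319 : Strat := .move 798 n738 (.cons 797 n2318 .nil)
noncomputable def n2320 : Strat := .move 798 n738 (.cons 797 n2308 .nil)
noncomputable def n2321 : Strat := .move 798 n738 (.cons 797 n2091 .nil)
noncomputable def n2322 : Strat := .move 882 n514 (.cons 838 n2088 .nil)
noncomputable def n2323 : Strat := .move 883 n1013 (.cons 884 n2322 .nil)
noncomputable def n2324 : Strat := .move 801 n743 (.cons 802 n2323 .nil)
noncomputable def n2325 : Strat := .move 839 n2315 (.cons 797 n2316 (.cons 880 n2319 (.cons 882 n2320 (.cons 879 n2321 (.cons 798 n2324 .nil)))))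
noncomputable def n2326 : Strat := .move 842 n2301 (.cons 798 n2247 (.cons 839 n2303 (.cons 882 n2310 (.cons 880 n2314 (.cons 843 n2325 .nil)))))
noncomputable def n2327 : Strat := .win 839 5 798
noncomputable def n2328 : Strat := .win 800 0 799
noncomputable def n2329 : Strat := .move 885 n2201 (.cons 886 n2200 .nil)
noncomputable def n2330 : Strat := .move 844 n2328 (.cons 800 n2329 .nil)
noncomputable def n2331 : Strat := .move 801 n2327 (.cons 839 n2330 .nil)
noncomputable def n2332 : Strat := .move 802 n2208 (.cons 803 n2331 .nil)
noncomputable def n2333 : Strat := .move 843 n2302 (.cons 798 n2332 .nil)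
noncomputable def n2334 : Strat := .win 798 2 797
noncomputable def n2335 : Strat := .move 797 n2334 (.cons 798 n1265 .nil)
noncomputable def n2336 : Strat := .move 838 n2269 (.cons 800 n2335 .nil)
noncomputable def n2337 : Strat := .move 801 n743 (.cons 802 n2336 .nil)
noncomputable def n2338 : Strat := .move 838 n1265 (.cons 796 n1861 .nil)
noncomputable def n2339 : Strat := .move 797 n2334 (.cons 798 n2338 .nil)
noncomputable def n2340 : Strat := .move 798 n738 (.cons 797 n1784 .nil)
noncomputable def n2341 : Strat := .move 839 n2337 (.cons 801 n2339 (.cons 797 n2271 (.cons 838 n2340 .nil)))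
noncomputable def n2342 : Strat := .move 798 n728 (.cons 843 n738 .nil)
noncomputable def n2343 : Strat := .move 843 n2302 (.cons 798 n2237 .nil)
noncomputable def n2344 : Strat := .move 839 n2342 (.cons 797 n2343 (.cons 798 n2241 .nil))
noncomputable def n2345 : Strat := .move 798 n728 (.cons 843 n1772 .nil)
noncomputable def n2346 : Strat := .move 843 n2208 (.cons 803 n2212 .nil)
noncomputable def n2347 : Strat := .move 802 n2209 (.cons 801 n2346 .nil)
noncomputable def n2348 : Strat := .move 839 n2271 (.cons 883 n2280 (.cons 800 n2241 (.cons 838 n2347 .nil)))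
noncomputable def n2349 : Strat := .move 842 n2333 (.cons 843 n2341 (.cons 800 n2344 (.cons 884 n2345 (.cons 798 n2348 .nil))))
noncomputable def n2350 : Strat := .move 800 n211 (.cons 842 n2154 .nil)
noncomputable def n2351 : Strat := .move 797 n212 (.cons 796 n2350 .nil)
noncomputable def n2352 : Strat := .move 800 n2154 (.cons 801 n2172 .nil)
noncomputable def n2353 : Strat := .move 797 n212 (.cons 796 n2352 .nil)
noncomputable def n2354 : Strat := .move 842 n728 (.cons 843 n2309 .nil)
noncomputable def n2355 : Strat := .win 924 7 759
noncomputable def n2356 : Strat := .move 759 n2355 (.cons 924 n1799 .nil)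
noncomputable def n2357 : Strat := .move 883 n1013 (.cons 884 n2356 .nil)
noncomputable def n2358 : Strat := .move 800 n217 (.cons 838 n2357 .nil)
noncomputable def n2359 : Strat := .move 801 n743 (.cons 802 n2358 .nil)
noncomputable def n2360 : Strat := .move 839 n2179 (.cons 800 n2308 (.cons 675 n2359 .nil))
noncomputable def n2361 : Strat := .move 842 n728 (.cons 843 n2360 .nil)
noncomputable def n2362 : Strat := .move 798 n1773 (.cons 843 n2351 (.cons 842 n2353 (.cons 800 n2354 (.cons 797 n2361 .nil))))
noncomputable def n2363 : Strat := .move 838 n124 (.cons 837 n470 .nil)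
noncomputable def n2364 : Strat := .move 715 n1427 (.cons 674 n1426 .nil)
noncomputable def n2365 : Strat := .move 756 n220 (.cons 755 n2364 .nil)
noncomputable def n2366 : Strat := .move 798 n211 (.cons 842 n2365 .nil)
noncomputable def n2367 : Strat := .move 797 n1265 (.cons 796 n2366 .nil)
noncomputable def n2368 : Strat := .move 838 n124 (.cons 837 n2367 .nil)
noncomputable def n2369 : Strat := .move 842 n729 (.cons 797 n2177 .nil)
noncomputable def n2370 : Strat := .move 797 n212 (.cons 796 n211 .nil)
noncomputable def n2371 : Strat := .move 798 n2369 (.cons 842 n2177 (.cons 757 n2370 .nil))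
noncomputable def n2372 : Strat := .move 801 n216 (.cons 802 n2371 .nil)
noncomputable def n2373 : Strat := .move 800 n2363 (.cons 801 n2368 (.cons 837 n538 (.cons 838 n2372 .nil)))
noncomputable def n2374 : Strat := .move 798 n740 (.cons 842 n1746 .nil)
noncomputable def n2375 : Strat := .move 879 n1010 (.cons 878 n2374 .nil)
noncomputable def n2376 : Strat := .move 797 n1265 (.cons 796 n2375 .nil)
noncomputable def n2377 : Strat := .win 881 0 837
noncomputable def n2378 : Strat := .move 882 n2377 (.cons 881 n746 .nil)
noncomputable def n2379 : Strat := .move 837 n735 (.cons 836 n2378 .nil)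
noncomputable def n2380 : Strat := .move 798 n1747 (.cons 879 n2379 .nil)
noncomputable def n2381 : Strat := .move 797 n1265 (.cons 796 n2380 .nil)
noncomputable def n2382 : Strat := .move 716 n1932 (.cons 879 n1581 .nil)
noncomputable def n2383 : Strat := .move 879 n1441 (.cons 920 n1663 .nil)
noncomputable def n2384 : Strat := .move 716 n2175 (.cons 881 n1581 .nil)
noncomputable def n2385 : Strat := .move 882 n167 (.cons 837 n746 .nil)
noncomputable def n2386 : Strat := .move 881 n145 (.cons 922 n2385 .nil)
noncomputable def n2387 : Strat := .move 757 n2382 (.cons 675 n2383 (.cons 879 n2384 (.cons 716 n2386 .nil)))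
noncomputable def n2388 : Strat := .move 798 n740 (.cons 842 n2387 .nil)
noncomputable def n2389 : Strat := .move 797 n1265 (.cons 796 n2388 .nil)
noncomputable def n2390 : Strat := .move 798 n740 (.cons 842 n2379 .nil)
noncomputable def n2391 : Strat := .move 797 n1265 (.cons 796 n2390 .nil)
noncomputable def n2392 : Strat := .move 878 n2094 (.cons 879 n1854 .nil)
noncomputable def n2393 : Strat := .move 837 n2377 (.cons 881 n2392 .nil)
noncomputable def n2394 : Strat := .move 882 n746 (.cons 883 n2393 .nil)
noncomputable def n2395 : Strat := .move 838 n2376 (.cons 842 n2381 (.cons 878 n2389 (.cons 920 n2391 (.cons 797 n2394 .nil))))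
noncomputable def n2396 : Strat := .move 800 n124 (.cons 837 n470 .nil)
noncomputable def n2397 : Strat := .win 881 1 717
noncomputable def n2398 : Strat := .move 718 n2397 (.cons 881 n1434 .nil)
noncomputable def n2399 : Strat := .move 881 n461 (.cons 922 n1389 .nil)
noncomputable def n2400 : Strat := .win 798 5 756
noncomputable def n2401 : Strat := .move 760 n174 (.cons 719 n2400 .nil)
noncomputable def n2402 : Strat := .move 759 n2398 (.cons 677 n2399 (.cons 881 n2401 .nil))
noncomputable def n2403 : Strat := .move 882 n746 (.cons 883 n2402 .nil)
noncomputable def n2404 : Strat := .move 797 n1265 (.cons 796 n2403 .nil)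
noncomputable def n2405 : Strat := .move 800 n470 (.cons 801 n2404 .nil)
noncomputable def n2406 : Strat := .move 838 n2396 (.cons 837 n2405 (.cons 800 n2381 .nil))
noncomputable def n2407 : Strat := .move 842 n1827 (.cons 880 n1013 .nil)
noncomputable def n2408 : Strat := .move 883 n1012 (.cons 882 n2407 .nil)
noncomputable def n2409 : Strat := .move 879 n1010 (.cons 878 n2408 .nil)
noncomputable def n2410 : Strat := .move 800 n470 (.cons 801 n2409 .nil)
noncomputable def n2411 : Strat := .move 838 n2396 (.cons 800 n2394 (.cons 837 n2410 .nil))
noncomputable def n2412 : Strat := .move 842 n2337 (.cons 801 n2339 (.cons 797 n2271 (.cons 838 n2340 .nil)))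
noncomputable def n2413 : Strat := .move 842 n738 (.cons 797 n2191 .nil)
noncomputable def n2414 : Strat := .move 842 n738 (.cons 797 n1784 .nil)
noncomputable def n2415 : Strat := .move 881 n2185 (.cons 922 n1273 .nil)
noncomputable def n2416 : Strat := .move 757 n2176 (.cons 675 n2415 (.cons 881 n1919 (.cons 716 n2306 .nil)))
noncomputable def n2417 : Strat := .move 880 n981 (.cons 879 n2416 .nil)
noncomputable def n2418 : Strat := .move 842 n738 (.cons 797 n2417 .nil)
noncomputable def n2419 : Strat := .move 759 n942 (.cons 760 n2398 .nil)
noncomputable def n2420 : Strat := .move 801 n1435 (.cons 757 n216 .nil)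
noncomputable def n2421 : Strat := .move 756 n220 (.cons 755 n2420 .nil)
noncomputable def n2422 : Strat := .move 800 n2419 (.cons 677 n2421 .nil)
noncomputable def n2423 : Strat := .move 797 n212 (.cons 796 n2422 .nil)
noncomputable def n2424 : Strat := .move 881 n1273 (.cons 716 n145 .nil)
noncomputable def n2425 : Strat := .move 716 n1692 (.cons 675 n2175 .nil)
noncomputable def n2426 : Strat := .move 879 n636 (.cons 920 n637 .nil)
noncomputable def n2427 : Strat := .move 880 n1875 (.cons 756 n2426 .nil)
noncomputable def n2428 : Strat := .move 715 n1107 (.cons 674 n2427 .nil)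
noncomputable def n2429 : Strat := .move 716 n1692 (.cons 675 n2428 .nil)
noncomputable def n2430 : Strat := .win 881 7 757
noncomputable def n2431 : Strat := .move 880 n2426 (.cons 842 n2305 .nil)
noncomputable def n2432 : Strat := .move 922 n2430 (.cons 881 n2431 .nil)
noncomputable def n2433 : Strat := .move 757 n2424 (.cons 922 n2425 (.cons 881 n2429 (.cons 716 n2432 .nil)))
noncomputable def n2434 : Strat := .move 798 n2413 (.cons 881 n2414 (.cons 801 n2418 (.cons 842 n2423 (.cons 797 n2433 .nil))))
noncomputable def n2435 : Strat := .move 839 n2373 (.cons 800 n2395 (.cons 842 n2406 (.cons 797 n2411 (.cons 881 n2412 (.cons 838 n2434 .nil)))))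
noncomputable def n2436 : Strat := .move 798 n728 (.cons 843 n2194 .nil)
noncomputable def n2437 : Strat := .move 798 n728 (.cons 843 n2360 .nil)
noncomputable def n2438 : Strat := .move 839 n2179 (.cons 675 n1420 (.cons 801 n1833 (.cons 838 n1784 (.cons 800 n2318 .nil))))
noncomputable def n2439 : Strat := .move 798 n728 (.cons 843 n2438 .nil)
noncomputable def n2440 : Strat := .move 839 n2179 (.cons 800 n2091 (.cons 838 n1784 (.cons 801 n1833 .nil)))
noncomputable def n2441 : Strat := .move 798 n728 (.cons 843 n2440 .nil)
noncomputable def n2442 : Strat := .move 839 n2193 (.cons 882 n2308 (.cons 879 n2091 .nil))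
noncomputable def n2443 : Strat := .move 798 n728 (.cons 843 n2442 .nil)
noncomputable def n2444 : Strat := .move 843 n2302 (.cons 798 n2207 .nil)
noncomputable def n2445 : Strat := .move 798 n2179 (.cons 801 n2184 (.cons 838 n2191 (.cons 800 n2193 .nil)))
noncomputable def n2446 : Strat := .win 798 5 757
noncomputable def n2447 : Strat := .win 763 4 759
noncomputable def n2448 : Strat := .win 759 4 758
noncomputable def n2449 : Strat := .move 762 n2447 (.cons 763 n2448 .nil)
noncomputable def n2450 : Strat := .move 761 n2446 (.cons 798 n2449 .nil)
noncomputable def n2451 : Strat := .move 760 n1417 (.cons 882 n2450 .nil)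
noncomputable def n2452 : Strat := .move 800 n537 (.cons 838 n2451 .nil)
noncomputable def n2453 : Strat := .move 801 n743 (.cons 802 n2452 .nil)
noncomputable def n2454 : Strat := .move 798 n2179 (.cons 800 n2308 (.cons 675 n2359 .nil))
noncomputable def n2455 : Strat := .move 800 n537 (.cons 838 n2357 .nil)
noncomputable def n2456 : Strat := .move 801 n743 (.cons 802 n2455 .nil)
noncomputable def n2457 : Strat := .win 965 7 800
noncomputable def n2458 : Strat := .win 759 7 759
noncomputable def n2459 : Strat := .move 924 n2457 (.cons 965 n2458 .nil)
noncomputable def n2460 : Strat := .move 761 n2446 (.cons 798 n1779 .nil)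
noncomputable def n2461 : Strat := .move 760 n1778 (.cons 719 n2460 .nil)
noncomputable def n2462 : Strat := .move 800 n2356 (.cons 718 n2459 (.cons 924 n2461 .nil))
noncomputable def n2463 : Strat := .move 883 n1013 (.cons 884 n2462 .nil)
noncomputable def n2464 : Strat := .move 801 n743 (.cons 802 n2463 .nil)
noncomputable def n2465 : Strat := .move 839 n2445 (.cons 883 n2453 (.cons 800 n2316 (.cons 882 n2454 (.cons 798 n2456 (.cons 801 n2241 (.cons 838 n2464 .nil))))))
noncomputable def n2466 : Strat := .move 843 n2302 (.cons 798 n2234 .nil)
noncomputable def n2467 : Strat := .move 842 n2436 (.cons 882 n2437 (.cons 880 n2439 (.cons 879 n2441 (.cons 800 n2443 (.cons 884 n2444 (.cons 843 n2465 (.cons 798 n2215 (.cons 802 n2466 .nil))))))))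
noncomputable def n2468 : Strat := .move 843 n2302 (.cons 798 n2203 .nil)
noncomputable def n2469 : Strat := .move 798 n728 (.cons 843 n1789 .nil)
noncomputable def n2470 : Strat := .move 798 n738 (.cons 797 n2184 .nil)
noncomputable def n2471 : Strat := .move 798 n738 (.cons 797 n1833 .nil)
noncomputable def n2472 : Strat := .move 798 n738 (.cons 797 n2417 .nil)
noncomputable def n2473 : Strat := .move 839 n2470 (.cons 797 n2241 (.cons 880 n2471 (.cons 838 n2472 .nil)))
noncomputable def n2474 : Strat := .move 842 n2468 (.cons 800 n2469 (.cons 843 n2473 (.cons 798 n2256 .nil)))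
noncomputable def n2475 : Strat := .move 839 n738 (.cons 797 n2191 .nil)
noncomputable def n2476 : Strat := .move 842 n728 (.cons 843 n2475 .nil)
noncomputable def n2477 : Strat := .move 839 n2413 (.cons 881 n2414 (.cons 801 n2418 (.cons 842 n2423 (.cons 797 n2433 .nil))))
noncomputable def n2478 : Strat := .move 839 n738 (.cons 797 n1784 .nil)
noncomputable def n2479 : Strat := .move 842 n728 (.cons 843 n2478 .nil)
noncomputable def n2480 : Strat := .move 839 n738 (.cons 797 n2417 .nil)
noncomputable def n2481 : Strat := .move 842 n728 (.cons 843 n2480 .nil)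
noncomputable def n2482 : Strat := .move 839 n2191 (.cons 801 n2417 (.cons 880 n1784 .nil))
noncomputable def n2483 : Strat := .move 842 n728 (.cons 843 n2482 .nil)
noncomputable def n2484 : Strat := .move 800 n2172 (.cons 759 n1677 .nil)
noncomputable def n2485 : Strat := .move 797 n212 (.cons 796 n2484 .nil)
noncomputable def n2486 : Strat := .move 798 n2476 (.cons 843 n2477 (.cons 881 n2479 (.cons 801 n2481 (.cons 797 n2483 (.cons 839 n1773 (.cons 842 n2485 .nil))))))
noncomputable def n2487 : Strat := .move 839 n738 (.cons 797 n2184 .nil)
noncomputable def n2488 : Strat := .move 842 n728 (.cons 843 n2487 .nil)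
noncomputable def n2489 : Strat := .move 838 n737 (.cons 800 n1861 .nil)
noncomputable def n2490 : Strat := .move 838 n737 (.cons 801 n1853 (.cons 800 n1898 .nil))
noncomputable def n2491 : Strat := .move 839 n2489 (.cons 801 n2184 (.cons 838 n2308 (.cons 880 n2490 .nil)))
noncomputable def n2492 : Strat := .move 842 n728 (.cons 843 n2491 .nil)
noncomputable def n2493 : Strat := .move 800 n1431 (.cons 801 n2172 .nil)
noncomputable def n2494 : Strat := .move 797 n212 (.cons 796 n2493 .nil)
noncomputable def n2495 : Strat := .move 798 n1414 (.cons 800 n1459 (.cons 796 n2488 (.cons 797 n2492 (.cons 842 n2494 .nil))))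
noncomputable def n2496 : Strat := .move 842 n728 (.cons 843 n2438 .nil)
noncomputable def n2497 : Strat := .move 800 n2154 (.cons 838 n2172 .nil)
noncomputable def n2498 : Strat := .move 797 n212 (.cons 796 n2497 .nil)
noncomputable def n2499 : Strat := .move 798 n1414 (.cons 796 n1632 (.cons 800 n1459 (.cons 843 n1788 (.cons 797 n2496 (.cons 842 n2498 .nil)))))
noncomputable def n2500 : Strat := .move 800 n2154 (.cons 837 n2172 .nil)
noncomputable def n2501 : Strat := .move 797 n212 (.cons 796 n2500 .nil)
noncomputable def n2502 : Strat := .move 800 n121 (.cons 759 n591 .nil)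
noncomputable def n2503 : Strat := .move 922 n120 (.cons 757 n2502 .nil)
noncomputable def n2504 : Strat := .move 922 n121 (.cons 759 n591 .nil)
noncomputable def n2505 : Strat := .move 759 n1389 (.cons 718 n173 .nil)
noncomputable def n2506 : Strat := .move 801 n605 (.cons 802 n1636 .nil)
noncomputable def n2507 : Strat := .move 800 n2504 (.cons 963 n2505 (.cons 922 n2506 .nil))
noncomputable def n2508 : Strat := .move 800 n217 (.cons 838 n899 .nil)
noncomputable def n2509 : Strat := .move 801 n743 (.cons 802 n2508 .nil)
noncomputable def n2510 : Strat := .move 839 n1273 (.cons 716 n2509 .nil)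
noncomputable def n2511 : Strat := .move 757 n145 (.cons 922 n2510 .nil)
noncomputable def n2512 : Strat := .move 963 n202 (.cons 839 n332 .nil)
noncomputable def n2513 : Strat := .move 922 n120 (.cons 757 n2512 .nil)
noncomputable def n2514 : Strat := .move 757 n899 (.cons 756 n1273 .nil)
noncomputable def n2515 : Strat := .move 800 n217 (.cons 838 n2514 .nil)
noncomputable def n2516 : Strat := .move 801 n743 (.cons 802 n2515 .nil)
noncomputable def n2517 : Strat := .move 837 n735 (.cons 836 n734 .nil)
noncomputable def n2518 : Strat := .move 838 n1010 (.cons 878 n2517 .nil)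
noncomputable def n2519 : Strat := .move 879 n1827 (.cons 880 n2518 .nil)
noncomputable def n2520 : Strat := .move 801 n2187 (.cons 800 n743 .nil)
noncomputable def n2521 : Strat := .move 880 n626 (.cons 715 n981 .nil)
noncomputable def n2522 : Strat := .move 756 n2520 (.cons 802 n2521 .nil)
noncomputable def n2523 : Strat := .move 757 n1273 (.cons 716 n2522 .nil)
noncomputable def n2524 : Strat := .move 839 n2516 (.cons 801 n2519 (.cons 838 n2523 .nil))
noncomputable def n2525 : Strat := .move 881 n2503 (.cons 757 n2507 (.cons 963 n2511 (.cons 800 n2513 (.cons 922 n2524 .nil))))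
noncomputable def n2526 : Strat := .move 842 n728 (.cons 843 n2525 .nil)
noncomputable def n2527 : Strat := .move 798 n1414 (.cons 842 n2501 (.cons 800 n1790 (.cons 796 n1632 (.cons 797 n2526 .nil))))
noncomputable def n2528 : Strat := .move 800 n2172 (.cons 760 n1431 .nil)
noncomputable def n2529 : Strat := .move 797 n212 (.cons 796 n2528 .nil)
noncomputable def n2530 : Strat := .move 842 n728 (.cons 843 n2440 .nil)
noncomputable def n2531 : Strat := .move 798 n1773 (.cons 842 n2529 (.cons 800 n1790 (.cons 796 n1632 (.cons 797 n2530 .nil))))
noncomputable def n2532 : Strat := .win 882 3 718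
noncomputable def n2533 : Strat := .win 716 0 716
noncomputable def n2534 : Strat := .move 717 n2533 (.cons 716 n1588 .nil)
noncomputable def n2535 : Strat := .move 761 n175 (.cons 762 n2534 .nil)
noncomputable def n2536 : Strat := .move 760 n2532 (.cons 882 n2535 .nil)
noncomputable def n2537 : Strat := .move 719 n1148 (.cons 678 n2536 .nil)
noncomputable def n2538 : Strat := .move 718 n1434 (.cons 677 n2537 .nil)
noncomputable def n2539 : Strat := .move 839 n193 (.cons 884 n514 .nil)
noncomputable def n2540 : Strat := .move 883 n513 (.cons 924 n2539 .nil)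
noncomputable def n2541 : Strat := .move 760 n1710 (.cons 801 n174 .nil)
noncomputable def n2542 : Strat := .move 923 n1447 (.cons 964 n2541 .nil)
noncomputable def n2543 : Strat := .move 882 n2540 (.cons 883 n2542 .nil)
noncomputable def n2544 : Strat := .move 881 n173 (.cons 922 n2543 .nil)
noncomputable def n2545 : Strat := .move 759 n2171 (.cons 881 n2538 (.cons 718 n2544 .nil))
noncomputable def n2546 : Strat := .move 839 n216 (.cons 802 n537 .nil)
noncomputable def n2547 : Strat := .win 884 7 719
noncomputable def n2548 : Strat := .move 843 n2547 (.cons 884 n308 .nil)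
noncomputable def n2549 : Strat := .move 719 n1415 (.cons 678 n2548 .nil)
noncomputable def n2550 : Strat := .move 760 n2446 (.cons 798 n2549 .nil)
noncomputable def n2551 : Strat := .move 761 n318 (.cons 762 n2550 .nil)
noncomputable def n2552 : Strat := .move 802 n663 (.cons 803 n2551 .nil)
noncomputable def n2553 : Strat := .move 839 n217 (.cons 838 n2177 .nil)
noncomputable def n2554 : Strat := .move 838 n214 (.cons 837 n1485 .nil)
noncomputable def n2555 : Strat := .move 797 n212 (.cons 796 n2554 .nil)
noncomputable def n2556 : Strat := .move 797 n212 (.cons 796 n214 .nil)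
noncomputable def n2557 : Strat := .move 838 n315 (.cons 839 n2556 .nil)
noncomputable def n2558 : Strat := .win 839 6 716
noncomputable def n2559 : Strat := .move 716 n2558 (.cons 839 n1692 .nil)
noncomputable def n2560 : Strat := .move 881 n145 (.cons 922 n2559 .nil)
noncomputable def n2561 : Strat := .move 757 n899 (.cons 756 n2560 .nil)
noncomputable def n2562 : Strat := .move 798 n2553 (.cons 839 n2555 (.cons 756 n2557 (.cons 838 n2561 .nil)))
noncomputable def n2563 : Strat := .move 801 n2546 (.cons 839 n2552 (.cons 802 n2562 .nil))
noncomputable def n2564 : Strat := .move 716 n1089 (.cons 761 n1088 .nil)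
noncomputable def n2565 : Strat := .move 717 n1588 (.cons 676 n2564 .nil)
noncomputable def n2566 : Strat := .move 760 n2532 (.cons 882 n2565 .nil)
noncomputable def n2567 : Strat := .move 719 n1148 (.cons 678 n2566 .nil)
noncomputable def n2568 : Strat := .move 718 n1434 (.cons 677 n2567 .nil)
noncomputable def n2569 : Strat := .win 885 2 840
noncomputable def n2570 : Strat := .move 884 n380 (.cons 839 n2569 .nil)
noncomputable def n2571 : Strat := .move 883 n513 (.cons 924 n2570 .nil)
noncomputable def n2572 : Strat := .move 881 n461 (.cons 922 n2571 .nil)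
noncomputable def n2573 : Strat := .move 881 n461 (.cons 922 n1593 .nil)
noncomputable def n2574 : Strat := .move 924 n1591 (.cons 883 n1361 .nil)
noncomputable def n2575 : Strat := .move 923 n1447 (.cons 964 n2574 .nil)
noncomputable def n2576 : Strat := .win 881 1 758
noncomputable def n2577 : Strat := .move 923 n1447 (.cons 964 n585 .nil)
noncomputable def n2578 : Strat := .move 922 n2576 (.cons 881 n2577 .nil)
noncomputable def n2579 : Strat := .move 882 n2572 (.cons 884 n2573 (.cons 881 n2575 (.cons 883 n2578 .nil)))
noncomputable def n2580 : Strat := .move 759 n2171 (.cons 881 n2568 (.cons 718 n2579 .nil))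
noncomputable def n2581 : Strat := .win 801 5 757
noncomputable def n2582 : Strat := .move 761 n2581 (.cons 801 n175 .nil)
noncomputable def n2583 : Strat := .move 798 n944 (.cons 797 n2582 .nil)
noncomputable def n2584 : Strat := .move 760 n174 (.cons 719 n2583 .nil)
noncomputable def n2585 : Strat := .move 882 n2542 (.cons 923 n2584 (.cons 719 n1593 .nil))
noncomputable def n2586 : Strat := .move 881 n1389 (.cons 718 n2585 .nil)
noncomputable def n2587 : Strat := .move 881 n173 (.cons 922 n2585 .nil)
noncomputable def n2588 : Strat := .move 759 n2171 (.cons 922 n2586 (.cons 881 n2538 (.cons 718 n2587 .nil)))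
noncomputable def n2589 : Strat := .move 797 n212 (.cons 796 n1485 .nil)
noncomputable def n2590 : Strat := .move 797 n1488 (.cons 759 n212 .nil)
noncomputable def n2591 : Strat := .move 760 n606 (.cons 761 n2590 .nil)
noncomputable def n2592 : Strat := .win 759 3 718
noncomputable def n2593 : Strat := .move 719 n2592 (.cons 759 n1415 .nil)
noncomputable def n2594 : Strat := .move 882 n1637 (.cons 923 n2593 .nil)
noncomputable def n2595 : Strat := .move 760 n606 (.cons 761 n2594 .nil)
noncomputable def n2596 : Strat := .move 798 n2589 (.cons 755 n2591 (.cons 797 n2595 .nil))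
noncomputable def n2597 : Strat := .move 839 n537 (.cons 838 n2596 .nil)
noncomputable def n2598 : Strat := .move 839 n216 (.cons 802 n2596 .nil)
noncomputable def n2599 : Strat := .move 882 n2592 (.cons 759 n1637 .nil)
noncomputable def n2600 : Strat := .move 719 n1415 (.cons 678 n2599 .nil)
noncomputable def n2601 : Strat := .move 760 n2446 (.cons 798 n2600 .nil)
noncomputable def n2602 : Strat := .move 761 n318 (.cons 762 n2601 .nil)
noncomputable def n2603 : Strat := .move 802 n663 (.cons 803 n2602 .nil)
noncomputable def n2604 : Strat := .move 801 n2546 (.cons 802 n2597 (.cons 838 n2598 (.cons 839 n2603 .nil)))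
noncomputable def n2605 : Strat := .move 797 n212 (.cons 796 n1489 .nil)
noncomputable def n2606 : Strat := .move 798 n2177 (.cons 716 n2589 (.cons 757 n2605 .nil))
noncomputable def n2607 : Strat := .move 801 n216 (.cons 802 n2606 .nil)
noncomputable def n2608 : Strat := .move 880 n1266 (.cons 921 n1267 .nil)
noncomputable def n2609 : Strat := .win 714 7 714
noncomputable def n2610 : Strat := .win 798 2 755
noncomputable def n2611 : Strat := .move 755 n2609 (.cons 714 n2610 .nil)
noncomputable def n2612 : Strat := .move 756 n2608 (.cons 715 n2611 .nil)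
noncomputable def n2613 : Strat := .move 879 n1010 (.cons 878 n2612 .nil)
noncomputable def n2614 : Strat := .move 797 n1265 (.cons 796 n2613 .nil)
noncomputable def n2615 : Strat := .move 838 n124 (.cons 837 n2614 .nil)
noncomputable def n2616 : Strat := .move 839 n2363 (.cons 837 n538 (.cons 838 n2607 (.cons 801 n2615 .nil)))
noncomputable def n2617 : Strat := .move 797 n212 (.cons 796 n2419 .nil)
noncomputable def n2618 : Strat := .move 798 n2177 (.cons 675 n2589 (.cons 757 n2617 .nil))
noncomputable def n2619 : Strat := .move 801 n216 (.cons 802 n2618 .nil)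
noncomputable def n2620 : Strat := .move 839 n2363 (.cons 801 n2615 (.cons 837 n538 (.cons 838 n2619 .nil)))
noncomputable def n2621 : Strat := .move 797 n212 (.cons 796 n1431 .nil)
noncomputable def n2622 : Strat := .move 757 n145 (.cons 922 n1273 .nil)
noncomputable def n2623 : Strat := .move 801 n899 (.cons 756 n216 .nil)
noncomputable def n2624 : Strat := .move 757 n1273 (.cons 716 n2623 .nil)
noncomputable def n2625 : Strat := .move 881 n2504 (.cons 963 n2622 (.cons 922 n2624 .nil))
noncomputable def n2626 : Strat := .move 838 n124 (.cons 837 n1667 .nil)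
noncomputable def n2627 : Strat := .move 839 n888 (.cons 838 n2625 (.cons 801 n2626 .nil))
noncomputable def n2628 : Strat := .move 797 n212 (.cons 796 n1616 .nil)
noncomputable def n2629 : Strat := .move 797 n212 (.cons 796 n1685 .nil)
noncomputable def n2630 : Strat := .move 797 n212 (.cons 796 n1677 .nil)
noncomputable def n2631 : Strat := .move 797 n212 (.cons 796 n1696 .nil)
noncomputable def n2632 : Strat := .move 798 n2621 (.cons 797 n2627 (.cons 801 n2628 (.cons 756 n2629 (.cons 837 n2630 (.cons 839 n2631 .nil)))))
noncomputable def n2633 : Strat := .move 800 n2545 (.cons 759 n2563 (.cons 801 n2580 (.cons 839 n2588 (.cons 881 n2604 (.cons 719 n2616 (.cons 761 n2620 (.cons 760 n2632 .nil)))))))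
noncomputable def n2634 : Strat := .win 798 0 798
noncomputable def n2635 : Strat := .win 844 2 799
noncomputable def n2636 : Strat := .move 843 n2634 (.cons 798 n2635 .nil)
noncomputable def n2637 : Strat := .move 798 n729 (.cons 797 n1636 .nil)
noncomputable def n2638 : Strat := .win 883 1 719
noncomputable def n2639 : Strat := .win 679 1 678
noncomputable def n2640 : Strat := .move 720 n2638 (.cons 883 n2639 .nil)
noncomputable def n2641 : Strat := .move 761 n318 (.cons 762 n2640 .nil)
noncomputable def n2642 : Strat := .move 802 n663 (.cons 803 n2641 .nil)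
noncomputable def n2643 : Strat := .move 843 n2635 (.cons 844 n2642 .nil)
noncomputable def n2644 : Strat := .move 842 n2636 (.cons 843 n2637 (.cons 798 n2643 .nil))
noncomputable def n2645 : Strat := .move 797 n212 (.cons 796 n1488 .nil)
noncomputable def n2646 : Strat := .move 760 n606 (.cons 761 n2645 .nil)
noncomputable def n2647 : Strat := .move 842 n312 (.cons 843 n1636 .nil)
noncomputable def n2648 : Strat := .move 798 n795 (.cons 842 n2646 (.cons 797 n2647 .nil))
noncomputable def n2649 : Strat := .win 926 6 761
noncomputable def n2650 : Strat := .win 842 0 840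
noncomputable def n2651 : Strat := .move 885 n2649 (.cons 926 n2650 .nil)
noncomputable def n2652 : Strat := .win 719 7 719
noncomputable def n2653 : Strat := .move 760 n2652 (.cons 719 n2219 .nil)
noncomputable def n2654 : Strat := .move 884 n2651 (.cons 842 n2653 .nil)
noncomputable def n2655 : Strat := .move 761 n318 (.cons 762 n2654 .nil)
noncomputable def n2656 : Strat := .move 843 n308 (.cons 844 n2655 .nil)
noncomputable def n2657 : Strat := .move 802 n663 (.cons 803 n2656 .nil)
noncomputable def n2658 : Strat := .move 842 n2634 (.cons 798 n2641 .nil)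
noncomputable def n2659 : Strat := .move 843 n308 (.cons 844 n2658 .nil)
noncomputable def n2660 : Strat := .move 802 n663 (.cons 803 n2659 .nil)
noncomputable def n2661 : Strat := .move 797 n212 (.cons 796 n1436 .nil)
noncomputable def n2662 : Strat := .move 802 n663 (.cons 803 n308 .nil)
noncomputable def n2663 : Strat := .move 843 n309 (.cons 842 n2662 .nil)
noncomputable def n2664 : Strat := .move 798 n795 (.cons 842 n2661 (.cons 797 n2663 .nil))
noncomputable def n2665 : Strat := .move 801 n2644 (.cons 842 n2603 (.cons 802 n2648 (.cons 798 n2657 (.cons 760 n2660 (.cons 761 n2664 .nil)))))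
noncomputable def n2666 : Strat := .move 718 n1434 (.cons 677 n2397 .nil)
noncomputable def n2667 : Strat := .move 842 n2635 (.cons 844 n2302 .nil)
noncomputable def n2668 : Strat := .move 842 n2229 (.cons 880 n2635 .nil)
noncomputable def n2669 : Strat := .move 842 n2229 (.cons 880 n2302 .nil)
noncomputable def n2670 : Strat := .move 884 n528 (.cons 844 n2569 .nil)
noncomputable def n2671 : Strat := .move 843 n2667 (.cons 798 n2668 (.cons 844 n2669 (.cons 842 n2670 .nil)))
noncomputable def n2672 : Strat := .move 883 n513 (.cons 924 n2671 .nil)
noncomputable def n2673 : Strat := .move 882 n2542 (.cons 923 n2672 .nil)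
noncomputable def n2674 : Strat := .move 881 n173 (.cons 922 n2673 .nil)
noncomputable def n2675 : Strat := .move 843 n2302 (.cons 798 n2635 .nil)
noncomputable def n2676 : Strat := .move 842 n1797 (.cons 883 n2675 .nil)
noncomputable def n2677 : Strat := .move 718 n1434 (.cons 677 n2676 .nil)
noncomputable def n2678 : Strat := .move 759 n2666 (.cons 718 n2674 (.cons 881 n2677 .nil))
noncomputable def n2679 : Strat := .move 797 n212 (.cons 796 n2172 .nil)
noncomputable def n2680 : Strat := .win 842 2 798
noncomputable def n2681 : Strat := .move 760 n606 (.cons 761 n2600 .nil)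
noncomputable def n2682 : Strat := .move 801 n2662 (.cons 844 n2681 .nil)
noncomputable def n2683 : Strat := .move 843 n2680 (.cons 842 n2682 .nil)
noncomputable def n2684 : Strat := .move 798 n2370 (.cons 842 n2679 (.cons 796 n730 (.cons 797 n2683 .nil)))
noncomputable def n2685 : Strat := .move 843 n308 (.cons 844 n320 .nil)
noncomputable def n2686 : Strat := .move 802 n663 (.cons 803 n2685 .nil)
noncomputable def n2687 : Strat := .win 842 1 718
noncomputable def n2688 : Strat := .move 719 n2687 (.cons 842 n1415 .nil)
noncomputable def n2689 : Strat := .move 882 n1637 (.cons 923 n2688 .nil)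
noncomputable def n2690 : Strat := .move 760 n606 (.cons 761 n2689 .nil)
noncomputable def n2691 : Strat := .move 801 n2647 (.cons 842 n2686 (.cons 843 n2690 (.cons 761 n2663 .nil)))
noncomputable def n2692 : Strat := .move 798 n730 (.cons 842 n2631 (.cons 797 n2691 .nil))
noncomputable def n2693 : Strat := .move 759 n2397 (.cons 881 n1434 .nil)
noncomputable def n2694 : Strat := .move 759 n1797 (.cons 883 n2397 .nil)
noncomputable def n2695 : Strat := .move 759 n1797 (.cons 883 n1434 .nil)
noncomputable def n2696 : Strat := .move 719 n2292 (.cons 677 n1415 .nil)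
noncomputable def n2697 : Strat := .move 718 n2693 (.cons 677 n2694 (.cons 881 n2695 (.cons 759 n2696 .nil)))
noncomputable def n2698 : Strat := .move 760 n606 (.cons 761 n2697 .nil)
noncomputable def n2699 : Strat := .move 842 n312 (.cons 843 n2698 .nil)
noncomputable def n2700 : Strat := .move 757 n899 (.cons 756 n320 .nil)
noncomputable def n2701 : Strat := .move 802 n663 (.cons 803 n2700 .nil)
noncomputable def n2702 : Strat := .move 801 n2699 (.cons 842 n2701 (.cons 761 n2663 .nil))
noncomputable def n2703 : Strat := .move 798 n2370 (.cons 842 n2679 (.cons 796 n730 (.cons 797 n2702 .nil)))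
noncomputable def n2704 : Strat := .move 759 n2576 (.cons 881 n2541 .nil)
noncomputable def n2705 : Strat := .move 922 n585 (.cons 963 n2704 .nil)
noncomputable def n2706 : Strat := .move 923 n1447 (.cons 964 n2705 .nil)
noncomputable def n2707 : Strat := .move 759 n1389 (.cons 718 n461 .nil)
noncomputable def n2708 : Strat := .win 880 4 879
noncomputable def n2709 : Strat := .move 920 n2708 (.cons 880 n234 .nil)
noncomputable def n2710 : Strat := .move 883 n580 (.cons 884 n2709 .nil)
noncomputable def n2711 : Strat := .move 921 n63 (.cons 962 n2710 .nil)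
noncomputable def n2712 : Strat := .move 922 n591 (.cons 963 n2711 .nil)
noncomputable def n2713 : Strat := .move 879 n139 (.cons 878 n138 .nil)
noncomputable def n2714 : Strat := .move 879 n153 (.cons 919 n139 .nil)
noncomputable def n2715 : Strat := .move 883 n389 (.cons 921 n513 .nil)
noncomputable def n2716 : Strat := .move 920 n2714 (.cons 878 n2715 .nil)
noncomputable def n2717 : Strat := .move 759 n1389 (.cons 718 n2716 .nil)
noncomputable def n2718 : Strat := .win 842 4 839
noncomputable def n2719 : Strat := .move 759 n513 (.cons 924 n1389 .nil)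
noncomputable def n2720 : Strat := .win 759 6 759
noncomputable def n2721 : Strat := .move 924 n189 (.cons 925 n2720 .nil)
noncomputable def n2722 : Strat := .move 883 n2719 (.cons 718 n2721 (.cons 924 n2670 .nil))
noncomputable def n2723 : Strat := .move 843 n2718 (.cons 842 n2722 .nil)
noncomputable def n2724 : Strat := .move 880 n457 (.cons 843 n2713 (.cons 842 n2717 (.cons 879 n2723 .nil)))
noncomputable def n2725 : Strat := .move 881 n2707 (.cons 759 n2712 (.cons 922 n2724 .nil))
noncomputable def n2726 : Strat := .move 759 n2398 (.cons 677 n1592 .nil)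
noncomputable def n2727 : Strat := .move 802 n663 (.cons 803 n2726 .nil)
noncomputable def n2728 : Strat := .move 801 n662 (.cons 760 n2727 .nil)
noncomputable def n2729 : Strat := .move 923 n1447 (.cons 964 n2728 .nil)
noncomputable def n2730 : Strat := .win 961 4 920
noncomputable def n2731 : Strat := .win 881 1 798
noncomputable def n2732 : Strat := .move 962 n2730 (.cons 961 n2731 .nil)
noncomputable def n2733 : Strat := .move 883 n419 (.cons 884 n581 .nil)
noncomputable def n2734 : Strat := .move 921 n2732 (.cons 881 n2733 .nil)
noncomputable def n2735 : Strat := .move 924 n1361 (.cons 965 n2734 .nil)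
noncomputable def n2736 : Strat := .move 922 n585 (.cons 963 n2735 .nil)
noncomputable def n2737 : Strat := .move 923 n1447 (.cons 964 n2736 .nil)
noncomputable def n2738 : Strat := .move 759 n1591 (.cons 883 n2541 .nil)
noncomputable def n2739 : Strat := .move 924 n1361 (.cons 965 n2738 .nil)
noncomputable def n2740 : Strat := .move 923 n1447 (.cons 964 n2739 .nil)
noncomputable def n2741 : Strat := .move 882 n2706 (.cons 923 n2725 (.cons 922 n2729 (.cons 759 n2737 (.cons 881 n2740 .nil))))
noncomputable def n2742 : Strat := .move 798 n120 (.cons 757 n730 .nil)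
noncomputable def n2743 : Strat := .move 922 n591 (.cons 963 n2742 .nil)
noncomputable def n2744 : Strat := .move 842 n2302 (.cons 798 n2635 .nil)
noncomputable def n2745 : Strat := .move 883 n513 (.cons 924 n2670 .nil)
noncomputable def n2746 : Strat := .move 802 n308 (.cons 844 n663 .nil)
noncomputable def n2747 : Strat := .move 923 n662 (.cons 760 n1447 .nil)
noncomputable def n2748 : Strat := .move 801 n2746 (.cons 803 n2747 .nil)
noncomputable def n2749 : Strat := .move 882 n1593 (.cons 923 n2745 (.cons 883 n2748 .nil))
noncomputable def n2750 : Strat := .move 842 n2302 (.cons 798 n2229 .nil)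
noncomputable def n2751 : Strat := .move 843 n2744 (.cons 842 n2749 (.cons 844 n2750 .nil))
noncomputable def n2752 : Strat := .move 759 n1389 (.cons 718 n2751 .nil)
noncomputable def n2753 : Strat := .move 881 n2504 (.cons 759 n2743 (.cons 963 n2505 (.cons 922 n2752 .nil)))
noncomputable def n2754 : Strat := .move 798 n728 (.cons 843 n729 .nil)
noncomputable def n2755 : Strat := .move 842 n1797 (.cons 883 n2754 .nil)
noncomputable def n2756 : Strat := .move 718 n1434 (.cons 677 n2755 .nil)
noncomputable def n2757 : Strat := .move 881 n461 (.cons 922 n2672 .nil)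
noncomputable def n2758 : Strat := .move 760 n174 (.cons 719 n1592 .nil)
noncomputable def n2759 : Strat := .move 923 n1447 (.cons 964 n2758 .nil)
noncomputable def n2760 : Strat := .move 882 n2573 (.cons 923 n2757 (.cons 881 n2759 (.cons 924 n2578 .nil)))
noncomputable def n2761 : Strat := .move 759 n2666 (.cons 881 n2756 (.cons 677 n2171 (.cons 718 n2760 .nil)))
noncomputable def n2762 : Strat := .move 798 n729 (.cons 797 n728 .nil)
noncomputable def n2763 : Strat := .move 842 n2762 (.cons 843 n1593 .nil)
noncomputable def n2764 : Strat := .move 881 n461 (.cons 922 n2763 .nil)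
noncomputable def n2765 : Strat := .move 922 n585 (.cons 963 n1592 .nil)
noncomputable def n2766 : Strat := .move 923 n1447 (.cons 964 n2765 .nil)
noncomputable def n2767 : Strat := .move 882 n2764 (.cons 798 n2573 (.cons 965 n2757 (.cons 881 n2766 (.cons 924 n2578 (.cons 922 n2575 .nil)))))
noncomputable def n2768 : Strat := .move 759 n2666 (.cons 677 n2171 (.cons 881 n2677 (.cons 718 n2767 .nil)))
noncomputable def n2769 : Strat := .move 800 n2665 (.cons 842 n2588 (.cons 797 n2678 (.cons 883 n2684 (.cons 759 n2692 (.cons 882 n2703 (.cons 798 n2741 (.cons 719 n2753 (.cons 801 n2761 (.cons 760 n2768 .nil)))))))))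
noncomputable def n2770 : Strat := .move 841 n2198 (.cons 798 n2300 (.cons 800 n2326 (.cons 881 n2349 (.cons 882 n2362 (.cons 843 n2435 (.cons 797 n2467 (.cons 801 n2474 (.cons 838 n2486 (.cons 802 n2495 (.cons 880 n2499 (.cons 883 n2527 (.cons 879 n2531 (.cons 842 n2633 (.cons 839 n2769 .nil))))))))))))))
noncomputable def n2771 : Strat := .move 799 n119 (.cons 964 n269 (.cons 796 n327 (.cons 800 n450 (.cons 798 n553 (.cons 717 n615 (.cons 718 n677 (.cons 841 n727 (.cons 962 n841 (.cons 716 n882 (.cons 882 n933 (.cons 757 n1030 (.cons 921 n1207 (.cons 923 n1304 (.cons 880 n1317 (.cons 839 n1369 (.cons 759 n1387 (.cons 922 n1411 (.cons 881 n2170 (.cons 758 n2770 .nil)))))))))))))))))))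

end Vale.Agent.Snaky.R3_3
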