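import Vale.Agent.Snaky.Assemble

namespace Vale.Agent.Snaky.R4_0

open Vale.Agent.Snaky

noncomputable def n0 : Strat := .win 795 2 795
noncomputable def n1 : Strat := .win 797 2 796
noncomputable def n2 : Strat := .win 877 4 836
noncomputable def n3 : Strat := .win 879 4 837
noncomputable def n4 : Strat := .move 878 n2 (.cons 877 n3 .nil)
noncomputable def n5 : Strat := .move 841 n1 (.cons 797 n4 .nil)
noncomputable def n6 : Strat := .move 796 n0 (.cons 795 n5 .nil)
noncomputable def n7 : Strat := .win 882 0 837
noncomputable def n8 : Strat := .win 880 0 836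
noncomputable def n9 : Strat := .win 800 5 796
noncomputable def n10 : Strat := .win 798 5 795
noncomputable def n11 : Strat := .move 799 n9 (.cons 800 n10 .nil)
noncomputable def n12 : Strat := .move 836 n8 (.cons 880 n11 .nil)
noncomputable def n13 : Strat := .move 881 n7 (.cons 882 n12 .nil)
noncomputable def n14 : Strat := .move 837 n6 (.cons 796 n13 .nil)
noncomputable def n15 : Strat := .win 878 4 837
noncomputable def n16 : Strat := .win 880 4 838
noncomputable def n17 : Strat := .win 796 2 796
noncomputable def n18 : Strat := .win 798 2 797
noncomputable def n19 : Strat := .move 797 n17 (.cons 796 n18 .nil)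
noncomputable def n20 : Strat := .move 842 n16 (.cons 880 n19 .nil)
noncomputable def n21 : Strat := .move 879 n15 (.cons 878 n20 .nil)
noncomputable def n22 : Strat := .win 882 0 838
noncomputable def n23 : Strat := .win 884 0 839
noncomputable def n24 : Strat := .move 883 n22 (.cons 882 n23 .nil)
noncomputable def n25 : Strat := .move 842 n16 (.cons 880 n24 .nil)
noncomputable def n26 : Strat := .move 879 n15 (.cons 878 n25 .nil)
noncomputable def n27 : Strat := .win 883 0 838
noncomputable def n28 : Strat := .win 881 0 837
noncomputable def n29 : Strat := .move 796 n0 (.cons 795 n1 .nil)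
noncomputable def n30 : Strat := .move 837 n28 (.cons 881 n29 .nil)
noncomputable def n31 : Strat := .move 882 n27 (.cons 883 n30 .nil)
noncomputable def n32 : Strat := .move 841 n21 (.cons 798 n26 (.cons 879 n31 .nil))
noncomputable def n33 : Strat := .move 879 n15 (.cons 878 n16 .nil)
noncomputable def n34 : Strat := .move 842 n18 (.cons 798 n33 .nil)
noncomputable def n35 : Strat := .move 797 n17 (.cons 796 n34 .nil)
noncomputable def n36 : Strat := .win 800 5 797
noncomputable def n37 : Strat := .win 802 5 798
noncomputable def n38 : Strat := .move 801 n36 (.cons 800 n37 .nil)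
noncomputable def n39 : Strat := .move 842 n18 (.cons 798 n38 .nil)
noncomputable def n40 : Strat := .move 797 n17 (.cons 796 n39 .nil)
noncomputable def n41 : Strat := .win 801 5 797
noncomputable def n42 : Strat := .win 799 5 796
noncomputable def n43 : Strat := .move 837 n42 (.cons 799 n4 .nil)
noncomputable def n44 : Strat := .move 800 n41 (.cons 801 n43 .nil)
noncomputable def n45 : Strat := .move 841 n35 (.cons 880 n40 (.cons 797 n44 .nil))
noncomputable def n46 : Strat := .move 837 n28 (.cons 881 n42 .nil)
noncomputable def n47 : Strat := .move 882 n27 (.cons 883 n46 .nil)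
noncomputable def n48 : Strat := .move 800 n41 (.cons 801 n47 .nil)
noncomputable def n49 : Strat := .move 842 n16 (.cons 880 n38 .nil)
noncomputable def n50 : Strat := .move 879 n15 (.cons 878 n49 .nil)
noncomputable def n51 : Strat := .move 841 n48 (.cons 800 n26 (.cons 882 n50 .nil))
noncomputable def n52 : Strat := .move 800 n41 (.cons 801 n46 .nil)
noncomputable def n53 : Strat := .move 882 n27 (.cons 883 n52 .nil)
noncomputable def n54 : Strat := .move 842 n18 (.cons 798 n24 .nil)
noncomputable def n55 : Strat := .move 797 n17 (.cons 796 n54 .nil)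
noncomputable def n56 : Strat := .move 841 n53 (.cons 882 n40 (.cons 800 n55 .nil))
noncomputable def n57 : Strat := .win 921 6 756
noncomputable def n58 : Strat := .win 715 6 715
noncomputable def n59 : Strat := .move 880 n57 (.cons 921 n58 .nil)
noncomputable def n60 : Strat := .win 920 3 756
noncomputable def n61 : Strat := .win 716 1 715
noncomputable def n62 : Strat := .move 757 n60 (.cons 920 n61 .nil)
noncomputable def n63 : Strat := .win 961 3 797
noncomputable def n64 : Strat := .win 757 3 756
noncomputable def n65 : Strat := .move 920 n63 (.cons 961 n64 .nil)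
noncomputable def n66 : Strat := .win 799 2 755
noncomputable def n67 : Strat := .win 714 7 714
noncomputable def n68 : Strat := .move 755 n66 (.cons 799 n67 .nil)
noncomputable def n69 : Strat := .move 798 n62 (.cons 716 n65 (.cons 920 n68 .nil))
noncomputable def n70 : Strat := .move 756 n59 (.cons 715 n69 .nil)
noncomputable def n71 : Strat := .move 800 n41 (.cons 801 n70 .nil)
noncomputable def n72 : Strat := .move 879 n15 (.cons 878 n71 .nil)
noncomputable def n73 : Strat := .move 797 n17 (.cons 796 n72 .nil)
noncomputable def n74 : Strat := .move 841 n35 (.cons 797 n50 (.cons 879 n55 (.cons 842 n73 .nil)))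
noncomputable def n75 : Strat := .move 881 n7 (.cons 882 n8 .nil)
noncomputable def n76 : Strat := .move 836 n10 (.cons 798 n75 .nil)
noncomputable def n77 : Strat := .move 799 n9 (.cons 800 n76 .nil)
noncomputable def n78 : Strat := .win 796 2 795
noncomputable def n79 : Strat := .win 794 2 794
noncomputable def n80 : Strat := .move 795 n78 (.cons 796 n79 .nil)
noncomputable def n81 : Strat := .move 836 n8 (.cons 880 n80 .nil)
noncomputable def n82 : Strat := .move 881 n7 (.cons 882 n81 .nil)
noncomputable def n83 : Strat := .win 878 4 836
noncomputable def n84 : Strat := .win 876 4 835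
noncomputable def n85 : Strat := .move 877 n83 (.cons 878 n84 .nil)
noncomputable def n86 : Strat := .move 836 n10 (.cons 798 n85 .nil)
noncomputable def n87 : Strat := .move 799 n9 (.cons 800 n86 .nil)
noncomputable def n88 : Strat := .win 920 6 755
noncomputable def n89 : Strat := .win 714 6 714
noncomputable def n90 : Strat := .move 879 n88 (.cons 920 n89 .nil)
noncomputable def n91 : Strat := .win 919 3 755
noncomputable def n92 : Strat := .win 715 1 714
noncomputable def n93 : Strat := .move 756 n91 (.cons 919 n92 .nil)
noncomputable def n94 : Strat := .win 960 3 796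
noncomputable def n95 : Strat := .win 756 3 755
noncomputable def n96 : Strat := .move 919 n94 (.cons 960 n95 .nil)
noncomputable def n97 : Strat := .win 798 2 754
noncomputable def n98 : Strat := .win 713 7 713
noncomputable def n99 : Strat := .move 754 n97 (.cons 798 n98 .nil)
noncomputable def n100 : Strat := .move 797 n93 (.cons 715 n96 (.cons 919 n99 .nil))
noncomputable def n101 : Strat := .move 755 n90 (.cons 714 n100 .nil)
noncomputable def n102 : Strat := .move 799 n9 (.cons 800 n101 .nil)
noncomputable def n103 : Strat := .move 878 n2 (.cons 877 n102 .nil)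
noncomputable def n104 : Strat := .move 796 n0 (.cons 795 n103 .nil)
noncomputable def n105 : Strat := .move 837 n77 (.cons 799 n82 (.cons 881 n87 (.cons 836 n104 .nil)))
noncomputable def n106 : Strat := .move 838 n14 (.cons 799 n32 (.cons 881 n45 (.cons 796 n51 (.cons 878 n56 (.cons 837 n74 (.cons 841 n105 .nil))))))
noncomputable def n107 : Strat := .move 882 n28 (.cons 881 n27 .nil)
noncomputable def n108 : Strat := .move 837 n42 (.cons 799 n107 .nil)
noncomputable def n109 : Strat := .move 800 n41 (.cons 801 n108 .nil)
noncomputable def n110 : Strat := .move 841 n109 (.cons 837 n73 (.cons 800 n31 .nil))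
noncomputable def n111 : Strat := .win 964 7 799
noncomputable def n112 : Strat := .win 758 7 758
noncomputable def n113 : Strat := .move 799 n111 (.cons 964 n112 .nil)
noncomputable def n114 : Strat := .win 799 7 799
noncomputable def n115 : Strat := .win 1004 1 840
noncomputable def n116 : Strat := .win 922 1 799
noncomputable def n117 : Strat := .move 963 n115 (.cons 1004 n116 .nil)
noncomputable def n118 : Strat := .move 964 n114 (.cons 799 n117 .nil)
noncomputable def n119 : Strat := .win 922 1 758
noncomputable def n120 : Strat := .win 718 1 717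
noncomputable def n121 : Strat := .move 759 n119 (.cons 922 n120 .nil)
noncomputable def n122 : Strat := .win 759 1 758
noncomputable def n123 : Strat := .win 963 1 799
noncomputable def n124 : Strat := .move 922 n122 (.cons 759 n123 .nil)
noncomputable def n125 : Strat := .win 880 0 879
noncomputable def n126 : Strat := .win 965 6 800
noncomputable def n127 : Strat := .move 924 n125 (.cons 880 n126 .nil)
noncomputable def n128 : Strat := .move 881 n121 (.cons 718 n124 (.cons 922 n127 .nil))
noncomputable def n129 : Strat := .move 923 n113 (.cons 758 n118 (.cons 964 n128 .nil))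
noncomputable def n130 : Strat := .move 879 n15 (.cons 878 n129 .nil)
noncomputable def n131 : Strat := .move 882 n27 (.cons 883 n130 .nil)
noncomputable def n132 : Strat := .move 800 n41 (.cons 801 n131 .nil)
noncomputable def n133 : Strat := .move 881 n119 (.cons 922 n120 .nil)
noncomputable def n134 : Strat := .move 923 n112 (.cons 758 n111 .nil)
noncomputable def n135 : Strat := .win 923 7 758
noncomputable def n136 : Strat := .win 717 6 717
noncomputable def n137 : Strat := .move 758 n135 (.cons 923 n136 .nil)
noncomputable def n138 : Strat := .win 798 5 756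
noncomputable def n139 : Strat := .win 719 3 718
noncomputable def n140 : Strat := .move 760 n138 (.cons 798 n139 .nil)
noncomputable def n141 : Strat := .move 799 n134 (.cons 964 n137 (.cons 758 n140 .nil))
noncomputable def n142 : Strat := .move 759 n133 (.cons 718 n141 .nil)
noncomputable def n143 : Strat := .move 797 n17 (.cons 796 n142 .nil)
noncomputable def n144 : Strat := .move 800 n41 (.cons 801 n143 .nil)
noncomputable def n145 : Strat := .move 882 n27 (.cons 883 n144 .nil)
noncomputable def n146 : Strat := .move 798 n63 (.cons 961 n64 .nil)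
noncomputable def n147 : Strat := .win 798 3 797
noncomputable def n148 : Strat := .win 1001 1 837
noncomputable def n149 : Strat := .win 919 1 796
noncomputable def n150 : Strat := .move 960 n148 (.cons 1001 n149 .nil)
noncomputable def n151 : Strat := .move 961 n147 (.cons 798 n150 .nil)
noncomputable def n152 : Strat := .move 756 n57 (.cons 921 n58 .nil)
noncomputable def n153 : Strat := .win 756 6 756
noncomputable def n154 : Strat := .win 962 6 797
noncomputable def n155 : Strat := .move 921 n153 (.cons 756 n154 .nil)
noncomputable def n156 : Strat := .win 881 4 878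
noncomputable def n157 : Strat := .win 960 1 796
noncomputable def n158 : Strat := .move 919 n156 (.cons 881 n157 .nil)
noncomputable def n159 : Strat := .move 880 n152 (.cons 715 n155 (.cons 921 n158 .nil))
noncomputable def n160 : Strat := .move 920 n146 (.cons 757 n151 (.cons 961 n159 .nil))
noncomputable def n161 : Strat := .move 882 n27 (.cons 883 n160 .nil)
noncomputable def n162 : Strat := .move 879 n15 (.cons 878 n161 .nil)
noncomputable def n163 : Strat := .move 797 n17 (.cons 796 n162 .nil)
noncomputable def n164 : Strat := .move 841 n73 (.cons 796 n132 (.cons 878 n145 (.cons 800 n163 .nil)))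
noncomputable def n165 : Strat := .win 837 0 837
noncomputable def n166 : Strat := .move 882 n165 (.cons 837 n27 .nil)
noncomputable def n167 : Strat := .win 963 3 799
noncomputable def n168 : Strat := .move 922 n167 (.cons 963 n122 .nil)
noncomputable def n169 : Strat := .move 800 n41 (.cons 801 n168 .nil)
noncomputable def n170 : Strat := .move 882 n27 (.cons 883 n169 .nil)
noncomputable def n171 : Strat := .move 837 n7 (.cons 882 n4 .nil)
noncomputable def n172 : Strat := .move 837 n2 (.cons 877 n29 .nil)
noncomputable def n173 : Strat := .move 878 n3 (.cons 879 n172 .nil)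
noncomputable def n174 : Strat := .move 841 n166 (.cons 837 n170 (.cons 883 n171 (.cons 882 n173 .nil)))
noncomputable def n175 : Strat := .win 836 0 836
noncomputable def n176 : Strat := .win 841 4 837
noncomputable def n177 : Strat := .move 755 n88 (.cons 920 n89 .nil)
noncomputable def n178 : Strat := .move 796 n0 (.cons 795 n177 .nil)
noncomputable def n179 : Strat := .move 879 n176 (.cons 841 n178 .nil)
noncomputable def n180 : Strat := .move 878 n2 (.cons 877 n179 .nil)
noncomputable def n181 : Strat := .move 880 n175 (.cons 836 n180 .nil)
noncomputable def n182 : Strat := .move 836 n8 (.cons 880 n85 .nil)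
noncomputable def n183 : Strat := .move 837 n181 (.cons 836 n180 (.cons 841 n81 (.cons 796 n182 .nil)))
noncomputable def n184 : Strat := .win 880 2 838
noncomputable def n185 : Strat := .win 884 2 839
noncomputable def n186 : Strat := .move 883 n184 (.cons 880 n185 .nil)
noncomputable def n187 : Strat := .move 882 n165 (.cons 837 n186 .nil)
noncomputable def n188 : Strat := .win 883 2 838
noncomputable def n189 : Strat := .win 877 5 836
noncomputable def n190 : Strat := .move 878 n176 (.cons 841 n189 .nil)
noncomputable def n191 : Strat := .win 919 4 878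
noncomputable def n192 : Strat := .win 757 1 756
noncomputable def n193 : Strat := .move 798 n63 (.cons 961 n192 .nil)
noncomputable def n194 : Strat := .move 920 n191 (.cons 919 n193 .nil)
noncomputable def n195 : Strat := .move 879 n190 (.cons 841 n194 .nil)
noncomputable def n196 : Strat := .move 882 n188 (.cons 883 n195 .nil)
noncomputable def n197 : Strat := .win 922 0 878
noncomputable def n198 : Strat := .win 924 0 879
noncomputable def n199 : Strat := .move 923 n197 (.cons 922 n198 .nil)
noncomputable def n200 : Strat := .move 878 n189 (.cons 877 n199 .nil)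
noncomputable def n201 : Strat := .move 879 n194 (.cons 920 n200 .nil)
noncomputable def n202 : Strat := .move 882 n188 (.cons 883 n201 .nil)
noncomputable def n203 : Strat := .win 798 7 798
noncomputable def n204 : Strat := .win 1004 7 839
noncomputable def n205 : Strat := .move 963 n203 (.cons 798 n204 .nil)
noncomputable def n206 : Strat := .win 1003 1 839
noncomputable def n207 : Strat := .win 921 7 797
noncomputable def n208 : Strat := .move 962 n206 (.cons 1003 n207 .nil)
noncomputable def n209 : Strat := .win 800 3 799
noncomputable def n210 : Strat := .move 841 n209 (.cons 800 n17 .nil)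
noncomputable def n211 : Strat := .move 797 n208 (.cons 921 n210 .nil)
noncomputable def n212 : Strat := .move 963 n204 (.cons 1004 n211 .nil)
noncomputable def n213 : Strat := .win 963 7 798
noncomputable def n214 : Strat := .win 757 6 757
noncomputable def n215 : Strat := .move 798 n213 (.cons 963 n214 .nil)
noncomputable def n216 : Strat := .win 795 0 795
noncomputable def n217 : Strat := .win 841 2 796
noncomputable def n218 : Strat := .move 796 n216 (.cons 795 n217 .nil)
noncomputable def n219 : Strat := .win 756 7 756
noncomputable def n220 : Strat := .win 962 7 797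
noncomputable def n221 : Strat := .move 921 n219 (.cons 756 n220 .nil)
noncomputable def n222 : Strat := .move 797 n218 (.cons 841 n221 .nil)
noncomputable def n223 : Strat := .move 798 n214 (.cons 757 n222 .nil)
noncomputable def n224 : Strat := .move 922 n205 (.cons 798 n212 (.cons 1004 n215 (.cons 963 n223 .nil)))
noncomputable def n225 : Strat := .move 882 n188 (.cons 883 n224 .nil)
noncomputable def n226 : Strat := .move 797 n17 (.cons 796 n152 .nil)
noncomputable def n227 : Strat := .move 841 n15 (.cons 878 n226 .nil)
noncomputable def n228 : Strat := .win 755 7 755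
noncomputable def n229 : Strat := .move 796 n228 (.cons 755 n217 .nil)
noncomputable def n230 : Strat := .move 797 n152 (.cons 715 n155 (.cons 921 n229 .nil))
noncomputable def n231 : Strat := .move 920 n191 (.cons 919 n230 .nil)
noncomputable def n232 : Strat := .move 879 n190 (.cons 841 n200 (.cons 877 n227 (.cons 878 n231 .nil)))
noncomputable def n233 : Strat := .move 882 n188 (.cons 883 n232 .nil)
noncomputable def n234 : Strat := .win 923 0 878
noncomputable def n235 : Strat := .move 798 n214 (.cons 757 n213 .nil)
noncomputable def n236 : Strat := .move 922 n234 (.cons 923 n235 .nil)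
noncomputable def n237 : Strat := .move 878 n189 (.cons 877 n236 .nil)
noncomputable def n238 : Strat := .win 922 6 757
noncomputable def n239 : Strat := .move 757 n61 (.cons 716 n238 .nil)
noncomputable def n240 : Strat := .move 920 n192 (.cons 757 n63 .nil)
noncomputable def n241 : Strat := .win 797 7 797
noncomputable def n242 : Strat := .win 1003 3 839
noncomputable def n243 : Strat := .move 962 n241 (.cons 797 n242 .nil)
noncomputable def n244 : Strat := .move 797 n153 (.cons 756 n220 .nil)
noncomputable def n245 : Strat := .win 920 1 797
noncomputable def n246 : Strat := .win 1002 1 838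
noncomputable def n247 : Strat := .move 962 n246 (.cons 1002 n242 .nil)
noncomputable def n248 : Strat := .move 961 n245 (.cons 920 n247 .nil)
noncomputable def n249 : Strat := .move 797 n153 (.cons 756 n218 .nil)
noncomputable def n250 : Strat := .move 921 n243 (.cons 1003 n244 (.cons 797 n248 (.cons 962 n249 .nil)))
noncomputable def n251 : Strat := .move 798 n239 (.cons 716 n240 (.cons 757 n250 .nil))
noncomputable def n252 : Strat := .move 879 n227 (.cons 841 n237 (.cons 878 n251 .nil))
noncomputable def n253 : Strat := .move 880 n196 (.cons 841 n202 (.cons 879 n225 (.cons 798 n233 (.cons 882 n252 .nil))))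
noncomputable def n254 : Strat := .move 881 n174 (.cons 882 n183 (.cons 841 n187 (.cons 837 n253 .nil)))
noncomputable def n255 : Strat := .win 837 5 796
noncomputable def n256 : Strat := .move 800 n255 (.cons 837 n41 .nil)
noncomputable def n257 : Strat := .move 758 n136 (.cons 717 n135 .nil)
noncomputable def n258 : Strat := .move 882 n27 (.cons 883 n257 .nil)
noncomputable def n259 : Strat := .move 800 n41 (.cons 801 n258 .nil)
noncomputable def n260 : Strat := .move 837 n9 (.cons 800 n29 .nil)
noncomputable def n261 : Strat := .move 837 n0 (.cons 795 n4 .nil)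
noncomputable def n262 : Strat := .move 796 n1 (.cons 797 n261 .nil)
noncomputable def n263 : Strat := .move 841 n256 (.cons 837 n259 (.cons 801 n260 (.cons 800 n262 .nil)))
noncomputable def n264 : Strat := .win 836 5 795
noncomputable def n265 : Strat := .win 841 0 796
noncomputable def n266 : Strat := .win 754 2 754
noncomputable def n267 : Strat := .win 673 6 673
noncomputable def n268 : Strat := .win 879 6 714
noncomputable def n269 : Strat := .move 714 n267 (.cons 673 n268 .nil)
noncomputable def n270 : Strat := .move 755 n266 (.cons 754 n269 .nil)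
noncomputable def n271 : Strat := .move 797 n265 (.cons 841 n270 .nil)
noncomputable def n272 : Strat := .move 796 n0 (.cons 795 n271 .nil)
noncomputable def n273 : Strat := .move 798 n264 (.cons 836 n272 .nil)
noncomputable def n274 : Strat := .move 878 n2 (.cons 877 n93 .nil)
noncomputable def n275 : Strat := .move 797 n217 (.cons 841 n274 .nil)
noncomputable def n276 : Strat := .move 796 n0 (.cons 795 n275 .nil)
noncomputable def n277 : Strat := .move 837 n273 (.cons 836 n276 (.cons 841 n86 .nil))
noncomputable def n278 : Strat := .win 798 4 797
noncomputable def n279 : Strat := .win 802 4 798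
noncomputable def n280 : Strat := .move 801 n278 (.cons 798 n279 .nil)
noncomputable def n281 : Strat := .move 800 n255 (.cons 837 n280 .nil)
noncomputable def n282 : Strat := .win 801 4 797
noncomputable def n283 : Strat := .move 796 n265 (.cons 841 n216 .nil)
noncomputable def n284 : Strat := .win 755 2 755
noncomputable def n285 : Strat := .win 880 6 715
noncomputable def n286 : Strat := .win 674 6 674
noncomputable def n287 : Strat := .move 715 n285 (.cons 880 n286 .nil)
noncomputable def n288 : Strat := .move 756 n284 (.cons 755 n287 .nil)
noncomputable def n289 : Strat := .move 797 n283 (.cons 841 n288 .nil)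
noncomputable def n290 : Strat := .move 800 n282 (.cons 801 n289 .nil)
noncomputable def n291 : Strat := .win 921 7 756
noncomputable def n292 : Strat := .move 880 n291 (.cons 921 n58 .nil)
noncomputable def n293 : Strat := .move 756 n284 (.cons 755 n292 .nil)
noncomputable def n294 : Strat := .win 758 5 755
noncomputable def n295 : Strat := .win 760 5 756
noncomputable def n296 : Strat := .move 759 n294 (.cons 758 n295 .nil)
noncomputable def n297 : Strat := .move 796 n216 (.cons 795 n296 .nil)
noncomputable def n298 : Strat := .move 797 n288 (.cons 674 n293 (.cons 756 n297 .nil))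
noncomputable def n299 : Strat := .move 800 n282 (.cons 801 n298 .nil)
noncomputable def n300 : Strat := .win 880 1 716
noncomputable def n301 : Strat := .win 676 1 675
noncomputable def n302 : Strat := .move 717 n300 (.cons 880 n301 .nil)
noncomputable def n303 : Strat := .win 882 6 717
noncomputable def n304 : Strat := .move 841 n303 (.cons 882 n15 .nil)
noncomputable def n305 : Strat := .win 675 7 675
noncomputable def n306 : Strat := .win 757 1 715
noncomputable def n307 : Strat := .move 716 n305 (.cons 675 n306 .nil)
noncomputable def n308 : Strat := .move 879 n304 (.cons 878 n307 .nil)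
noncomputable def n309 : Strat := .move 717 n301 (.cons 676 n308 .nil)
noncomputable def n310 : Strat := .win 717 1 716
noncomputable def n311 : Strat := .win 921 3 757
noncomputable def n312 : Strat := .move 880 n310 (.cons 717 n311 .nil)
noncomputable def n313 : Strat := .win 675 6 675
noncomputable def n314 : Strat := .win 879 1 715
noncomputable def n315 : Strat := .move 716 n313 (.cons 675 n314 .nil)
noncomputable def n316 : Strat := .win 715 7 715
noncomputable def n317 : Strat := .win 755 0 755
noncomputable def n318 : Strat := .move 756 n316 (.cons 715 n317 .nil)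
noncomputable def n319 : Strat := .move 757 n315 (.cons 879 n318 .nil)
noncomputable def n320 : Strat := .move 880 n311 (.cons 921 n319 .nil)
noncomputable def n321 : Strat := .move 758 n302 (.cons 880 n309 (.cons 676 n312 (.cons 717 n320 .nil)))
noncomputable def n322 : Strat := .move 800 n282 (.cons 801 n321 .nil)
noncomputable def n323 : Strat := .win 756 2 755
noncomputable def n324 : Strat := .move 755 n266 (.cons 754 n323 .nil)
noncomputable def n325 : Strat := .move 796 n216 (.cons 795 n324 .nil)
noncomputable def n326 : Strat := .win 796 0 796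
noncomputable def n327 : Strat := .move 920 n64 (.cons 757 n63 .nil)
noncomputable def n328 : Strat := .move 879 n15 (.cons 878 n327 .nil)
noncomputable def n329 : Strat := .move 841 n326 (.cons 796 n328 .nil)
noncomputable def n330 : Strat := .win 919 1 755
noncomputable def n331 : Strat := .move 878 n330 (.cons 919 n176 .nil)
noncomputable def n332 : Strat := .move 879 n327 (.cons 961 n62 (.cons 757 n331 .nil))
noncomputable def n333 : Strat := .move 756 n284 (.cons 755 n332 .nil)
noncomputable def n334 : Strat := .move 797 n283 (.cons 841 n325 (.cons 795 n329 (.cons 796 n333 .nil)))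
noncomputable def n335 : Strat := .move 800 n282 (.cons 801 n334 .nil)
noncomputable def n336 : Strat := .win 758 3 757
noncomputable def n337 : Strat := .win 962 3 798
noncomputable def n338 : Strat := .move 921 n336 (.cons 758 n337 .nil)
noncomputable def n339 : Strat := .move 758 n311 (.cons 921 n310 .nil)
noncomputable def n340 : Strat := .move 921 n219 (.cons 756 n337 .nil)
noncomputable def n341 : Strat := .win 920 1 756
noncomputable def n342 : Strat := .move 757 n341 (.cons 920 n61 .nil)
noncomputable def n343 : Strat := .move 878 n189 (.cons 877 n176 .nil)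
noncomputable def n344 : Strat := .move 879 n240 (.cons 961 n342 (.cons 757 n343 .nil))
noncomputable def n345 : Strat := .move 880 n338 (.cons 962 n339 (.cons 758 n340 (.cons 921 n344 .nil)))
noncomputable def n346 : Strat := .win 759 5 755
noncomputable def n347 : Strat := .move 796 n346 (.cons 759 n216 .nil)
noncomputable def n348 : Strat := .move 758 n310 (.cons 717 n347 .nil)
noncomputable def n349 : Strat := .move 880 n338 (.cons 962 n339 (.cons 758 n340 (.cons 921 n348 .nil)))
noncomputable def n350 : Strat := .move 797 n283 (.cons 795 n329 (.cons 796 n345 (.cons 841 n349 .nil)))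
noncomputable def n351 : Strat := .move 800 n282 (.cons 801 n350 .nil)
noncomputable def n352 : Strat := .move 717 n301 (.cons 676 n300 .nil)
noncomputable def n353 : Strat := .move 758 n346 (.cons 759 n352 .nil)
noncomputable def n354 : Strat := .move 796 n216 (.cons 795 n353 .nil)
noncomputable def n355 : Strat := .move 921 n337 (.cons 962 n336 .nil)
noncomputable def n356 : Strat := .move 756 n58 (.cons 715 n291 .nil)
noncomputable def n357 : Strat := .win 675 1 674
noncomputable def n358 : Strat := .move 716 n357 (.cons 675 n314 .nil)
noncomputable def n359 : Strat := .win 756 6 715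
noncomputable def n360 : Strat := .win 674 7 674
noncomputable def n361 : Strat := .move 716 n360 (.cons 674 n357 .nil)
noncomputable def n362 : Strat := .move 715 n359 (.cons 756 n361 .nil)
noncomputable def n363 : Strat := .move 879 n341 (.cons 920 n61 .nil)
noncomputable def n364 : Strat := .move 879 n341 (.cons 920 n343 .nil)
noncomputable def n365 : Strat := .move 757 n358 (.cons 879 n362 (.cons 675 n363 (.cons 716 n364 .nil)))
noncomputable def n366 : Strat := .move 880 n355 (.cons 962 n356 (.cons 921 n365 .nil))
noncomputable def n367 : Strat := .move 797 n329 (.cons 841 n354 (.cons 796 n366 .nil))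
noncomputable def n368 : Strat := .move 879 n342 (.cons 716 n240 (.cons 920 n343 .nil))
noncomputable def n369 : Strat := .move 880 n311 (.cons 921 n368 .nil)
noncomputable def n370 : Strat := .move 758 n302 (.cons 676 n312 (.cons 717 n369 (.cons 880 n309 .nil)))
noncomputable def n371 : Strat := .move 800 n282 (.cons 801 n370 .nil)
noncomputable def n372 : Strat := .move 798 n290 (.cons 841 n299 (.cons 797 n322 (.cons 880 n335 (.cons 755 n351 (.cons 800 n367 (.cons 756 n371 .nil))))))
noncomputable def n373 : Strat := .move 799 n263 (.cons 800 n277 (.cons 841 n281 (.cons 837 n372 .nil)))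
noncomputable def n374 : Strat := .move 799 n255 (.cons 837 n258 .nil)
noncomputable def n375 : Strat := .move 800 n41 (.cons 801 n374 .nil)
noncomputable def n376 : Strat := .move 837 n28 (.cons 881 n4 .nil)
noncomputable def n377 : Strat := .move 882 n27 (.cons 883 n376 .nil)
noncomputable def n378 : Strat := .move 841 n48 (.cons 881 n375 (.cons 801 n377 (.cons 883 n44 (.cons 837 n132 .nil))))
noncomputable def n379 : Strat := .move 922 n122 (.cons 759 n167 .nil)
noncomputable def n380 : Strat := .move 800 n41 (.cons 801 n379 .nil)
noncomputable def n381 : Strat := .move 881 n165 (.cons 837 n380 .nil)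
noncomputable def n382 : Strat := .move 882 n27 (.cons 883 n381 .nil)
noncomputable def n383 : Strat := .move 837 n42 (.cons 799 n29 .nil)
noncomputable def n384 : Strat := .move 800 n41 (.cons 801 n383 .nil)
noncomputable def n385 : Strat := .move 841 n53 (.cons 799 n382 (.cons 883 n384 (.cons 801 n31 (.cons 837 n145 .nil))))
noncomputable def n386 : Strat := .win 961 7 796
noncomputable def n387 : Strat := .win 755 6 755
noncomputable def n388 : Strat := .move 920 n386 (.cons 961 n387 .nil)
noncomputable def n389 : Strat := .move 879 n176 (.cons 841 n388 .nil)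
noncomputable def n390 : Strat := .move 878 n2 (.cons 877 n389 .nil)
noncomputable def n391 : Strat := .move 796 n0 (.cons 795 n390 .nil)
noncomputable def n392 : Strat := .move 881 n7 (.cons 882 n182 .nil)
noncomputable def n393 : Strat := .win 798 5 794
noncomputable def n394 : Strat := .win 834 5 793
noncomputable def n395 : Strat := .move 835 n393 (.cons 798 n394 .nil)
noncomputable def n396 : Strat := .move 836 n8 (.cons 880 n395 .nil)
noncomputable def n397 : Strat := .move 881 n7 (.cons 882 n396 .nil)
noncomputable def n398 : Strat := .move 797 n217 (.cons 841 n397 .nil)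
noncomputable def n399 : Strat := .move 796 n0 (.cons 795 n398 .nil)
noncomputable def n400 : Strat := .move 837 n391 (.cons 796 n392 (.cons 877 n399 .nil))
noncomputable def n401 : Strat := .move 756 n92 (.cons 715 n91 .nil)
noncomputable def n402 : Strat := .move 797 n217 (.cons 841 n401 .nil)
noncomputable def n403 : Strat := .move 796 n0 (.cons 795 n402 .nil)
noncomputable def n404 : Strat := .move 878 n2 (.cons 877 n403 .nil)
noncomputable def n405 : Strat := .move 836 n10 (.cons 798 n80 .nil)
noncomputable def n406 : Strat := .move 799 n9 (.cons 800 n405 .nil)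
noncomputable def n407 : Strat := .win 880 0 835
noncomputable def n408 : Strat := .win 834 0 834
noncomputable def n409 : Strat := .move 835 n407 (.cons 880 n408 .nil)
noncomputable def n410 : Strat := .move 836 n10 (.cons 798 n409 .nil)
noncomputable def n411 : Strat := .move 799 n9 (.cons 800 n410 .nil)
noncomputable def n412 : Strat := .move 879 n176 (.cons 841 n411 .nil)
noncomputable def n413 : Strat := .move 878 n2 (.cons 877 n412 .nil)
noncomputable def n414 : Strat := .move 837 n404 (.cons 878 n406 (.cons 795 n413 .nil))
noncomputable def n415 : Strat := .move 838 n110 (.cons 837 n164 (.cons 799 n254 (.cons 881 n373 (.cons 796 n378 (.cons 878 n385 (.cons 800 n400 (.cons 882 n414 (.cons 841 n105 .nil))))))))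
noncomputable def n416 : Strat := .move 838 n48 (.cons 800 n26 (.cons 882 n50 .nil))
noncomputable def n417 : Strat := .win 838 5 797
noncomputable def n418 : Strat := .win 718 6 718
noncomputable def n419 : Strat := .win 924 7 759
noncomputable def n420 : Strat := .move 759 n418 (.cons 718 n419 .nil)
noncomputable def n421 : Strat := .move 800 n417 (.cons 838 n420 .nil)
noncomputable def n422 : Strat := .move 883 n23 (.cons 884 n421 .nil)
noncomputable def n423 : Strat := .move 801 n37 (.cons 802 n422 .nil)
noncomputable def n424 : Strat := .win 879 4 838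
noncomputable def n425 : Strat := .win 797 2 797
noncomputable def n426 : Strat := .win 799 2 798
noncomputable def n427 : Strat := .win 881 4 839
noncomputable def n428 : Strat := .move 843 n426 (.cons 799 n427 .nil)
noncomputable def n429 : Strat := .move 798 n425 (.cons 797 n428 .nil)
noncomputable def n430 : Strat := .move 880 n424 (.cons 879 n429 .nil)
noncomputable def n431 : Strat := .move 842 n423 (.cons 838 n430 .nil)
noncomputable def n432 : Strat := .move 838 n48 (.cons 881 n375 (.cons 801 n377 (.cons 883 n44 (.cons 837 n132 .nil))))
noncomputable def n433 : Strat := .win 843 4 839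
noncomputable def n434 : Strat := .win 966 6 801
noncomputable def n435 : Strat := .win 882 0 880
noncomputable def n436 : Strat := .move 925 n434 (.cons 966 n435 .nil)
noncomputable def n437 : Strat := .win 759 7 759
noncomputable def n438 : Strat := .win 965 7 800
noncomputable def n439 : Strat := .move 800 n437 (.cons 759 n438 .nil)
noncomputable def n440 : Strat := .move 924 n436 (.cons 882 n439 .nil)
noncomputable def n441 : Strat := .move 801 n37 (.cons 802 n440 .nil)
noncomputable def n442 : Strat := .move 883 n23 (.cons 884 n441 .nil)
noncomputable def n443 : Strat := .move 881 n433 (.cons 843 n442 .nil)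
noncomputable def n444 : Strat := .move 880 n424 (.cons 879 n443 .nil)
noncomputable def n445 : Strat := .win 883 0 839
noncomputable def n446 : Strat := .win 885 0 840
noncomputable def n447 : Strat := .move 884 n445 (.cons 883 n446 .nil)
noncomputable def n448 : Strat := .move 843 n426 (.cons 799 n447 .nil)
noncomputable def n449 : Strat := .move 798 n425 (.cons 797 n448 .nil)
noncomputable def n450 : Strat := .move 800 n438 (.cons 965 n437 .nil)
noncomputable def n451 : Strat := .win 800 7 800
noncomputable def n452 : Strat := .win 1005 1 841
noncomputable def n453 : Strat := .win 923 1 800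
noncomputable def n454 : Strat := .move 964 n452 (.cons 1005 n453 .nil)
noncomputable def n455 : Strat := .move 965 n451 (.cons 800 n454 .nil)
noncomputable def n456 : Strat := .win 923 1 759
noncomputable def n457 : Strat := .win 719 1 718
noncomputable def n458 : Strat := .move 760 n456 (.cons 923 n457 .nil)
noncomputable def n459 : Strat := .win 760 1 759
noncomputable def n460 : Strat := .win 964 1 800
noncomputable def n461 : Strat := .move 923 n459 (.cons 760 n460 .nil)
noncomputable def n462 : Strat := .win 881 0 880
noncomputable def n463 : Strat := .move 925 n462 (.cons 881 n434 .nil)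
noncomputable def n464 : Strat := .move 882 n458 (.cons 719 n461 (.cons 923 n463 .nil))
noncomputable def n465 : Strat := .move 924 n450 (.cons 759 n455 (.cons 965 n464 .nil))
noncomputable def n466 : Strat := .move 880 n424 (.cons 879 n465 .nil)
noncomputable def n467 : Strat := .move 883 n23 (.cons 884 n466 .nil)
noncomputable def n468 : Strat := .move 801 n37 (.cons 802 n467 .nil)
noncomputable def n469 : Strat := .move 842 n430 (.cons 798 n444 (.cons 879 n449 (.cons 843 n468 .nil)))
noncomputable def n470 : Strat := .win 838 0 838
noncomputable def n471 : Strat := .win 964 3 800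
noncomputable def n472 : Strat := .move 923 n459 (.cons 760 n471 .nil)
noncomputable def n473 : Strat := .move 801 n37 (.cons 802 n472 .nil)
noncomputable def n474 : Strat := .move 882 n470 (.cons 838 n473 .nil)
noncomputable def n475 : Strat := .move 883 n23 (.cons 884 n474 .nil)
noncomputable def n476 : Strat := .move 842 n430 (.cons 843 n475 .nil)
noncomputable def n477 : Strat := .move 838 n22 (.cons 882 n36 .nil)
noncomputable def n478 : Strat := .move 883 n23 (.cons 884 n477 .nil)
noncomputable def n479 : Strat := .move 801 n37 (.cons 802 n478 .nil)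
noncomputable def n480 : Strat := .win 843 2 798
noncomputable def n481 : Strat := .win 838 4 797
noncomputable def n482 : Strat := .move 880 n424 (.cons 879 n339 .nil)
noncomputable def n483 : Strat := .move 800 n481 (.cons 838 n482 .nil)
noncomputable def n484 : Strat := .move 799 n480 (.cons 843 n483 .nil)
noncomputable def n485 : Strat := .move 798 n425 (.cons 797 n484 .nil)
noncomputable def n486 : Strat := .move 801 n37 (.cons 802 n485 .nil)
noncomputable def n487 : Strat := .move 838 n22 (.cons 882 n33 .nil)
noncomputable def n488 : Strat := .move 883 n23 (.cons 884 n487 .nil)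
noncomputable def n489 : Strat := .move 799 n480 (.cons 843 n482 .nil)
noncomputable def n490 : Strat := .move 798 n425 (.cons 797 n489 .nil)
noncomputable def n491 : Strat := .move 883 n23 (.cons 884 n490 .nil)
noncomputable def n492 : Strat := .move 801 n37 (.cons 802 n491 .nil)
noncomputable def n493 : Strat := .move 842 n479 (.cons 882 n486 (.cons 802 n488 (.cons 838 n492 .nil)))
noncomputable def n494 : Strat := .move 922 n213 (.cons 963 n214 .nil)
noncomputable def n495 : Strat := .move 881 n433 (.cons 843 n494 .nil)
noncomputable def n496 : Strat := .move 880 n424 (.cons 879 n495 .nil)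
noncomputable def n497 : Strat := .move 798 n425 (.cons 797 n496 .nil)
noncomputable def n498 : Strat := .move 801 n37 (.cons 802 n477 .nil)
noncomputable def n499 : Strat := .move 883 n23 (.cons 884 n498 .nil)
noncomputable def n500 : Strat := .move 842 n497 (.cons 880 n499 .nil)
noncomputable def n501 : Strat := .move 922 n214 (.cons 757 n213 .nil)
noncomputable def n502 : Strat := .move 798 n425 (.cons 797 n501 .nil)
noncomputable def n503 : Strat := .move 881 n433 (.cons 843 n502 .nil)
noncomputable def n504 : Strat := .move 880 n424 (.cons 879 n503 .nil)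
noncomputable def n505 : Strat := .move 798 n425 (.cons 797 n426 .nil)
noncomputable def n506 : Strat := .move 843 n427 (.cons 881 n505 .nil)
noncomputable def n507 : Strat := .move 880 n424 (.cons 879 n506 .nil)
noncomputable def n508 : Strat := .move 837 n9 (.cons 800 n264 .nil)
noncomputable def n509 : Strat := .move 799 n480 (.cons 843 n508 .nil)
noncomputable def n510 : Strat := .move 838 n22 (.cons 882 n509 .nil)
noncomputable def n511 : Strat := .move 798 n425 (.cons 797 n510 .nil)
noncomputable def n512 : Strat := .move 883 n23 (.cons 884 n511 .nil)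
noncomputable def n513 : Strat := .win 920 4 879
noncomputable def n514 : Strat := .win 758 1 757
noncomputable def n515 : Strat := .move 799 n514 (.cons 758 n337 .nil)
noncomputable def n516 : Strat := .move 921 n513 (.cons 920 n515 .nil)
noncomputable def n517 : Strat := .move 882 n470 (.cons 838 n516 .nil)
noncomputable def n518 : Strat := .move 883 n23 (.cons 884 n517 .nil)
noncomputable def n519 : Strat := .move 881 n433 (.cons 843 n518 .nil)
noncomputable def n520 : Strat := .move 880 n424 (.cons 879 n519 .nil)
noncomputable def n521 : Strat := .win 961 1 797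
noncomputable def n522 : Strat := .win 881 4 879
noncomputable def n523 : Strat := .move 920 n521 (.cons 961 n522 .nil)
noncomputable def n524 : Strat := .move 799 n336 (.cons 758 n337 .nil)
noncomputable def n525 : Strat := .move 921 n523 (.cons 881 n524 .nil)
noncomputable def n526 : Strat := .move 798 n425 (.cons 797 n525 .nil)
noncomputable def n527 : Strat := .move 880 n424 (.cons 879 n526 .nil)
noncomputable def n528 : Strat := .move 882 n470 (.cons 838 n527 .nil)
noncomputable def n529 : Strat := .move 883 n23 (.cons 884 n528 .nil)
noncomputable def n530 : Strat := .move 842 n504 (.cons 922 n507 (.cons 880 n512 (.cons 798 n520 (.cons 843 n529 .nil))))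
noncomputable def n531 : Strat := .win 756 2 756
noncomputable def n532 : Strat := .win 881 6 716
noncomputable def n533 : Strat := .move 716 n313 (.cons 675 n532 .nil)
noncomputable def n534 : Strat := .move 757 n531 (.cons 756 n533 .nil)
noncomputable def n535 : Strat := .move 800 n481 (.cons 838 n534 .nil)
noncomputable def n536 : Strat := .move 799 n480 (.cons 843 n535 .nil)
noncomputable def n537 : Strat := .move 798 n425 (.cons 797 n536 .nil)
noncomputable def n538 : Strat := .move 801 n37 (.cons 802 n537 .nil)
noncomputable def n539 : Strat := .move 842 n423 (.cons 838 n449 (.cons 883 n538 .nil))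
noncomputable def n540 : Strat := .move 758 n310 (.cons 717 n311 .nil)
noncomputable def n541 : Strat := .move 799 n480 (.cons 843 n540 .nil)
noncomputable def n542 : Strat := .move 798 n425 (.cons 797 n541 .nil)
noncomputable def n543 : Strat := .move 880 n424 (.cons 879 n542 .nil)
noncomputable def n544 : Strat := .win 716 6 716
noncomputable def n545 : Strat := .move 881 n238 (.cons 922 n544 .nil)
noncomputable def n546 : Strat := .win 799 2 756
noncomputable def n547 : Strat := .move 756 n316 (.cons 715 n546 .nil)
noncomputable def n548 : Strat := .move 757 n545 (.cons 716 n547 .nil)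
noncomputable def n549 : Strat := .move 880 n424 (.cons 879 n548 .nil)
noncomputable def n550 : Strat := .move 798 n425 (.cons 797 n549 .nil)
noncomputable def n551 : Strat := .move 800 n417 (.cons 838 n550 .nil)
noncomputable def n552 : Strat := .move 801 n37 (.cons 802 n551 .nil)
noncomputable def n553 : Strat := .move 963 n209 (.cons 800 n203 .nil)
noncomputable def n554 : Strat := .win 921 1 757
noncomputable def n555 : Strat := .move 758 n554 (.cons 921 n310 .nil)
noncomputable def n556 : Strat := .win 962 1 798
noncomputable def n557 : Strat := .move 921 n514 (.cons 758 n556 .nil)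
noncomputable def n558 : Strat := .win 798 6 757
noncomputable def n559 : Strat := .win 716 7 716
noncomputable def n560 : Strat := .move 758 n559 (.cons 716 n310 .nil)
noncomputable def n561 : Strat := .move 757 n558 (.cons 798 n560 .nil)
noncomputable def n562 : Strat := .win 759 3 758
noncomputable def n563 : Strat := .move 801 n279 (.cons 802 n417 .nil)
noncomputable def n564 : Strat := .move 800 n562 (.cons 759 n563 .nil)
noncomputable def n565 : Strat := .move 799 n555 (.cons 717 n557 (.cons 921 n561 (.cons 758 n564 .nil)))
noncomputable def n566 : Strat := .move 963 n209 (.cons 800 n204 .nil)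
noncomputable def n567 : Strat := .move 922 n553 (.cons 800 n205 (.cons 963 n565 (.cons 798 n566 .nil)))
noncomputable def n568 : Strat := .move 881 n433 (.cons 843 n567 .nil)
noncomputable def n569 : Strat := .move 880 n424 (.cons 879 n568 .nil)
noncomputable def n570 : Strat := .win 882 1 758
noncomputable def n571 : Strat := .move 922 n570 (.cons 882 n167 .nil)
noncomputable def n572 : Strat := .move 759 n120 (.cons 718 n571 .nil)
noncomputable def n573 : Strat := .move 800 n417 (.cons 838 n572 .nil)
noncomputable def n574 : Strat := .move 881 n433 (.cons 843 n573 .nil)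
noncomputable def n575 : Strat := .move 801 n37 (.cons 802 n574 .nil)
noncomputable def n576 : Strat := .move 880 n424 (.cons 879 n575 .nil)
noncomputable def n577 : Strat := .move 842 n543 (.cons 879 n538 (.cons 843 n552 (.cons 797 n569 (.cons 798 n576 .nil))))
noncomputable def n578 : Strat := .move 841 n416 (.cons 837 n431 (.cons 842 n432 (.cons 838 n469 (.cons 800 n476 (.cons 881 n493 (.cons 799 n500 (.cons 801 n530 (.cons 879 n539 (.cons 883 n577 .nil)))))))))
noncomputable def n579 : Strat := .move 838 n53 (.cons 882 n40 (.cons 800 n55 .nil))
noncomputable def n580 : Strat := .move 882 n470 (.cons 838 n472 .nil)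
noncomputable def n581 : Strat := .move 801 n37 (.cons 802 n580 .nil)
noncomputable def n582 : Strat := .move 883 n23 (.cons 884 n581 .nil)
noncomputable def n583 : Strat := .move 880 n424 (.cons 879 n428 .nil)
noncomputable def n584 : Strat := .move 798 n425 (.cons 797 n583 .nil)
noncomputable def n585 : Strat := .move 842 n582 (.cons 838 n584 .nil)
noncomputable def n586 : Strat := .move 838 n53 (.cons 799 n382 (.cons 883 n384 (.cons 801 n31 (.cons 837 n145 .nil))))
noncomputable def n587 : Strat := .move 882 n456 (.cons 923 n457 .nil)
noncomputable def n588 : Strat := .win 720 3 719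
noncomputable def n589 : Strat := .win 800 5 757
noncomputable def n590 : Strat := .move 761 n588 (.cons 720 n589 .nil)
noncomputable def n591 : Strat := .move 760 n587 (.cons 719 n590 .nil)
noncomputable def n592 : Strat := .move 883 n23 (.cons 884 n591 .nil)
noncomputable def n593 : Strat := .move 801 n37 (.cons 802 n592 .nil)
noncomputable def n594 : Strat := .move 799 n480 (.cons 843 n593 .nil)
noncomputable def n595 : Strat := .move 798 n425 (.cons 797 n594 .nil)
noncomputable def n596 : Strat := .win 801 5 798
noncomputable def n597 : Strat := .win 803 5 799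
noncomputable def n598 : Strat := .move 802 n596 (.cons 801 n597 .nil)
noncomputable def n599 : Strat := .move 843 n427 (.cons 881 n598 .nil)
noncomputable def n600 : Strat := .move 880 n424 (.cons 879 n599 .nil)
noncomputable def n601 : Strat := .move 924 n437 (.cons 759 n438 .nil)
noncomputable def n602 : Strat := .move 759 n419 (.cons 924 n418 .nil)
noncomputable def n603 : Strat := .win 799 5 757
noncomputable def n604 : Strat := .move 761 n603 (.cons 799 n588 .nil)
noncomputable def n605 : Strat := .move 800 n601 (.cons 965 n602 (.cons 759 n604 .nil))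
noncomputable def n606 : Strat := .move 760 n587 (.cons 719 n605 .nil)
noncomputable def n607 : Strat := .move 798 n425 (.cons 797 n606 .nil)
noncomputable def n608 : Strat := .move 801 n37 (.cons 802 n607 .nil)
noncomputable def n609 : Strat := .move 883 n23 (.cons 884 n608 .nil)
noncomputable def n610 : Strat := .move 842 n584 (.cons 880 n595 (.cons 797 n600 (.cons 843 n609 .nil)))
noncomputable def n611 : Strat := .move 883 n23 (.cons 884 n420 .nil)
noncomputable def n612 : Strat := .move 800 n417 (.cons 838 n611 .nil)
noncomputable def n613 : Strat := .move 801 n37 (.cons 802 n612 .nil)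
noncomputable def n614 : Strat := .move 842 n584 (.cons 843 n613 .nil)
noncomputable def n615 : Strat := .move 757 n238 (.cons 922 n544 .nil)
noncomputable def n616 : Strat := .move 798 n425 (.cons 797 n615 .nil)
noncomputable def n617 : Strat := .move 882 n470 (.cons 838 n616 .nil)
noncomputable def n618 : Strat := .move 881 n433 (.cons 843 n617 .nil)
noncomputable def n619 : Strat := .move 880 n424 (.cons 879 n618 .nil)
noncomputable def n620 : Strat := .move 883 n23 (.cons 884 n619 .nil)
noncomputable def n621 : Strat := .move 838 n36 (.cons 800 n19 .nil)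
noncomputable def n622 : Strat := .move 801 n37 (.cons 802 n621 .nil)
noncomputable def n623 : Strat := .move 881 n433 (.cons 843 n616 .nil)
noncomputable def n624 : Strat := .move 880 n424 (.cons 879 n623 .nil)
noncomputable def n625 : Strat := .move 801 n37 (.cons 802 n624 .nil)
noncomputable def n626 : Strat := .move 883 n23 (.cons 884 n625 .nil)
noncomputable def n627 : Strat := .move 842 n499 (.cons 800 n620 (.cons 884 n622 (.cons 838 n626 .nil)))
noncomputable def n628 : Strat := .move 842 n543 (.cons 798 n479 .nil)
noncomputable def n629 : Strat := .move 880 n424 (.cons 879 n540 .nil)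
noncomputable def n630 : Strat := .move 799 n480 (.cons 843 n629 .nil)
noncomputable def n631 : Strat := .move 798 n425 (.cons 797 n630 .nil)
noncomputable def n632 : Strat := .move 880 n424 (.cons 879 n427 .nil)
noncomputable def n633 : Strat := .move 843 n426 (.cons 799 n632 .nil)
noncomputable def n634 : Strat := .move 798 n425 (.cons 797 n633 .nil)
noncomputable def n635 : Strat := .move 837 n7 (.cons 882 n175 .nil)
noncomputable def n636 : Strat := .move 881 n433 (.cons 843 n635 .nil)
noncomputable def n637 : Strat := .move 838 n36 (.cons 800 n636 .nil)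
noncomputable def n638 : Strat := .move 880 n424 (.cons 879 n637 .nil)
noncomputable def n639 : Strat := .move 801 n37 (.cons 802 n638 .nil)
noncomputable def n640 : Strat := .move 801 n37 (.cons 802 n535 .nil)
noncomputable def n641 : Strat := .move 799 n480 (.cons 843 n640 .nil)
noncomputable def n642 : Strat := .move 798 n425 (.cons 797 n641 .nil)
noncomputable def n643 : Strat := .move 842 n631 (.cons 758 n634 (.cons 798 n639 (.cons 880 n642 (.cons 843 n552 .nil))))
noncomputable def n644 : Strat := .move 881 n433 (.cons 843 n517 .nil)
noncomputable def n645 : Strat := .move 880 n424 (.cons 879 n644 .nil)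
noncomputable def n646 : Strat := .move 883 n23 (.cons 884 n645 .nil)
noncomputable def n647 : Strat := .move 842 n582 (.cons 838 n600 (.cons 801 n646 .nil))
noncomputable def n648 : Strat := .win 757 7 757
noncomputable def n649 : Strat := .move 922 n648 (.cons 757 n213 .nil)
noncomputable def n650 : Strat := .win 922 7 757
noncomputable def n651 : Strat := .move 757 n650 (.cons 922 n544 .nil)
noncomputable def n652 : Strat := .win 880 1 757
noncomputable def n653 : Strat := .move 922 n556 (.cons 962 n213 .nil)
noncomputable def n654 : Strat := .move 921 n652 (.cons 880 n653 .nil)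
noncomputable def n655 : Strat := .win 923 6 758
noncomputable def n656 : Strat := .move 883 n23 (.cons 884 n470 .nil)
noncomputable def n657 : Strat := .move 882 n655 (.cons 923 n656 .nil)
noncomputable def n658 : Strat := .move 881 n649 (.cons 963 n651 (.cons 757 n654 (.cons 922 n657 .nil)))
noncomputable def n659 : Strat := .move 717 n301 (.cons 676 n303 .nil)
noncomputable def n660 : Strat := .move 758 n352 (.cons 717 n658 (.cons 880 n659 .nil))
noncomputable def n661 : Strat := .move 799 n480 (.cons 843 n660 .nil)
noncomputable def n662 : Strat := .move 798 n425 (.cons 797 n661 .nil)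
noncomputable def n663 : Strat := .win 881 6 758
noncomputable def n664 : Strat := .move 923 n663 (.cons 881 n111 .nil)
noncomputable def n665 : Strat := .move 758 n136 (.cons 717 n664 .nil)
noncomputable def n666 : Strat := .move 882 n470 (.cons 838 n665 .nil)
noncomputable def n667 : Strat := .move 799 n480 (.cons 843 n666 .nil)
noncomputable def n668 : Strat := .move 883 n23 (.cons 884 n667 .nil)
noncomputable def n669 : Strat := .move 798 n425 (.cons 797 n668 .nil)
noncomputable def n670 : Strat := .move 842 n497 (.cons 797 n646 (.cons 843 n529 (.cons 879 n662 (.cons 880 n669 (.cons 881 n631 .nil)))))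
noncomputable def n671 : Strat := .move 841 n579 (.cons 837 n585 (.cons 842 n586 (.cons 838 n610 (.cons 882 n614 (.cons 799 n627 (.cons 881 n628 (.cons 883 n643 (.cons 797 n647 (.cons 801 n670 .nil)))))))))
noncomputable def n672 : Strat := .move 882 n27 (.cons 883 n28 .nil)
noncomputable def n673 : Strat := .move 837 n42 (.cons 799 n672 .nil)
noncomputable def n674 : Strat := .move 800 n41 (.cons 801 n673 .nil)
noncomputable def n675 : Strat := .move 838 n21 (.cons 880 n674 .nil)
noncomputable def n676 : Strat := .move 842 n18 (.cons 798 n16 .nil)
noncomputable def n677 : Strat := .move 797 n17 (.cons 796 n676 .nil)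
noncomputable def n678 : Strat := .move 879 n15 (.cons 878 n677 .nil)
noncomputable def n679 : Strat := .move 796 n1 (.cons 797 n0 .nil)
noncomputable def n680 : Strat := .move 837 n28 (.cons 881 n679 .nil)
noncomputable def n681 : Strat := .move 882 n27 (.cons 883 n680 .nil)
noncomputable def n682 : Strat := .move 838 n26 (.cons 884 n678 (.cons 879 n681 .nil))
noncomputable def n683 : Strat := .move 842 n430 (.cons 798 n444 (.cons 843 n468 (.cons 879 n449 .nil)))
noncomputable def n684 : Strat := .move 837 n42 (.cons 799 n679 .nil)
noncomputable def n685 : Strat := .move 800 n41 (.cons 801 n684 .nil)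
noncomputable def n686 : Strat := .move 838 n674 (.cons 881 n685 (.cons 800 n681 (.cons 837 n132 .nil)))
noncomputable def n687 : Strat := .move 838 n36 (.cons 800 n33 .nil)
noncomputable def n688 : Strat := .move 801 n37 (.cons 802 n687 .nil)
noncomputable def n689 : Strat := .move 842 n584 (.cons 798 n688 (.cons 879 n642 .nil))
noncomputable def n690 : Strat := .move 838 n674 (.cons 800 n681 (.cons 882 n685 (.cons 837 n40 .nil)))
noncomputable def n691 : Strat := .move 800 n41 (.cons 801 n42 .nil)
noncomputable def n692 : Strat := .move 837 n28 (.cons 881 n691 .nil)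
noncomputable def n693 : Strat := .move 882 n27 (.cons 883 n692 .nil)
noncomputable def n694 : Strat := .move 838 n693 (.cons 799 n26 (.cons 882 n50 .nil))
noncomputable def n695 : Strat := .move 800 n41 (.cons 801 n255 .nil)
noncomputable def n696 : Strat := .win 842 2 797
noncomputable def n697 : Strat := .win 800 4 796
noncomputable def n698 : Strat := .move 837 n697 (.cons 800 n264 .nil)
noncomputable def n699 : Strat := .move 798 n696 (.cons 842 n698 .nil)
noncomputable def n700 : Strat := .move 797 n17 (.cons 796 n699 .nil)
noncomputable def n701 : Strat := .move 879 n15 (.cons 878 n62 .nil)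
noncomputable def n702 : Strat := .move 798 n696 (.cons 842 n701 .nil)
noncomputable def n703 : Strat := .move 797 n17 (.cons 796 n702 .nil)
noncomputable def n704 : Strat := .move 799 n695 (.cons 801 n700 (.cons 800 n703 .nil))
noncomputable def n705 : Strat := .move 878 n3 (.cons 879 n2 .nil)
noncomputable def n706 : Strat := .move 837 n42 (.cons 799 n705 .nil)
noncomputable def n707 : Strat := .move 800 n41 (.cons 801 n706 .nil)
noncomputable def n708 : Strat := .move 838 n704 (.cons 842 n685 (.cons 797 n707 (.cons 801 n678 .nil)))
noncomputable def n709 : Strat := .move 841 n675 (.cons 799 n682 (.cons 838 n683 (.cons 842 n686 (.cons 882 n689 (.cons 880 n690 (.cons 797 n694 (.cons 881 n708 .nil)))))))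
noncomputable def n710 : Strat := .move 799 n256 (.cons 801 n260 (.cons 800 n35 .nil))
noncomputable def n711 : Strat := .move 841 n109 (.cons 881 n710 (.cons 837 n50 (.cons 800 n21 .nil)))
noncomputable def n712 : Strat := .win 841 5 797
noncomputable def n713 : Strat := .move 801 n712 (.cons 841 n278 .nil)
noncomputable def n714 : Strat := .move 800 n255 (.cons 837 n713 .nil)
noncomputable def n715 : Strat := .move 882 n27 (.cons 883 n135 .nil)
noncomputable def n716 : Strat := .win 798 0 797
noncomputable def n717 : Strat := .move 883 n23 (.cons 884 n22 .nil)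
noncomputable def n718 : Strat := .move 842 n716 (.cons 798 n717 .nil)
noncomputable def n719 : Strat := .move 797 n17 (.cons 796 n718 .nil)
noncomputable def n720 : Strat := .move 879 n16 (.cons 880 n15 .nil)
noncomputable def n721 : Strat := .move 842 n716 (.cons 798 n720 .nil)
noncomputable def n722 : Strat := .move 797 n17 (.cons 796 n721 .nil)
noncomputable def n723 : Strat := .move 758 n715 (.cons 923 n719 (.cons 882 n722 .nil))
noncomputable def n724 : Strat := .move 800 n41 (.cons 801 n723 .nil)
noncomputable def n725 : Strat := .move 800 n41 (.cons 801 n719 .nil)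
noncomputable def n726 : Strat := .move 841 n259 (.cons 717 n724 (.cons 923 n725 (.cons 800 n35 .nil)))
noncomputable def n727 : Strat := .move 841 n35 (.cons 880 n703 (.cons 797 n26 (.cons 879 n55 (.cons 842 n262 .nil))))
noncomputable def n728 : Strat := .move 841 n41 (.cons 801 n258 .nil)
noncomputable def n729 : Strat := .move 800 n255 (.cons 837 n728 .nil)
noncomputable def n730 : Strat := .move 837 n9 (.cons 800 n86 .nil)
noncomputable def n731 : Strat := .move 799 n714 (.cons 837 n726 (.cons 800 n727 (.cons 798 n729 (.cons 841 n730 .nil))))
noncomputable def n732 : Strat := .move 800 n42 (.cons 799 n41 .nil)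
noncomputable def n733 : Strat := .move 841 n1 (.cons 797 n732 .nil)
noncomputable def n734 : Strat := .move 796 n0 (.cons 795 n733 .nil)
noncomputable def n735 : Strat := .move 841 n1 (.cons 797 n3 .nil)
noncomputable def n736 : Strat := .move 878 n2 (.cons 877 n735 .nil)
noncomputable def n737 : Strat := .move 796 n0 (.cons 795 n736 .nil)
noncomputable def n738 : Strat := .move 837 n77 (.cons 880 n734 (.cons 799 n737 .nil))
noncomputable def n739 : Strat := .move 841 n50 (.cons 802 n21 (.cons 878 n55 (.cons 842 n132 .nil)))
noncomputable def n740 : Strat := .move 837 n28 (.cons 881 n732 .nil)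
noncomputable def n741 : Strat := .move 882 n27 (.cons 883 n740 .nil)
noncomputable def n742 : Strat := .move 841 n741 (.cons 799 n31 (.cons 882 n44 (.cons 837 n50 .nil)))
noncomputable def n743 : Strat := .win 797 0 797
noncomputable def n744 : Strat := .move 798 n480 (.cons 843 n743 .nil)
noncomputable def n745 : Strat := .move 842 n16 (.cons 880 n744 .nil)
noncomputable def n746 : Strat := .move 879 n15 (.cons 878 n745 .nil)
noncomputable def n747 : Strat := .move 799 n255 (.cons 837 n746 .nil)
noncomputable def n748 : Strat := .move 800 n41 (.cons 801 n747 .nil)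
noncomputable def n749 : Strat := .move 841 n48 (.cons 799 n26 (.cons 883 n748 .nil))
noncomputable def n750 : Strat := .move 837 n6 (.cons 797 n392 (.cons 878 n82 .nil))
noncomputable def n751 : Strat := .move 798 n264 (.cons 836 n271 .nil)
noncomputable def n752 : Strat := .move 799 n9 (.cons 800 n751 .nil)
noncomputable def n753 : Strat := .move 796 n0 (.cons 795 n752 .nil)
noncomputable def n754 : Strat := .move 841 n326 (.cons 796 n696 .nil)
noncomputable def n755 : Strat := .move 714 n268 (.cons 879 n267 .nil)
noncomputable def n756 : Strat := .move 755 n266 (.cons 754 n755 .nil)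
noncomputable def n757 : Strat := .move 796 n265 (.cons 841 n756 .nil)
noncomputable def n758 : Strat := .move 716 n532 (.cons 881 n357 .nil)
noncomputable def n759 : Strat := .move 716 n532 (.cons 881 n314 .nil)
noncomputable def n760 : Strat := .win 760 4 756
noncomputable def n761 : Strat := .win 796 5 755
noncomputable def n762 : Strat := .move 759 n760 (.cons 760 n761 .nil)
noncomputable def n763 : Strat := .move 758 n352 (.cons 880 n762 .nil)
noncomputable def n764 : Strat := .move 757 n358 (.cons 879 n758 (.cons 675 n759 (.cons 716 n763 .nil)))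
noncomputable def n765 : Strat := .move 878 n176 (.cons 841 n2 .nil)
noncomputable def n766 : Strat := .move 879 n60 (.cons 920 n765 .nil)
noncomputable def n767 : Strat := .move 757 n358 (.cons 879 n758 (.cons 675 n759 (.cons 716 n766 .nil)))
noncomputable def n768 : Strat := .move 797 n754 (.cons 842 n757 (.cons 841 n764 (.cons 796 n767 .nil)))
noncomputable def n769 : Strat := .move 798 n264 (.cons 836 n768 .nil)
noncomputable def n770 : Strat := .move 799 n9 (.cons 800 n769 .nil)
noncomputable def n771 : Strat := .move 837 n753 (.cons 795 n770 (.cons 797 n87 (.cons 799 n737 .nil)))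
noncomputable def n772 : Strat := .move 882 n27 (.cons 883 n703 .nil)
noncomputable def n773 : Strat := .move 800 n41 (.cons 801 n772 .nil)
noncomputable def n774 : Strat := .move 841 n109 (.cons 799 n31 (.cons 882 n384 (.cons 837 n773 .nil)))
noncomputable def n775 : Strat := .win 842 0 797
noncomputable def n776 : Strat := .win 677 1 676
noncomputable def n777 : Strat := .win 881 1 717
noncomputable def n778 : Strat := .move 718 n776 (.cons 677 n777 .nil)
noncomputable def n779 : Strat := .move 759 n295 (.cons 760 n778 .nil)
noncomputable def n780 : Strat := .move 798 n775 (.cons 842 n779 .nil)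
noncomputable def n781 : Strat := .move 797 n17 (.cons 796 n780 .nil)
noncomputable def n782 : Strat := .move 799 n255 (.cons 837 n781 .nil)
noncomputable def n783 : Strat := .move 800 n41 (.cons 801 n782 .nil)
noncomputable def n784 : Strat := .move 841 n48 (.cons 837 n55 (.cons 882 n783 .nil))
noncomputable def n785 : Strat := .move 880 n554 (.cons 921 n310 .nil)
noncomputable def n786 : Strat := .move 922 n213 (.cons 963 n648 .nil)
noncomputable def n787 : Strat := .win 797 5 755
noncomputable def n788 : Strat := .win 718 3 717
noncomputable def n789 : Strat := .move 759 n787 (.cons 797 n788 .nil)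
noncomputable def n790 : Strat := .move 798 n651 (.cons 716 n786 (.cons 922 n789 .nil))
noncomputable def n791 : Strat := .move 758 n785 (.cons 717 n790 .nil)
noncomputable def n792 : Strat := .move 796 n0 (.cons 795 n791 .nil)
noncomputable def n793 : Strat := .move 881 n7 (.cons 882 n792 .nil)
noncomputable def n794 : Strat := .move 799 n9 (.cons 800 n793 .nil)
noncomputable def n795 : Strat := .move 837 n77 (.cons 799 n82 (.cons 880 n406 (.cons 836 n794 .nil)))
noncomputable def n796 : Strat := .move 841 n3 (.cons 879 n732 .nil)
noncomputable def n797 : Strat := .move 878 n2 (.cons 877 n796 .nil)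
noncomputable def n798 : Strat := .move 837 n13 (.cons 882 n87 (.cons 800 n392 (.cons 836 n797 .nil)))
noncomputable def n799 : Strat := .move 838 n711 (.cons 881 n731 (.cons 842 n738 (.cons 837 n739 (.cons 798 n742 (.cons 796 n749 (.cons 800 n750 (.cons 882 n771 (.cons 880 n774 (.cons 878 n784 (.cons 841 n795 (.cons 797 n798 .nil)))))))))))
noncomputable def n800 : Strat := .move 881 n166 (.cons 883 n171 (.cons 882 n21 .nil))
noncomputable def n801 : Strat := .move 841 n741 (.cons 799 n800 (.cons 837 n55 (.cons 882 n35 .nil)))
noncomputable def n802 : Strat := .win 841 0 838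
noncomputable def n803 : Strat := .move 883 n802 (.cons 841 n184 .nil)
noncomputable def n804 : Strat := .move 882 n165 (.cons 837 n803 .nil)
noncomputable def n805 : Strat := .move 800 n41 (.cons 801 n122 .nil)
noncomputable def n806 : Strat := .move 797 n18 (.cons 798 n17 .nil)
noncomputable def n807 : Strat := .move 842 n16 (.cons 880 n806 .nil)
noncomputable def n808 : Strat := .move 879 n15 (.cons 878 n807 .nil)
noncomputable def n809 : Strat := .move 922 n805 (.cons 759 n808 .nil)
noncomputable def n810 : Strat := .move 882 n27 (.cons 883 n809 .nil)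
noncomputable def n811 : Strat := .move 882 n27 (.cons 883 n808 .nil)
noncomputable def n812 : Strat := .move 841 n170 (.cons 963 n810 (.cons 759 n811 (.cons 882 n21 .nil)))
noncomputable def n813 : Strat := .win 842 4 838
noncomputable def n814 : Strat := .move 880 n813 (.cons 842 n226 .nil)
noncomputable def n815 : Strat := .move 879 n15 (.cons 878 n814 .nil)
noncomputable def n816 : Strat := .move 841 n21 (.cons 798 n815 (.cons 879 n40 (.cons 797 n50 (.cons 842 n173 .nil))))
noncomputable def n817 : Strat := .move 841 n27 (.cons 883 n380 .nil)
noncomputable def n818 : Strat := .move 882 n165 (.cons 837 n817 .nil)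
noncomputable def n819 : Strat := .move 837 n7 (.cons 882 n81 .nil)
noncomputable def n820 : Strat := .move 881 n804 (.cons 837 n812 (.cons 882 n816 (.cons 880 n818 (.cons 841 n819 .nil))))
noncomputable def n821 : Strat := .move 841 n3 (.cons 879 n107 .nil)
noncomputable def n822 : Strat := .move 878 n2 (.cons 877 n821 .nil)
noncomputable def n823 : Strat := .move 796 n0 (.cons 795 n735 .nil)
noncomputable def n824 : Strat := .move 878 n2 (.cons 877 n823 .nil)
noncomputable def n825 : Strat := .move 837 n13 (.cons 798 n822 (.cons 881 n824 .nil))
noncomputable def n826 : Strat := .move 841 n55 (.cons 884 n35 (.cons 796 n50 (.cons 842 n145 .nil)))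
noncomputable def n827 : Strat := .move 841 n109 (.cons 881 n44 (.cons 800 n31 (.cons 837 n55 .nil)))
noncomputable def n828 : Strat := .move 880 n433 (.cons 843 n424 .nil)
noncomputable def n829 : Strat := .move 842 n18 (.cons 798 n828 .nil)
noncomputable def n830 : Strat := .move 797 n17 (.cons 796 n829 .nil)
noncomputable def n831 : Strat := .move 881 n165 (.cons 837 n830 .nil)
noncomputable def n832 : Strat := .move 882 n27 (.cons 883 n831 .nil)
noncomputable def n833 : Strat := .move 841 n53 (.cons 881 n40 (.cons 801 n832 .nil))
noncomputable def n834 : Strat := .move 841 n3 (.cons 879 n29 .nil)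
noncomputable def n835 : Strat := .move 878 n2 (.cons 877 n834 .nil)
noncomputable def n836 : Strat := .move 837 n835 (.cons 879 n406 (.cons 796 n87 .nil))
noncomputable def n837 : Strat := .win 918 4 877
noncomputable def n838 : Strat := .win 756 1 755
noncomputable def n839 : Strat := .move 797 n838 (.cons 756 n94 .nil)
noncomputable def n840 : Strat := .move 919 n837 (.cons 918 n839 .nil)
noncomputable def n841 : Strat := .move 879 n176 (.cons 841 n840 .nil)
noncomputable def n842 : Strat := .move 880 n175 (.cons 836 n841 .nil)
noncomputable def n843 : Strat := .move 881 n7 (.cons 882 n842 .nil)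
noncomputable def n844 : Strat := .move 878 n2 (.cons 877 n843 .nil)
noncomputable def n845 : Strat := .move 841 n15 (.cons 878 n813 .nil)
noncomputable def n846 : Strat := .move 797 n94 (.cons 960 n838 .nil)
noncomputable def n847 : Strat := .move 919 n837 (.cons 918 n846 .nil)
noncomputable def n848 : Strat := .move 878 n176 (.cons 841 n847 .nil)
noncomputable def n849 : Strat := .move 799 n337 (.cons 962 n514 .nil)
noncomputable def n850 : Strat := .win 799 3 798
noncomputable def n851 : Strat := .move 962 n242 (.cons 1003 n850 .nil)
noncomputable def n852 : Strat := .win 963 6 798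
noncomputable def n853 : Strat := .move 798 n214 (.cons 757 n852 .nil)
noncomputable def n854 : Strat := .win 924 2 879
noncomputable def n855 : Strat := .win 878 0 878
noncomputable def n856 : Strat := .move 923 n854 (.cons 924 n855 .nil)
noncomputable def n857 : Strat := .move 922 n853 (.cons 963 n856 .nil)
noncomputable def n858 : Strat := .move 921 n849 (.cons 758 n851 (.cons 962 n857 .nil))
noncomputable def n859 : Strat := .move 796 n217 (.cons 841 n0 .nil)
noncomputable def n860 : Strat := .move 797 n153 (.cons 756 n859 .nil)
noncomputable def n861 : Strat := .move 921 n849 (.cons 758 n851 (.cons 962 n860 .nil))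
noncomputable def n862 : Strat := .move 879 n845 (.cons 842 n848 (.cons 841 n858 (.cons 878 n861 .nil)))
noncomputable def n863 : Strat := .move 880 n175 (.cons 836 n862 .nil)
noncomputable def n864 : Strat := .move 881 n7 (.cons 882 n863 .nil)
noncomputable def n865 : Strat := .move 837 n844 (.cons 877 n864 (.cons 879 n82 (.cons 881 n824 .nil)))
noncomputable def n866 : Strat := .move 800 n41 (.cons 801 n815 .nil)
noncomputable def n867 : Strat := .move 882 n27 (.cons 883 n866 .nil)
noncomputable def n868 : Strat := .move 841 n741 (.cons 881 n44 (.cons 800 n377 (.cons 837 n867 .nil)))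
noncomputable def n869 : Strat := .win 758 6 758
noncomputable def n870 : Strat := .move 799 n869 (.cons 758 n111 .nil)
noncomputable def n871 : Strat := .move 923 n198 (.cons 924 n870 .nil)
noncomputable def n872 : Strat := .move 880 n813 (.cons 842 n871 .nil)
noncomputable def n873 : Strat := .move 879 n15 (.cons 878 n872 .nil)
noncomputable def n874 : Strat := .move 881 n165 (.cons 837 n873 .nil)
noncomputable def n875 : Strat := .move 882 n27 (.cons 883 n874 .nil)
noncomputable def n876 : Strat := .move 841 n53 (.cons 837 n50 (.cons 800 n875 .nil))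
noncomputable def n877 : Strat := .move 798 n648 (.cons 757 n213 .nil)
noncomputable def n878 : Strat := .move 921 n556 (.cons 962 n514 .nil)
noncomputable def n879 : Strat := .win 879 0 878
noncomputable def n880 : Strat := .win 964 6 799
noncomputable def n881 : Strat := .move 923 n879 (.cons 879 n880 .nil)
noncomputable def n882 : Strat := .move 880 n555 (.cons 717 n878 (.cons 921 n881 .nil))
noncomputable def n883 : Strat := .move 922 n877 (.cons 963 n882 .nil)
noncomputable def n884 : Strat := .move 878 n2 (.cons 877 n883 .nil)
noncomputable def n885 : Strat := .move 799 n9 (.cons 800 n884 .nil)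
noncomputable def n886 : Strat := .move 881 n7 (.cons 882 n885 .nil)
noncomputable def n887 : Strat := .move 837 n13 (.cons 881 n87 (.cons 798 n392 (.cons 836 n886 .nil)))
noncomputable def n888 : Strat := .move 841 n1 (.cons 797 n107 .nil)
noncomputable def n889 : Strat := .move 796 n0 (.cons 795 n888 .nil)
noncomputable def n890 : Strat := .move 837 n77 (.cons 800 n82 (.cons 882 n406 (.cons 836 n889 .nil)))
noncomputable def n891 : Strat := .move 838 n801 (.cons 799 n820 (.cons 842 n825 (.cons 837 n826 (.cons 880 n827 (.cons 878 n833 (.cons 882 n836 (.cons 800 n865 (.cons 798 n868 (.cons 796 n876 (.cons 841 n887 (.cons 879 n890 .nil)))))))))))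
noncomputable def n892 : Strat := .move 837 n28 (.cons 881 n705 .nil)
noncomputable def n893 : Strat := .move 882 n27 (.cons 883 n892 .nil)
noncomputable def n894 : Strat := .move 921 n153 (.cons 756 n220 .nil)
noncomputable def n895 : Strat := .move 797 n17 (.cons 796 n894 .nil)
noncomputable def n896 : Strat := .move 880 n813 (.cons 842 n895 .nil)
noncomputable def n897 : Strat := .move 879 n15 (.cons 878 n896 .nil)
noncomputable def n898 : Strat := .move 838 n893 (.cons 837 n897 (.cons 879 n693 .nil))
noncomputable def n899 : Strat := .move 881 n120 (.cons 718 n119 .nil)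
noncomputable def n900 : Strat := .win 678 3 677
noncomputable def n901 : Strat := .win 760 3 718
noncomputable def n902 : Strat := .move 719 n900 (.cons 678 n901 .nil)
noncomputable def n903 : Strat := .move 718 n777 (.cons 881 n902 .nil)
noncomputable def n904 : Strat := .win 758 7 717
noncomputable def n905 : Strat := .win 676 7 676
noncomputable def n906 : Strat := .move 718 n905 (.cons 676 n902 .nil)
noncomputable def n907 : Strat := .move 717 n904 (.cons 758 n906 .nil)
noncomputable def n908 : Strat := .win 881 1 758
noncomputable def n909 : Strat := .move 799 n112 (.cons 758 n111 .nil)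
noncomputable def n910 : Strat := .move 923 n123 (.cons 963 n909 .nil)
noncomputable def n911 : Strat := .move 922 n908 (.cons 881 n910 .nil)
noncomputable def n912 : Strat := .move 759 n899 (.cons 922 n903 (.cons 881 n907 (.cons 718 n911 .nil)))
noncomputable def n913 : Strat := .move 800 n41 (.cons 801 n912 .nil)
noncomputable def n914 : Strat := .move 882 n27 (.cons 883 n913 .nil)
noncomputable def n915 : Strat := .move 838 n53 (.cons 801 n681 (.cons 882 n685 (.cons 837 n914 .nil)))
noncomputable def n916 : Strat := .move 838 n50 (.cons 879 n685 (.cons 801 n897 .nil))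
noncomputable def n917 : Strat := .move 838 n26 (.cons 879 n681 (.cons 882 n50 .nil))
noncomputable def n918 : Strat := .move 801 n37 (.cons 802 n458 .nil)
noncomputable def n919 : Strat := .move 881 n433 (.cons 843 n918 .nil)
noncomputable def n920 : Strat := .move 882 n470 (.cons 838 n919 .nil)
noncomputable def n921 : Strat := .move 883 n23 (.cons 884 n920 .nil)
noncomputable def n922 : Strat := .move 880 n424 (.cons 879 n921 .nil)
noncomputable def n923 : Strat := .move 881 n433 (.cons 843 n516 .nil)
noncomputable def n924 : Strat := .move 882 n470 (.cons 838 n923 .nil)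
noncomputable def n925 : Strat := .move 883 n23 (.cons 884 n924 .nil)
noncomputable def n926 : Strat := .move 880 n424 (.cons 879 n925 .nil)
noncomputable def n927 : Strat := .move 837 n29 (.cons 797 n4 .nil)
noncomputable def n928 : Strat := .move 843 n597 (.cons 803 n927 .nil)
noncomputable def n929 : Strat := .move 802 n596 (.cons 801 n928 .nil)
noncomputable def n930 : Strat := .move 838 n22 (.cons 882 n929 .nil)
noncomputable def n931 : Strat := .move 883 n23 (.cons 884 n930 .nil)
noncomputable def n932 : Strat := .move 842 n922 (.cons 883 n600 (.cons 802 n926 (.cons 843 n488 (.cons 880 n931 (.cons 879 n475 .nil)))))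
noncomputable def n933 : Strat := .move 838 n893 (.cons 882 n897 (.cons 879 n681 .nil))
noncomputable def n934 : Strat := .move 838 n50 (.cons 879 n914 (.cons 801 n897 .nil))
noncomputable def n935 : Strat := .move 882 n457 (.cons 719 n456 .nil)
noncomputable def n936 : Strat := .win 882 1 718
noncomputable def n937 : Strat := .win 679 3 678
noncomputable def n938 : Strat := .win 761 3 719
noncomputable def n939 : Strat := .move 720 n937 (.cons 679 n938 .nil)
noncomputable def n940 : Strat := .move 719 n936 (.cons 882 n939 .nil)
noncomputable def n941 : Strat := .win 759 7 718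
noncomputable def n942 : Strat := .win 677 7 677
noncomputable def n943 : Strat := .move 719 n942 (.cons 677 n939 .nil)
noncomputable def n944 : Strat := .move 718 n941 (.cons 759 n943 .nil)
noncomputable def n945 : Strat := .win 882 1 759
noncomputable def n946 : Strat := .win 800 7 759
noncomputable def n947 : Strat := .win 718 7 718
noncomputable def n948 : Strat := .move 759 n946 (.cons 800 n947 .nil)
noncomputable def n949 : Strat := .move 924 n460 (.cons 964 n948 .nil)
noncomputable def n950 : Strat := .move 923 n945 (.cons 882 n949 .nil)
noncomputable def n951 : Strat := .move 760 n935 (.cons 923 n940 (.cons 882 n944 (.cons 719 n950 .nil)))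
noncomputable def n952 : Strat := .move 883 n23 (.cons 884 n951 .nil)
noncomputable def n953 : Strat := .move 801 n37 (.cons 802 n952 .nil)
noncomputable def n954 : Strat := .move 843 n427 (.cons 881 n447 .nil)
noncomputable def n955 : Strat := .move 880 n424 (.cons 879 n954 .nil)
noncomputable def n956 : Strat := .move 842 n444 (.cons 883 n600 (.cons 843 n468 (.cons 880 n953 (.cons 801 n955 .nil))))
noncomputable def n957 : Strat := .move 841 n694 (.cons 802 n898 (.cons 879 n915 (.cons 882 n916 (.cons 799 n917 (.cons 800 n932 (.cons 801 n933 (.cons 837 n934 (.cons 838 n956 .nil))))))))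
noncomputable def n958 : Strat := .move 838 n674 (.cons 881 n40 (.cons 800 n55 .nil))
noncomputable def n959 : Strat := .move 757 n61 (.cons 716 n60 .nil)
noncomputable def n960 : Strat := .move 879 n15 (.cons 878 n959 .nil)
noncomputable def n961 : Strat := .move 798 n696 (.cons 842 n960 .nil)
noncomputable def n962 : Strat := .move 797 n17 (.cons 796 n961 .nil)
noncomputable def n963 : Strat := .move 838 n685 (.cons 837 n962 (.cons 797 n674 .nil))
noncomputable def n964 : Strat := .win 1006 6 841
noncomputable def n965 : Strat := .win 924 6 800
noncomputable def n966 : Strat := .move 965 n964 (.cons 1006 n965 .nil)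
noncomputable def n967 : Strat := .move 964 n115 (.cons 1004 n966 .nil)
noncomputable def n968 : Strat := .move 963 n116 (.cons 922 n967 .nil)
noncomputable def n969 : Strat := .win 799 7 758
noncomputable def n970 : Strat := .win 717 7 717
noncomputable def n971 : Strat := .move 759 n970 (.cons 717 n133 .nil)
noncomputable def n972 : Strat := .move 758 n969 (.cons 799 n971 .nil)
noncomputable def n973 : Strat := .move 923 n909 (.cons 758 n118 (.cons 799 n968 (.cons 964 n972 .nil)))
noncomputable def n974 : Strat := .move 882 n27 (.cons 883 n973 .nil)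
noncomputable def n975 : Strat := .move 800 n41 (.cons 801 n974 .nil)
noncomputable def n976 : Strat := .move 838 n48 (.cons 883 n707 (.cons 800 n893 (.cons 837 n975 .nil)))
noncomputable def n977 : Strat := .move 838 n55 (.cons 797 n893 (.cons 883 n962 .nil))
noncomputable def n978 : Strat := .move 838 n40 (.cons 797 n707 (.cons 800 n55 .nil))
noncomputable def n979 : Strat := .win 843 0 798
noncomputable def n980 : Strat := .move 799 n979 (.cons 843 n534 .nil)
noncomputable def n981 : Strat := .move 800 n417 (.cons 838 n980 .nil)
noncomputable def n982 : Strat := .move 801 n37 (.cons 802 n981 .nil)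
noncomputable def n983 : Strat := .move 798 n425 (.cons 797 n982 .nil)
noncomputable def n984 : Strat := .move 843 n446 (.cons 885 n927 .nil)
noncomputable def n985 : Strat := .move 884 n445 (.cons 883 n984 .nil)
noncomputable def n986 : Strat := .move 838 n36 (.cons 800 n985 .nil)
noncomputable def n987 : Strat := .move 801 n37 (.cons 802 n986 .nil)
noncomputable def n988 : Strat := .move 842 n983 (.cons 801 n449 (.cons 843 n622 (.cons 798 n987 (.cons 797 n613 .nil))))
noncomputable def n989 : Strat := .move 838 n685 (.cons 800 n962 (.cons 797 n707 .nil))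
noncomputable def n990 : Strat := .move 838 n55 (.cons 797 n975 (.cons 883 n962 .nil))
noncomputable def n991 : Strat := .move 843 n426 (.cons 799 n598 .nil)
noncomputable def n992 : Strat := .move 798 n425 (.cons 797 n991 .nil)
noncomputable def n993 : Strat := .move 842 n595 (.cons 801 n449 (.cons 843 n609 (.cons 798 n953 (.cons 883 n992 .nil))))
noncomputable def n994 : Strat := .move 841 n958 (.cons 884 n963 (.cons 797 n976 (.cons 800 n977 (.cons 881 n978 (.cons 882 n988 (.cons 883 n989 (.cons 837 n990 (.cons 838 n993 .nil))))))))
noncomputable def n995 : Strat := .move 841 n741 (.cons 801 n377 (.cons 883 n44 (.cons 837 n50 .nil)))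
noncomputable def n996 : Strat := .move 757 n61 (.cons 716 n341 .nil)
noncomputable def n997 : Strat := .win 920 3 797
noncomputable def n998 : Strat := .move 837 n264 (.cons 836 n9 .nil)
noncomputable def n999 : Strat := .move 799 n338 (.cons 962 n339 (.cons 758 n998 .nil))
noncomputable def n1000 : Strat := .move 961 n997 (.cons 920 n999 .nil)
noncomputable def n1001 : Strat := .move 757 n61 (.cons 716 n999 .nil)
noncomputable def n1002 : Strat := .move 798 n996 (.cons 757 n1000 (.cons 920 n1001 .nil))
noncomputable def n1003 : Strat := .move 880 n813 (.cons 842 n1002 .nil)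
noncomputable def n1004 : Strat := .move 879 n15 (.cons 878 n1003 .nil)
noncomputable def n1005 : Strat := .move 795 n79 (.cons 794 n78 .nil)
noncomputable def n1006 : Strat := .move 836 n10 (.cons 798 n1005 .nil)
noncomputable def n1007 : Strat := .move 799 n9 (.cons 800 n1006 .nil)
noncomputable def n1008 : Strat := .move 837 n28 (.cons 881 n1007 .nil)
noncomputable def n1009 : Strat := .move 882 n27 (.cons 883 n1008 .nil)
noncomputable def n1010 : Strat := .move 841 n377 (.cons 882 n1004 (.cons 879 n1009 (.cons 837 n26 .nil)))
noncomputable def n1011 : Strat := .move 800 n255 (.cons 837 n282 .nil)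
noncomputable def n1012 : Strat := .move 879 n176 (.cons 841 n177 .nil)
noncomputable def n1013 : Strat := .move 878 n2 (.cons 877 n1012 .nil)
noncomputable def n1014 : Strat := .move 796 n0 (.cons 795 n1013 .nil)
noncomputable def n1015 : Strat := .move 837 n264 (.cons 836 n1014 .nil)
noncomputable def n1016 : Strat := .move 841 n813 (.cons 842 n15 .nil)
noncomputable def n1017 : Strat := .move 879 n342 (.cons 716 n240 (.cons 920 n1016 .nil))
noncomputable def n1018 : Strat := .move 880 n311 (.cons 921 n1017 .nil)
noncomputable def n1019 : Strat := .move 758 n302 (.cons 676 n312 (.cons 717 n1018 (.cons 880 n309 .nil)))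
noncomputable def n1020 : Strat := .move 800 n282 (.cons 801 n1019 .nil)
noncomputable def n1021 : Strat := .move 798 n1011 (.cons 800 n1015 (.cons 837 n1020 .nil))
noncomputable def n1022 : Strat := .win 800 7 758
noncomputable def n1023 : Strat := .move 923 n111 (.cons 964 n1022 .nil)
noncomputable def n1024 : Strat := .move 758 n136 (.cons 717 n1023 .nil)
noncomputable def n1025 : Strat := .move 882 n27 (.cons 883 n1024 .nil)
noncomputable def n1026 : Strat := .move 842 n37 (.cons 802 n33 .nil)
noncomputable def n1027 : Strat := .move 801 n36 (.cons 800 n1026 .nil)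
noncomputable def n1028 : Strat := .win 798 3 757
noncomputable def n1029 : Strat := .move 921 n1028 (.cons 798 n337 .nil)
noncomputable def n1030 : Strat := .move 880 n813 (.cons 842 n1029 .nil)
noncomputable def n1031 : Strat := .move 879 n15 (.cons 878 n1030 .nil)
noncomputable def n1032 : Strat := .move 758 n136 (.cons 717 n1031 .nil)
noncomputable def n1033 : Strat := .move 882 n27 (.cons 883 n1032 .nil)
noncomputable def n1034 : Strat := .move 841 n259 (.cons 801 n1025 (.cons 882 n1027 (.cons 800 n1033 .nil)))
noncomputable def n1035 : Strat := .move 798 n264 (.cons 836 n1014 .nil)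
noncomputable def n1036 : Strat := .win 880 1 756
noncomputable def n1037 : Strat := .move 757 n1036 (.cons 880 n61 .nil)
noncomputable def n1038 : Strat := .move 920 n63 (.cons 961 n1037 .nil)
noncomputable def n1039 : Strat := .move 798 n264 (.cons 836 n1038 .nil)
noncomputable def n1040 : Strat := .move 879 n176 (.cons 841 n1039 .nil)
noncomputable def n1041 : Strat := .move 878 n2 (.cons 877 n1040 .nil)
noncomputable def n1042 : Strat := .move 796 n0 (.cons 795 n1012 .nil)
noncomputable def n1043 : Strat := .move 878 n2 (.cons 877 n1042 .nil)
noncomputable def n1044 : Strat := .move 837 n1035 (.cons 795 n1041 (.cons 878 n405 (.cons 798 n1043 .nil)))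
noncomputable def n1045 : Strat := .move 837 n9 (.cons 800 n1043 .nil)
noncomputable def n1046 : Strat := .move 799 n1021 (.cons 837 n1034 (.cons 879 n714 (.cons 800 n1044 (.cons 798 n1045 (.cons 841 n730 .nil)))))
noncomputable def n1047 : Strat := .move 837 n181 (.cons 878 n81 (.cons 836 n180 (.cons 796 n182 .nil)))
noncomputable def n1048 : Strat := .move 800 n41 (.cons 801 n121 .nil)
noncomputable def n1049 : Strat := .move 880 n813 (.cons 842 n1048 .nil)
noncomputable def n1050 : Strat := .move 879 n15 (.cons 878 n1049 .nil)
noncomputable def n1051 : Strat := .move 882 n27 (.cons 883 n1050 .nil)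
noncomputable def n1052 : Strat := .move 882 n27 (.cons 883 n168 .nil)
noncomputable def n1053 : Strat := .move 800 n41 (.cons 801 n1052 .nil)
noncomputable def n1054 : Strat := .move 798 n192 (.cons 757 n63 .nil)
noncomputable def n1055 : Strat := .move 920 n191 (.cons 919 n1054 .nil)
noncomputable def n1056 : Strat := .move 882 n27 (.cons 883 n1055 .nil)
noncomputable def n1057 : Strat := .move 880 n813 (.cons 842 n1056 .nil)
noncomputable def n1058 : Strat := .move 879 n15 (.cons 878 n1057 .nil)
noncomputable def n1059 : Strat := .move 841 n1051 (.cons 880 n1053 (.cons 882 n50 (.cons 800 n1058 .nil)))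
noncomputable def n1060 : Strat := .move 837 n7 (.cons 882 n1043 .nil)
noncomputable def n1061 : Strat := .move 837 n7 (.cons 882 n182 .nil)
noncomputable def n1062 : Strat := .move 881 n804 (.cons 882 n1047 (.cons 837 n1059 (.cons 880 n1060 (.cons 841 n1061 .nil))))
noncomputable def n1063 : Strat := .move 841 n50 (.cons 801 n26 (.cons 880 n975 .nil))
noncomputable def n1064 : Strat := .move 799 n1035 (.cons 795 n1041 (.cons 878 n405 (.cons 798 n1043 .nil)))
noncomputable def n1065 : Strat := .move 920 n387 (.cons 755 n386 .nil)
noncomputable def n1066 : Strat := .move 796 n0 (.cons 795 n1065 .nil)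
noncomputable def n1067 : Strat := .move 879 n176 (.cons 841 n1066 .nil)
noncomputable def n1068 : Strat := .move 878 n2 (.cons 877 n1067 .nil)
noncomputable def n1069 : Strat := .move 837 n392 (.cons 881 n1064 (.cons 878 n82 (.cons 836 n1068 .nil)))
noncomputable def n1070 : Strat := .move 841 n48 (.cons 883 n707 (.cons 800 n893 (.cons 837 n975 .nil)))
noncomputable def n1071 : Strat := .move 837 n13 (.cons 880 n87 (.cons 799 n392 (.cons 836 n886 .nil)))
noncomputable def n1072 : Strat := .move 881 n181 (.cons 878 n81 (.cons 836 n180 (.cons 796 n182 .nil)))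
noncomputable def n1073 : Strat := .move 837 n87 (.cons 799 n1072 (.cons 878 n406 (.cons 836 n1068 .nil)))
noncomputable def n1074 : Strat := .move 836 n8 (.cons 880 n10 .nil)
noncomputable def n1075 : Strat := .move 799 n9 (.cons 800 n1074 .nil)
noncomputable def n1076 : Strat := .move 881 n7 (.cons 882 n1075 .nil)
noncomputable def n1077 : Strat := .move 798 n213 (.cons 963 n648 .nil)
noncomputable def n1078 : Strat := .win 921 1 798
noncomputable def n1079 : Strat := .move 962 n206 (.cons 1003 n1078 .nil)
noncomputable def n1080 : Strat := .move 963 n203 (.cons 798 n1079 .nil)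
noncomputable def n1081 : Strat := .win 1005 6 840
noncomputable def n1082 : Strat := .win 923 6 799
noncomputable def n1083 : Strat := .move 964 n1081 (.cons 1005 n1082 .nil)
noncomputable def n1084 : Strat := .move 963 n206 (.cons 1003 n1083 .nil)
noncomputable def n1085 : Strat := .move 962 n1078 (.cons 921 n1084 .nil)
noncomputable def n1086 : Strat := .win 798 7 757
noncomputable def n1087 : Strat := .move 758 n559 (.cons 716 n785 .nil)
noncomputable def n1088 : Strat := .move 757 n1086 (.cons 798 n1087 .nil)
noncomputable def n1089 : Strat := .move 922 n1077 (.cons 757 n1080 (.cons 798 n1085 (.cons 963 n1088 .nil)))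
noncomputable def n1090 : Strat := .move 799 n9 (.cons 800 n1089 .nil)
noncomputable def n1091 : Strat := .move 881 n7 (.cons 882 n1090 .nil)
noncomputable def n1092 : Strat := .move 837 n1076 (.cons 882 n406 (.cons 800 n82 (.cons 836 n1091 .nil)))
noncomputable def n1093 : Strat := .move 838 n995 (.cons 801 n1010 (.cons 881 n1046 (.cons 799 n1062 (.cons 837 n1063 (.cons 800 n1069 (.cons 880 n1070 (.cons 841 n1071 (.cons 882 n1073 (.cons 878 n1092 .nil)))))))))
noncomputable def n1094 : Strat := .move 841 n109 (.cons 883 n384 (.cons 801 n31 (.cons 837 n55 .nil)))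
noncomputable def n1095 : Strat := .move 921 n220 (.cons 962 n219 .nil)
noncomputable def n1096 : Strat := .move 837 n175 (.cons 836 n7 .nil)
noncomputable def n1097 : Strat := .move 881 n1096 (.cons 882 n615 .nil)
noncomputable def n1098 : Strat := .move 715 n359 (.cons 756 n1097 .nil)
noncomputable def n1099 : Strat := .move 921 n220 (.cons 962 n1097 .nil)
noncomputable def n1100 : Strat := .move 880 n1095 (.cons 921 n1098 (.cons 756 n1099 .nil))
noncomputable def n1101 : Strat := .move 798 n696 (.cons 842 n1100 .nil)
noncomputable def n1102 : Strat := .move 797 n17 (.cons 796 n1101 .nil)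
noncomputable def n1103 : Strat := .move 836 n8 (.cons 880 n1005 .nil)
noncomputable def n1104 : Strat := .move 881 n7 (.cons 882 n1103 .nil)
noncomputable def n1105 : Strat := .move 837 n42 (.cons 799 n1104 .nil)
noncomputable def n1106 : Strat := .move 800 n41 (.cons 801 n1105 .nil)
noncomputable def n1107 : Strat := .move 877 n84 (.cons 876 n83 .nil)
noncomputable def n1108 : Strat := .move 836 n8 (.cons 880 n1107 .nil)
noncomputable def n1109 : Strat := .move 881 n7 (.cons 882 n1108 .nil)
noncomputable def n1110 : Strat := .move 837 n42 (.cons 799 n1109 .nil)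
noncomputable def n1111 : Strat := .move 800 n41 (.cons 801 n1110 .nil)
noncomputable def n1112 : Strat := .move 841 n384 (.cons 800 n1102 (.cons 797 n1106 (.cons 837 n40 (.cons 796 n1111 .nil))))
noncomputable def n1113 : Strat := .move 882 n165 (.cons 837 n188 .nil)
noncomputable def n1114 : Strat := .move 919 n95 (.cons 756 n94 .nil)
noncomputable def n1115 : Strat := .move 797 n217 (.cons 841 n1114 .nil)
noncomputable def n1116 : Strat := .move 796 n0 (.cons 795 n1115 .nil)
noncomputable def n1117 : Strat := .move 878 n2 (.cons 877 n1116 .nil)
noncomputable def n1118 : Strat := .move 837 n175 (.cons 836 n1117 .nil)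
noncomputable def n1119 : Strat := .move 922 n205 (.cons 1004 n215 (.cons 963 n223 (.cons 798 n212 .nil)))
noncomputable def n1120 : Strat := .move 882 n188 (.cons 883 n1119 .nil)
noncomputable def n1121 : Strat := .move 880 n1113 (.cons 882 n1118 (.cons 837 n1120 .nil))
noncomputable def n1122 : Strat := .move 759 n120 (.cons 718 n570 .nil)
noncomputable def n1123 : Strat := .move 922 n167 (.cons 963 n1122 .nil)
noncomputable def n1124 : Strat := .move 800 n41 (.cons 801 n1123 .nil)
noncomputable def n1125 : Strat := .move 842 n23 (.cons 884 n19 .nil)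
noncomputable def n1126 : Strat := .move 883 n22 (.cons 882 n1125 .nil)
noncomputable def n1127 : Strat := .win 880 6 757
noncomputable def n1128 : Strat := .move 757 n1127 (.cons 880 n544 .nil)
noncomputable def n1129 : Strat := .move 798 n696 (.cons 842 n1128 .nil)
noncomputable def n1130 : Strat := .move 797 n17 (.cons 796 n1129 .nil)
noncomputable def n1131 : Strat := .move 922 n167 (.cons 963 n1130 .nil)
noncomputable def n1132 : Strat := .move 800 n41 (.cons 801 n1131 .nil)
noncomputable def n1133 : Strat := .move 841 n170 (.cons 883 n1124 (.cons 800 n1126 (.cons 882 n1132 .nil)))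
noncomputable def n1134 : Strat := .move 880 n175 (.cons 836 n1117 .nil)
noncomputable def n1135 : Strat := .win 798 7 756
noncomputable def n1136 : Strat := .move 921 n1135 (.cons 798 n220 .nil)
noncomputable def n1137 : Strat := .move 756 n58 (.cons 715 n1136 .nil)
noncomputable def n1138 : Strat := .move 880 n175 (.cons 836 n1137 .nil)
noncomputable def n1139 : Strat := .move 797 n217 (.cons 841 n1138 .nil)
noncomputable def n1140 : Strat := .move 796 n0 (.cons 795 n1139 .nil)
noncomputable def n1141 : Strat := .move 797 n217 (.cons 841 n93 .nil)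
noncomputable def n1142 : Strat := .move 878 n2 (.cons 877 n1141 .nil)
noncomputable def n1143 : Strat := .move 796 n0 (.cons 795 n1142 .nil)
noncomputable def n1144 : Strat := .move 837 n1134 (.cons 877 n1140 (.cons 796 n182 (.cons 880 n1143 .nil)))
noncomputable def n1145 : Strat := .move 837 n7 (.cons 882 n1143 .nil)
noncomputable def n1146 : Strat := .move 881 n1121 (.cons 837 n1133 (.cons 797 n804 (.cons 882 n1144 (.cons 880 n1145 (.cons 841 n819 .nil)))))
noncomputable def n1147 : Strat := .move 797 n265 (.cons 841 n353 .nil)
noncomputable def n1148 : Strat := .move 796 n0 (.cons 795 n1147 .nil)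
noncomputable def n1149 : Strat := .move 798 n264 (.cons 836 n1148 .nil)
noncomputable def n1150 : Strat := .move 837 n1149 (.cons 796 n86 (.cons 836 n276 .nil))
noncomputable def n1151 : Strat := .move 715 n286 (.cons 674 n285 .nil)
noncomputable def n1152 : Strat := .move 756 n284 (.cons 755 n1151 .nil)
noncomputable def n1153 : Strat := .move 798 n775 (.cons 842 n1152 .nil)
noncomputable def n1154 : Strat := .move 797 n17 (.cons 796 n1153 .nil)
noncomputable def n1155 : Strat := .move 800 n41 (.cons 801 n1154 .nil)
noncomputable def n1156 : Strat := .move 800 n41 (.cons 801 n257 .nil)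
noncomputable def n1157 : Strat := .move 882 n27 (.cons 883 n1156 .nil)
noncomputable def n1158 : Strat := .move 841 n1155 (.cons 798 n1157 (.cons 800 n55 .nil))
noncomputable def n1159 : Strat := .move 837 n9 (.cons 800 n1143 .nil)
noncomputable def n1160 : Strat := .move 837 n9 (.cons 800 n405 .nil)
noncomputable def n1161 : Strat := .move 799 n714 (.cons 800 n1150 (.cons 837 n1158 (.cons 798 n1159 (.cons 841 n1160 .nil))))
noncomputable def n1162 : Strat := .move 841 n55 (.cons 883 n40 (.cons 798 n914 .nil))
noncomputable def n1163 : Strat := .move 881 n1134 (.cons 877 n1140 (.cons 796 n182 (.cons 880 n1143 .nil)))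
noncomputable def n1164 : Strat := .move 878 n2 (.cons 877 n401 .nil)
noncomputable def n1165 : Strat := .move 797 n217 (.cons 841 n1164 .nil)
noncomputable def n1166 : Strat := .move 796 n0 (.cons 795 n1165 .nil)
noncomputable def n1167 : Strat := .move 837 n406 (.cons 799 n1163 (.cons 796 n87 (.cons 836 n1166 .nil)))
noncomputable def n1168 : Strat := .move 841 n53 (.cons 801 n681 (.cons 882 n685 (.cons 837 n914 .nil)))
noncomputable def n1169 : Strat := .move 837 n77 (.cons 798 n82 (.cons 881 n406 (.cons 836 n794 .nil)))
noncomputable def n1170 : Strat := .move 799 n1149 (.cons 796 n86 (.cons 836 n276 .nil))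
noncomputable def n1171 : Strat := .move 837 n82 (.cons 881 n1170 (.cons 880 n1166 (.cons 796 n392 .nil)))
noncomputable def n1172 : Strat := .move 881 n7 (.cons 882 n1074 .nil)
noncomputable def n1173 : Strat := .move 799 n9 (.cons 800 n1172 .nil)
noncomputable def n1174 : Strat := .move 880 n310 (.cons 717 n554 .nil)
noncomputable def n1175 : Strat := .win 677 3 676
noncomputable def n1176 : Strat := .win 759 3 717
noncomputable def n1177 : Strat := .move 718 n1175 (.cons 677 n1176 .nil)
noncomputable def n1178 : Strat := .move 717 n300 (.cons 880 n1177 .nil)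
noncomputable def n1179 : Strat := .win 757 7 716
noncomputable def n1180 : Strat := .move 717 n305 (.cons 675 n1177 .nil)
noncomputable def n1181 : Strat := .move 716 n1179 (.cons 757 n1180 .nil)
noncomputable def n1182 : Strat := .move 757 n1086 (.cons 798 n559 .nil)
noncomputable def n1183 : Strat := .move 922 n556 (.cons 962 n1182 .nil)
noncomputable def n1184 : Strat := .move 921 n652 (.cons 880 n1183 .nil)
noncomputable def n1185 : Strat := .move 758 n1174 (.cons 921 n1178 (.cons 880 n1181 (.cons 717 n1184 .nil)))
noncomputable def n1186 : Strat := .move 881 n7 (.cons 882 n1185 .nil)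
noncomputable def n1187 : Strat := .move 799 n9 (.cons 800 n1186 .nil)
noncomputable def n1188 : Strat := .move 837 n1173 (.cons 800 n392 (.cons 882 n87 (.cons 836 n1187 .nil)))
noncomputable def n1189 : Strat := .move 838 n1094 (.cons 883 n1112 (.cons 799 n1146 (.cons 881 n1161 (.cons 837 n1162 (.cons 882 n1167 (.cons 798 n1168 (.cons 841 n1169 (.cons 800 n1171 (.cons 796 n1188 .nil)))))))))
noncomputable def n1190 : Strat := .move 798 n696 (.cons 842 n959 .nil)
noncomputable def n1191 : Strat := .move 879 n15 (.cons 878 n1190 .nil)
noncomputable def n1192 : Strat := .move 797 n17 (.cons 796 n1191 .nil)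
noncomputable def n1193 : Strat := .move 841 n1192 (.cons 920 n741 .nil)
noncomputable def n1194 : Strat := .win 881 0 836
noncomputable def n1195 : Strat := .win 835 0 835
noncomputable def n1196 : Strat := .move 836 n1194 (.cons 881 n1195 .nil)
noncomputable def n1197 : Strat := .move 837 n42 (.cons 799 n1196 .nil)
noncomputable def n1198 : Strat := .move 800 n41 (.cons 801 n1197 .nil)
noncomputable def n1199 : Strat := .move 880 n813 (.cons 842 n1198 .nil)
noncomputable def n1200 : Strat := .move 879 n15 (.cons 878 n1199 .nil)
noncomputable def n1201 : Strat := .win 881 0 879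
noncomputable def n1202 : Strat := .move 924 n126 (.cons 965 n1201 .nil)
noncomputable def n1203 : Strat := .move 923 n1202 (.cons 881 n909 .nil)
noncomputable def n1204 : Strat := .move 800 n41 (.cons 801 n1203 .nil)
noncomputable def n1205 : Strat := .move 882 n27 (.cons 883 n1204 .nil)
noncomputable def n1206 : Strat := .move 880 n813 (.cons 842 n1205 .nil)
noncomputable def n1207 : Strat := .move 879 n15 (.cons 878 n1206 .nil)
noncomputable def n1208 : Strat := .move 882 n27 (.cons 883 n137 .nil)
noncomputable def n1209 : Strat := .move 799 n255 (.cons 837 n1208 .nil)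
noncomputable def n1210 : Strat := .move 800 n41 (.cons 801 n1209 .nil)
noncomputable def n1211 : Strat := .move 879 n15 (.cons 878 n1210 .nil)
noncomputable def n1212 : Strat := .move 841 n741 (.cons 882 n1200 (.cons 837 n1207 (.cons 801 n377 (.cons 881 n1211 .nil))))
noncomputable def n1213 : Strat := .win 837 4 796
noncomputable def n1214 : Strat := .move 799 n1213 (.cons 837 n1152 .nil)
noncomputable def n1215 : Strat := .move 800 n41 (.cons 801 n1214 .nil)
noncomputable def n1216 : Strat := .move 798 n696 (.cons 842 n1215 .nil)
noncomputable def n1217 : Strat := .move 797 n17 (.cons 796 n1216 .nil)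
noncomputable def n1218 : Strat := .win 798 2 755
noncomputable def n1219 : Strat := .move 755 n1218 (.cons 798 n67 .nil)
noncomputable def n1220 : Strat := .move 756 n59 (.cons 715 n1219 .nil)
noncomputable def n1221 : Strat := .move 799 n255 (.cons 837 n1220 .nil)
noncomputable def n1222 : Strat := .move 800 n41 (.cons 801 n1221 .nil)
noncomputable def n1223 : Strat := .move 879 n15 (.cons 878 n1222 .nil)
noncomputable def n1224 : Strat := .move 797 n17 (.cons 796 n1223 .nil)
noncomputable def n1225 : Strat := .move 841 n962 (.cons 878 n1217 (.cons 797 n1200 (.cons 842 n1224 .nil)))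
noncomputable def n1226 : Strat := .move 841 n31 (.cons 796 n53 (.cons 883 n44 (.cons 837 n163 .nil)))
noncomputable def n1227 : Strat := .move 841 n1192 (.cons 797 n1211 (.cons 879 n1217 .nil))
noncomputable def n1228 : Strat := .move 797 n94 (.cons 960 n95 .nil)
noncomputable def n1229 : Strat := .win 797 3 796
noncomputable def n1230 : Strat := .win 1000 1 836
noncomputable def n1231 : Strat := .win 918 1 795
noncomputable def n1232 : Strat := .move 959 n1230 (.cons 1000 n1231 .nil)
noncomputable def n1233 : Strat := .move 960 n1229 (.cons 797 n1232 .nil)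
noncomputable def n1234 : Strat := .win 961 6 796
noncomputable def n1235 : Strat := .move 920 n387 (.cons 755 n1234 .nil)
noncomputable def n1236 : Strat := .win 880 4 877
noncomputable def n1237 : Strat := .win 959 1 795
noncomputable def n1238 : Strat := .move 918 n1236 (.cons 880 n1237 .nil)
noncomputable def n1239 : Strat := .move 879 n177 (.cons 714 n1235 (.cons 920 n1238 .nil))
noncomputable def n1240 : Strat := .move 919 n1228 (.cons 756 n1233 (.cons 960 n1239 .nil))
noncomputable def n1241 : Strat := .move 881 n7 (.cons 882 n1240 .nil)
noncomputable def n1242 : Strat := .move 878 n2 (.cons 877 n1241 .nil)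
noncomputable def n1243 : Strat := .move 796 n0 (.cons 795 n1242 .nil)
noncomputable def n1244 : Strat := .move 837 n82 (.cons 881 n87 (.cons 836 n1243 .nil))
noncomputable def n1245 : Strat := .move 837 n77 (.cons 799 n1166 .nil)
noncomputable def n1246 : Strat := .move 880 n813 (.cons 842 n894 .nil)
noncomputable def n1247 : Strat := .move 797 n17 (.cons 796 n1246 .nil)
noncomputable def n1248 : Strat := .move 879 n15 (.cons 878 n1247 .nil)
noncomputable def n1249 : Strat := .move 881 n165 (.cons 837 n1048 .nil)
noncomputable def n1250 : Strat := .move 882 n27 (.cons 883 n1249 .nil)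
noncomputable def n1251 : Strat := .move 880 n813 (.cons 842 n1250 .nil)
noncomputable def n1252 : Strat := .move 879 n15 (.cons 878 n1251 .nil)
noncomputable def n1253 : Strat := .move 841 n1248 (.cons 879 n31 (.cons 796 n1252 .nil))
noncomputable def n1254 : Strat := .move 837 n391 (.cons 841 n82 (.cons 796 n392 .nil))
noncomputable def n1255 : Strat := .win 836 4 795
noncomputable def n1256 : Strat := .move 798 n1255 (.cons 836 n270 .nil)
noncomputable def n1257 : Strat := .move 799 n9 (.cons 800 n1256 .nil)
noncomputable def n1258 : Strat := .move 797 n217 (.cons 841 n1257 .nil)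
noncomputable def n1259 : Strat := .move 796 n0 (.cons 795 n1258 .nil)
noncomputable def n1260 : Strat := .move 837 n13 (.cons 880 n889 (.cons 881 n1259 .nil))
noncomputable def n1261 : Strat := .move 879 n15 (.cons 878 n676 .nil)
noncomputable def n1262 : Strat := .move 797 n17 (.cons 796 n1261 .nil)
noncomputable def n1263 : Strat := .win 799 5 756
noncomputable def n1264 : Strat := .move 760 n139 (.cons 719 n1263 .nil)
noncomputable def n1265 : Strat := .move 759 n133 (.cons 718 n1264 .nil)
noncomputable def n1266 : Strat := .move 882 n27 (.cons 883 n1265 .nil)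
noncomputable def n1267 : Strat := .move 800 n41 (.cons 801 n1266 .nil)
noncomputable def n1268 : Strat := .move 798 n696 (.cons 842 n1267 .nil)
noncomputable def n1269 : Strat := .move 797 n17 (.cons 796 n1268 .nil)
noncomputable def n1270 : Strat := .move 841 n1262 (.cons 797 n1207 (.cons 842 n163 (.cons 879 n1269 .nil)))
noncomputable def n1271 : Strat := .move 838 n1193 (.cons 797 n1212 (.cons 882 n1225 (.cons 842 n1226 (.cons 881 n1227 (.cons 841 n1244 (.cons 879 n1245 (.cons 799 n1253 (.cons 800 n1254 (.cons 878 n1260 (.cons 837 n1270 .nil))))))))))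
noncomputable def n1272 : Strat := .move 838 n35 (.cons 797 n50 (.cons 879 n55 (.cons 842 n73 .nil)))
noncomputable def n1273 : Strat := .move 838 n73 (.cons 796 n132 (.cons 878 n145 (.cons 800 n163 .nil)))
noncomputable def n1274 : Strat := .move 882 n27 (.cons 883 n815 .nil)
noncomputable def n1275 : Strat := .move 882 n815 (.cons 842 n169 .nil)
noncomputable def n1276 : Strat := .move 879 n15 (.cons 878 n813 .nil)
noncomputable def n1277 : Strat := .move 842 n424 (.cons 879 n433 .nil)
noncomputable def n1278 : Strat := .move 842 n18 (.cons 798 n433 .nil)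
noncomputable def n1279 : Strat := .move 797 n17 (.cons 796 n1278 .nil)
noncomputable def n1280 : Strat := .move 879 n15 (.cons 878 n226 .nil)
noncomputable def n1281 : Strat := .move 880 n1276 (.cons 878 n1277 (.cons 879 n1279 (.cons 842 n1280 .nil)))
noncomputable def n1282 : Strat := .move 838 n1274 (.cons 883 n1275 (.cons 880 n170 (.cons 882 n1281 .nil)))
noncomputable def n1283 : Strat := .move 879 n60 (.cons 920 n15 .nil)
noncomputable def n1284 : Strat := .move 757 n544 (.cons 716 n1283 .nil)
noncomputable def n1285 : Strat := .move 798 n696 (.cons 842 n1284 .nil)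
noncomputable def n1286 : Strat := .move 797 n17 (.cons 796 n1285 .nil)
noncomputable def n1287 : Strat := .move 882 n27 (.cons 883 n1286 .nil)
noncomputable def n1288 : Strat := .move 800 n41 (.cons 801 n1286 .nil)
noncomputable def n1289 : Strat := .move 838 n170 (.cons 801 n1287 (.cons 882 n1288 .nil))
noncomputable def n1290 : Strat := .move 880 n424 (.cons 879 n433 .nil)
noncomputable def n1291 : Strat := .move 880 n424 (.cons 879 n494 .nil)
noncomputable def n1292 : Strat := .move 798 n425 (.cons 797 n1291 .nil)
noncomputable def n1293 : Strat := .move 883 n419 (.cons 924 n23 .nil)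
noncomputable def n1294 : Strat := .move 759 n120 (.cons 718 n1293 .nil)
noncomputable def n1295 : Strat := .move 800 n417 (.cons 838 n1294 .nil)
noncomputable def n1296 : Strat := .move 801 n37 (.cons 802 n1295 .nil)
noncomputable def n1297 : Strat := .move 798 n425 (.cons 797 n1296 .nil)
noncomputable def n1298 : Strat := .move 842 n1290 (.cons 843 n1292 (.cons 880 n1297 .nil))
noncomputable def n1299 : Strat := .move 880 n433 (.cons 843 n616 .nil)
noncomputable def n1300 : Strat := .move 882 n1299 (.cons 880 n918 .nil)
noncomputable def n1301 : Strat := .move 883 n23 (.cons 884 n1300 .nil)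
noncomputable def n1302 : Strat := .move 843 n446 (.cons 885 n598 .nil)
noncomputable def n1303 : Strat := .move 884 n445 (.cons 883 n1302 .nil)
noncomputable def n1304 : Strat := .move 798 n425 (.cons 797 n494 .nil)
noncomputable def n1305 : Strat := .move 880 n424 (.cons 879 n1304 .nil)
noncomputable def n1306 : Strat := .move 842 n1290 (.cons 879 n1301 (.cons 880 n1303 (.cons 843 n1305 .nil)))
noncomputable def n1307 : Strat := .move 838 n1274 (.cons 883 n1275 (.cons 842 n170 (.cons 882 n50 .nil)))
noncomputable def n1308 : Strat := .move 922 n213 (.cons 963 n1128 .nil)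
noncomputable def n1309 : Strat := .move 798 n696 (.cons 842 n1308 .nil)
noncomputable def n1310 : Strat := .move 797 n17 (.cons 796 n1309 .nil)
noncomputable def n1311 : Strat := .win 880 4 878
noncomputable def n1312 : Strat := .move 919 n157 (.cons 960 n1311 .nil)
noncomputable def n1313 : Strat := .move 798 n64 (.cons 757 n63 .nil)
noncomputable def n1314 : Strat := .move 920 n1312 (.cons 880 n1313 .nil)
noncomputable def n1315 : Strat := .move 797 n17 (.cons 796 n1314 .nil)
noncomputable def n1316 : Strat := .move 879 n15 (.cons 878 n1315 .nil)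
noncomputable def n1317 : Strat := .move 880 n813 (.cons 842 n1055 .nil)
noncomputable def n1318 : Strat := .move 879 n15 (.cons 878 n1317 .nil)
noncomputable def n1319 : Strat := .move 882 n815 (.cons 879 n1310 (.cons 880 n1286 (.cons 842 n1316 (.cons 797 n1318 .nil))))
noncomputable def n1320 : Strat := .move 759 n570 (.cons 882 n120 .nil)
noncomputable def n1321 : Strat := .move 922 n167 (.cons 963 n1320 .nil)
noncomputable def n1322 : Strat := .move 800 n41 (.cons 801 n1321 .nil)
noncomputable def n1323 : Strat := .move 797 n17 (.cons 796 n1322 .nil)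
noncomputable def n1324 : Strat := .move 879 n15 (.cons 878 n1323 .nil)
noncomputable def n1325 : Strat := .move 838 n1275 (.cons 801 n1319 (.cons 963 n815 (.cons 842 n1324 (.cons 879 n1124 .nil))))
noncomputable def n1326 : Strat := .move 838 n170 (.cons 883 n1124 (.cons 800 n1126 (.cons 882 n1132 .nil)))
noncomputable def n1327 : Strat := .move 838 n1051 (.cons 880 n1053 (.cons 882 n50 (.cons 800 n1058 .nil)))
noncomputable def n1328 : Strat := .move 838 n27 (.cons 883 n169 .nil)
noncomputable def n1329 : Strat := .move 838 n169 (.cons 800 n1316 .nil)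
noncomputable def n1330 : Strat := .move 838 n27 (.cons 883 n1316 .nil)
noncomputable def n1331 : Strat := .move 963 n203 (.cons 798 n209 .nil)
noncomputable def n1332 : Strat := .win 1004 3 840
noncomputable def n1333 : Strat := .move 963 n1332 (.cons 1004 n203 .nil)
noncomputable def n1334 : Strat := .move 800 n122 (.cons 759 n167 .nil)
noncomputable def n1335 : Strat := .win 878 5 837
noncomputable def n1336 : Strat := .win 923 0 879
noncomputable def n1337 : Strat := .win 925 0 880
noncomputable def n1338 : Strat := .move 924 n1336 (.cons 923 n1337 .nil)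
noncomputable def n1339 : Strat := .move 879 n1335 (.cons 878 n1338 .nil)
noncomputable def n1340 : Strat := .move 922 n1331 (.cons 800 n1333 (.cons 798 n1334 (.cons 963 n1339 .nil)))
noncomputable def n1341 : Strat := .win 798 6 798
noncomputable def n1342 : Strat := .move 922 n1341 (.cons 798 n209 .nil)
noncomputable def n1343 : Strat := .move 922 n1332 (.cons 1004 n1341 .nil)
noncomputable def n1344 : Strat := .move 922 n1332 (.cons 1004 n209 .nil)
noncomputable def n1345 : Strat := .win 1004 6 839
noncomputable def n1346 : Strat := .move 962 n1345 (.cons 1004 n242 .nil)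
noncomputable def n1347 : Strat := .move 963 n1342 (.cons 800 n1343 (.cons 798 n1344 (.cons 922 n1346 .nil)))
noncomputable def n1348 : Strat := .move 921 n513 (.cons 920 n1347 .nil)
noncomputable def n1349 : Strat := .move 880 n1340 (.cons 879 n1348 (.cons 800 n1339 .nil))
noncomputable def n1350 : Strat := .move 883 n185 (.cons 884 n1349 .nil)
noncomputable def n1351 : Strat := .move 882 n1328 (.cons 883 n1329 (.cons 922 n1330 (.cons 838 n1350 .nil)))
noncomputable def n1352 : Strat := .move 882 n27 (.cons 883 n226 .nil)
noncomputable def n1353 : Strat := .move 880 n813 (.cons 842 n1352 .nil)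
noncomputable def n1354 : Strat := .move 879 n15 (.cons 878 n1353 .nil)
noncomputable def n1355 : Strat := .move 882 n27 (.cons 883 n1316 .nil)
noncomputable def n1356 : Strat := .move 882 n27 (.cons 883 n1318 .nil)
noncomputable def n1357 : Strat := .move 882 n27 (.cons 883 n1310 .nil)
noncomputable def n1358 : Strat := .move 838 n1354 (.cons 883 n1319 (.cons 880 n1287 (.cons 842 n1355 (.cons 797 n1356 (.cons 879 n1357 (.cons 882 n678 .nil))))))
noncomputable def n1359 : Strat := .move 842 n1290 (.cons 880 n499 .nil)
noncomputable def n1360 : Strat := .move 881 n1282 (.cons 880 n1289 (.cons 882 n1298 (.cons 838 n1306 (.cons 798 n1307 (.cons 883 n1325 (.cons 879 n1326 (.cons 797 n1327 (.cons 842 n1351 (.cons 801 n1358 (.cons 922 n1359 .nil))))))))))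
noncomputable def n1361 : Strat := .move 838 n50 (.cons 801 n26 (.cons 880 n975 .nil))
noncomputable def n1362 : Strat := .move 838 n55 (.cons 883 n40 (.cons 798 n914 .nil))
noncomputable def n1363 : Strat := .move 881 n1290 (.cons 879 n1301 (.cons 880 n1303 (.cons 843 n1305 .nil)))
noncomputable def n1364 : Strat := .move 798 n425 (.cons 797 n480 .nil)
noncomputable def n1365 : Strat := .win 761 5 757
noncomputable def n1366 : Strat := .win 678 1 677
noncomputable def n1367 : Strat := .move 719 n1366 (.cons 678 n936 .nil)
noncomputable def n1368 : Strat := .move 760 n1365 (.cons 761 n1367 .nil)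
noncomputable def n1369 : Strat := .move 798 n979 (.cons 843 n1368 .nil)
noncomputable def n1370 : Strat := .move 880 n424 (.cons 879 n338 .nil)
noncomputable def n1371 : Strat := .move 798 n979 (.cons 843 n1370 .nil)
noncomputable def n1372 : Strat := .move 883 n23 (.cons 884 n602 .nil)
noncomputable def n1373 : Strat := .move 800 n1369 (.cons 678 n1371 (.cons 798 n1372 .nil))
noncomputable def n1374 : Strat := .move 801 n37 (.cons 802 n1373 .nil)
noncomputable def n1375 : Strat := .move 843 n597 (.cons 803 n447 .nil)
noncomputable def n1376 : Strat := .move 802 n596 (.cons 801 n1375 .nil)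
noncomputable def n1377 : Strat := .move 798 n425 (.cons 797 n629 .nil)
noncomputable def n1378 : Strat := .move 799 n1364 (.cons 797 n1374 (.cons 798 n1376 (.cons 843 n1377 .nil)))
noncomputable def n1379 : Strat := .win 800 2 756
noncomputable def n1380 : Strat := .move 756 n1379 (.cons 800 n316 .nil)
noncomputable def n1381 : Strat := .move 799 n339 (.cons 717 n355 (.cons 921 n1380 .nil))
noncomputable def n1382 : Strat := .move 757 n545 (.cons 716 n1381 .nil)
noncomputable def n1383 : Strat := .move 801 n37 (.cons 802 n1382 .nil)
noncomputable def n1384 : Strat := .move 880 n424 (.cons 879 n1383 .nil)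
noncomputable def n1385 : Strat := .move 798 n425 (.cons 797 n1384 .nil)
noncomputable def n1386 : Strat := .move 842 n584 (.cons 799 n1363 (.cons 881 n1378 (.cons 798 n444 (.cons 880 n595 (.cons 843 n1385 .nil)))))
noncomputable def n1387 : Strat := .move 838 n21 (.cons 842 n163 (.cons 880 n55 (.cons 797 n26 .nil)))
noncomputable def n1388 : Strat := .move 838 n1262 (.cons 879 n40 (.cons 798 n897 (.cons 796 n50 (.cons 842 n73 .nil))))
noncomputable def n1389 : Strat := .move 841 n1272 (.cons 842 n1273 (.cons 798 n934 (.cons 880 n990 (.cons 799 n1360 (.cons 796 n431 (.cons 797 n1361 (.cons 879 n1362 (.cons 838 n1386 (.cons 800 n1387 (.cons 883 n1388 .nil))))))))))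
noncomputable def n1390 : Strat := .move 837 n391 (.cons 841 n82 (.cons 796 n13 .nil))
noncomputable def n1391 : Strat := .move 841 n1154 (.cons 842 n258 .nil)
noncomputable def n1392 : Strat := .move 800 n255 (.cons 837 n1391 .nil)
noncomputable def n1393 : Strat := .move 800 n1154 (.cons 842 n258 .nil)
noncomputable def n1394 : Strat := .move 798 n775 (.cons 842 n701 .nil)
noncomputable def n1395 : Strat := .move 797 n17 (.cons 796 n1394 .nil)
noncomputable def n1396 : Strat := .move 758 n310 (.cons 717 n1029 .nil)
noncomputable def n1397 : Strat := .move 880 n813 (.cons 842 n1396 .nil)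
noncomputable def n1398 : Strat := .move 879 n15 (.cons 878 n1397 .nil)
noncomputable def n1399 : Strat := .move 755 n67 (.cons 714 n1218 .nil)
noncomputable def n1400 : Strat := .move 756 n59 (.cons 715 n1399 .nil)
noncomputable def n1401 : Strat := .move 879 n15 (.cons 878 n1400 .nil)
noncomputable def n1402 : Strat := .move 797 n17 (.cons 796 n1401 .nil)
noncomputable def n1403 : Strat := .move 800 n1154 (.cons 715 n1395 (.cons 797 n1398 (.cons 798 n815 (.cons 842 n1402 .nil))))
noncomputable def n1404 : Strat := .move 800 n1395 (.cons 842 n258 .nil)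
noncomputable def n1405 : Strat := .move 923 n1022 (.cons 800 n111 .nil)
noncomputable def n1406 : Strat := .move 758 n136 (.cons 717 n1405 .nil)
noncomputable def n1407 : Strat := .move 882 n27 (.cons 883 n1406 .nil)
noncomputable def n1408 : Strat := .move 879 n15 (.cons 878 n1407 .nil)
noncomputable def n1409 : Strat := .move 797 n17 (.cons 796 n1408 .nil)
noncomputable def n1410 : Strat := .move 841 n1393 (.cons 883 n1403 (.cons 880 n1404 (.cons 717 n703 (.cons 842 n1409 (.cons 797 n1025 .nil)))))
noncomputable def n1411 : Strat := .move 837 n9 (.cons 800 n4 .nil)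
noncomputable def n1412 : Strat := .move 800 n255 (.cons 837 n258 .nil)
noncomputable def n1413 : Strat := .move 841 n1411 (.cons 878 n1412 (.cons 800 n815 .nil))
noncomputable def n1414 : Strat := .move 841 n696 (.cons 842 n328 .nil)
noncomputable def n1415 : Strat := .move 837 n1255 (.cons 836 n756 .nil)
noncomputable def n1416 : Strat := .move 796 n216 (.cons 795 n1415 .nil)
noncomputable def n1417 : Strat := .move 797 n283 (.cons 796 n1414 (.cons 841 n1416 .nil))
noncomputable def n1418 : Strat := .move 879 n176 (.cons 841 n1038 .nil)
noncomputable def n1419 : Strat := .move 878 n2 (.cons 877 n1418 .nil)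
noncomputable def n1420 : Strat := .move 837 n264 (.cons 836 n1419 .nil)
noncomputable def n1421 : Strat := .win 797 2 754
noncomputable def n1422 : Strat := .move 754 n98 (.cons 713 n1421 .nil)
noncomputable def n1423 : Strat := .move 755 n90 (.cons 714 n1422 .nil)
noncomputable def n1424 : Strat := .move 878 n2 (.cons 877 n1423 .nil)
noncomputable def n1425 : Strat := .move 796 n0 (.cons 795 n1424 .nil)
noncomputable def n1426 : Strat := .move 837 n264 (.cons 836 n1425 .nil)
noncomputable def n1427 : Strat := .move 837 n264 (.cons 836 n1148 .nil)
noncomputable def n1428 : Strat := .move 879 n15 (.cons 878 n240 .nil)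
noncomputable def n1429 : Strat := .move 841 n696 (.cons 842 n1428 .nil)
noncomputable def n1430 : Strat := .move 880 n355 (.cons 962 n356 (.cons 921 n1429 .nil))
noncomputable def n1431 : Strat := .move 797 n283 (.cons 841 n354 (.cons 795 n754 (.cons 796 n1430 .nil)))
noncomputable def n1432 : Strat := .move 798 n1417 (.cons 797 n1420 (.cons 841 n1426 (.cons 879 n1427 (.cons 837 n1431 .nil))))
noncomputable def n1433 : Strat := .move 799 n1392 (.cons 837 n1410 (.cons 841 n730 (.cons 798 n1413 (.cons 800 n1432 .nil))))
noncomputable def n1434 : Strat := .move 921 n154 (.cons 962 n153 .nil)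
noncomputable def n1435 : Strat := .move 880 n152 (.cons 715 n1434 (.cons 921 n158 .nil))
noncomputable def n1436 : Strat := .move 920 n1313 (.cons 961 n1435 .nil)
noncomputable def n1437 : Strat := .move 882 n27 (.cons 883 n1436 .nil)
noncomputable def n1438 : Strat := .move 797 n17 (.cons 796 n1437 .nil)
noncomputable def n1439 : Strat := .move 879 n15 (.cons 878 n1438 .nil)
noncomputable def n1440 : Strat := .move 841 n678 (.cons 797 n26 (.cons 880 n962 (.cons 878 n55 (.cons 842 n1439 .nil))))
noncomputable def n1441 : Strat := .move 841 n893 (.cons 882 n897 (.cons 879 n681 .nil))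
noncomputable def n1442 : Strat := .move 841 n962 (.cons 757 n31 (.cons 797 n377 .nil))
noncomputable def n1443 : Strat := .move 880 n175 (.cons 836 n840 .nil)
noncomputable def n1444 : Strat := .move 881 n7 (.cons 882 n1443 .nil)
noncomputable def n1445 : Strat := .move 879 n176 (.cons 841 n1444 .nil)
noncomputable def n1446 : Strat := .move 878 n2 (.cons 877 n1445 .nil)
noncomputable def n1447 : Strat := .win 880 0 878
noncomputable def n1448 : Strat := .move 923 n880 (.cons 964 n1447 .nil)
noncomputable def n1449 : Strat := .move 922 n1448 (.cons 880 n877 .nil)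
noncomputable def n1450 : Strat := .move 799 n9 (.cons 800 n1449 .nil)
noncomputable def n1451 : Strat := .move 881 n7 (.cons 882 n1450 .nil)
noncomputable def n1452 : Strat := .move 879 n176 (.cons 841 n1451 .nil)
noncomputable def n1453 : Strat := .move 878 n2 (.cons 877 n1452 .nil)
noncomputable def n1454 : Strat := .move 881 n7 (.cons 882 n651 .nil)
noncomputable def n1455 : Strat := .move 798 n264 (.cons 836 n1454 .nil)
noncomputable def n1456 : Strat := .move 799 n9 (.cons 800 n1455 .nil)
noncomputable def n1457 : Strat := .move 878 n2 (.cons 877 n1456 .nil)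
noncomputable def n1458 : Strat := .move 837 n13 (.cons 799 n1446 (.cons 836 n1453 (.cons 880 n1457 (.cons 881 n413 .nil))))
noncomputable def n1459 : Strat := .win 798 5 755
noncomputable def n1460 : Strat := .move 759 n788 (.cons 718 n1459 .nil)
noncomputable def n1461 : Strat := .move 758 n785 (.cons 717 n1460 .nil)
noncomputable def n1462 : Strat := .move 881 n7 (.cons 882 n1461 .nil)
noncomputable def n1463 : Strat := .move 799 n9 (.cons 800 n1462 .nil)
noncomputable def n1464 : Strat := .move 797 n217 (.cons 841 n1463 .nil)
noncomputable def n1465 : Strat := .move 796 n0 (.cons 795 n1464 .nil)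
noncomputable def n1466 : Strat := .move 837 n13 (.cons 798 n82 (.cons 836 n1465 (.cons 880 n1259 .nil)))
noncomputable def n1467 : Strat := .move 878 n2 (.cons 877 n402 .nil)
noncomputable def n1468 : Strat := .move 796 n0 (.cons 795 n1467 .nil)
noncomputable def n1469 : Strat := .move 837 n1468 (.cons 841 n87 (.cons 877 n1259 .nil))
noncomputable def n1470 : Strat := .move 837 n82 (.cons 836 n1166 (.cons 796 n13 .nil))
noncomputable def n1471 : Strat := .move 838 n1390 (.cons 881 n1433 (.cons 837 n1440 (.cons 798 n1441 (.cons 841 n1244 (.cons 880 n1442 (.cons 796 n1458 (.cons 878 n1466 (.cons 882 n1469 (.cons 879 n1470 .nil)))))))))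
noncomputable def n1472 : Strat := .move 837 n404 (.cons 841 n87 (.cons 878 n77 .nil))
noncomputable def n1473 : Strat := .move 841 n815 (.cons 842 n169 .nil)
noncomputable def n1474 : Strat := .move 882 n165 (.cons 837 n1473 .nil)
noncomputable def n1475 : Strat := .move 841 n1275 (.cons 801 n1319 (.cons 963 n815 (.cons 842 n1324 (.cons 879 n1124 .nil))))
noncomputable def n1476 : Strat := .move 837 n7 (.cons 882 n29 .nil)
noncomputable def n1477 : Strat := .move 882 n165 (.cons 837 n169 .nil)
noncomputable def n1478 : Strat := .move 841 n1476 (.cons 796 n1477 (.cons 882 n703 .nil))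
noncomputable def n1479 : Strat := .move 841 n813 (.cons 842 n226 .nil)
noncomputable def n1480 : Strat := .move 837 n175 (.cons 836 n178 .nil)
noncomputable def n1481 : Strat := .move 878 n189 (.cons 877 n1480 .nil)
noncomputable def n1482 : Strat := .move 879 n190 (.cons 878 n1479 (.cons 841 n1481 .nil))
noncomputable def n1483 : Strat := .move 878 n91 (.cons 919 n2 .nil)
noncomputable def n1484 : Strat := .move 756 n58 (.cons 715 n1483 .nil)
noncomputable def n1485 : Strat := .move 797 n217 (.cons 841 n1484 .nil)
noncomputable def n1486 : Strat := .move 796 n0 (.cons 795 n1485 .nil)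
noncomputable def n1487 : Strat := .move 837 n175 (.cons 836 n1486 .nil)
noncomputable def n1488 : Strat := .win 879 4 877
noncomputable def n1489 : Strat := .move 918 n1237 (.cons 959 n1488 .nil)
noncomputable def n1490 : Strat := .move 797 n95 (.cons 756 n94 .nil)
noncomputable def n1491 : Strat := .move 919 n1489 (.cons 879 n1490 .nil)
noncomputable def n1492 : Strat := .move 796 n0 (.cons 795 n1491 .nil)
noncomputable def n1493 : Strat := .move 878 n2 (.cons 877 n1492 .nil)
noncomputable def n1494 : Strat := .move 837 n175 (.cons 836 n1493 .nil)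
noncomputable def n1495 : Strat := .move 837 n175 (.cons 836 n180 .nil)
noncomputable def n1496 : Strat := .move 798 n239 (.cons 716 n240 (.cons 757 n1479 .nil))
noncomputable def n1497 : Strat := .move 879 n190 (.cons 841 n237 (.cons 877 n845 (.cons 878 n1496 .nil)))
noncomputable def n1498 : Strat := .move 842 n433 (.cons 843 n424 .nil)
noncomputable def n1499 : Strat := .move 841 n1 (.cons 797 n1498 .nil)
noncomputable def n1500 : Strat := .move 796 n0 (.cons 795 n1499 .nil)
noncomputable def n1501 : Strat := .move 837 n175 (.cons 836 n1500 .nil)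
noncomputable def n1502 : Strat := .move 878 n2 (.cons 877 n841 .nil)
noncomputable def n1503 : Strat := .move 837 n175 (.cons 836 n1502 .nil)
noncomputable def n1504 : Strat := .move 880 n1482 (.cons 879 n1487 (.cons 841 n1494 (.cons 797 n1495 (.cons 837 n1497 (.cons 878 n1501 (.cons 796 n1503 .nil))))))
noncomputable def n1505 : Strat := .move 880 n175 (.cons 836 n1502 .nil)
noncomputable def n1506 : Strat := .move 837 n7 (.cons 882 n1505 .nil)
noncomputable def n1507 : Strat := .move 881 n1474 (.cons 837 n1475 (.cons 841 n819 (.cons 880 n1478 (.cons 882 n1504 (.cons 796 n1506 .nil)))))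
noncomputable def n1508 : Strat := .move 841 n1262 (.cons 879 n40 (.cons 798 n897 (.cons 796 n50 (.cons 842 n73 .nil))))
noncomputable def n1509 : Strat := .move 841 n685 (.cons 800 n962 (.cons 797 n707 .nil))
noncomputable def n1510 : Strat := .move 797 n1114 (.cons 960 n93 (.cons 756 n99 .nil))
noncomputable def n1511 : Strat := .move 755 n90 (.cons 714 n1510 .nil)
noncomputable def n1512 : Strat := .move 799 n9 (.cons 800 n1511 .nil)
noncomputable def n1513 : Strat := .move 796 n0 (.cons 795 n1512 .nil)
noncomputable def n1514 : Strat := .move 878 n2 (.cons 877 n1513 .nil)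
noncomputable def n1515 : Strat := .move 837 n87 (.cons 799 n82 (.cons 836 n1514 .nil))
noncomputable def n1516 : Strat := .move 841 n897 (.cons 921 n44 (.cons 879 n384 .nil))
noncomputable def n1517 : Strat := .move 799 n9 (.cons 800 n555 .nil)
noncomputable def n1518 : Strat := .move 880 n175 (.cons 836 n1517 .nil)
noncomputable def n1519 : Strat := .move 881 n7 (.cons 882 n1518 .nil)
noncomputable def n1520 : Strat := .move 796 n0 (.cons 795 n1519 .nil)
noncomputable def n1521 : Strat := .move 837 n77 (.cons 881 n1259 (.cons 836 n1465 (.cons 798 n1520 (.cons 799 n399 .nil))))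
noncomputable def n1522 : Strat := .move 879 n176 (.cons 841 n1519 .nil)
noncomputable def n1523 : Strat := .move 878 n2 (.cons 877 n1522 .nil)
noncomputable def n1524 : Strat := .move 881 n7 (.cons 882 n1505 .nil)
noncomputable def n1525 : Strat := .move 837 n77 (.cons 880 n87 (.cons 836 n1453 (.cons 798 n1523 (.cons 799 n1524 .nil))))
noncomputable def n1526 : Strat := .move 879 n176 (.cons 841 n1065 .nil)
noncomputable def n1527 : Strat := .move 796 n0 (.cons 795 n1526 .nil)
noncomputable def n1528 : Strat := .move 878 n2 (.cons 877 n1527 .nil)
noncomputable def n1529 : Strat := .move 837 n1528 (.cons 841 n82 (.cons 795 n1446 .nil))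
noncomputable def n1530 : Strat := .move 837 n87 (.cons 836 n1068 (.cons 878 n77 .nil))
noncomputable def n1531 : Strat := .move 838 n1472 (.cons 799 n1507 (.cons 837 n1508 (.cons 880 n1509 (.cons 841 n1515 (.cons 798 n1516 (.cons 878 n1521 (.cons 796 n1525 (.cons 800 n1529 (.cons 797 n1530 .nil)))))))))
noncomputable def n1532 : Strat := .move 838 n22 (.cons 882 n19 .nil)
noncomputable def n1533 : Strat := .move 883 n23 (.cons 884 n1532 .nil)
noncomputable def n1534 : Strat := .move 842 n430 (.cons 880 n1533 (.cons 797 n955 .nil))
noncomputable def n1535 : Strat := .move 842 n449 (.cons 798 n475 (.cons 883 n992 .nil))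
noncomputable def n1536 : Strat := .move 842 n955 (.cons 884 n600 (.cons 843 n475 .nil))
noncomputable def n1537 : Strat := .move 799 n337 (.cons 962 n336 .nil)
noncomputable def n1538 : Strat := .move 961 n246 (.cons 1002 n245 .nil)
noncomputable def n1539 : Strat := .move 962 n850 (.cons 799 n1538 .nil)
noncomputable def n1540 : Strat := .win 922 6 798
noncomputable def n1541 : Strat := .move 962 n1345 (.cons 1004 n1538 .nil)
noncomputable def n1542 : Strat := .move 963 n1540 (.cons 922 n1541 .nil)
noncomputable def n1543 : Strat := .win 799 3 757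
noncomputable def n1544 : Strat := .win 717 3 716
noncomputable def n1545 : Strat := .move 757 n1544 (.cons 717 n545 .nil)
noncomputable def n1546 : Strat := .move 758 n1543 (.cons 799 n1545 .nil)
noncomputable def n1547 : Strat := .move 921 n1537 (.cons 758 n1539 (.cons 799 n1542 (.cons 962 n1546 .nil)))
noncomputable def n1548 : Strat := .move 798 n425 (.cons 797 n1547 .nil)
noncomputable def n1549 : Strat := .move 880 n424 (.cons 879 n1548 .nil)
noncomputable def n1550 : Strat := .move 842 n430 (.cons 843 n1549 (.cons 880 n992 (.cons 798 n600 .nil)))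
noncomputable def n1551 : Strat := .move 797 n17 (.cons 796 n160 .nil)
noncomputable def n1552 : Strat := .move 879 n15 (.cons 878 n1551 .nil)
noncomputable def n1553 : Strat := .win 798 3 756
noncomputable def n1554 : Strat := .win 716 3 715
noncomputable def n1555 : Strat := .move 757 n1553 (.cons 798 n1554 .nil)
noncomputable def n1556 : Strat := .move 756 n1555 (.cons 716 n59 .nil)
noncomputable def n1557 : Strat := .win 1003 6 838
noncomputable def n1558 : Strat := .win 921 6 797
noncomputable def n1559 : Strat := .move 962 n1557 (.cons 1003 n1558 .nil)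
noncomputable def n1560 : Strat := .move 961 n150 (.cons 919 n1559 .nil)
noncomputable def n1561 : Strat := .move 920 n146 (.cons 757 n151 (.cons 961 n1556 (.cons 798 n1560 .nil)))
noncomputable def n1562 : Strat := .move 879 n15 (.cons 878 n1561 .nil)
noncomputable def n1563 : Strat := .move 797 n17 (.cons 796 n1562 .nil)
noncomputable def n1564 : Strat := .move 882 n30 (.cons 837 n1552 (.cons 881 n1563 (.cons 797 n892 .nil)))
noncomputable def n1565 : Strat := .move 882 n27 (.cons 883 n1563 .nil)
noncomputable def n1566 : Strat := .move 880 n58 (.cons 715 n57 .nil)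
noncomputable def n1567 : Strat := .win 757 3 715
noncomputable def n1568 : Strat := .win 675 3 674
noncomputable def n1569 : Strat := .win 673 7 673
noncomputable def n1570 : Strat := .win 755 7 714
noncomputable def n1571 : Strat := .move 714 n1569 (.cons 673 n1570 .nil)
noncomputable def n1572 : Strat := .move 715 n1568 (.cons 675 n1571 .nil)
noncomputable def n1573 : Strat := .move 716 n1567 (.cons 757 n1572 .nil)
noncomputable def n1574 : Strat := .win 880 6 756
noncomputable def n1575 : Strat := .move 920 n154 (.cons 962 n1555 .nil)
noncomputable def n1576 : Strat := .move 921 n1574 (.cons 880 n1575 .nil)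
noncomputable def n1577 : Strat := .move 756 n1566 (.cons 880 n1573 (.cons 715 n1576 .nil))
noncomputable def n1578 : Strat := .move 879 n15 (.cons 878 n1577 .nil)
noncomputable def n1579 : Strat := .move 797 n17 (.cons 796 n1578 .nil)
noncomputable def n1580 : Strat := .move 838 n31 (.cons 797 n893 (.cons 883 n1564 (.cons 837 n163 (.cons 881 n1565 (.cons 882 n1579 .nil)))))
noncomputable def n1581 : Strat := .move 841 n1534 (.cons 880 n977 (.cons 798 n932 (.cons 879 n1535 (.cons 797 n1536 (.cons 883 n1550 (.cons 842 n1580 .nil))))))
noncomputable def n1582 : Strat := .move 842 n584 (.cons 798 n688 (.cons 879 n992 .nil))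
noncomputable def n1583 : Strat := .move 842 n600 (.cons 880 n613 (.cons 801 n955 .nil))
noncomputable def n1584 : Strat := .move 842 n992 (.cons 802 n449 (.cons 843 n613 .nil))
noncomputable def n1585 : Strat := .move 881 n544 (.cons 716 n238 .nil)
noncomputable def n1586 : Strat := .win 676 3 675
noncomputable def n1587 : Strat := .win 758 3 716
noncomputable def n1588 : Strat := .move 717 n1586 (.cons 676 n1587 .nil)
noncomputable def n1589 : Strat := .move 716 n532 (.cons 881 n1588 .nil)
noncomputable def n1590 : Strat := .win 756 7 715
noncomputable def n1591 : Strat := .move 715 n360 (.cons 674 n1590 .nil)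
noncomputable def n1592 : Strat := .move 716 n1586 (.cons 676 n1591 .nil)
noncomputable def n1593 : Strat := .move 717 n1587 (.cons 758 n1592 .nil)
noncomputable def n1594 : Strat := .win 881 6 757
noncomputable def n1595 : Strat := .move 758 n1543 (.cons 799 n1544 .nil)
noncomputable def n1596 : Strat := .move 921 n852 (.cons 963 n1595 .nil)
noncomputable def n1597 : Strat := .move 922 n1594 (.cons 881 n1596 .nil)
noncomputable def n1598 : Strat := .move 757 n1585 (.cons 922 n1589 (.cons 881 n1593 (.cons 716 n1597 .nil)))
noncomputable def n1599 : Strat := .move 880 n424 (.cons 879 n1598 .nil)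
noncomputable def n1600 : Strat := .move 798 n425 (.cons 797 n1599 .nil)
noncomputable def n1601 : Strat := .move 842 n584 (.cons 843 n1600 (.cons 798 n955 (.cons 880 n449 .nil)))
noncomputable def n1602 : Strat := .move 879 n15 (.cons 878 n70 .nil)
noncomputable def n1603 : Strat := .move 797 n17 (.cons 796 n1602 .nil)
noncomputable def n1604 : Strat := .move 921 n154 (.cons 962 n1574 .nil)
noncomputable def n1605 : Strat := .move 920 n1313 (.cons 961 n1555 (.cons 757 n1604 .nil))
noncomputable def n1606 : Strat := .move 716 n1568 (.cons 675 n1567 .nil)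
noncomputable def n1607 : Strat := .move 715 n285 (.cons 880 n1606 .nil)
noncomputable def n1608 : Strat := .move 715 n1606 (.cons 757 n1571 .nil)
noncomputable def n1609 : Strat := .move 756 n59 (.cons 715 n1605 (.cons 921 n1607 (.cons 880 n1608 .nil)))
noncomputable def n1610 : Strat := .move 797 n17 (.cons 796 n1609 .nil)
noncomputable def n1611 : Strat := .move 879 n15 (.cons 878 n1610 .nil)
noncomputable def n1612 : Strat := .move 800 n706 (.cons 837 n1603 (.cons 799 n1611 (.cons 879 n684 .nil)))
noncomputable def n1613 : Strat := .move 797 n17 (.cons 796 n71 .nil)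
noncomputable def n1614 : Strat := .move 879 n15 (.cons 878 n1613 .nil)
noncomputable def n1615 : Strat := .move 800 n41 (.cons 801 n1611 .nil)
noncomputable def n1616 : Strat := .move 838 n707 (.cons 879 n685 (.cons 801 n1612 (.cons 837 n1614 (.cons 799 n1615 (.cons 800 n1579 .nil)))))
noncomputable def n1617 : Strat := .move 841 n1582 (.cons 798 n916 (.cons 880 n988 (.cons 797 n1583 (.cons 879 n1584 (.cons 801 n1601 (.cons 842 n1616 .nil))))))
noncomputable def n1618 : Strat := .move 841 n26 (.cons 879 n681 (.cons 882 n50 .nil))
noncomputable def n1619 : Strat := .move 841 n1262 (.cons 797 n50 (.cons 879 n55 (.cons 842 n1579 .nil)))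
noncomputable def n1620 : Strat := .move 841 n55 (.cons 842 n382 (.cons 883 n40 .nil))
noncomputable def n1621 : Strat := .move 841 n678 (.cons 842 n1615 (.cons 798 n50 (.cons 879 n40 .nil)))
noncomputable def n1622 : Strat := .move 841 n26 (.cons 842 n382 (.cons 883 n50 .nil))
noncomputable def n1623 : Strat := .move 920 n1234 (.cons 961 n387 .nil)
noncomputable def n1624 : Strat := .move 879 n177 (.cons 714 n1623 (.cons 920 n1238 .nil))
noncomputable def n1625 : Strat := .move 919 n1490 (.cons 960 n1624 .nil)
noncomputable def n1626 : Strat := .move 796 n0 (.cons 795 n1625 .nil)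
noncomputable def n1627 : Strat := .move 878 n2 (.cons 877 n1626 .nil)
noncomputable def n1628 : Strat := .win 797 3 755
noncomputable def n1629 : Strat := .win 715 3 714
noncomputable def n1630 : Strat := .move 756 n1628 (.cons 797 n1629 .nil)
noncomputable def n1631 : Strat := .move 755 n1630 (.cons 715 n90 .nil)
noncomputable def n1632 : Strat := .win 1002 6 837
noncomputable def n1633 : Strat := .win 920 6 796
noncomputable def n1634 : Strat := .move 961 n1632 (.cons 1002 n1633 .nil)
noncomputable def n1635 : Strat := .move 960 n1232 (.cons 918 n1634 .nil)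
noncomputable def n1636 : Strat := .move 919 n1228 (.cons 756 n1233 (.cons 960 n1631 (.cons 797 n1635 .nil)))
noncomputable def n1637 : Strat := .move 878 n2 (.cons 877 n1636 .nil)
noncomputable def n1638 : Strat := .move 796 n0 (.cons 795 n1637 .nil)
noncomputable def n1639 : Strat := .move 881 n81 (.cons 836 n1627 (.cons 796 n182 (.cons 880 n1638 .nil)))
noncomputable def n1640 : Strat := .move 881 n7 (.cons 882 n1638 .nil)
noncomputable def n1641 : Strat := .move 879 n89 (.cons 714 n88 .nil)
noncomputable def n1642 : Strat := .win 756 3 714
noncomputable def n1643 : Strat := .win 674 3 673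
noncomputable def n1644 : Strat := .win 672 7 672
noncomputable def n1645 : Strat := .win 754 7 713
noncomputable def n1646 : Strat := .move 713 n1644 (.cons 672 n1645 .nil)
noncomputable def n1647 : Strat := .move 714 n1643 (.cons 674 n1646 .nil)
noncomputable def n1648 : Strat := .move 715 n1642 (.cons 756 n1647 .nil)
noncomputable def n1649 : Strat := .win 879 6 755
noncomputable def n1650 : Strat := .move 919 n1234 (.cons 961 n1630 .nil)
noncomputable def n1651 : Strat := .move 920 n1649 (.cons 879 n1650 .nil)
noncomputable def n1652 : Strat := .move 755 n1641 (.cons 879 n1648 (.cons 714 n1651 .nil))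
noncomputable def n1653 : Strat := .move 878 n2 (.cons 877 n1652 .nil)
noncomputable def n1654 : Strat := .move 796 n0 (.cons 795 n1653 .nil)
noncomputable def n1655 : Strat := .move 837 n82 (.cons 796 n392 (.cons 882 n1639 (.cons 880 n1640 (.cons 881 n1654 .nil))))
noncomputable def n1656 : Strat := .move 838 n32 (.cons 879 n1146 (.cons 797 n1062 (.cons 798 n1618 (.cons 883 n1507 (.cons 842 n254 (.cons 881 n1619 (.cons 878 n1620 (.cons 882 n1621 (.cons 796 n1622 (.cons 841 n1655 .nil))))))))))
noncomputable def n1657 : Strat := .move 841 n40 (.cons 797 n707 (.cons 800 n55 .nil))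
noncomputable def n1658 : Strat := .move 841 n50 (.cons 842 n375 (.cons 801 n26 .nil))
noncomputable def n1659 : Strat := .move 841 n1262 (.cons 842 n1565 (.cons 880 n55 (.cons 797 n26 .nil)))
noncomputable def n1660 : Strat := .move 841 n40 (.cons 842 n375 (.cons 801 n55 .nil))
noncomputable def n1661 : Strat := .move 878 n2 (.cons 877 n101 .nil)
noncomputable def n1662 : Strat := .move 796 n0 (.cons 795 n1661 .nil)
noncomputable def n1663 : Strat := .move 920 n1234 (.cons 961 n1649 .nil)
noncomputable def n1664 : Strat := .move 919 n1490 (.cons 960 n1630 (.cons 756 n1663 .nil))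
noncomputable def n1665 : Strat := .move 715 n1643 (.cons 674 n1642 .nil)
noncomputable def n1666 : Strat := .move 714 n268 (.cons 879 n1665 .nil)
noncomputable def n1667 : Strat := .move 714 n1665 (.cons 756 n1646 .nil)
noncomputable def n1668 : Strat := .move 755 n90 (.cons 714 n1664 (.cons 920 n1666 (.cons 879 n1667 .nil)))
noncomputable def n1669 : Strat := .move 796 n0 (.cons 795 n1668 .nil)
noncomputable def n1670 : Strat := .move 878 n2 (.cons 877 n1669 .nil)
noncomputable def n1671 : Strat := .move 799 n86 (.cons 836 n1662 (.cons 878 n405 (.cons 798 n1670 .nil)))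
noncomputable def n1672 : Strat := .move 799 n9 (.cons 800 n1670 .nil)
noncomputable def n1673 : Strat := .move 837 n87 (.cons 878 n406 (.cons 800 n1671 (.cons 798 n1672 (.cons 799 n1654 .nil))))
noncomputable def n1674 : Strat := .move 838 n45 (.cons 797 n1046 (.cons 879 n1161 (.cons 880 n1657 (.cons 801 n1433 (.cons 842 n373 (.cons 799 n1619 (.cons 796 n1658 (.cons 800 n1659 (.cons 878 n1660 (.cons 841 n1673 .nil))))))))))
noncomputable def n1675 : Strat := .move 922 n213 (.cons 963 n1127 .nil)
noncomputable def n1676 : Strat := .move 757 n544 (.cons 716 n1675 .nil)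
noncomputable def n1677 : Strat := .move 801 n279 (.cons 802 n481 .nil)
noncomputable def n1678 : Strat := .move 800 n562 (.cons 759 n1677 .nil)
noncomputable def n1679 : Strat := .move 880 n514 (.cons 758 n1678 .nil)
noncomputable def n1680 : Strat := .move 921 n556 (.cons 962 n1679 .nil)
noncomputable def n1681 : Strat := .move 799 n648 (.cons 757 n1680 .nil)
noncomputable def n1682 : Strat := .move 922 n213 (.cons 963 n1681 .nil)
noncomputable def n1683 : Strat := .move 838 n282 (.cons 801 n255 .nil)
noncomputable def n1684 : Strat := .move 800 n562 (.cons 759 n1683 .nil)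
noncomputable def n1685 : Strat := .win 883 4 879
noncomputable def n1686 : Strat := .win 919 5 878
noncomputable def n1687 : Strat := .move 882 n1685 (.cons 883 n1686 .nil)
noncomputable def n1688 : Strat := .move 920 n521 (.cons 961 n1687 .nil)
noncomputable def n1689 : Strat := .move 880 n514 (.cons 758 n1688 .nil)
noncomputable def n1690 : Strat := .move 921 n556 (.cons 962 n1689 .nil)
noncomputable def n1691 : Strat := .move 799 n1680 (.cons 921 n1684 (.cons 800 n1690 .nil))
noncomputable def n1692 : Strat := .move 922 n213 (.cons 963 n1691 .nil)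
noncomputable def n1693 : Strat := .win 800 0 755
noncomputable def n1694 : Strat := .win 754 0 754
noncomputable def n1695 : Strat := .move 755 n1693 (.cons 800 n1694 .nil)
noncomputable def n1696 : Strat := .move 756 n316 (.cons 715 n1695 .nil)
noncomputable def n1697 : Strat := .move 799 n554 (.cons 921 n1696 .nil)
noncomputable def n1698 : Strat := .move 758 n1544 (.cons 717 n1697 .nil)
noncomputable def n1699 : Strat := .win 796 4 755
noncomputable def n1700 : Strat := .move 759 n1699 (.cons 796 n760 .nil)
noncomputable def n1701 : Strat := .move 797 n291 (.cons 921 n1700 .nil)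
noncomputable def n1702 : Strat := .move 756 n316 (.cons 715 n1701 .nil)
noncomputable def n1703 : Strat := .move 758 n1544 (.cons 717 n1702 .nil)
noncomputable def n1704 : Strat := .win 838 0 836
noncomputable def n1705 : Strat := .win 878 2 836
noncomputable def n1706 : Strat := .move 879 n1705 (.cons 878 n341 .nil)
noncomputable def n1707 : Strat := .move 837 n1704 (.cons 838 n1706 .nil)
noncomputable def n1708 : Strat := .win 797 7 756
noncomputable def n1709 : Strat := .move 921 n1708 (.cons 797 n337 .nil)
noncomputable def n1710 : Strat := .move 756 n316 (.cons 715 n1709 .nil)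
noncomputable def n1711 : Strat := .move 836 n1707 (.cons 837 n1710 .nil)
noncomputable def n1712 : Strat := .win 879 1 756
noncomputable def n1713 : Strat := .move 920 n521 (.cons 961 n1712 .nil)
noncomputable def n1714 : Strat := .move 921 n337 (.cons 962 n1713 .nil)
noncomputable def n1715 : Strat := .move 838 n175 (.cons 836 n7 .nil)
noncomputable def n1716 : Strat := .move 838 n9 (.cons 800 n175 .nil)
noncomputable def n1717 : Strat := .move 838 n9 (.cons 800 n7 .nil)
noncomputable def n1718 : Strat := .win 836 2 836
noncomputable def n1719 : Strat := .move 878 n1718 (.cons 836 n189 .nil)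
noncomputable def n1720 : Strat := .move 837 n1715 (.cons 882 n1716 (.cons 836 n1717 (.cons 838 n1719 .nil)))
noncomputable def n1721 : Strat := .move 879 n341 (.cons 920 n1720 .nil)
noncomputable def n1722 : Strat := .move 799 n1711 (.cons 838 n1714 (.cons 921 n1721 (.cons 920 n1710 .nil)))
noncomputable def n1723 : Strat := .win 838 2 838
noncomputable def n1724 : Strat := .move 883 n1723 (.cons 838 n185 .nil)
noncomputable def n1725 : Strat := .move 838 n188 (.cons 883 n165 .nil)
noncomputable def n1726 : Strat := .win 799 6 758
noncomputable def n1727 : Strat := .move 923 n198 (.cons 924 n1726 .nil)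
noncomputable def n1728 : Strat := .move 882 n1724 (.cons 884 n1725 (.cons 838 n1727 .nil))
noncomputable def n1729 : Strat := .move 879 n341 (.cons 920 n1728 .nil)
noncomputable def n1730 : Strat := .move 758 n1544 (.cons 717 n1729 .nil)
noncomputable def n1731 : Strat := .move 880 n1698 (.cons 799 n1703 (.cons 758 n1722 (.cons 921 n1730 .nil)))
noncomputable def n1732 : Strat := .move 757 n544 (.cons 716 n1731 .nil)
noncomputable def n1733 : Strat := .move 799 n648 (.cons 757 n1684 .nil)
noncomputable def n1734 : Strat := .move 922 n213 (.cons 963 n1733 .nil)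
noncomputable def n1735 : Strat := .move 881 n1676 (.cons 716 n1682 (.cons 757 n1692 (.cons 922 n1732 (.cons 880 n1734 .nil))))
noncomputable def n1736 : Strat := .move 716 n532 (.cons 881 n1586 .nil)
noncomputable def n1737 : Strat := .move 880 n1587 (.cons 758 n1585 .nil)
noncomputable def n1738 : Strat := .move 921 n521 (.cons 961 n851 .nil)
noncomputable def n1739 : Strat := .move 920 n1712 (.cons 879 n1738 .nil)
noncomputable def n1740 : Strat := .move 881 n238 (.cons 922 n1739 .nil)
noncomputable def n1741 : Strat := .move 880 n1587 (.cons 758 n1740 .nil)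
noncomputable def n1742 : Strat := .win 880 3 716
noncomputable def n1743 : Strat := .win 759 0 714
noncomputable def n1744 : Strat := .win 713 0 713
noncomputable def n1745 : Strat := .move 714 n1743 (.cons 759 n1744 .nil)
noncomputable def n1746 : Strat := .move 715 n360 (.cons 674 n1745 .nil)
noncomputable def n1747 : Strat := .move 799 n313 (.cons 675 n1746 .nil)
noncomputable def n1748 : Strat := .move 758 n1742 (.cons 880 n1747 .nil)
noncomputable def n1749 : Strat := .move 716 n1586 (.cons 676 n1748 .nil)
noncomputable def n1750 : Strat := .move 717 n1736 (.cons 676 n1737 (.cons 716 n1741 (.cons 881 n1749 .nil)))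
noncomputable def n1751 : Strat := .move 717 n1586 (.cons 676 n1748 .nil)
noncomputable def n1752 : Strat := .win 799 6 675
noncomputable def n1753 : Strat := .win 715 7 674
noncomputable def n1754 : Strat := .win 633 7 633
noncomputable def n1755 : Strat := .move 674 n1753 (.cons 715 n1754 .nil)
noncomputable def n1756 : Strat := .move 675 n1752 (.cons 799 n1755 .nil)
noncomputable def n1757 : Strat := .win 717 3 675
noncomputable def n1758 : Strat := .win 635 3 634
noncomputable def n1759 : Strat := .move 676 n1757 (.cons 717 n1758 .nil)
noncomputable def n1760 : Strat := .move 675 n1752 (.cons 799 n1759 .nil)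
noncomputable def n1761 : Strat := .move 880 n1587 (.cons 758 n1591 .nil)
noncomputable def n1762 : Strat := .move 717 n1586 (.cons 676 n1761 .nil)
noncomputable def n1763 : Strat := .move 716 n1751 (.cons 717 n1756 (.cons 715 n1760 (.cons 675 n1762 .nil)))
noncomputable def n1764 : Strat := .win 799 7 757
noncomputable def n1765 : Strat := .move 922 n213 (.cons 963 n1764 .nil)
noncomputable def n1766 : Strat := .move 881 n544 (.cons 716 n1765 .nil)
noncomputable def n1767 : Strat := .move 880 n1544 (.cons 717 n1585 .nil)
noncomputable def n1768 : Strat := .win 838 1 715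
noncomputable def n1769 : Strat := .move 716 n360 (.cons 674 n1768 .nil)
noncomputable def n1770 : Strat := .move 715 n1590 (.cons 756 n1769 .nil)
noncomputable def n1771 : Strat := .move 879 n341 (.cons 920 n1770 .nil)
noncomputable def n1772 : Strat := .move 880 n1544 (.cons 717 n1771 .nil)
noncomputable def n1773 : Strat := .move 717 n1586 (.cons 676 n1746 .nil)
noncomputable def n1774 : Strat := .move 716 n532 (.cons 881 n1773 .nil)
noncomputable def n1775 : Strat := .win 880 7 715
noncomputable def n1776 : Strat := .win 714 2 714
noncomputable def n1777 : Strat := .win 760 2 715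
noncomputable def n1778 : Strat := .move 759 n1776 (.cons 714 n1777 .nil)
noncomputable def n1779 : Strat := .move 756 n1775 (.cons 880 n1778 .nil)
noncomputable def n1780 : Strat := .move 715 n360 (.cons 674 n1779 .nil)
noncomputable def n1781 : Strat := .move 716 n532 (.cons 881 n1780 .nil)
noncomputable def n1782 : Strat := .move 921 n852 (.cons 963 n1713 .nil)
noncomputable def n1783 : Strat := .move 922 n1594 (.cons 881 n1782 .nil)
noncomputable def n1784 : Strat := .move 880 n1544 (.cons 717 n1783 .nil)
noncomputable def n1785 : Strat := .move 758 n1767 (.cons 881 n1772 (.cons 880 n1774 (.cons 717 n1781 (.cons 716 n1784 .nil))))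
noncomputable def n1786 : Strat := .move 717 n1587 (.cons 758 n1740 .nil)
noncomputable def n1787 : Strat := .move 922 n852 (.cons 963 n1713 .nil)
noncomputable def n1788 : Strat := .move 921 n1543 (.cons 799 n1787 .nil)
noncomputable def n1789 : Strat := .move 758 n1544 (.cons 717 n1788 .nil)
noncomputable def n1790 : Strat := .move 758 n1544 (.cons 717 n1783 .nil)
noncomputable def n1791 : Strat := .move 921 n521 (.cons 961 n849 .nil)
noncomputable def n1792 : Strat := .move 920 n1712 (.cons 879 n1791 .nil)
noncomputable def n1793 : Strat := .move 881 n238 (.cons 922 n1792 .nil)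
noncomputable def n1794 : Strat := .move 883 n185 (.cons 884 n1723 .nil)
noncomputable def n1795 : Strat := .move 923 n1726 (.cons 799 n198 .nil)
noncomputable def n1796 : Strat := .move 882 n1725 (.cons 837 n1794 (.cons 883 n1795 .nil))
noncomputable def n1797 : Strat := .move 758 n1544 (.cons 717 n1796 .nil)
noncomputable def n1798 : Strat := .move 879 n341 (.cons 920 n1797 .nil)
noncomputable def n1799 : Strat := .move 881 n238 (.cons 922 n1798 .nil)
noncomputable def n1800 : Strat := .move 881 n238 (.cons 922 n1698 .nil)
noncomputable def n1801 : Strat := .move 799 n311 (.cons 921 n1696 .nil)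
noncomputable def n1802 : Strat := .move 758 n1544 (.cons 717 n1801 .nil)
noncomputable def n1803 : Strat := .move 880 n1786 (.cons 881 n1789 (.cons 799 n1790 (.cons 717 n1793 (.cons 921 n1799 (.cons 920 n1800 (.cons 758 n1740 (.cons 922 n1802 .nil)))))))
noncomputable def n1804 : Strat := .move 757 n1750 (.cons 881 n1763 (.cons 880 n1766 (.cons 799 n1785 (.cons 716 n1803 .nil))))
noncomputable def n1805 : Strat := .move 716 n532 (.cons 881 n1756 .nil)
noncomputable def n1806 : Strat := .move 880 n1587 (.cons 758 n1590 .nil)
noncomputable def n1807 : Strat := .move 717 n1586 (.cons 676 n1806 .nil)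
noncomputable def n1808 : Strat := .move 715 n360 (.cons 674 n1807 .nil)
noncomputable def n1809 : Strat := .move 716 n1756 (.cons 799 n1808 (.cons 715 n1760 .nil))
noncomputable def n1810 : Strat := .move 716 n532 (.cons 881 n1808 .nil)
noncomputable def n1811 : Strat := .move 716 n532 (.cons 881 n1760 .nil)
noncomputable def n1812 : Strat := .move 881 n238 (.cons 922 n1696 .nil)
noncomputable def n1813 : Strat := .move 799 n311 (.cons 921 n1812 .nil)
noncomputable def n1814 : Strat := .move 758 n1544 (.cons 717 n1813 .nil)
noncomputable def n1815 : Strat := .win 759 4 755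
noncomputable def n1816 : Strat := .move 796 n1815 (.cons 759 n216 .nil)
noncomputable def n1817 : Strat := .move 758 n1544 (.cons 717 n1816 .nil)
noncomputable def n1818 : Strat := .move 797 n291 (.cons 921 n1817 .nil)
noncomputable def n1819 : Strat := .move 756 n316 (.cons 715 n1818 .nil)
noncomputable def n1820 : Strat := .move 922 n1594 (.cons 881 n1819 .nil)
noncomputable def n1821 : Strat := .move 921 n1543 (.cons 799 n1708 .nil)
noncomputable def n1822 : Strat := .move 756 n316 (.cons 715 n1821 .nil)
noncomputable def n1823 : Strat := .move 758 n1544 (.cons 717 n1822 .nil)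
noncomputable def n1824 : Strat := .win 801 2 756
noncomputable def n1825 : Strat := .move 800 n1824 (.cons 801 n317 .nil)
noncomputable def n1826 : Strat := .move 797 n1699 (.cons 796 n760 .nil)
noncomputable def n1827 : Strat := .move 881 n788 (.cons 718 n238 .nil)
noncomputable def n1828 : Strat := .move 759 n1826 (.cons 760 n1827 .nil)
noncomputable def n1829 : Strat := .move 799 n1695 (.cons 754 n1825 (.cons 800 n1828 .nil))
noncomputable def n1830 : Strat := .move 756 n316 (.cons 715 n1829 .nil)
noncomputable def n1831 : Strat := .move 758 n1544 (.cons 717 n1830 .nil)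
noncomputable def n1832 : Strat := .move 756 n1708 (.cons 797 n316 .nil)
noncomputable def n1833 : Strat := .move 921 n1832 (.cons 715 n851 .nil)
noncomputable def n1834 : Strat := .move 878 n189 (.cons 877 n1833 .nil)
noncomputable def n1835 : Strat := .move 879 n341 (.cons 920 n1834 .nil)
noncomputable def n1836 : Strat := .move 881 n238 (.cons 922 n1835 .nil)
noncomputable def n1837 : Strat := .win 761 4 757
noncomputable def n1838 : Strat := .win 797 4 756
noncomputable def n1839 : Strat := .move 760 n1837 (.cons 761 n1838 .nil)
noncomputable def n1840 : Strat := .move 759 n788 (.cons 718 n1839 .nil)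
noncomputable def n1841 : Strat := .move 881 n238 (.cons 922 n1840 .nil)
noncomputable def n1842 : Strat := .move 799 n311 (.cons 921 n1841 .nil)
noncomputable def n1843 : Strat := .move 758 n1544 (.cons 717 n1842 .nil)
noncomputable def n1844 : Strat := .move 880 n1814 (.cons 799 n1820 (.cons 881 n1823 (.cons 921 n1831 (.cons 758 n1836 (.cons 715 n1843 .nil)))))
noncomputable def n1845 : Strat := .move 757 n1805 (.cons 881 n1809 (.cons 799 n1810 (.cons 715 n1811 (.cons 716 n1844 .nil))))
noncomputable def n1846 : Strat := .move 716 n1756 (.cons 715 n1760 (.cons 799 n1808 .nil))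
noncomputable def n1847 : Strat := .move 881 n544 (.cons 716 n1675 .nil)
noncomputable def n1848 : Strat := .win 799 1 757
noncomputable def n1849 : Strat := .move 921 n1848 (.cons 799 n1713 .nil)
noncomputable def n1850 : Strat := .move 758 n1544 (.cons 717 n1849 .nil)
noncomputable def n1851 : Strat := .move 881 n238 (.cons 922 n1850 .nil)
noncomputable def n1852 : Strat := .move 920 n1712 (.cons 879 n521 .nil)
noncomputable def n1853 : Strat := .move 921 n515 (.cons 799 n1852 .nil)
noncomputable def n1854 : Strat := .move 881 n238 (.cons 922 n1853 .nil)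
noncomputable def n1855 : Strat := .move 921 n521 (.cons 961 n1832 .nil)
noncomputable def n1856 : Strat := .move 920 n1712 (.cons 879 n1855 .nil)
noncomputable def n1857 : Strat := .move 881 n238 (.cons 922 n1856 .nil)
noncomputable def n1858 : Strat := .move 756 n316 (.cons 715 n1708 .nil)
noncomputable def n1859 : Strat := .move 921 n1543 (.cons 799 n1858 .nil)
noncomputable def n1860 : Strat := .move 758 n1544 (.cons 717 n1859 .nil)
noncomputable def n1861 : Strat := .move 880 n1851 (.cons 921 n1799 (.cons 717 n1854 (.cons 799 n1857 (.cons 881 n1860 .nil))))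
noncomputable def n1862 : Strat := .move 757 n1805 (.cons 881 n1846 (.cons 674 n1847 (.cons 716 n1861 .nil)))
noncomputable def n1863 : Strat := .move 757 n544 (.cons 716 n1127 .nil)
noncomputable def n1864 : Strat := .move 922 n213 (.cons 963 n1863 .nil)
noncomputable def n1865 : Strat := .move 757 n1127 (.cons 880 n1764 .nil)
noncomputable def n1866 : Strat := .move 922 n213 (.cons 963 n1865 .nil)
noncomputable def n1867 : Strat := .move 922 n1127 (.cons 880 n1764 .nil)
noncomputable def n1868 : Strat := .move 757 n544 (.cons 716 n1867 .nil)
noncomputable def n1869 : Strat := .move 799 n554 (.cons 921 n1840 .nil)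
noncomputable def n1870 : Strat := .move 758 n1544 (.cons 717 n1869 .nil)
noncomputable def n1871 : Strat := .move 921 n1708 (.cons 797 n851 .nil)
noncomputable def n1872 : Strat := .move 756 n316 (.cons 715 n1871 .nil)
noncomputable def n1873 : Strat := .win 719 5 715
noncomputable def n1874 : Strat := .win 799 3 717
noncomputable def n1875 : Strat := .move 718 n1873 (.cons 719 n1874 .nil)
noncomputable def n1876 : Strat := .move 759 n1826 (.cons 760 n1875 .nil)
noncomputable def n1877 : Strat := .move 756 n316 (.cons 715 n1876 .nil)
noncomputable def n1878 : Strat := .move 758 n1544 (.cons 717 n1877 .nil)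
noncomputable def n1879 : Strat := .move 880 n1698 (.cons 799 n1703 (.cons 715 n1870 (.cons 758 n1872 (.cons 921 n1878 .nil))))
noncomputable def n1880 : Strat := .move 757 n544 (.cons 716 n1879 .nil)
noncomputable def n1881 : Strat := .win 800 3 758
noncomputable def n1882 : Strat := .move 759 n788 (.cons 718 n1881 .nil)
noncomputable def n1883 : Strat := .move 758 n652 (.cons 880 n1882 .nil)
noncomputable def n1884 : Strat := .move 921 n556 (.cons 962 n1883 .nil)
noncomputable def n1885 : Strat := .win 882 6 758
noncomputable def n1886 : Strat := .move 923 n1885 (.cons 882 n880 .nil)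
noncomputable def n1887 : Strat := .move 758 n310 (.cons 717 n1886 .nil)
noncomputable def n1888 : Strat := .move 797 n1678 (.cons 800 n1887 .nil)
noncomputable def n1889 : Strat := .move 880 n1888 (.cons 800 n1887 (.cons 882 n1678 .nil))
noncomputable def n1890 : Strat := .move 758 n652 (.cons 880 n1886 .nil)
noncomputable def n1891 : Strat := .move 921 n556 (.cons 962 n1890 .nil)
noncomputable def n1892 : Strat := .move 799 n1884 (.cons 921 n1889 (.cons 758 n1684 (.cons 800 n1891 .nil)))
noncomputable def n1893 : Strat := .move 922 n213 (.cons 963 n1892 .nil)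
noncomputable def n1894 : Strat := .move 881 n1864 (.cons 716 n1866 (.cons 963 n1868 (.cons 922 n1880 (.cons 757 n1893 (.cons 880 n1734 .nil)))))
noncomputable def n1895 : Strat := .win 882 5 878
noncomputable def n1896 : Strat := .win 918 5 877
noncomputable def n1897 : Strat := .move 919 n1895 (.cons 882 n1896 .nil)
noncomputable def n1898 : Strat := .move 920 n521 (.cons 961 n1897 .nil)
noncomputable def n1899 : Strat := .win 838 7 797
noncomputable def n1900 : Strat := .move 797 n1899 (.cons 838 n219 .nil)
noncomputable def n1901 : Strat := .move 962 n242 (.cons 1003 n1900 .nil)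
noncomputable def n1902 : Strat := .move 921 n1898 (.cons 920 n1901 .nil)
noncomputable def n1903 : Strat := .move 880 n214 (.cons 757 n1902 .nil)
noncomputable def n1904 : Strat := .move 922 n213 (.cons 963 n1903 .nil)
noncomputable def n1905 : Strat := .move 922 n648 (.cons 757 n1680 .nil)
noncomputable def n1906 : Strat := .win 757 4 756
noncomputable def n1907 : Strat := .move 760 n1906 (.cons 757 n1837 .nil)
noncomputable def n1908 : Strat := .move 797 n761 (.cons 796 n1907 .nil)
noncomputable def n1909 : Strat := .move 759 n788 (.cons 718 n1908 .nil)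
noncomputable def n1910 : Strat := .move 758 n1174 (.cons 921 n352 (.cons 880 n1909 .nil))
noncomputable def n1911 : Strat := .move 922 n648 (.cons 757 n1684 .nil)
noncomputable def n1912 : Strat := .move 922 n1680 (.cons 880 n1684 (.cons 800 n1690 .nil))
noncomputable def n1913 : Strat := .move 921 n514 (.cons 758 n337 .nil)
noncomputable def n1914 : Strat := .move 758 n310 (.cons 717 n554 .nil)
noncomputable def n1915 : Strat := .move 758 n310 (.cons 717 n1696 .nil)
noncomputable def n1916 : Strat := .move 757 n238 (.cons 922 n1915 .nil)
noncomputable def n1917 : Strat := .move 921 n556 (.cons 962 n1898 .nil)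
noncomputable def n1918 : Strat := .move 922 n214 (.cons 757 n1917 .nil)
noncomputable def n1919 : Strat := .move 880 n1913 (.cons 962 n1914 (.cons 921 n1916 (.cons 758 n1918 .nil)))
noncomputable def n1920 : Strat := .move 799 n1905 (.cons 922 n1910 (.cons 880 n1911 (.cons 757 n1912 (.cons 759 n1919 .nil))))
noncomputable def n1921 : Strat := .move 799 n1680 (.cons 880 n1684 (.cons 800 n1690 .nil))
noncomputable def n1922 : Strat := .move 922 n213 (.cons 963 n1921 .nil)
noncomputable def n1923 : Strat := .move 757 n1698 (.cons 799 n1703 (.cons 758 n1722 (.cons 921 n1730 .nil)))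
noncomputable def n1924 : Strat := .move 757 n1713 (.cons 879 n1832 .nil)
noncomputable def n1925 : Strat := .move 799 n337 (.cons 962 n1924 .nil)
noncomputable def n1926 : Strat := .move 962 n850 (.cons 799 n242 .nil)
noncomputable def n1927 : Strat := .move 921 n1925 (.cons 962 n1924 (.cons 757 n1926 .nil))
noncomputable def n1928 : Strat := .move 838 n635 (.cons 836 n1113 (.cons 837 n1927 .nil))
noncomputable def n1929 : Strat := .move 757 n316 (.cons 715 n1712 .nil)
noncomputable def n1930 : Strat := .move 756 n1708 (.cons 797 n1929 .nil)
noncomputable def n1931 : Strat := .move 920 n521 (.cons 961 n1930 .nil)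
noncomputable def n1932 : Strat := .move 799 n514 (.cons 758 n1931 .nil)
noncomputable def n1933 : Strat := .move 797 n219 (.cons 756 n1899 .nil)
noncomputable def n1934 : Strat := .move 962 n242 (.cons 1003 n1933 .nil)
noncomputable def n1935 : Strat := .move 921 n515 (.cons 962 n1932 (.cons 758 n1926 (.cons 799 n1934 .nil)))
noncomputable def n1936 : Strat := .move 838 n697 (.cons 800 n175 .nil)
noncomputable def n1937 : Strat := .move 838 n697 (.cons 800 n7 .nil)
noncomputable def n1938 : Strat := .move 796 n1255 (.cons 836 n216 .nil)
noncomputable def n1939 : Strat := .move 837 n1715 (.cons 882 n1936 (.cons 836 n1937 (.cons 838 n1938 .nil)))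
noncomputable def n1940 : Strat := .move 797 n219 (.cons 756 n1939 .nil)
noncomputable def n1941 : Strat := .move 799 n514 (.cons 758 n1940 .nil)
noncomputable def n1942 : Strat := .move 921 n515 (.cons 962 n1941 (.cons 758 n1926 (.cons 799 n1934 .nil)))
noncomputable def n1943 : Strat := .move 882 n655 (.cons 923 n1724 .nil)
noncomputable def n1944 : Strat := .move 758 n310 (.cons 717 n1943 .nil)
noncomputable def n1945 : Strat := .move 758 n554 (.cons 921 n1943 .nil)
noncomputable def n1946 : Strat := .move 838 n7 (.cons 882 n175 .nil)
noncomputable def n1947 : Strat := .move 838 n7 (.cons 882 n9 .nil)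
noncomputable def n1948 : Strat := .win 757 7 715
noncomputable def n1949 : Strat := .move 715 n286 (.cons 674 n1948 .nil)
noncomputable def n1950 : Strat := .move 756 n291 (.cons 921 n1949 .nil)
noncomputable def n1951 : Strat := .move 797 n1938 (.cons 795 n1950 .nil)
noncomputable def n1952 : Strat := .move 837 n1946 (.cons 836 n1947 (.cons 838 n1951 .nil))
noncomputable def n1953 : Strat := .move 799 n1914 (.cons 921 n1944 (.cons 717 n1945 (.cons 758 n1952 .nil)))
noncomputable def n1954 : Strat := .move 882 n191 (.cons 919 n1685 .nil)
noncomputable def n1955 : Strat := .move 879 n192 (.cons 757 n1954 .nil)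
noncomputable def n1956 : Strat := .move 920 n521 (.cons 961 n1955 .nil)
noncomputable def n1957 : Strat := .move 921 n515 (.cons 758 n1926 (.cons 799 n1956 .nil))
noncomputable def n1958 : Strat := .move 838 n165 (.cons 837 n188 .nil)
noncomputable def n1959 : Strat := .win 838 0 837
noncomputable def n1960 : Strat := .move 920 n191 (.cons 919 n192 .nil)
noncomputable def n1961 : Strat := .move 879 n1960 (.cons 757 n1719 .nil)
noncomputable def n1962 : Strat := .move 837 n1959 (.cons 838 n1961 .nil)
noncomputable def n1963 : Strat := .move 879 n1336 (.cons 923 n1960 .nil)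
noncomputable def n1964 : Strat := .move 924 n1337 (.cons 925 n1963 .nil)
noncomputable def n1965 : Strat := .move 883 n185 (.cons 884 n1964 .nil)
noncomputable def n1966 : Strat := .move 882 n1958 (.cons 883 n1962 (.cons 837 n1794 (.cons 838 n1965 .nil)))
noncomputable def n1967 : Strat := .move 880 n1923 (.cons 758 n1928 (.cons 882 n1935 (.cons 757 n1942 (.cons 962 n1953 (.cons 838 n1957 (.cons 921 n1966 .nil))))))
noncomputable def n1968 : Strat := .move 799 n648 (.cons 757 n1884 .nil)
noncomputable def n1969 : Strat := .move 922 n213 (.cons 963 n1968 .nil)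
noncomputable def n1970 : Strat := .move 881 n1682 (.cons 880 n1734 (.cons 799 n1904 (.cons 963 n1920 (.cons 757 n1922 (.cons 922 n1967 (.cons 838 n1969 .nil))))))
noncomputable def n1971 : Strat := .move 881 n544 (.cons 716 n1731 .nil)
noncomputable def n1972 : Strat := .win 635 1 634
noncomputable def n1973 : Strat := .win 799 1 675
noncomputable def n1974 : Strat := .move 676 n1972 (.cons 635 n1973 .nil)
noncomputable def n1975 : Strat := .move 717 n1742 (.cons 880 n1974 .nil)
noncomputable def n1976 : Strat := .move 880 n311 (.cons 921 n1696 .nil)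
noncomputable def n1977 : Strat := .win 881 3 717
noncomputable def n1978 : Strat := .move 718 n1873 (.cons 719 n1977 .nil)
noncomputable def n1979 : Strat := .move 759 n1839 (.cons 797 n1978 .nil)
noncomputable def n1980 : Strat := .move 756 n316 (.cons 715 n1979 .nil)
noncomputable def n1981 : Strat := .move 880 n311 (.cons 921 n1980 .nil)
noncomputable def n1982 : Strat := .move 756 n1824 (.cons 801 n317 .nil)
noncomputable def n1983 : Strat := .win 802 2 757
noncomputable def n1984 : Strat := .move 801 n1983 (.cons 802 n531 .nil)
noncomputable def n1985 : Strat := .move 718 n776 (.cons 677 n1977 .nil)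
noncomputable def n1986 : Strat := .move 759 n1839 (.cons 797 n1985 .nil)
noncomputable def n1987 : Strat := .move 800 n1982 (.cons 755 n1984 (.cons 801 n1986 .nil))
noncomputable def n1988 : Strat := .move 880 n311 (.cons 921 n1987 .nil)
noncomputable def n1989 : Strat := .win 800 1 676
noncomputable def n1990 : Strat := .win 636 1 635
noncomputable def n1991 : Strat := .move 677 n1989 (.cons 800 n1990 .nil)
noncomputable def n1992 : Strat := .move 718 n1977 (.cons 881 n1991 .nil)
noncomputable def n1993 : Strat := .move 759 n1839 (.cons 797 n1992 .nil)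
noncomputable def n1994 : Strat := .move 880 n311 (.cons 921 n1993 .nil)
noncomputable def n1995 : Strat := .move 801 n531 (.cons 756 n1983 .nil)
noncomputable def n1996 : Strat := .move 759 n761 (.cons 796 n760 .nil)
noncomputable def n1997 : Strat := .win 756 0 755
noncomputable def n1998 : Strat := .move 796 n266 (.cons 754 n216 .nil)
noncomputable def n1999 : Strat := .move 755 n1997 (.cons 756 n1998 .nil)
noncomputable def n2000 : Strat := .move 759 n760 (.cons 760 n1985 .nil)
noncomputable def n2001 : Strat := .move 797 n347 (.cons 795 n1996 (.cons 759 n1999 (.cons 796 n2000 .nil)))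
noncomputable def n2002 : Strat := .move 801 n1983 (.cons 802 n481 .nil)
noncomputable def n2003 : Strat := .move 800 n1995 (.cons 801 n2001 (.cons 756 n2002 .nil))
noncomputable def n2004 : Strat := .move 799 n1976 (.cons 800 n1981 (.cons 715 n1988 (.cons 756 n1994 (.cons 880 n2003 .nil))))
noncomputable def n2005 : Strat := .move 880 n1544 (.cons 717 n1702 .nil)
noncomputable def n2006 : Strat := .win 756 4 755
noncomputable def n2007 : Strat := .move 796 n216 (.cons 795 n2006 .nil)
noncomputable def n2008 : Strat := .move 797 n760 (.cons 760 n2007 .nil)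
noncomputable def n2009 : Strat := .move 715 n286 (.cons 674 n1776 .nil)
noncomputable def n2010 : Strat := .move 799 n1978 (.cons 881 n1695 .nil)
noncomputable def n2011 : Strat := .move 756 n2009 (.cons 714 n2010 .nil)
noncomputable def n2012 : Strat := .move 797 n760 (.cons 760 n2011 .nil)
noncomputable def n2013 : Strat := .win 801 0 756
noncomputable def n2014 : Strat := .move 756 n317 (.cons 755 n2013 .nil)
noncomputable def n2015 : Strat := .move 800 n2014 (.cons 801 n1985 .nil)
noncomputable def n2016 : Strat := .move 756 n1978 (.cons 881 n1695 .nil)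
noncomputable def n2017 : Strat := .move 717 n1175 (.cons 677 n301 .nil)
noncomputable def n2018 : Strat := .move 718 n1977 (.cons 881 n2017 .nil)
noncomputable def n2019 : Strat := .move 796 n787 (.cons 797 n2018 .nil)
noncomputable def n2020 : Strat := .move 800 n317 (.cons 755 n2013 .nil)
noncomputable def n2021 : Strat := .move 756 n1695 (.cons 754 n2020 (.cons 800 n2009 .nil))
noncomputable def n2022 : Strat := .move 797 n761 (.cons 796 n2021 .nil)
noncomputable def n2023 : Strat := .move 799 n2015 (.cons 756 n1992 (.cons 677 n2016 (.cons 800 n2019 (.cons 718 n2022 .nil))))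
noncomputable def n2024 : Strat := .win 802 0 757
noncomputable def n2025 : Strat := .move 760 n1837 (.cons 761 n2024 .nil)
noncomputable def n2026 : Strat := .win 756 0 756
noncomputable def n2027 : Strat := .move 800 n481 (.cons 838 n2026 .nil)
noncomputable def n2028 : Strat := .move 801 n2025 (.cons 802 n2027 .nil)
noncomputable def n2029 : Strat := .move 881 n788 (.cons 718 n2028 .nil)
noncomputable def n2030 : Strat := .move 756 n317 (.cons 755 n1873 .nil)
noncomputable def n2031 : Strat := .move 718 n776 (.cons 677 n2030 .nil)
noncomputable def n2032 : Strat := .move 801 n1983 (.cons 802 n2026 .nil)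
noncomputable def n2033 : Strat := .move 801 n481 (.cons 838 n1983 .nil)
noncomputable def n2034 : Strat := .move 800 n2014 (.cons 801 n2031 (.cons 755 n2032 (.cons 756 n2033 .nil)))
noncomputable def n2035 : Strat := .move 801 n2024 (.cons 802 n2027 .nil)
noncomputable def n2036 : Strat := .move 760 n1837 (.cons 761 n2035 .nil)
noncomputable def n2037 : Strat := .move 799 n2029 (.cons 881 n2034 (.cons 800 n2018 (.cons 718 n2036 .nil)))
noncomputable def n2038 : Strat := .move 799 n1837 (.cons 761 n1992 .nil)
noncomputable def n2039 : Strat := .move 760 n1838 (.cons 797 n2038 .nil)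
noncomputable def n2040 : Strat := .move 759 n2008 (.cons 796 n2012 (.cons 760 n2023 (.cons 797 n2037 (.cons 756 n2039 .nil))))
noncomputable def n2041 : Strat := .move 758 n1975 (.cons 717 n2004 (.cons 799 n2005 (.cons 880 n2040 .nil)))
noncomputable def n2042 : Strat := .move 757 n1971 (.cons 881 n1809 (.cons 799 n1810 (.cons 717 n1805 (.cons 715 n1811 (.cons 716 n2041 .nil)))))
noncomputable def n2043 : Strat := .move 758 n1742 (.cons 880 n1746 .nil)
noncomputable def n2044 : Strat := .move 717 n1586 (.cons 676 n2043 .nil)
noncomputable def n2045 : Strat := .move 716 n1760 (.cons 676 n1756 (.cons 675 n2044 .nil))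
noncomputable def n2046 : Strat := .move 880 n238 (.cons 922 n1870 .nil)
noncomputable def n2047 : Strat := .win 799 5 795
noncomputable def n2048 : Strat := .move 836 n8 (.cons 880 n2047 .nil)
noncomputable def n2049 : Strat := .move 837 n7 (.cons 882 n2048 .nil)
noncomputable def n2050 : Strat := .move 882 n655 (.cons 923 n188 .nil)
noncomputable def n2051 : Strat := .move 799 n554 (.cons 921 n2050 .nil)
noncomputable def n2052 : Strat := .move 758 n1544 (.cons 717 n2051 .nil)
noncomputable def n2053 : Strat := .move 879 n198 (.cons 924 n341 .nil)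
noncomputable def n2054 : Strat := .move 758 n1726 (.cons 799 n1544 .nil)
noncomputable def n2055 : Strat := .move 923 n2053 (.cons 920 n2054 .nil)
noncomputable def n2056 : Strat := .move 882 n188 (.cons 883 n2055 .nil)
noncomputable def n2057 : Strat := .move 921 n521 (.cons 961 n243 .nil)
noncomputable def n2058 : Strat := .move 920 n1712 (.cons 879 n2057 .nil)
noncomputable def n2059 : Strat := .move 880 n2052 (.cons 921 n2056 (.cons 799 n2058 .nil))
noncomputable def n2060 : Strat := .move 799 n264 (.cons 836 n9 .nil)
noncomputable def n2061 : Strat := .move 837 n7 (.cons 882 n2060 .nil)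
noncomputable def n2062 : Strat := .move 800 n282 (.cons 801 n255 .nil)
noncomputable def n2063 : Strat := .move 758 n352 (.cons 880 n1840 .nil)
noncomputable def n2064 : Strat := .move 799 n998 (.cons 836 n2062 (.cons 837 n2063 .nil))
noncomputable def n2065 : Strat := .move 837 n7 (.cons 882 n1103 .nil)
noncomputable def n2066 : Strat := .move 838 n2049 (.cons 837 n2059 (.cons 880 n2061 (.cons 882 n2064 (.cons 799 n2065 .nil))))
noncomputable def n2067 : Strat := .move 881 n2046 (.cons 880 n1765 (.cons 799 n1675 (.cons 922 n2066 .nil)))
noncomputable def n2068 : Strat := .move 757 n1811 (.cons 881 n2045 (.cons 799 n1847 (.cons 716 n2067 .nil)))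
noncomputable def n2069 : Strat := .move 799 n1680 (.cons 758 n1684 (.cons 800 n1690 .nil))
noncomputable def n2070 : Strat := .move 922 n213 (.cons 963 n2069 .nil)
noncomputable def n2071 : Strat := .move 921 n849 (.cons 758 n851 (.cons 962 n1832 .nil))
noncomputable def n2072 : Strat := .move 878 n189 (.cons 877 n2071 .nil)
noncomputable def n2073 : Strat := .move 879 n341 (.cons 920 n2072 .nil)
noncomputable def n2074 : Strat := .move 880 n238 (.cons 922 n2073 .nil)
noncomputable def n2075 : Strat := .move 757 n544 (.cons 716 n2074 .nil)
noncomputable def n2076 : Strat := .win 758 0 755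
noncomputable def n2077 : Strat := .move 755 n2076 (.cons 758 n1694 .nil)
noncomputable def n2078 : Strat := .move 800 n1824 (.cons 801 n2077 .nil)
noncomputable def n2079 : Strat := .move 756 n316 (.cons 715 n2078 .nil)
noncomputable def n2080 : Strat := .move 880 n1913 (.cons 758 n1711 (.cons 921 n2079 .nil))
noncomputable def n2081 : Strat := .move 880 n1711 (.cons 838 n1714 (.cons 921 n1721 (.cons 920 n1710 .nil)))
noncomputable def n2082 : Strat := .move 880 n554 (.cons 921 n1696 .nil)
noncomputable def n2083 : Strat := .move 758 n2082 (.cons 880 n1840 .nil)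
noncomputable def n2084 : Strat := .move 758 n554 (.cons 921 n1696 .nil)
noncomputable def n2085 : Strat := .move 880 n2084 (.cons 758 n1714 (.cons 921 n1721 .nil))
noncomputable def n2086 : Strat := .move 801 n531 (.cons 756 n481 .nil)
noncomputable def n2087 : Strat := .win 838 4 796
noncomputable def n2088 : Strat := .move 837 n2087 (.cons 838 n1938 .nil)
noncomputable def n2089 : Strat := .win 758 3 717
noncomputable def n2090 : Strat := .move 718 n776 (.cons 677 n2089 .nil)
noncomputable def n2091 : Strat := .move 759 n295 (.cons 760 n2090 .nil)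
noncomputable def n2092 : Strat := .move 797 n2088 (.cons 837 n2091 .nil)
noncomputable def n2093 : Strat := .move 801 n531 (.cons 756 n279 .nil)
noncomputable def n2094 : Strat := .move 800 n2086 (.cons 756 n1683 (.cons 801 n2092 (.cons 838 n2093 .nil)))
noncomputable def n2095 : Strat := .move 923 n198 (.cons 924 n869 .nil)
noncomputable def n2096 : Strat := .move 882 n1724 (.cons 884 n1725 (.cons 838 n2095 .nil))
noncomputable def n2097 : Strat := .move 879 n341 (.cons 920 n2096 .nil)
noncomputable def n2098 : Strat := .move 880 n1913 (.cons 758 n1714 (.cons 921 n2097 .nil))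
noncomputable def n2099 : Strat := .move 799 n2080 (.cons 758 n2081 (.cons 962 n2083 (.cons 797 n2085 (.cons 880 n2094 (.cons 800 n2098 .nil)))))
noncomputable def n2100 : Strat := .move 757 n544 (.cons 716 n2099 .nil)
noncomputable def n2101 : Strat := .move 881 n1864 (.cons 757 n2070 (.cons 880 n1734 (.cons 963 n2075 (.cons 922 n2100 .nil))))
noncomputable def n2102 : Strat := .win 716 3 675
noncomputable def n2103 : Strat := .move 676 n2102 (.cons 716 n1972 .nil)
noncomputable def n2104 : Strat := .move 758 n1742 (.cons 880 n2103 .nil)
noncomputable def n2105 : Strat := .move 718 n1176 (.cons 759 n1175 .nil)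
noncomputable def n2106 : Strat := .move 881 n650 (.cons 922 n2105 .nil)
noncomputable def n2107 : Strat := .move 799 n301 (.cons 676 n2106 .nil)
noncomputable def n2108 : Strat := .move 758 n1742 (.cons 880 n2107 .nil)
noncomputable def n2109 : Strat := .move 717 n1736 (.cons 881 n2104 (.cons 676 n1737 (.cons 716 n2108 .nil)))
noncomputable def n2110 : Strat := .win 797 1 674
noncomputable def n2111 : Strat := .move 838 n314 (.cons 879 n2110 .nil)
noncomputable def n2112 : Strat := .move 675 n1752 (.cons 799 n2111 .nil)
noncomputable def n2113 : Strat := .move 879 n1768 (.cons 838 n341 .nil)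
noncomputable def n2114 : Strat := .move 880 n1587 (.cons 758 n2113 .nil)
noncomputable def n2115 : Strat := .move 717 n1586 (.cons 676 n2114 .nil)
noncomputable def n2116 : Strat := .move 716 n1760 (.cons 676 n2112 (.cons 675 n2115 .nil))
noncomputable def n2117 : Strat := .move 881 n238 (.cons 922 n1870 .nil)
noncomputable def n2118 : Strat := .move 799 n311 (.cons 921 n1987 .nil)
noncomputable def n2119 : Strat := .move 758 n1544 (.cons 717 n2118 .nil)
noncomputable def n2120 : Strat := .move 882 n1725 (.cons 837 n1794 (.cons 883 n1727 .nil))
noncomputable def n2121 : Strat := .move 879 n341 (.cons 920 n2120 .nil)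
noncomputable def n2122 : Strat := .move 758 n1544 (.cons 717 n2121 .nil)
noncomputable def n2123 : Strat := .move 881 n238 (.cons 922 n2122 .nil)
noncomputable def n2124 : Strat := .move 921 n1543 (.cons 799 n1852 .nil)
noncomputable def n2125 : Strat := .move 758 n1544 (.cons 717 n2124 .nil)
noncomputable def n2126 : Strat := .move 962 n1899 (.cons 838 n242 .nil)
noncomputable def n2127 : Strat := .move 797 n219 (.cons 756 n2126 .nil)
noncomputable def n2128 : Strat := .move 921 n521 (.cons 961 n2127 .nil)
noncomputable def n2129 : Strat := .move 920 n1712 (.cons 879 n2128 .nil)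
noncomputable def n2130 : Strat := .move 881 n238 (.cons 922 n2129 .nil)
noncomputable def n2131 : Strat := .move 880 n2117 (.cons 922 n2119 (.cons 921 n2123 (.cons 881 n2125 (.cons 717 n1854 (.cons 758 n1740 (.cons 799 n2130 .nil))))))
noncomputable def n2132 : Strat := .move 757 n2109 (.cons 922 n1811 (.cons 676 n1847 (.cons 881 n2116 (.cons 716 n2131 .nil))))
noncomputable def n2133 : Strat := .move 715 n360 (.cons 674 n1806 .nil)
noncomputable def n2134 : Strat := .move 717 n1586 (.cons 676 n2133 .nil)
noncomputable def n2135 : Strat := .move 716 n1756 (.cons 715 n1760 (.cons 675 n2134 .nil))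
noncomputable def n2136 : Strat := .move 758 n1174 (.cons 880 n1840 .nil)
noncomputable def n2137 : Strat := .move 881 n650 (.cons 922 n2136 .nil)
noncomputable def n2138 : Strat := .move 718 n1873 (.cons 719 n776 .nil)
noncomputable def n2139 : Strat := .move 759 n1839 (.cons 797 n2138 .nil)
noncomputable def n2140 : Strat := .move 756 n317 (.cons 755 n2139 .nil)
noncomputable def n2141 : Strat := .move 800 n2086 (.cons 801 n2140 (.cons 756 n2033 .nil))
noncomputable def n2142 : Strat := .move 758 n302 (.cons 880 n2141 .nil)
noncomputable def n2143 : Strat := .move 717 n301 (.cons 676 n1177 .nil)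
noncomputable def n2144 : Strat := .move 758 n1174 (.cons 880 n2143 (.cons 717 n2082 .nil))
noncomputable def n2145 : Strat := .move 881 n650 (.cons 922 n2144 .nil)
noncomputable def n2146 : Strat := .move 881 n650 (.cons 922 n2083 .nil)
noncomputable def n2147 : Strat := .move 797 n284 (.cons 755 n291 .nil)
noncomputable def n2148 : Strat := .move 800 n1824 (.cons 801 n2147 .nil)
noncomputable def n2149 : Strat := .move 756 n316 (.cons 715 n2148 .nil)
noncomputable def n2150 : Strat := .move 881 n238 (.cons 922 n2149 .nil)
noncomputable def n2151 : Strat := .move 881 n238 (.cons 922 n1915 .nil)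
noncomputable def n2152 : Strat := .move 880 n540 (.cons 758 n2150 (.cons 921 n2151 .nil))
noncomputable def n2153 : Strat := .move 800 n2086 (.cons 838 n2093 (.cons 801 n2092 .nil))
noncomputable def n2154 : Strat := .move 881 n650 (.cons 922 n2153 .nil)
noncomputable def n2155 : Strat := .win 881 7 757
noncomputable def n2156 : Strat := .move 715 n286 (.cons 674 n1775 .nil)
noncomputable def n2157 : Strat := .move 756 n284 (.cons 755 n2156 .nil)
noncomputable def n2158 : Strat := .move 797 n2088 (.cons 837 n2157 .nil)
noncomputable def n2159 : Strat := .move 800 n2086 (.cons 838 n2093 (.cons 756 n1683 (.cons 801 n2158 .nil)))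
noncomputable def n2160 : Strat := .move 922 n2155 (.cons 881 n2159 .nil)
noncomputable def n2161 : Strat := .move 799 n2137 (.cons 881 n2142 (.cons 797 n2145 (.cons 717 n2146 (.cons 759 n2152 (.cons 880 n2154 (.cons 758 n2160 .nil))))))
noncomputable def n2162 : Strat := .move 757 n1805 (.cons 675 n1847 (.cons 881 n2135 (.cons 716 n2161 .nil)))
noncomputable def n2163 : Strat := .move 758 n1885 (.cons 882 n302 .nil)
noncomputable def n2164 : Strat := .move 923 n880 (.cons 964 n2163 .nil)
noncomputable def n2165 : Strat := .move 799 n1684 (.cons 800 n2164 .nil)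
noncomputable def n2166 : Strat := .move 922 n213 (.cons 963 n2165 .nil)
noncomputable def n2167 : Strat := .move 880 n238 (.cons 922 n1730 .nil)
noncomputable def n2168 : Strat := .move 757 n544 (.cons 716 n2167 .nil)
noncomputable def n2169 : Strat := .move 880 n1544 (.cons 717 n1729 .nil)
noncomputable def n2170 : Strat := .move 880 n1544 (.cons 717 n1877 .nil)
noncomputable def n2171 : Strat := .move 799 n788 (.cons 718 n1839 .nil)
noncomputable def n2172 : Strat := .move 796 n2006 (.cons 756 n216 .nil)
noncomputable def n2173 : Strat := .move 797 n760 (.cons 760 n2172 .nil)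
noncomputable def n2174 : Strat := .move 799 n788 (.cons 718 n2028 .nil)
noncomputable def n2175 : Strat := .win 756 5 715
noncomputable def n2176 : Strat := .win 721 4 717
noncomputable def n2177 : Strat := .win 717 4 716
noncomputable def n2178 : Strat := .move 720 n2176 (.cons 721 n2177 .nil)
noncomputable def n2179 : Strat := .move 719 n2175 (.cons 756 n2178 .nil)
noncomputable def n2180 : Strat := .move 718 n1874 (.cons 799 n2179 .nil)
noncomputable def n2181 : Strat := .move 759 n2171 (.cons 799 n2173 (.cons 797 n2174 (.cons 760 n2180 .nil)))
noncomputable def n2182 : Strat := .move 800 n2013 (.cons 801 n317 .nil)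
noncomputable def n2183 : Strat := .move 715 n1776 (.cons 714 n1775 .nil)
noncomputable def n2184 : Strat := .move 756 n1695 (.cons 754 n2182 (.cons 800 n2183 .nil))
noncomputable def n2185 : Strat := .move 759 n788 (.cons 718 n2184 .nil)
noncomputable def n2186 : Strat := .move 838 n165 (.cons 837 n186 .nil)
noncomputable def n2187 : Strat := .move 882 n655 (.cons 923 n2186 .nil)
noncomputable def n2188 : Strat := .move 799 n1840 (.cons 797 n2185 (.cons 718 n2187 .nil))
noncomputable def n2189 : Strat := .move 880 n1544 (.cons 717 n316 .nil)
noncomputable def n2190 : Strat := .win 797 6 674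
noncomputable def n2191 : Strat := .win 633 6 633
noncomputable def n2192 : Strat := .move 674 n2190 (.cons 797 n2191 .nil)
noncomputable def n2193 : Strat := .move 715 n1775 (.cons 880 n2192 .nil)
noncomputable def n2194 : Strat := .move 797 n1699 (.cons 796 n2009 .nil)
noncomputable def n2195 : Strat := .move 715 n1776 (.cons 714 n2192 .nil)
noncomputable def n2196 : Strat := .win 715 2 714
noncomputable def n2197 : Strat := .win 713 2 713
noncomputable def n2198 : Strat := .move 714 n2196 (.cons 715 n2197 .nil)
noncomputable def n2199 : Strat := .win 717 5 714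
noncomputable def n2200 : Strat := .move 718 n1873 (.cons 719 n2199 .nil)
noncomputable def n2201 : Strat := .move 755 n2198 (.cons 713 n2200 .nil)
noncomputable def n2202 : Strat := .move 759 n1826 (.cons 760 n2194 (.cons 796 n2195 (.cons 797 n2201 .nil)))
noncomputable def n2203 : Strat := .win 755 5 714
noncomputable def n2204 : Strat := .win 720 4 716
noncomputable def n2205 : Strat := .win 759 5 715
noncomputable def n2206 : Strat := .move 719 n2204 (.cons 720 n2205 .nil)
noncomputable def n2207 : Strat := .move 718 n2203 (.cons 755 n2206 .nil)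
noncomputable def n2208 : Strat := .move 717 n1742 (.cons 880 n2207 .nil)
noncomputable def n2209 : Strat := .move 756 n2189 (.cons 717 n2193 (.cons 880 n2202 (.cons 715 n2208 .nil)))
noncomputable def n2210 : Strat := .move 758 n2169 (.cons 882 n2170 (.cons 880 n2181 (.cons 717 n2188 (.cons 799 n2209 .nil))))
noncomputable def n2211 : Strat := .move 757 n544 (.cons 716 n2210 .nil)
noncomputable def n2212 : Strat := .move 881 n1734 (.cons 757 n2166 (.cons 799 n1676 (.cons 963 n2168 (.cons 922 n2211 .nil))))
noncomputable def n2213 : Strat := .move 838 n2110 (.cons 797 n314 .nil)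
noncomputable def n2214 : Strat := .move 675 n1752 (.cons 799 n2213 .nil)
noncomputable def n2215 : Strat := .move 758 n1742 (.cons 880 n2214 .nil)
noncomputable def n2216 : Strat := .move 717 n1586 (.cons 676 n2215 .nil)
noncomputable def n2217 : Strat := .move 838 n314 (.cons 879 n508 .nil)
noncomputable def n2218 : Strat := .move 758 n352 (.cons 676 n312 (.cons 717 n2217 .nil))
noncomputable def n2219 : Strat := .move 838 n314 (.cons 879 n2062 .nil)
noncomputable def n2220 : Strat := .move 758 n300 (.cons 880 n1746 .nil)
noncomputable def n2221 : Strat := .move 717 n1586 (.cons 676 n2220 .nil)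
noncomputable def n2222 : Strat := .move 799 n2218 (.cons 717 n2219 (.cons 838 n2221 .nil))
noncomputable def n2223 : Strat := .move 716 n2216 (.cons 675 n2222 (.cons 717 n1756 (.cons 799 n1808 .nil)))
noncomputable def n2224 : Strat := .move 717 n1586 (.cons 676 n1756 .nil)
noncomputable def n2225 : Strat := .win 755 4 714
noncomputable def n2226 : Strat := .win 719 4 715
noncomputable def n2227 : Strat := .move 756 n2225 (.cons 755 n2226 .nil)
noncomputable def n2228 : Strat := .win 760 0 715
noncomputable def n2229 : Strat := .win 714 0 714
noncomputable def n2230 : Strat := .move 759 n2228 (.cons 760 n2229 .nil)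
noncomputable def n2231 : Strat := .win 799 3 676
noncomputable def n2232 : Strat := .win 678 5 674
noncomputable def n2233 : Strat := .move 677 n2231 (.cons 799 n2232 .nil)
noncomputable def n2234 : Strat := .move 758 n1745 (.cons 713 n2230 (.cons 759 n2233 .nil))
noncomputable def n2235 : Strat := .move 718 n2227 (.cons 719 n2234 .nil)
noncomputable def n2236 : Strat := .move 715 n360 (.cons 674 n2235 .nil)
noncomputable def n2237 : Strat := .move 717 n1586 (.cons 676 n2236 .nil)
noncomputable def n2238 : Strat := .move 838 n357 (.cons 675 n314 .nil)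
noncomputable def n2239 : Strat := .move 759 n2006 (.cons 756 n760 .nil)
noncomputable def n2240 : Strat := .move 796 n216 (.cons 795 n2239 .nil)
noncomputable def n2241 : Strat := .move 797 n2238 (.cons 879 n2240 .nil)
noncomputable def n2242 : Strat := .move 717 n1586 (.cons 676 n2241 .nil)
noncomputable def n2243 : Strat := .win 756 2 714
noncomputable def n2244 : Strat := .move 714 n2243 (.cons 756 n1744 .nil)
noncomputable def n2245 : Strat := .move 759 n1777 (.cons 760 n2244 .nil)
noncomputable def n2246 : Strat := .move 715 n360 (.cons 674 n2245 .nil)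
noncomputable def n2247 : Strat := .move 675 n1754 (.cons 633 n2213 .nil)
noncomputable def n2248 : Strat := .move 674 n1753 (.cons 715 n2247 .nil)
noncomputable def n2249 : Strat := .move 717 n1586 (.cons 676 n2248 .nil)
noncomputable def n2250 : Strat := .move 758 n1773 (.cons 715 n2242 (.cons 717 n2246 (.cons 759 n2249 .nil)))
noncomputable def n2251 : Strat := .move 799 n313 (.cons 675 n2217 .nil)
noncomputable def n2252 : Strat := .move 758 n2251 (.cons 799 n2246 .nil)
noncomputable def n2253 : Strat := .move 716 n2224 (.cons 675 n2237 (.cons 799 n2250 (.cons 717 n2252 (.cons 674 n1760 .nil))))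
noncomputable def n2254 : Strat := .move 880 n1590 (.cons 756 n2113 .nil)
noncomputable def n2255 : Strat := .move 715 n360 (.cons 674 n2254 .nil)
noncomputable def n2256 : Strat := .move 675 n1752 (.cons 799 n2110 .nil)
noncomputable def n2257 : Strat := .move 838 n314 (.cons 879 n2256 .nil)
noncomputable def n2258 : Strat := .move 716 n1756 (.cons 675 n2255 (.cons 674 n2257 .nil))
noncomputable def n2259 : Strat := .move 716 n2222 (.cons 717 n2255 (.cons 715 n2115 (.cons 838 n1762 (.cons 880 n2237 .nil))))
noncomputable def n2260 : Strat := .move 675 n2110 (.cons 797 n1759 .nil)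
noncomputable def n2261 : Strat := .move 838 n314 (.cons 879 n2260 .nil)
noncomputable def n2262 : Strat := .move 797 n357 (.cons 675 n2240 .nil)
noncomputable def n2263 : Strat := .move 838 n314 (.cons 879 n2262 .nil)
noncomputable def n2264 : Strat := .move 674 n1754 (.cons 633 n1753 .nil)
noncomputable def n2265 : Strat := .move 675 n2110 (.cons 797 n2264 .nil)
noncomputable def n2266 : Strat := .move 838 n314 (.cons 879 n2265 .nil)
noncomputable def n2267 : Strat := .move 758 n1780 (.cons 674 n2263 (.cons 756 n2266 .nil))
noncomputable def n2268 : Strat := .move 716 n1808 (.cons 715 n2261 (.cons 717 n2267 .nil))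
noncomputable def n2269 : Strat := .move 921 n1708 (.cons 797 n1852 .nil)
noncomputable def n2270 : Strat := .move 756 n316 (.cons 715 n2269 .nil)
noncomputable def n2271 : Strat := .move 799 n1693 (.cons 800 n1694 .nil)
noncomputable def n2272 : Strat := .win 799 0 755
noncomputable def n2273 : Strat := .move 800 n2013 (.cons 801 n2272 .nil)
noncomputable def n2274 : Strat := .win 797 4 755
noncomputable def n2275 : Strat := .win 795 4 754
noncomputable def n2276 : Strat := .move 796 n2274 (.cons 797 n2275 .nil)
noncomputable def n2277 : Strat := .move 759 n2273 (.cons 799 n2276 .nil)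
noncomputable def n2278 : Strat := .win 799 0 754
noncomputable def n2279 : Strat := .win 712 2 712
noncomputable def n2280 : Strat := .win 714 2 713
noncomputable def n2281 : Strat := .move 713 n2279 (.cons 712 n2280 .nil)
noncomputable def n2282 : Strat := .move 754 n2278 (.cons 799 n2281 .nil)
noncomputable def n2283 : Strat := .win 794 4 753
noncomputable def n2284 : Strat := .win 796 4 754
noncomputable def n2285 : Strat := .move 795 n2283 (.cons 794 n2284 .nil)
noncomputable def n2286 : Strat := .move 754 n2281 (.cons 714 n2285 .nil)
noncomputable def n2287 : Strat := .move 755 n2271 (.cons 754 n2277 (.cons 800 n2282 (.cons 799 n2286 .nil)))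
noncomputable def n2288 : Strat := .move 758 n1544 (.cons 717 n2287 .nil)
noncomputable def n2289 : Strat := .move 756 n316 (.cons 715 n2288 .nil)
noncomputable def n2290 : Strat := .move 880 n1860 (.cons 715 n2125 (.cons 758 n2270 (.cons 921 n2289 .nil)))
noncomputable def n2291 : Strat := .move 757 n2223 (.cons 880 n2253 (.cons 797 n1763 (.cons 756 n2045 (.cons 717 n2258 (.cons 715 n2116 (.cons 675 n2259 (.cons 799 n2268 (.cons 716 n2290 .nil))))))))
noncomputable def n2292 : Strat := .move 716 n532 (.cons 881 n313 .nil)
noncomputable def n2293 : Strat := .move 717 n1586 (.cons 676 n2217 .nil)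
noncomputable def n2294 : Strat := .move 716 n313 (.cons 675 n2293 .nil)
noncomputable def n2295 : Strat := .move 716 n532 (.cons 881 n2293 .nil)
noncomputable def n2296 : Strat := .move 921 n337 (.cons 962 n852 .nil)
noncomputable def n2297 : Strat := .win 797 2 755
noncomputable def n2298 : Strat := .move 755 n2297 (.cons 797 n1694 .nil)
noncomputable def n2299 : Strat := .move 800 n1824 (.cons 801 n2298 .nil)
noncomputable def n2300 : Strat := .move 756 n316 (.cons 715 n2299 .nil)
noncomputable def n2301 : Strat := .move 880 n2296 (.cons 963 n1710 (.cons 921 n2300 .nil))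
noncomputable def n2302 : Strat := .move 922 n2155 (.cons 881 n2301 .nil)
noncomputable def n2303 : Strat := .move 799 n2292 (.cons 881 n2294 (.cons 675 n2295 (.cons 716 n2302 .nil)))
noncomputable def n2304 : Strat := .move 799 n313 (.cons 675 n2293 .nil)
noncomputable def n2305 : Strat := .move 718 n2225 (.cons 755 n2226 .nil)
noncomputable def n2306 : Strat := .move 756 n1775 (.cons 880 n2305 .nil)
noncomputable def n2307 : Strat := .move 715 n360 (.cons 674 n2306 .nil)
noncomputable def n2308 : Strat := .move 717 n1586 (.cons 676 n2307 .nil)
noncomputable def n2309 : Strat := .move 799 n2293 (.cons 800 n2308 (.cons 676 n2219 .nil))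
noncomputable def n2310 : Strat := .move 718 n2226 (.cons 719 n2225 .nil)
noncomputable def n2311 : Strat := .move 717 n1586 (.cons 676 n2310 .nil)
noncomputable def n2312 : Strat := .move 756 n1775 (.cons 880 n2311 .nil)
noncomputable def n2313 : Strat := .move 715 n360 (.cons 674 n2312 .nil)
noncomputable def n2314 : Strat := .move 716 n2304 (.cons 675 n2309 (.cons 879 n1756 (.cons 799 n2313 .nil)))
noncomputable def n2315 : Strat := .move 716 n532 (.cons 881 n2313 .nil)
noncomputable def n2316 : Strat := .move 716 n532 (.cons 881 n2112 .nil)
noncomputable def n2317 : Strat := .move 881 n238 (.cons 922 n1722 .nil)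
noncomputable def n2318 : Strat := .move 881 n238 (.cons 922 n1872 .nil)
noncomputable def n2319 : Strat := .move 837 n1959 (.cons 838 n1719 .nil)
noncomputable def n2320 : Strat := .move 924 n1337 (.cons 925 n1336 .nil)
noncomputable def n2321 : Strat := .move 883 n185 (.cons 884 n2320 .nil)
noncomputable def n2322 : Strat := .move 882 n1725 (.cons 837 n1794 (.cons 883 n2319 (.cons 838 n2321 .nil)))
noncomputable def n2323 : Strat := .move 879 n341 (.cons 920 n2322 .nil)
noncomputable def n2324 : Strat := .move 881 n238 (.cons 922 n2323 .nil)
noncomputable def n2325 : Strat := .move 880 n2317 (.cons 881 n2270 (.cons 879 n2318 (.cons 715 n1740 (.cons 921 n2324 .nil))))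
noncomputable def n2326 : Strat := .move 757 n2303 (.cons 881 n2314 (.cons 880 n1805 (.cons 799 n2315 (.cons 715 n2316 (.cons 716 n2325 .nil)))))
noncomputable def n2327 : Strat := .move 880 n238 (.cons 922 n1703 .nil)
noncomputable def n2328 : Strat := .move 881 n544 (.cons 716 n2327 .nil)
noncomputable def n2329 : Strat := .move 881 n238 (.cons 922 n1703 .nil)
noncomputable def n2330 : Strat := .move 880 n2329 (.cons 715 n2130 (.cons 797 n1790 (.cons 922 n1703 (.cons 921 n2324 .nil))))
noncomputable def n2331 : Strat := .move 716 n532 (.cons 881 n2250 .nil)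
noncomputable def n2332 : Strat := .move 757 n2328 (.cons 881 n2268 (.cons 797 n1785 (.cons 756 n1847 (.cons 716 n2330 (.cons 880 n2331 .nil)))))
noncomputable def n2333 : Strat := .move 760 n1838 (.cons 797 n1837 .nil)
noncomputable def n2334 : Strat := .move 759 n788 (.cons 718 n2333 .nil)
noncomputable def n2335 : Strat := .move 881 n650 (.cons 922 n2334 .nil)
noncomputable def n2336 : Strat := .move 717 n301 (.cons 676 n1746 .nil)
noncomputable def n2337 : Strat := .move 716 n313 (.cons 675 n2336 .nil)
noncomputable def n2338 : Strat := .move 757 n2292 (.cons 716 n2335 (.cons 881 n2337 .nil))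
noncomputable def n2339 : Strat := .move 714 n1744 (.cons 713 n1743 .nil)
noncomputable def n2340 : Strat := .move 715 n360 (.cons 674 n2339 .nil)
noncomputable def n2341 : Strat := .move 757 n532 (.cons 881 n2340 .nil)
noncomputable def n2342 : Strat := .move 716 n305 (.cons 675 n2341 .nil)
noncomputable def n2343 : Strat := .move 717 n301 (.cons 676 n2342 .nil)
noncomputable def n2344 : Strat := .move 715 n2228 (.cons 760 n2229 .nil)
noncomputable def n2345 : Strat := .move 759 n1977 (.cons 881 n2344 .nil)
noncomputable def n2346 : Strat := .move 718 n1175 (.cons 677 n2345 .nil)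
noncomputable def n2347 : Strat := .move 716 n305 (.cons 675 n2346 .nil)
noncomputable def n2348 : Strat := .move 717 n301 (.cons 676 n2347 .nil)
noncomputable def n2349 : Strat := .win 673 2 673
noncomputable def n2350 : Strat := .win 757 7 674
noncomputable def n2351 : Strat := .move 674 n2349 (.cons 673 n2350 .nil)
noncomputable def n2352 : Strat := .move 715 n2230 (.cons 714 n2351 .nil)
noncomputable def n2353 : Strat := .move 718 n1175 (.cons 677 n2352 .nil)
noncomputable def n2354 : Strat := .move 716 n305 (.cons 675 n2353 .nil)
noncomputable def n2355 : Strat := .move 717 n301 (.cons 676 n2354 .nil)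
noncomputable def n2356 : Strat := .move 881 n1176 (.cons 759 n649 .nil)
noncomputable def n2357 : Strat := .move 718 n1175 (.cons 677 n2356 .nil)
noncomputable def n2358 : Strat := .move 717 n301 (.cons 676 n2357 .nil)
noncomputable def n2359 : Strat := .win 756 4 715
noncomputable def n2360 : Strat := .move 719 n2204 (.cons 720 n2359 .nil)
noncomputable def n2361 : Strat := .move 718 n1175 (.cons 677 n2360 .nil)
noncomputable def n2362 : Strat := .move 757 n532 (.cons 881 n2361 .nil)
noncomputable def n2363 : Strat := .move 716 n305 (.cons 675 n2362 .nil)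
noncomputable def n2364 : Strat := .move 717 n301 (.cons 676 n2363 .nil)
noncomputable def n2365 : Strat := .move 757 n544 (.cons 716 n650 .nil)
noncomputable def n2366 : Strat := .move 757 n544 (.cons 716 n2334 .nil)
noncomputable def n2367 : Strat := .move 757 n650 (.cons 922 n2334 .nil)
noncomputable def n2368 : Strat := .move 922 n213 (.cons 963 n1881 .nil)
noncomputable def n2369 : Strat := .move 759 n788 (.cons 718 n2368 .nil)
noncomputable def n2370 : Strat := .move 881 n2365 (.cons 922 n2366 (.cons 716 n2367 (.cons 757 n2369 .nil)))
noncomputable def n2371 : Strat := .move 758 n2338 (.cons 922 n2343 (.cons 757 n2348 (.cons 881 n2355 (.cons 716 n2358 (.cons 759 n2364 (.cons 717 n2370 .nil))))))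
noncomputable def n2372 : Strat := .win 922 3 758
noncomputable def n2373 : Strat := .move 718 n2089 (.cons 758 n776 .nil)
noncomputable def n2374 : Strat := .move 881 n2372 (.cons 922 n2373 .nil)
noncomputable def n2375 : Strat := .move 759 n295 (.cons 760 n2374 .nil)
noncomputable def n2376 : Strat := .move 797 n325 (.cons 796 n2375 .nil)
noncomputable def n2377 : Strat := .move 838 n282 (.cons 801 n2376 .nil)
noncomputable def n2378 : Strat := .win 797 5 756
noncomputable def n2379 : Strat := .move 883 n947 (.cons 718 n419 .nil)
noncomputable def n2380 : Strat := .move 759 n2378 (.cons 797 n2379 .nil)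
noncomputable def n2381 : Strat := .move 760 n1365 (.cons 761 n2380 .nil)
noncomputable def n2382 : Strat := .move 842 n979 (.cons 843 n2381 .nil)
noncomputable def n2383 : Strat := .move 801 n279 (.cons 802 n2382 .nil)
noncomputable def n2384 : Strat := .move 838 n255 (.cons 837 n2376 .nil)
noncomputable def n2385 : Strat := .move 800 n1683 (.cons 837 n2377 (.cons 838 n2383 (.cons 801 n2384 .nil)))
noncomputable def n2386 : Strat := .move 757 n532 (.cons 881 n1746 .nil)
noncomputable def n2387 : Strat := .move 716 n305 (.cons 675 n2386 .nil)
noncomputable def n2388 : Strat := .move 717 n301 (.cons 676 n2387 .nil)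
noncomputable def n2389 : Strat := .move 800 n1983 (.cons 802 n481 .nil)
noncomputable def n2390 : Strat := .move 800 n2026 (.cons 756 n1983 .nil)
noncomputable def n2391 : Strat := .move 800 n2026 (.cons 756 n481 .nil)
noncomputable def n2392 : Strat := .move 760 n2024 (.cons 802 n1837 .nil)
noncomputable def n2393 : Strat := .move 801 n2389 (.cons 838 n2390 (.cons 802 n2391 (.cons 800 n2392 .nil)))
noncomputable def n2394 : Strat := .move 759 n788 (.cons 718 n2393 .nil)
noncomputable def n2395 : Strat := .move 757 n544 (.cons 716 n2394 .nil)
noncomputable def n2396 : Strat := .move 757 n650 (.cons 922 n2394 .nil)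
noncomputable def n2397 : Strat := .move 922 n213 (.cons 963 n1882 .nil)
noncomputable def n2398 : Strat := .move 881 n2365 (.cons 922 n2395 (.cons 716 n2396 (.cons 757 n2397 .nil)))
noncomputable def n2399 : Strat := .move 923 n880 (.cons 964 n1885 .nil)
noncomputable def n2400 : Strat := .move 922 n213 (.cons 963 n2399 .nil)
noncomputable def n2401 : Strat := .move 881 n1176 (.cons 759 n2400 .nil)
noncomputable def n2402 : Strat := .move 718 n1175 (.cons 677 n2401 .nil)
noncomputable def n2403 : Strat := .move 717 n301 (.cons 676 n2402 .nil)
noncomputable def n2404 : Strat := .move 758 n2388 (.cons 717 n2398 (.cons 881 n2355 (.cons 757 n2403 (.cons 759 n2364 .nil))))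
noncomputable def n2405 : Strat := .move 801 n481 (.cons 838 n279 .nil)
noncomputable def n2406 : Strat := .move 757 n357 (.cons 675 n532 .nil)
noncomputable def n2407 : Strat := .move 757 n314 (.cons 879 n357 .nil)
noncomputable def n2408 : Strat := .move 757 n314 (.cons 879 n532 .nil)
noncomputable def n2409 : Strat := .move 715 n1568 (.cons 675 n286 .nil)
noncomputable def n2410 : Strat := .move 716 n2406 (.cons 881 n2407 (.cons 675 n2408 (.cons 757 n2409 .nil)))
noncomputable def n2411 : Strat := .move 756 n284 (.cons 755 n2410 .nil)
noncomputable def n2412 : Strat := .move 797 n325 (.cons 796 n2411 (.cons 756 n297 .nil))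
noncomputable def n2413 : Strat := .move 838 n255 (.cons 837 n2412 .nil)
noncomputable def n2414 : Strat := .move 842 n979 (.cons 843 n534 .nil)
noncomputable def n2415 : Strat := .move 801 n279 (.cons 802 n2414 .nil)
noncomputable def n2416 : Strat := .move 800 n2405 (.cons 802 n1683 (.cons 801 n2413 (.cons 838 n2415 .nil)))
noncomputable def n2417 : Strat := .move 838 n697 (.cons 800 n756 .nil)
noncomputable def n2418 : Strat := .move 837 n1255 (.cons 836 n2417 .nil)
noncomputable def n2419 : Strat := .move 796 n216 (.cons 795 n2418 .nil)
noncomputable def n2420 : Strat := .move 755 n323 (.cons 756 n266 .nil)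
noncomputable def n2421 : Strat := .move 800 n2087 (.cons 838 n2420 .nil)
noncomputable def n2422 : Strat := .move 837 n1255 (.cons 836 n2421 .nil)
noncomputable def n2423 : Strat := .move 796 n216 (.cons 795 n2422 .nil)
noncomputable def n2424 : Strat := .move 838 n282 (.cons 801 n1213 .nil)
noncomputable def n2425 : Strat := .win 757 2 756
noncomputable def n2426 : Strat := .move 756 n284 (.cons 755 n2425 .nil)
noncomputable def n2427 : Strat := .move 801 n279 (.cons 802 n2426 .nil)
noncomputable def n2428 : Strat := .move 838 n1213 (.cons 837 n2411 .nil)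
noncomputable def n2429 : Strat := .move 800 n2424 (.cons 837 n2405 (.cons 838 n2427 (.cons 801 n2428 .nil)))
noncomputable def n2430 : Strat := .win 918 1 754
noncomputable def n2431 : Strat := .win 838 4 836
noncomputable def n2432 : Strat := .move 877 n2430 (.cons 918 n2431 .nil)
noncomputable def n2433 : Strat := .move 756 n1629 (.cons 715 n91 .nil)
noncomputable def n2434 : Strat := .move 878 n2432 (.cons 838 n2433 .nil)
noncomputable def n2435 : Strat := .move 755 n266 (.cons 754 n2434 .nil)
noncomputable def n2436 : Strat := .move 837 n1255 (.cons 836 n2435 .nil)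
noncomputable def n2437 : Strat := .move 796 n216 (.cons 795 n2436 .nil)
noncomputable def n2438 : Strat := .win 759 5 756
noncomputable def n2439 : Strat := .move 760 n1365 (.cons 761 n2438 .nil)
noncomputable def n2440 : Strat := .move 801 n279 (.cons 802 n2439 .nil)
noncomputable def n2441 : Strat := .move 800 n323 (.cons 756 n2440 .nil)
noncomputable def n2442 : Strat := .move 755 n266 (.cons 754 n2441 .nil)
noncomputable def n2443 : Strat := .move 796 n216 (.cons 795 n2442 .nil)
noncomputable def n2444 : Strat := .move 838 n697 (.cons 800 n1164 .nil)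
noncomputable def n2445 : Strat := .move 837 n1255 (.cons 836 n2444 .nil)
noncomputable def n2446 : Strat := .move 796 n216 (.cons 795 n2445 .nil)
noncomputable def n2447 : Strat := .move 797 n2419 (.cons 714 n2423 (.cons 796 n2429 (.cons 800 n2437 (.cons 838 n2443 (.cons 755 n2446 .nil)))))
noncomputable def n2448 : Strat := .win 920 5 879
noncomputable def n2449 : Strat := .move 921 n2448 (.cons 920 n556 .nil)
noncomputable def n2450 : Strat := .move 883 n185 (.cons 884 n2449 .nil)
noncomputable def n2451 : Strat := .move 882 n869 (.cons 758 n2450 .nil)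
noncomputable def n2452 : Strat := .move 923 n880 (.cons 964 n2451 .nil)
noncomputable def n2453 : Strat := .move 922 n213 (.cons 963 n2452 .nil)
noncomputable def n2454 : Strat := .move 717 n301 (.cons 676 n2105 .nil)
noncomputable def n2455 : Strat := .win 757 6 716
noncomputable def n2456 : Strat := .move 717 n301 (.cons 676 n305 .nil)
noncomputable def n2457 : Strat := .move 716 n2455 (.cons 757 n2456 .nil)
noncomputable def n2458 : Strat := .move 758 n2366 (.cons 757 n2454 (.cons 759 n2457 .nil))
noncomputable def n2459 : Strat := .move 881 n2365 (.cons 757 n2453 (.cons 922 n2458 .nil))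
noncomputable def n2460 : Strat := .win 800 2 755
noncomputable def n2461 : Strat := .move 878 n1629 (.cons 715 n91 .nil)
noncomputable def n2462 : Strat := .move 756 n2460 (.cons 800 n2461 .nil)
noncomputable def n2463 : Strat := .move 755 n266 (.cons 754 n2462 .nil)
noncomputable def n2464 : Strat := .move 837 n1255 (.cons 836 n2463 .nil)
noncomputable def n2465 : Strat := .move 796 n216 (.cons 795 n2464 .nil)
noncomputable def n2466 : Strat := .move 800 n323 (.cons 756 n282 .nil)
noncomputable def n2467 : Strat := .move 755 n266 (.cons 754 n2466 .nil)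
noncomputable def n2468 : Strat := .move 759 n295 (.cons 760 n294 .nil)
noncomputable def n2469 : Strat := .move 800 n282 (.cons 801 n2468 .nil)
noncomputable def n2470 : Strat := .win 920 7 755
noncomputable def n2471 : Strat := .win 756 7 714
noncomputable def n2472 : Strat := .move 714 n2471 (.cons 756 n267 .nil)
noncomputable def n2473 : Strat := .move 879 n2470 (.cons 920 n2472 .nil)
noncomputable def n2474 : Strat := .move 755 n266 (.cons 754 n2473 .nil)
noncomputable def n2475 : Strat := .move 838 n2467 (.cons 754 n2469 (.cons 800 n2474 .nil))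
noncomputable def n2476 : Strat := .move 796 n216 (.cons 795 n2475 .nil)
noncomputable def n2477 : Strat := .move 800 n2087 (.cons 838 n2468 .nil)
noncomputable def n2478 : Strat := .move 837 n1255 (.cons 836 n2477 .nil)
noncomputable def n2479 : Strat := .move 796 n216 (.cons 795 n2478 .nil)
noncomputable def n2480 : Strat := .move 796 n294 (.cons 758 n266 .nil)
noncomputable def n2481 : Strat := .move 755 n323 (.cons 756 n2480 .nil)
noncomputable def n2482 : Strat := .move 759 n295 (.cons 760 n2481 .nil)
noncomputable def n2483 : Strat := .move 838 n1213 (.cons 837 n2482 .nil)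
noncomputable def n2484 : Strat := .move 800 n2424 (.cons 801 n2483 (.cons 837 n2405 (.cons 838 n2427 .nil)))
noncomputable def n2485 : Strat := .move 800 n282 (.cons 801 n1213 .nil)
noncomputable def n2486 : Strat := .win 879 1 755
noncomputable def n2487 : Strat := .move 919 n2486 (.cons 879 n94 .nil)
noncomputable def n2488 : Strat := .move 756 n92 (.cons 715 n2487 .nil)
noncomputable def n2489 : Strat := .move 878 n2 (.cons 877 n2488 .nil)
noncomputable def n2490 : Strat := .move 837 n264 (.cons 836 n2489 .nil)
noncomputable def n2491 : Strat := .win 878 1 755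
noncomputable def n2492 : Strat := .move 756 n2491 (.cons 878 n284 .nil)
noncomputable def n2493 : Strat := .move 920 n157 (.cons 960 n63 .nil)
noncomputable def n2494 : Strat := .move 919 n2492 (.cons 755 n2493 .nil)
noncomputable def n2495 : Strat := .move 800 n282 (.cons 801 n2494 .nil)
noncomputable def n2496 : Strat := .move 800 n284 (.cons 755 n282 .nil)
noncomputable def n2497 : Strat := .move 755 n67 (.cons 714 n2460 .nil)
noncomputable def n2498 : Strat := .move 756 n2496 (.cons 801 n2497 (.cons 755 n2409 .nil))
noncomputable def n2499 : Strat := .move 716 n306 (.cons 757 n2498 .nil)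
noncomputable def n2500 : Strat := .move 879 n959 (.cons 716 n327 (.cons 757 n2495 (.cons 920 n2499 .nil)))
noncomputable def n2501 : Strat := .move 838 n2485 (.cons 800 n2490 (.cons 837 n2500 .nil))
noncomputable def n2502 : Strat := .move 797 n2419 (.cons 800 n2437 (.cons 838 n2465 (.cons 837 n2476 (.cons 755 n2479 (.cons 795 n2484 (.cons 796 n2501 .nil))))))
noncomputable def n2503 : Strat := .move 881 n7 (.cons 882 n2365 .nil)
noncomputable def n2504 : Strat := .move 837 n264 (.cons 836 n2503 .nil)
noncomputable def n2505 : Strat := .move 757 n532 (.cons 881 n313 .nil)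
noncomputable def n2506 : Strat := .move 715 n286 (.cons 674 n1568 .nil)
noncomputable def n2507 : Strat := .move 756 n284 (.cons 755 n2506 .nil)
noncomputable def n2508 : Strat := .move 717 n305 (.cons 675 n301 .nil)
noncomputable def n2509 : Strat := .move 758 n2508 (.cons 676 n347 .nil)
noncomputable def n2510 : Strat := .move 797 n325 (.cons 796 n2507 (.cons 756 n2509 .nil))
noncomputable def n2511 : Strat := .move 757 n532 (.cons 881 n314 .nil)
noncomputable def n2512 : Strat := .move 716 n2505 (.cons 757 n2510 (.cons 675 n2511 .nil))
noncomputable def n2513 : Strat := .move 800 n282 (.cons 801 n2512 .nil)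
noncomputable def n2514 : Strat := .move 838 n998 (.cons 836 n2062 (.cons 800 n2504 (.cons 837 n2513 .nil)))
noncomputable def n2515 : Strat := .move 757 n531 (.cons 756 n2292 .nil)
noncomputable def n2516 : Strat := .move 801 n279 (.cons 802 n2515 .nil)
noncomputable def n2517 : Strat := .move 716 n357 (.cons 675 n532 .nil)
noncomputable def n2518 : Strat := .move 716 n314 (.cons 879 n357 .nil)
noncomputable def n2519 : Strat := .move 881 n650 (.cons 922 n544 .nil)
noncomputable def n2520 : Strat := .move 755 n323 (.cons 756 n1998 .nil)
noncomputable def n2521 : Strat := .move 757 n2517 (.cons 881 n2518 (.cons 675 n2519 (.cons 716 n2520 .nil)))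
noncomputable def n2522 : Strat := .move 838 n1213 (.cons 837 n2521 .nil)
noncomputable def n2523 : Strat := .move 838 n1213 (.cons 837 n325 .nil)
noncomputable def n2524 : Strat := .move 796 n216 (.cons 795 n2420 .nil)
noncomputable def n2525 : Strat := .move 796 n216 (.cons 795 n1255 .nil)
noncomputable def n2526 : Strat := .move 837 n2087 (.cons 838 n2525 .nil)
noncomputable def n2527 : Strat := .move 797 n2522 (.cons 716 n2523 (.cons 754 n2428 (.cons 838 n2524 (.cons 755 n2526 .nil))))
noncomputable def n2528 : Strat := .move 800 n1683 (.cons 838 n2516 (.cons 801 n2527 .nil))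
noncomputable def n2529 : Strat := .move 799 n2371 (.cons 757 n2385 (.cons 797 n2404 (.cons 922 n2416 (.cons 758 n2447 (.cons 800 n2459 (.cons 881 n2502 (.cons 760 n2514 (.cons 759 n2528 .nil))))))))
noncomputable def n2530 : Strat := .move 758 n301 (.cons 676 n300 .nil)
noncomputable def n2531 : Strat := .move 758 n301 (.cons 676 n2347 .nil)
noncomputable def n2532 : Strat := .move 758 n300 (.cons 880 n2347 .nil)
noncomputable def n2533 : Strat := .move 838 n1213 (.cons 837 n288 .nil)
noncomputable def n2534 : Strat := .win 838 6 715
noncomputable def n2535 : Strat := .move 715 n2534 (.cons 838 n286 .nil)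
noncomputable def n2536 : Strat := .move 880 n291 (.cons 921 n2535 .nil)
noncomputable def n2537 : Strat := .move 756 n284 (.cons 755 n2536 .nil)
noncomputable def n2538 : Strat := .move 797 n2088 (.cons 836 n2533 (.cons 837 n2537 (.cons 838 n325 .nil)))
noncomputable def n2539 : Strat := .move 797 n325 (.cons 754 n2440 .nil)
noncomputable def n2540 : Strat := .move 800 n1683 (.cons 801 n2538 (.cons 837 n2405 (.cons 838 n2539 .nil)))
noncomputable def n2541 : Strat := .move 717 n2530 (.cons 880 n2531 (.cons 676 n2532 (.cons 758 n2540 .nil)))
noncomputable def n2542 : Strat := .win 883 7 718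
noncomputable def n2543 : Strat := .move 842 n2542 (.cons 883 n979 .nil)
noncomputable def n2544 : Strat := .move 718 n776 (.cons 677 n2543 .nil)
noncomputable def n2545 : Strat := .move 759 n2378 (.cons 797 n2544 .nil)
noncomputable def n2546 : Strat := .move 760 n1365 (.cons 761 n2545 .nil)
noncomputable def n2547 : Strat := .move 801 n279 (.cons 802 n2546 .nil)
noncomputable def n2548 : Strat := .move 797 n2533 (.cons 838 n2524 (.cons 756 n2526 .nil))
noncomputable def n2549 : Strat := .move 800 n1683 (.cons 838 n2547 (.cons 801 n2548 .nil))
noncomputable def n2550 : Strat := .move 716 n305 (.cons 675 n2344 .nil)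
noncomputable def n2551 : Strat := .move 759 n1977 (.cons 881 n2550 .nil)
noncomputable def n2552 : Strat := .move 718 n1175 (.cons 677 n2551 .nil)
noncomputable def n2553 : Strat := .move 717 n301 (.cons 676 n2552 .nil)
noncomputable def n2554 : Strat := .move 759 n788 (.cons 718 n1943 .nil)
noncomputable def n2555 : Strat := .move 880 n554 (.cons 921 n2554 .nil)
noncomputable def n2556 : Strat := .move 922 n213 (.cons 963 n556 .nil)
noncomputable def n2557 : Strat := .move 921 n652 (.cons 880 n2556 .nil)
noncomputable def n2558 : Strat := .move 922 n213 (.cons 963 n1886 .nil)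
noncomputable def n2559 : Strat := .move 881 n2555 (.cons 882 n2557 (.cons 921 n2187 (.cons 880 n2558 .nil)))
noncomputable def n2560 : Strat := .move 758 n312 (.cons 880 n2553 (.cons 717 n2559 .nil))
noncomputable def n2561 : Strat := .move 759 n1881 (.cons 800 n788 .nil)
noncomputable def n2562 : Strat := .move 922 n213 (.cons 963 n2561 .nil)
noncomputable def n2563 : Strat := .win 800 5 756
noncomputable def n2564 : Strat := .move 760 n2563 (.cons 800 n1837 .nil)
noncomputable def n2565 : Strat := .move 797 n761 (.cons 796 n2564 .nil)
noncomputable def n2566 : Strat := .move 759 n788 (.cons 718 n2565 .nil)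
noncomputable def n2567 : Strat := .move 881 n2562 (.cons 922 n2566 (.cons 800 n2400 .nil))
noncomputable def n2568 : Strat := .move 880 n311 (.cons 921 n2567 .nil)
noncomputable def n2569 : Strat := .win 715 0 715
noncomputable def n2570 : Strat := .move 716 n2569 (.cons 715 n305 .nil)
noncomputable def n2571 : Strat := .move 760 n1837 (.cons 761 n2570 .nil)
noncomputable def n2572 : Strat := .move 759 n1977 (.cons 881 n2571 .nil)
noncomputable def n2573 : Strat := .move 718 n1175 (.cons 677 n2572 .nil)
noncomputable def n2574 : Strat := .move 717 n301 (.cons 676 n2573 .nil)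
noncomputable def n2575 : Strat := .move 758 n312 (.cons 717 n2568 (.cons 921 n352 (.cons 880 n2574 .nil)))
noncomputable def n2576 : Strat := .win 965 0 920
noncomputable def n2577 : Strat := .win 881 6 799
noncomputable def n2578 : Strat := .move 964 n2576 (.cons 965 n2577 .nil)
noncomputable def n2579 : Strat := .win 878 2 878
noncomputable def n2580 : Strat := .move 879 n2579 (.cons 878 n854 .nil)
noncomputable def n2581 : Strat := .move 923 n2578 (.cons 881 n2580 .nil)
noncomputable def n2582 : Strat := .move 920 n521 (.cons 961 n2581 .nil)
noncomputable def n2583 : Strat := .move 922 n852 (.cons 963 n2582 .nil)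
noncomputable def n2584 : Strat := .move 921 n337 (.cons 962 n2583 .nil)
noncomputable def n2585 : Strat := .move 882 n655 (.cons 923 n1725 .nil)
noncomputable def n2586 : Strat := .move 881 n2585 (.cons 883 n2562 .nil)
noncomputable def n2587 : Strat := .move 758 n310 (.cons 717 n2586 .nil)
noncomputable def n2588 : Strat := .move 880 n338 (.cons 758 n2584 (.cons 962 n540 (.cons 921 n2587 .nil)))
noncomputable def n2589 : Strat := .move 797 n288 (.cons 715 n325 (.cons 756 n297 .nil))
noncomputable def n2590 : Strat := .move 800 n282 (.cons 801 n2589 .nil)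
noncomputable def n2591 : Strat := .move 838 n998 (.cons 800 n1426 (.cons 836 n2062 (.cons 837 n2590 .nil)))
noncomputable def n2592 : Strat := .move 756 n2460 (.cons 800 n2536 .nil)
noncomputable def n2593 : Strat := .move 755 n266 (.cons 754 n2592 .nil)
noncomputable def n2594 : Strat := .win 878 3 714
noncomputable def n2595 : Strat := .move 837 n2594 (.cons 878 n1255 .nil)
noncomputable def n2596 : Strat := .move 715 n286 (.cons 674 n2595 .nil)
noncomputable def n2597 : Strat := .move 756 n2460 (.cons 800 n2596 .nil)
noncomputable def n2598 : Strat := .move 755 n266 (.cons 754 n2597 .nil)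
noncomputable def n2599 : Strat := .move 796 n2418 (.cons 837 n2593 (.cons 800 n2436 (.cons 838 n2598 (.cons 755 n2445 .nil))))
noncomputable def n2600 : Strat := .move 837 n264 (.cons 836 n697 .nil)
noncomputable def n2601 : Strat := .move 756 n58 (.cons 715 n2496 .nil)
noncomputable def n2602 : Strat := .move 880 n338 (.cons 921 n2601 .nil)
noncomputable def n2603 : Strat := .move 838 n2600 (.cons 837 n2602 (.cons 800 n2490 .nil))
noncomputable def n2604 : Strat := .move 800 n323 (.cons 756 n1677 .nil)
noncomputable def n2605 : Strat := .move 755 n266 (.cons 754 n2604 .nil)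
noncomputable def n2606 : Strat := .move 796 n216 (.cons 795 n2605 .nil)
noncomputable def n2607 : Strat := .move 796 n216 (.cons 795 n2598 .nil)
noncomputable def n2608 : Strat := .move 797 n2419 (.cons 795 n2599 (.cons 800 n2437 (.cons 796 n2603 (.cons 836 n2606 (.cons 838 n2607 (.cons 755 n2446 .nil))))))
noncomputable def n2609 : Strat := .move 799 n2541 (.cons 758 n2549 (.cons 800 n2560 (.cons 838 n2575 (.cons 880 n2385 (.cons 760 n2588 (.cons 718 n2591 (.cons 759 n2608 .nil)))))))
noncomputable def n2610 : Strat := .move 798 n1735 (.cons 797 n1804 (.cons 963 n1845 (.cons 800 n1862 (.cons 879 n1894 (.cons 716 n1970 (.cons 922 n2042 (.cons 756 n2068 (.cons 717 n2101 (.cons 715 n2132 (.cons 962 n2162 (.cons 921 n2212 (.cons 881 n2291 (.cons 758 n2326 (.cons 799 n2332 (.cons 880 n2529 (.cons 757 n2609 .nil))))))))))))))))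
noncomputable def n2611 : Strat := .win 798 1 675
noncomputable def n2612 : Strat := .win 718 3 676
noncomputable def n2613 : Strat := .win 636 3 635
noncomputable def n2614 : Strat := .move 677 n2612 (.cons 718 n2613 .nil)
noncomputable def n2615 : Strat := .move 676 n2611 (.cons 798 n2614 .nil)
noncomputable def n2616 : Strat := .move 799 n300 (.cons 880 n2615 .nil)
noncomputable def n2617 : Strat := .move 881 n1179 (.cons 757 n1177 .nil)
noncomputable def n2618 : Strat := .move 716 n305 (.cons 675 n2617 .nil)
noncomputable def n2619 : Strat := .win 716 7 675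
noncomputable def n2620 : Strat := .win 634 7 634
noncomputable def n2621 : Strat := .move 675 n2619 (.cons 716 n2620 .nil)
noncomputable def n2622 : Strat := .move 676 n2611 (.cons 798 n2621 .nil)
noncomputable def n2623 : Strat := .move 799 n2615 (.cons 676 n2618 (.cons 718 n2622 .nil))
noncomputable def n2624 : Strat := .move 799 n300 (.cons 880 n2618 .nil)
noncomputable def n2625 : Strat := .move 799 n300 (.cons 880 n2622 .nil)
noncomputable def n2626 : Strat := .move 716 n1586 (.cons 676 n532 .nil)
noncomputable def n2627 : Strat := .move 798 n1742 (.cons 880 n2626 .nil)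
noncomputable def n2628 : Strat := .move 716 n532 (.cons 881 n1746 .nil)
noncomputable def n2629 : Strat := .move 798 n1742 (.cons 880 n2628 .nil)
noncomputable def n2630 : Strat := .move 676 n1972 (.cons 635 n2102 .nil)
noncomputable def n2631 : Strat := .move 798 n1742 (.cons 880 n2630 .nil)
noncomputable def n2632 : Strat := .win 716 4 715
noncomputable def n2633 : Strat := .move 756 n2203 (.cons 755 n2632 .nil)
noncomputable def n2634 : Strat := .move 719 n2204 (.cons 720 n2633 .nil)
noncomputable def n2635 : Strat := .move 841 n905 (.cons 676 n777 .nil)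
noncomputable def n2636 : Strat := .move 800 n2013 (.cons 801 n2635 .nil)
noncomputable def n2637 : Strat := .move 759 n1873 (.cons 719 n2636 .nil)
noncomputable def n2638 : Strat := .move 756 n2203 (.cons 755 n2637 .nil)
noncomputable def n2639 : Strat := .move 798 n532 (.cons 881 n1586 .nil)
noncomputable def n2640 : Strat := .move 716 n2639 (.cons 676 n2344 .nil)
noncomputable def n2641 : Strat := .win 841 7 676
noncomputable def n2642 : Strat := .win 635 6 635
noncomputable def n2643 : Strat := .move 676 n2641 (.cons 841 n2642 .nil)
noncomputable def n2644 : Strat := .move 800 n2013 (.cons 801 n2643 .nil)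
noncomputable def n2645 : Strat := .win 716 0 715
noncomputable def n2646 : Strat := .move 715 n2645 (.cons 716 n1776 .nil)
noncomputable def n2647 : Strat := .win 800 0 756
noncomputable def n2648 : Strat := .move 801 n2024 (.cons 802 n2647 .nil)
noncomputable def n2649 : Strat := .move 760 n2646 (.cons 714 n2648 .nil)
noncomputable def n2650 : Strat := .move 759 n2636 (.cons 800 n2640 (.cons 881 n2644 (.cons 676 n2649 .nil)))
noncomputable def n2651 : Strat := .move 756 n2203 (.cons 755 n2650 .nil)
noncomputable def n2652 : Strat := .win 675 2 674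
noncomputable def n2653 : Strat := .move 674 n2349 (.cons 673 n2652 .nil)
noncomputable def n2654 : Strat := .move 715 n1745 (.cons 713 n2230 (.cons 759 n2653 .nil))
noncomputable def n2655 : Strat := .move 716 n2639 (.cons 676 n2654 .nil)
noncomputable def n2656 : Strat := .move 719 n2204 (.cons 720 n2655 .nil)
noncomputable def n2657 : Strat := .move 718 n2634 (.cons 720 n2638 (.cons 719 n2651 (.cons 756 n2656 .nil)))
noncomputable def n2658 : Strat := .move 719 n2204 (.cons 720 n2632 .nil)
noncomputable def n2659 : Strat := .move 718 n2203 (.cons 755 n2658 .nil)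
noncomputable def n2660 : Strat := .win 882 7 717
noncomputable def n2661 : Strat := .move 841 n777 (.cons 881 n2660 .nil)
noncomputable def n2662 : Strat := .move 800 n2013 (.cons 801 n2661 .nil)
noncomputable def n2663 : Strat := .move 718 n1873 (.cons 719 n2662 .nil)
noncomputable def n2664 : Strat := .move 841 n905 (.cons 676 n2660 .nil)
noncomputable def n2665 : Strat := .move 800 n2013 (.cons 801 n2664 .nil)
noncomputable def n2666 : Strat := .move 718 n1873 (.cons 719 n2665 .nil)
noncomputable def n2667 : Strat := .win 716 2 715
noncomputable def n2668 : Strat := .move 760 n2667 (.cons 716 n2648 .nil)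
noncomputable def n2669 : Strat := .move 715 n1776 (.cons 714 n2668 .nil)
noncomputable def n2670 : Strat := .win 718 5 715
noncomputable def n2671 : Strat := .win 720 5 716
noncomputable def n2672 : Strat := .move 715 n2667 (.cons 716 n1776 .nil)
noncomputable def n2673 : Strat := .move 760 n2671 (.cons 720 n2672 .nil)
noncomputable def n2674 : Strat := .move 719 n2670 (.cons 718 n2673 .nil)
noncomputable def n2675 : Strat := .move 759 n2663 (.cons 881 n2666 (.cons 719 n2669 (.cons 800 n2674 .nil)))
noncomputable def n2676 : Strat := .win 718 5 714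
noncomputable def n2677 : Strat := .move 759 n2274 (.cons 797 n2198 .nil)
noncomputable def n2678 : Strat := .move 796 n2275 (.cons 795 n2677 .nil)
noncomputable def n2679 : Strat := .move 755 n2676 (.cons 718 n2678 .nil)
noncomputable def n2680 : Strat := .win 716 5 713
noncomputable def n2681 : Strat := .move 754 n2680 (.cons 716 n2281 .nil)
noncomputable def n2682 : Strat := .win 754 5 713
noncomputable def n2683 : Strat := .move 715 n1777 (.cons 760 n2229 .nil)
noncomputable def n2684 : Strat := .move 759 n2276 (.cons 795 n2683 .nil)
noncomputable def n2685 : Strat := .move 716 n2682 (.cons 754 n2684 .nil)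
noncomputable def n2686 : Strat := .move 754 n2680 (.cons 716 n2285 .nil)
noncomputable def n2687 : Strat := .move 755 n2681 (.cons 716 n2678 (.cons 713 n2685 (.cons 714 n2686 .nil)))
noncomputable def n2688 : Strat := .move 756 n2659 (.cons 755 n2675 (.cons 716 n2679 (.cons 718 n2687 .nil)))
noncomputable def n2689 : Strat := .move 759 n2198 (.cons 713 n2276 .nil)
noncomputable def n2690 : Strat := .move 755 n2676 (.cons 718 n2689 .nil)
noncomputable def n2691 : Strat := .move 798 n1742 (.cons 880 n2690 .nil)
noncomputable def n2692 : Strat := .move 719 n2205 (.cons 759 n2204 .nil)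
noncomputable def n2693 : Strat := .move 718 n2203 (.cons 755 n2692 .nil)
noncomputable def n2694 : Strat := .move 798 n1742 (.cons 880 n2693 .nil)
noncomputable def n2695 : Strat := .move 797 n760 (.cons 760 n1699 .nil)
noncomputable def n2696 : Strat := .move 719 n2671 (.cons 720 n2670 .nil)
noncomputable def n2697 : Strat := .move 760 n2648 (.cons 800 n2696 .nil)
noncomputable def n2698 : Strat := .move 759 n2695 (.cons 796 n2195 (.cons 797 n2697 .nil))
noncomputable def n2699 : Strat := .move 798 n1742 (.cons 880 n2698 .nil)
noncomputable def n2700 : Strat := .move 755 n2676 (.cons 718 n2286 .nil)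
noncomputable def n2701 : Strat := .move 798 n1742 (.cons 880 n2700 .nil)
noncomputable def n2702 : Strat := .move 798 n1742 (.cons 880 n2192 .nil)
noncomputable def n2703 : Strat := .move 759 n1699 (.cons 796 n1776 .nil)
noncomputable def n2704 : Strat := .move 797 n286 (.cons 674 n2703 .nil)
noncomputable def n2705 : Strat := .move 798 n1742 (.cons 880 n2704 .nil)
noncomputable def n2706 : Strat := .win 759 2 714
noncomputable def n2707 : Strat := .win 712 0 712
noncomputable def n2708 : Strat := .win 755 2 713
noncomputable def n2709 : Strat := .move 713 n2707 (.cons 712 n2708 .nil)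
noncomputable def n2710 : Strat := .move 714 n2706 (.cons 759 n2709 .nil)
noncomputable def n2711 : Strat := .move 715 n2702 (.cons 633 n2705 (.cons 798 n2710 .nil))
noncomputable def n2712 : Strat := .move 756 n2691 (.cons 798 n2679 (.cons 714 n2694 (.cons 755 n2699 (.cons 759 n2701 (.cons 718 n2711 .nil)))))
noncomputable def n2713 : Strat := .move 757 n2627 (.cons 676 n2629 (.cons 881 n2631 (.cons 880 n2657 (.cons 798 n2688 (.cons 716 n2712 .nil)))))
noncomputable def n2714 : Strat := .move 717 n2616 (.cons 880 n2623 (.cons 676 n2624 (.cons 718 n2625 (.cons 799 n2713 .nil))))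
noncomputable def n2715 : Strat := .move 717 n300 (.cons 880 n2615 .nil)
noncomputable def n2716 : Strat := .move 717 n2615 (.cons 718 n2622 (.cons 676 n2618 .nil))
noncomputable def n2717 : Strat := .move 881 n1176 (.cons 759 n1179 .nil)
noncomputable def n2718 : Strat := .move 716 n305 (.cons 675 n2717 .nil)
noncomputable def n2719 : Strat := .move 718 n1175 (.cons 677 n2718 .nil)
noncomputable def n2720 : Strat := .move 717 n300 (.cons 880 n2719 .nil)
noncomputable def n2721 : Strat := .move 717 n300 (.cons 880 n2622 .nil)
noncomputable def n2722 : Strat := .move 798 n238 (.cons 922 n1840 .nil)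
noncomputable def n2723 : Strat := .move 757 n559 (.cons 716 n2722 .nil)
noncomputable def n2724 : Strat := .move 880 n554 (.cons 921 n2723 .nil)
noncomputable def n2725 : Strat := .move 922 n880 (.cons 964 n2561 .nil)
noncomputable def n2726 : Strat := .move 923 n1885 (.cons 882 n2725 .nil)
noncomputable def n2727 : Strat := .move 880 n554 (.cons 921 n2726 .nil)
noncomputable def n2728 : Strat := .move 922 n1086 (.cons 798 n1882 .nil)
noncomputable def n2729 : Strat := .move 757 n559 (.cons 716 n2728 .nil)
noncomputable def n2730 : Strat := .win 798 7 715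
noncomputable def n2731 : Strat := .move 715 n1776 (.cons 714 n2730 .nil)
noncomputable def n2732 : Strat := .move 756 n2182 (.cons 755 n2731 .nil)
noncomputable def n2733 : Strat := .move 759 n788 (.cons 718 n2732 .nil)
noncomputable def n2734 : Strat := .move 757 n559 (.cons 716 n2733 .nil)
noncomputable def n2735 : Strat := .move 880 n554 (.cons 921 n2734 .nil)
noncomputable def n2736 : Strat := .win 841 5 837
noncomputable def n2737 : Strat := .move 878 n2736 (.cons 841 n189 .nil)
noncomputable def n2738 : Strat := .move 879 n341 (.cons 920 n2737 .nil)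
noncomputable def n2739 : Strat := .move 798 n238 (.cons 922 n2738 .nil)
noncomputable def n2740 : Strat := .move 757 n559 (.cons 716 n2739 .nil)
noncomputable def n2741 : Strat := .move 880 n554 (.cons 921 n2740 .nil)
noncomputable def n2742 : Strat := .move 881 n2724 (.cons 798 n2727 (.cons 880 n2729 (.cons 922 n2735 (.cons 759 n2741 .nil))))
noncomputable def n2743 : Strat := .move 799 n2715 (.cons 880 n2716 (.cons 798 n2720 (.cons 718 n2721 (.cons 717 n2742 .nil))))
noncomputable def n2744 : Strat := .win 881 1 757
noncomputable def n2745 : Strat := .move 921 n2744 (.cons 881 n1028 .nil)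
noncomputable def n2746 : Strat := .move 880 n310 (.cons 717 n2745 .nil)
noncomputable def n2747 : Strat := .move 718 n1175 (.cons 677 n2717 .nil)
noncomputable def n2748 : Strat := .move 716 n305 (.cons 675 n2747 .nil)
noncomputable def n2749 : Strat := .move 717 n2615 (.cons 676 n2748 (.cons 718 n2622 .nil))
noncomputable def n2750 : Strat := .move 755 n1694 (.cons 754 n1693 .nil)
noncomputable def n2751 : Strat := .move 756 n316 (.cons 715 n2750 .nil)
noncomputable def n2752 : Strat := .move 798 n238 (.cons 922 n2751 .nil)
noncomputable def n2753 : Strat := .move 757 n559 (.cons 716 n2752 .nil)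
noncomputable def n2754 : Strat := .move 880 n554 (.cons 921 n2753 .nil)
noncomputable def n2755 : Strat := .move 963 n204 (.cons 1004 n203 .nil)
noncomputable def n2756 : Strat := .move 922 n1881 (.cons 800 n2755 .nil)
noncomputable def n2757 : Strat := .move 759 n788 (.cons 718 n2756 .nil)
noncomputable def n2758 : Strat := .move 880 n554 (.cons 921 n2757 .nil)
noncomputable def n2759 : Strat := .move 963 n204 (.cons 1004 n1083 .nil)
noncomputable def n2760 : Strat := .move 922 n1881 (.cons 800 n2759 .nil)
noncomputable def n2761 : Strat := .move 759 n788 (.cons 718 n2760 .nil)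
noncomputable def n2762 : Strat := .move 880 n2753 (.cons 757 n2757 (.cons 798 n2761 (.cons 922 n2734 (.cons 800 n2723 .nil))))
noncomputable def n2763 : Strat := .move 880 n554 (.cons 921 n2761 .nil)
noncomputable def n2764 : Strat := .move 881 n2754 (.cons 757 n2758 (.cons 921 n2762 (.cons 798 n2763 (.cons 922 n2735 (.cons 880 n2729 (.cons 800 n2724 .nil))))))
noncomputable def n2765 : Strat := .move 716 n305 (.cons 675 n2345 .nil)
noncomputable def n2766 : Strat := .move 718 n1175 (.cons 677 n2765 .nil)
noncomputable def n2767 : Strat := .move 717 n300 (.cons 880 n2766 .nil)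
noncomputable def n2768 : Strat := .move 799 n2715 (.cons 677 n2746 (.cons 880 n2749 (.cons 717 n2764 (.cons 798 n2767 .nil))))
noncomputable def n2769 : Strat := .move 797 n326 (.cons 796 n696 .nil)
noncomputable def n2770 : Strat := .move 841 n303 (.cons 882 n2769 .nil)
noncomputable def n2771 : Strat := .move 717 n301 (.cons 676 n2770 .nil)
noncomputable def n2772 : Strat := .win 841 6 717
noncomputable def n2773 : Strat := .move 882 n655 (.cons 923 n2772 .nil)
noncomputable def n2774 : Strat := .move 881 n2455 (.cons 757 n2773 .nil)
noncomputable def n2775 : Strat := .move 716 n305 (.cons 675 n2774 .nil)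
noncomputable def n2776 : Strat := .move 717 n301 (.cons 676 n2775 .nil)
noncomputable def n2777 : Strat := .move 881 n544 (.cons 716 n650 .nil)
noncomputable def n2778 : Strat := .move 796 n216 (.cons 795 n265 .nil)
noncomputable def n2779 : Strat := .move 715 n1776 (.cons 714 n286 .nil)
noncomputable def n2780 : Strat := .move 756 n1695 (.cons 754 n2182 (.cons 800 n2779 .nil))
noncomputable def n2781 : Strat := .move 759 n760 (.cons 760 n2780 .nil)
noncomputable def n2782 : Strat := .move 797 n2778 (.cons 795 n1996 (.cons 796 n2781 .nil))
noncomputable def n2783 : Strat := .move 757 n2292 (.cons 675 n2777 (.cons 881 n2337 (.cons 716 n2782 .nil)))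
noncomputable def n2784 : Strat := .move 716 n313 (.cons 675 n2246 .nil)
noncomputable def n2785 : Strat := .move 757 n2292 (.cons 881 n2784 (.cons 675 n2777 (.cons 716 n2782 .nil)))
noncomputable def n2786 : Strat := .move 798 n2771 (.cons 797 n2776 (.cons 882 n2783 (.cons 717 n2785 (.cons 841 n2343 .nil))))
noncomputable def n2787 : Strat := .win 800 6 676
noncomputable def n2788 : Strat := .win 594 1 593
noncomputable def n2789 : Strat := .win 881 7 716
noncomputable def n2790 : Strat := .move 757 n2788 (.cons 594 n2789 .nil)
noncomputable def n2791 : Strat := .win 595 3 594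
noncomputable def n2792 : Strat := .win 677 3 635
noncomputable def n2793 : Strat := .move 636 n2791 (.cons 595 n2792 .nil)
noncomputable def n2794 : Strat := .move 635 n2790 (.cons 881 n2793 .nil)
noncomputable def n2795 : Strat := .move 676 n2787 (.cons 800 n2794 .nil)
noncomputable def n2796 : Strat := .move 841 n303 (.cons 882 n2795 .nil)
noncomputable def n2797 : Strat := .move 716 n305 (.cons 675 n2796 .nil)
noncomputable def n2798 : Strat := .move 717 n300 (.cons 880 n2797 .nil)
noncomputable def n2799 : Strat := .move 922 n1086 (.cons 798 n1886 .nil)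
noncomputable def n2800 : Strat := .move 757 n559 (.cons 716 n2799 .nil)
noncomputable def n2801 : Strat := .move 922 n235 (.cons 798 n1886 .nil)
noncomputable def n2802 : Strat := .move 880 n554 (.cons 921 n2801 .nil)
noncomputable def n2803 : Strat := .move 841 n1335 (.cons 878 n813 .nil)
noncomputable def n2804 : Strat := .win 920 4 878
noncomputable def n2805 : Strat := .move 919 n837 (.cons 918 n2804 .nil)
noncomputable def n2806 : Strat := .move 878 n189 (.cons 877 n2805 .nil)
noncomputable def n2807 : Strat := .win 841 4 838
noncomputable def n2808 : Strat := .win 843 5 839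
noncomputable def n2809 : Strat := .move 883 n2808 (.cons 843 n185 .nil)
noncomputable def n2810 : Strat := .move 842 n2807 (.cons 841 n2809 .nil)
noncomputable def n2811 : Strat := .move 879 n2737 (.cons 877 n2803 (.cons 841 n2806 (.cons 878 n2810 .nil)))
noncomputable def n2812 : Strat := .move 882 n655 (.cons 923 n2811 .nil)
noncomputable def n2813 : Strat := .move 880 n554 (.cons 921 n2812 .nil)
noncomputable def n2814 : Strat := .move 881 n2754 (.cons 880 n2800 (.cons 716 n2802 (.cons 798 n2813 .nil)))
noncomputable def n2815 : Strat := .move 799 n2721 (.cons 716 n2746 (.cons 880 n2786 (.cons 798 n2798 (.cons 717 n2814 .nil))))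
noncomputable def n2816 : Strat := .move 841 n303 (.cons 882 n2787 .nil)
noncomputable def n2817 : Strat := .move 676 n2611 (.cons 798 n2816 .nil)
noncomputable def n2818 : Strat := .move 882 n2772 (.cons 841 n655 .nil)
noncomputable def n2819 : Strat := .move 881 n1176 (.cons 759 n2818 .nil)
noncomputable def n2820 : Strat := .move 718 n1175 (.cons 677 n2819 .nil)
noncomputable def n2821 : Strat := .move 717 n2615 (.cons 718 n2817 (.cons 676 n2820 .nil))
noncomputable def n2822 : Strat := .move 922 n235 (.cons 757 n205 (.cons 798 n1886 .nil))
noncomputable def n2823 : Strat := .move 880 n554 (.cons 921 n2822 .nil)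
noncomputable def n2824 : Strat := .move 922 n2561 (.cons 718 n2755 .nil)
noncomputable def n2825 : Strat := .move 883 n185 (.cons 884 n2824 .nil)
noncomputable def n2826 : Strat := .move 882 n655 (.cons 923 n2825 .nil)
noncomputable def n2827 : Strat := .move 880 n554 (.cons 921 n2826 .nil)
noncomputable def n2828 : Strat := .move 922 n1881 (.cons 800 n877 .nil)
noncomputable def n2829 : Strat := .move 759 n788 (.cons 718 n2828 .nil)
noncomputable def n2830 : Strat := .move 881 n2823 (.cons 757 n2827 (.cons 880 n2829 (.cons 922 n2813 .nil)))
noncomputable def n2831 : Strat := .win 676 6 676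
noncomputable def n2832 : Strat := .move 800 n900 (.cons 678 n2831 .nil)
noncomputable def n2833 : Strat := .win 757 4 716
noncomputable def n2834 : Strat := .move 720 n2176 (.cons 721 n2833 .nil)
noncomputable def n2835 : Strat := .move 719 n2832 (.cons 676 n2834 .nil)
noncomputable def n2836 : Strat := .move 759 n1977 (.cons 881 n2835 .nil)
noncomputable def n2837 : Strat := .move 841 n303 (.cons 882 n2836 .nil)
noncomputable def n2838 : Strat := .move 718 n1175 (.cons 677 n2837 .nil)
noncomputable def n2839 : Strat := .move 717 n300 (.cons 880 n2838 .nil)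
noncomputable def n2840 : Strat := .move 799 n2746 (.cons 880 n2821 (.cons 717 n2830 (.cons 798 n2839 (.cons 881 n2715 .nil))))
noncomputable def n2841 : Strat := .move 717 n300 (.cons 880 n2552 .nil)
noncomputable def n2842 : Strat := .move 717 n2615 (.cons 798 n2552 (.cons 718 n2817 .nil))
noncomputable def n2843 : Strat := .move 881 n2826 (.cons 922 n2812 (.cons 882 n2757 .nil))
noncomputable def n2844 : Strat := .move 921 n2744 (.cons 881 n337 .nil)
noncomputable def n2845 : Strat := .move 880 n2745 (.cons 921 n2843 (.cons 798 n2844 (.cons 881 n1029 .nil)))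
noncomputable def n2846 : Strat := .move 799 n2715 (.cons 676 n2746 (.cons 798 n2841 (.cons 880 n2842 (.cons 717 n2845 .nil))))
noncomputable def n2847 : Strat := .move 717 n300 (.cons 880 n2618 .nil)
noncomputable def n2848 : Strat := .move 881 n2754 (.cons 880 n2729 (.cons 757 n2827 (.cons 798 n2727 (.cons 922 n2735 (.cons 800 n2724 .nil)))))
noncomputable def n2849 : Strat := .move 756 n2226 (.cons 719 n2225 .nil)
noncomputable def n2850 : Strat := .win 798 7 674
noncomputable def n2851 : Strat := .move 674 n2850 (.cons 798 n2349 .nil)
noncomputable def n2852 : Strat := .move 757 n2849 (.cons 755 n2360 (.cons 719 n2851 .nil))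
noncomputable def n2853 : Strat := .move 715 n2230 (.cons 714 n2852 .nil)
noncomputable def n2854 : Strat := .move 718 n1175 (.cons 677 n2853 .nil)
noncomputable def n2855 : Strat := .move 716 n305 (.cons 675 n2854 .nil)
noncomputable def n2856 : Strat := .move 717 n300 (.cons 880 n2855 .nil)
noncomputable def n2857 : Strat := .move 881 n1179 (.cons 757 n2818 .nil)
noncomputable def n2858 : Strat := .move 716 n305 (.cons 675 n2857 .nil)
noncomputable def n2859 : Strat := .move 717 n2618 (.cons 716 n2820 (.cons 718 n2858 (.cons 881 n2855 .nil)))
noncomputable def n2860 : Strat := .move 799 n2847 (.cons 717 n2848 (.cons 881 n2856 (.cons 757 n2746 (.cons 880 n2859 .nil))))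
noncomputable def n2861 : Strat := .move 717 n2615 (.cons 676 n2618 (.cons 718 n2622 .nil))
noncomputable def n2862 : Strat := .move 922 n1881 (.cons 800 n1886 .nil)
noncomputable def n2863 : Strat := .move 759 n788 (.cons 718 n2862 .nil)
noncomputable def n2864 : Strat := .move 798 n1837 (.cons 761 n1838 .nil)
noncomputable def n2865 : Strat := .win 798 4 757
noncomputable def n2866 : Strat := .win 803 0 758
noncomputable def n2867 : Strat := .win 801 0 757
noncomputable def n2868 : Strat := .move 802 n2866 (.cons 803 n2867 .nil)
noncomputable def n2869 : Strat := .move 761 n2865 (.cons 798 n2868 .nil)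
noncomputable def n2870 : Strat := .win 798 4 756
noncomputable def n2871 : Strat := .move 797 n2870 (.cons 798 n1699 .nil)
noncomputable def n2872 : Strat := .move 756 n2182 (.cons 755 n2648 (.cons 801 n2871 .nil))
noncomputable def n2873 : Strat := .win 721 5 717
noncomputable def n2874 : Strat := .win 719 5 716
noncomputable def n2875 : Strat := .move 720 n2873 (.cons 721 n2874 .nil)
noncomputable def n2876 : Strat := .move 761 n2868 (.cons 801 n2875 .nil)
noncomputable def n2877 : Strat := .move 760 n2864 (.cons 797 n2869 (.cons 761 n2872 (.cons 798 n2876 .nil)))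
noncomputable def n2878 : Strat := .move 759 n788 (.cons 718 n2877 .nil)
noncomputable def n2879 : Strat := .move 757 n559 (.cons 716 n2878 .nil)
noncomputable def n2880 : Strat := .move 881 n2729 (.cons 716 n2829 (.cons 718 n2800 (.cons 757 n2863 (.cons 922 n2879 .nil))))
noncomputable def n2881 : Strat := .move 676 n2787 (.cons 800 n2614 .nil)
noncomputable def n2882 : Strat := .move 841 n303 (.cons 882 n2881 .nil)
noncomputable def n2883 : Strat := .move 717 n2615 (.cons 798 n2882 (.cons 677 n2622 (.cons 676 n2855 .nil)))
noncomputable def n2884 : Strat := .move 757 n2789 (.cons 881 n2361 .nil)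
noncomputable def n2885 : Strat := .move 716 n305 (.cons 675 n2884 .nil)
noncomputable def n2886 : Strat := .move 717 n2622 (.cons 676 n2885 (.cons 716 n2615 .nil))
noncomputable def n2887 : Strat := .move 717 n2719 (.cons 718 n2797 (.cons 716 n2838 (.cons 677 n2858 (.cons 881 n2882 .nil))))
noncomputable def n2888 : Strat := .move 799 n2861 (.cons 717 n2880 (.cons 881 n2883 (.cons 757 n2842 (.cons 759 n2886 (.cons 716 n2821 (.cons 718 n2786 (.cons 798 n2887 .nil)))))))
noncomputable def n2889 : Strat := .move 881 n554 (.cons 921 n2726 .nil)
noncomputable def n2890 : Strat := .move 880 n310 (.cons 717 n2889 .nil)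
noncomputable def n2891 : Strat := .move 717 n300 (.cons 880 n2882 .nil)
noncomputable def n2892 : Strat := .move 756 n2013 (.cons 801 n317 .nil)
noncomputable def n2893 : Strat := .move 757 n559 (.cons 716 n2892 .nil)
noncomputable def n2894 : Strat := .move 800 n2372 (.cons 922 n2893 .nil)
noncomputable def n2895 : Strat := .move 759 n788 (.cons 718 n2894 .nil)
noncomputable def n2896 : Strat := .move 880 n2726 (.cons 882 n2761 (.cons 923 n2895 (.cons 718 n2812 .nil)))
noncomputable def n2897 : Strat := .move 880 n554 (.cons 921 n2895 .nil)
noncomputable def n2898 : Strat := .move 881 n2727 (.cons 921 n2896 (.cons 882 n2763 (.cons 923 n2897 (.cons 718 n2813 (.cons 880 n2863 .nil)))))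
noncomputable def n2899 : Strat := .move 799 n2890 (.cons 880 n2887 (.cons 881 n2891 (.cons 882 n2767 (.cons 718 n2798 (.cons 717 n2898 .nil)))))
noncomputable def n2900 : Strat := .move 880 n310 (.cons 717 n2844 .nil)
noncomputable def n2901 : Strat := .move 881 n554 (.cons 921 n2753 .nil)
noncomputable def n2902 : Strat := .move 881 n2753 (.cons 798 n2812 .nil)
noncomputable def n2903 : Strat := .move 880 n2901 (.cons 798 n2844 (.cons 921 n2902 (.cons 881 n1029 .nil)))
noncomputable def n2904 : Strat := .move 799 n2721 (.cons 880 n2886 (.cons 798 n2900 (.cons 717 n2903 .nil)))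
noncomputable def n2905 : Strat := .move 798 n301 (.cons 676 n2342 .nil)
noncomputable def n2906 : Strat := .move 717 n300 (.cons 880 n2905 .nil)
noncomputable def n2907 : Strat := .move 676 n2611 (.cons 798 n2787 .nil)
noncomputable def n2908 : Strat := .move 841 n303 (.cons 882 n2907 .nil)
noncomputable def n2909 : Strat := .move 717 n2905 (.cons 798 n2858 (.cons 716 n2908 .nil))
noncomputable def n2910 : Strat := .move 717 n300 (.cons 880 n2858 .nil)
noncomputable def n2911 : Strat := .move 717 n300 (.cons 880 n2908 .nil)
noncomputable def n2912 : Strat := .win 798 1 756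
noncomputable def n2913 : Strat := .move 920 n191 (.cons 919 n2912 .nil)
noncomputable def n2914 : Strat := .move 879 n2737 (.cons 877 n2803 (.cons 841 n2913 .nil))
noncomputable def n2915 : Strat := .move 882 n655 (.cons 923 n2914 .nil)
noncomputable def n2916 : Strat := .move 757 n559 (.cons 716 n2915 .nil)
noncomputable def n2917 : Strat := .move 880 n554 (.cons 921 n2916 .nil)
noncomputable def n2918 : Strat := .move 881 n2754 (.cons 880 n2729 (.cons 757 n2827 (.cons 922 n2917 (.cons 798 n2727 .nil))))
noncomputable def n2919 : Strat := .move 799 n2906 (.cons 880 n2909 (.cons 881 n2721 (.cons 798 n2910 (.cons 716 n2911 (.cons 717 n2918 .nil)))))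
noncomputable def n2920 : Strat := .move 798 n301 (.cons 676 n2340 .nil)
noncomputable def n2921 : Strat := .move 757 n2789 (.cons 881 n2920 .nil)
noncomputable def n2922 : Strat := .move 716 n305 (.cons 675 n2921 .nil)
noncomputable def n2923 : Strat := .move 717 n300 (.cons 880 n2922 .nil)
noncomputable def n2924 : Strat := .move 717 n2922 (.cons 716 n2615 (.cons 676 n2618 .nil))
noncomputable def n2925 : Strat := .move 717 n300 (.cons 880 n2748 .nil)
noncomputable def n2926 : Strat := .move 921 n556 (.cons 962 n2399 .nil)
noncomputable def n2927 : Strat := .move 922 n1086 (.cons 798 n2926 .nil)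
noncomputable def n2928 : Strat := .move 757 n559 (.cons 716 n2927 .nil)
noncomputable def n2929 : Strat := .move 798 n650 (.cons 922 n1840 .nil)
noncomputable def n2930 : Strat := .move 757 n559 (.cons 716 n2929 .nil)
noncomputable def n2931 : Strat := .move 881 n2724 (.cons 760 n2741 (.cons 880 n2928 (.cons 716 n2813 (.cons 921 n2930 .nil))))
noncomputable def n2932 : Strat := .move 799 n2923 (.cons 880 n2924 (.cons 881 n2721 (.cons 798 n2925 (.cons 716 n2746 (.cons 717 n2931 .nil)))))
noncomputable def n2933 : Strat := .move 799 n2615 (.cons 798 n2882 (.cons 677 n2622 (.cons 676 n2855 .nil)))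
noncomputable def n2934 : Strat := .move 799 n300 (.cons 880 n2882 .nil)
noncomputable def n2935 : Strat := .move 799 n300 (.cons 880 n2855 .nil)
noncomputable def n2936 : Strat := .move 759 n1873 (.cons 719 n2665 .nil)
noncomputable def n2937 : Strat := .move 718 n2203 (.cons 755 n2936 .nil)
noncomputable def n2938 : Strat := .move 759 n2196 (.cons 715 n2276 .nil)
noncomputable def n2939 : Strat := .move 714 n2197 (.cons 713 n2938 .nil)
noncomputable def n2940 : Strat := .move 755 n2681 (.cons 754 n2939 (.cons 714 n2686 .nil))
noncomputable def n2941 : Strat := .move 759 n2666 (.cons 719 n2669 (.cons 800 n2674 .nil))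
noncomputable def n2942 : Strat := .move 755 n2676 (.cons 718 n2681 .nil)
noncomputable def n2943 : Strat := .move 756 n2937 (.cons 718 n2940 (.cons 755 n2941 (.cons 759 n2942 .nil)))
noncomputable def n2944 : Strat := .move 754 n2283 (.cons 794 n2680 .nil)
noncomputable def n2945 : Strat := .move 795 n2284 (.cons 796 n2944 .nil)
noncomputable def n2946 : Strat := .move 755 n2676 (.cons 718 n2945 .nil)
noncomputable def n2947 : Strat := .win 716 7 674
noncomputable def n2948 : Strat := .move 674 n2191 (.cons 633 n2947 .nil)
noncomputable def n2949 : Strat := .move 715 n1776 (.cons 714 n2948 .nil)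
noncomputable def n2950 : Strat := .move 759 n1826 (.cons 760 n2949 .nil)
noncomputable def n2951 : Strat := .move 759 n2198 (.cons 713 n1826 .nil)
noncomputable def n2952 : Strat := .move 755 n2676 (.cons 718 n2951 .nil)
noncomputable def n2953 : Strat := .move 756 n2942 (.cons 712 n2946 (.cons 755 n2950 (.cons 716 n2952 .nil)))
noncomputable def n2954 : Strat := .move 798 n1742 (.cons 880 n2953 .nil)
noncomputable def n2955 : Strat := .move 798 n1742 (.cons 880 n2710 .nil)
noncomputable def n2956 : Strat := .move 715 n2702 (.cons 633 n2705 (.cons 797 n2955 (.cons 798 n2710 .nil)))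
noncomputable def n2957 : Strat := .move 756 n2691 (.cons 798 n2679 (.cons 755 n2699 (.cons 715 n2701 (.cons 796 n2694 (.cons 718 n2956 .nil)))))
noncomputable def n2958 : Strat := .move 757 n2631 (.cons 798 n2943 (.cons 676 n2954 (.cons 716 n2957 .nil)))
noncomputable def n2959 : Strat := .move 717 n2616 (.cons 880 n2933 (.cons 798 n2934 (.cons 676 n2935 (.cons 677 n2625 (.cons 799 n2958 .nil)))))
noncomputable def n2960 : Strat := .move 757 n544 (.cons 716 n1544 .nil)
noncomputable def n2961 : Strat := .move 881 n433 (.cons 843 n2960 .nil)
noncomputable def n2962 : Strat := .move 798 n425 (.cons 797 n2961 .nil)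
noncomputable def n2963 : Strat := .move 880 n424 (.cons 879 n2962 .nil)
noncomputable def n2964 : Strat := .move 923 n460 (.cons 964 n945 .nil)
noncomputable def n2965 : Strat := .move 924 n2964 (.cons 882 n439 .nil)
noncomputable def n2966 : Strat := .move 718 n942 (.cons 677 n941 .nil)
noncomputable def n2967 : Strat := .move 719 n939 (.cons 761 n2966 .nil)
noncomputable def n2968 : Strat := .move 760 n587 (.cons 719 n2965 (.cons 923 n940 (.cons 882 n2967 .nil)))
noncomputable def n2969 : Strat := .move 801 n37 (.cons 802 n2968 .nil)
noncomputable def n2970 : Strat := .move 883 n23 (.cons 884 n2969 .nil)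
noncomputable def n2971 : Strat := .move 842 n2963 (.cons 717 n624 (.cons 880 n2970 .nil))
noncomputable def n2972 : Strat := .move 798 n1742 (.cons 880 n1736 .nil)
noncomputable def n2973 : Strat := .move 718 n905 (.cons 676 n777 .nil)
noncomputable def n2974 : Strat := .move 800 n2660 (.cons 882 n2973 .nil)
noncomputable def n2975 : Strat := .move 718 n1873 (.cons 719 n2203 .nil)
noncomputable def n2976 : Strat := .win 761 2 716
noncomputable def n2977 : Strat := .win 715 2 715
noncomputable def n2978 : Strat := .move 716 n2976 (.cons 761 n2977 .nil)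
noncomputable def n2979 : Strat := .move 760 n2672 (.cons 714 n2978 (.cons 716 n2696 .nil))
noncomputable def n2980 : Strat := .move 714 n2197 (.cons 713 n2196 .nil)
noncomputable def n2981 : Strat := .move 755 n2676 (.cons 718 n2980 .nil)
noncomputable def n2982 : Strat := .move 796 n2275 (.cons 795 n2274 .nil)
noncomputable def n2983 : Strat := .move 755 n2980 (.cons 715 n2982 .nil)
noncomputable def n2984 : Strat := .move 756 n2975 (.cons 755 n2979 (.cons 719 n2981 (.cons 718 n2983 .nil)))
noncomputable def n2985 : Strat := .win 803 2 758
noncomputable def n2986 : Strat := .win 760 0 757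
noncomputable def n2987 : Strat := .move 802 n2985 (.cons 803 n2986 .nil)
noncomputable def n2988 : Strat := .move 801 n2026 (.cons 756 n2987 .nil)
noncomputable def n2989 : Strat := .move 800 n2660 (.cons 882 n2988 .nil)
noncomputable def n2990 : Strat := .move 759 n2974 (.cons 800 n2984 (.cons 718 n2989 .nil))
noncomputable def n2991 : Strat := .move 759 n2974 (.cons 800 n2173 .nil)
noncomputable def n2992 : Strat := .move 798 n1742 (.cons 880 n2991 .nil)
noncomputable def n2993 : Strat := .move 717 n2972 (.cons 881 n2631 (.cons 798 n2990 (.cons 716 n2992 (.cons 676 n2629 .nil))))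
noncomputable def n2994 : Strat := .move 760 n1838 (.cons 797 n2978 .nil)
noncomputable def n2995 : Strat := .move 800 n2013 (.cons 801 n2660 .nil)
noncomputable def n2996 : Strat := .move 756 n2995 (.cons 882 n2975 .nil)
noncomputable def n2997 : Strat := .move 759 n2994 (.cons 760 n2996 .nil)
noncomputable def n2998 : Strat := .move 798 n1742 (.cons 880 n2997 .nil)
noncomputable def n2999 : Strat := .win 718 7 676
noncomputable def n3000 : Strat := .move 676 n2999 (.cons 718 n2642 .nil)
noncomputable def n3001 : Strat := .move 800 n2660 (.cons 882 n3000 .nil)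
noncomputable def n3002 : Strat := .win 716 2 716
noncomputable def n3003 : Strat := .move 761 n3002 (.cons 716 n2868 .nil)
noncomputable def n3004 : Strat := .move 756 n2672 (.cons 714 n2975 .nil)
noncomputable def n3005 : Strat := .move 760 n2978 (.cons 715 n3003 (.cons 761 n3004 (.cons 716 n2876 .nil)))
noncomputable def n3006 : Strat := .move 759 n3001 (.cons 800 n3005 (.cons 718 n2989 .nil))
noncomputable def n3007 : Strat := .move 676 n2999 (.cons 718 n1972 .nil)
noncomputable def n3008 : Strat := .move 800 n2660 (.cons 882 n3007 .nil)
noncomputable def n3009 : Strat := .move 759 n2173 (.cons 797 n3008 .nil)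
noncomputable def n3010 : Strat := .move 798 n1742 (.cons 880 n3009 .nil)
noncomputable def n3011 : Strat := .move 717 n2631 (.cons 676 n2998 (.cons 798 n3006 (.cons 716 n3010 .nil)))
noncomputable def n3012 : Strat := .move 717 n1742 (.cons 880 n2991 .nil)
noncomputable def n3013 : Strat := .move 717 n2974 (.cons 800 n2173 .nil)
noncomputable def n3014 : Strat := .move 756 n1699 (.cons 796 n2009 .nil)
noncomputable def n3015 : Strat := .move 797 n760 (.cons 760 n3014 .nil)
noncomputable def n3016 : Strat := .move 801 n2024 (.cons 802 n2026 .nil)
noncomputable def n3017 : Strat := .move 882 n139 (.cons 719 n970 .nil)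
noncomputable def n3018 : Strat := .move 800 n3016 (.cons 756 n3017 .nil)
noncomputable def n3019 : Strat := .move 760 n1838 (.cons 797 n3018 .nil)
noncomputable def n3020 : Strat := .move 717 n2660 (.cons 882 n2973 .nil)
noncomputable def n3021 : Strat := .move 800 n3020 (.cons 717 n2988 .nil)
noncomputable def n3022 : Strat := .move 800 n777 (.cons 881 n2013 .nil)
noncomputable def n3023 : Strat := .move 718 n1873 (.cons 719 n3022 .nil)
noncomputable def n3024 : Strat := .move 756 n2194 (.cons 797 n3023 .nil)
noncomputable def n3025 : Strat := .move 760 n1838 (.cons 797 n2876 .nil)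
noncomputable def n3026 : Strat := .move 759 n3013 (.cons 795 n3015 (.cons 796 n3019 (.cons 797 n3021 (.cons 760 n3024 (.cons 756 n3025 .nil)))))
noncomputable def n3027 : Strat := .move 879 n1335 (.cons 878 n341 .nil)
noncomputable def n3028 : Strat := .move 881 n238 (.cons 922 n3027 .nil)
noncomputable def n3029 : Strat := .move 880 n3028 (.cons 881 n1702 .nil)
noncomputable def n3030 : Strat := .move 880 n1544 (.cons 717 n3028 .nil)
noncomputable def n3031 : Strat := .move 798 n3012 (.cons 880 n3026 (.cons 717 n3029 (.cons 881 n2005 (.cons 760 n3030 .nil))))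
noncomputable def n3032 : Strat := .move 719 n2632 (.cons 716 n2204 .nil)
noncomputable def n3033 : Strat := .move 718 n2203 (.cons 755 n3032 .nil)
noncomputable def n3034 : Strat := .move 755 n2681 (.cons 754 n2689 (.cons 714 n2686 .nil))
noncomputable def n3035 : Strat := .move 760 n2648 (.cons 800 n2672 .nil)
noncomputable def n3036 : Strat := .move 800 n905 (.cons 676 n777 .nil)
noncomputable def n3037 : Strat := .move 718 n1873 (.cons 719 n3036 .nil)
noncomputable def n3038 : Strat := .move 759 n3023 (.cons 718 n3035 (.cons 801 n3037 (.cons 800 n2979 .nil)))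
noncomputable def n3039 : Strat := .move 756 n3033 (.cons 720 n2942 (.cons 718 n3034 (.cons 755 n3038 (.cons 716 n2693 .nil))))
noncomputable def n3040 : Strat := .move 759 n2975 (.cons 755 n2695 .nil)
noncomputable def n3041 : Strat := .move 798 n1742 (.cons 880 n3040 .nil)
noncomputable def n3042 : Strat := .move 715 n2702 (.cons 798 n2710 .nil)
noncomputable def n3043 : Strat := .move 798 n1742 (.cons 880 n2695 .nil)
noncomputable def n3044 : Strat := .move 759 n3023 (.cons 718 n3043 .nil)
noncomputable def n3045 : Strat := .move 756 n2694 (.cons 798 n2693 (.cons 720 n3041 (.cons 719 n2690 (.cons 718 n3042 (.cons 755 n3044 (.cons 759 n2700 .nil))))))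
noncomputable def n3046 : Strat := .move 717 n2972 (.cons 798 n3039 (.cons 716 n3045 (.cons 881 n2631 .nil)))
noncomputable def n3047 : Strat := .move 921 n1708 (.cons 797 n1713 .nil)
noncomputable def n3048 : Strat := .move 756 n316 (.cons 715 n3047 .nil)
noncomputable def n3049 : Strat := .move 880 n1544 (.cons 717 n3048 .nil)
noncomputable def n3050 : Strat := .move 880 n1585 (.cons 881 n3048 .nil)
noncomputable def n3051 : Strat := .move 675 n1754 (.cons 633 n1758 .nil)
noncomputable def n3052 : Strat := .move 674 n1753 (.cons 715 n3051 .nil)
noncomputable def n3053 : Strat := .move 676 n1757 (.cons 717 n3052 .nil)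
noncomputable def n3054 : Strat := .move 716 n532 (.cons 881 n3053 .nil)
noncomputable def n3055 : Strat := .move 798 n1767 (.cons 881 n3049 (.cons 717 n3050 (.cons 880 n3054 .nil)))
noncomputable def n3056 : Strat := .move 717 n1742 (.cons 880 n1586 .nil)
noncomputable def n3057 : Strat := .move 716 n532 (.cons 881 n3056 .nil)
noncomputable def n3058 : Strat := .move 717 n1586 (.cons 676 n1745 .nil)
noncomputable def n3059 : Strat := .move 715 n360 (.cons 674 n3058 .nil)
noncomputable def n3060 : Strat := .move 716 n532 (.cons 881 n3059 .nil)
noncomputable def n3061 : Strat := .move 880 n238 (.cons 922 n3027 .nil)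
noncomputable def n3062 : Strat := .move 881 n544 (.cons 716 n3061 .nil)
noncomputable def n3063 : Strat := .move 717 n1742 (.cons 880 n2630 .nil)
noncomputable def n3064 : Strat := .move 798 n3057 (.cons 880 n3060 (.cons 717 n3062 (.cons 716 n3030 (.cons 881 n3063 .nil))))
noncomputable def n3065 : Strat := .move 717 n1742 (.cons 880 n2628 .nil)
noncomputable def n3066 : Strat := .move 717 n1742 (.cons 880 n2997 .nil)
noncomputable def n3067 : Strat := .move 922 n1127 (.cons 880 n213 .nil)
noncomputable def n3068 : Strat := .move 881 n544 (.cons 716 n3067 .nil)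
noncomputable def n3069 : Strat := .win 717 0 714
noncomputable def n3070 : Strat := .move 714 n3069 (.cons 717 n1744 .nil)
noncomputable def n3071 : Strat := .move 759 n1777 (.cons 760 n3070 .nil)
noncomputable def n3072 : Strat := .move 715 n360 (.cons 674 n3071 .nil)
noncomputable def n3073 : Strat := .move 716 n532 (.cons 881 n3072 .nil)
noncomputable def n3074 : Strat := .move 798 n3065 (.cons 881 n3066 (.cons 716 n3030 (.cons 717 n3068 (.cons 880 n3073 .nil))))
noncomputable def n3075 : Strat := .move 716 n532 (.cons 881 n2246 .nil)
noncomputable def n3076 : Strat := .move 800 n120 (.cons 718 n571 .nil)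
noncomputable def n3077 : Strat := .move 759 n3076 (.cons 800 n2173 .nil)
noncomputable def n3078 : Strat := .move 881 n544 (.cons 716 n3077 .nil)
noncomputable def n3079 : Strat := .move 717 n2630 (.cons 676 n2997 (.cons 716 n3009 .nil))
noncomputable def n3080 : Strat := .move 798 n3073 (.cons 716 n3026 (.cons 759 n3054 (.cons 717 n3075 (.cons 715 n3078 (.cons 881 n3079 .nil)))))
noncomputable def n3081 : Strat := .move 716 n1777 (.cons 760 n532 .nil)
noncomputable def n3082 : Strat := .move 798 n1775 (.cons 880 n3081 .nil)
noncomputable def n3083 : Strat := .move 715 n1776 (.cons 714 n3082 .nil)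
noncomputable def n3084 : Strat := .move 718 n1873 (.cons 719 n777 .nil)
noncomputable def n3085 : Strat := .move 800 n2013 (.cons 801 n3084 .nil)
noncomputable def n3086 : Strat := .move 760 n1838 (.cons 797 n2667 .nil)
noncomputable def n3087 : Strat := .move 798 n1775 (.cons 880 n3086 .nil)
noncomputable def n3088 : Strat := .move 715 n1776 (.cons 714 n3087 .nil)
noncomputable def n3089 : Strat := .move 756 n3083 (.cons 798 n3085 (.cons 881 n3088 .nil))
noncomputable def n3090 : Strat := .move 716 n2977 (.cons 715 n532 .nil)
noncomputable def n3091 : Strat := .move 798 n1838 (.cons 797 n3090 .nil)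
noncomputable def n3092 : Strat := .win 882 3 718
noncomputable def n3093 : Strat := .win 801 1 677
noncomputable def n3094 : Strat := .win 637 1 636
noncomputable def n3095 : Strat := .move 678 n3093 (.cons 801 n3094 .nil)
noncomputable def n3096 : Strat := .move 800 n3092 (.cons 882 n3095 .nil)
noncomputable def n3097 : Strat := .move 719 n2671 (.cons 720 n3096 .nil)
noncomputable def n3098 : Strat := .move 760 n3091 (.cons 797 n3097 .nil)
noncomputable def n3099 : Strat := .move 798 n1775 (.cons 880 n2192 .nil)
noncomputable def n3100 : Strat := .move 715 n1776 (.cons 714 n3099 .nil)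
noncomputable def n3101 : Strat := .move 756 n3085 (.cons 801 n3100 .nil)
noncomputable def n3102 : Strat := .move 760 n2671 (.cons 720 n2648 .nil)
noncomputable def n3103 : Strat := .move 719 n2670 (.cons 718 n3102 .nil)
noncomputable def n3104 : Strat := .move 755 n2197 (.cons 713 n2982 .nil)
noncomputable def n3105 : Strat := .move 714 n2196 (.cons 715 n3104 .nil)
noncomputable def n3106 : Strat := .move 756 n3085 (.cons 881 n3103 (.cons 800 n3105 .nil))
noncomputable def n3107 : Strat := .move 756 n1776 (.cons 714 n2871 .nil)
noncomputable def n3108 : Strat := .move 715 n2667 (.cons 716 n3107 .nil)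
noncomputable def n3109 : Strat := .move 761 n2873 (.cons 721 n2868 .nil)
noncomputable def n3110 : Strat := .move 720 n2874 (.cons 719 n3109 .nil)
noncomputable def n3111 : Strat := .move 760 n3091 (.cons 881 n3108 (.cons 798 n3110 .nil))
noncomputable def n3112 : Strat := .move 756 n3088 (.cons 798 n3103 (.cons 760 n3100 .nil))
noncomputable def n3113 : Strat := .move 800 n3092 (.cons 882 n3016 .nil)
noncomputable def n3114 : Strat := .move 719 n2671 (.cons 720 n3113 .nil)
noncomputable def n3115 : Strat := .move 800 n900 (.cons 678 n777 .nil)
noncomputable def n3116 : Strat := .move 718 n2175 (.cons 756 n3115 .nil)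
noncomputable def n3117 : Strat := .move 719 n2671 (.cons 720 n3116 .nil)
noncomputable def n3118 : Strat := .move 756 n1776 (.cons 714 n2647 .nil)
noncomputable def n3119 : Strat := .move 715 n2667 (.cons 716 n3118 .nil)
noncomputable def n3120 : Strat := .move 801 n2024 (.cons 802 n3119 .nil)
noncomputable def n3121 : Strat := .move 756 n1776 (.cons 714 n2696 .nil)
noncomputable def n3122 : Strat := .move 715 n2667 (.cons 716 n3121 .nil)
noncomputable def n3123 : Strat := .move 760 n3114 (.cons 882 n3117 (.cons 719 n3120 (.cons 800 n3122 (.cons 756 n3097 .nil))))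
noncomputable def n3124 : Strat := .move 798 n360 (.cons 674 n532 .nil)
noncomputable def n3125 : Strat := .move 716 n1777 (.cons 760 n3124 .nil)
noncomputable def n3126 : Strat := .move 715 n1776 (.cons 714 n3125 .nil)
noncomputable def n3127 : Strat := .move 760 n2671 (.cons 720 n2870 .nil)
noncomputable def n3128 : Strat := .move 719 n2670 (.cons 718 n3127 .nil)
noncomputable def n3129 : Strat := .move 797 n1699 (.cons 796 n3128 .nil)
noncomputable def n3130 : Strat := .move 756 n3083 (.cons 880 n3126 (.cons 715 n3129 (.cons 798 n2674 (.cons 760 n3100 .nil))))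
noncomputable def n3131 : Strat := .move 798 n1838 (.cons 797 n1847 .nil)
noncomputable def n3132 : Strat := .move 760 n3114 (.cons 882 n3117 (.cons 719 n3131 .nil))
noncomputable def n3133 : Strat := .move 922 n167 (.cons 963 n570 .nil)
noncomputable def n3134 : Strat := .move 881 n120 (.cons 718 n3133 .nil)
noncomputable def n3135 : Strat := .move 800 n2013 (.cons 801 n3134 .nil)
noncomputable def n3136 : Strat := .move 800 n2013 (.cons 801 n2983 .nil)
noncomputable def n3137 : Strat := .move 756 n3083 (.cons 880 n3126 (.cons 715 n3135 (.cons 881 n3136 .nil)))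
noncomputable def n3138 : Strat := .move 759 n3089 (.cons 756 n3098 (.cons 760 n3101 (.cons 798 n3106 (.cons 800 n3111 (.cons 881 n3112 (.cons 797 n3123 (.cons 801 n3130 (.cons 715 n3132 (.cons 719 n3137 .nil)))))))))
noncomputable def n3139 : Strat := .move 798 n1767 (.cons 880 n3078 (.cons 881 n3063 (.cons 716 n3030 .nil)))
noncomputable def n3140 : Strat := .move 717 n2975 (.cons 755 n2979 (.cons 719 n2981 (.cons 718 n2983 .nil)))
noncomputable def n3141 : Strat := .move 718 n2203 (.cons 755 n777 .nil)
noncomputable def n3142 : Strat := .move 717 n2660 (.cons 882 n3141 .nil)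
noncomputable def n3143 : Strat := .move 800 n2013 (.cons 801 n3142 .nil)
noncomputable def n3144 : Strat := .move 760 n2672 (.cons 714 n3017 .nil)
noncomputable def n3145 : Strat := .move 800 n2013 (.cons 801 n3144 .nil)
noncomputable def n3146 : Strat := .move 756 n3085 (.cons 800 n3140 (.cons 719 n3143 (.cons 718 n3145 .nil)))
noncomputable def n3147 : Strat := .move 755 n2199 (.cons 717 n2982 .nil)
noncomputable def n3148 : Strat := .move 718 n1873 (.cons 719 n3147 .nil)
noncomputable def n3149 : Strat := .move 755 n2199 (.cons 717 n2197 .nil)
noncomputable def n3150 : Strat := .move 718 n1873 (.cons 719 n3149 .nil)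
noncomputable def n3151 : Strat := .move 714 n2196 (.cons 715 n3150 .nil)
noncomputable def n3152 : Strat := .move 760 n2667 (.cons 716 n2696 .nil)
noncomputable def n3153 : Strat := .move 715 n1776 (.cons 714 n3152 .nil)
noncomputable def n3154 : Strat := .move 756 n3140 (.cons 717 n3105 (.cons 714 n3148 (.cons 796 n3151 (.cons 755 n3153 .nil))))
noncomputable def n3155 : Strat := .move 882 n970 (.cons 717 n133 .nil)
noncomputable def n3156 : Strat := .win 760 5 716
noncomputable def n3157 : Strat := .move 720 n2177 (.cons 717 n3156 .nil)
noncomputable def n3158 : Strat := .move 719 n900 (.cons 678 n3157 .nil)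
noncomputable def n3159 : Strat := .move 718 n777 (.cons 881 n3158 .nil)
noncomputable def n3160 : Strat := .win 923 3 759
noncomputable def n3161 : Strat := .move 801 n3160 (.cons 923 n2024 .nil)
noncomputable def n3162 : Strat := .move 760 n139 (.cons 719 n3161 .nil)
noncomputable def n3163 : Strat := .move 882 n970 (.cons 717 n3162 .nil)
noncomputable def n3164 : Strat := .move 800 n3155 (.cons 882 n3159 (.cons 718 n3163 (.cons 717 n3134 .nil)))
noncomputable def n3165 : Strat := .move 756 n1873 (.cons 719 n2013 .nil)
noncomputable def n3166 : Strat := .move 718 n777 (.cons 881 n3165 .nil)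
noncomputable def n3167 : Strat := .win 924 6 759
noncomputable def n3168 : Strat := .move 883 n185 (.cons 884 n3167 .nil)
noncomputable def n3169 : Strat := .move 881 n119 (.cons 922 n3168 .nil)
noncomputable def n3170 : Strat := .move 882 n970 (.cons 717 n3169 .nil)
noncomputable def n3171 : Strat := .move 718 n905 (.cons 676 n1873 .nil)
noncomputable def n3172 : Strat := .move 717 n2660 (.cons 882 n3171 .nil)
noncomputable def n3173 : Strat := .move 756 n2013 (.cons 801 n3172 .nil)
noncomputable def n3174 : Strat := .move 800 n3166 (.cons 718 n3170 (.cons 881 n3173 .nil))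
noncomputable def n3175 : Strat := .move 756 n2013 (.cons 801 n3142 .nil)
noncomputable def n3176 : Strat := .move 718 n777 (.cons 881 n2988 .nil)
noncomputable def n3177 : Strat := .move 800 n3175 (.cons 801 n3155 (.cons 717 n3176 (.cons 881 n2988 .nil)))
noncomputable def n3178 : Strat := .move 756 n2013 (.cons 801 n3144 .nil)
noncomputable def n3179 : Strat := .move 800 n3178 (.cons 756 n3163 (.cons 760 n3170 (.cons 882 n2988 .nil)))
noncomputable def n3180 : Strat := .move 759 n3146 (.cons 800 n3154 (.cons 756 n3164 (.cons 760 n3174 (.cons 719 n3177 (.cons 717 n3106 (.cons 718 n3179 .nil))))))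
noncomputable def n3181 : Strat := .move 757 n2993 (.cons 881 n3011 (.cons 716 n3031 (.cons 882 n3046 (.cons 759 n3055 (.cons 756 n3064 (.cons 676 n3074 (.cons 880 n3080 (.cons 717 n3138 (.cons 715 n3139 (.cons 798 n3180 .nil))))))))))
noncomputable def n3182 : Strat := .move 880 n424 (.cons 879 n1545 .nil)
noncomputable def n3183 : Strat := .move 798 n425 (.cons 797 n3182 .nil)
noncomputable def n3184 : Strat := .move 842 n2963 (.cons 717 n955 (.cons 881 n1303 (.cons 843 n3183 .nil)))
noncomputable def n3185 : Strat := .win 757 3 716
noncomputable def n3186 : Strat := .move 802 n597 (.cons 803 n596 .nil)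
noncomputable def n3187 : Strat := .move 843 n427 (.cons 881 n3186 .nil)
noncomputable def n3188 : Strat := .move 717 n3185 (.cons 757 n3187 .nil)
noncomputable def n3189 : Strat := .move 880 n424 (.cons 879 n3188 .nil)
noncomputable def n3190 : Strat := .move 842 n425 (.cons 797 n3189 .nil)
noncomputable def n3191 : Strat := .move 757 n1767 (.cons 880 n1774 (.cons 716 n2005 (.cons 717 n1847 .nil)))
noncomputable def n3192 : Strat := .move 879 n341 (.cons 920 n813 .nil)
noncomputable def n3193 : Strat := .move 880 n238 (.cons 922 n3192 .nil)
noncomputable def n3194 : Strat := .move 881 n544 (.cons 716 n3193 .nil)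
noncomputable def n3195 : Strat := .move 881 n238 (.cons 922 n3192 .nil)
noncomputable def n3196 : Strat := .move 880 n1544 (.cons 717 n3195 .nil)
noncomputable def n3197 : Strat := .move 879 n813 (.cons 842 n341 .nil)
noncomputable def n3198 : Strat := .move 880 n1544 (.cons 717 n3197 .nil)
noncomputable def n3199 : Strat := .move 757 n1767 (.cons 717 n3194 (.cons 880 n1774 (.cons 716 n3196 (.cons 881 n3198 .nil))))
noncomputable def n3200 : Strat := .move 880 n424 (.cons 879 n3187 .nil)
noncomputable def n3201 : Strat := .move 842 n425 (.cons 797 n3200 .nil)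
noncomputable def n3202 : Strat := .move 880 n291 (.cons 921 n1544 .nil)
noncomputable def n3203 : Strat := .move 756 n1815 (.cons 759 n3202 .nil)
noncomputable def n3204 : Strat := .move 717 n1742 (.cons 880 n2103 .nil)
noncomputable def n3205 : Strat := .move 757 n2239 (.cons 760 n3203 (.cons 756 n3204 .nil))
noncomputable def n3206 : Strat := .move 796 n216 (.cons 795 n3205 .nil)
noncomputable def n3207 : Strat := .move 797 n696 (.cons 842 n3206 .nil)
noncomputable def n3208 : Strat := .move 676 n1758 (.cons 635 n1757 .nil)
noncomputable def n3209 : Strat := .move 675 n3208 (.cons 717 n2264 .nil)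
noncomputable def n3210 : Strat := .move 716 n532 (.cons 881 n3209 .nil)
noncomputable def n3211 : Strat := .move 757 n2240 (.cons 756 n3210 .nil)
noncomputable def n3212 : Strat := .move 797 n696 (.cons 842 n3211 .nil)
noncomputable def n3213 : Strat := .move 798 n3190 (.cons 842 n3191 (.cons 797 n3199 (.cons 757 n3201 (.cons 881 n3207 (.cons 880 n3212 .nil)))))
noncomputable def n3214 : Strat := .move 884 n446 (.cons 885 n445 .nil)
noncomputable def n3215 : Strat := .move 843 n427 (.cons 881 n3214 .nil)
noncomputable def n3216 : Strat := .move 880 n424 (.cons 879 n3215 .nil)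
noncomputable def n3217 : Strat := .move 798 n425 (.cons 797 n3216 .nil)
noncomputable def n3218 : Strat := .move 842 n600 (.cons 880 n2970 (.cons 801 n3217 .nil))
noncomputable def n3219 : Strat := .move 880 n424 (.cons 879 n2961 .nil)
noncomputable def n3220 : Strat := .move 842 n425 (.cons 797 n3219 .nil)
noncomputable def n3221 : Strat := .move 717 n1742 (.cons 880 n1736 .nil)
noncomputable def n3222 : Strat := .move 757 n3221 (.cons 880 n3073 (.cons 717 n1847 (.cons 881 n3063 (.cons 716 n3030 .nil))))
noncomputable def n3223 : Strat := .move 843 n427 (.cons 881 n446 .nil)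
noncomputable def n3224 : Strat := .move 884 n445 (.cons 883 n3223 .nil)
noncomputable def n3225 : Strat := .move 880 n424 (.cons 879 n3224 .nil)
noncomputable def n3226 : Strat := .move 842 n425 (.cons 797 n3225 .nil)
noncomputable def n3227 : Strat := .move 797 n696 (.cons 842 n2240 .nil)
noncomputable def n3228 : Strat := .move 797 n696 (.cons 842 n3209 .nil)
noncomputable def n3229 : Strat := .move 716 n532 (.cons 881 n3228 .nil)
noncomputable def n3230 : Strat := .move 757 n3227 (.cons 842 n3073 (.cons 759 n3229 .nil))
noncomputable def n3231 : Strat := .move 798 n3220 (.cons 842 n3222 (.cons 757 n3226 (.cons 881 n3207 (.cons 880 n3230 .nil))))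
noncomputable def n3232 : Strat := .move 880 n1544 (.cons 717 n545 .nil)
noncomputable def n3233 : Strat := .move 757 n2240 (.cons 796 n3232 .nil)
noncomputable def n3234 : Strat := .move 797 n696 (.cons 842 n3233 .nil)
noncomputable def n3235 : Strat := .move 797 n2240 (.cons 796 n3232 .nil)
noncomputable def n3236 : Strat := .move 757 n3235 (.cons 881 n3063 (.cons 880 n3073 (.cons 716 n2005 (.cons 717 n1847 .nil))))
noncomputable def n3237 : Strat := .move 843 n446 (.cons 885 n3186 .nil)
noncomputable def n3238 : Strat := .move 884 n445 (.cons 883 n3237 .nil)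
noncomputable def n3239 : Strat := .move 842 n425 (.cons 797 n3238 .nil)
noncomputable def n3240 : Strat := .move 716 n1586 (.cons 676 n1746 .nil)
noncomputable def n3241 : Strat := .move 717 n1742 (.cons 880 n3240 .nil)
noncomputable def n3242 : Strat := .win 842 5 798
noncomputable def n3243 : Strat := .move 802 n2986 (.cons 760 n3242 .nil)
noncomputable def n3244 : Strat := .move 801 n2647 (.cons 800 n3243 .nil)
noncomputable def n3245 : Strat := .move 759 n3023 (.cons 718 n3244 (.cons 801 n2201 .nil))
noncomputable def n3246 : Strat := .move 715 n1775 (.cons 880 n2710 .nil)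
noncomputable def n3247 : Strat := .move 756 n2189 (.cons 715 n2208 (.cons 880 n3245 (.cons 717 n3246 .nil)))
noncomputable def n3248 : Strat := .move 757 n3057 (.cons 717 n1847 (.cons 881 n3241 (.cons 880 n1774 (.cons 716 n3247 .nil))))
noncomputable def n3249 : Strat := .move 798 n3234 (.cons 842 n3236 (.cons 759 n3239 (.cons 797 n3248 .nil)))
noncomputable def n3250 : Strat := .move 924 n2964 (.cons 882 n948 .nil)
noncomputable def n3251 : Strat := .move 760 n587 (.cons 719 n3250 (.cons 923 n940 (.cons 882 n2967 .nil)))
noncomputable def n3252 : Strat := .move 883 n23 (.cons 884 n3251 .nil)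
noncomputable def n3253 : Strat := .move 801 n37 (.cons 802 n3252 .nil)
noncomputable def n3254 : Strat := .move 842 n600 (.cons 881 n3253 (.cons 801 n955 .nil))
noncomputable def n3255 : Strat := .move 717 n2660 (.cons 882 n905 .nil)
noncomputable def n3256 : Strat := .move 718 n777 (.cons 881 n3255 .nil)
noncomputable def n3257 : Strat := .win 881 2 839
noncomputable def n3258 : Strat := .win 842 0 839
noncomputable def n3259 : Strat := .move 884 n3257 (.cons 881 n3258 .nil)
noncomputable def n3260 : Strat := .move 883 n3167 (.cons 924 n3259 .nil)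
noncomputable def n3261 : Strat := .move 882 n970 (.cons 717 n3260 .nil)
noncomputable def n3262 : Strat := .move 842 n418 (.cons 718 n23 .nil)
noncomputable def n3263 : Strat := .move 883 n3167 (.cons 924 n3262 .nil)
noncomputable def n3264 : Strat := .move 882 n970 (.cons 717 n3263 .nil)
noncomputable def n3265 : Strat := .win 883 6 718
noncomputable def n3266 : Strat := .win 677 6 677
noncomputable def n3267 : Strat := .move 801 n3266 (.cons 677 n37 .nil)
noncomputable def n3268 : Strat := .move 842 n3265 (.cons 883 n3267 .nil)
noncomputable def n3269 : Strat := .move 718 n777 (.cons 881 n3268 .nil)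
noncomputable def n3270 : Strat := .move 800 n3256 (.cons 718 n3261 (.cons 881 n3264 (.cons 882 n3269 .nil)))
noncomputable def n3271 : Strat := .move 800 n777 (.cons 881 n2660 .nil)
noncomputable def n3272 : Strat := .move 800 n777 (.cons 881 n905 .nil)
noncomputable def n3273 : Strat := .move 760 n2569 (.cons 715 n2976 .nil)
noncomputable def n3274 : Strat := .move 756 n2226 (.cons 719 n2203 .nil)
noncomputable def n3275 : Strat := .move 719 n2359 (.cons 756 n2204 .nil)
noncomputable def n3276 : Strat := .move 757 n3274 (.cons 755 n3275 (.cons 719 n2639 .nil))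
noncomputable def n3277 : Strat := .move 716 n2344 (.cons 714 n3273 (.cons 760 n3276 .nil))
noncomputable def n3278 : Strat := .move 800 n2660 (.cons 882 n905 .nil)
noncomputable def n3279 : Strat := .move 718 n3271 (.cons 882 n3272 (.cons 800 n3277 (.cons 881 n3278 .nil)))
noncomputable def n3280 : Strat := .win 718 0 715
noncomputable def n3281 : Strat := .move 715 n3280 (.cons 718 n2229 .nil)
noncomputable def n3282 : Strat := .move 716 n2976 (.cons 761 n3281 .nil)
noncomputable def n3283 : Strat := .win 718 2 717
noncomputable def n3284 : Strat := .win 804 0 759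
noncomputable def n3285 : Strat := .win 802 0 758
noncomputable def n3286 : Strat := .move 803 n3284 (.cons 804 n3285 .nil)
noncomputable def n3287 : Strat := .move 762 n3283 (.cons 718 n3286 .nil)
noncomputable def n3288 : Strat := .move 761 n3002 (.cons 716 n3287 .nil)
noncomputable def n3289 : Strat := .move 757 n2868 (.cons 801 n2875 .nil)
noncomputable def n3290 : Strat := .win 722 5 718
noncomputable def n3291 : Strat := .win 720 5 717
noncomputable def n3292 : Strat := .move 721 n3290 (.cons 722 n3291 .nil)
noncomputable def n3293 : Strat := .move 762 n3283 (.cons 718 n3292 .nil)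
noncomputable def n3294 : Strat := .move 761 n3287 (.cons 762 n3289 (.cons 802 n3293 .nil))
noncomputable def n3295 : Strat := .move 798 n1586 (.cons 676 n1838 .nil)
noncomputable def n3296 : Strat := .move 716 n2977 (.cons 715 n3295 .nil)
noncomputable def n3297 : Strat := .move 797 n1699 (.cons 796 n2870 .nil)
noncomputable def n3298 : Strat := .move 756 n3297 (.cons 798 n2975 .nil)
noncomputable def n3299 : Strat := .move 716 n2977 (.cons 715 n2639 .nil)
noncomputable def n3300 : Strat := .move 715 n1776 (.cons 714 n2667 .nil)
noncomputable def n3301 : Strat := .move 756 n3300 (.cons 716 n2975 .nil)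
noncomputable def n3302 : Strat := .move 757 n3296 (.cons 716 n3298 (.cons 797 n3299 (.cons 798 n3301 .nil)))
noncomputable def n3303 : Strat := .win 757 2 715
noncomputable def n3304 : Strat := .move 715 n3303 (.cons 757 n2229 .nil)
noncomputable def n3305 : Strat := .move 716 n2976 (.cons 761 n3304 .nil)
noncomputable def n3306 : Strat := .move 760 n3282 (.cons 714 n3288 (.cons 716 n3294 (.cons 761 n3302 (.cons 718 n3305 .nil))))
noncomputable def n3307 : Strat := .move 800 n2660 (.cons 882 n3305 .nil)
noncomputable def n3308 : Strat := .move 716 n2977 (.cons 715 n2976 .nil)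
noncomputable def n3309 : Strat := .move 801 n2026 (.cons 756 n2024 .nil)
noncomputable def n3310 : Strat := .move 757 n3308 (.cons 761 n3309 .nil)
noncomputable def n3311 : Strat := .move 800 n2660 (.cons 882 n3310 .nil)
noncomputable def n3312 : Strat := .move 761 n3002 (.cons 716 n3289 .nil)
noncomputable def n3313 : Strat := .win 757 5 716
noncomputable def n3314 : Strat := .win 722 4 718
noncomputable def n3315 : Strat := .win 761 5 717
noncomputable def n3316 : Strat := .move 721 n3314 (.cons 722 n3315 .nil)
noncomputable def n3317 : Strat := .move 720 n3313 (.cons 757 n3316 .nil)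
noncomputable def n3318 : Strat := .move 719 n3096 (.cons 800 n3317 .nil)
noncomputable def n3319 : Strat := .move 800 n2660 (.cons 882 n3309 .nil)
noncomputable def n3320 : Strat := .move 757 n3296 (.cons 716 n3319 .nil)
noncomputable def n3321 : Strat := .move 762 n3286 (.cons 802 n3292 .nil)
noncomputable def n3322 : Strat := .move 761 n3002 (.cons 716 n3321 .nil)
noncomputable def n3323 : Strat := .move 760 n3307 (.cons 800 n3305 (.cons 714 n3311 (.cons 715 n3312 (.cons 716 n3318 (.cons 761 n3320 (.cons 757 n3322 .nil))))))
noncomputable def n3324 : Strat := .move 757 n3274 (.cons 755 n2639 .nil)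
noncomputable def n3325 : Strat := .move 716 n2344 (.cons 714 n3273 (.cons 760 n3324 .nil))
noncomputable def n3326 : Strat := .move 718 n3271 (.cons 882 n3272 (.cons 800 n3325 (.cons 881 n3278 .nil)))
noncomputable def n3327 : Strat := .move 718 n777 (.cons 881 n905 .nil)
noncomputable def n3328 : Strat := .move 800 n2660 (.cons 882 n3327 .nil)
noncomputable def n3329 : Strat := .move 719 n900 (.cons 678 n2834 .nil)
noncomputable def n3330 : Strat := .move 718 n777 (.cons 881 n3329 .nil)
noncomputable def n3331 : Strat := .move 800 n2660 (.cons 882 n3330 .nil)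
noncomputable def n3332 : Strat := .move 717 n3279 (.cons 800 n3306 (.cons 718 n3323 (.cons 720 n3326 (.cons 716 n3328 (.cons 676 n3331 .nil)))))
noncomputable def n3333 : Strat := .move 676 n2642 (.cons 635 n2999 .nil)
noncomputable def n3334 : Strat := .move 717 n2660 (.cons 882 n3333 .nil)
noncomputable def n3335 : Strat := .move 720 n2833 (.cons 757 n2176 .nil)
noncomputable def n3336 : Strat := .move 719 n900 (.cons 678 n3335 .nil)
noncomputable def n3337 : Strat := .move 717 n905 (.cons 676 n3336 .nil)
noncomputable def n3338 : Strat := .move 718 n777 (.cons 881 n3337 .nil)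
noncomputable def n3339 : Strat := .win 842 6 718
noncomputable def n3340 : Strat := .move 882 n3167 (.cons 924 n901 .nil)
noncomputable def n3341 : Strat := .move 883 n3339 (.cons 842 n3340 .nil)
noncomputable def n3342 : Strat := .move 719 n900 (.cons 678 n3341 .nil)
noncomputable def n3343 : Strat := .move 718 n777 (.cons 881 n3342 .nil)
noncomputable def n3344 : Strat := .move 800 n3256 (.cons 881 n3334 (.cons 718 n3261 (.cons 882 n3338 (.cons 717 n3343 .nil))))
noncomputable def n3345 : Strat := .move 720 n2177 (.cons 717 n2176 .nil)
noncomputable def n3346 : Strat := .move 757 n2175 (.cons 756 n3345 .nil)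
noncomputable def n3347 : Strat := .move 719 n900 (.cons 678 n3346 .nil)
noncomputable def n3348 : Strat := .move 718 n3268 (.cons 842 n3347 .nil)
noncomputable def n3349 : Strat := .move 802 n2985 (.cons 803 n3242 .nil)
noncomputable def n3350 : Strat := .move 801 n3160 (.cons 923 n3349 .nil)
noncomputable def n3351 : Strat := .move 760 n139 (.cons 719 n3350 .nil)
noncomputable def n3352 : Strat := .move 882 n970 (.cons 717 n3351 .nil)
noncomputable def n3353 : Strat := .move 801 n3242 (.cons 842 n2985 .nil)
noncomputable def n3354 : Strat := .move 757 n2986 (.cons 760 n2026 .nil)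
noncomputable def n3355 : Strat := .move 801 n2985 (.cons 803 n3354 .nil)
noncomputable def n3356 : Strat := .win 718 3 677
noncomputable def n3357 : Strat := .move 678 n3094 (.cons 637 n3356 .nil)
noncomputable def n3358 : Strat := .move 719 n3092 (.cons 882 n3357 .nil)
noncomputable def n3359 : Strat := .move 883 n418 (.cons 718 n23 .nil)
noncomputable def n3360 : Strat := .win 843 5 799
noncomputable def n3361 : Strat := .win 761 0 758
noncomputable def n3362 : Strat := .move 803 n3360 (.cons 843 n3361 .nil)
noncomputable def n3363 : Strat := .move 842 n3359 (.cons 884 n3362 .nil)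
noncomputable def n3364 : Strat := .move 719 n3313 (.cons 757 n3092 .nil)
noncomputable def n3365 : Strat := .move 761 n2873 (.cons 721 n2866 .nil)
noncomputable def n3366 : Strat := .move 720 n3364 (.cons 882 n3365 .nil)
noncomputable def n3367 : Strat := .move 760 n3358 (.cons 719 n3363 (.cons 718 n3366 .nil))
noncomputable def n3368 : Strat := .move 842 n596 (.cons 801 n3359 .nil)
noncomputable def n3369 : Strat := .move 802 n3353 (.cons 842 n3355 (.cons 801 n3367 (.cons 803 n3368 .nil)))
noncomputable def n3370 : Strat := .move 800 n3264 (.cons 882 n3348 (.cons 842 n3334 (.cons 718 n3352 (.cons 717 n3369 .nil))))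
noncomputable def n3371 : Strat := .move 882 n970 (.cons 717 n899 .nil)
noncomputable def n3372 : Strat := .move 800 n3371 (.cons 718 n3261 (.cons 717 n3269 (.cons 881 n3264 .nil)))
noncomputable def n3373 : Strat := .win 760 7 718
noncomputable def n3374 : Strat := .win 800 6 718
noncomputable def n3375 : Strat := .move 718 n3373 (.cons 760 n3374 .nil)
noncomputable def n3376 : Strat := .move 883 n23 (.cons 884 n3375 .nil)
noncomputable def n3377 : Strat := .move 842 n37 (.cons 802 n3376 .nil)
noncomputable def n3378 : Strat := .move 802 n2985 (.cons 803 n3354 .nil)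
noncomputable def n3379 : Strat := .move 800 n3378 (.cons 802 n3134 .nil)
noncomputable def n3380 : Strat := .move 842 n3265 (.cons 883 n3266 .nil)
noncomputable def n3381 : Strat := .move 718 n777 (.cons 881 n3380 .nil)
noncomputable def n3382 : Strat := .move 719 n901 (.cons 760 n900 .nil)
noncomputable def n3383 : Strat := .move 760 n3160 (.cons 923 n139 .nil)
noncomputable def n3384 : Strat := .move 883 n3167 (.cons 924 n3339 .nil)
noncomputable def n3385 : Strat := .move 882 n3382 (.cons 678 n3383 (.cons 760 n3384 .nil))
noncomputable def n3386 : Strat := .move 718 n777 (.cons 881 n3385 .nil)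
noncomputable def n3387 : Strat := .move 719 n3092 (.cons 882 n1366 .nil)
noncomputable def n3388 : Strat := .move 882 n3160 (.cons 923 n139 .nil)
noncomputable def n3389 : Strat := .move 757 n2671 (.cons 720 n2026 .nil)
noncomputable def n3390 : Strat := .move 719 n1366 (.cons 678 n3389 .nil)
noncomputable def n3391 : Strat := .move 882 n3167 (.cons 924 n3160 .nil)
noncomputable def n3392 : Strat := .move 883 n3262 (.cons 884 n3391 .nil)
noncomputable def n3393 : Strat := .move 760 n3387 (.cons 678 n3388 (.cons 882 n3390 (.cons 719 n3392 .nil)))
noncomputable def n3394 : Strat := .move 882 n3383 (.cons 719 n3260 .nil)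
noncomputable def n3395 : Strat := .move 800 n3381 (.cons 677 n3386 (.cons 881 n3393 (.cons 718 n3394 (.cons 842 n3134 .nil))))
noncomputable def n3396 : Strat := .move 760 n947 (.cons 718 n587 .nil)
noncomputable def n3397 : Strat := .move 883 n23 (.cons 884 n3396 .nil)
noncomputable def n3398 : Strat := .move 842 n37 (.cons 802 n3397 .nil)
noncomputable def n3399 : Strat := .move 800 n419 (.cons 924 n418 .nil)
noncomputable def n3400 : Strat := .move 883 n23 (.cons 884 n3399 .nil)
noncomputable def n3401 : Strat := .move 842 n37 (.cons 802 n3400 .nil)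
noncomputable def n3402 : Strat := .move 800 n2985 (.cons 803 n3354 .nil)
noncomputable def n3403 : Strat := .move 802 n3242 (.cons 842 n3402 .nil)
noncomputable def n3404 : Strat := .move 801 n3377 (.cons 842 n3379 (.cons 802 n3395 (.cons 800 n3398 (.cons 760 n3401 (.cons 718 n3403 .nil)))))
noncomputable def n3405 : Strat := .move 757 n2024 (.cons 802 n2026 .nil)
noncomputable def n3406 : Strat := .move 801 n3160 (.cons 923 n3405 .nil)
noncomputable def n3407 : Strat := .move 760 n139 (.cons 719 n3406 .nil)
noncomputable def n3408 : Strat := .move 882 n3260 (.cons 883 n3351 (.cons 842 n3407 .nil))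
noncomputable def n3409 : Strat := .move 882 n970 (.cons 717 n3407 .nil)
noncomputable def n3410 : Strat := .move 801 n2026 (.cons 756 n3349 .nil)
noncomputable def n3411 : Strat := .move 798 n760 (.cons 760 n696 .nil)
noncomputable def n3412 : Strat := .move 797 n1699 (.cons 796 n3411 .nil)
noncomputable def n3413 : Strat := .move 756 n2013 (.cons 801 n3412 .nil)
noncomputable def n3414 : Strat := .move 802 n2986 (.cons 760 n2985 .nil)
noncomputable def n3415 : Strat := .move 801 n2026 (.cons 756 n3414 .nil)
noncomputable def n3416 : Strat := .move 797 n760 (.cons 760 n696 .nil)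
noncomputable def n3417 : Strat := .move 760 n1838 (.cons 797 n2977 .nil)
noncomputable def n3418 : Strat := .move 716 n532 (.cons 881 n3417 .nil)
noncomputable def n3419 : Strat := .move 797 n696 (.cons 842 n2007 .nil)
noncomputable def n3420 : Strat := .move 715 n360 (.cons 674 n1777 .nil)
noncomputable def n3421 : Strat := .move 716 n532 (.cons 881 n3420 .nil)
noncomputable def n3422 : Strat := .move 798 n3416 (.cons 842 n3418 (.cons 760 n3419 (.cons 797 n3421 .nil)))
noncomputable def n3423 : Strat := .move 719 n1366 (.cons 678 n2671 .nil)
noncomputable def n3424 : Strat := .move 801 n2024 (.cons 802 n3423 .nil)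
noncomputable def n3425 : Strat := .move 798 n532 (.cons 881 n1838 .nil)
noncomputable def n3426 : Strat := .move 716 n2977 (.cons 715 n3425 .nil)
noncomputable def n3427 : Strat := .move 760 n3424 (.cons 801 n3426 .nil)
noncomputable def n3428 : Strat := .move 757 n3410 (.cons 803 n3413 (.cons 842 n3415 (.cons 801 n3422 (.cons 756 n3427 .nil))))
noncomputable def n3429 : Strat := .move 800 n3261 (.cons 717 n3408 (.cons 842 n3409 (.cons 882 n3428 .nil)))
noncomputable def n3430 : Strat := .move 800 n777 (.cons 881 n3268 .nil)
noncomputable def n3431 : Strat := .move 800 n777 (.cons 881 n3347 .nil)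
noncomputable def n3432 : Strat := .move 800 n3268 (.cons 842 n3347 .nil)
noncomputable def n3433 : Strat := .move 755 n2199 (.cons 717 n2980 .nil)
noncomputable def n3434 : Strat := .move 756 n1873 (.cons 719 n3433 .nil)
noncomputable def n3435 : Strat := .move 720 n3156 (.cons 760 n2176 .nil)
noncomputable def n3436 : Strat := .move 719 n2175 (.cons 756 n3435 .nil)
noncomputable def n3437 : Strat := .move 760 n3426 (.cons 716 n2876 .nil)
noncomputable def n3438 : Strat := .move 757 n3434 (.cons 717 n3436 (.cons 756 n3437 (.cons 719 n3422 .nil)))
noncomputable def n3439 : Strat := .move 718 n3430 (.cons 842 n3431 (.cons 881 n3432 (.cons 800 n3438 .nil)))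
noncomputable def n3440 : Strat := .move 716 n532 (.cons 881 n2977 .nil)
noncomputable def n3441 : Strat := .move 798 n1838 (.cons 797 n3440 .nil)
noncomputable def n3442 : Strat := .win 717 2 716
noncomputable def n3443 : Strat := .move 716 n3442 (.cons 717 n2977 .nil)
noncomputable def n3444 : Strat := .move 761 n2866 (.cons 803 n3443 .nil)
noncomputable def n3445 : Strat := .move 802 n2867 (.cons 801 n3444 .nil)
noncomputable def n3446 : Strat := .move 756 n1699 (.cons 796 n2696 .nil)
noncomputable def n3447 : Strat := .move 797 n2870 (.cons 798 n3446 .nil)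
noncomputable def n3448 : Strat := .move 760 n3441 (.cons 798 n3445 (.cons 716 n3447 .nil))
noncomputable def n3449 : Strat := .move 717 n1586 (.cons 676 n2976 .nil)
noncomputable def n3450 : Strat := .move 716 n532 (.cons 881 n3449 .nil)
noncomputable def n3451 : Strat := .move 798 n1838 (.cons 797 n3450 .nil)
noncomputable def n3452 : Strat := .move 720 n2874 (.cons 719 n3365 .nil)
noncomputable def n3453 : Strat := .move 802 n2867 (.cons 801 n3452 .nil)
noncomputable def n3454 : Strat := .move 760 n3441 (.cons 715 n3451 (.cons 798 n3445 (.cons 716 n3453 .nil)))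
noncomputable def n3455 : Strat := .move 756 n1699 (.cons 796 n2672 .nil)
noncomputable def n3456 : Strat := .move 797 n2870 (.cons 798 n3455 .nil)
noncomputable def n3457 : Strat := .move 760 n3441 (.cons 881 n3456 (.cons 798 n3453 .nil))
noncomputable def n3458 : Strat := .move 760 n3456 (.cons 797 n3445 (.cons 716 n3447 .nil))
noncomputable def n3459 : Strat := .move 756 n2670 (.cons 718 n2672 .nil)
noncomputable def n3460 : Strat := .move 719 n2671 (.cons 720 n3459 .nil)
noncomputable def n3461 : Strat := .move 760 n3441 (.cons 881 n3456 (.cons 798 n3460 (.cons 716 n3447 .nil)))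
noncomputable def n3462 : Strat := .move 761 n2866 (.cons 803 n2875 .nil)
noncomputable def n3463 : Strat := .move 802 n2867 (.cons 801 n3462 .nil)
noncomputable def n3464 : Strat := .move 760 n3445 (.cons 761 n3460 (.cons 715 n3463 .nil))
noncomputable def n3465 : Strat := .move 760 n1838 (.cons 797 n3440 .nil)
noncomputable def n3466 : Strat := .move 797 n696 (.cons 842 n760 .nil)
noncomputable def n3467 : Strat := .move 798 n3465 (.cons 716 n3466 (.cons 797 n3421 (.cons 760 n3419 .nil)))
noncomputable def n3468 : Strat := .move 718 n2203 (.cons 755 n1873 .nil)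
noncomputable def n3469 : Strat := .move 760 n2871 (.cons 796 n2696 .nil)
noncomputable def n3470 : Strat := .move 717 n3468 (.cons 719 n2981 (.cons 755 n3469 (.cons 718 n2983 .nil)))
noncomputable def n3471 : Strat := .move 718 n1873 (.cons 719 n3433 .nil)
noncomputable def n3472 : Strat := .move 756 n3412 (.cons 842 n3470 (.cons 798 n3471 .nil))
noncomputable def n3473 : Strat := .move 756 n2670 (.cons 718 n1699 .nil)
noncomputable def n3474 : Strat := .move 719 n2671 (.cons 720 n3473 .nil)
noncomputable def n3475 : Strat := .move 797 n2870 (.cons 798 n3474 .nil)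
noncomputable def n3476 : Strat := .move 760 n3451 (.cons 798 n3463 (.cons 761 n3475 .nil))
noncomputable def n3477 : Strat := .move 714 n1744 (.cons 713 n2243 .nil)
noncomputable def n3478 : Strat := .move 715 n360 (.cons 674 n3477 .nil)
noncomputable def n3479 : Strat := .move 716 n532 (.cons 881 n3478 .nil)
noncomputable def n3480 : Strat := .move 715 n360 (.cons 674 n3070 .nil)
noncomputable def n3481 : Strat := .move 716 n532 (.cons 881 n3480 .nil)
noncomputable def n3482 : Strat := .move 798 n3419 (.cons 842 n3479 (.cons 756 n3481 .nil))
noncomputable def n3483 : Strat := .move 757 n3448 (.cons 756 n3454 (.cons 717 n3457 (.cons 881 n3458 (.cons 803 n3461 (.cons 798 n3464 (.cons 720 n3467 (.cons 716 n3472 (.cons 715 n3476 (.cons 760 n3482 .nil)))))))))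
noncomputable def n3484 : Strat := .move 759 n3270 (.cons 842 n3332 (.cons 801 n3344 (.cons 881 n3370 (.cons 676 n3372 (.cons 717 n3404 (.cons 718 n3429 (.cons 882 n3439 (.cons 800 n3483 .nil))))))))
noncomputable def n3485 : Strat := .move 880 n424 (.cons 879 n1544 .nil)
noncomputable def n3486 : Strat := .move 798 n425 (.cons 797 n3485 .nil)
noncomputable def n3487 : Strat := .move 843 n597 (.cons 803 n3214 .nil)
noncomputable def n3488 : Strat := .move 802 n596 (.cons 801 n3487 .nil)
noncomputable def n3489 : Strat := .move 880 n424 (.cons 879 n3488 .nil)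
noncomputable def n3490 : Strat := .move 843 n3214 (.cons 883 n3186 .nil)
noncomputable def n3491 : Strat := .move 880 n1544 (.cons 717 n3490 .nil)
noncomputable def n3492 : Strat := .move 798 n425 (.cons 797 n3491 .nil)
noncomputable def n3493 : Strat := .move 842 n3486 (.cons 798 n3489 (.cons 879 n3492 (.cons 880 n3488 .nil)))
noncomputable def n3494 : Strat := .move 842 n425 (.cons 797 n424 .nil)
noncomputable def n3495 : Strat := .move 880 n1544 (.cons 717 n3494 .nil)
noncomputable def n3496 : Strat := .move 798 n3495 (.cons 842 n3063 (.cons 717 n3227 .nil))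
noncomputable def n3497 : Strat := .move 756 n2670 (.cons 718 n2647 .nil)
noncomputable def n3498 : Strat := .move 719 n2671 (.cons 720 n3497 .nil)
noncomputable def n3499 : Strat := .move 801 n2024 (.cons 802 n3498 .nil)
noncomputable def n3500 : Strat := .move 800 n1366 (.cons 678 n3092 .nil)
noncomputable def n3501 : Strat := .move 719 n2671 (.cons 720 n3500 .nil)
noncomputable def n3502 : Strat := .move 801 n2024 (.cons 802 n3501 .nil)
noncomputable def n3503 : Strat := .move 760 n3499 (.cons 800 n3456 (.cons 756 n3502 .nil))
noncomputable def n3504 : Strat := .move 717 n2203 (.cons 755 n2660 .nil)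
noncomputable def n3505 : Strat := .move 718 n1873 (.cons 719 n3504 .nil)
noncomputable def n3506 : Strat := .move 800 n2013 (.cons 801 n3505 .nil)
noncomputable def n3507 : Strat := .move 801 n2647 (.cons 800 n37 .nil)
noncomputable def n3508 : Strat := .move 842 n18 (.cons 798 n3507 .nil)
noncomputable def n3509 : Strat := .move 797 n1699 (.cons 796 n3508 .nil)
noncomputable def n3510 : Strat := .move 756 n3506 (.cons 882 n3471 (.cons 718 n3509 .nil))
noncomputable def n3511 : Strat := .move 717 n2976 (.cons 761 n3295 .nil)
noncomputable def n3512 : Strat := .move 716 n2977 (.cons 715 n3511 .nil)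
noncomputable def n3513 : Strat := .move 760 n3502 (.cons 801 n3512 .nil)
noncomputable def n3514 : Strat := .move 718 n900 (.cons 678 n2175 .nil)
noncomputable def n3515 : Strat := .move 800 n3092 (.cons 882 n3514 .nil)
noncomputable def n3516 : Strat := .move 719 n2671 (.cons 720 n3515 .nil)
noncomputable def n3517 : Strat := .move 760 n3516 (.cons 756 n3512 .nil)
noncomputable def n3518 : Strat := .move 756 n2670 (.cons 718 n2013 .nil)
noncomputable def n3519 : Strat := .move 800 n3092 (.cons 882 n3518 .nil)
noncomputable def n3520 : Strat := .move 719 n2671 (.cons 720 n3519 .nil)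
noncomputable def n3521 : Strat := .move 760 n3499 (.cons 800 n3445 (.cons 802 n3520 (.cons 801 n3516 .nil)))
noncomputable def n3522 : Strat := .move 718 n905 (.cons 676 n2203 .nil)
noncomputable def n3523 : Strat := .move 717 n2660 (.cons 882 n3522 .nil)
noncomputable def n3524 : Strat := .move 800 n2013 (.cons 801 n3523 .nil)
noncomputable def n3525 : Strat := .move 756 n3412 (.cons 842 n2669 (.cons 760 n3524 .nil))
noncomputable def n3526 : Strat := .move 800 n2026 (.cons 756 n3017 .nil)
noncomputable def n3527 : Strat := .move 801 n2024 (.cons 802 n3526 .nil)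
noncomputable def n3528 : Strat := .move 756 n1699 (.cons 796 n2647 .nil)
noncomputable def n3529 : Strat := .move 797 n2870 (.cons 798 n3528 .nil)
noncomputable def n3530 : Strat := .move 801 n2024 (.cons 802 n3529 .nil)
noncomputable def n3531 : Strat := .move 760 n3499 (.cons 718 n3527 (.cons 801 n3516 (.cons 719 n3530 (.cons 800 n3475 (.cons 756 n3502 .nil)))))
noncomputable def n3532 : Strat := .move 759 n3503 (.cons 800 n3458 (.cons 760 n3510 (.cons 756 n3513 (.cons 801 n3517 (.cons 797 n3521 (.cons 719 n3525 (.cons 715 n3531 .nil)))))))
noncomputable def n3533 : Strat := .move 717 n905 (.cons 676 n2660 .nil)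
noncomputable def n3534 : Strat := .move 718 n1873 (.cons 719 n3533 .nil)
noncomputable def n3535 : Strat := .move 800 n2013 (.cons 801 n3534 .nil)
noncomputable def n3536 : Strat := .move 756 n3506 (.cons 800 n3105 (.cons 755 n3535 .nil))
noncomputable def n3537 : Strat := .move 678 n3356 (.cons 718 n3094 .nil)
noncomputable def n3538 : Strat := .move 800 n3092 (.cons 882 n3537 .nil)
noncomputable def n3539 : Strat := .move 719 n2671 (.cons 720 n3538 .nil)
noncomputable def n3540 : Strat := .move 760 n3502 (.cons 678 n3445 (.cons 801 n3539 .nil))
noncomputable def n3541 : Strat := .move 760 n3445 (.cons 803 n3460 (.cons 715 n3463 .nil))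
noncomputable def n3542 : Strat := .move 800 n905 (.cons 676 n2660 .nil)
noncomputable def n3543 : Strat := .move 717 n2203 (.cons 755 n3542 .nil)
noncomputable def n3544 : Strat := .move 718 n1873 (.cons 719 n3543 .nil)
noncomputable def n3545 : Strat := .move 760 n2672 (.cons 714 n2696 .nil)
noncomputable def n3546 : Strat := .move 717 n3468 (.cons 719 n2981 (.cons 755 n3545 (.cons 718 n2983 .nil)))
noncomputable def n3547 : Strat := .move 756 n3544 (.cons 800 n3546 (.cons 718 n3105 (.cons 755 n2674 .nil)))
noncomputable def n3548 : Strat := .move 756 n3244 (.cons 842 n3103 (.cons 802 n2674 (.cons 760 n3105 .nil)))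
noncomputable def n3549 : Strat := .move 801 n2026 (.cons 756 n3243 .nil)
noncomputable def n3550 : Strat := .move 719 n901 (.cons 760 n3518 .nil)
noncomputable def n3551 : Strat := .move 882 n970 (.cons 717 n3550 .nil)
noncomputable def n3552 : Strat := .move 717 n2660 (.cons 882 n3000 .nil)
noncomputable def n3553 : Strat := .move 800 n3549 (.cons 802 n3551 (.cons 801 n3552 .nil))
noncomputable def n3554 : Strat := .move 756 n3524 (.cons 676 n3244 (.cons 800 n3105 .nil))
noncomputable def n3555 : Strat := .move 756 n3244 (.cons 801 n3105 .nil)
noncomputable def n3556 : Strat := .move 759 n3536 (.cons 756 n3540 (.cons 800 n3541 (.cons 801 n3547 (.cons 717 n3548 (.cons 715 n3553 (.cons 719 n3554 (.cons 718 n3555 .nil)))))))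
noncomputable def n3557 : Strat := .move 798 n1544 (.cons 717 n3197 .nil)
noncomputable def n3558 : Strat := .move 798 n1544 (.cons 717 n316 .nil)
noncomputable def n3559 : Strat := .win 798 3 716
noncomputable def n3560 : Strat := .move 719 n2632 (.cons 716 n2205 .nil)
noncomputable def n3561 : Strat := .move 718 n2203 (.cons 755 n3560 .nil)
noncomputable def n3562 : Strat := .move 717 n3559 (.cons 798 n3561 .nil)
noncomputable def n3563 : Strat := .move 759 n3244 (.cons 801 n2201 .nil)
noncomputable def n3564 : Strat := .move 715 n2730 (.cons 798 n2710 .nil)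
noncomputable def n3565 : Strat := .move 756 n3558 (.cons 715 n3562 (.cons 798 n3563 (.cons 717 n3564 .nil)))
noncomputable def n3566 : Strat := .move 842 n424 (.cons 879 n3488 .nil)
noncomputable def n3567 : Strat := .move 800 n2660 (.cons 882 n2013 .nil)
noncomputable def n3568 : Strat := .move 717 n2975 (.cons 755 n3567 .nil)
noncomputable def n3569 : Strat := .move 759 n2201 (.cons 755 n3035 (.cons 715 n3568 .nil))
noncomputable def n3570 : Strat := .move 756 n3558 (.cons 715 n3562 (.cons 798 n3569 (.cons 717 n3564 .nil)))
noncomputable def n3571 : Strat := .move 880 n3557 (.cons 879 n3565 (.cons 798 n3566 (.cons 842 n3570 .nil)))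
noncomputable def n3572 : Strat := .move 715 n1775 (.cons 880 n1776 .nil)
noncomputable def n3573 : Strat := .move 798 n696 (.cons 842 n3572 .nil)
noncomputable def n3574 : Strat := .move 797 n1699 (.cons 796 n3573 .nil)
noncomputable def n3575 : Strat := .move 759 n3412 (.cons 760 n3574 (.cons 798 n3244 (.cons 842 n3088 .nil)))
noncomputable def n3576 : Strat := .move 759 n3088 (.cons 798 n3103 (.cons 760 n3100 .nil))
noncomputable def n3577 : Strat := .move 760 n3092 (.cons 882 n2671 .nil)
noncomputable def n3578 : Strat := .move 719 n2670 (.cons 718 n3577 .nil)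
noncomputable def n3579 : Strat := .move 800 n3578 (.cons 719 n2983 .nil)
noncomputable def n3580 : Strat := .move 716 n360 (.cons 674 n1777 .nil)
noncomputable def n3581 : Strat := .move 798 n1775 (.cons 880 n3580 .nil)
noncomputable def n3582 : Strat := .move 715 n1776 (.cons 714 n3581 .nil)
noncomputable def n3583 : Strat := .move 759 n3412 (.cons 842 n3579 (.cons 797 n3582 (.cons 760 n3574 .nil)))
noncomputable def n3584 : Strat := .move 798 n696 (.cons 842 n2156 .nil)
noncomputable def n3585 : Strat := .move 797 n1699 (.cons 796 n3584 .nil)
noncomputable def n3586 : Strat := .move 674 n2947 (.cons 716 n2191 .nil)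
noncomputable def n3587 : Strat := .move 798 n1775 (.cons 880 n3586 .nil)
noncomputable def n3588 : Strat := .move 715 n1776 (.cons 714 n3587 .nil)
noncomputable def n3589 : Strat := .move 759 n3574 (.cons 842 n3100 (.cons 798 n3105 (.cons 714 n3585 (.cons 797 n3588 (.cons 715 n3509 .nil)))))
noncomputable def n3590 : Strat := .move 755 n2198 (.cons 713 n2276 .nil)
noncomputable def n3591 : Strat := .move 718 n1873 (.cons 719 n3590 .nil)
noncomputable def n3592 : Strat := .move 759 n3412 (.cons 760 n3574 (.cons 797 n3244 (.cons 842 n3591 .nil)))
noncomputable def n3593 : Strat := .move 715 n1775 (.cons 880 n3580 .nil)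
noncomputable def n3594 : Strat := .move 715 n1776 (.cons 714 n3580 .nil)
noncomputable def n3595 : Strat := .move 798 n3572 (.cons 714 n3593 (.cons 880 n3594 (.cons 715 n3244 .nil)))
noncomputable def n3596 : Strat := .move 759 n3595 (.cons 801 n3582 (.cons 760 n3588 (.cons 716 n3244 .nil)))
noncomputable def n3597 : Strat := .move 880 n316 (.cons 715 n424 .nil)
noncomputable def n3598 : Strat := .move 798 n425 (.cons 797 n3597 .nil)
noncomputable def n3599 : Strat := .move 842 n3598 (.cons 715 n3488 .nil)
noncomputable def n3600 : Strat := .move 759 n3244 (.cons 842 n3103 (.cons 802 n2674 (.cons 760 n3105 .nil)))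
noncomputable def n3601 : Strat := .move 759 n1699 (.cons 796 n3507 .nil)
noncomputable def n3602 : Strat := .move 797 n18 (.cons 798 n3601 .nil)
noncomputable def n3603 : Strat := .win 794 5 753
noncomputable def n3604 : Strat := .win 755 4 754
noncomputable def n3605 : Strat := .move 795 n3603 (.cons 794 n3604 .nil)
noncomputable def n3606 : Strat := .move 796 n1815 (.cons 759 n3605 .nil)
noncomputable def n3607 : Strat := .move 797 n18 (.cons 798 n3606 .nil)
noncomputable def n3608 : Strat := .move 842 n3602 (.cons 759 n3488 (.cons 802 n3607 .nil))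
noncomputable def n3609 : Strat := .move 756 n3575 (.cons 842 n3576 (.cons 801 n3583 (.cons 760 n3589 (.cons 716 n3592 (.cons 797 n3596 (.cons 759 n3599 (.cons 798 n3600 (.cons 715 n3608 .nil))))))))
noncomputable def n3610 : Strat := .move 757 n3493 (.cons 842 n3011 (.cons 801 n3496 (.cons 880 n3532 (.cons 798 n3556 (.cons 797 n3571 (.cons 717 n3609 .nil))))))
noncomputable def n3611 : Strat := .move 841 n2971 (.cons 842 n3181 (.cons 800 n3184 (.cons 883 n3213 (.cons 757 n3218 (.cons 802 n3231 (.cons 879 n3249 (.cons 797 n3254 (.cons 880 n3484 (.cons 881 n3610 .nil)))))))))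
noncomputable def n3612 : Strat := .move 922 n1881 (.cons 800 n1077 .nil)
noncomputable def n3613 : Strat := .move 799 n788 (.cons 718 n3612 .nil)
noncomputable def n3614 : Strat := .move 921 n652 (.cons 880 n556 .nil)
noncomputable def n3615 : Strat := .move 922 n1881 (.cons 800 n3614 .nil)
noncomputable def n3616 : Strat := .move 799 n788 (.cons 718 n3615 .nil)
noncomputable def n3617 : Strat := .move 798 n238 (.cons 922 n1839 .nil)
noncomputable def n3618 : Strat := .move 757 n559 (.cons 716 n3617 .nil)
noncomputable def n3619 : Strat := .move 880 n554 (.cons 921 n3618 .nil)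
noncomputable def n3620 : Strat := .move 799 n788 (.cons 718 n3619 .nil)
noncomputable def n3621 : Strat := .move 798 n544 (.cons 716 n1675 .nil)
noncomputable def n3622 : Strat := .win 841 1 717
noncomputable def n3623 : Strat := .move 718 n1873 (.cons 719 n3622 .nil)
noncomputable def n3624 : Strat := .move 800 n2013 (.cons 801 n3623 .nil)
noncomputable def n3625 : Strat := .move 756 n3624 (.cons 800 n3153 (.cons 718 n2669 .nil))
noncomputable def n3626 : Strat := .move 798 n760 (.cons 760 n3067 .nil)
noncomputable def n3627 : Strat := .move 797 n1699 (.cons 796 n3626 .nil)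
noncomputable def n3628 : Strat := .move 880 n316 (.cons 715 n238 .nil)
noncomputable def n3629 : Strat := .move 798 n760 (.cons 760 n3628 .nil)
noncomputable def n3630 : Strat := .move 797 n1699 (.cons 796 n3629 .nil)
noncomputable def n3631 : Strat := .move 756 n3627 (.cons 963 n3630 (.cons 797 n3624 .nil))
noncomputable def n3632 : Strat := .move 757 n3621 (.cons 798 n3625 (.cons 716 n3631 .nil))
noncomputable def n3633 : Strat := .move 715 n2730 (.cons 798 n1776 .nil)
noncomputable def n3634 : Strat := .move 756 n2182 (.cons 755 n3633 .nil)
noncomputable def n3635 : Strat := .move 880 n554 (.cons 921 n3634 .nil)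
noncomputable def n3636 : Strat := .move 757 n559 (.cons 716 n3635 .nil)
noncomputable def n3637 : Strat := .move 799 n3612 (.cons 757 n3615 (.cons 800 n3619 (.cons 922 n3636 .nil)))
noncomputable def n3638 : Strat := .move 799 n788 (.cons 718 n3636 .nil)
noncomputable def n3639 : Strat := .move 881 n3613 (.cons 757 n3616 (.cons 800 n3620 (.cons 799 n3632 (.cons 718 n3637 (.cons 922 n3638 .nil)))))
noncomputable def n3640 : Strat := .move 881 n3621 (.cons 798 n3625 (.cons 716 n3631 .nil))
noncomputable def n3641 : Strat := .move 760 n2024 (.cons 802 n2696 .nil)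
noncomputable def n3642 : Strat := .move 801 n2647 (.cons 800 n3641 .nil)
noncomputable def n3643 : Strat := .move 718 n3622 (.cons 841 n1873 .nil)
noncomputable def n3644 : Strat := .move 800 n2013 (.cons 801 n3643 .nil)
noncomputable def n3645 : Strat := .move 881 n3644 (.cons 841 n3105 .nil)
noncomputable def n3646 : Strat := .move 756 n2669 (.cons 715 n3642 (.cons 760 n3645 (.cons 800 n3153 .nil)))
noncomputable def n3647 : Strat := .move 798 n760 (.cons 760 n2156 .nil)
noncomputable def n3648 : Strat := .move 797 n1699 (.cons 796 n3647 .nil)
noncomputable def n3649 : Strat := .move 760 n2870 (.cons 798 n2648 .nil)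
noncomputable def n3650 : Strat := .move 797 n1699 (.cons 796 n3649 .nil)
noncomputable def n3651 : Strat := .move 756 n3088 (.cons 760 n3100 (.cons 798 n2669 (.cons 714 n3648 (.cons 715 n3650 .nil))))
noncomputable def n3652 : Strat := .move 760 n3499 (.cons 756 n3131 .nil)
noncomputable def n3653 : Strat := .move 716 n532 (.cons 881 n1777 .nil)
noncomputable def n3654 : Strat := .move 798 n1775 (.cons 880 n3653 .nil)
noncomputable def n3655 : Strat := .move 715 n1776 (.cons 714 n3654 .nil)
noncomputable def n3656 : Strat := .move 716 n360 (.cons 674 n532 .nil)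
noncomputable def n3657 : Strat := .move 798 n1775 (.cons 880 n3656 .nil)
noncomputable def n3658 : Strat := .move 715 n1776 (.cons 714 n3657 .nil)
noncomputable def n3659 : Strat := .move 756 n3655 (.cons 760 n3658 (.cons 881 n2669 (.cons 715 n3642 .nil)))
noncomputable def n3660 : Strat := .move 798 n760 (.cons 760 n3572 .nil)
noncomputable def n3661 : Strat := .move 797 n1699 (.cons 796 n3660 .nil)
noncomputable def n3662 : Strat := .move 756 n3661 (.cons 798 n3642 (.cons 760 n3100 .nil))
noncomputable def n3663 : Strat := .move 716 n2977 (.cons 715 n2876 .nil)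
noncomputable def n3664 : Strat := .move 798 n1838 (.cons 797 n3663 .nil)
noncomputable def n3665 : Strat := .move 760 n3091 (.cons 715 n3131 (.cons 881 n3664 (.cons 716 n3463 .nil)))
noncomputable def n3666 : Strat := .move 798 n544 (.cons 716 n3067 .nil)
noncomputable def n3667 : Strat := .move 756 n3644 (.cons 841 n3105 .nil)
noncomputable def n3668 : Strat := .move 881 n3666 (.cons 798 n3667 .nil)
noncomputable def n3669 : Strat := .move 881 n544 (.cons 716 n2008 .nil)
noncomputable def n3670 : Strat := .move 798 n3068 (.cons 922 n3669 (.cons 716 n2173 .nil))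
noncomputable def n3671 : Strat := .move 757 n3640 (.cons 798 n3646 (.cons 881 n3651 (.cons 715 n3652 (.cons 797 n3659 (.cons 716 n3662 (.cons 756 n3665 (.cons 760 n3668 (.cons 801 n3670 .nil))))))))
noncomputable def n3672 : Strat := .move 716 n313 (.cons 675 n2977 .nil)
noncomputable def n3673 : Strat := .move 799 n1837 (.cons 761 n3672 .nil)
noncomputable def n3674 : Strat := .move 798 n1838 (.cons 797 n3673 .nil)
noncomputable def n3675 : Strat := .move 757 n3674 (.cons 715 n3499 .nil)
noncomputable def n3676 : Strat := .move 756 n1775 (.cons 880 n1776 .nil)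
noncomputable def n3677 : Strat := .move 715 n2667 (.cons 716 n3676 .nil)
noncomputable def n3678 : Strat := .move 798 n1838 (.cons 797 n3677 .nil)
noncomputable def n3679 : Strat := .win 842 7 677
noncomputable def n3680 : Strat := .win 636 6 636
noncomputable def n3681 : Strat := .move 677 n3679 (.cons 842 n3680 .nil)
noncomputable def n3682 : Strat := .move 718 n2175 (.cons 756 n3681 .nil)
noncomputable def n3683 : Strat := .move 801 n2024 (.cons 802 n3682 .nil)
noncomputable def n3684 : Strat := .move 719 n2671 (.cons 720 n3683 .nil)
noncomputable def n3685 : Strat := .move 799 n313 (.cons 675 n1837 .nil)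
noncomputable def n3686 : Strat := .move 716 n2977 (.cons 715 n3685 .nil)
noncomputable def n3687 : Strat := .move 798 n1838 (.cons 797 n3686 .nil)
noncomputable def n3688 : Strat := .move 757 n3678 (.cons 797 n3684 (.cons 756 n3687 .nil))
noncomputable def n3689 : Strat := .move 719 n2670 (.cons 718 n2671 .nil)
noncomputable def n3690 : Strat := .move 756 n1695 (.cons 754 n2182 (.cons 800 n3689 .nil))
noncomputable def n3691 : Strat := .move 757 n3672 (.cons 715 n3690 .nil)
noncomputable def n3692 : Strat := .move 798 n1837 (.cons 761 n3691 .nil)
noncomputable def n3693 : Strat := .win 800 4 758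
noncomputable def n3694 : Strat := .move 762 n3693 (.cons 800 n3286 .nil)
noncomputable def n3695 : Strat := .move 761 n2865 (.cons 798 n3694 .nil)
noncomputable def n3696 : Strat := .move 757 n2874 (.cons 719 n2868 .nil)
noncomputable def n3697 : Strat := .move 720 n2873 (.cons 721 n3696 .nil)
noncomputable def n3698 : Strat := .move 761 n2865 (.cons 798 n3697 .nil)
noncomputable def n3699 : Strat := .move 798 n3672 (.cons 715 n3690 .nil)
noncomputable def n3700 : Strat := .win 798 6 675
noncomputable def n3701 : Strat := .win 634 6 634
noncomputable def n3702 : Strat := .move 675 n3700 (.cons 798 n3701 .nil)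
noncomputable def n3703 : Strat := .move 716 n2977 (.cons 715 n3702 .nil)
noncomputable def n3704 : Strat := .move 756 n2647 (.cons 800 n3689 .nil)
noncomputable def n3705 : Strat := .move 801 n2024 (.cons 802 n3704 .nil)
noncomputable def n3706 : Strat := .move 757 n3699 (.cons 801 n3703 (.cons 716 n3705 .nil))
noncomputable def n3707 : Strat := .move 757 n2026 (.cons 756 n2671 .nil)
noncomputable def n3708 : Strat := .win 841 1 677
noncomputable def n3709 : Strat := .move 678 n3708 (.cons 841 n3094 .nil)
noncomputable def n3710 : Strat := .move 719 n3707 (.cons 720 n3709 .nil)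
noncomputable def n3711 : Strat := .move 801 n279 (.cons 802 n3710 .nil)
noncomputable def n3712 : Strat := .move 841 n1366 (.cons 678 n3092 .nil)
noncomputable def n3713 : Strat := .move 719 n3707 (.cons 720 n3712 .nil)
noncomputable def n3714 : Strat := .move 801 n279 (.cons 802 n3713 .nil)
noncomputable def n3715 : Strat := .win 801 4 798
noncomputable def n3716 : Strat := .win 762 4 758
noncomputable def n3717 : Strat := .move 761 n3716 (.cons 762 n2866 .nil)
noncomputable def n3718 : Strat := .move 802 n3715 (.cons 801 n3717 .nil)
noncomputable def n3719 : Strat := .move 841 n900 (.cons 678 n3092 .nil)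
noncomputable def n3720 : Strat := .win 841 3 677
noncomputable def n3721 : Strat := .move 678 n3720 (.cons 841 n3094 .nil)
noncomputable def n3722 : Strat := .move 720 n2176 (.cons 721 n3313 .nil)
noncomputable def n3723 : Strat := .move 719 n3719 (.cons 882 n3721 (.cons 678 n3722 .nil))
noncomputable def n3724 : Strat := .move 718 n776 (.cons 677 n3723 .nil)
noncomputable def n3725 : Strat := .move 800 n3711 (.cons 637 n3714 (.cons 756 n3718 (.cons 801 n3724 .nil)))
noncomputable def n3726 : Strat := .move 799 n3692 (.cons 801 n3695 (.cons 800 n3698 (.cons 761 n3706 (.cons 798 n3725 .nil))))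
noncomputable def n3727 : Strat := .move 756 n2647 (.cons 800 n3300 .nil)
noncomputable def n3728 : Strat := .move 801 n2024 (.cons 802 n3727 .nil)
noncomputable def n3729 : Strat := .win 799 4 757
noncomputable def n3730 : Strat := .move 761 n3729 (.cons 799 n2868 .nil)
noncomputable def n3731 : Strat := .move 798 n1838 (.cons 797 n3730 .nil)
noncomputable def n3732 : Strat := .move 757 n3674 (.cons 798 n3728 (.cons 715 n3731 .nil))
noncomputable def n3733 : Strat := .move 716 n2977 (.cons 715 n3731 .nil)
noncomputable def n3734 : Strat := .move 757 n3728 (.cons 756 n3733 (.cons 715 n3499 (.cons 801 n3678 .nil)))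
noncomputable def n3735 : Strat := .move 716 n2977 (.cons 715 n3453 .nil)
noncomputable def n3736 : Strat := .move 756 n2670 (.cons 718 n3300 .nil)
noncomputable def n3737 : Strat := .move 719 n2671 (.cons 720 n3736 .nil)
noncomputable def n3738 : Strat := .move 757 n3499 (.cons 756 n3735 (.cons 802 n3737 (.cons 719 n3728 .nil)))
noncomputable def n3739 : Strat := .move 757 n2024 (.cons 802 n3727 .nil)
noncomputable def n3740 : Strat := .win 757 0 757
noncomputable def n3741 : Strat := .win 799 4 798
noncomputable def n3742 : Strat := .move 800 n2985 (.cons 803 n3741 .nil)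
noncomputable def n3743 : Strat := .move 802 n3740 (.cons 757 n3742 .nil)
noncomputable def n3744 : Strat := .move 883 n23 (.cons 884 n947 .nil)
noncomputable def n3745 : Strat := .move 841 n37 (.cons 802 n3744 .nil)
noncomputable def n3746 : Strat := .move 718 n776 (.cons 677 n2542 .nil)
noncomputable def n3747 : Strat := .move 800 n279 (.cons 802 n3746 .nil)
noncomputable def n3748 : Strat := .win 719 7 677
noncomputable def n3749 : Strat := .move 677 n3748 (.cons 719 n1990 .nil)
noncomputable def n3750 : Strat := .move 718 n2542 (.cons 883 n3749 .nil)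
noncomputable def n3751 : Strat := .move 798 n2378 (.cons 797 n979 .nil)
noncomputable def n3752 : Strat := .move 800 n279 (.cons 802 n3751 .nil)
noncomputable def n3753 : Strat := .move 799 n3747 (.cons 800 n3750 (.cons 883 n3752 .nil))
noncomputable def n3754 : Strat := .win 843 6 719
noncomputable def n3755 : Strat := .move 884 n3754 (.cons 843 n445 .nil)
noncomputable def n3756 : Strat := .move 719 n936 (.cons 882 n3755 .nil)
noncomputable def n3757 : Strat := .move 841 n37 (.cons 802 n3756 .nil)
noncomputable def n3758 : Strat := .win 800 3 759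
noncomputable def n3759 : Strat := .move 923 n471 (.cons 964 n3758 .nil)
noncomputable def n3760 : Strat := .move 882 n457 (.cons 719 n3759 .nil)
noncomputable def n3761 : Strat := .move 841 n37 (.cons 802 n3760 .nil)
noncomputable def n3762 : Strat := .win 925 6 760
noncomputable def n3763 : Strat := .win 841 0 839
noncomputable def n3764 : Strat := .move 884 n3762 (.cons 925 n3763 .nil)
noncomputable def n3765 : Strat := .move 883 n947 (.cons 718 n3764 .nil)
noncomputable def n3766 : Strat := .move 842 n3745 (.cons 841 n3753 (.cons 718 n3757 (.cons 883 n3761 (.cons 802 n3765 .nil))))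
noncomputable def n3767 : Strat := .move 757 n2671 (.cons 720 n3497 .nil)
noncomputable def n3768 : Strat := .win 718 4 717
noncomputable def n3769 : Strat := .move 721 n3314 (.cons 722 n3768 .nil)
noncomputable def n3770 : Strat := .move 720 n3313 (.cons 757 n3769 .nil)
noncomputable def n3771 : Strat := .move 718 n942 (.cons 677 n2542 .nil)
noncomputable def n3772 : Strat := .move 720 n2176 (.cons 721 n937 .nil)
noncomputable def n3773 : Strat := .move 718 n942 (.cons 677 n3772 .nil)
noncomputable def n3774 : Strat := .move 841 n936 (.cons 882 n3744 .nil)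
noncomputable def n3775 : Strat := .move 841 n936 (.cons 882 n3755 .nil)
noncomputable def n3776 : Strat := .move 842 n3771 (.cons 883 n3773 (.cons 677 n3774 (.cons 718 n3775 .nil)))
noncomputable def n3777 : Strat := .move 800 n3708 (.cons 841 n3094 .nil)
noncomputable def n3778 : Strat := .win 800 1 677
noncomputable def n3779 : Strat := .move 841 n936 (.cons 882 n3778 .nil)
noncomputable def n3780 : Strat := .win 718 7 677
noncomputable def n3781 : Strat := .win 636 7 636
noncomputable def n3782 : Strat := .move 677 n3780 (.cons 718 n3781 .nil)
noncomputable def n3783 : Strat := .move 678 n3777 (.cons 637 n3779 (.cons 841 n3782 .nil))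
noncomputable def n3784 : Strat := .move 884 n445 (.cons 883 n3754 .nil)
noncomputable def n3785 : Strat := .move 841 n936 (.cons 882 n3784 .nil)
noncomputable def n3786 : Strat := .move 842 n3771 (.cons 883 n3783 (.cons 677 n3774 (.cons 718 n3785 .nil)))
noncomputable def n3787 : Strat := .move 800 n2026 (.cons 756 n3709 .nil)
noncomputable def n3788 : Strat := .move 757 n2671 (.cons 720 n3787 .nil)
noncomputable def n3789 : Strat := .move 719 n3767 (.cons 756 n3770 (.cons 757 n3776 (.cons 720 n3786 (.cons 718 n3788 .nil))))
noncomputable def n3790 : Strat := .move 842 n942 (.cons 677 n2542 .nil)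
noncomputable def n3791 : Strat := .move 718 n2175 (.cons 756 n3790 .nil)
noncomputable def n3792 : Strat := .move 719 n2671 (.cons 720 n3791 .nil)
noncomputable def n3793 : Strat := .move 757 n2024 (.cons 802 n3792 .nil)
noncomputable def n3794 : Strat := .move 801 n3739 (.cons 756 n3743 (.cons 757 n3766 (.cons 802 n3789 (.cons 800 n3793 .nil))))
noncomputable def n3795 : Strat := .move 756 n3689 (.cons 720 n1695 .nil)
noncomputable def n3796 : Strat := .move 799 n1837 (.cons 761 n3795 .nil)
noncomputable def n3797 : Strat := .move 798 n1838 (.cons 797 n3796 .nil)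
noncomputable def n3798 : Strat := .move 757 n3674 (.cons 798 n3737 (.cons 715 n3797 .nil))
noncomputable def n3799 : Strat := .move 756 n2647 (.cons 800 n3297 .nil)
noncomputable def n3800 : Strat := .move 801 n2024 (.cons 802 n3799 .nil)
noncomputable def n3801 : Strat := .move 761 n3729 (.cons 799 n2875 .nil)
noncomputable def n3802 : Strat := .move 798 n1838 (.cons 797 n3801 .nil)
noncomputable def n3803 : Strat := .move 757 n3800 (.cons 756 n3731 (.cons 798 n3499 (.cons 801 n3802 .nil)))
noncomputable def n3804 : Strat := .win 800 4 798
noncomputable def n3805 : Strat := .move 799 n3804 (.cons 800 n2865 .nil)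
noncomputable def n3806 : Strat := .move 801 n3740 (.cons 757 n3805 .nil)
noncomputable def n3807 : Strat := .move 802 n2866 (.cons 803 n3806 .nil)
noncomputable def n3808 : Strat := .move 802 n3715 (.cons 801 n2866 .nil)
noncomputable def n3809 : Strat := .move 800 n3716 (.cons 762 n3808 .nil)
noncomputable def n3810 : Strat := .move 799 n2865 (.cons 798 n3809 .nil)
noncomputable def n3811 : Strat := .move 762 n3693 (.cons 800 n3292 .nil)
noncomputable def n3812 : Strat := .move 799 n2865 (.cons 798 n3811 .nil)
noncomputable def n3813 : Strat := .move 757 n2874 (.cons 719 n2867 .nil)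
noncomputable def n3814 : Strat := .move 720 n2873 (.cons 721 n3813 .nil)
noncomputable def n3815 : Strat := .move 802 n2866 (.cons 803 n3814 .nil)
noncomputable def n3816 : Strat := .move 761 n3807 (.cons 757 n3810 (.cons 802 n3812 (.cons 799 n3815 .nil)))
noncomputable def n3817 : Strat := .win 842 1 678
noncomputable def n3818 : Strat := .win 638 1 637
noncomputable def n3819 : Strat := .move 679 n3817 (.cons 842 n3818 .nil)
noncomputable def n3820 : Strat := .move 801 n3805 (.cons 798 n3819 .nil)
noncomputable def n3821 : Strat := .move 720 n2873 (.cons 721 n3820 .nil)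
noncomputable def n3822 : Strat := .move 802 n2866 (.cons 803 n3821 .nil)
noncomputable def n3823 : Strat := .move 762 n3290 (.cons 722 n3286 .nil)
noncomputable def n3824 : Strat := .move 721 n3291 (.cons 720 n3823 .nil)
noncomputable def n3825 : Strat := .move 799 n2865 (.cons 798 n3824 .nil)
noncomputable def n3826 : Strat := .move 761 n3810 (.cons 802 n3812 (.cons 762 n3822 (.cons 800 n3825 (.cons 799 n3824 .nil))))
noncomputable def n3827 : Strat := .move 760 n3675 (.cons 800 n3688 (.cons 797 n3726 (.cons 718 n3732 (.cons 675 n3734 (.cons 798 n3738 (.cons 761 n3794 (.cons 802 n3798 (.cons 716 n3803 (.cons 756 n3816 (.cons 757 n3826 .nil))))))))))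
noncomputable def n3828 : Strat := .win 801 7 759
noncomputable def n3829 : Strat := .win 882 6 759
noncomputable def n3830 : Strat := .move 924 n3828 (.cons 801 n3829 .nil)
noncomputable def n3831 : Strat := .move 800 n418 (.cons 718 n3830 .nil)
noncomputable def n3832 : Strat := .move 883 n23 (.cons 884 n3831 .nil)
noncomputable def n3833 : Strat := .move 880 n311 (.cons 921 n424 .nil)
noncomputable def n3834 : Strat := .move 799 n480 (.cons 843 n3833 .nil)
noncomputable def n3835 : Strat := .move 798 n425 (.cons 797 n3834 .nil)
noncomputable def n3836 : Strat := .move 842 n3832 (.cons 882 n3835 .nil)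
noncomputable def n3837 : Strat := .move 921 n556 (.cons 962 n652 .nil)
noncomputable def n3838 : Strat := .move 922 n1881 (.cons 800 n3837 .nil)
noncomputable def n3839 : Strat := .move 799 n788 (.cons 718 n3838 .nil)
noncomputable def n3840 : Strat := .move 922 n2399 (.cons 882 n2755 .nil)
noncomputable def n3841 : Strat := .move 880 n554 (.cons 921 n3840 .nil)
noncomputable def n3842 : Strat := .move 799 n788 (.cons 718 n3841 .nil)
noncomputable def n3843 : Strat := .move 799 n1881 (.cons 800 n3837 .nil)
noncomputable def n3844 : Strat := .win 880 7 839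
noncomputable def n3845 : Strat := .win 882 3 840
noncomputable def n3846 : Strat := .move 1004 n3844 (.cons 880 n3845 .nil)
noncomputable def n3847 : Strat := .move 963 n203 (.cons 798 n3846 .nil)
noncomputable def n3848 : Strat := .win 799 3 758
noncomputable def n3849 : Strat := .move 800 n570 (.cons 882 n3848 .nil)
noncomputable def n3850 : Strat := .move 922 n3843 (.cons 800 n3847 (.cons 880 n3849 .nil))
noncomputable def n3851 : Strat := .move 883 n3167 (.cons 924 n185 .nil)
noncomputable def n3852 : Strat := .win 801 3 759
noncomputable def n3853 : Strat := .move 760 n3852 (.cons 801 n139 .nil)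
noncomputable def n3854 : Strat := .move 923 n1726 (.cons 799 n3853 .nil)
noncomputable def n3855 : Strat := .move 882 n3851 (.cons 884 n3854 .nil)
noncomputable def n3856 : Strat := .move 800 n120 (.cons 718 n3855 .nil)
noncomputable def n3857 : Strat := .move 881 n3839 (.cons 800 n3842 (.cons 718 n3850 (.cons 922 n3856 (.cons 799 n3076 .nil))))
noncomputable def n3858 : Strat := .move 880 n554 (.cons 921 n1498 .nil)
noncomputable def n3859 : Strat := .move 881 n788 (.cons 718 n3858 .nil)
noncomputable def n3860 : Strat := .move 881 n788 (.cons 718 n3840 .nil)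
noncomputable def n3861 : Strat := .move 881 n788 (.cons 718 n554 .nil)
noncomputable def n3862 : Strat := .move 880 n2745 (.cons 921 n3860 (.cons 881 n1029 (.cons 798 n3861 .nil)))
noncomputable def n3863 : Strat := .move 798 n2769 (.cons 842 n2400 .nil)
noncomputable def n3864 : Strat := .move 881 n788 (.cons 718 n3863 .nil)
noncomputable def n3865 : Strat := .move 798 n425 (.cons 797 n3833 .nil)
noncomputable def n3866 : Strat := .move 798 n311 (.cons 921 n480 .nil)
noncomputable def n3867 : Strat := .move 880 n424 (.cons 879 n3866 .nil)
noncomputable def n3868 : Strat := .move 842 n1364 (.cons 843 n3865 (.cons 797 n3867 (.cons 798 n3488 .nil)))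
noncomputable def n3869 : Strat := .move 799 n3859 (.cons 842 n3862 (.cons 880 n3864 (.cons 881 n3868 .nil)))
noncomputable def n3870 : Strat := .move 922 n570 (.cons 882 n3848 .nil)
noncomputable def n3871 : Strat := .move 881 n120 (.cons 718 n3870 .nil)
noncomputable def n3872 : Strat := .move 922 n123 (.cons 963 n908 .nil)
noncomputable def n3873 : Strat := .move 923 n969 (.cons 799 n3872 .nil)
noncomputable def n3874 : Strat := .move 799 n135 (.cons 923 n3169 .nil)
noncomputable def n3875 : Strat := .move 923 n969 (.cons 799 n3853 .nil)
noncomputable def n3876 : Strat := .move 882 n3873 (.cons 963 n3874 (.cons 923 n3169 (.cons 881 n3875 .nil)))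
noncomputable def n3877 : Strat := .move 802 n3242 (.cons 842 n2985 .nil)
noncomputable def n3878 : Strat := .move 842 n37 (.cons 802 n3359 .nil)
noncomputable def n3879 : Strat := .win 842 6 677
noncomputable def n3880 : Strat := .win 799 1 676
noncomputable def n3881 : Strat := .move 677 n3879 (.cons 842 n3880 .nil)
noncomputable def n3882 : Strat := .move 842 n3266 (.cons 677 n3265 .nil)
noncomputable def n3883 : Strat := .win 637 3 636
noncomputable def n3884 : Strat := .win 719 3 677
noncomputable def n3885 : Strat := .move 678 n3883 (.cons 637 n3884 .nil)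
noncomputable def n3886 : Strat := .move 677 n3880 (.cons 799 n3885 .nil)
noncomputable def n3887 : Strat := .move 882 n3382 (.cons 678 n3384 .nil)
noncomputable def n3888 : Strat := .move 718 n3881 (.cons 799 n3882 (.cons 842 n3886 (.cons 677 n3887 .nil)))
noncomputable def n3889 : Strat := .move 802 n2985 (.cons 803 n3741 .nil)
noncomputable def n3890 : Strat := .move 801 n3877 (.cons 803 n3878 (.cons 802 n3888 (.cons 842 n3889 .nil)))
noncomputable def n3891 : Strat := .move 800 n3871 (.cons 718 n3876 (.cons 799 n3269 (.cons 881 n3890 .nil)))
noncomputable def n3892 : Strat := .move 801 n419 (.cons 924 n37 .nil)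
noncomputable def n3893 : Strat := .move 800 n418 (.cons 718 n3892 .nil)
noncomputable def n3894 : Strat := .move 883 n23 (.cons 884 n3893 .nil)
noncomputable def n3895 : Strat := .move 842 n3835 (.cons 798 n3488 (.cons 843 n3894 .nil))
noncomputable def n3896 : Strat := .move 881 n788 (.cons 718 n3838 .nil)
noncomputable def n3897 : Strat := .move 797 n696 (.cons 842 n326 .nil)
noncomputable def n3898 : Strat := .move 842 n425 (.cons 797 n480 .nil)
noncomputable def n3899 : Strat := .move 842 n480 (.cons 843 n3833 .nil)
noncomputable def n3900 : Strat := .move 797 n326 (.cons 796 n2564 .nil)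
noncomputable def n3901 : Strat := .move 798 n3897 (.cons 796 n3898 (.cons 797 n3899 (.cons 842 n3900 .nil)))
noncomputable def n3902 : Strat := .move 718 n777 (.cons 881 n776 .nil)
noncomputable def n3903 : Strat := .move 881 n120 (.cons 718 n2372 .nil)
noncomputable def n3904 : Strat := .move 761 n3716 (.cons 762 n2865 .nil)
noncomputable def n3905 : Strat := .move 760 n139 (.cons 719 n3904 .nil)
noncomputable def n3906 : Strat := .move 882 n135 (.cons 923 n3905 .nil)
noncomputable def n3907 : Strat := .move 800 n3902 (.cons 677 n3903 (.cons 718 n3906 .nil))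
noncomputable def n3908 : Strat := .move 799 n3859 (.cons 879 n3896 (.cons 881 n3901 (.cons 880 n3907 .nil)))
noncomputable def n3909 : Strat := .move 843 n597 (.cons 803 n446 .nil)
noncomputable def n3910 : Strat := .move 802 n596 (.cons 801 n3909 .nil)
noncomputable def n3911 : Strat := .move 884 n445 (.cons 883 n3910 .nil)
noncomputable def n3912 : Strat := .move 800 n3133 (.cons 882 n3892 .nil)
noncomputable def n3913 : Strat := .move 883 n23 (.cons 884 n3912 .nil)
noncomputable def n3914 : Strat := .move 881 n1290 (.cons 880 n3911 (.cons 843 n3913 .nil))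
noncomputable def n3915 : Strat := .move 800 n120 (.cons 718 n3133 .nil)
noncomputable def n3916 : Strat := .move 881 n433 (.cons 843 n3915 .nil)
noncomputable def n3917 : Strat := .move 880 n424 (.cons 879 n3916 .nil)
noncomputable def n3918 : Strat := .move 842 n3832 (.cons 718 n3914 (.cons 883 n3917 (.cons 882 n3894 (.cons 800 n3216 .nil))))
noncomputable def n3919 : Strat := .move 798 n3897 (.cons 842 n3900 (.cons 797 n3899 .nil))
noncomputable def n3920 : Strat := .move 842 n424 (.cons 879 n425 .nil)
noncomputable def n3921 : Strat := .move 880 n311 (.cons 921 n3920 .nil)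
noncomputable def n3922 : Strat := .win 881 5 837
noncomputable def n3923 : Strat := .move 878 n3922 (.cons 881 n189 .nil)
noncomputable def n3924 : Strat := .move 879 n813 (.cons 842 n3923 .nil)
noncomputable def n3925 : Strat := .move 880 n311 (.cons 921 n3924 .nil)
noncomputable def n3926 : Strat := .move 798 n3897 (.cons 842 n3900 (.cons 796 n3921 (.cons 797 n3925 .nil)))
noncomputable def n3927 : Strat := .move 882 n135 (.cons 923 n3169 .nil)
noncomputable def n3928 : Strat := .move 719 n1366 (.cons 678 n3092 .nil)
noncomputable def n3929 : Strat := .move 760 n3904 (.cons 798 n3928 .nil)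
noncomputable def n3930 : Strat := .move 801 n279 (.cons 802 n3929 .nil)
noncomputable def n3931 : Strat := .move 798 n979 (.cons 843 n743 .nil)
noncomputable def n3932 : Strat := .move 842 n3931 (.cons 797 n1293 .nil)
noncomputable def n3933 : Strat := .move 801 n279 (.cons 802 n3932 .nil)
noncomputable def n3934 : Strat := .move 800 n3927 (.cons 884 n3906 (.cons 923 n3930 (.cons 882 n3933 .nil)))
noncomputable def n3935 : Strat := .move 921 n337 (.cons 962 n2744 .nil)
noncomputable def n3936 : Strat := .move 880 n424 (.cons 879 n3935 .nil)
noncomputable def n3937 : Strat := .move 842 n1364 (.cons 843 n3865 (.cons 798 n3936 .nil))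
noncomputable def n3938 : Strat := .move 922 n1881 (.cons 800 n2399 .nil)
noncomputable def n3939 : Strat := .move 881 n3858 (.cons 879 n3838 (.cons 880 n3938 .nil))
noncomputable def n3940 : Strat := .move 881 n119 (.cons 922 n3851 .nil)
noncomputable def n3941 : Strat := .move 800 n135 (.cons 923 n3940 .nil)
noncomputable def n3942 : Strat := .move 800 n135 (.cons 923 n3905 .nil)
noncomputable def n3943 : Strat := .move 800 n3940 (.cons 881 n3905 .nil)
noncomputable def n3944 : Strat := .move 882 n3941 (.cons 884 n3942 (.cons 923 n3943 (.cons 800 n664 .nil)))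
noncomputable def n3945 : Strat := .move 799 n3919 (.cons 843 n3926 (.cons 880 n3934 (.cons 760 n3937 (.cons 797 n3939 (.cons 842 n3944 .nil)))))
noncomputable def n3946 : Strat := .move 841 n3836 (.cons 842 n3857 (.cons 800 n3869 (.cons 798 n3891 (.cons 882 n3895 (.cons 884 n3908 (.cons 799 n3918 (.cons 718 n3945 .nil)))))))
noncomputable def n3947 : Strat := .move 881 n544 (.cons 716 n1867 .nil)
noncomputable def n3948 : Strat := .move 798 n2173 (.cons 796 n3947 .nil)
noncomputable def n3949 : Strat := .move 881 n2372 (.cons 922 n559 .nil)
noncomputable def n3950 : Strat := .move 799 n317 (.cons 755 n3949 .nil)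
noncomputable def n3951 : Strat := .move 800 n2013 (.cons 801 n3950 .nil)
noncomputable def n3952 : Strat := .move 760 n2667 (.cons 716 n2876 .nil)
noncomputable def n3953 : Strat := .move 715 n1776 (.cons 714 n3952 .nil)
noncomputable def n3954 : Strat := .move 755 n2272 (.cons 799 n2980 .nil)
noncomputable def n3955 : Strat := .move 800 n2013 (.cons 801 n3954 .nil)
noncomputable def n3956 : Strat := .move 799 n1693 (.cons 800 n2789 .nil)
noncomputable def n3957 : Strat := .move 755 n3956 (.cons 881 n2982 .nil)
noncomputable def n3958 : Strat := .move 716 n1777 (.cons 760 n3957 .nil)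
noncomputable def n3959 : Strat := .move 715 n1776 (.cons 714 n3958 .nil)
noncomputable def n3960 : Strat := .move 756 n3951 (.cons 800 n3953 (.cons 716 n3955 (.cons 801 n3959 .nil)))
noncomputable def n3961 : Strat := .move 675 n1752 (.cons 799 n2264 .nil)
noncomputable def n3962 : Strat := .move 716 n532 (.cons 881 n3961 .nil)
noncomputable def n3963 : Strat := .move 797 n1699 (.cons 796 n3572 .nil)
noncomputable def n3964 : Strat := .move 797 n1699 (.cons 796 n2156 .nil)
noncomputable def n3965 : Strat := .move 755 n2275 (.cons 795 n2271 .nil)
noncomputable def n3966 : Strat := .move 796 n2274 (.cons 797 n3965 .nil)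
noncomputable def n3967 : Strat := .move 756 n3963 (.cons 714 n3964 (.cons 797 n2183 (.cons 715 n3966 .nil)))
noncomputable def n3968 : Strat := .move 798 n3947 (.cons 880 n3962 (.cons 799 n3068 (.cons 716 n3967 .nil)))
noncomputable def n3969 : Strat := .move 756 n2647 (.cons 800 n2672 .nil)
noncomputable def n3970 : Strat := .move 801 n2024 (.cons 802 n3969 .nil)
noncomputable def n3971 : Strat := .move 756 n2647 (.cons 800 n2871 .nil)
noncomputable def n3972 : Strat := .move 801 n2024 (.cons 802 n3971 .nil)
noncomputable def n3973 : Strat := .move 760 n3091 (.cons 881 n3970 (.cons 716 n3972 .nil))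
noncomputable def n3974 : Strat := .move 760 n1838 (.cons 797 n3090 .nil)
noncomputable def n3975 : Strat := .move 760 n1838 (.cons 797 n3673 .nil)
noncomputable def n3976 : Strat := .win 799 5 755
noncomputable def n3977 : Strat := .move 796 n216 (.cons 795 n3976 .nil)
noncomputable def n3978 : Strat := .move 797 n760 (.cons 760 n3977 .nil)
noncomputable def n3979 : Strat := .move 798 n3947 (.cons 880 n3974 (.cons 881 n3975 (.cons 716 n3978 .nil)))
noncomputable def n3980 : Strat := .move 760 n3674 (.cons 798 n3728 (.cons 715 n3731 .nil))
noncomputable def n3981 : Strat := .move 755 n2272 (.cons 799 n2982 .nil)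
noncomputable def n3982 : Strat := .move 800 n2013 (.cons 801 n3981 .nil)
noncomputable def n3983 : Strat := .move 756 n3661 (.cons 798 n3955 (.cons 715 n3982 .nil))
noncomputable def n3984 : Strat := .move 922 n1881 (.cons 800 n1086 .nil)
noncomputable def n3985 : Strat := .move 799 n559 (.cons 716 n3984 .nil)
noncomputable def n3986 : Strat := .move 800 n2372 (.cons 922 n2014 .nil)
noncomputable def n3987 : Strat := .move 799 n559 (.cons 716 n3986 .nil)
noncomputable def n3988 : Strat := .win 798 6 716
noncomputable def n3989 : Strat := .win 799 7 716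
noncomputable def n3990 : Strat := .move 716 n3988 (.cons 798 n3989 .nil)
noncomputable def n3991 : Strat := .move 799 n1881 (.cons 800 n1086 .nil)
noncomputable def n3992 : Strat := .move 798 n1127 (.cons 880 n213 .nil)
noncomputable def n3993 : Strat := .move 922 n3991 (.cons 799 n3992 (.cons 798 n3843 .nil))
noncomputable def n3994 : Strat := .move 881 n3985 (.cons 799 n3666 (.cons 798 n3987 (.cons 922 n3990 (.cons 716 n3993 .nil))))
noncomputable def n3995 : Strat := .move 757 n3948 (.cons 798 n3960 (.cons 760 n3968 (.cons 799 n3973 (.cons 756 n3979 (.cons 881 n3980 (.cons 716 n3983 (.cons 797 n3994 .nil)))))))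
noncomputable def n3996 : Strat := .move 801 n2024 (.cons 802 n3681 .nil)
noncomputable def n3997 : Strat := .move 718 n2175 (.cons 756 n3996 .nil)
noncomputable def n3998 : Strat := .move 719 n2671 (.cons 720 n3997 .nil)
noncomputable def n3999 : Strat := .move 757 n3091 (.cons 798 n3998 .nil)
noncomputable def n4000 : Strat := .move 757 n1838 (.cons 797 n3090 .nil)
noncomputable def n4001 : Strat := .move 797 n1906 (.cons 757 n761 .nil)
noncomputable def n4002 : Strat := .move 799 n1837 (.cons 761 n4001 .nil)
noncomputable def n4003 : Strat := .move 881 n788 (.cons 718 n654 .nil)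
noncomputable def n4004 : Strat := .move 799 n1837 (.cons 761 n4003 .nil)
noncomputable def n4005 : Strat := .move 798 n4000 (.cons 716 n4002 (.cons 757 n4004 .nil))
noncomputable def n4006 : Strat := .move 799 n1837 (.cons 761 n533 .nil)
noncomputable def n4007 : Strat := .move 798 n1838 (.cons 797 n4006 .nil)
noncomputable def n4008 : Strat := .move 757 n3091 (.cons 715 n4007 (.cons 798 n3463 .nil))
noncomputable def n4009 : Strat := .move 881 n3988 (.cons 798 n3989 .nil)
noncomputable def n4010 : Strat := .move 716 n2977 (.cons 715 n4009 .nil)
noncomputable def n4011 : Strat := .move 757 n4010 (.cons 881 n3684 .nil)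
noncomputable def n4012 : Strat := .move 881 n650 (.cons 922 n788 .nil)
noncomputable def n4013 : Strat := .move 799 n1837 (.cons 761 n4012 .nil)
noncomputable def n4014 : Strat := .move 798 n1838 (.cons 797 n4013 .nil)
noncomputable def n4015 : Strat := .move 757 n4014 (.cons 881 n3731 (.cons 798 n3998 .nil))
noncomputable def n4016 : Strat := .move 881 n788 (.cons 718 n3321 .nil)
noncomputable def n4017 : Strat := .move 761 n2865 (.cons 798 n4016 .nil)
noncomputable def n4018 : Strat := .move 761 n2865 (.cons 798 n3824 .nil)
noncomputable def n4019 : Strat := .move 798 n1837 (.cons 761 n4003 .nil)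
noncomputable def n4020 : Strat := .move 881 n788 (.cons 718 n3841 .nil)
noncomputable def n4021 : Strat := .move 922 n556 (.cons 962 n2399 .nil)
noncomputable def n4022 : Strat := .move 921 n652 (.cons 880 n4021 .nil)
noncomputable def n4023 : Strat := .move 881 n788 (.cons 718 n4022 .nil)
noncomputable def n4024 : Strat := .move 799 n4017 (.cons 881 n4018 (.cons 720 n4019 (.cons 761 n4020 (.cons 798 n4023 .nil))))
noncomputable def n4025 : Strat := .move 761 n2866 (.cons 803 n3814 .nil)
noncomputable def n4026 : Strat := .win 841 5 798
noncomputable def n4027 : Strat := .win 679 1 678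
noncomputable def n4028 : Strat := .move 720 n4027 (.cons 679 n2873 .nil)
noncomputable def n4029 : Strat := .move 842 n4026 (.cons 841 n4028 .nil)
noncomputable def n4030 : Strat := .move 801 n3740 (.cons 757 n4029 .nil)
noncomputable def n4031 : Strat := .move 761 n2866 (.cons 803 n4030 .nil)
noncomputable def n4032 : Strat := .win 924 3 760
noncomputable def n4033 : Strat := .move 883 n947 (.cons 718 n4032 .nil)
noncomputable def n4034 : Strat := .move 842 n4026 (.cons 841 n4033 .nil)
noncomputable def n4035 : Strat := .move 801 n3740 (.cons 757 n4034 .nil)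
noncomputable def n4036 : Strat := .move 761 n2866 (.cons 803 n4035 .nil)
noncomputable def n4037 : Strat := .move 757 n2867 (.cons 801 n3737 .nil)
noncomputable def n4038 : Strat := .win 678 7 678
noncomputable def n4039 : Strat := .win 884 7 719
noncomputable def n4040 : Strat := .move 843 n4038 (.cons 678 n4039 .nil)
noncomputable def n4041 : Strat := .move 719 n3313 (.cons 757 n4040 .nil)
noncomputable def n4042 : Strat := .move 720 n2873 (.cons 721 n4041 .nil)
noncomputable def n4043 : Strat := .move 761 n2866 (.cons 803 n4042 .nil)
noncomputable def n4044 : Strat := .win 804 2 759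
noncomputable def n4045 : Strat := .move 803 n3361 (.cons 761 n4044 .nil)
noncomputable def n4046 : Strat := .move 761 n2866 (.cons 803 n4028 .nil)
noncomputable def n4047 : Strat := .move 842 n4026 (.cons 841 n4046 .nil)
noncomputable def n4048 : Strat := .move 761 n4032 (.cons 924 n588 .nil)
noncomputable def n4049 : Strat := .move 883 n947 (.cons 718 n4048 .nil)
noncomputable def n4050 : Strat := .move 842 n4026 (.cons 841 n4049 .nil)
noncomputable def n4051 : Strat := .move 677 n3748 (.cons 719 n3680 .nil)
noncomputable def n4052 : Strat := .move 718 n2542 (.cons 883 n4051 .nil)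
noncomputable def n4053 : Strat := .move 842 n4026 (.cons 841 n4052 .nil)
noncomputable def n4054 : Strat := .move 801 n4045 (.cons 804 n4047 (.cons 803 n4050 (.cons 761 n4053 .nil)))
noncomputable def n4055 : Strat := .move 802 n4025 (.cons 719 n4031 (.cons 720 n4036 (.cons 803 n4037 (.cons 801 n4043 (.cons 757 n4054 .nil)))))
noncomputable def n4056 : Strat := .move 760 n3999 (.cons 720 n4005 (.cons 718 n4008 (.cons 797 n4011 (.cons 716 n4015 (.cons 757 n4024 (.cons 881 n3688 (.cons 798 n4055 .nil)))))))
noncomputable def n4057 : Strat := .move 757 n3666 (.cons 798 n3667 .nil)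
noncomputable def n4058 : Strat := .move 757 n559 (.cons 716 n3634 .nil)
noncomputable def n4059 : Strat := .move 880 n554 (.cons 921 n4058 .nil)
noncomputable def n4060 : Strat := .move 922 n558 (.cons 798 n2399 .nil)
noncomputable def n4061 : Strat := .move 757 n559 (.cons 716 n4060 .nil)
noncomputable def n4062 : Strat := .move 880 n554 (.cons 921 n4061 .nil)
noncomputable def n4063 : Strat := .move 799 n3612 (.cons 922 n4059 (.cons 757 n3615 (.cons 800 n4062 .nil)))
noncomputable def n4064 : Strat := .move 799 n788 (.cons 718 n4059 .nil)
noncomputable def n4065 : Strat := .move 799 n788 (.cons 718 n4062 .nil)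
noncomputable def n4066 : Strat := .move 881 n3613 (.cons 799 n4057 (.cons 718 n4063 (.cons 922 n4064 (.cons 757 n3616 (.cons 800 n4065 .nil)))))
noncomputable def n4067 : Strat := .move 798 n650 (.cons 922 n2333 .nil)
noncomputable def n4068 : Strat := .move 757 n559 (.cons 716 n4067 .nil)
noncomputable def n4069 : Strat := .move 757 n559 (.cons 716 n2877 .nil)
noncomputable def n4070 : Strat := .move 799 n3612 (.cons 757 n2862 (.cons 800 n4068 (.cons 922 n4069 .nil)))
noncomputable def n4071 : Strat := .move 799 n788 (.cons 718 n2862 .nil)
noncomputable def n4072 : Strat := .move 799 n788 (.cons 718 n4069 .nil)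
noncomputable def n4073 : Strat := .move 798 n544 (.cons 716 n2008 .nil)
noncomputable def n4074 : Strat := .move 756 n2648 (.cons 800 n2696 .nil)
noncomputable def n4075 : Strat := .move 760 n2977 (.cons 715 n4074 .nil)
noncomputable def n4076 : Strat := .move 800 n2013 (.cons 801 n3622 .nil)
noncomputable def n4077 : Strat := .move 718 n1873 (.cons 719 n4076 .nil)
noncomputable def n4078 : Strat := .move 756 n4077 (.cons 718 n2983 .nil)
noncomputable def n4079 : Strat := .move 756 n2013 (.cons 801 n3623 .nil)
noncomputable def n4080 : Strat := .move 841 n120 (.cons 718 n3133 .nil)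
noncomputable def n4081 : Strat := .move 800 n4079 (.cons 756 n4080 (.cons 841 n2988 .nil))
noncomputable def n4082 : Strat := .move 760 n2977 (.cons 715 n2876 .nil)
noncomputable def n4083 : Strat := .move 715 n1777 (.cons 760 n3477 .nil)
noncomputable def n4084 : Strat := .move 716 n4075 (.cons 760 n4078 (.cons 715 n4081 (.cons 756 n4082 (.cons 801 n4083 .nil))))
noncomputable def n4085 : Strat := .move 760 n1838 (.cons 797 n4074 .nil)
noncomputable def n4086 : Strat := .move 841 n120 (.cons 718 n571 .nil)
noncomputable def n4087 : Strat := .move 800 n4079 (.cons 756 n4086 (.cons 841 n2988 .nil))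
noncomputable def n4088 : Strat := .move 756 n2194 (.cons 797 n4077 .nil)
noncomputable def n4089 : Strat := .move 798 n2008 (.cons 795 n4085 (.cons 797 n4087 (.cons 760 n4088 (.cons 756 n3025 .nil))))
noncomputable def n4090 : Strat := .move 798 n544 (.cons 716 n4085 .nil)
noncomputable def n4091 : Strat := .move 798 n544 (.cons 716 n4088 .nil)
noncomputable def n4092 : Strat := .move 798 n544 (.cons 716 n3025 .nil)
noncomputable def n4093 : Strat := .move 716 n3988 (.cons 798 n4075 .nil)
noncomputable def n4094 : Strat := .move 757 n4073 (.cons 798 n4084 (.cons 716 n4089 (.cons 795 n4090 (.cons 760 n4091 (.cons 756 n4092 (.cons 797 n4093 .nil))))))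
noncomputable def n4095 : Strat := .move 799 n788 (.cons 718 n4068 .nil)
noncomputable def n4096 : Strat := .move 881 n3613 (.cons 718 n4070 (.cons 757 n4071 (.cons 922 n4072 (.cons 799 n4094 (.cons 800 n4095 .nil)))))
noncomputable def n4097 : Strat := .move 797 n760 (.cons 760 n761 .nil)
noncomputable def n4098 : Strat := .move 880 n316 (.cons 715 n554 .nil)
noncomputable def n4099 : Strat := .move 756 n2750 (.cons 800 n4098 .nil)
noncomputable def n4100 : Strat := .move 798 n2333 (.cons 761 n4097 (.cons 797 n4099 .nil))
noncomputable def n4101 : Strat := .move 757 n559 (.cons 716 n4100 .nil)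
noncomputable def n4102 : Strat := .move 799 n788 (.cons 718 n4101 .nil)
noncomputable def n4103 : Strat := .move 798 n238 (.cons 922 n2333 .nil)
noncomputable def n4104 : Strat := .move 757 n559 (.cons 716 n4103 .nil)
noncomputable def n4105 : Strat := .move 880 n554 (.cons 921 n4104 .nil)
noncomputable def n4106 : Strat := .move 799 n788 (.cons 718 n4105 .nil)
noncomputable def n4107 : Strat := .move 799 n3612 (.cons 922 n4101 (.cons 757 n3615 (.cons 800 n4105 .nil)))
noncomputable def n4108 : Strat := .move 757 n544 (.cons 716 n3067 .nil)
noncomputable def n4109 : Strat := .move 757 n1127 (.cons 880 n2173 .nil)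
noncomputable def n4110 : Strat := .move 922 n213 (.cons 963 n4109 .nil)
noncomputable def n4111 : Strat := .move 800 n570 (.cons 882 n120 .nil)
noncomputable def n4112 : Strat := .move 842 n425 (.cons 797 n828 .nil)
noncomputable def n4113 : Strat := .move 841 n4111 (.cons 718 n4112 .nil)
noncomputable def n4114 : Strat := .move 922 n213 (.cons 963 n4113 .nil)
noncomputable def n4115 : Strat := .move 757 n544 (.cons 716 n2008 .nil)
noncomputable def n4116 : Strat := .move 798 n4108 (.cons 716 n4110 (.cons 757 n4114 (.cons 922 n4115 .nil)))
noncomputable def n4117 : Strat := .move 881 n3613 (.cons 922 n4102 (.cons 757 n3616 (.cons 800 n4106 (.cons 718 n4107 (.cons 799 n4116 .nil)))))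
noncomputable def n4118 : Strat := .move 881 n788 (.cons 718 n2828 .nil)
noncomputable def n4119 : Strat := .move 881 n788 (.cons 718 n4062 .nil)
noncomputable def n4120 : Strat := .move 881 n788 (.cons 718 n3615 .nil)
noncomputable def n4121 : Strat := .move 881 n788 (.cons 718 n4059 .nil)
noncomputable def n4122 : Strat := .move 881 n2828 (.cons 922 n4059 (.cons 757 n3615 (.cons 800 n4062 .nil)))
noncomputable def n4123 : Strat := .move 760 n3692 (.cons 801 n3695 (.cons 800 n3698 (.cons 761 n3706 (.cons 798 n3725 .nil))))
noncomputable def n4124 : Strat := .move 799 n4118 (.cons 800 n4119 (.cons 757 n4120 (.cons 922 n4121 (.cons 718 n4122 (.cons 881 n4123 .nil)))))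
noncomputable def n4125 : Strat := .win 760 3 759
noncomputable def n4126 : Strat := .move 923 n4125 (.cons 760 n969 .nil)
noncomputable def n4127 : Strat := .move 882 n4126 (.cons 799 n3383 (.cons 760 n3873 (.cons 923 n3260 .nil)))
noncomputable def n4128 : Strat := .move 801 n3877 (.cons 842 n3889 (.cons 802 n4127 .nil))
noncomputable def n4129 : Strat := .move 802 n3242 (.cons 842 n3741 .nil)
noncomputable def n4130 : Strat := .move 801 n3877 (.cons 842 n3889 (.cons 803 n4129 (.cons 802 n3888 .nil)))
noncomputable def n4131 : Strat := .move 800 n3871 (.cons 799 n3269 (.cons 718 n4128 (.cons 881 n4130 .nil)))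
noncomputable def n4132 : Strat := .move 800 n120 (.cons 718 n3870 .nil)
noncomputable def n4133 : Strat := .move 922 n880 (.cons 964 n556 .nil)
noncomputable def n4134 : Strat := .move 923 n1885 (.cons 882 n4133 .nil)
noncomputable def n4135 : Strat := .move 921 n652 (.cons 880 n4134 .nil)
noncomputable def n4136 : Strat := .move 799 n788 (.cons 718 n4135 .nil)
noncomputable def n4137 : Strat := .move 922 n3848 (.cons 799 n167 .nil)
noncomputable def n4138 : Strat := .move 800 n120 (.cons 718 n4137 .nil)
noncomputable def n4139 : Strat := .move 799 n559 (.cons 716 n2032 .nil)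
noncomputable def n4140 : Strat := .move 799 n559 (.cons 716 n655 .nil)
noncomputable def n4141 : Strat := .move 882 n4140 (.cons 923 n3851 .nil)
noncomputable def n4142 : Strat := .move 757 n4139 (.cons 799 n3415 (.cons 756 n4141 .nil))
noncomputable def n4143 : Strat := .move 800 n120 (.cons 718 n4142 .nil)
noncomputable def n4144 : Strat := .move 800 n3870 (.cons 922 n4142 (.cons 799 n571 (.cons 882 n4137 .nil)))
noncomputable def n4145 : Strat := .move 881 n4132 (.cons 799 n3076 (.cons 800 n4136 (.cons 882 n4138 (.cons 922 n4143 (.cons 718 n4144 .nil)))))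
noncomputable def n4146 : Strat := .move 757 n2026 (.cons 756 n559 .nil)
noncomputable def n4147 : Strat := .move 801 n279 (.cons 802 n4146 .nil)
noncomputable def n4148 : Strat := .move 800 n2372 (.cons 922 n4147 .nil)
noncomputable def n4149 : Strat := .move 799 n788 (.cons 718 n4148 .nil)
noncomputable def n4150 : Strat := .move 801 n3349 (.cons 842 n3383 .nil)
noncomputable def n4151 : Strat := .move 882 n119 (.cons 922 n4150 .nil)
noncomputable def n4152 : Strat := .move 800 n120 (.cons 718 n4151 .nil)
noncomputable def n4153 : Strat := .win 800 1 717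
noncomputable def n4154 : Strat := .move 718 n1874 (.cons 799 n4153 .nil)
noncomputable def n4155 : Strat := .move 879 n813 (.cons 842 n1335 .nil)
noncomputable def n4156 : Strat := .move 799 n554 (.cons 921 n3938 .nil)
noncomputable def n4157 : Strat := .move 880 n1277 (.cons 843 n4155 (.cons 842 n4156 .nil))
noncomputable def n4158 : Strat := .move 799 n788 (.cons 718 n3858 .nil)
noncomputable def n4159 : Strat := .move 881 n4149 (.cons 799 n4152 (.cons 922 n4154 (.cons 718 n4157 (.cons 800 n4158 .nil))))
noncomputable def n4160 : Strat := .move 799 n554 (.cons 921 n788 .nil)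
noncomputable def n4161 : Strat := .move 881 n433 (.cons 843 n4160 .nil)
noncomputable def n4162 : Strat := .move 880 n424 (.cons 879 n4161 .nil)
noncomputable def n4163 : Strat := .move 801 n37 (.cons 802 n3397 .nil)
noncomputable def n4164 : Strat := .move 842 n4162 (.cons 881 n3488 (.cons 843 n4163 .nil))
noncomputable def n4165 : Strat := .move 800 n119 (.cons 922 n3851 .nil)
noncomputable def n4166 : Strat := .move 882 n655 (.cons 923 n4165 .nil)
noncomputable def n4167 : Strat := .move 799 n788 (.cons 718 n4166 .nil)
noncomputable def n4168 : Strat := .move 880 n4155 (.cons 878 n1277 (.cons 879 n4156 .nil))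
noncomputable def n4169 : Strat := .move 881 n4167 (.cons 799 n3076 (.cons 922 n4154 (.cons 800 n4158 (.cons 718 n4168 .nil))))
noncomputable def n4170 : Strat := .move 801 n37 (.cons 802 n3376 .nil)
noncomputable def n4171 : Strat := .move 842 n4170 (.cons 800 n4162 (.cons 718 n3488 .nil))
noncomputable def n4172 : Strat := .move 924 n438 (.cons 965 n3829 .nil)
noncomputable def n4173 : Strat := .move 800 n418 (.cons 718 n4172 .nil)
noncomputable def n4174 : Strat := .move 883 n23 (.cons 884 n4173 .nil)
noncomputable def n4175 : Strat := .move 718 n3265 (.cons 883 n777 .nil)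
noncomputable def n4176 : Strat := .move 718 n3266 (.cons 677 n3265 .nil)
noncomputable def n4177 : Strat := .move 718 n3266 (.cons 677 n777 .nil)
noncomputable def n4178 : Strat := .move 881 n828 (.cons 879 n3133 .nil)
noncomputable def n4179 : Strat := .move 800 n4175 (.cons 881 n4176 (.cons 883 n4177 (.cons 718 n4178 .nil)))
noncomputable def n4180 : Strat := .move 801 n37 (.cons 802 n4179 .nil)
noncomputable def n4181 : Strat := .move 880 n427 (.cons 881 n424 .nil)
noncomputable def n4182 : Strat := .move 843 n597 (.cons 803 n4181 .nil)
noncomputable def n4183 : Strat := .move 802 n596 (.cons 801 n4182 .nil)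
noncomputable def n4184 : Strat := .move 842 n3832 (.cons 801 n4174 (.cons 884 n4180 (.cons 882 n4170 (.cons 800 n3488 (.cons 883 n4183 .nil)))))
noncomputable def n4185 : Strat := .move 801 n37 (.cons 802 n1293 .nil)
noncomputable def n4186 : Strat := .move 842 n828 (.cons 879 n4185 .nil)
noncomputable def n4187 : Strat := .move 881 n571 (.cons 882 n4186 .nil)
noncomputable def n4188 : Strat := .win 883 6 759
noncomputable def n4189 : Strat := .move 924 n126 (.cons 965 n4188 .nil)
noncomputable def n4190 : Strat := .move 923 n1726 (.cons 799 n4189 .nil)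
noncomputable def n4191 : Strat := .move 881 n119 (.cons 922 n4190 .nil)
noncomputable def n4192 : Strat := .move 923 n969 (.cons 799 n4189 .nil)
noncomputable def n4193 : Strat := .move 799 n554 (.cons 921 n655 .nil)
noncomputable def n4194 : Strat := .move 880 n4193 (.cons 923 n1498 .nil)
noncomputable def n4195 : Strat := .move 881 n119 (.cons 922 n4194 .nil)
noncomputable def n4196 : Strat := .move 882 n3169 (.cons 884 n4191 (.cons 881 n4192 (.cons 883 n4195 .nil)))
noncomputable def n4197 : Strat := .win 842 7 759
noncomputable def n4198 : Strat := .move 924 n4197 (.cons 842 n3829 .nil)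
noncomputable def n4199 : Strat := .move 842 n419 (.cons 924 n23 .nil)
noncomputable def n4200 : Strat := .move 882 n3167 (.cons 924 n4126 .nil)
noncomputable def n4201 : Strat := .win 885 2 840
noncomputable def n4202 : Strat := .move 884 n4201 (.cons 885 n3258 .nil)
noncomputable def n4203 : Strat := .move 882 n4126 (.cons 799 n3383 (.cons 760 n4202 .nil))
noncomputable def n4204 : Strat := .move 883 n4198 (.cons 882 n4199 (.cons 842 n4200 (.cons 924 n4203 .nil)))
noncomputable def n4205 : Strat := .move 801 n3877 (.cons 842 n3889 (.cons 802 n4204 .nil))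
noncomputable def n4206 : Strat := .move 881 n3870 (.cons 922 n4142 (.cons 799 n571 (.cons 882 n4137 .nil)))
noncomputable def n4207 : Strat := .move 757 n559 (.cons 716 n2026 .nil)
noncomputable def n4208 : Strat := .move 881 n2372 (.cons 922 n4207 .nil)
noncomputable def n4209 : Strat := .move 801 n279 (.cons 802 n4208 .nil)
noncomputable def n4210 : Strat := .move 882 n135 (.cons 923 n139 .nil)
noncomputable def n4211 : Strat := .move 761 n2866 (.cons 803 n3716 .nil)
noncomputable def n4212 : Strat := .move 760 n4210 (.cons 719 n4211 .nil)
noncomputable def n4213 : Strat := .move 802 n3715 (.cons 801 n4212 .nil)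
noncomputable def n4214 : Strat := .move 881 n2372 (.cons 922 n3858 .nil)
noncomputable def n4215 : Strat := .move 799 n4209 (.cons 716 n4213 (.cons 801 n4214 .nil))
noncomputable def n4216 : Strat := .move 922 n167 (.cons 963 n3848 .nil)
noncomputable def n4217 : Strat := .move 881 n4216 (.cons 799 n828 .nil)
noncomputable def n4218 : Strat := .move 801 n37 (.cons 802 n4217 .nil)
noncomputable def n4219 : Strat := .move 881 n433 (.cons 843 n4216 .nil)
noncomputable def n4220 : Strat := .move 880 n424 (.cons 879 n4219 .nil)
noncomputable def n4221 : Strat := .move 842 n4185 (.cons 924 n4218 (.cons 801 n4220 .nil))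
noncomputable def n4222 : Strat := .move 800 n4128 (.cons 799 n4187 (.cons 801 n4196 (.cons 881 n4205 (.cons 842 n4206 (.cons 883 n4215 (.cons 882 n4221 .nil))))))
noncomputable def n4223 : Strat := .move 800 n3266 (.cons 677 n3265 .nil)
noncomputable def n4224 : Strat := .win 800 6 677
noncomputable def n4225 : Strat := .win 760 6 636
noncomputable def n4226 : Strat := .win 799 1 635
noncomputable def n4227 : Strat := .move 636 n4225 (.cons 760 n4226 .nil)
noncomputable def n4228 : Strat := .move 677 n4224 (.cons 800 n4227 .nil)
noncomputable def n4229 : Strat := .move 883 n3373 (.cons 760 n3374 .nil)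
noncomputable def n4230 : Strat := .move 719 n942 (.cons 677 n936 .nil)
noncomputable def n4231 : Strat := .move 760 n2542 (.cons 883 n4230 .nil)
noncomputable def n4232 : Strat := .move 718 n4223 (.cons 883 n4228 (.cons 677 n4229 (.cons 800 n4231 .nil)))
noncomputable def n4233 : Strat := .move 801 n37 (.cons 802 n4232 .nil)
noncomputable def n4234 : Strat := .move 720 n937 (.cons 679 n3313 .nil)
noncomputable def n4235 : Strat := .move 719 n936 (.cons 882 n4234 .nil)
noncomputable def n4236 : Strat := .move 801 n37 (.cons 802 n4235 .nil)
noncomputable def n4237 : Strat := .move 801 n37 (.cons 802 n3760 .nil)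
noncomputable def n4238 : Strat := .move 721 n3768 (.cons 718 n3315 .nil)
noncomputable def n4239 : Strat := .move 720 n3313 (.cons 757 n4238 .nil)
noncomputable def n4240 : Strat := .move 719 n4239 (.cons 720 n3538 (.cons 718 n3317 .nil))
noncomputable def n4241 : Strat := .move 803 n3361 (.cons 761 n3360 .nil)
noncomputable def n4242 : Strat := .move 802 n596 (.cons 801 n4241 .nil)
noncomputable def n4243 : Strat := .move 760 n4236 (.cons 679 n4237 (.cons 801 n4240 (.cons 719 n4242 .nil)))
noncomputable def n4244 : Strat := .move 842 n4170 (.cons 801 n4174 (.cons 884 n4233 (.cons 800 n3488 (.cons 883 n4243 .nil))))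
noncomputable def n4245 : Strat := .move 841 n4131 (.cons 842 n4145 (.cons 924 n4159 (.cons 800 n4164 (.cons 801 n4169 (.cons 882 n4171 (.cons 799 n4184 (.cons 718 n4222 (.cons 881 n4244 .nil))))))))
noncomputable def n4246 : Strat := .move 759 n3639 (.cons 799 n3671 (.cons 881 n3827 (.cons 757 n3946 (.cons 718 n3995 (.cons 800 n4056 (.cons 760 n4066 (.cons 880 n4096 (.cons 801 n4117 (.cons 797 n4124 (.cons 798 n4245 .nil))))))))))
noncomputable def n4247 : Strat := .move 758 n2714 (.cons 754 n2743 (.cons 882 n2768 (.cons 718 n2815 (.cons 716 n2840 (.cons 757 n2846 (.cons 676 n2860 (.cons 880 n2888 (.cons 798 n2899 (.cons 759 n2904 (.cons 677 n2919 (.cons 800 n2932 (.cons 881 n2959 (.cons 799 n3611 (.cons 717 n4246 .nil))))))))))))))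
noncomputable def n4248 : Strat := .move 839 n106 (.cons 842 n415 (.cons 796 n578 (.cons 878 n671 (.cons 715 n709 (.cons 756 n799 (.cons 920 n891 (.cons 798 n957 (.cons 880 n994 (.cons 797 n1093 (.cons 879 n1189 (.cons 802 n1271 (.cons 837 n1389 (.cons 801 n1471 (.cons 883 n1531 (.cons 800 n1581 (.cons 882 n1617 (.cons 799 n1656 (.cons 881 n1674 (.cons 841 n2610 (.cons 838 n4247 .nil))))))))))))))))))))

end Vale.Agent.Snaky.R4_0
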