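import Vale.Agent.Snaky.Assemble

namespace Vale.Agent.Snaky.R4_1

open Vale.Agent.Snaky

noncomputable def n0 : Strat := .win 795 2 795
noncomputable def n1 : Strat := .win 797 2 796
noncomputable def n2 : Strat := .win 877 4 836
noncomputable def n3 : Strat := .win 879 4 837
noncomputable def n4 : Strat := .move 878 n2 (.cons 877 n3 .nil)
noncomputable def n5 : Strat := .move 841 n1 (.cons 797 n4 .nil)
noncomputable def n6 : Strat := .move 796 n0 (.cons 795 n5 .nil)
noncomputable def n7 : Strat := .win 800 5 796
noncomputable def n8 : Strat := .win 798 5 795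
noncomputable def n9 : Strat := .win 882 0 837
noncomputable def n10 : Strat := .win 880 0 836
noncomputable def n11 : Strat := .move 881 n9 (.cons 882 n10 .nil)
noncomputable def n12 : Strat := .move 836 n8 (.cons 798 n11 .nil)
noncomputable def n13 : Strat := .move 799 n7 (.cons 800 n12 .nil)
noncomputable def n14 : Strat := .move 837 n6 (.cons 879 n13 .nil)
noncomputable def n15 : Strat := .win 801 5 797
noncomputable def n16 : Strat := .win 883 0 838
noncomputable def n17 : Strat := .win 881 0 837
noncomputable def n18 : Strat := .win 799 5 796
noncomputable def n19 : Strat := .move 837 n17 (.cons 881 n18 .nil)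
noncomputable def n20 : Strat := .move 882 n16 (.cons 883 n19 .nil)
noncomputable def n21 : Strat := .move 800 n15 (.cons 801 n20 .nil)
noncomputable def n22 : Strat := .win 796 2 796
noncomputable def n23 : Strat := .win 798 2 797
noncomputable def n24 : Strat := .win 800 5 797
noncomputable def n25 : Strat := .win 802 5 798
noncomputable def n26 : Strat := .move 801 n24 (.cons 800 n25 .nil)
noncomputable def n27 : Strat := .move 842 n23 (.cons 798 n26 .nil)
noncomputable def n28 : Strat := .move 797 n22 (.cons 796 n27 .nil)
noncomputable def n29 : Strat := .win 878 4 837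
noncomputable def n30 : Strat := .win 880 4 838
noncomputable def n31 : Strat := .move 842 n23 (.cons 798 n30 .nil)
noncomputable def n32 : Strat := .move 797 n22 (.cons 796 n31 .nil)
noncomputable def n33 : Strat := .move 879 n29 (.cons 878 n32 .nil)
noncomputable def n34 : Strat := .move 841 n21 (.cons 881 n28 (.cons 800 n33 .nil))
noncomputable def n35 : Strat := .move 879 n29 (.cons 878 n30 .nil)
noncomputable def n36 : Strat := .move 842 n23 (.cons 798 n35 .nil)
noncomputable def n37 : Strat := .move 797 n22 (.cons 796 n36 .nil)
noncomputable def n38 : Strat := .move 837 n18 (.cons 799 n4 .nil)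
noncomputable def n39 : Strat := .move 800 n15 (.cons 801 n38 .nil)
noncomputable def n40 : Strat := .move 841 n37 (.cons 797 n39 (.cons 878 n28 .nil))
noncomputable def n41 : Strat := .move 799 n7 (.cons 800 n8 .nil)
noncomputable def n42 : Strat := .move 836 n10 (.cons 880 n41 .nil)
noncomputable def n43 : Strat := .move 881 n9 (.cons 882 n42 .nil)
noncomputable def n44 : Strat := .win 878 4 836
noncomputable def n45 : Strat := .win 876 4 835
noncomputable def n46 : Strat := .move 877 n44 (.cons 878 n45 .nil)
noncomputable def n47 : Strat := .move 836 n8 (.cons 798 n46 .nil)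
noncomputable def n48 : Strat := .move 799 n7 (.cons 800 n47 .nil)
noncomputable def n49 : Strat := .move 836 n10 (.cons 880 n46 .nil)
noncomputable def n50 : Strat := .move 881 n9 (.cons 882 n49 .nil)
noncomputable def n51 : Strat := .move 800 n18 (.cons 799 n15 .nil)
noncomputable def n52 : Strat := .move 841 n3 (.cons 879 n51 .nil)
noncomputable def n53 : Strat := .move 878 n2 (.cons 877 n52 .nil)
noncomputable def n54 : Strat := .move 837 n43 (.cons 881 n48 (.cons 800 n50 (.cons 836 n53 .nil)))
noncomputable def n55 : Strat := .win 841 4 837
noncomputable def n56 : Strat := .win 961 7 796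
noncomputable def n57 : Strat := .win 755 6 755
noncomputable def n58 : Strat := .move 920 n56 (.cons 961 n57 .nil)
noncomputable def n59 : Strat := .move 879 n55 (.cons 841 n58 .nil)
noncomputable def n60 : Strat := .move 878 n2 (.cons 877 n59 .nil)
noncomputable def n61 : Strat := .move 796 n0 (.cons 795 n60 .nil)
noncomputable def n62 : Strat := .win 796 2 795
noncomputable def n63 : Strat := .win 794 2 794
noncomputable def n64 : Strat := .move 795 n62 (.cons 796 n63 .nil)
noncomputable def n65 : Strat := .move 836 n10 (.cons 880 n64 .nil)
noncomputable def n66 : Strat := .move 881 n9 (.cons 882 n65 .nil)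
noncomputable def n67 : Strat := .move 837 n61 (.cons 796 n50 (.cons 878 n66 .nil))
noncomputable def n68 : Strat := .move 841 n1 (.cons 797 n51 .nil)
noncomputable def n69 : Strat := .move 796 n0 (.cons 795 n68 .nil)
noncomputable def n70 : Strat := .move 837 n13 (.cons 800 n66 (.cons 880 n69 .nil))
noncomputable def n71 : Strat := .move 836 n8 (.cons 798 n64 .nil)
noncomputable def n72 : Strat := .move 799 n7 (.cons 800 n71 .nil)
noncomputable def n73 : Strat := .win 920 6 755
noncomputable def n74 : Strat := .win 714 6 714
noncomputable def n75 : Strat := .move 879 n73 (.cons 920 n74 .nil)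
noncomputable def n76 : Strat := .win 919 3 755
noncomputable def n77 : Strat := .win 715 1 714
noncomputable def n78 : Strat := .move 756 n76 (.cons 919 n77 .nil)
noncomputable def n79 : Strat := .win 960 3 796
noncomputable def n80 : Strat := .win 756 3 755
noncomputable def n81 : Strat := .move 919 n79 (.cons 960 n80 .nil)
noncomputable def n82 : Strat := .win 798 2 754
noncomputable def n83 : Strat := .win 713 7 713
noncomputable def n84 : Strat := .move 754 n82 (.cons 798 n83 .nil)
noncomputable def n85 : Strat := .move 797 n78 (.cons 715 n81 (.cons 919 n84 .nil))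
noncomputable def n86 : Strat := .move 755 n75 (.cons 714 n85 .nil)
noncomputable def n87 : Strat := .move 799 n7 (.cons 800 n86 .nil)
noncomputable def n88 : Strat := .move 878 n2 (.cons 877 n87 .nil)
noncomputable def n89 : Strat := .move 796 n0 (.cons 795 n88 .nil)
noncomputable def n90 : Strat := .move 837 n13 (.cons 799 n66 (.cons 880 n72 (.cons 836 n89 .nil)))
noncomputable def n91 : Strat := .move 837 n6 (.cons 878 n69 (.cons 841 n72 (.cons 795 n53 .nil)))
noncomputable def n92 : Strat := .move 842 n30 (.cons 880 n26 .nil)
noncomputable def n93 : Strat := .move 879 n29 (.cons 878 n92 .nil)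
noncomputable def n94 : Strat := .win 921 6 756
noncomputable def n95 : Strat := .win 715 6 715
noncomputable def n96 : Strat := .move 880 n94 (.cons 921 n95 .nil)
noncomputable def n97 : Strat := .win 920 3 756
noncomputable def n98 : Strat := .win 716 1 715
noncomputable def n99 : Strat := .move 757 n97 (.cons 920 n98 .nil)
noncomputable def n100 : Strat := .win 961 3 797
noncomputable def n101 : Strat := .win 757 3 756
noncomputable def n102 : Strat := .move 920 n100 (.cons 961 n101 .nil)
noncomputable def n103 : Strat := .win 799 2 755
noncomputable def n104 : Strat := .win 714 7 714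
noncomputable def n105 : Strat := .move 755 n103 (.cons 799 n104 .nil)
noncomputable def n106 : Strat := .move 798 n99 (.cons 716 n102 (.cons 920 n105 .nil))
noncomputable def n107 : Strat := .move 756 n96 (.cons 715 n106 .nil)
noncomputable def n108 : Strat := .move 800 n15 (.cons 801 n107 .nil)
noncomputable def n109 : Strat := .move 879 n29 (.cons 878 n108 .nil)
noncomputable def n110 : Strat := .move 797 n22 (.cons 796 n109 .nil)
noncomputable def n111 : Strat := .move 841 n37 (.cons 797 n93 (.cons 880 n28 (.cons 842 n110 .nil)))
noncomputable def n112 : Strat := .move 838 n14 (.cons 836 n34 (.cons 881 n40 (.cons 796 n54 (.cons 800 n67 (.cons 878 n70 (.cons 841 n90 (.cons 880 n91 (.cons 837 n111 .nil))))))))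
noncomputable def n113 : Strat := .move 882 n16 (.cons 883 n17 .nil)
noncomputable def n114 : Strat := .move 837 n18 (.cons 799 n113 .nil)
noncomputable def n115 : Strat := .move 800 n15 (.cons 801 n114 .nil)
noncomputable def n116 : Strat := .move 797 n22 (.cons 796 n23 .nil)
noncomputable def n117 : Strat := .move 842 n30 (.cons 880 n116 .nil)
noncomputable def n118 : Strat := .move 879 n29 (.cons 878 n117 .nil)
noncomputable def n119 : Strat := .move 838 n115 (.cons 799 n118 .nil)
noncomputable def n120 : Strat := .win 797 2 797
noncomputable def n121 : Strat := .win 879 4 838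
noncomputable def n122 : Strat := .win 799 2 798
noncomputable def n123 : Strat := .win 881 4 839
noncomputable def n124 : Strat := .move 843 n122 (.cons 799 n123 .nil)
noncomputable def n125 : Strat := .move 880 n121 (.cons 879 n124 .nil)
noncomputable def n126 : Strat := .move 798 n120 (.cons 797 n125 .nil)
noncomputable def n127 : Strat := .win 843 4 839
noncomputable def n128 : Strat := .win 884 0 839
noncomputable def n129 : Strat := .win 966 6 801
noncomputable def n130 : Strat := .win 882 0 880
noncomputable def n131 : Strat := .move 925 n129 (.cons 966 n130 .nil)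
noncomputable def n132 : Strat := .win 759 7 759
noncomputable def n133 : Strat := .win 965 7 800
noncomputable def n134 : Strat := .move 800 n132 (.cons 759 n133 .nil)
noncomputable def n135 : Strat := .move 924 n131 (.cons 882 n134 .nil)
noncomputable def n136 : Strat := .move 801 n25 (.cons 802 n135 .nil)
noncomputable def n137 : Strat := .move 883 n128 (.cons 884 n136 .nil)
noncomputable def n138 : Strat := .move 881 n127 (.cons 843 n137 .nil)
noncomputable def n139 : Strat := .move 880 n121 (.cons 879 n138 .nil)
noncomputable def n140 : Strat := .win 843 2 798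
noncomputable def n141 : Strat := .win 923 1 759
noncomputable def n142 : Strat := .win 719 1 718
noncomputable def n143 : Strat := .move 882 n141 (.cons 923 n142 .nil)
noncomputable def n144 : Strat := .win 720 3 719
noncomputable def n145 : Strat := .win 800 5 757
noncomputable def n146 : Strat := .move 761 n144 (.cons 720 n145 .nil)
noncomputable def n147 : Strat := .move 760 n143 (.cons 719 n146 .nil)
noncomputable def n148 : Strat := .move 883 n128 (.cons 884 n147 .nil)
noncomputable def n149 : Strat := .move 801 n25 (.cons 802 n148 .nil)
noncomputable def n150 : Strat := .move 799 n140 (.cons 843 n149 .nil)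
noncomputable def n151 : Strat := .move 798 n120 (.cons 797 n150 .nil)
noncomputable def n152 : Strat := .win 922 6 757
noncomputable def n153 : Strat := .win 716 6 716
noncomputable def n154 : Strat := .move 881 n152 (.cons 922 n153 .nil)
noncomputable def n155 : Strat := .win 921 3 757
noncomputable def n156 : Strat := .win 717 1 716
noncomputable def n157 : Strat := .move 758 n155 (.cons 921 n156 .nil)
noncomputable def n158 : Strat := .win 962 3 798
noncomputable def n159 : Strat := .win 758 3 757
noncomputable def n160 : Strat := .move 921 n158 (.cons 962 n159 .nil)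
noncomputable def n161 : Strat := .win 800 2 756
noncomputable def n162 : Strat := .win 715 7 715
noncomputable def n163 : Strat := .move 756 n161 (.cons 800 n162 .nil)
noncomputable def n164 : Strat := .move 799 n157 (.cons 717 n160 (.cons 921 n163 .nil))
noncomputable def n165 : Strat := .move 757 n154 (.cons 716 n164 .nil)
noncomputable def n166 : Strat := .move 801 n25 (.cons 802 n165 .nil)
noncomputable def n167 : Strat := .move 880 n121 (.cons 879 n166 .nil)
noncomputable def n168 : Strat := .move 798 n120 (.cons 797 n167 .nil)
noncomputable def n169 : Strat := .move 842 n126 (.cons 798 n139 (.cons 880 n151 (.cons 843 n168 .nil)))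
noncomputable def n170 : Strat := .win 757 6 757
noncomputable def n171 : Strat := .win 963 7 798
noncomputable def n172 : Strat := .move 922 n170 (.cons 757 n171 .nil)
noncomputable def n173 : Strat := .move 881 n127 (.cons 843 n172 .nil)
noncomputable def n174 : Strat := .move 798 n120 (.cons 797 n173 .nil)
noncomputable def n175 : Strat := .move 880 n121 (.cons 879 n174 .nil)
noncomputable def n176 : Strat := .win 838 0 838
noncomputable def n177 : Strat := .move 760 n141 (.cons 923 n142 .nil)
noncomputable def n178 : Strat := .move 801 n25 (.cons 802 n177 .nil)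
noncomputable def n179 : Strat := .move 882 n176 (.cons 838 n178 .nil)
noncomputable def n180 : Strat := .move 883 n128 (.cons 884 n179 .nil)
noncomputable def n181 : Strat := .move 798 n120 (.cons 797 n180 .nil)
noncomputable def n182 : Strat := .move 881 n127 (.cons 843 n180 .nil)
noncomputable def n183 : Strat := .move 880 n121 (.cons 879 n182 .nil)
noncomputable def n184 : Strat := .move 842 n175 (.cons 880 n181 (.cons 798 n183 .nil))
noncomputable def n185 : Strat := .win 882 0 838
noncomputable def n186 : Strat := .move 883 n185 (.cons 882 n128 .nil)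
noncomputable def n187 : Strat := .move 842 n23 (.cons 798 n186 .nil)
noncomputable def n188 : Strat := .move 797 n22 (.cons 796 n187 .nil)
noncomputable def n189 : Strat := .move 796 n1 (.cons 797 n0 .nil)
noncomputable def n190 : Strat := .move 837 n18 (.cons 799 n189 .nil)
noncomputable def n191 : Strat := .move 800 n15 (.cons 801 n190 .nil)
noncomputable def n192 : Strat := .move 838 n115 (.cons 800 n188 (.cons 883 n191 .nil))
noncomputable def n193 : Strat := .move 837 n17 (.cons 881 n189 .nil)
noncomputable def n194 : Strat := .move 882 n16 (.cons 883 n193 .nil)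
noncomputable def n195 : Strat := .win 922 1 758
noncomputable def n196 : Strat := .win 718 1 717
noncomputable def n197 : Strat := .move 881 n195 (.cons 922 n196 .nil)
noncomputable def n198 : Strat := .win 923 7 758
noncomputable def n199 : Strat := .win 717 6 717
noncomputable def n200 : Strat := .move 758 n198 (.cons 923 n199 .nil)
noncomputable def n201 : Strat := .win 964 7 799
noncomputable def n202 : Strat := .win 758 7 758
noncomputable def n203 : Strat := .move 923 n201 (.cons 964 n202 .nil)
noncomputable def n204 : Strat := .win 798 5 756
noncomputable def n205 : Strat := .win 719 3 718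
noncomputable def n206 : Strat := .move 760 n204 (.cons 798 n205 .nil)
noncomputable def n207 : Strat := .move 799 n200 (.cons 717 n203 (.cons 923 n206 .nil))
noncomputable def n208 : Strat := .move 759 n197 (.cons 718 n207 .nil)
noncomputable def n209 : Strat := .move 797 n22 (.cons 796 n208 .nil)
noncomputable def n210 : Strat := .move 882 n16 (.cons 883 n209 .nil)
noncomputable def n211 : Strat := .move 800 n15 (.cons 801 n210 .nil)
noncomputable def n212 : Strat := .move 838 n115 (.cons 881 n191 (.cons 800 n194 (.cons 837 n211 .nil)))
noncomputable def n213 : Strat := .move 800 n15 (.cons 801 n18 .nil)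
noncomputable def n214 : Strat := .move 837 n17 (.cons 881 n213 .nil)
noncomputable def n215 : Strat := .move 882 n16 (.cons 883 n214 .nil)
noncomputable def n216 : Strat := .move 878 n3 (.cons 879 n2 .nil)
noncomputable def n217 : Strat := .move 837 n18 (.cons 799 n216 .nil)
noncomputable def n218 : Strat := .move 800 n15 (.cons 801 n217 .nil)
noncomputable def n219 : Strat := .move 838 n215 (.cons 882 n218 (.cons 800 n194 (.cons 837 n93 .nil)))
noncomputable def n220 : Strat := .move 879 n29 (.cons 878 n31 .nil)
noncomputable def n221 : Strat := .move 797 n22 (.cons 796 n220 .nil)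
noncomputable def n222 : Strat := .move 838 n28 (.cons 842 n191 (.cons 797 n218 (.cons 800 n221 .nil)))
noncomputable def n223 : Strat := .move 837 n17 (.cons 881 n216 .nil)
noncomputable def n224 : Strat := .move 882 n16 (.cons 883 n223 .nil)
noncomputable def n225 : Strat := .move 838 n115 (.cons 881 n218 (.cons 799 n93 (.cons 801 n224 .nil)))
noncomputable def n226 : Strat := .win 842 2 797
noncomputable def n227 : Strat := .move 757 n98 (.cons 716 n97 .nil)
noncomputable def n228 : Strat := .move 879 n29 (.cons 878 n227 .nil)
noncomputable def n229 : Strat := .move 798 n226 (.cons 842 n228 .nil)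
noncomputable def n230 : Strat := .move 797 n22 (.cons 796 n229 .nil)
noncomputable def n231 : Strat := .win 800 4 796
noncomputable def n232 : Strat := .win 836 5 795
noncomputable def n233 : Strat := .move 799 n231 (.cons 800 n232 .nil)
noncomputable def n234 : Strat := .win 835 5 794
noncomputable def n235 : Strat := .win 799 5 795
noncomputable def n236 : Strat := .move 836 n234 (.cons 835 n235 .nil)
noncomputable def n237 : Strat := .move 837 n233 (.cons 800 n236 (.cons 799 n113 .nil))
noncomputable def n238 : Strat := .move 798 n226 (.cons 842 n237 .nil)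
noncomputable def n239 : Strat := .move 797 n22 (.cons 796 n238 .nil)
noncomputable def n240 : Strat := .move 838 n230 (.cons 797 n224 (.cons 879 n239 .nil))
noncomputable def n241 : Strat := .move 841 n119 (.cons 838 n169 (.cons 800 n184 (.cons 879 n192 (.cons 842 n212 (.cons 798 n219 (.cons 881 n222 (.cons 797 n225 (.cons 801 n240 .nil))))))))
noncomputable def n242 : Strat := .move 838 n21 (.cons 881 n28 (.cons 800 n33 .nil))
noncomputable def n243 : Strat := .move 798 n226 (.cons 842 n227 .nil)
noncomputable def n244 : Strat := .move 879 n29 (.cons 878 n243 .nil)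
noncomputable def n245 : Strat := .move 797 n22 (.cons 796 n244 .nil)
noncomputable def n246 : Strat := .move 800 n15 (.cons 801 n19 .nil)
noncomputable def n247 : Strat := .move 882 n16 (.cons 883 n246 .nil)
noncomputable def n248 : Strat := .move 838 n245 (.cons 798 n247 .nil)
noncomputable def n249 : Strat := .win 837 0 837
noncomputable def n250 : Strat := .win 960 1 796
noncomputable def n251 : Strat := .win 880 4 878
noncomputable def n252 : Strat := .move 919 n250 (.cons 960 n251 .nil)
noncomputable def n253 : Strat := .move 798 n101 (.cons 757 n100 .nil)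
noncomputable def n254 : Strat := .move 920 n252 (.cons 880 n253 .nil)
noncomputable def n255 : Strat := .move 797 n22 (.cons 796 n254 .nil)
noncomputable def n256 : Strat := .move 879 n29 (.cons 878 n255 .nil)
noncomputable def n257 : Strat := .move 881 n249 (.cons 837 n256 .nil)
noncomputable def n258 : Strat := .move 882 n16 (.cons 883 n257 .nil)
noncomputable def n259 : Strat := .move 838 n21 (.cons 837 n110 (.cons 800 n258 .nil))
noncomputable def n260 : Strat := .move 838 n247 (.cons 799 n93 (.cons 801 n224 .nil))
noncomputable def n261 : Strat := .move 759 n195 (.cons 922 n196 .nil)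
noncomputable def n262 : Strat := .move 800 n15 (.cons 801 n261 .nil)
noncomputable def n263 : Strat := .move 881 n249 (.cons 837 n262 .nil)
noncomputable def n264 : Strat := .move 882 n16 (.cons 883 n263 .nil)
noncomputable def n265 : Strat := .move 797 n22 (.cons 796 n264 .nil)
noncomputable def n266 : Strat := .move 879 n29 (.cons 878 n265 .nil)
noncomputable def n267 : Strat := .move 838 n118 (.cons 798 n93 (.cons 880 n28 (.cons 842 n266 .nil)))
noncomputable def n268 : Strat := .win 837 5 796
noncomputable def n269 : Strat := .move 758 n199 (.cons 717 n198 .nil)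
noncomputable def n270 : Strat := .move 882 n16 (.cons 883 n269 .nil)
noncomputable def n271 : Strat := .move 799 n268 (.cons 837 n270 .nil)
noncomputable def n272 : Strat := .move 800 n15 (.cons 801 n271 .nil)
noncomputable def n273 : Strat := .move 838 n28 (.cons 800 n221 (.cons 842 n272 .nil))
noncomputable def n274 : Strat := .move 838 n24 (.cons 800 n116 .nil)
noncomputable def n275 : Strat := .move 801 n25 (.cons 802 n274 .nil)
noncomputable def n276 : Strat := .move 838 n24 (.cons 800 n35 .nil)
noncomputable def n277 : Strat := .move 801 n25 (.cons 802 n276 .nil)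
noncomputable def n278 : Strat := .move 842 n126 (.cons 881 n275 (.cons 798 n277 .nil))
noncomputable def n279 : Strat := .win 880 6 757
noncomputable def n280 : Strat := .move 757 n279 (.cons 880 n153 .nil)
noncomputable def n281 : Strat := .move 922 n171 (.cons 963 n280 .nil)
noncomputable def n282 : Strat := .move 881 n249 (.cons 837 n281 .nil)
noncomputable def n283 : Strat := .move 882 n16 (.cons 883 n282 .nil)
noncomputable def n284 : Strat := .move 798 n226 (.cons 842 n283 .nil)
noncomputable def n285 : Strat := .move 797 n22 (.cons 796 n284 .nil)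
noncomputable def n286 : Strat := .move 838 n221 (.cons 798 n224 (.cons 879 n285 .nil))
noncomputable def n287 : Strat := .move 838 n272 (.cons 801 n285 (.cons 837 n28 .nil))
noncomputable def n288 : Strat := .move 841 n242 (.cons 838 n169 (.cons 802 n248 (.cons 842 n259 (.cons 798 n260 (.cons 799 n267 (.cons 881 n273 (.cons 882 n278 (.cons 801 n286 (.cons 879 n287 .nil)))))))))
noncomputable def n289 : Strat := .move 837 n6 (.cons 879 n72 (.cons 796 n13 .nil))
noncomputable def n290 : Strat := .move 882 n17 (.cons 881 n16 .nil)
noncomputable def n291 : Strat := .move 837 n18 (.cons 799 n290 .nil)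
noncomputable def n292 : Strat := .move 800 n15 (.cons 801 n291 .nil)
noncomputable def n293 : Strat := .win 842 4 838
noncomputable def n294 : Strat := .win 756 6 756
noncomputable def n295 : Strat := .win 962 7 797
noncomputable def n296 : Strat := .move 921 n294 (.cons 756 n295 .nil)
noncomputable def n297 : Strat := .move 797 n22 (.cons 796 n296 .nil)
noncomputable def n298 : Strat := .move 880 n293 (.cons 842 n297 .nil)
noncomputable def n299 : Strat := .move 879 n29 (.cons 878 n298 .nil)
noncomputable def n300 : Strat := .move 841 n292 (.cons 881 n28 (.cons 801 n299 .nil))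
noncomputable def n301 : Strat := .move 841 n37 (.cons 798 n93 (.cons 879 n28 (.cons 842 n211 .nil)))
noncomputable def n302 : Strat := .move 837 n48 (.cons 836 n89 (.cons 800 n66 .nil))
noncomputable def n303 : Strat := .move 837 n50 (.cons 881 n53 (.cons 878 n43 .nil))
noncomputable def n304 : Strat := .move 796 n0 (.cons 795 n1 .nil)
noncomputable def n305 : Strat := .move 837 n17 (.cons 881 n304 .nil)
noncomputable def n306 : Strat := .move 882 n16 (.cons 883 n305 .nil)
noncomputable def n307 : Strat := .move 841 n93 (.cons 879 n188 (.cons 842 n306 .nil))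
noncomputable def n308 : Strat := .move 836 n10 (.cons 880 n8 .nil)
noncomputable def n309 : Strat := .move 881 n9 (.cons 882 n308 .nil)
noncomputable def n310 : Strat := .move 799 n7 (.cons 800 n309 .nil)
noncomputable def n311 : Strat := .move 841 n1 (.cons 797 n290 .nil)
noncomputable def n312 : Strat := .move 796 n0 (.cons 795 n311 .nil)
noncomputable def n313 : Strat := .move 837 n72 (.cons 794 n310 (.cons 799 n312 .nil))
noncomputable def n314 : Strat := .move 841 n28 (.cons 797 n39 (.cons 800 n37 .nil))
noncomputable def n315 : Strat := .move 841 n1 (.cons 797 n3 .nil)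
noncomputable def n316 : Strat := .move 878 n2 (.cons 877 n315 .nil)
noncomputable def n317 : Strat := .move 796 n0 (.cons 795 n316 .nil)
noncomputable def n318 : Strat := .win 836 0 836
noncomputable def n319 : Strat := .win 918 4 877
noncomputable def n320 : Strat := .win 756 1 755
noncomputable def n321 : Strat := .move 797 n320 (.cons 756 n79 .nil)
noncomputable def n322 : Strat := .move 919 n319 (.cons 918 n321 .nil)
noncomputable def n323 : Strat := .move 879 n55 (.cons 841 n322 .nil)
noncomputable def n324 : Strat := .move 880 n318 (.cons 836 n323 .nil)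
noncomputable def n325 : Strat := .move 881 n9 (.cons 882 n324 .nil)
noncomputable def n326 : Strat := .move 878 n2 (.cons 877 n325 .nil)
noncomputable def n327 : Strat := .move 837 n317 (.cons 841 n66 (.cons 796 n326 .nil))
noncomputable def n328 : Strat := .win 757 7 757
noncomputable def n329 : Strat := .move 922 n171 (.cons 963 n328 .nil)
noncomputable def n330 : Strat := .move 881 n9 (.cons 882 n329 .nil)
noncomputable def n331 : Strat := .move 798 n232 (.cons 836 n330 .nil)
noncomputable def n332 : Strat := .move 799 n7 (.cons 800 n331 .nil)
noncomputable def n333 : Strat := .move 878 n2 (.cons 877 n332 .nil)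
noncomputable def n334 : Strat := .move 796 n0 (.cons 795 n333 .nil)
noncomputable def n335 : Strat := .move 837 n6 (.cons 796 n53 (.cons 879 n69 (.cons 841 n334 .nil)))
noncomputable def n336 : Strat := .move 838 n289 (.cons 794 n300 (.cons 837 n301 (.cons 841 n302 (.cons 797 n303 (.cons 799 n307 (.cons 879 n313 (.cons 881 n314 (.cons 800 n327 (.cons 880 n335 .nil)))))))))
noncomputable def n337 : Strat := .move 838 n115 (.cons 881 n33 .nil)
noncomputable def n338 : Strat := .move 838 n191 (.cons 837 n28 (.cons 801 n194 (.cons 797 n115 .nil)))
noncomputable def n339 : Strat := .move 838 n118 (.cons 798 n93 (.cons 879 n194 .nil))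
noncomputable def n340 : Strat := .move 838 n33 (.cons 797 n218 (.cons 878 n28 .nil))
noncomputable def n341 : Strat := .move 838 n115 (.cons 837 n93 (.cons 801 n224 .nil))
noncomputable def n342 : Strat := .move 799 n201 (.cons 964 n202 .nil)
noncomputable def n343 : Strat := .win 799 7 799
noncomputable def n344 : Strat := .win 1004 1 840
noncomputable def n345 : Strat := .win 922 1 799
noncomputable def n346 : Strat := .move 963 n344 (.cons 1004 n345 .nil)
noncomputable def n347 : Strat := .move 964 n343 (.cons 799 n346 .nil)
noncomputable def n348 : Strat := .win 759 1 758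
noncomputable def n349 : Strat := .win 963 1 799
noncomputable def n350 : Strat := .move 922 n348 (.cons 759 n349 .nil)
noncomputable def n351 : Strat := .win 880 0 879
noncomputable def n352 : Strat := .win 965 6 800
noncomputable def n353 : Strat := .move 924 n351 (.cons 880 n352 .nil)
noncomputable def n354 : Strat := .move 881 n261 (.cons 718 n350 (.cons 922 n353 .nil))
noncomputable def n355 : Strat := .move 923 n342 (.cons 758 n347 (.cons 964 n354 .nil))
noncomputable def n356 : Strat := .move 879 n29 (.cons 878 n355 .nil)
noncomputable def n357 : Strat := .move 882 n16 (.cons 883 n356 .nil)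
noncomputable def n358 : Strat := .move 800 n15 (.cons 801 n357 .nil)
noncomputable def n359 : Strat := .move 838 n115 (.cons 800 n194 (.cons 882 n218 (.cons 837 n358 .nil)))
noncomputable def n360 : Strat := .move 798 n120 (.cons 797 n124 .nil)
noncomputable def n361 : Strat := .move 880 n121 (.cons 879 n360 .nil)
noncomputable def n362 : Strat := .move 800 n133 (.cons 965 n132 .nil)
noncomputable def n363 : Strat := .win 800 7 800
noncomputable def n364 : Strat := .win 1005 1 841
noncomputable def n365 : Strat := .win 923 1 800
noncomputable def n366 : Strat := .move 964 n364 (.cons 1005 n365 .nil)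
noncomputable def n367 : Strat := .move 965 n363 (.cons 800 n366 .nil)
noncomputable def n368 : Strat := .win 760 1 759
noncomputable def n369 : Strat := .win 964 1 800
noncomputable def n370 : Strat := .move 923 n368 (.cons 760 n369 .nil)
noncomputable def n371 : Strat := .win 881 0 880
noncomputable def n372 : Strat := .move 925 n371 (.cons 881 n129 .nil)
noncomputable def n373 : Strat := .move 882 n177 (.cons 719 n370 (.cons 923 n372 .nil))
noncomputable def n374 : Strat := .move 924 n362 (.cons 759 n367 (.cons 965 n373 .nil))
noncomputable def n375 : Strat := .move 880 n121 (.cons 879 n374 .nil)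
noncomputable def n376 : Strat := .move 883 n128 (.cons 884 n375 .nil)
noncomputable def n377 : Strat := .move 801 n25 (.cons 802 n376 .nil)
noncomputable def n378 : Strat := .move 842 n361 (.cons 798 n139 (.cons 843 n377 (.cons 880 n151 .nil)))
noncomputable def n379 : Strat := .move 798 n120 (.cons 797 n172 .nil)
noncomputable def n380 : Strat := .move 881 n127 (.cons 843 n379 .nil)
noncomputable def n381 : Strat := .move 880 n121 (.cons 879 n380 .nil)
noncomputable def n382 : Strat := .win 801 5 798
noncomputable def n383 : Strat := .win 803 5 799
noncomputable def n384 : Strat := .move 802 n382 (.cons 801 n383 .nil)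
noncomputable def n385 : Strat := .move 843 n122 (.cons 799 n384 .nil)
noncomputable def n386 : Strat := .move 798 n120 (.cons 797 n385 .nil)
noncomputable def n387 : Strat := .move 880 n121 (.cons 879 n181 .nil)
noncomputable def n388 : Strat := .move 842 n381 (.cons 963 n361 (.cons 879 n386 (.cons 843 n387 (.cons 798 n183 .nil))))
noncomputable def n389 : Strat := .win 919 4 878
noncomputable def n390 : Strat := .win 757 1 756
noncomputable def n391 : Strat := .move 798 n390 (.cons 757 n100 .nil)
noncomputable def n392 : Strat := .move 920 n389 (.cons 919 n391 .nil)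
noncomputable def n393 : Strat := .move 881 n249 (.cons 837 n392 .nil)
noncomputable def n394 : Strat := .move 882 n16 (.cons 883 n393 .nil)
noncomputable def n395 : Strat := .move 880 n293 (.cons 842 n394 .nil)
noncomputable def n396 : Strat := .move 879 n29 (.cons 878 n395 .nil)
noncomputable def n397 : Strat := .move 838 n396 (.cons 880 n194 (.cons 881 n33 .nil))
noncomputable def n398 : Strat := .move 841 n337 (.cons 880 n338 (.cons 799 n339 (.cons 881 n340 (.cons 797 n341 (.cons 842 n359 (.cons 838 n378 (.cons 800 n388 (.cons 801 n397 .nil))))))))
noncomputable def n399 : Strat := .move 837 n18 (.cons 799 n304 .nil)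
noncomputable def n400 : Strat := .move 800 n15 (.cons 801 n399 .nil)
noncomputable def n401 : Strat := .move 841 n245 (.cons 842 n39 (.cons 879 n400 .nil))
noncomputable def n402 : Strat := .win 841 2 796
noncomputable def n403 : Strat := .move 756 n77 (.cons 715 n76 .nil)
noncomputable def n404 : Strat := .move 797 n402 (.cons 841 n403 .nil)
noncomputable def n405 : Strat := .move 878 n2 (.cons 877 n404 .nil)
noncomputable def n406 : Strat := .move 796 n0 (.cons 795 n405 .nil)
noncomputable def n407 : Strat := .move 837 n72 (.cons 796 n13 (.cons 798 n406 .nil))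
noncomputable def n408 : Strat := .win 921 1 757
noncomputable def n409 : Strat := .move 758 n408 (.cons 921 n156 .nil)
noncomputable def n410 : Strat := .move 799 n7 (.cons 800 n409 .nil)
noncomputable def n411 : Strat := .move 880 n318 (.cons 836 n410 .nil)
noncomputable def n412 : Strat := .move 881 n9 (.cons 882 n411 .nil)
noncomputable def n413 : Strat := .move 796 n0 (.cons 795 n412 .nil)
noncomputable def n414 : Strat := .move 878 n2 (.cons 877 n413 .nil)
noncomputable def n415 : Strat := .move 797 n80 (.cons 756 n79 .nil)
noncomputable def n416 : Strat := .win 879 4 877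
noncomputable def n417 : Strat := .win 959 1 795
noncomputable def n418 : Strat := .move 918 n416 (.cons 879 n417 .nil)
noncomputable def n419 : Strat := .move 919 n415 (.cons 960 n418 .nil)
noncomputable def n420 : Strat := .move 880 n318 (.cons 836 n419 .nil)
noncomputable def n421 : Strat := .move 881 n9 (.cons 882 n420 .nil)
noncomputable def n422 : Strat := .move 796 n0 (.cons 795 n421 .nil)
noncomputable def n423 : Strat := .move 878 n2 (.cons 877 n422 .nil)
noncomputable def n424 : Strat := .move 837 n48 (.cons 798 n414 (.cons 799 n423 (.cons 877 n310 (.cons 836 n89 .nil))))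
noncomputable def n425 : Strat := .move 920 n57 (.cons 755 n56 .nil)
noncomputable def n426 : Strat := .move 796 n0 (.cons 795 n425 .nil)
noncomputable def n427 : Strat := .move 879 n55 (.cons 841 n426 .nil)
noncomputable def n428 : Strat := .move 878 n2 (.cons 877 n427 .nil)
noncomputable def n429 : Strat := .win 798 5 794
noncomputable def n430 : Strat := .win 834 5 793
noncomputable def n431 : Strat := .move 835 n429 (.cons 798 n430 .nil)
noncomputable def n432 : Strat := .move 836 n10 (.cons 880 n431 .nil)
noncomputable def n433 : Strat := .move 881 n9 (.cons 882 n432 .nil)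
noncomputable def n434 : Strat := .move 797 n402 (.cons 841 n433 .nil)
noncomputable def n435 : Strat := .move 796 n0 (.cons 795 n434 .nil)
noncomputable def n436 : Strat := .move 880 n318 (.cons 836 n322 .nil)
noncomputable def n437 : Strat := .move 881 n9 (.cons 882 n436 .nil)
noncomputable def n438 : Strat := .move 879 n55 (.cons 841 n437 .nil)
noncomputable def n439 : Strat := .move 878 n2 (.cons 877 n438 .nil)
noncomputable def n440 : Strat := .move 837 n428 (.cons 841 n423 (.cons 878 n435 (.cons 796 n439 .nil)))
noncomputable def n441 : Strat := .move 880 n408 (.cons 921 n156 .nil)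
noncomputable def n442 : Strat := .win 718 3 717
noncomputable def n443 : Strat := .win 798 5 755
noncomputable def n444 : Strat := .move 759 n442 (.cons 718 n443 .nil)
noncomputable def n445 : Strat := .move 758 n441 (.cons 717 n444 .nil)
noncomputable def n446 : Strat := .move 881 n9 (.cons 882 n445 .nil)
noncomputable def n447 : Strat := .move 799 n7 (.cons 800 n446 .nil)
noncomputable def n448 : Strat := .move 797 n402 (.cons 841 n447 .nil)
noncomputable def n449 : Strat := .move 796 n0 (.cons 795 n448 .nil)
noncomputable def n450 : Strat := .move 837 n13 (.cons 799 n435 (.cons 836 n449 (.cons 882 n72 (.cons 798 n413 .nil))))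
noncomputable def n451 : Strat := .move 837 n48 (.cons 798 n428 (.cons 877 n310 .nil))
noncomputable def n452 : Strat := .move 879 n55 (.cons 841 n425 .nil)
noncomputable def n453 : Strat := .move 796 n0 (.cons 795 n452 .nil)
noncomputable def n454 : Strat := .move 878 n2 (.cons 877 n453 .nil)
noncomputable def n455 : Strat := .move 879 n55 (.cons 841 n412 .nil)
noncomputable def n456 : Strat := .move 878 n2 (.cons 877 n455 .nil)
noncomputable def n457 : Strat := .move 837 n454 (.cons 878 n413 (.cons 796 n456 .nil))
noncomputable def n458 : Strat := .win 964 6 799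
noncomputable def n459 : Strat := .win 880 0 878
noncomputable def n460 : Strat := .move 923 n458 (.cons 964 n459 .nil)
noncomputable def n461 : Strat := .move 798 n328 (.cons 757 n171 .nil)
noncomputable def n462 : Strat := .move 922 n460 (.cons 880 n461 .nil)
noncomputable def n463 : Strat := .move 799 n7 (.cons 800 n462 .nil)
noncomputable def n464 : Strat := .move 881 n9 (.cons 882 n463 .nil)
noncomputable def n465 : Strat := .move 879 n55 (.cons 841 n464 .nil)
noncomputable def n466 : Strat := .move 878 n2 (.cons 877 n465 .nil)
noncomputable def n467 : Strat := .move 837 n13 (.cons 799 n439 (.cons 836 n466 (.cons 880 n48 .nil)))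
noncomputable def n468 : Strat := .win 755 2 755
noncomputable def n469 : Strat := .win 674 6 674
noncomputable def n470 : Strat := .win 880 6 715
noncomputable def n471 : Strat := .move 715 n469 (.cons 674 n470 .nil)
noncomputable def n472 : Strat := .move 756 n468 (.cons 755 n471 .nil)
noncomputable def n473 : Strat := .win 760 5 756
noncomputable def n474 : Strat := .win 677 1 676
noncomputable def n475 : Strat := .win 881 1 717
noncomputable def n476 : Strat := .move 718 n474 (.cons 677 n475 .nil)
noncomputable def n477 : Strat := .move 759 n473 (.cons 760 n476 .nil)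
noncomputable def n478 : Strat := .move 799 n472 (.cons 756 n477 .nil)
noncomputable def n479 : Strat := .move 800 n15 (.cons 801 n478 .nil)
noncomputable def n480 : Strat := .move 798 n226 (.cons 842 n479 .nil)
noncomputable def n481 : Strat := .move 797 n22 (.cons 796 n480 .nil)
noncomputable def n482 : Strat := .move 841 n221 (.cons 879 n481 (.cons 842 n110 (.cons 798 n299 (.cons 880 n230 (.cons 797 n93 .nil)))))
noncomputable def n483 : Strat := .move 838 n401 (.cons 879 n407 (.cons 841 n424 (.cons 799 n440 (.cons 878 n450 (.cons 797 n451 (.cons 798 n457 (.cons 796 n467 (.cons 837 n482 .nil))))))))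
noncomputable def n484 : Strat := .move 838 n37 (.cons 842 n21 .nil)
noncomputable def n485 : Strat := .win 798 2 755
noncomputable def n486 : Strat := .move 755 n104 (.cons 714 n485 .nil)
noncomputable def n487 : Strat := .move 756 n96 (.cons 715 n486 .nil)
noncomputable def n488 : Strat := .move 879 n29 (.cons 878 n487 .nil)
noncomputable def n489 : Strat := .move 797 n22 (.cons 796 n488 .nil)
noncomputable def n490 : Strat := .move 799 n268 (.cons 837 n489 .nil)
noncomputable def n491 : Strat := .move 800 n15 (.cons 801 n490 .nil)
noncomputable def n492 : Strat := .move 838 n21 (.cons 800 n258 (.cons 882 n491 (.cons 837 n211 .nil)))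
noncomputable def n493 : Strat := .move 838 n24 (.cons 800 n186 .nil)
noncomputable def n494 : Strat := .move 801 n25 (.cons 802 n493 .nil)
noncomputable def n495 : Strat := .win 920 4 879
noncomputable def n496 : Strat := .win 758 1 757
noncomputable def n497 : Strat := .move 799 n496 (.cons 758 n158 .nil)
noncomputable def n498 : Strat := .move 921 n495 (.cons 920 n497 .nil)
noncomputable def n499 : Strat := .move 881 n127 (.cons 843 n498 .nil)
noncomputable def n500 : Strat := .move 880 n121 (.cons 879 n499 .nil)
noncomputable def n501 : Strat := .move 882 n176 (.cons 838 n500 .nil)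
noncomputable def n502 : Strat := .move 883 n128 (.cons 884 n501 .nil)
noncomputable def n503 : Strat := .move 842 n494 (.cons 838 n139 (.cons 883 n277 (.cons 802 n502 .nil)))
noncomputable def n504 : Strat := .move 756 n94 (.cons 921 n95 .nil)
noncomputable def n505 : Strat := .move 797 n22 (.cons 796 n504 .nil)
noncomputable def n506 : Strat := .move 880 n293 (.cons 842 n505 .nil)
noncomputable def n507 : Strat := .move 879 n29 (.cons 878 n506 .nil)
noncomputable def n508 : Strat := .move 881 n249 (.cons 837 n507 .nil)
noncomputable def n509 : Strat := .move 882 n16 (.cons 883 n508 .nil)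
noncomputable def n510 : Strat := .move 838 n37 (.cons 842 n258 (.cons 879 n188 (.cons 796 n396 (.cons 798 n509 .nil))))
noncomputable def n511 : Strat := .win 838 5 797
noncomputable def n512 : Strat := .win 718 6 718
noncomputable def n513 : Strat := .win 924 7 759
noncomputable def n514 : Strat := .move 759 n512 (.cons 718 n513 .nil)
noncomputable def n515 : Strat := .move 883 n128 (.cons 884 n514 .nil)
noncomputable def n516 : Strat := .move 800 n511 (.cons 838 n515 .nil)
noncomputable def n517 : Strat := .move 801 n25 (.cons 802 n516 .nil)
noncomputable def n518 : Strat := .win 843 0 798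
noncomputable def n519 : Strat := .win 756 2 756
noncomputable def n520 : Strat := .win 675 6 675
noncomputable def n521 : Strat := .win 881 6 716
noncomputable def n522 : Strat := .move 716 n520 (.cons 675 n521 .nil)
noncomputable def n523 : Strat := .move 757 n519 (.cons 756 n522 .nil)
noncomputable def n524 : Strat := .move 799 n518 (.cons 843 n523 .nil)
noncomputable def n525 : Strat := .move 798 n120 (.cons 797 n524 .nil)
noncomputable def n526 : Strat := .move 800 n511 (.cons 838 n525 .nil)
noncomputable def n527 : Strat := .move 801 n25 (.cons 802 n526 .nil)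
noncomputable def n528 : Strat := .move 837 n7 (.cons 800 n232 .nil)
noncomputable def n529 : Strat := .move 838 n185 (.cons 882 n528 .nil)
noncomputable def n530 : Strat := .move 883 n128 (.cons 884 n529 .nil)
noncomputable def n531 : Strat := .move 799 n140 (.cons 843 n530 .nil)
noncomputable def n532 : Strat := .move 798 n120 (.cons 797 n531 .nil)
noncomputable def n533 : Strat := .move 842 n517 (.cons 838 n151 (.cons 800 n181 (.cons 884 n527 (.cons 801 n532 .nil))))
noncomputable def n534 : Strat := .move 800 n15 (.cons 801 n507 .nil)
noncomputable def n535 : Strat := .win 837 4 796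
noncomputable def n536 : Strat := .move 799 n535 (.cons 837 n472 .nil)
noncomputable def n537 : Strat := .move 800 n15 (.cons 801 n536 .nil)
noncomputable def n538 : Strat := .move 798 n226 (.cons 842 n537 .nil)
noncomputable def n539 : Strat := .move 797 n22 (.cons 796 n538 .nil)
noncomputable def n540 : Strat := .win 844 2 799
noncomputable def n541 : Strat := .win 798 2 798
noncomputable def n542 : Strat := .move 843 n540 (.cons 844 n541 .nil)
noncomputable def n543 : Strat := .move 842 n30 (.cons 880 n542 .nil)
noncomputable def n544 : Strat := .move 879 n29 (.cons 878 n543 .nil)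
noncomputable def n545 : Strat := .move 799 n268 (.cons 837 n544 .nil)
noncomputable def n546 : Strat := .move 800 n15 (.cons 801 n545 .nil)
noncomputable def n547 : Strat := .move 838 n230 (.cons 842 n491 (.cons 798 n534 (.cons 878 n539 (.cons 797 n546 .nil))))
noncomputable def n548 : Strat := .move 841 n484 (.cons 838 n169 (.cons 842 n492 (.cons 798 n503 (.cons 800 n510 (.cons 880 n533 (.cons 882 n547 .nil))))))
noncomputable def n549 : Strat := .move 879 n29 (.cons 878 n99 .nil)
noncomputable def n550 : Strat := .move 798 n226 (.cons 842 n549 .nil)
noncomputable def n551 : Strat := .move 797 n22 (.cons 796 n550 .nil)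
noncomputable def n552 : Strat := .move 882 n16 (.cons 883 n551 .nil)
noncomputable def n553 : Strat := .move 800 n15 (.cons 801 n552 .nil)
noncomputable def n554 : Strat := .move 841 n292 (.cons 882 n39 (.cons 801 n306 (.cons 837 n553 .nil)))
noncomputable def n555 : Strat := .move 881 n196 (.cons 718 n195 .nil)
noncomputable def n556 : Strat := .win 678 3 677
noncomputable def n557 : Strat := .win 760 3 718
noncomputable def n558 : Strat := .move 719 n556 (.cons 678 n557 .nil)
noncomputable def n559 : Strat := .move 718 n475 (.cons 881 n558 .nil)
noncomputable def n560 : Strat := .win 758 7 717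
noncomputable def n561 : Strat := .win 676 7 676
noncomputable def n562 : Strat := .move 718 n561 (.cons 676 n558 .nil)
noncomputable def n563 : Strat := .move 717 n560 (.cons 758 n562 .nil)
noncomputable def n564 : Strat := .win 881 1 758
noncomputable def n565 : Strat := .win 799 7 758
noncomputable def n566 : Strat := .win 717 7 717
noncomputable def n567 : Strat := .move 758 n565 (.cons 799 n566 .nil)
noncomputable def n568 : Strat := .move 923 n349 (.cons 963 n567 .nil)
noncomputable def n569 : Strat := .move 922 n564 (.cons 881 n568 .nil)
noncomputable def n570 : Strat := .move 759 n555 (.cons 922 n559 (.cons 881 n563 (.cons 718 n569 .nil)))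
noncomputable def n571 : Strat := .move 882 n16 (.cons 883 n570 .nil)
noncomputable def n572 : Strat := .move 800 n15 (.cons 801 n571 .nil)
noncomputable def n573 : Strat := .move 841 n28 (.cons 842 n211 (.cons 800 n188 (.cons 798 n572 .nil)))
noncomputable def n574 : Strat := .win 922 7 757
noncomputable def n575 : Strat := .move 757 n153 (.cons 716 n574 .nil)
noncomputable def n576 : Strat := .move 881 n9 (.cons 882 n575 .nil)
noncomputable def n577 : Strat := .move 798 n232 (.cons 836 n576 .nil)
noncomputable def n578 : Strat := .move 799 n7 (.cons 800 n577 .nil)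
noncomputable def n579 : Strat := .move 879 n74 (.cons 714 n73 .nil)
noncomputable def n580 : Strat := .win 756 3 714
noncomputable def n581 : Strat := .win 674 3 673
noncomputable def n582 : Strat := .win 672 7 672
noncomputable def n583 : Strat := .win 754 7 713
noncomputable def n584 : Strat := .move 713 n582 (.cons 672 n583 .nil)
noncomputable def n585 : Strat := .move 714 n581 (.cons 674 n584 .nil)
noncomputable def n586 : Strat := .move 715 n580 (.cons 756 n585 .nil)
noncomputable def n587 : Strat := .win 879 6 755
noncomputable def n588 : Strat := .win 961 6 796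
noncomputable def n589 : Strat := .win 797 3 755
noncomputable def n590 : Strat := .win 715 3 714
noncomputable def n591 : Strat := .move 756 n589 (.cons 797 n590 .nil)
noncomputable def n592 : Strat := .move 919 n588 (.cons 961 n591 .nil)
noncomputable def n593 : Strat := .move 920 n587 (.cons 879 n592 .nil)
noncomputable def n594 : Strat := .move 755 n579 (.cons 879 n586 (.cons 714 n593 .nil))
noncomputable def n595 : Strat := .move 878 n2 (.cons 877 n594 .nil)
noncomputable def n596 : Strat := .move 796 n0 (.cons 795 n595 .nil)
noncomputable def n597 : Strat := .move 837 n72 (.cons 795 n578 (.cons 836 n89 (.cons 799 n596 .nil)))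
noncomputable def n598 : Strat := .move 798 n232 (.cons 836 n575 .nil)
noncomputable def n599 : Strat := .move 881 n9 (.cons 882 n598 .nil)
noncomputable def n600 : Strat := .move 799 n7 (.cons 800 n599 .nil)
noncomputable def n601 : Strat := .move 841 n3 (.cons 879 n290 .nil)
noncomputable def n602 : Strat := .move 878 n2 (.cons 877 n601 .nil)
noncomputable def n603 : Strat := .move 837 n48 (.cons 876 n600 (.cons 799 n602 .nil))
noncomputable def n604 : Strat := .move 837 n17 (.cons 881 n4 .nil)
noncomputable def n605 : Strat := .move 882 n16 (.cons 883 n604 .nil)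
noncomputable def n606 : Strat := .move 841 n28 (.cons 797 n605 .nil)
noncomputable def n607 : Strat := .move 837 n317 (.cons 879 n69 (.cons 796 n53 (.cons 841 n596 .nil)))
noncomputable def n608 : Strat := .move 841 n230 (.cons 842 n306 (.cons 797 n605 .nil))
noncomputable def n609 : Strat := .move 838 n91 (.cons 794 n554 (.cons 837 n573 (.cons 841 n597 (.cons 797 n603 (.cons 799 n606 (.cons 798 n607 (.cons 800 n608 .nil)))))))
noncomputable def n610 : Strat := .move 838 n37 (.cons 797 n93 (.cons 880 n28 (.cons 842 n110 .nil)))
noncomputable def n611 : Strat := .move 838 n28 (.cons 842 n211 (.cons 800 n188 (.cons 798 n572 .nil)))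
noncomputable def n612 : Strat := .move 798 n100 (.cons 961 n101 .nil)
noncomputable def n613 : Strat := .win 798 3 797
noncomputable def n614 : Strat := .win 1001 1 837
noncomputable def n615 : Strat := .win 919 1 796
noncomputable def n616 : Strat := .move 960 n614 (.cons 1001 n615 .nil)
noncomputable def n617 : Strat := .move 961 n613 (.cons 798 n616 .nil)
noncomputable def n618 : Strat := .win 962 6 797
noncomputable def n619 : Strat := .move 921 n294 (.cons 756 n618 .nil)
noncomputable def n620 : Strat := .win 881 4 878
noncomputable def n621 : Strat := .move 919 n620 (.cons 881 n250 .nil)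
noncomputable def n622 : Strat := .move 880 n504 (.cons 715 n619 (.cons 921 n621 .nil))
noncomputable def n623 : Strat := .move 920 n612 (.cons 757 n617 (.cons 961 n622 .nil))
noncomputable def n624 : Strat := .move 882 n16 (.cons 883 n623 .nil)
noncomputable def n625 : Strat := .move 879 n29 (.cons 878 n624 .nil)
noncomputable def n626 : Strat := .move 797 n22 (.cons 796 n625 .nil)
noncomputable def n627 : Strat := .move 838 n110 (.cons 796 n358 (.cons 880 n211 (.cons 801 n626 .nil)))
noncomputable def n628 : Strat := .move 842 n126 (.cons 799 n381 (.cons 798 n139 (.cons 880 n151 (.cons 843 n168 .nil))))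
noncomputable def n629 : Strat := .move 842 n30 (.cons 880 n186 .nil)
noncomputable def n630 : Strat := .move 879 n29 (.cons 878 n629 .nil)
noncomputable def n631 : Strat := .move 838 n93 (.cons 880 n572 (.cons 800 n630 .nil))
noncomputable def n632 : Strat := .move 842 n361 (.cons 880 n181 (.cons 797 n183 .nil))
noncomputable def n633 : Strat := .move 838 n185 (.cons 882 n24 .nil)
noncomputable def n634 : Strat := .move 883 n128 (.cons 884 n633 .nil)
noncomputable def n635 : Strat := .move 801 n25 (.cons 802 n634 .nil)
noncomputable def n636 : Strat := .move 842 n635 (.cons 838 n381 .nil)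
noncomputable def n637 : Strat := .move 798 n120 (.cons 797 n122 .nil)
noncomputable def n638 : Strat := .move 843 n123 (.cons 881 n637 .nil)
noncomputable def n639 : Strat := .move 880 n121 (.cons 879 n638 .nil)
noncomputable def n640 : Strat := .move 758 n156 (.cons 717 n155 .nil)
noncomputable def n641 : Strat := .move 880 n121 (.cons 879 n640 .nil)
noncomputable def n642 : Strat := .move 799 n140 (.cons 843 n641 .nil)
noncomputable def n643 : Strat := .move 798 n120 (.cons 797 n642 .nil)
noncomputable def n644 : Strat := .win 881 6 758
noncomputable def n645 : Strat := .move 923 n644 (.cons 881 n201 .nil)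
noncomputable def n646 : Strat := .move 758 n199 (.cons 717 n645 .nil)
noncomputable def n647 : Strat := .move 882 n176 (.cons 838 n646 .nil)
noncomputable def n648 : Strat := .move 883 n128 (.cons 884 n647 .nil)
noncomputable def n649 : Strat := .move 799 n140 (.cons 843 n648 .nil)
noncomputable def n650 : Strat := .move 798 n120 (.cons 797 n649 .nil)
noncomputable def n651 : Strat := .move 882 n176 (.cons 838 n498 .nil)
noncomputable def n652 : Strat := .move 883 n128 (.cons 884 n651 .nil)
noncomputable def n653 : Strat := .move 881 n127 (.cons 843 n652 .nil)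
noncomputable def n654 : Strat := .move 880 n121 (.cons 879 n653 .nil)
noncomputable def n655 : Strat := .move 799 n159 (.cons 758 n158 .nil)
noncomputable def n656 : Strat := .win 881 4 879
noncomputable def n657 : Strat := .win 961 1 797
noncomputable def n658 : Strat := .move 920 n656 (.cons 881 n657 .nil)
noncomputable def n659 : Strat := .move 921 n655 (.cons 962 n658 .nil)
noncomputable def n660 : Strat := .move 882 n176 (.cons 838 n659 .nil)
noncomputable def n661 : Strat := .move 883 n128 (.cons 884 n660 .nil)
noncomputable def n662 : Strat := .move 798 n120 (.cons 797 n661 .nil)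
noncomputable def n663 : Strat := .move 880 n121 (.cons 879 n662 .nil)
noncomputable def n664 : Strat := .move 842 n175 (.cons 757 n639 (.cons 881 n643 (.cons 880 n650 (.cons 798 n654 (.cons 843 n663 .nil)))))
noncomputable def n665 : Strat := .move 841 n610 (.cons 880 n611 (.cons 842 n627 (.cons 838 n628 (.cons 798 n631 (.cons 800 n632 (.cons 799 n636 (.cons 801 n664 .nil)))))))
noncomputable def n666 : Strat := .move 841 n3 (.cons 879 n304 .nil)
noncomputable def n667 : Strat := .move 878 n2 (.cons 877 n666 .nil)
noncomputable def n668 : Strat := .move 837 n13 (.cons 798 n667 .nil)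
noncomputable def n669 : Strat := .move 841 n21 (.cons 881 n28 (.cons 800 n37 .nil))
noncomputable def n670 : Strat := .move 841 n28 (.cons 802 n37 (.cons 796 n93 (.cons 842 n211 .nil)))
noncomputable def n671 : Strat := .move 798 n171 (.cons 963 n328 .nil)
noncomputable def n672 : Strat := .win 798 7 798
noncomputable def n673 : Strat := .win 1003 1 839
noncomputable def n674 : Strat := .win 921 1 798
noncomputable def n675 : Strat := .move 962 n673 (.cons 1003 n674 .nil)
noncomputable def n676 : Strat := .move 963 n672 (.cons 798 n675 .nil)
noncomputable def n677 : Strat := .win 962 1 798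
noncomputable def n678 : Strat := .move 921 n496 (.cons 758 n677 .nil)
noncomputable def n679 : Strat := .win 879 0 878
noncomputable def n680 : Strat := .move 923 n679 (.cons 879 n458 .nil)
noncomputable def n681 : Strat := .move 880 n409 (.cons 717 n678 (.cons 921 n680 .nil))
noncomputable def n682 : Strat := .move 922 n671 (.cons 757 n676 (.cons 963 n681 .nil))
noncomputable def n683 : Strat := .move 878 n2 (.cons 877 n682 .nil)
noncomputable def n684 : Strat := .move 881 n9 (.cons 882 n683 .nil)
noncomputable def n685 : Strat := .move 799 n7 (.cons 800 n684 .nil)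
noncomputable def n686 : Strat := .move 837 n13 (.cons 880 n72 (.cons 799 n66 (.cons 836 n685 .nil)))
noncomputable def n687 : Strat := .move 841 n37 (.cons 798 n605 (.cons 879 n188 .nil))
noncomputable def n688 : Strat := .move 837 n69 (.cons 841 n72 (.cons 800 n317 (.cons 796 n48 .nil)))
noncomputable def n689 : Strat := .move 841 n272 (.cons 800 n188 (.cons 882 n28 .nil))
noncomputable def n690 : Strat := .move 837 n43 (.cons 880 n48 (.cons 836 n53 (.cons 799 n50 .nil)))
noncomputable def n691 : Strat := .move 837 n667 (.cons 878 n66 (.cons 796 n53 .nil))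
noncomputable def n692 : Strat := .move 838 n668 (.cons 836 n669 (.cons 837 n670 (.cons 841 n686 (.cons 799 n687 (.cons 881 n314 (.cons 880 n688 (.cons 878 n689 (.cons 796 n690 (.cons 798 n691 .nil)))))))))
noncomputable def n693 : Strat := .win 838 4 797
noncomputable def n694 : Strat := .move 800 n693 (.cons 838 n523 .nil)
noncomputable def n695 : Strat := .move 801 n25 (.cons 802 n694 .nil)
noncomputable def n696 : Strat := .move 799 n140 (.cons 843 n695 .nil)
noncomputable def n697 : Strat := .move 798 n120 (.cons 797 n696 .nil)
noncomputable def n698 : Strat := .move 842 n697 (.cons 838 n126 (.cons 843 n635 .nil))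
noncomputable def n699 : Strat := .win 963 3 799
noncomputable def n700 : Strat := .move 922 n348 (.cons 759 n699 .nil)
noncomputable def n701 : Strat := .move 800 n15 (.cons 801 n700 .nil)
noncomputable def n702 : Strat := .move 881 n249 (.cons 837 n701 .nil)
noncomputable def n703 : Strat := .move 882 n16 (.cons 883 n702 .nil)
noncomputable def n704 : Strat := .move 798 n472 (.cons 756 n477 .nil)
noncomputable def n705 : Strat := .move 797 n22 (.cons 796 n704 .nil)
noncomputable def n706 : Strat := .move 799 n268 (.cons 837 n705 .nil)
noncomputable def n707 : Strat := .move 800 n15 (.cons 801 n706 .nil)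
noncomputable def n708 : Strat := .move 838 n21 (.cons 799 n703 (.cons 800 n194 (.cons 882 n707 (.cons 837 n211 (.cons 881 n272 .nil)))))
noncomputable def n709 : Strat := .move 842 n126 (.cons 880 n151 (.cons 797 n139 (.cons 843 n168 .nil)))
noncomputable def n710 : Strat := .win 799 2 756
noncomputable def n711 : Strat := .move 756 n162 (.cons 715 n710 .nil)
noncomputable def n712 : Strat := .move 757 n154 (.cons 716 n711 .nil)
noncomputable def n713 : Strat := .move 880 n121 (.cons 879 n712 .nil)
noncomputable def n714 : Strat := .move 798 n120 (.cons 797 n713 .nil)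
noncomputable def n715 : Strat := .move 800 n511 (.cons 838 n714 .nil)
noncomputable def n716 : Strat := .move 801 n25 (.cons 802 n715 .nil)
noncomputable def n717 : Strat := .move 757 n152 (.cons 922 n153 .nil)
noncomputable def n718 : Strat := .move 798 n120 (.cons 797 n717 .nil)
noncomputable def n719 : Strat := .move 881 n127 (.cons 843 n718 .nil)
noncomputable def n720 : Strat := .move 880 n121 (.cons 879 n719 .nil)
noncomputable def n721 : Strat := .move 801 n25 (.cons 802 n720 .nil)
noncomputable def n722 : Strat := .win 798 0 798
noncomputable def n723 : Strat := .move 799 n540 (.cons 844 n722 .nil)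
noncomputable def n724 : Strat := .move 843 n123 (.cons 881 n723 .nil)
noncomputable def n725 : Strat := .move 880 n121 (.cons 879 n724 .nil)
noncomputable def n726 : Strat := .move 800 n511 (.cons 838 n725 .nil)
noncomputable def n727 : Strat := .move 801 n25 (.cons 802 n726 .nil)
noncomputable def n728 : Strat := .win 882 1 758
noncomputable def n729 : Strat := .move 922 n728 (.cons 882 n699 .nil)
noncomputable def n730 : Strat := .move 759 n196 (.cons 718 n729 .nil)
noncomputable def n731 : Strat := .move 881 n127 (.cons 843 n730 .nil)
noncomputable def n732 : Strat := .move 880 n121 (.cons 879 n731 .nil)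
noncomputable def n733 : Strat := .move 800 n511 (.cons 838 n732 .nil)
noncomputable def n734 : Strat := .move 801 n25 (.cons 802 n733 .nil)
noncomputable def n735 : Strat := .move 842 n643 (.cons 843 n716 (.cons 879 n697 (.cons 799 n721 (.cons 797 n727 (.cons 798 n734 .nil)))))
noncomputable def n736 : Strat := .move 922 n171 (.cons 963 n170 .nil)
noncomputable def n737 : Strat := .move 881 n127 (.cons 843 n736 .nil)
noncomputable def n738 : Strat := .move 880 n121 (.cons 879 n737 .nil)
noncomputable def n739 : Strat := .move 798 n120 (.cons 797 n738 .nil)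
noncomputable def n740 : Strat := .move 842 n739 (.cons 880 n181 (.cons 798 n183 .nil))
noncomputable def n741 : Strat := .move 842 n517 (.cons 883 n727 (.cons 838 n139 (.cons 801 n654 .nil)))
noncomputable def n742 : Strat := .move 799 n158 (.cons 962 n159 .nil)
noncomputable def n743 : Strat := .move 921 n742 (.cons 758 n658 .nil)
noncomputable def n744 : Strat := .move 882 n176 (.cons 838 n743 .nil)
noncomputable def n745 : Strat := .move 883 n128 (.cons 884 n744 .nil)
noncomputable def n746 : Strat := .move 880 n121 (.cons 879 n745 .nil)
noncomputable def n747 : Strat := .move 798 n120 (.cons 797 n746 .nil)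
noncomputable def n748 : Strat := .move 842 n739 (.cons 880 n650 (.cons 797 n654 (.cons 881 n643 (.cons 843 n747 .nil))))
noncomputable def n749 : Strat := .win 964 3 800
noncomputable def n750 : Strat := .move 923 n749 (.cons 964 n368 .nil)
noncomputable def n751 : Strat := .move 882 n176 (.cons 838 n750 .nil)
noncomputable def n752 : Strat := .move 883 n128 (.cons 884 n751 .nil)
noncomputable def n753 : Strat := .move 801 n25 (.cons 802 n752 .nil)
noncomputable def n754 : Strat := .move 925 n130 (.cons 882 n129 .nil)
noncomputable def n755 : Strat := .move 924 n362 (.cons 759 n754 .nil)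
noncomputable def n756 : Strat := .move 881 n127 (.cons 843 n755 .nil)
noncomputable def n757 : Strat := .move 880 n121 (.cons 879 n756 .nil)
noncomputable def n758 : Strat := .move 883 n128 (.cons 884 n757 .nil)
noncomputable def n759 : Strat := .move 801 n25 (.cons 802 n758 .nil)
noncomputable def n760 : Strat := .move 842 n753 (.cons 883 n734 (.cons 802 n502 (.cons 882 n517 (.cons 838 n759 .nil))))
noncomputable def n761 : Strat := .move 842 n643 (.cons 798 n517 .nil)
noncomputable def n762 : Strat := .move 842 n517 (.cons 838 n151 (.cons 884 n527 (.cons 800 n181 (.cons 802 n532 .nil))))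
noncomputable def n763 : Strat := .move 841 n698 (.cons 842 n708 (.cons 838 n709 (.cons 883 n735 (.cons 800 n740 (.cons 797 n741 (.cons 801 n748 (.cons 798 n760 (.cons 882 n761 (.cons 880 n762 .nil)))))))))
noncomputable def n764 : Strat := .move 837 n317 (.cons 795 n310 .nil)
noncomputable def n765 : Strat := .move 841 n21 (.cons 799 n703 (.cons 800 n194 (.cons 882 n707 (.cons 837 n211 (.cons 881 n272 .nil)))))
noncomputable def n766 : Strat := .move 841 n110 (.cons 796 n358 (.cons 880 n211 (.cons 801 n626 .nil)))
noncomputable def n767 : Strat := .move 796 n0 (.cons 795 n315 .nil)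
noncomputable def n768 : Strat := .move 878 n2 (.cons 877 n767 .nil)
noncomputable def n769 : Strat := .move 881 n42 (.cons 800 n65 (.cons 836 n768 .nil))
noncomputable def n770 : Strat := .move 837 n769 (.cons 841 n48 (.cons 878 n72 (.cons 798 n454 .nil)))
noncomputable def n771 : Strat := .move 837 n13 (.cons 882 n48 (.cons 800 n66 (.cons 836 n89 .nil)))
noncomputable def n772 : Strat := .win 836 4 795
noncomputable def n773 : Strat := .win 754 2 754
noncomputable def n774 : Strat := .win 673 6 673
noncomputable def n775 : Strat := .win 879 6 714
noncomputable def n776 : Strat := .move 714 n774 (.cons 673 n775 .nil)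
noncomputable def n777 : Strat := .move 755 n773 (.cons 754 n776 .nil)
noncomputable def n778 : Strat := .move 798 n772 (.cons 836 n777 .nil)
noncomputable def n779 : Strat := .move 799 n7 (.cons 800 n778 .nil)
noncomputable def n780 : Strat := .move 797 n402 (.cons 841 n779 .nil)
noncomputable def n781 : Strat := .move 796 n0 (.cons 795 n780 .nil)
noncomputable def n782 : Strat := .move 837 n406 (.cons 878 n781 (.cons 841 n48 .nil))
noncomputable def n783 : Strat := .move 837 n43 (.cons 881 n428 .nil)
noncomputable def n784 : Strat := .move 837 n66 (.cons 796 n50 (.cons 880 n406 .nil))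
noncomputable def n785 : Strat := .move 837 n43 (.cons 800 n50 (.cons 836 n466 (.cons 880 n48 .nil)))
noncomputable def n786 : Strat := .move 838 n764 (.cons 878 n765 (.cons 837 n766 (.cons 882 n770 (.cons 841 n771 (.cons 881 n782 (.cons 797 n783 (.cons 800 n784 (.cons 796 n785 .nil))))))))
noncomputable def n787 : Strat := .move 838 n115 (.cons 881 n28 (.cons 800 n37 .nil))
noncomputable def n788 : Strat := .move 843 n123 (.cons 881 n384 .nil)
noncomputable def n789 : Strat := .move 880 n121 (.cons 879 n788 .nil)
noncomputable def n790 : Strat := .move 842 n517 (.cons 759 n494 (.cons 883 n789 (.cons 802 n654 .nil)))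
noncomputable def n791 : Strat := .move 838 n115 (.cons 800 n188 (.cons 882 n191 .nil))
noncomputable def n792 : Strat := .move 842 n789 (.cons 843 n377 (.cons 801 n639 (.cons 879 n386 .nil)))
noncomputable def n793 : Strat := .move 838 n218 (.cons 799 n224 (.cons 837 n211 .nil))
noncomputable def n794 : Strat := .move 838 n185 (.cons 882 n116 .nil)
noncomputable def n795 : Strat := .move 883 n128 (.cons 884 n794 .nil)
noncomputable def n796 : Strat := .move 842 n789 (.cons 880 n795 .nil)
noncomputable def n797 : Strat := .move 838 n221 (.cons 798 n224 (.cons 878 n188 .nil))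
noncomputable def n798 : Strat := .move 838 n28 (.cons 797 n218 (.cons 800 n37 .nil))
noncomputable def n799 : Strat := .move 841 n787 (.cons 796 n790 (.cons 879 n791 (.cons 838 n792 (.cons 842 n793 (.cons 800 n796 (.cons 801 n797 (.cons 881 n798 .nil)))))))
noncomputable def n800 : Strat := .move 842 n517 (.cons 838 n361 .nil)
noncomputable def n801 : Strat := .move 880 n121 (.cons 879 n157 .nil)
noncomputable def n802 : Strat := .move 799 n140 (.cons 843 n801 .nil)
noncomputable def n803 : Strat := .move 798 n120 (.cons 797 n802 .nil)
noncomputable def n804 : Strat := .move 883 n128 (.cons 884 n803 .nil)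
noncomputable def n805 : Strat := .move 801 n25 (.cons 802 n804 .nil)
noncomputable def n806 : Strat := .move 761 n145 (.cons 800 n144 .nil)
noncomputable def n807 : Strat := .move 760 n143 (.cons 719 n806 .nil)
noncomputable def n808 : Strat := .move 799 n140 (.cons 843 n807 .nil)
noncomputable def n809 : Strat := .move 798 n120 (.cons 797 n808 .nil)
noncomputable def n810 : Strat := .move 883 n128 (.cons 884 n809 .nil)
noncomputable def n811 : Strat := .move 801 n25 (.cons 802 n810 .nil)
noncomputable def n812 : Strat := .move 842 n361 (.cons 798 n139 (.cons 843 n377 (.cons 881 n805 (.cons 880 n811 .nil))))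
noncomputable def n813 : Strat := .move 838 n93 (.cons 800 n630 (.cons 842 n272 .nil))
noncomputable def n814 : Strat := .move 838 n93 (.cons 842 n703 (.cons 800 n630 .nil))
noncomputable def n815 : Strat := .win 676 1 675
noncomputable def n816 : Strat := .win 880 1 716
noncomputable def n817 : Strat := .move 717 n815 (.cons 676 n816 .nil)
noncomputable def n818 : Strat := .move 880 n156 (.cons 717 n155 .nil)
noncomputable def n819 : Strat := .move 922 n328 (.cons 757 n171 .nil)
noncomputable def n820 : Strat := .move 757 n574 (.cons 922 n153 .nil)
noncomputable def n821 : Strat := .win 880 1 757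
noncomputable def n822 : Strat := .move 922 n677 (.cons 962 n171 .nil)
noncomputable def n823 : Strat := .move 921 n821 (.cons 880 n822 .nil)
noncomputable def n824 : Strat := .win 923 6 758
noncomputable def n825 : Strat := .move 883 n128 (.cons 884 n176 .nil)
noncomputable def n826 : Strat := .move 882 n824 (.cons 923 n825 .nil)
noncomputable def n827 : Strat := .move 881 n819 (.cons 963 n820 (.cons 757 n823 (.cons 922 n826 .nil)))
noncomputable def n828 : Strat := .win 882 6 717
noncomputable def n829 : Strat := .move 717 n815 (.cons 676 n828 .nil)
noncomputable def n830 : Strat := .move 758 n817 (.cons 676 n818 (.cons 717 n827 (.cons 880 n829 .nil)))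
noncomputable def n831 : Strat := .move 799 n140 (.cons 843 n830 .nil)
noncomputable def n832 : Strat := .move 798 n120 (.cons 797 n831 .nil)
noncomputable def n833 : Strat := .move 842 n517 (.cons 801 n832 (.cons 883 n527 (.cons 838 n151 .nil)))
noncomputable def n834 : Strat := .win 801 3 800
noncomputable def n835 : Strat := .win 1005 3 841
noncomputable def n836 : Strat := .move 964 n834 (.cons 801 n835 .nil)
noncomputable def n837 : Strat := .move 801 n368 (.cons 760 n749 .nil)
noncomputable def n838 : Strat := .win 924 6 759
noncomputable def n839 : Strat := .move 759 n838 (.cons 924 n512 .nil)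
noncomputable def n840 : Strat := .win 759 6 759
noncomputable def n841 : Strat := .move 924 n840 (.cons 759 n352 .nil)
noncomputable def n842 : Strat := .win 801 1 759
noncomputable def n843 : Strat := .move 759 n205 (.cons 719 n512 .nil)
noncomputable def n844 : Strat := .move 760 n842 (.cons 801 n843 .nil)
noncomputable def n845 : Strat := .win 797 0 797
noncomputable def n846 : Strat := .move 798 n140 (.cons 843 n845 .nil)
noncomputable def n847 : Strat := .move 799 n202 (.cons 758 n846 .nil)
noncomputable def n848 : Strat := .move 800 n839 (.cons 718 n841 (.cons 924 n844 (.cons 759 n847 .nil)))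
noncomputable def n849 : Strat := .move 964 n835 (.cons 1005 n343 .nil)
noncomputable def n850 : Strat := .move 923 n836 (.cons 1005 n837 (.cons 964 n848 (.cons 801 n849 .nil)))
noncomputable def n851 : Strat := .move 882 n176 (.cons 838 n850 .nil)
noncomputable def n852 : Strat := .move 883 n128 (.cons 884 n851 .nil)
noncomputable def n853 : Strat := .move 920 n657 (.cons 961 n656 .nil)
noncomputable def n854 : Strat := .move 921 n853 (.cons 881 n655 .nil)
noncomputable def n855 : Strat := .move 798 n120 (.cons 797 n854 .nil)
noncomputable def n856 : Strat := .move 880 n121 (.cons 879 n855 .nil)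
noncomputable def n857 : Strat := .move 882 n176 (.cons 838 n856 .nil)
noncomputable def n858 : Strat := .move 883 n128 (.cons 884 n857 .nil)
noncomputable def n859 : Strat := .move 842 n381 (.cons 880 n852 (.cons 798 n654 (.cons 843 n858 .nil)))
noncomputable def n860 : Strat := .win 881 0 879
noncomputable def n861 : Strat := .move 924 n352 (.cons 965 n860 .nil)
noncomputable def n862 : Strat := .move 799 n202 (.cons 758 n201 .nil)
noncomputable def n863 : Strat := .move 923 n861 (.cons 881 n862 .nil)
noncomputable def n864 : Strat := .move 800 n15 (.cons 801 n863 .nil)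
noncomputable def n865 : Strat := .move 882 n16 (.cons 883 n864 .nil)
noncomputable def n866 : Strat := .move 880 n293 (.cons 842 n865 .nil)
noncomputable def n867 : Strat := .move 879 n29 (.cons 878 n866 .nil)
noncomputable def n868 : Strat := .win 799 3 798
noncomputable def n869 : Strat := .win 797 7 797
noncomputable def n870 : Strat := .move 962 n868 (.cons 799 n869 .nil)
noncomputable def n871 : Strat := .win 920 1 756
noncomputable def n872 : Strat := .move 757 n871 (.cons 920 n98 .nil)
noncomputable def n873 : Strat := .move 920 n390 (.cons 757 n657 .nil)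
noncomputable def n874 : Strat := .win 797 6 756
noncomputable def n875 : Strat := .move 757 n162 (.cons 715 n98 .nil)
noncomputable def n876 : Strat := .move 756 n874 (.cons 797 n875 .nil)
noncomputable def n877 : Strat := .win 801 4 797
noncomputable def n878 : Strat := .move 800 n268 (.cons 837 n877 .nil)
noncomputable def n879 : Strat := .move 799 n159 (.cons 758 n878 .nil)
noncomputable def n880 : Strat := .move 798 n872 (.cons 716 n873 (.cons 920 n876 (.cons 757 n879 .nil)))
noncomputable def n881 : Strat := .win 1003 7 838
noncomputable def n882 : Strat := .move 962 n869 (.cons 797 n881 .nil)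
noncomputable def n883 : Strat := .move 962 n868 (.cons 799 n881 .nil)
noncomputable def n884 : Strat := .move 921 n870 (.cons 962 n880 (.cons 799 n882 (.cons 797 n883 .nil)))
noncomputable def n885 : Strat := .move 880 n293 (.cons 842 n884 .nil)
noncomputable def n886 : Strat := .move 879 n29 (.cons 878 n885 .nil)
noncomputable def n887 : Strat := .move 838 n272 (.cons 837 n867 (.cons 758 n115 (.cons 800 n396 (.cons 882 n886 .nil))))
noncomputable def n888 : Strat := .win 924 0 879
noncomputable def n889 : Strat := .win 758 6 758
noncomputable def n890 : Strat := .move 799 n889 (.cons 758 n201 .nil)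
noncomputable def n891 : Strat := .move 923 n888 (.cons 924 n890 .nil)
noncomputable def n892 : Strat := .move 880 n392 (.cons 920 n891 .nil)
noncomputable def n893 : Strat := .move 879 n29 (.cons 878 n892 .nil)
noncomputable def n894 : Strat := .move 881 n249 (.cons 837 n893 .nil)
noncomputable def n895 : Strat := .move 882 n16 (.cons 883 n894 .nil)
noncomputable def n896 : Strat := .move 838 n21 (.cons 800 n895 (.cons 837 n358 (.cons 881 n272 (.cons 799 n703 (.cons 883 n218 .nil)))))
noncomputable def n897 : Strat := .move 842 n381 (.cons 879 n832 (.cons 797 n654 (.cons 881 n643 (.cons 843 n663 (.cons 880 n532 .nil)))))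
noncomputable def n898 : Strat := .move 799 n140 (.cons 843 n640 .nil)
noncomputable def n899 : Strat := .move 798 n120 (.cons 797 n898 .nil)
noncomputable def n900 : Strat := .move 880 n121 (.cons 879 n899 .nil)
noncomputable def n901 : Strat := .win 800 3 799
noncomputable def n902 : Strat := .move 963 n901 (.cons 800 n672 .nil)
noncomputable def n903 : Strat := .win 1004 7 839
noncomputable def n904 : Strat := .move 963 n672 (.cons 798 n903 .nil)
noncomputable def n905 : Strat := .win 798 6 757
noncomputable def n906 : Strat := .win 716 7 716
noncomputable def n907 : Strat := .move 758 n906 (.cons 716 n156 .nil)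
noncomputable def n908 : Strat := .move 757 n905 (.cons 798 n907 .nil)
noncomputable def n909 : Strat := .win 759 3 758
noncomputable def n910 : Strat := .win 802 4 798
noncomputable def n911 : Strat := .move 801 n910 (.cons 802 n511 .nil)
noncomputable def n912 : Strat := .move 800 n909 (.cons 759 n911 .nil)
noncomputable def n913 : Strat := .move 799 n409 (.cons 717 n678 (.cons 921 n908 (.cons 758 n912 .nil)))
noncomputable def n914 : Strat := .move 963 n901 (.cons 800 n903 .nil)
noncomputable def n915 : Strat := .move 922 n902 (.cons 800 n904 (.cons 963 n913 (.cons 798 n914 .nil)))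
noncomputable def n916 : Strat := .move 881 n127 (.cons 843 n915 .nil)
noncomputable def n917 : Strat := .move 880 n121 (.cons 879 n916 .nil)
noncomputable def n918 : Strat := .move 842 n900 (.cons 879 n527 (.cons 797 n917 (.cons 799 n381 (.cons 843 n716 (.cons 798 n734 .nil)))))
noncomputable def n919 : Strat := .move 923 n368 (.cons 760 n749 .nil)
noncomputable def n920 : Strat := .move 801 n25 (.cons 802 n919 .nil)
noncomputable def n921 : Strat := .move 882 n176 (.cons 838 n920 .nil)
noncomputable def n922 : Strat := .move 883 n128 (.cons 884 n921 .nil)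
noncomputable def n923 : Strat := .move 842 n517 (.cons 802 n852 (.cons 884 n527 (.cons 800 n922 (.cons 838 n811 (.cons 801 n532 .nil)))))
noncomputable def n924 : Strat := .move 842 n381 (.cons 880 n922 .nil)
noncomputable def n925 : Strat := .move 841 n800 (.cons 838 n812 (.cons 881 n813 (.cons 799 n814 (.cons 879 n833 (.cons 802 n859 (.cons 884 n887 (.cons 842 n896 (.cons 801 n897 (.cons 883 n918 (.cons 880 n923 (.cons 800 n924 .nil)))))))))))
noncomputable def n926 : Strat := .move 837 n43 (.cons 798 n53 (.cons 799 n50 .nil))
noncomputable def n927 : Strat := .move 880 n156 (.cons 717 n408 .nil)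
noncomputable def n928 : Strat := .win 677 3 676
noncomputable def n929 : Strat := .win 759 3 717
noncomputable def n930 : Strat := .move 718 n928 (.cons 677 n929 .nil)
noncomputable def n931 : Strat := .move 717 n816 (.cons 880 n930 .nil)
noncomputable def n932 : Strat := .win 757 7 716
noncomputable def n933 : Strat := .win 675 7 675
noncomputable def n934 : Strat := .move 717 n933 (.cons 675 n930 .nil)
noncomputable def n935 : Strat := .move 716 n932 (.cons 757 n934 .nil)
noncomputable def n936 : Strat := .win 798 7 757
noncomputable def n937 : Strat := .move 757 n936 (.cons 798 n906 .nil)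
noncomputable def n938 : Strat := .move 922 n677 (.cons 962 n937 .nil)
noncomputable def n939 : Strat := .move 921 n821 (.cons 880 n938 .nil)
noncomputable def n940 : Strat := .move 758 n927 (.cons 921 n931 (.cons 880 n935 (.cons 717 n939 .nil)))
noncomputable def n941 : Strat := .move 881 n9 (.cons 882 n940 .nil)
noncomputable def n942 : Strat := .move 799 n7 (.cons 800 n941 .nil)
noncomputable def n943 : Strat := .move 837 n310 (.cons 880 n72 (.cons 799 n66 (.cons 836 n942 .nil)))
noncomputable def n944 : Strat := .move 837 n53 (.cons 878 n66 .nil)
noncomputable def n945 : Strat := .move 837 n53 (.cons 799 n428 (.cons 841 n48 (.cons 877 n72 .nil)))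
noncomputable def n946 : Strat := .move 837 n50 (.cons 881 n428 (.cons 878 n66 .nil))
noncomputable def n947 : Strat := .move 921 n677 (.cons 962 n496 .nil)
noncomputable def n948 : Strat := .move 880 n409 (.cons 717 n947 (.cons 921 n680 .nil))
noncomputable def n949 : Strat := .move 922 n461 (.cons 963 n948 .nil)
noncomputable def n950 : Strat := .move 878 n2 (.cons 877 n949 .nil)
noncomputable def n951 : Strat := .move 799 n7 (.cons 800 n950 .nil)
noncomputable def n952 : Strat := .move 881 n9 (.cons 882 n951 .nil)
noncomputable def n953 : Strat := .move 837 n53 (.cons 841 n952 (.cons 879 n942 (.cons 800 n428 .nil)))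
noncomputable def n954 : Strat := .move 881 n392 (.cons 920 n891 .nil)
noncomputable def n955 : Strat := .move 882 n16 (.cons 883 n954 .nil)
noncomputable def n956 : Strat := .move 880 n293 (.cons 842 n955 .nil)
noncomputable def n957 : Strat := .move 879 n29 (.cons 878 n956 .nil)
noncomputable def n958 : Strat := .move 922 n349 (.cons 963 n564 .nil)
noncomputable def n959 : Strat := .move 923 n958 (.cons 881 n567 .nil)
noncomputable def n960 : Strat := .move 717 n561 (.cons 676 n560 .nil)
noncomputable def n961 : Strat := .move 718 n558 (.cons 760 n960 .nil)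
noncomputable def n962 : Strat := .move 759 n197 (.cons 718 n959 (.cons 922 n559 (.cons 881 n961 .nil)))
noncomputable def n963 : Strat := .move 882 n16 (.cons 883 n962 .nil)
noncomputable def n964 : Strat := .move 800 n15 (.cons 801 n963 .nil)
noncomputable def n965 : Strat := .move 879 n29 (.cons 878 n964 .nil)
noncomputable def n966 : Strat := .move 879 n92 (.cons 880 n964 (.cons 801 n956 .nil))
noncomputable def n967 : Strat := .move 842 n25 (.cons 802 n186 .nil)
noncomputable def n968 : Strat := .move 801 n24 (.cons 800 n967 .nil)
noncomputable def n969 : Strat := .move 841 n93 (.cons 801 n957 (.cons 842 n358 (.cons 880 n965 (.cons 878 n966 (.cons 879 n968 .nil)))))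
noncomputable def n970 : Strat := .move 838 n926 (.cons 879 n943 (.cons 880 n603 (.cons 798 n944 (.cons 881 n945 (.cons 799 n946 (.cons 836 n953 (.cons 837 n969 .nil)))))))
noncomputable def n971 : Strat := .move 837 n406 (.cons 841 n66 (.cons 796 n43 .nil))
noncomputable def n972 : Strat := .win 797 2 754
noncomputable def n973 : Strat := .move 754 n972 (.cons 797 n83 .nil)
noncomputable def n974 : Strat := .move 755 n75 (.cons 714 n973 .nil)
noncomputable def n975 : Strat := .move 798 n232 (.cons 836 n974 .nil)
noncomputable def n976 : Strat := .move 799 n7 (.cons 800 n975 .nil)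
noncomputable def n977 : Strat := .move 878 n2 (.cons 877 n976 .nil)
noncomputable def n978 : Strat := .move 796 n0 (.cons 795 n977 .nil)
noncomputable def n979 : Strat := .move 799 n7 (.cons 800 n308 .nil)
noncomputable def n980 : Strat := .move 881 n9 (.cons 882 n979 .nil)
noncomputable def n981 : Strat := .move 797 n79 (.cons 960 n80 .nil)
noncomputable def n982 : Strat := .win 797 3 796
noncomputable def n983 : Strat := .win 1000 1 836
noncomputable def n984 : Strat := .win 918 1 795
noncomputable def n985 : Strat := .move 959 n983 (.cons 1000 n984 .nil)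
noncomputable def n986 : Strat := .move 960 n982 (.cons 797 n985 .nil)
noncomputable def n987 : Strat := .move 755 n73 (.cons 920 n74 .nil)
noncomputable def n988 : Strat := .move 920 n57 (.cons 755 n588 .nil)
noncomputable def n989 : Strat := .win 880 4 877
noncomputable def n990 : Strat := .move 918 n989 (.cons 880 n417 .nil)
noncomputable def n991 : Strat := .move 879 n987 (.cons 714 n988 (.cons 920 n990 .nil))
noncomputable def n992 : Strat := .move 919 n981 (.cons 756 n986 (.cons 960 n991 .nil))
noncomputable def n993 : Strat := .move 881 n9 (.cons 882 n992 .nil)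
noncomputable def n994 : Strat := .move 878 n2 (.cons 877 n993 .nil)
noncomputable def n995 : Strat := .move 796 n0 (.cons 795 n994 .nil)
noncomputable def n996 : Strat := .move 837 n66 (.cons 881 n978 (.cons 795 n980 (.cons 836 n995 .nil)))
noncomputable def n997 : Strat := .move 878 n2 (.cons 877 n403 .nil)
noncomputable def n998 : Strat := .move 797 n402 (.cons 841 n997 .nil)
noncomputable def n999 : Strat := .move 796 n0 (.cons 795 n998 .nil)
noncomputable def n1000 : Strat := .win 880 0 835
noncomputable def n1001 : Strat := .win 834 0 834
noncomputable def n1002 : Strat := .move 835 n1000 (.cons 880 n1001 .nil)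
noncomputable def n1003 : Strat := .move 836 n8 (.cons 798 n1002 .nil)
noncomputable def n1004 : Strat := .move 799 n7 (.cons 800 n1003 .nil)
noncomputable def n1005 : Strat := .move 879 n55 (.cons 841 n1004 .nil)
noncomputable def n1006 : Strat := .move 878 n2 (.cons 877 n1005 .nil)
noncomputable def n1007 : Strat := .move 837 n999 (.cons 841 n978 (.cons 796 n1006 (.cons 878 n781 .nil)))
noncomputable def n1008 : Strat := .move 881 n9 (.cons 882 n820 .nil)
noncomputable def n1009 : Strat := .move 798 n232 (.cons 836 n1008 .nil)
noncomputable def n1010 : Strat := .move 799 n7 (.cons 800 n1009 .nil)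
noncomputable def n1011 : Strat := .move 878 n2 (.cons 877 n1010 .nil)
noncomputable def n1012 : Strat := .move 796 n0 (.cons 795 n1011 .nil)
noncomputable def n1013 : Strat := .move 837 n406 (.cons 878 n781 (.cons 841 n1012 (.cons 796 n1011 .nil)))
noncomputable def n1014 : Strat := .move 841 n605 (.cons 882 n299 (.cons 879 n306 .nil))
noncomputable def n1015 : Strat := .move 837 n43 (.cons 881 n1006 (.cons 836 n466 (.cons 880 n1011 (.cons 800 n50 .nil))))
noncomputable def n1016 : Strat := .move 837 n43 (.cons 881 n781 (.cons 836 n449 (.cons 798 n66 .nil)))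
noncomputable def n1017 : Strat := .move 921 n295 (.cons 962 n294 .nil)
noncomputable def n1018 : Strat := .move 880 n293 (.cons 842 n1017 .nil)
noncomputable def n1019 : Strat := .move 879 n29 (.cons 878 n1018 .nil)
noncomputable def n1020 : Strat := .move 797 n22 (.cons 796 n1019 .nil)
noncomputable def n1021 : Strat := .move 841 n221 (.cons 797 n957 (.cons 842 n626 (.cons 798 n1020 (.cons 879 n188 .nil))))
noncomputable def n1022 : Strat := .move 838 n971 (.cons 841 n996 (.cons 881 n1007 (.cons 880 n1013 (.cons 798 n1014 (.cons 796 n1015 (.cons 878 n1016 (.cons 837 n1021 .nil)))))))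
noncomputable def n1023 : Strat := .move 837 n13 (.cons 798 n69 (.cons 799 n312 .nil))
noncomputable def n1024 : Strat := .win 797 5 755
noncomputable def n1025 : Strat := .move 759 n1024 (.cons 797 n442 .nil)
noncomputable def n1026 : Strat := .move 798 n820 (.cons 716 n329 (.cons 922 n1025 .nil))
noncomputable def n1027 : Strat := .move 758 n441 (.cons 717 n1026 .nil)
noncomputable def n1028 : Strat := .move 796 n0 (.cons 795 n1027 .nil)
noncomputable def n1029 : Strat := .move 881 n9 (.cons 882 n1028 .nil)
noncomputable def n1030 : Strat := .move 799 n7 (.cons 800 n1029 .nil)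
noncomputable def n1031 : Strat := .move 837 n72 (.cons 794 n310 (.cons 799 n66 (.cons 836 n1030 .nil)))
noncomputable def n1032 : Strat := .move 837 n312 (.cons 841 n66 (.cons 796 n50 (.cons 882 n999 .nil)))
noncomputable def n1033 : Strat := .win 841 0 796
noncomputable def n1034 : Strat := .win 759 5 755
noncomputable def n1035 : Strat := .move 758 n1034 (.cons 759 n817 .nil)
noncomputable def n1036 : Strat := .move 797 n1033 (.cons 841 n1035 .nil)
noncomputable def n1037 : Strat := .move 796 n0 (.cons 795 n1036 .nil)
noncomputable def n1038 : Strat := .move 798 n232 (.cons 836 n1037 .nil)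
noncomputable def n1039 : Strat := .move 799 n7 (.cons 800 n1038 .nil)
noncomputable def n1040 : Strat := .move 837 n72 (.cons 794 n1039 (.cons 796 n48 (.cons 836 n69 (.cons 799 n999 .nil))))
noncomputable def n1041 : Strat := .move 837 n310 (.cons 799 n50 (.cons 881 n48 (.cons 836 n942 .nil)))
noncomputable def n1042 : Strat := .move 841 n272 (.cons 801 n285 (.cons 837 n28 .nil))
noncomputable def n1043 : Strat := .move 841 n28 (.cons 797 n968 (.cons 800 n188 (.cons 842 n211 .nil)))
noncomputable def n1044 : Strat := .move 838 n1023 (.cons 841 n1031 (.cons 799 n1032 (.cons 881 n1040 (.cons 797 n943 (.cons 796 n1041 (.cons 836 n1042 (.cons 837 n1043 .nil)))))))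
noncomputable def n1045 : Strat := .move 841 n37 (.cons 842 n258 (.cons 879 n188 (.cons 796 n396 (.cons 798 n509 .nil))))
noncomputable def n1046 : Strat := .move 756 n95 (.cons 715 n94 .nil)
noncomputable def n1047 : Strat := .move 798 n100 (.cons 961 n390 .nil)
noncomputable def n1048 : Strat := .win 1002 3 838
noncomputable def n1049 : Strat := .move 961 n1048 (.cons 1002 n613 .nil)
noncomputable def n1050 : Strat := .move 920 n1047 (.cons 757 n1049 (.cons 961 n621 .nil))
noncomputable def n1051 : Strat := .move 882 n16 (.cons 883 n1050 .nil)
noncomputable def n1052 : Strat := .move 880 n1017 (.cons 962 n1046 (.cons 921 n1051 .nil))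
noncomputable def n1053 : Strat := .move 879 n29 (.cons 878 n1052 .nil)
noncomputable def n1054 : Strat := .move 797 n22 (.cons 796 n1053 .nil)
noncomputable def n1055 : Strat := .move 841 n33 (.cons 879 n188 (.cons 796 n630 (.cons 842 n1054 .nil)))
noncomputable def n1056 : Strat := .move 837 n66 (.cons 836 n999 (.cons 795 n50 .nil))
noncomputable def n1057 : Strat := .move 880 n95 (.cons 715 n94 .nil)
noncomputable def n1058 : Strat := .win 675 3 674
noncomputable def n1059 : Strat := .win 757 3 715
noncomputable def n1060 : Strat := .move 716 n1058 (.cons 675 n1059 .nil)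
noncomputable def n1061 : Strat := .move 715 n470 (.cons 880 n1060 .nil)
noncomputable def n1062 : Strat := .win 673 7 673
noncomputable def n1063 : Strat := .win 755 7 714
noncomputable def n1064 : Strat := .move 714 n1062 (.cons 673 n1063 .nil)
noncomputable def n1065 : Strat := .move 715 n1058 (.cons 675 n1064 .nil)
noncomputable def n1066 : Strat := .move 716 n1059 (.cons 757 n1065 .nil)
noncomputable def n1067 : Strat := .win 880 6 756
noncomputable def n1068 : Strat := .win 798 3 756
noncomputable def n1069 : Strat := .win 716 3 715
noncomputable def n1070 : Strat := .move 757 n1068 (.cons 798 n1069 .nil)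
noncomputable def n1071 : Strat := .move 920 n618 (.cons 962 n1070 .nil)
noncomputable def n1072 : Strat := .move 921 n1067 (.cons 880 n1071 .nil)
noncomputable def n1073 : Strat := .move 756 n1057 (.cons 921 n1061 (.cons 880 n1066 (.cons 715 n1072 .nil)))
noncomputable def n1074 : Strat := .move 879 n29 (.cons 878 n1073 .nil)
noncomputable def n1075 : Strat := .move 797 n22 (.cons 796 n1074 .nil)
noncomputable def n1076 : Strat := .move 841 n221 (.cons 796 n630 (.cons 880 n188 (.cons 842 n1075 .nil)))
noncomputable def n1077 : Strat := .win 881 0 836
noncomputable def n1078 : Strat := .win 835 0 835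
noncomputable def n1079 : Strat := .move 880 n1077 (.cons 881 n1078 .nil)
noncomputable def n1080 : Strat := .move 799 n8 (.cons 798 n1002 .nil)
noncomputable def n1081 : Strat := .win 797 5 794
noncomputable def n1082 : Strat := .move 835 n1081 (.cons 797 n1001 .nil)
noncomputable def n1083 : Strat := .move 798 n235 (.cons 799 n1082 .nil)
noncomputable def n1084 : Strat := .move 798 n235 (.cons 799 n872 .nil)
noncomputable def n1085 : Strat := .move 880 n1077 (.cons 881 n1084 .nil)
noncomputable def n1086 : Strat := .move 836 n1079 (.cons 881 n1080 (.cons 880 n1083 (.cons 835 n1085 .nil)))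
noncomputable def n1087 : Strat := .move 879 n55 (.cons 841 n1086 .nil)
noncomputable def n1088 : Strat := .move 878 n2 (.cons 877 n1087 .nil)
noncomputable def n1089 : Strat := .win 799 4 795
noncomputable def n1090 : Strat := .move 798 n1089 (.cons 799 n234 .nil)
noncomputable def n1091 : Strat := .move 881 n10 (.cons 880 n431 .nil)
noncomputable def n1092 : Strat := .win 879 0 835
noncomputable def n1093 : Strat := .move 835 n1092 (.cons 879 n430 .nil)
noncomputable def n1094 : Strat := .move 880 n1077 (.cons 881 n1093 .nil)
noncomputable def n1095 : Strat := .win 756 7 756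
noncomputable def n1096 : Strat := .move 921 n1095 (.cons 756 n295 .nil)
noncomputable def n1097 : Strat := .move 880 n1077 (.cons 881 n1096 .nil)
noncomputable def n1098 : Strat := .move 798 n1089 (.cons 799 n1097 .nil)
noncomputable def n1099 : Strat := .move 836 n1090 (.cons 799 n1091 (.cons 798 n1094 (.cons 835 n1098 .nil)))
noncomputable def n1100 : Strat := .move 797 n402 (.cons 841 n1099 .nil)
noncomputable def n1101 : Strat := .move 796 n0 (.cons 795 n1100 .nil)
noncomputable def n1102 : Strat := .move 880 n1092 (.cons 879 n1077 .nil)
noncomputable def n1103 : Strat := .move 835 n1081 (.cons 797 n1102 .nil)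
noncomputable def n1104 : Strat := .move 798 n235 (.cons 799 n1103 .nil)
noncomputable def n1105 : Strat := .move 836 n45 (.cons 876 n1104 .nil)
noncomputable def n1106 : Strat := .move 877 n44 (.cons 878 n1105 .nil)
noncomputable def n1107 : Strat := .move 796 n0 (.cons 795 n1106 .nil)
noncomputable def n1108 : Strat := .move 837 n406 (.cons 796 n1088 (.cons 878 n1101 (.cons 797 n428 (.cons 841 n1107 .nil))))
noncomputable def n1109 : Strat := .move 880 n121 (.cons 879 n127 .nil)
noncomputable def n1110 : Strat := .move 880 n121 (.cons 879 n718 .nil)
noncomputable def n1111 : Strat := .win 880 4 839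
noncomputable def n1112 : Strat := .win 844 4 840
noncomputable def n1113 : Strat := .move 843 n1111 (.cons 880 n1112 .nil)
noncomputable def n1114 : Strat := .move 843 n122 (.cons 799 n1112 .nil)
noncomputable def n1115 : Strat := .move 798 n120 (.cons 797 n1114 .nil)
noncomputable def n1116 : Strat := .move 842 n1109 (.cons 843 n1110 (.cons 879 n1113 (.cons 880 n1115 .nil)))
noncomputable def n1117 : Strat := .move 881 n249 (.cons 837 n1116 .nil)
noncomputable def n1118 : Strat := .move 882 n16 (.cons 883 n1117 .nil)
noncomputable def n1119 : Strat := .move 758 n199 (.cons 717 n824 .nil)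
noncomputable def n1120 : Strat := .move 923 n201 (.cons 964 n889 .nil)
noncomputable def n1121 : Strat := .move 842 n140 (.cons 843 n120 .nil)
noncomputable def n1122 : Strat := .move 798 n1121 (.cons 797 n819 .nil)
noncomputable def n1123 : Strat := .move 923 n201 (.cons 964 n1122 .nil)
noncomputable def n1124 : Strat := .move 758 n199 (.cons 717 n1122 .nil)
noncomputable def n1125 : Strat := .move 799 n1119 (.cons 717 n1120 (.cons 758 n1123 (.cons 923 n1124 .nil)))
noncomputable def n1126 : Strat := .move 881 n249 (.cons 837 n1125 .nil)
noncomputable def n1127 : Strat := .move 882 n16 (.cons 883 n1126 .nil)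
noncomputable def n1128 : Strat := .move 843 n383 (.cons 803 n122 .nil)
noncomputable def n1129 : Strat := .move 802 n382 (.cons 801 n1128 .nil)
noncomputable def n1130 : Strat := .move 757 n98 (.cons 716 n1129 .nil)
noncomputable def n1131 : Strat := .move 798 n120 (.cons 797 n1130 .nil)
noncomputable def n1132 : Strat := .move 842 n30 (.cons 880 n1131 .nil)
noncomputable def n1133 : Strat := .move 879 n29 (.cons 878 n1132 .nil)
noncomputable def n1134 : Strat := .move 841 n396 (.cons 878 n1118 (.cons 842 n895 (.cons 881 n630 (.cons 880 n605 (.cons 879 n1127 (.cons 882 n1133 .nil))))))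
noncomputable def n1135 : Strat := .move 843 n383 (.cons 803 n123 .nil)
noncomputable def n1136 : Strat := .move 802 n382 (.cons 801 n1135 .nil)
noncomputable def n1137 : Strat := .move 921 n295 (.cons 962 n1136 .nil)
noncomputable def n1138 : Strat := .move 880 n121 (.cons 879 n1137 .nil)
noncomputable def n1139 : Strat := .move 842 n23 (.cons 798 n1138 .nil)
noncomputable def n1140 : Strat := .move 797 n22 (.cons 796 n1139 .nil)
noncomputable def n1141 : Strat := .move 802 n383 (.cons 803 n382 .nil)
noncomputable def n1142 : Strat := .move 843 n123 (.cons 881 n1141 .nil)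
noncomputable def n1143 : Strat := .move 880 n121 (.cons 879 n1142 .nil)
noncomputable def n1144 : Strat := .move 842 n128 (.cons 884 n1143 .nil)
noncomputable def n1145 : Strat := .move 883 n185 (.cons 882 n1144 .nil)
noncomputable def n1146 : Strat := .move 841 n188 (.cons 882 n1140 (.cons 796 n1118 (.cons 842 n194 (.cons 797 n1145 .nil))))
noncomputable def n1147 : Strat := .move 920 n588 (.cons 961 n587 .nil)
noncomputable def n1148 : Strat := .move 919 n591 (.cons 715 n981 (.cons 797 n1147 .nil))
noncomputable def n1149 : Strat := .move 715 n581 (.cons 674 n580 .nil)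
noncomputable def n1150 : Strat := .move 714 n775 (.cons 879 n1149 .nil)
noncomputable def n1151 : Strat := .move 714 n1149 (.cons 756 n584 .nil)
noncomputable def n1152 : Strat := .move 755 n75 (.cons 714 n1148 (.cons 920 n1150 (.cons 879 n1151 .nil)))
noncomputable def n1153 : Strat := .move 878 n2 (.cons 877 n1152 .nil)
noncomputable def n1154 : Strat := .move 796 n0 (.cons 795 n1153 .nil)
noncomputable def n1155 : Strat := .move 881 n9 (.cons 882 n1154 .nil)
noncomputable def n1156 : Strat := .win 960 7 795
noncomputable def n1157 : Strat := .move 879 n1000 (.cons 880 n1001 .nil)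
noncomputable def n1158 : Strat := .move 798 n1081 (.cons 797 n235 .nil)
noncomputable def n1159 : Strat := .move 835 n1157 (.cons 834 n1158 .nil)
noncomputable def n1160 : Strat := .move 919 n1156 (.cons 960 n1159 .nil)
noncomputable def n1161 : Strat := .move 836 n63 (.cons 794 n1160 .nil)
noncomputable def n1162 : Strat := .move 795 n62 (.cons 796 n1161 .nil)
noncomputable def n1163 : Strat := .move 878 n2 (.cons 877 n1162 .nil)
noncomputable def n1164 : Strat := .move 837 n66 (.cons 796 n50 (.cons 836 n995 (.cons 882 n1107 (.cons 880 n1155 (.cons 881 n1163 .nil)))))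
noncomputable def n1165 : Strat := .move 838 n67 (.cons 880 n608 (.cons 877 n1045 (.cons 837 n1055 (.cons 879 n1056 (.cons 881 n1076 (.cons 882 n1108 (.cons 796 n1134 (.cons 878 n1146 (.cons 841 n1164 .nil)))))))))
noncomputable def n1166 : Strat := .move 838 n37 (.cons 797 n39 (.cons 878 n28 .nil))
noncomputable def n1167 : Strat := .move 882 n142 (.cons 719 n141 .nil)
noncomputable def n1168 : Strat := .win 882 1 718
noncomputable def n1169 : Strat := .win 679 3 678
noncomputable def n1170 : Strat := .win 761 3 719
noncomputable def n1171 : Strat := .move 720 n1169 (.cons 679 n1170 .nil)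
noncomputable def n1172 : Strat := .move 719 n1168 (.cons 882 n1171 .nil)
noncomputable def n1173 : Strat := .win 759 7 718
noncomputable def n1174 : Strat := .win 677 7 677
noncomputable def n1175 : Strat := .move 719 n1174 (.cons 677 n1171 .nil)
noncomputable def n1176 : Strat := .move 718 n1173 (.cons 759 n1175 .nil)
noncomputable def n1177 : Strat := .win 882 1 759
noncomputable def n1178 : Strat := .win 800 7 759
noncomputable def n1179 : Strat := .win 718 7 718
noncomputable def n1180 : Strat := .move 759 n1178 (.cons 800 n1179 .nil)
noncomputable def n1181 : Strat := .move 924 n369 (.cons 964 n1180 .nil)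
noncomputable def n1182 : Strat := .move 923 n1177 (.cons 882 n1181 .nil)
noncomputable def n1183 : Strat := .move 760 n1167 (.cons 923 n1172 (.cons 882 n1176 (.cons 719 n1182 .nil)))
noncomputable def n1184 : Strat := .move 883 n128 (.cons 884 n1183 .nil)
noncomputable def n1185 : Strat := .move 801 n25 (.cons 802 n1184 .nil)
noncomputable def n1186 : Strat := .move 842 n643 (.cons 799 n1185 .nil)
noncomputable def n1187 : Strat := .move 838 n221 (.cons 796 n630 (.cons 880 n188 (.cons 842 n1075 .nil)))
noncomputable def n1188 : Strat := .move 838 n39 (.cons 877 n272 (.cons 799 n93 (.cons 800 n630 .nil)))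
noncomputable def n1189 : Strat := .move 838 n191 (.cons 800 n1075 (.cons 796 n272 .nil))
noncomputable def n1190 : Strat := .win 842 0 797
noncomputable def n1191 : Strat := .move 798 n1190 (.cons 842 n472 .nil)
noncomputable def n1192 : Strat := .move 799 n268 (.cons 837 n1191 .nil)
noncomputable def n1193 : Strat := .move 800 n15 (.cons 801 n1192 .nil)
noncomputable def n1194 : Strat := .move 797 n22 (.cons 796 n1193 .nil)
noncomputable def n1195 : Strat := .move 795 n63 (.cons 794 n62 .nil)
noncomputable def n1196 : Strat := .move 877 n45 (.cons 876 n44 .nil)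
noncomputable def n1197 : Strat := .move 836 n1195 (.cons 796 n1196 .nil)
noncomputable def n1198 : Strat := .move 842 n128 (.cons 884 n1197 .nil)
noncomputable def n1199 : Strat := .move 883 n185 (.cons 882 n1198 .nil)
noncomputable def n1200 : Strat := .move 837 n18 (.cons 799 n1199 .nil)
noncomputable def n1201 : Strat := .move 800 n15 (.cons 801 n1200 .nil)
noncomputable def n1202 : Strat := .move 838 n1194 (.cons 800 n188 (.cons 842 n191 (.cons 797 n1201 (.cons 796 n272 .nil))))
noncomputable def n1203 : Strat := .move 799 n535 (.cons 837 n549 .nil)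
noncomputable def n1204 : Strat := .move 798 n226 (.cons 842 n1203 .nil)
noncomputable def n1205 : Strat := .move 800 n15 (.cons 801 n1204 .nil)
noncomputable def n1206 : Strat := .move 797 n22 (.cons 796 n1205 .nil)
noncomputable def n1207 : Strat := .move 838 n1206 (.cons 800 n188 (.cons 798 n191 (.cons 797 n218 .nil)))
noncomputable def n1208 : Strat := .move 841 n1166 (.cons 838 n1186 (.cons 800 n1187 (.cons 797 n1188 (.cons 842 n1189 (.cons 879 n1202 (.cons 880 n1207 .nil))))))
noncomputable def n1209 : Strat := .move 837 n667 (.cons 879 n69 (.cons 797 n53 (.cons 841 n50 .nil)))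
noncomputable def n1210 : Strat := .move 920 n588 (.cons 961 n57 .nil)
noncomputable def n1211 : Strat := .move 879 n987 (.cons 714 n1210 (.cons 920 n990 .nil))
noncomputable def n1212 : Strat := .move 919 n415 (.cons 960 n1211 .nil)
noncomputable def n1213 : Strat := .move 881 n9 (.cons 882 n1212 .nil)
noncomputable def n1214 : Strat := .move 796 n0 (.cons 795 n1213 .nil)
noncomputable def n1215 : Strat := .move 878 n2 (.cons 877 n1214 .nil)
noncomputable def n1216 : Strat := .move 921 n496 (.cons 758 n158 .nil)
noncomputable def n1217 : Strat := .move 799 n7 (.cons 800 n1216 .nil)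
noncomputable def n1218 : Strat := .move 880 n318 (.cons 836 n1217 .nil)
noncomputable def n1219 : Strat := .move 881 n9 (.cons 882 n1218 .nil)
noncomputable def n1220 : Strat := .move 837 n50 (.cons 836 n1215 (.cons 880 n596 (.cons 877 n1219 .nil)))
noncomputable def n1221 : Strat := .move 881 n249 (.cons 837 n700 .nil)
noncomputable def n1222 : Strat := .move 800 n15 (.cons 801 n1221 .nil)
noncomputable def n1223 : Strat := .move 882 n16 (.cons 883 n1222 .nil)
noncomputable def n1224 : Strat := .move 841 n1223 (.cons 882 n299 .nil)
noncomputable def n1225 : Strat := .move 841 n93 (.cons 880 n572 (.cons 800 n630 .nil))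
noncomputable def n1226 : Strat := .move 837 n66 (.cons 881 n69 (.cons 795 n1219 .nil))
noncomputable def n1227 : Strat := .move 881 n249 (.cons 837 n505 .nil)
noncomputable def n1228 : Strat := .move 882 n16 (.cons 883 n1227 .nil)
noncomputable def n1229 : Strat := .move 880 n293 (.cons 842 n1228 .nil)
noncomputable def n1230 : Strat := .move 879 n29 (.cons 878 n1229 .nil)
noncomputable def n1231 : Strat := .move 841 n1230 (.cons 837 n630 (.cons 882 n299 (.cons 842 n605 (.cons 879 n306 .nil))))
noncomputable def n1232 : Strat := .move 838 n1209 (.cons 841 n1220 (.cons 880 n607 (.cons 797 n944 (.cons 795 n1224 (.cons 837 n1225 (.cons 878 n1226 (.cons 800 n1231 .nil)))))))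
noncomputable def n1233 : Strat := .move 841 n33 (.cons 879 n188 (.cons 797 n93 (.cons 842 n266 .nil)))
noncomputable def n1234 : Strat := .win 923 0 878
noncomputable def n1235 : Strat := .move 798 n170 (.cons 757 n171 .nil)
noncomputable def n1236 : Strat := .move 922 n1234 (.cons 923 n1235 .nil)
noncomputable def n1237 : Strat := .move 879 n322 (.cons 919 n1236 .nil)
noncomputable def n1238 : Strat := .move 878 n2 (.cons 877 n1237 .nil)
noncomputable def n1239 : Strat := .move 880 n318 (.cons 836 n1238 .nil)
noncomputable def n1240 : Strat := .move 881 n9 (.cons 882 n1239 .nil)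
noncomputable def n1241 : Strat := .move 837 n66 (.cons 880 n596 (.cons 795 n1240 .nil))
noncomputable def n1242 : Strat := .move 841 n93 (.cons 842 n703 (.cons 800 n630 .nil))
noncomputable def n1243 : Strat := .win 921 6 797
noncomputable def n1244 : Strat := .win 1003 6 838
noncomputable def n1245 : Strat := .move 961 n1244 (.cons 1003 n616 .nil)
noncomputable def n1246 : Strat := .move 962 n1243 (.cons 921 n1245 .nil)
noncomputable def n1247 : Strat := .move 756 n1069 (.cons 716 n96 .nil)
noncomputable def n1248 : Strat := .move 757 n1068 (.cons 798 n1247 .nil)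
noncomputable def n1249 : Strat := .move 920 n612 (.cons 798 n1246 (.cons 961 n1248 .nil))
noncomputable def n1250 : Strat := .move 797 n22 (.cons 796 n1249 .nil)
noncomputable def n1251 : Strat := .move 879 n29 (.cons 878 n1250 .nil)
noncomputable def n1252 : Strat := .move 841 n33 (.cons 842 n1251 (.cons 798 n93 (.cons 879 n28 .nil)))
noncomputable def n1253 : Strat := .move 841 n188 (.cons 842 n703 (.cons 882 n28 .nil))
noncomputable def n1254 : Strat := .move 838 n1233 (.cons 841 n1241 (.cons 879 n1032 (.cons 797 n946 (.cons 796 n1242 (.cons 880 n606 (.cons 882 n1252 (.cons 878 n1253 .nil)))))))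
noncomputable def n1255 : Strat := .move 880 n121 (.cons 879 n898 .nil)
noncomputable def n1256 : Strat := .move 798 n120 (.cons 797 n1255 .nil)
noncomputable def n1257 : Strat := .move 842 n1256 (.cons 717 n126 (.cons 798 n277 (.cons 879 n697 .nil)))
noncomputable def n1258 : Strat := .move 838 n218 (.cons 878 n707 (.cons 837 n110 (.cons 799 n1251 .nil)))
noncomputable def n1259 : Strat := .move 843 n123 (.cons 881 n383 .nil)
noncomputable def n1260 : Strat := .move 802 n382 (.cons 801 n1259 .nil)
noncomputable def n1261 : Strat := .move 880 n121 (.cons 879 n1260 .nil)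
noncomputable def n1262 : Strat := .move 842 n126 (.cons 798 n1261 (.cons 879 n386 (.cons 843 n168 .nil)))
noncomputable def n1263 : Strat := .move 838 n299 (.cons 842 n218 (.cons 879 n191 .nil))
noncomputable def n1264 : Strat := .move 838 n191 (.cons 800 n230 (.cons 797 n218 .nil))
noncomputable def n1265 : Strat := .move 881 n153 (.cons 716 n152 .nil)
noncomputable def n1266 : Strat := .win 676 3 675
noncomputable def n1267 : Strat := .win 758 3 716
noncomputable def n1268 : Strat := .move 717 n1266 (.cons 676 n1267 .nil)
noncomputable def n1269 : Strat := .move 716 n521 (.cons 881 n1268 .nil)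
noncomputable def n1270 : Strat := .win 674 7 674
noncomputable def n1271 : Strat := .win 756 7 715
noncomputable def n1272 : Strat := .move 715 n1270 (.cons 674 n1271 .nil)
noncomputable def n1273 : Strat := .move 716 n1266 (.cons 676 n1272 .nil)
noncomputable def n1274 : Strat := .move 717 n1267 (.cons 758 n1273 .nil)
noncomputable def n1275 : Strat := .win 881 6 757
noncomputable def n1276 : Strat := .win 963 6 798
noncomputable def n1277 : Strat := .win 799 3 757
noncomputable def n1278 : Strat := .win 717 3 716
noncomputable def n1279 : Strat := .move 758 n1277 (.cons 799 n1278 .nil)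
noncomputable def n1280 : Strat := .move 921 n1276 (.cons 963 n1279 .nil)
noncomputable def n1281 : Strat := .move 922 n1275 (.cons 881 n1280 .nil)
noncomputable def n1282 : Strat := .move 757 n1265 (.cons 922 n1269 (.cons 881 n1274 (.cons 716 n1281 .nil)))
noncomputable def n1283 : Strat := .move 880 n121 (.cons 879 n1282 .nil)
noncomputable def n1284 : Strat := .move 798 n120 (.cons 797 n1283 .nil)
noncomputable def n1285 : Strat := .move 842 n126 (.cons 798 n789 (.cons 880 n386 (.cons 843 n1284 .nil)))
noncomputable def n1286 : Strat := .move 838 n268 (.cons 837 n15 .nil)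
noncomputable def n1287 : Strat := .move 800 n909 (.cons 759 n1286 .nil)
noncomputable def n1288 : Strat := .move 799 n409 (.cons 717 n678 (.cons 921 n908 (.cons 758 n1287 .nil)))
noncomputable def n1289 : Strat := .move 922 n902 (.cons 800 n1235 (.cons 963 n1288 (.cons 798 n914 .nil)))
noncomputable def n1290 : Strat := .move 881 n127 (.cons 843 n1289 .nil)
noncomputable def n1291 : Strat := .move 880 n121 (.cons 879 n1290 .nil)
noncomputable def n1292 : Strat := .win 800 2 799
noncomputable def n1293 : Strat := .win 804 5 800
noncomputable def n1294 : Strat := .win 802 5 799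
noncomputable def n1295 : Strat := .move 803 n1293 (.cons 804 n1294 .nil)
noncomputable def n1296 : Strat := .move 844 n1292 (.cons 800 n1295 .nil)
noncomputable def n1297 : Strat := .move 799 n541 (.cons 798 n1296 .nil)
noncomputable def n1298 : Strat := .move 843 n123 (.cons 881 n1297 .nil)
noncomputable def n1299 : Strat := .move 880 n121 (.cons 879 n1298 .nil)
noncomputable def n1300 : Strat := .move 842 n789 (.cons 802 n1291 (.cons 843 n517 (.cons 801 n1299 .nil)))
noncomputable def n1301 : Strat := .move 842 n120 (.cons 797 n125 .nil)
noncomputable def n1302 : Strat := .win 838 2 796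
noncomputable def n1303 : Strat := .win 795 0 795
noncomputable def n1304 : Strat := .move 796 n1302 (.cons 838 n1303 .nil)
noncomputable def n1305 : Strat := .win 799 0 796
noncomputable def n1306 : Strat := .move 796 n1303 (.cons 795 n1305 .nil)
noncomputable def n1307 : Strat := .move 796 n1302 (.cons 838 n1305 .nil)
noncomputable def n1308 : Strat := .win 838 7 797
noncomputable def n1309 : Strat := .move 962 n868 (.cons 799 n1308 .nil)
noncomputable def n1310 : Strat := .move 921 n1095 (.cons 756 n1309 .nil)
noncomputable def n1311 : Strat := .win 1002 1 838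
noncomputable def n1312 : Strat := .win 920 1 797
noncomputable def n1313 : Strat := .move 961 n1311 (.cons 1002 n1312 .nil)
noncomputable def n1314 : Strat := .move 962 n1308 (.cons 838 n1313 .nil)
noncomputable def n1315 : Strat := .move 921 n1095 (.cons 756 n1314 .nil)
noncomputable def n1316 : Strat := .win 879 1 715
noncomputable def n1317 : Strat := .win 675 1 674
noncomputable def n1318 : Strat := .move 838 n1316 (.cons 879 n1317 .nil)
noncomputable def n1319 : Strat := .move 716 n521 (.cons 881 n1318 .nil)
noncomputable def n1320 : Strat := .win 877 5 836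
noncomputable def n1321 : Strat := .win 838 4 837
noncomputable def n1322 : Strat := .move 878 n1320 (.cons 877 n1321 .nil)
noncomputable def n1323 : Strat := .move 879 n871 (.cons 920 n1322 .nil)
noncomputable def n1324 : Strat := .move 757 n1265 (.cons 922 n1319 (.cons 881 n1323 .nil))
noncomputable def n1325 : Strat := .move 921 n1095 (.cons 756 n655 .nil)
noncomputable def n1326 : Strat := .move 880 n1310 (.cons 799 n1315 (.cons 921 n1324 (.cons 838 n1325 .nil)))
noncomputable def n1327 : Strat := .move 797 n1304 (.cons 838 n1306 (.cons 795 n1307 (.cons 796 n1326 .nil)))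
noncomputable def n1328 : Strat := .move 797 n226 (.cons 842 n1304 .nil)
noncomputable def n1329 : Strat := .move 842 n121 (.cons 879 n124 .nil)
noncomputable def n1330 : Strat := .move 838 n29 (.cons 878 n98 .nil)
noncomputable def n1331 : Strat := .move 879 n871 (.cons 920 n1330 .nil)
noncomputable def n1332 : Strat := .win 878 5 837
noncomputable def n1333 : Strat := .move 879 n871 (.cons 920 n1332 .nil)
noncomputable def n1334 : Strat := .move 881 n152 (.cons 922 n1333 .nil)
noncomputable def n1335 : Strat := .move 757 n1265 (.cons 881 n1331 (.cons 716 n1334 .nil))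
noncomputable def n1336 : Strat := .move 757 n871 (.cons 920 n1330 .nil)
noncomputable def n1337 : Strat := .move 879 n293 (.cons 842 n1336 .nil)
noncomputable def n1338 : Strat := .win 800 0 755
noncomputable def n1339 : Strat := .win 754 0 754
noncomputable def n1340 : Strat := .move 755 n1338 (.cons 800 n1339 .nil)
noncomputable def n1341 : Strat := .move 756 n162 (.cons 715 n1340 .nil)
noncomputable def n1342 : Strat := .move 757 n154 (.cons 716 n1341 .nil)
noncomputable def n1343 : Strat := .move 758 n156 (.cons 717 n1342 .nil)
noncomputable def n1344 : Strat := .move 921 n159 (.cons 758 n158 .nil)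
noncomputable def n1345 : Strat := .move 921 n1276 (.cons 963 n158 .nil)
noncomputable def n1346 : Strat := .move 922 n1275 (.cons 881 n1345 .nil)
noncomputable def n1347 : Strat := .move 716 n520 (.cons 675 n1272 .nil)
noncomputable def n1348 : Strat := .move 757 n154 (.cons 716 n1346 (.cons 922 n522 (.cons 881 n1347 .nil)))
noncomputable def n1349 : Strat := .move 842 n140 (.cons 843 n1348 .nil)
noncomputable def n1350 : Strat := .move 799 n640 (.cons 921 n1343 (.cons 717 n1344 (.cons 758 n1349 .nil)))
noncomputable def n1351 : Strat := .move 880 n1329 (.cons 842 n1335 (.cons 881 n1337 (.cons 879 n1350 .nil)))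
noncomputable def n1352 : Strat := .move 798 n1301 (.cons 842 n1327 (.cons 799 n1328 (.cons 797 n1351 .nil)))
noncomputable def n1353 : Strat := .move 842 n277 (.cons 801 n175 (.cons 880 n275 .nil))
noncomputable def n1354 : Strat := .move 843 n540 (.cons 844 n1111 .nil)
noncomputable def n1355 : Strat := .move 922 n909 (.cons 759 n699 .nil)
noncomputable def n1356 : Strat := .move 881 n1354 (.cons 880 n1355 .nil)
noncomputable def n1357 : Strat := .move 799 n268 (.cons 837 n1356 .nil)
noncomputable def n1358 : Strat := .move 800 n15 (.cons 801 n1357 .nil)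
noncomputable def n1359 : Strat := .move 838 n22 (.cons 796 n1358 .nil)
noncomputable def n1360 : Strat := .move 797 n23 (.cons 798 n1359 .nil)
noncomputable def n1361 : Strat := .move 843 n122 (.cons 799 n1111 .nil)
noncomputable def n1362 : Strat := .move 799 n140 (.cons 843 n819 .nil)
noncomputable def n1363 : Strat := .move 881 n1361 (.cons 880 n1362 (.cons 843 n281 .nil))
noncomputable def n1364 : Strat := .move 883 n128 (.cons 884 n1363 .nil)
noncomputable def n1365 : Strat := .move 798 n120 (.cons 797 n1364 .nil)
noncomputable def n1366 : Strat := .move 842 n697 (.cons 802 n1360 (.cons 843 n517 (.cons 838 n386 (.cons 801 n1365 .nil))))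
noncomputable def n1367 : Strat := .move 841 n1257 (.cons 842 n1258 (.cons 838 n1262 (.cons 798 n1263 (.cons 880 n1264 (.cons 800 n1285 (.cons 797 n1300 (.cons 801 n1352 (.cons 799 n1353 (.cons 879 n1366 .nil)))))))))
noncomputable def n1368 : Strat := .win 881 1 757
noncomputable def n1369 : Strat := .move 921 n158 (.cons 962 n1368 .nil)
noncomputable def n1370 : Strat := .move 758 n156 (.cons 717 n1369 .nil)
noncomputable def n1371 : Strat := .move 796 n1033 (.cons 841 n1303 .nil)
noncomputable def n1372 : Strat := .move 797 n1095 (.cons 756 n1371 .nil)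
noncomputable def n1373 : Strat := .move 881 n170 (.cons 757 n1372 .nil)
noncomputable def n1374 : Strat := .move 922 n1276 (.cons 963 n1373 .nil)
noncomputable def n1375 : Strat := .win 882 5 878
noncomputable def n1376 : Strat := .win 918 5 877
noncomputable def n1377 : Strat := .move 919 n1375 (.cons 882 n1376 .nil)
noncomputable def n1378 : Strat := .move 920 n657 (.cons 961 n1377 .nil)
noncomputable def n1379 : Strat := .move 881 n170 (.cons 757 n1378 .nil)
noncomputable def n1380 : Strat := .move 922 n1276 (.cons 963 n1379 .nil)
noncomputable def n1381 : Strat := .win 796 0 796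
noncomputable def n1382 : Strat := .move 841 n1381 (.cons 796 n226 .nil)
noncomputable def n1383 : Strat := .move 797 n1095 (.cons 756 n1382 .nil)
noncomputable def n1384 : Strat := .move 798 n1374 (.cons 795 n1380 (.cons 922 n1383 .nil))
noncomputable def n1385 : Strat := .move 921 n158 (.cons 962 n1384 .nil)
noncomputable def n1386 : Strat := .win 798 3 757
noncomputable def n1387 : Strat := .move 921 n158 (.cons 962 n1386 .nil)
noncomputable def n1388 : Strat := .move 758 n156 (.cons 717 n1387 .nil)
noncomputable def n1389 : Strat := .move 755 n1339 (.cons 754 n1338 .nil)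
noncomputable def n1390 : Strat := .move 756 n162 (.cons 715 n1389 .nil)
noncomputable def n1391 : Strat := .move 798 n152 (.cons 922 n1390 .nil)
noncomputable def n1392 : Strat := .move 757 n906 (.cons 716 n1391 .nil)
noncomputable def n1393 : Strat := .move 881 n408 (.cons 921 n1392 .nil)
noncomputable def n1394 : Strat := .move 758 n156 (.cons 717 n1393 .nil)
noncomputable def n1395 : Strat := .win 884 2 839
noncomputable def n1396 : Strat := .win 800 3 758
noncomputable def n1397 : Strat := .move 759 n1396 (.cons 800 n442 .nil)
noncomputable def n1398 : Strat := .move 963 n903 (.cons 1004 n672 .nil)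
noncomputable def n1399 : Strat := .move 922 n1397 (.cons 718 n1398 .nil)
noncomputable def n1400 : Strat := .move 883 n1395 (.cons 884 n1399 .nil)
noncomputable def n1401 : Strat := .move 882 n824 (.cons 923 n1400 .nil)
noncomputable def n1402 : Strat := .win 801 0 756
noncomputable def n1403 : Strat := .win 755 0 755
noncomputable def n1404 : Strat := .move 800 n1402 (.cons 801 n1403 .nil)
noncomputable def n1405 : Strat := .win 714 2 714
noncomputable def n1406 : Strat := .win 798 7 715
noncomputable def n1407 : Strat := .move 715 n1405 (.cons 714 n1406 .nil)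
noncomputable def n1408 : Strat := .move 756 n1404 (.cons 755 n1407 .nil)
noncomputable def n1409 : Strat := .move 759 n442 (.cons 718 n1408 .nil)
noncomputable def n1410 : Strat := .move 757 n906 (.cons 716 n1409 .nil)
noncomputable def n1411 : Strat := .win 882 6 758
noncomputable def n1412 : Strat := .move 922 n458 (.cons 964 n1397 .nil)
noncomputable def n1413 : Strat := .move 923 n1411 (.cons 882 n1412 .nil)
noncomputable def n1414 : Strat := .win 761 4 757
noncomputable def n1415 : Strat := .win 797 4 756
noncomputable def n1416 : Strat := .move 760 n1414 (.cons 761 n1415 .nil)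
noncomputable def n1417 : Strat := .move 759 n442 (.cons 718 n1416 .nil)
noncomputable def n1418 : Strat := .move 798 n152 (.cons 922 n1417 .nil)
noncomputable def n1419 : Strat := .move 757 n906 (.cons 716 n1418 .nil)
noncomputable def n1420 : Strat := .move 881 n1392 (.cons 757 n1401 (.cons 922 n1410 (.cons 798 n1413 (.cons 800 n1419 .nil))))
noncomputable def n1421 : Strat := .move 758 n156 (.cons 717 n1420 .nil)
noncomputable def n1422 : Strat := .move 880 n1370 (.cons 758 n1385 (.cons 881 n1388 (.cons 962 n1394 (.cons 921 n1421 .nil))))
noncomputable def n1423 : Strat := .win 798 1 675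
noncomputable def n1424 : Strat := .win 718 3 676
noncomputable def n1425 : Strat := .win 636 3 635
noncomputable def n1426 : Strat := .move 677 n1424 (.cons 718 n1425 .nil)
noncomputable def n1427 : Strat := .move 676 n1423 (.cons 798 n1426 .nil)
noncomputable def n1428 : Strat := .move 881 n929 (.cons 759 n932 .nil)
noncomputable def n1429 : Strat := .move 716 n933 (.cons 675 n1428 .nil)
noncomputable def n1430 : Strat := .move 718 n928 (.cons 677 n1429 .nil)
noncomputable def n1431 : Strat := .win 716 7 675
noncomputable def n1432 : Strat := .win 634 7 634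
noncomputable def n1433 : Strat := .move 675 n1431 (.cons 716 n1432 .nil)
noncomputable def n1434 : Strat := .move 676 n1423 (.cons 798 n1433 .nil)
noncomputable def n1435 : Strat := .move 717 n1427 (.cons 798 n1430 (.cons 718 n1434 .nil))
noncomputable def n1436 : Strat := .win 800 6 676
noncomputable def n1437 : Strat := .move 676 n1436 (.cons 800 n1433 .nil)
noncomputable def n1438 : Strat := .move 841 n828 (.cons 882 n1437 .nil)
noncomputable def n1439 : Strat := .win 760 0 715
noncomputable def n1440 : Strat := .win 714 0 714
noncomputable def n1441 : Strat := .move 759 n1439 (.cons 760 n1440 .nil)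
noncomputable def n1442 : Strat := .win 719 4 715
noncomputable def n1443 : Strat := .win 755 4 714
noncomputable def n1444 : Strat := .move 756 n1442 (.cons 719 n1443 .nil)
noncomputable def n1445 : Strat := .win 720 4 716
noncomputable def n1446 : Strat := .win 756 4 715
noncomputable def n1447 : Strat := .move 719 n1445 (.cons 720 n1446 .nil)
noncomputable def n1448 : Strat := .win 798 7 674
noncomputable def n1449 : Strat := .win 673 2 673
noncomputable def n1450 : Strat := .move 674 n1448 (.cons 798 n1449 .nil)
noncomputable def n1451 : Strat := .move 757 n1444 (.cons 755 n1447 (.cons 719 n1450 .nil))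
noncomputable def n1452 : Strat := .move 715 n1441 (.cons 714 n1451 .nil)
noncomputable def n1453 : Strat := .move 718 n928 (.cons 677 n1452 .nil)
noncomputable def n1454 : Strat := .move 716 n933 (.cons 675 n1453 .nil)
noncomputable def n1455 : Strat := .move 717 n1427 (.cons 798 n1438 (.cons 676 n1454 .nil))
noncomputable def n1456 : Strat := .win 841 6 717
noncomputable def n1457 : Strat := .move 717 n1456 (.cons 841 n930 .nil)
noncomputable def n1458 : Strat := .move 882 n824 (.cons 923 n1457 .nil)
noncomputable def n1459 : Strat := .win 922 3 758
noncomputable def n1460 : Strat := .move 756 n1402 (.cons 801 n1403 .nil)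
noncomputable def n1461 : Strat := .move 757 n906 (.cons 716 n1460 .nil)
noncomputable def n1462 : Strat := .move 800 n1459 (.cons 922 n1461 .nil)
noncomputable def n1463 : Strat := .move 759 n442 (.cons 718 n1462 .nil)
noncomputable def n1464 : Strat := .move 716 n933 (.cons 675 n932 .nil)
noncomputable def n1465 : Strat := .move 717 n1456 (.cons 841 n1464 .nil)
noncomputable def n1466 : Strat := .move 882 n824 (.cons 923 n1465 .nil)
noncomputable def n1467 : Strat := .move 881 n1458 (.cons 882 n1463 (.cons 759 n1466 .nil))
noncomputable def n1468 : Strat := .move 676 n1423 (.cons 798 n1436 .nil)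
noncomputable def n1469 : Strat := .move 841 n828 (.cons 882 n1468 .nil)
noncomputable def n1470 : Strat := .win 881 3 717
noncomputable def n1471 : Strat := .move 715 n1439 (.cons 760 n1440 .nil)
noncomputable def n1472 : Strat := .move 716 n933 (.cons 675 n1471 .nil)
noncomputable def n1473 : Strat := .move 759 n1470 (.cons 881 n1472 .nil)
noncomputable def n1474 : Strat := .move 718 n928 (.cons 677 n1473 .nil)
noncomputable def n1475 : Strat := .move 717 n1427 (.cons 677 n1469 (.cons 676 n1474 .nil))
noncomputable def n1476 : Strat := .win 881 7 716
noncomputable def n1477 : Strat := .move 718 n928 (.cons 677 n1447 .nil)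
noncomputable def n1478 : Strat := .move 757 n1476 (.cons 881 n1477 .nil)
noncomputable def n1479 : Strat := .move 716 n933 (.cons 675 n1478 .nil)
noncomputable def n1480 : Strat := .move 717 n1434 (.cons 675 n1427 (.cons 676 n1479 .nil))
noncomputable def n1481 : Strat := .move 841 n828 (.cons 882 n1436 .nil)
noncomputable def n1482 : Strat := .move 676 n1423 (.cons 798 n1481 .nil)
noncomputable def n1483 : Strat := .move 882 n1456 (.cons 841 n824 .nil)
noncomputable def n1484 : Strat := .move 881 n929 (.cons 759 n1483 .nil)
noncomputable def n1485 : Strat := .move 718 n928 (.cons 677 n1484 .nil)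
noncomputable def n1486 : Strat := .move 717 n1427 (.cons 677 n1482 (.cons 676 n1485 .nil))
noncomputable def n1487 : Strat := .move 881 n932 (.cons 757 n1483 .nil)
noncomputable def n1488 : Strat := .move 716 n933 (.cons 675 n1487 .nil)
noncomputable def n1489 : Strat := .move 717 n1434 (.cons 716 n1482 (.cons 676 n1488 .nil))
noncomputable def n1490 : Strat := .move 759 n442 (.cons 718 n1396 .nil)
noncomputable def n1491 : Strat := .move 922 n936 (.cons 798 n1490 .nil)
noncomputable def n1492 : Strat := .move 757 n906 (.cons 716 n1491 .nil)
noncomputable def n1493 : Strat := .move 923 n1411 (.cons 882 n458 .nil)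
noncomputable def n1494 : Strat := .move 922 n1396 (.cons 800 n1493 .nil)
noncomputable def n1495 : Strat := .move 759 n442 (.cons 718 n1494 .nil)
noncomputable def n1496 : Strat := .move 922 n936 (.cons 798 n1493 .nil)
noncomputable def n1497 : Strat := .move 757 n906 (.cons 716 n1496 .nil)
noncomputable def n1498 : Strat := .win 802 0 757
noncomputable def n1499 : Strat := .win 800 0 756
noncomputable def n1500 : Strat := .move 801 n1498 (.cons 802 n1499 .nil)
noncomputable def n1501 : Strat := .win 798 4 756
noncomputable def n1502 : Strat := .win 796 4 755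
noncomputable def n1503 : Strat := .move 797 n1501 (.cons 798 n1502 .nil)
noncomputable def n1504 : Strat := .move 760 n1500 (.cons 800 n1503 .nil)
noncomputable def n1505 : Strat := .win 713 2 713
noncomputable def n1506 : Strat := .win 715 2 714
noncomputable def n1507 : Strat := .move 714 n1505 (.cons 713 n1506 .nil)
noncomputable def n1508 : Strat := .move 755 n1338 (.cons 800 n1507 .nil)
noncomputable def n1509 : Strat := .win 795 4 754
noncomputable def n1510 : Strat := .win 797 4 755
noncomputable def n1511 : Strat := .move 796 n1509 (.cons 795 n1510 .nil)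
noncomputable def n1512 : Strat := .move 755 n1507 (.cons 715 n1511 .nil)
noncomputable def n1513 : Strat := .move 756 n1404 (.cons 755 n1504 (.cons 801 n1508 (.cons 800 n1512 .nil)))
noncomputable def n1514 : Strat := .move 759 n442 (.cons 718 n1513 .nil)
noncomputable def n1515 : Strat := .move 757 n906 (.cons 716 n1514 .nil)
noncomputable def n1516 : Strat := .move 881 n1492 (.cons 757 n1495 (.cons 759 n1497 (.cons 922 n1515 .nil)))
noncomputable def n1517 : Strat := .move 758 n1435 (.cons 881 n1455 (.cons 798 n1467 (.cons 757 n1475 (.cons 759 n1480 (.cons 716 n1486 (.cons 718 n1489 (.cons 717 n1516 .nil)))))))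
noncomputable def n1518 : Strat := .move 717 n816 (.cons 880 n1430 .nil)
noncomputable def n1519 : Strat := .win 721 4 717
noncomputable def n1520 : Strat := .win 757 4 716
noncomputable def n1521 : Strat := .move 720 n1519 (.cons 721 n1520 .nil)
noncomputable def n1522 : Strat := .win 676 6 676
noncomputable def n1523 : Strat := .move 800 n556 (.cons 678 n1522 .nil)
noncomputable def n1524 : Strat := .move 719 n1521 (.cons 757 n1523 .nil)
noncomputable def n1525 : Strat := .move 841 n828 (.cons 882 n1524 .nil)
noncomputable def n1526 : Strat := .move 759 n1470 (.cons 881 n1525 .nil)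
noncomputable def n1527 : Strat := .move 718 n928 (.cons 677 n1526 .nil)
noncomputable def n1528 : Strat := .move 717 n816 (.cons 880 n1527 .nil)
noncomputable def n1529 : Strat := .move 922 n699 (.cons 963 n909 .nil)
noncomputable def n1530 : Strat := .move 881 n932 (.cons 757 n1529 .nil)
noncomputable def n1531 : Strat := .move 800 n1522 (.cons 676 n1530 .nil)
noncomputable def n1532 : Strat := .move 841 n828 (.cons 882 n1531 .nil)
noncomputable def n1533 : Strat := .move 716 n933 (.cons 675 n1532 .nil)
noncomputable def n1534 : Strat := .move 717 n816 (.cons 880 n1533 .nil)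
noncomputable def n1535 : Strat := .move 717 n816 (.cons 880 n1474 .nil)
noncomputable def n1536 : Strat := .move 757 n1476 (.cons 881 n1447 .nil)
noncomputable def n1537 : Strat := .move 718 n928 (.cons 677 n1536 .nil)
noncomputable def n1538 : Strat := .move 716 n933 (.cons 675 n1537 .nil)
noncomputable def n1539 : Strat := .move 717 n816 (.cons 880 n1538 .nil)
noncomputable def n1540 : Strat := .move 717 n816 (.cons 880 n1438 .nil)
noncomputable def n1541 : Strat := .move 880 n408 (.cons 921 n1413 .nil)
noncomputable def n1542 : Strat := .win 841 5 837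
noncomputable def n1543 : Strat := .move 878 n1542 (.cons 841 n1320 .nil)
noncomputable def n1544 : Strat := .move 841 n1332 (.cons 878 n293 .nil)
noncomputable def n1545 : Strat := .win 920 4 878
noncomputable def n1546 : Strat := .move 919 n319 (.cons 918 n1545 .nil)
noncomputable def n1547 : Strat := .move 878 n1320 (.cons 877 n1546 .nil)
noncomputable def n1548 : Strat := .win 841 4 838
noncomputable def n1549 : Strat := .win 843 5 839
noncomputable def n1550 : Strat := .move 883 n1549 (.cons 843 n1395 .nil)
noncomputable def n1551 : Strat := .move 842 n1548 (.cons 841 n1550 .nil)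
noncomputable def n1552 : Strat := .move 879 n1543 (.cons 877 n1544 (.cons 841 n1547 (.cons 878 n1551 .nil)))
noncomputable def n1553 : Strat := .move 882 n824 (.cons 923 n1552 .nil)
noncomputable def n1554 : Strat := .move 880 n408 (.cons 921 n1553 .nil)
noncomputable def n1555 : Strat := .move 881 n1541 (.cons 921 n1463 (.cons 800 n1554 .nil))
noncomputable def n1556 : Strat := .move 758 n1518 (.cons 880 n1467 (.cons 675 n1528 (.cons 718 n1534 (.cons 757 n1535 (.cons 759 n1539 (.cons 881 n1540 (.cons 717 n1555 .nil)))))))
noncomputable def n1557 : Strat := .move 796 n1303 (.cons 795 n1033 .nil)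
noncomputable def n1558 : Strat := .move 837 n772 (.cons 836 n1035 .nil)
noncomputable def n1559 : Strat := .move 796 n1303 (.cons 795 n1558 .nil)
noncomputable def n1560 : Strat := .move 796 n1033 (.cons 841 n1558 .nil)
noncomputable def n1561 : Strat := .win 841 2 797
noncomputable def n1562 : Strat := .move 801 n910 (.cons 802 n518 .nil)
noncomputable def n1563 : Strat := .win 757 2 756
noncomputable def n1564 : Strat := .move 801 n1563 (.cons 757 n910 .nil)
noncomputable def n1565 : Strat := .move 756 n468 (.cons 755 n1564 .nil)
noncomputable def n1566 : Strat := .win 921 7 756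
noncomputable def n1567 : Strat := .win 757 7 715
noncomputable def n1568 : Strat := .move 715 n1567 (.cons 757 n469 .nil)
noncomputable def n1569 : Strat := .move 880 n1566 (.cons 921 n1568 .nil)
noncomputable def n1570 : Strat := .move 756 n468 (.cons 755 n1569 .nil)
noncomputable def n1571 : Strat := .move 800 n1562 (.cons 843 n1565 (.cons 801 n1570 .nil))
noncomputable def n1572 : Strat := .move 842 n1561 (.cons 841 n1571 .nil)
noncomputable def n1573 : Strat := .move 797 n1557 (.cons 841 n1559 (.cons 795 n1560 (.cons 796 n1572 .nil)))
noncomputable def n1574 : Strat := .win 923 2 878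
noncomputable def n1575 : Strat := .move 922 n1574 (.cons 923 n1276 .nil)
noncomputable def n1576 : Strat := .move 878 n1320 (.cons 877 n1575 .nil)
noncomputable def n1577 : Strat := .move 879 n390 (.cons 757 n1576 .nil)
noncomputable def n1578 : Strat := .move 920 n657 (.cons 961 n1577 .nil)
noncomputable def n1579 : Strat := .move 921 n158 (.cons 962 n1578 .nil)
noncomputable def n1580 : Strat := .move 758 n156 (.cons 717 n1341 .nil)
noncomputable def n1581 : Strat := .win 801 2 756
noncomputable def n1582 : Strat := .move 800 n1403 (.cons 755 n1581 .nil)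
noncomputable def n1583 : Strat := .move 756 n162 (.cons 715 n1582 .nil)
noncomputable def n1584 : Strat := .move 758 n156 (.cons 717 n1583 .nil)
noncomputable def n1585 : Strat := .move 758 n156 (.cons 717 n1347 .nil)
noncomputable def n1586 : Strat := .move 715 n1271 (.cons 756 n1270 .nil)
noncomputable def n1587 : Strat := .move 716 n520 (.cons 675 n1586 .nil)
noncomputable def n1588 : Strat := .win 758 1 716
noncomputable def n1589 : Strat := .move 716 n520 (.cons 675 n1266 .nil)
noncomputable def n1590 : Strat := .move 717 n1588 (.cons 758 n1589 .nil)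
noncomputable def n1591 : Strat := .move 757 n1580 (.cons 754 n1584 (.cons 755 n1585 (.cons 758 n1587 (.cons 756 n1590 .nil))))
noncomputable def n1592 : Strat := .move 880 n640 (.cons 758 n1579 (.cons 921 n1591 .nil))
noncomputable def n1593 : Strat := .move 756 n1563 (.cons 757 n468 .nil)
noncomputable def n1594 : Strat := .move 801 n910 (.cons 802 n1593 .nil)
noncomputable def n1595 : Strat := .win 761 5 757
noncomputable def n1596 : Strat := .win 759 5 756
noncomputable def n1597 : Strat := .move 760 n1595 (.cons 761 n1596 .nil)
noncomputable def n1598 : Strat := .move 801 n910 (.cons 802 n1597 .nil)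
noncomputable def n1599 : Strat := .move 800 n1594 (.cons 757 n1598 (.cons 801 n1570 .nil))
noncomputable def n1600 : Strat := .move 841 n226 (.cons 842 n1599 .nil)
noncomputable def n1601 : Strat := .move 841 n1381 (.cons 796 n1599 .nil)
noncomputable def n1602 : Strat := .win 800 2 755
noncomputable def n1603 : Strat := .win 878 3 714
noncomputable def n1604 : Strat := .move 837 n1603 (.cons 878 n772 .nil)
noncomputable def n1605 : Strat := .move 715 n469 (.cons 674 n1604 .nil)
noncomputable def n1606 : Strat := .move 756 n1602 (.cons 800 n1605 .nil)
noncomputable def n1607 : Strat := .move 755 n773 (.cons 754 n1606 .nil)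
noncomputable def n1608 : Strat := .move 796 n1303 (.cons 795 n1607 .nil)
noncomputable def n1609 : Strat := .move 797 n1382 (.cons 796 n1600 (.cons 842 n1601 (.cons 841 n1608 .nil)))
noncomputable def n1610 : Strat := .move 758 n1034 (.cons 759 n818 .nil)
noncomputable def n1611 : Strat := .move 796 n1303 (.cons 795 n1610 .nil)
noncomputable def n1612 : Strat := .move 717 n828 (.cons 882 n815 .nil)
noncomputable def n1613 : Strat := .move 880 n155 (.cons 921 n156 .nil)
noncomputable def n1614 : Strat := .move 801 n1595 (.cons 761 n910 .nil)
noncomputable def n1615 : Strat := .move 760 n1596 (.cons 759 n1614 .nil)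
noncomputable def n1616 : Strat := .move 758 n817 (.cons 880 n1612 (.cons 676 n1613 (.cons 717 n1615 .nil)))
noncomputable def n1617 : Strat := .move 841 n1190 (.cons 842 n1616 .nil)
noncomputable def n1618 : Strat := .move 758 n815 (.cons 676 n816 .nil)
noncomputable def n1619 : Strat := .move 758 n828 (.cons 882 n815 .nil)
noncomputable def n1620 : Strat := .move 758 n828 (.cons 882 n816 .nil)
noncomputable def n1621 : Strat := .move 718 n561 (.cons 676 n474 .nil)
noncomputable def n1622 : Strat := .move 717 n1618 (.cons 880 n1619 (.cons 676 n1620 (.cons 758 n1621 .nil)))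
noncomputable def n1623 : Strat := .move 759 n473 (.cons 760 n1622 .nil)
noncomputable def n1624 : Strat := .move 841 n1190 (.cons 842 n1623 .nil)
noncomputable def n1625 : Strat := .move 841 n1190 (.cons 842 n1598 .nil)
noncomputable def n1626 : Strat := .move 760 n1596 (.cons 759 n1595 .nil)
noncomputable def n1627 : Strat := .move 801 n910 (.cons 802 n1626 .nil)
noncomputable def n1628 : Strat := .win 841 0 797
noncomputable def n1629 : Strat := .move 842 n1628 (.cons 841 n1562 .nil)
noncomputable def n1630 : Strat := .move 800 n1617 (.cons 801 n1624 (.cons 880 n1625 (.cons 841 n1627 (.cons 759 n1629 .nil))))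
noncomputable def n1631 : Strat := .move 797 n1557 (.cons 841 n1611 (.cons 795 n1382 (.cons 796 n1630 .nil)))
noncomputable def n1632 : Strat := .move 921 n158 (.cons 962 n1383 .nil)
noncomputable def n1633 : Strat := .move 797 n1033 (.cons 841 n1303 .nil)
noncomputable def n1634 : Strat := .win 759 4 755
noncomputable def n1635 : Strat := .move 797 n1634 (.cons 759 n1033 .nil)
noncomputable def n1636 : Strat := .move 797 n1634 (.cons 759 n1303 .nil)
noncomputable def n1637 : Strat := .move 755 n1509 (.cons 795 n1339 .nil)
noncomputable def n1638 : Strat := .move 796 n1633 (.cons 795 n1635 (.cons 841 n1636 (.cons 797 n1637 .nil)))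
noncomputable def n1639 : Strat := .move 756 n162 (.cons 715 n1638 .nil)
noncomputable def n1640 : Strat := .move 758 n156 (.cons 717 n1639 .nil)
noncomputable def n1641 : Strat := .move 757 n1585 (.cons 716 n1640 (.cons 758 n1587 (.cons 756 n1590 .nil)))
noncomputable def n1642 : Strat := .move 880 n160 (.cons 758 n1632 (.cons 962 n640 (.cons 921 n1641 .nil)))
noncomputable def n1643 : Strat := .move 717 n816 (.cons 880 n815 .nil)
noncomputable def n1644 : Strat := .move 758 n1034 (.cons 759 n1643 .nil)
noncomputable def n1645 : Strat := .move 796 n1303 (.cons 795 n1644 .nil)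
noncomputable def n1646 : Strat := .move 800 n1594 (.cons 801 n1623 .nil)
noncomputable def n1647 : Strat := .move 841 n226 (.cons 842 n1646 .nil)
noncomputable def n1648 : Strat := .move 797 n1557 (.cons 795 n1382 (.cons 841 n1645 (.cons 796 n1647 .nil)))
noncomputable def n1649 : Strat := .move 842 n120 (.cons 797 n140 .nil)
noncomputable def n1650 : Strat := .move 842 n140 (.cons 843 n149 .nil)
noncomputable def n1651 : Strat := .move 797 n1381 (.cons 796 n226 .nil)
noncomputable def n1652 : Strat := .move 797 n1596 (.cons 759 n1381 .nil)
noncomputable def n1653 : Strat := .move 760 n1595 (.cons 761 n1652 .nil)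
noncomputable def n1654 : Strat := .move 801 n910 (.cons 802 n1653 .nil)
noncomputable def n1655 : Strat := .move 801 n1595 (.cons 761 n1563 .nil)
noncomputable def n1656 : Strat := .move 760 n1596 (.cons 759 n1655 .nil)
noncomputable def n1657 : Strat := .move 756 n468 (.cons 755 n1656 .nil)
noncomputable def n1658 : Strat := .move 797 n1381 (.cons 796 n1657 .nil)
noncomputable def n1659 : Strat := .move 797 n1381 (.cons 796 n1565 .nil)
noncomputable def n1660 : Strat := .win 923 3 759
noncomputable def n1661 : Strat := .win 759 3 718
noncomputable def n1662 : Strat := .win 678 1 677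
noncomputable def n1663 : Strat := .move 719 n1661 (.cons 759 n1662 .nil)
noncomputable def n1664 : Strat := .move 882 n1660 (.cons 923 n1663 .nil)
noncomputable def n1665 : Strat := .move 760 n1595 (.cons 761 n1664 .nil)
noncomputable def n1666 : Strat := .move 801 n910 (.cons 802 n1665 .nil)
noncomputable def n1667 : Strat := .win 883 6 759
noncomputable def n1668 : Strat := .move 759 n1667 (.cons 883 n473 .nil)
noncomputable def n1669 : Strat := .move 923 n352 (.cons 965 n201 .nil)
noncomputable def n1670 : Strat := .move 924 n1668 (.cons 760 n1669 .nil)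
noncomputable def n1671 : Strat := .move 797 n1381 (.cons 796 n1670 .nil)
noncomputable def n1672 : Strat := .win 758 6 717
noncomputable def n1673 : Strat := .move 797 n473 (.cons 760 n1381 .nil)
noncomputable def n1674 : Strat := .win 797 5 756
noncomputable def n1675 : Strat := .move 760 n205 (.cons 719 n1674 .nil)
noncomputable def n1676 : Strat := .move 759 n1673 (.cons 796 n1675 (.cons 760 n1621 .nil))
noncomputable def n1677 : Strat := .move 717 n1672 (.cons 758 n1676 .nil)
noncomputable def n1678 : Strat := .move 882 n269 (.cons 717 n203 (.cons 758 n1671 (.cons 923 n1677 .nil)))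
noncomputable def n1679 : Strat := .move 800 n1654 (.cons 802 n1658 (.cons 760 n1659 (.cons 797 n1666 (.cons 801 n1678 .nil))))
noncomputable def n1680 : Strat := .move 841 n1649 (.cons 797 n1650 (.cons 843 n1651 (.cons 842 n1679 .nil)))
noncomputable def n1681 : Strat := .move 798 n1573 (.cons 797 n1592 (.cons 758 n1609 (.cons 757 n1631 (.cons 800 n1642 (.cons 921 n1648 (.cons 880 n1680 .nil))))))
noncomputable def n1682 : Strat := .win 879 1 756
noncomputable def n1683 : Strat := .move 920 n1682 (.cons 879 n657 .nil)
noncomputable def n1684 : Strat := .move 757 n1275 (.cons 881 n1683 .nil)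
noncomputable def n1685 : Strat := .move 922 n1276 (.cons 963 n1684 .nil)
noncomputable def n1686 : Strat := .move 798 n1685 (.cons 922 n1383 .nil)
noncomputable def n1687 : Strat := .move 921 n158 (.cons 962 n1686 .nil)
noncomputable def n1688 : Strat := .move 881 n408 (.cons 921 n1419 .nil)
noncomputable def n1689 : Strat := .move 758 n156 (.cons 717 n1688 .nil)
noncomputable def n1690 : Strat := .win 798 1 756
noncomputable def n1691 : Strat := .move 920 n389 (.cons 919 n1690 .nil)
noncomputable def n1692 : Strat := .move 879 n1543 (.cons 877 n1544 (.cons 841 n1691 .nil))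
noncomputable def n1693 : Strat := .move 882 n824 (.cons 923 n1692 .nil)
noncomputable def n1694 : Strat := .move 757 n906 (.cons 716 n1693 .nil)
noncomputable def n1695 : Strat := .move 757 n152 (.cons 922 n1417 .nil)
noncomputable def n1696 : Strat := .move 923 n458 (.cons 964 n1411 .nil)
noncomputable def n1697 : Strat := .move 922 n171 (.cons 963 n1696 .nil)
noncomputable def n1698 : Strat := .move 841 n140 (.cons 843 n121 .nil)
noncomputable def n1699 : Strat := .move 841 n120 (.cons 797 n140 .nil)
noncomputable def n1700 : Strat := .move 841 n120 (.cons 797 n121 .nil)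
noncomputable def n1701 : Strat := .move 842 n1698 (.cons 879 n1699 (.cons 843 n1700 (.cons 841 n1550 .nil)))
noncomputable def n1702 : Strat := .move 882 n824 (.cons 923 n1701 .nil)
noncomputable def n1703 : Strat := .move 798 n1695 (.cons 757 n1697 (.cons 922 n1702 .nil))
noncomputable def n1704 : Strat := .move 881 n1419 (.cons 922 n1694 (.cons 716 n1703 (.cons 798 n1553 .nil)))
noncomputable def n1705 : Strat := .move 758 n156 (.cons 717 n1704 .nil)
noncomputable def n1706 : Strat := .move 880 n1370 (.cons 758 n1687 (.cons 881 n1388 (.cons 962 n1689 (.cons 921 n1705 .nil))))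
noncomputable def n1707 : Strat := .move 922 n171 (.cons 963 n1397 .nil)
noncomputable def n1708 : Strat := .move 880 n408 (.cons 921 n1707 .nil)
noncomputable def n1709 : Strat := .move 880 n408 (.cons 921 n1390 .nil)
noncomputable def n1710 : Strat := .move 757 n153 (.cons 716 n1709 .nil)
noncomputable def n1711 : Strat := .move 758 n575 (.cons 716 n819 (.cons 757 n1708 (.cons 922 n1710 .nil)))
noncomputable def n1712 : Strat := .move 758 n408 (.cons 921 n1390 .nil)
noncomputable def n1713 : Strat := .move 879 n871 (.cons 920 n1543 .nil)
noncomputable def n1714 : Strat := .move 880 n1712 (.cons 758 n1713 .nil)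
noncomputable def n1715 : Strat := .move 757 n153 (.cons 716 n1714 .nil)
noncomputable def n1716 : Strat := .move 880 n496 (.cons 758 n1372 .nil)
noncomputable def n1717 : Strat := .move 921 n677 (.cons 962 n1716 .nil)
noncomputable def n1718 : Strat := .move 922 n171 (.cons 963 n1717 .nil)
noncomputable def n1719 : Strat := .move 798 n1711 (.cons 880 n819 (.cons 963 n575 (.cons 922 n1715 (.cons 757 n1718 .nil))))
noncomputable def n1720 : Strat := .move 758 n408 (.cons 921 n1410 .nil)
noncomputable def n1721 : Strat := .move 758 n1410 (.cons 716 n1553 .nil)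
noncomputable def n1722 : Strat := .move 758 n408 (.cons 921 n1553 .nil)
noncomputable def n1723 : Strat := .move 757 n153 (.cons 716 n1683 .nil)
noncomputable def n1724 : Strat := .move 798 n1372 (.cons 795 n1723 .nil)
noncomputable def n1725 : Strat := .move 921 n158 (.cons 962 n1724 .nil)
noncomputable def n1726 : Strat := .move 880 n1720 (.cons 921 n1721 (.cons 716 n1722 (.cons 758 n1725 .nil)))
noncomputable def n1727 : Strat := .move 758 n821 (.cons 880 n1411 .nil)
noncomputable def n1728 : Strat := .move 923 n458 (.cons 964 n1727 .nil)
noncomputable def n1729 : Strat := .move 921 n677 (.cons 962 n1728 .nil)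
noncomputable def n1730 : Strat := .win 841 3 799
noncomputable def n1731 : Strat := .win 923 6 799
noncomputable def n1732 : Strat := .win 1005 6 840
noncomputable def n1733 : Strat := .move 964 n1731 (.cons 923 n1732 .nil)
noncomputable def n1734 : Strat := .move 963 n1730 (.cons 841 n1733 .nil)
noncomputable def n1735 : Strat := .move 800 n909 (.cons 759 n1734 .nil)
noncomputable def n1736 : Strat := .move 800 n1730 (.cons 841 n909 .nil)
noncomputable def n1737 : Strat := .move 963 n903 (.cons 1004 n1736 .nil)
noncomputable def n1738 : Strat := .move 880 n496 (.cons 758 n1737 .nil)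
noncomputable def n1739 : Strat := .move 921 n677 (.cons 962 n1738 .nil)
noncomputable def n1740 : Strat := .move 922 n1729 (.cons 921 n1735 (.cons 923 n1739 .nil))
noncomputable def n1741 : Strat := .move 841 n1190 (.cons 842 n1381 .nil)
noncomputable def n1742 : Strat := .win 880 7 756
noncomputable def n1743 : Strat := .move 756 n468 (.cons 755 n1742 .nil)
noncomputable def n1744 : Strat := .move 797 n1371 (.cons 795 n1741 (.cons 841 n1743 .nil))
noncomputable def n1745 : Strat := .move 800 n909 (.cons 759 n1744 .nil)
noncomputable def n1746 : Strat := .move 921 n677 (.cons 962 n1745 .nil)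
noncomputable def n1747 : Strat := .move 798 n328 (.cons 757 n1746 .nil)
noncomputable def n1748 : Strat := .move 962 n674 (.cons 921 n673 .nil)
noncomputable def n1749 : Strat := .move 963 n672 (.cons 798 n1748 .nil)
noncomputable def n1750 : Strat := .move 963 n903 (.cons 1004 n1730 .nil)
noncomputable def n1751 : Strat := .win 924 2 879
noncomputable def n1752 : Strat := .win 878 0 878
noncomputable def n1753 : Strat := .move 879 n1751 (.cons 924 n1752 .nil)
noncomputable def n1754 : Strat := .move 880 n1750 (.cons 841 n1753 .nil)
noncomputable def n1755 : Strat := .move 800 n909 (.cons 759 n1754 .nil)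
noncomputable def n1756 : Strat := .move 923 n458 (.cons 964 n1755 .nil)
noncomputable def n1757 : Strat := .move 921 n677 (.cons 962 n1756 .nil)
noncomputable def n1758 : Strat := .move 922 n461 (.cons 963 n1747 (.cons 757 n1749 (.cons 798 n1757 .nil)))
noncomputable def n1759 : Strat := .move 880 n1392 (.cons 757 n1401 (.cons 922 n1410 (.cons 798 n1413 (.cons 800 n1419 .nil))))
noncomputable def n1760 : Strat := .win 880 7 715
noncomputable def n1761 : Strat := .move 715 n1760 (.cons 880 n1405 .nil)
noncomputable def n1762 : Strat := .move 756 n1404 (.cons 755 n1761 .nil)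
noncomputable def n1763 : Strat := .move 798 n1416 (.cons 797 n1762 .nil)
noncomputable def n1764 : Strat := .move 759 n442 (.cons 718 n1763 .nil)
noncomputable def n1765 : Strat := .move 757 n906 (.cons 716 n1764 .nil)
noncomputable def n1766 : Strat := .move 759 n1416 (.cons 797 n1762 .nil)
noncomputable def n1767 : Strat := .move 798 n574 (.cons 922 n1766 .nil)
noncomputable def n1768 : Strat := .move 757 n906 (.cons 716 n1767 .nil)
noncomputable def n1769 : Strat := .move 798 n574 (.cons 922 n1417 .nil)
noncomputable def n1770 : Strat := .move 757 n906 (.cons 716 n1769 .nil)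
noncomputable def n1771 : Strat := .move 922 n905 (.cons 798 n1696 .nil)
noncomputable def n1772 : Strat := .move 757 n906 (.cons 716 n1771 .nil)
noncomputable def n1773 : Strat := .move 920 n1690 (.cons 798 n389 .nil)
noncomputable def n1774 : Strat := .move 879 n1543 (.cons 877 n1544 (.cons 841 n1773 .nil))
noncomputable def n1775 : Strat := .move 757 n906 (.cons 716 n1774 .nil)
noncomputable def n1776 : Strat := .move 882 n824 (.cons 923 n1775 .nil)
noncomputable def n1777 : Strat := .move 880 n1392 (.cons 715 n1772 (.cons 922 n1776 (.cons 798 n1553 .nil)))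
noncomputable def n1778 : Strat := .move 758 n1759 (.cons 757 n1495 (.cons 922 n1765 (.cons 718 n1768 (.cons 800 n1770 (.cons 759 n1777 .nil)))))
noncomputable def n1779 : Strat := .move 880 n408 (.cons 921 n1419 .nil)
noncomputable def n1780 : Strat := .move 922 n677 (.cons 962 n1493 .nil)
noncomputable def n1781 : Strat := .move 921 n821 (.cons 880 n1780 .nil)
noncomputable def n1782 : Strat := .move 880 n408 (.cons 921 n1410 .nil)
noncomputable def n1783 : Strat := .move 758 n1492 (.cons 800 n1779 (.cons 757 n1781 (.cons 922 n1782 .nil)))
noncomputable def n1784 : Strat := .move 758 n1492 (.cons 757 n1495 (.cons 759 n1497 (.cons 922 n1515 .nil)))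
noncomputable def n1785 : Strat := .win 798 6 798
noncomputable def n1786 : Strat := .move 963 n1785 (.cons 798 n903 .nil)
noncomputable def n1787 : Strat := .move 880 n496 (.cons 758 n1786 .nil)
noncomputable def n1788 : Strat := .move 921 n677 (.cons 962 n1787 .nil)
noncomputable def n1789 : Strat := .move 923 n458 (.cons 964 n1753 .nil)
noncomputable def n1790 : Strat := .move 880 n496 (.cons 758 n1789 .nil)
noncomputable def n1791 : Strat := .move 921 n677 (.cons 962 n1790 .nil)
noncomputable def n1792 : Strat := .move 922 n461 (.cons 757 n1788 (.cons 798 n1791 .nil))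
noncomputable def n1793 : Strat := .move 881 n1719 (.cons 922 n1726 (.cons 798 n1740 (.cons 758 n1758 (.cons 921 n1778 (.cons 841 n1783 (.cons 880 n1784 (.cons 800 n1792 .nil)))))))
noncomputable def n1794 : Strat := .move 758 n156 (.cons 717 n1368 .nil)
noncomputable def n1795 : Strat := .move 921 n158 (.cons 962 n1794 .nil)
noncomputable def n1796 : Strat := .win 965 0 920
noncomputable def n1797 : Strat := .win 881 6 799
noncomputable def n1798 : Strat := .move 964 n1796 (.cons 965 n1797 .nil)
noncomputable def n1799 : Strat := .win 878 2 878
noncomputable def n1800 : Strat := .move 879 n1799 (.cons 878 n1751 .nil)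
noncomputable def n1801 : Strat := .move 923 n1798 (.cons 881 n1800 .nil)
noncomputable def n1802 : Strat := .move 920 n657 (.cons 961 n1801 .nil)
noncomputable def n1803 : Strat := .move 922 n1276 (.cons 963 n1802 .nil)
noncomputable def n1804 : Strat := .move 798 n1383 (.cons 841 n1803 .nil)
noncomputable def n1805 : Strat := .move 921 n158 (.cons 962 n1804 .nil)
noncomputable def n1806 : Strat := .move 881 n408 (.cons 921 n1401 .nil)
noncomputable def n1807 : Strat := .move 758 n156 (.cons 717 n1806 .nil)
noncomputable def n1808 : Strat := .move 758 n156 (.cons 717 n1386 .nil)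
noncomputable def n1809 : Strat := .move 921 n158 (.cons 962 n1808 .nil)
noncomputable def n1810 : Strat := .move 922 n1396 (.cons 800 n1398 .nil)
noncomputable def n1811 : Strat := .move 759 n442 (.cons 718 n1810 .nil)
noncomputable def n1812 : Strat := .move 922 n458 (.cons 964 n1396 .nil)
noncomputable def n1813 : Strat := .move 923 n1411 (.cons 882 n1812 .nil)
noncomputable def n1814 : Strat := .move 759 n442 (.cons 718 n1813 .nil)
noncomputable def n1815 : Strat := .move 922 n458 (.cons 964 n1398 .nil)
noncomputable def n1816 : Strat := .move 923 n1411 (.cons 882 n1815 .nil)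
noncomputable def n1817 : Strat := .move 881 n1401 (.cons 882 n1811 (.cons 963 n1814 (.cons 759 n1816 (.cons 922 n1553 .nil))))
noncomputable def n1818 : Strat := .move 758 n156 (.cons 717 n1817 .nil)
noncomputable def n1819 : Strat := .move 880 n1795 (.cons 758 n1805 (.cons 962 n1807 (.cons 881 n1809 (.cons 921 n1818 .nil))))
noncomputable def n1820 : Strat := .move 798 n159 (.cons 758 n1383 .nil)
noncomputable def n1821 : Strat := .move 921 n158 (.cons 962 n1820 .nil)
noncomputable def n1822 : Strat := .move 881 n408 (.cons 921 n1410 .nil)
noncomputable def n1823 : Strat := .move 758 n156 (.cons 717 n1822 .nil)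
noncomputable def n1824 : Strat := .move 881 n1410 (.cons 716 n1553 .nil)
noncomputable def n1825 : Strat := .move 758 n156 (.cons 717 n1824 .nil)
noncomputable def n1826 : Strat := .win 883 4 879
noncomputable def n1827 : Strat := .win 879 4 878
noncomputable def n1828 : Strat := .move 919 n1827 (.cons 879 n1376 .nil)
noncomputable def n1829 : Strat := .move 882 n1826 (.cons 883 n1828 .nil)
noncomputable def n1830 : Strat := .move 920 n657 (.cons 961 n1829 .nil)
noncomputable def n1831 : Strat := .win 797 7 756
noncomputable def n1832 : Strat := .move 756 n162 (.cons 715 n1831 .nil)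
noncomputable def n1833 : Strat := .move 757 n153 (.cons 716 n1832 .nil)
noncomputable def n1834 : Strat := .move 881 n1723 (.cons 757 n1830 (.cons 961 n1833 .nil))
noncomputable def n1835 : Strat := .win 881 5 837
noncomputable def n1836 : Strat := .move 878 n1835 (.cons 881 n1320 .nil)
noncomputable def n1837 : Strat := .move 841 n293 (.cons 842 n1836 .nil)
noncomputable def n1838 : Strat := .move 879 n390 (.cons 757 n1837 .nil)
noncomputable def n1839 : Strat := .move 920 n657 (.cons 961 n1838 .nil)
noncomputable def n1840 : Strat := .move 798 n1383 (.cons 841 n1834 (.cons 756 n1839 .nil))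
noncomputable def n1841 : Strat := .move 921 n158 (.cons 962 n1840 .nil)
noncomputable def n1842 : Strat := .move 880 n1821 (.cons 841 n1823 (.cons 921 n1825 (.cons 756 n1370 (.cons 758 n1841 .nil))))
noncomputable def n1843 : Strat := .move 881 n1392 (.cons 715 n1772 (.cons 922 n1776 (.cons 798 n1553 .nil)))
noncomputable def n1844 : Strat := .move 758 n156 (.cons 717 n1843 .nil)
noncomputable def n1845 : Strat := .move 757 n1275 (.cons 881 n1832 .nil)
noncomputable def n1846 : Strat := .move 922 n1276 (.cons 963 n1845 .nil)
noncomputable def n1847 : Strat := .move 798 n1685 (.cons 879 n1846 (.cons 922 n1383 .nil))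
noncomputable def n1848 : Strat := .move 921 n158 (.cons 962 n1847 .nil)
noncomputable def n1849 : Strat := .move 880 n1795 (.cons 881 n1388 (.cons 962 n1394 (.cons 921 n1844 (.cons 758 n1848 .nil))))
noncomputable def n1850 : Strat := .move 717 n816 (.cons 880 n1427 .nil)
noncomputable def n1851 : Strat := .move 880 n156 (.cons 717 n1369 .nil)
noncomputable def n1852 : Strat := .move 880 n408 (.cons 921 n1392 .nil)
noncomputable def n1853 : Strat := .move 922 n905 (.cons 798 n1397 .nil)
noncomputable def n1854 : Strat := .move 757 n906 (.cons 716 n1853 .nil)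
noncomputable def n1855 : Strat := .move 880 n408 (.cons 921 n1854 .nil)
noncomputable def n1856 : Strat := .move 880 n408 (.cons 921 n1811 .nil)
noncomputable def n1857 : Strat := .move 964 n1732 (.cons 1005 n1731 .nil)
noncomputable def n1858 : Strat := .move 963 n903 (.cons 1004 n1857 .nil)
noncomputable def n1859 : Strat := .move 922 n1396 (.cons 800 n1858 .nil)
noncomputable def n1860 : Strat := .move 759 n442 (.cons 718 n1859 .nil)
noncomputable def n1861 : Strat := .move 880 n408 (.cons 921 n1860 .nil)
noncomputable def n1862 : Strat := .move 881 n1852 (.cons 715 n1855 (.cons 800 n1779 (.cons 880 n1492 (.cons 757 n1856 (.cons 798 n1861 (.cons 922 n1782 .nil))))))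
noncomputable def n1863 : Strat := .move 718 n928 (.cons 677 n1428 .nil)
noncomputable def n1864 : Strat := .move 716 n933 (.cons 675 n1863 .nil)
noncomputable def n1865 : Strat := .move 717 n1427 (.cons 718 n1434 (.cons 676 n1864 .nil))
noncomputable def n1866 : Strat := .move 758 n1850 (.cons 677 n1851 (.cons 717 n1862 (.cons 880 n1865 .nil)))
noncomputable def n1867 : Strat := .move 758 n1368 (.cons 881 n1386 .nil)
noncomputable def n1868 : Strat := .move 921 n158 (.cons 962 n1867 .nil)
noncomputable def n1869 : Strat := .move 921 n1368 (.cons 881 n1386 .nil)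
noncomputable def n1870 : Strat := .move 758 n156 (.cons 717 n1869 .nil)
noncomputable def n1871 : Strat := .move 881 n1392 (.cons 755 n1419 (.cons 757 n1811 (.cons 798 n1463 (.cons 922 n1410 .nil))))
noncomputable def n1872 : Strat := .move 758 n156 (.cons 717 n1871 .nil)
noncomputable def n1873 : Strat := .move 798 n1383 (.cons 842 n1685 .nil)
noncomputable def n1874 : Strat := .move 921 n158 (.cons 962 n1873 .nil)
noncomputable def n1875 : Strat := .move 880 n1370 (.cons 717 n1868 (.cons 962 n1870 (.cons 881 n1388 (.cons 921 n1872 (.cons 758 n1874 .nil)))))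
noncomputable def n1876 : Strat := .move 881 n932 (.cons 757 n930 .nil)
noncomputable def n1877 : Strat := .move 716 n933 (.cons 675 n1876 .nil)
noncomputable def n1878 : Strat := .move 717 n1427 (.cons 718 n1434 (.cons 676 n1877 .nil))
noncomputable def n1879 : Strat := .move 880 n408 (.cons 921 n1401 .nil)
noncomputable def n1880 : Strat := .move 880 n408 (.cons 921 n1776 .nil)
noncomputable def n1881 : Strat := .move 881 n1855 (.cons 757 n1879 (.cons 922 n1880 (.cons 880 n1492 (.cons 798 n1541 .nil))))
noncomputable def n1882 : Strat := .move 758 n1850 (.cons 677 n1851 (.cons 880 n1878 (.cons 717 n1881 .nil)))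
noncomputable def n1883 : Strat := .move 881 n153 (.cons 716 n574 .nil)
noncomputable def n1884 : Strat := .win 797 2 755
noncomputable def n1885 : Strat := .move 800 n1884 (.cons 797 n1581 .nil)
noncomputable def n1886 : Strat := .move 755 n1339 (.cons 754 n1885 .nil)
noncomputable def n1887 : Strat := .move 756 n1760 (.cons 880 n1886 .nil)
noncomputable def n1888 : Strat := .move 715 n1270 (.cons 674 n1887 .nil)
noncomputable def n1889 : Strat := .move 716 n520 (.cons 675 n1888 .nil)
noncomputable def n1890 : Strat := .move 921 n158 (.cons 962 n1683 .nil)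
noncomputable def n1891 : Strat := .move 921 n1831 (.cons 797 n158 .nil)
noncomputable def n1892 : Strat := .move 756 n162 (.cons 715 n1891 .nil)
noncomputable def n1893 : Strat := .move 880 n1713 (.cons 841 n1890 (.cons 920 n1892 .nil))
noncomputable def n1894 : Strat := .move 881 n574 (.cons 922 n1893 .nil)
noncomputable def n1895 : Strat := .move 757 n1883 (.cons 881 n1889 (.cons 716 n1894 .nil))
noncomputable def n1896 : Strat := .move 718 n475 (.cons 881 n474 .nil)
noncomputable def n1897 : Strat := .move 759 n473 (.cons 760 n1896 .nil)
noncomputable def n1898 : Strat := .move 841 n1190 (.cons 842 n1897 .nil)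
noncomputable def n1899 : Strat := .move 800 n1898 (.cons 841 n1627 (.cons 759 n1629 .nil))
noncomputable def n1900 : Strat := .move 797 n1382 (.cons 841 n1608 (.cons 796 n1899 .nil))
noncomputable def n1901 : Strat := .win 718 4 714
noncomputable def n1902 : Strat := .move 755 n1901 (.cons 718 n1339 .nil)
noncomputable def n1903 : Strat := .move 717 n1266 (.cons 676 n1902 .nil)
noncomputable def n1904 : Strat := .move 756 n1760 (.cons 880 n1903 .nil)
noncomputable def n1905 : Strat := .move 715 n1270 (.cons 674 n1904 .nil)
noncomputable def n1906 : Strat := .move 716 n520 (.cons 675 n1905 .nil)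
noncomputable def n1907 : Strat := .move 881 n152 (.cons 922 n1713 .nil)
noncomputable def n1908 : Strat := .move 879 n871 (.cons 920 n1544 .nil)
noncomputable def n1909 : Strat := .move 881 n152 (.cons 922 n1908 .nil)
noncomputable def n1910 : Strat := .move 921 n158 (.cons 962 n1276 .nil)
noncomputable def n1911 : Strat := .move 922 n1275 (.cons 881 n1910 .nil)
noncomputable def n1912 : Strat := .move 880 n1907 (.cons 877 n1909 (.cons 879 n1911 (.cons 881 n1890 .nil)))
noncomputable def n1913 : Strat := .move 757 n1883 (.cons 881 n1906 (.cons 716 n1912 .nil))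
noncomputable def n1914 : Strat := .move 755 n1884 (.cons 797 n1339 .nil)
noncomputable def n1915 : Strat := .move 800 n1581 (.cons 801 n1914 .nil)
noncomputable def n1916 : Strat := .move 756 n162 (.cons 715 n1915 .nil)
noncomputable def n1917 : Strat := .move 880 n1890 (.cons 961 n1892 (.cons 921 n1916 .nil))
noncomputable def n1918 : Strat := .move 881 n574 (.cons 922 n1917 .nil)
noncomputable def n1919 : Strat := .move 757 n1883 (.cons 716 n1918 (.cons 922 n522 (.cons 881 n1889 .nil)))
noncomputable def n1920 : Strat := .move 920 n657 (.cons 961 n1682 .nil)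
noncomputable def n1921 : Strat := .move 921 n158 (.cons 962 n1920 .nil)
noncomputable def n1922 : Strat := .move 756 n1831 (.cons 797 n162 .nil)
noncomputable def n1923 : Strat := .move 921 n158 (.cons 962 n1922 .nil)
noncomputable def n1924 : Strat := .move 880 n1713 (.cons 878 n1921 (.cons 879 n1923 .nil))
noncomputable def n1925 : Strat := .move 757 n153 (.cons 716 n1924 .nil)
noncomputable def n1926 : Strat := .win 960 4 919
noncomputable def n1927 : Strat := .win 880 1 797
noncomputable def n1928 : Strat := .move 961 n1926 (.cons 960 n1927 .nil)
noncomputable def n1929 : Strat := .win 883 5 879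
noncomputable def n1930 : Strat := .win 919 5 878
noncomputable def n1931 : Strat := .move 882 n1929 (.cons 883 n1930 .nil)
noncomputable def n1932 : Strat := .move 920 n1928 (.cons 880 n1931 .nil)
noncomputable def n1933 : Strat := .move 923 n458 (.cons 964 n1932 .nil)
noncomputable def n1934 : Strat := .move 921 n677 (.cons 962 n1933 .nil)
noncomputable def n1935 : Strat := .move 922 n171 (.cons 963 n1934 .nil)
noncomputable def n1936 : Strat := .move 881 n819 (.cons 922 n1925 (.cons 757 n1935 .nil))
noncomputable def n1937 : Strat := .move 800 n1897 (.cons 677 n1594 .nil)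
noncomputable def n1938 : Strat := .move 841 n226 (.cons 842 n1937 .nil)
noncomputable def n1939 : Strat := .win 756 2 755
noncomputable def n1940 : Strat := .move 800 n1939 (.cons 756 n1598 .nil)
noncomputable def n1941 : Strat := .move 755 n773 (.cons 754 n1940 .nil)
noncomputable def n1942 : Strat := .move 796 n1303 (.cons 795 n1941 .nil)
noncomputable def n1943 : Strat := .move 797 n1382 (.cons 842 n1557 (.cons 796 n1938 (.cons 841 n1942 .nil)))
noncomputable def n1944 : Strat := .move 719 n1168 (.cons 882 n1662 .nil)
noncomputable def n1945 : Strat := .move 760 n1595 (.cons 761 n1944 .nil)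
noncomputable def n1946 : Strat := .move 841 n845 (.cons 797 n1945 .nil)
noncomputable def n1947 : Strat := .move 842 n518 (.cons 843 n1946 .nil)
noncomputable def n1948 : Strat := .move 801 n910 (.cons 802 n1947 .nil)
noncomputable def n1949 : Strat := .move 797 n1596 (.cons 759 n1371 .nil)
noncomputable def n1950 : Strat := .move 760 n1595 (.cons 761 n1949 .nil)
noncomputable def n1951 : Strat := .move 801 n910 (.cons 802 n1950 .nil)
noncomputable def n1952 : Strat := .win 925 6 760
noncomputable def n1953 : Strat := .win 841 0 839
noncomputable def n1954 : Strat := .move 884 n1952 (.cons 925 n1953 .nil)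
noncomputable def n1955 : Strat := .move 759 n1179 (.cons 718 n513 .nil)
noncomputable def n1956 : Strat := .move 883 n1954 (.cons 841 n1955 .nil)
noncomputable def n1957 : Strat := .move 760 n1595 (.cons 761 n1956 .nil)
noncomputable def n1958 : Strat := .move 842 n518 (.cons 843 n1957 .nil)
noncomputable def n1959 : Strat := .move 801 n910 (.cons 802 n1958 .nil)
noncomputable def n1960 : Strat := .move 841 n845 (.cons 797 n515 .nil)
noncomputable def n1961 : Strat := .move 842 n518 (.cons 843 n1960 .nil)
noncomputable def n1962 : Strat := .move 801 n910 (.cons 802 n1961 .nil)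
noncomputable def n1963 : Strat := .move 842 n845 (.cons 797 n140 .nil)
noncomputable def n1964 : Strat := .move 797 n1381 (.cons 796 n1190 .nil)
noncomputable def n1965 : Strat := .move 922 n328 (.cons 757 n699 .nil)
noncomputable def n1966 : Strat := .move 759 n196 (.cons 718 n1673 .nil)
noncomputable def n1967 : Strat := .move 881 n1965 (.cons 922 n1966 .nil)
noncomputable def n1968 : Strat := .move 881 n699 (.cons 963 n170 .nil)
noncomputable def n1969 : Strat := .move 881 n909 (.cons 759 n699 .nil)
noncomputable def n1970 : Strat := .move 881 n909 (.cons 759 n170 .nil)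
noncomputable def n1971 : Strat := .move 922 n1968 (.cons 757 n1969 (.cons 963 n1970 (.cons 881 n1345 .nil)))
noncomputable def n1972 : Strat := .move 880 n121 (.cons 879 n1971 .nil)
noncomputable def n1973 : Strat := .move 842 n140 (.cons 843 n1972 .nil)
noncomputable def n1974 : Strat := .move 841 n1963 (.cons 843 n1964 (.cons 842 n1967 (.cons 797 n1973 .nil)))
noncomputable def n1975 : Strat := .move 883 n1179 (.cons 718 n513 .nil)
noncomputable def n1976 : Strat := .move 759 n1674 (.cons 797 n1975 .nil)
noncomputable def n1977 : Strat := .move 760 n1595 (.cons 761 n1976 .nil)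
noncomputable def n1978 : Strat := .move 842 n518 (.cons 843 n1977 .nil)
noncomputable def n1979 : Strat := .move 801 n910 (.cons 802 n1978 .nil)
noncomputable def n1980 : Strat := .move 800 n1948 (.cons 843 n1951 (.cons 797 n1959 (.cons 760 n1962 (.cons 801 n1974 (.cons 841 n1979 .nil)))))
noncomputable def n1981 : Strat := .move 798 n1895 (.cons 757 n1900 (.cons 797 n1913 (.cons 881 n1609 (.cons 841 n1919 (.cons 755 n1936 (.cons 715 n1943 (.cons 756 n1980 .nil)))))))
noncomputable def n1982 : Strat := .move 799 n1422 (.cons 880 n1517 (.cons 798 n1556 (.cons 881 n1681 (.cons 800 n1706 (.cons 717 n1793 (.cons 757 n1819 (.cons 922 n1842 (.cons 759 n1849 (.cons 882 n1866 (.cons 923 n1875 (.cons 756 n1882 (.cons 758 n1981 .nil))))))))))))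
noncomputable def n1983 : Strat := .move 922 n171 (.cons 963 n279 .nil)
noncomputable def n1984 : Strat := .move 757 n153 (.cons 716 n1983 .nil)
noncomputable def n1985 : Strat := .win 799 7 757
noncomputable def n1986 : Strat := .move 922 n171 (.cons 963 n1985 .nil)
noncomputable def n1987 : Strat := .move 757 n153 (.cons 716 n1986 .nil)
noncomputable def n1988 : Strat := .move 799 n408 (.cons 921 n1341 .nil)
noncomputable def n1989 : Strat := .move 758 n1278 (.cons 717 n1988 .nil)
noncomputable def n1990 : Strat := .move 880 n152 (.cons 922 n1989 .nil)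
noncomputable def n1991 : Strat := .move 757 n153 (.cons 716 n1990 .nil)
noncomputable def n1992 : Strat := .move 801 n910 (.cons 802 n693 .nil)
noncomputable def n1993 : Strat := .move 800 n909 (.cons 759 n1992 .nil)
noncomputable def n1994 : Strat := .move 880 n496 (.cons 758 n1993 .nil)
noncomputable def n1995 : Strat := .move 921 n677 (.cons 962 n1994 .nil)
noncomputable def n1996 : Strat := .move 882 n1826 (.cons 883 n1930 .nil)
noncomputable def n1997 : Strat := .move 920 n657 (.cons 961 n1996 .nil)
noncomputable def n1998 : Strat := .move 880 n496 (.cons 758 n1997 .nil)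
noncomputable def n1999 : Strat := .move 921 n677 (.cons 962 n1998 .nil)
noncomputable def n2000 : Strat := .move 838 n877 (.cons 801 n268 .nil)
noncomputable def n2001 : Strat := .move 800 n909 (.cons 759 n2000 .nil)
noncomputable def n2002 : Strat := .move 799 n1995 (.cons 802 n1999 (.cons 921 n2001 .nil))
noncomputable def n2003 : Strat := .move 922 n171 (.cons 963 n2002 .nil)
noncomputable def n2004 : Strat := .win 1003 3 839
noncomputable def n2005 : Strat := .move 962 n2004 (.cons 1003 n868 .nil)
noncomputable def n2006 : Strat := .move 921 n2005 (.cons 799 n1922 .nil)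
noncomputable def n2007 : Strat := .move 878 n1320 (.cons 877 n2006 .nil)
noncomputable def n2008 : Strat := .move 879 n871 (.cons 920 n2007 .nil)
noncomputable def n2009 : Strat := .win 838 2 838
noncomputable def n2010 : Strat := .move 883 n2009 (.cons 838 n1395 .nil)
noncomputable def n2011 : Strat := .win 883 2 838
noncomputable def n2012 : Strat := .move 838 n2011 (.cons 883 n249 .nil)
noncomputable def n2013 : Strat := .win 799 6 758
noncomputable def n2014 : Strat := .move 923 n888 (.cons 924 n2013 .nil)
noncomputable def n2015 : Strat := .move 882 n2010 (.cons 884 n2012 (.cons 838 n2014 .nil))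
noncomputable def n2016 : Strat := .move 879 n871 (.cons 920 n2015 .nil)
noncomputable def n2017 : Strat := .move 758 n1278 (.cons 717 n2016 .nil)
noncomputable def n2018 : Strat := .move 921 n657 (.cons 961 n1922 .nil)
noncomputable def n2019 : Strat := .move 920 n1682 (.cons 879 n2018 .nil)
noncomputable def n2020 : Strat := .move 880 n1989 (.cons 758 n2008 (.cons 921 n2017 (.cons 799 n2019 .nil)))
noncomputable def n2021 : Strat := .move 757 n153 (.cons 716 n2020 .nil)
noncomputable def n2022 : Strat := .move 881 n1984 (.cons 880 n1987 (.cons 963 n1991 (.cons 757 n2003 (.cons 922 n2021 .nil))))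
noncomputable def n2023 : Strat := .win 715 0 715
noncomputable def n2024 : Strat := .move 716 n2023 (.cons 715 n933 .nil)
noncomputable def n2025 : Strat := .move 760 n1414 (.cons 761 n2024 .nil)
noncomputable def n2026 : Strat := .move 759 n1470 (.cons 881 n2025 .nil)
noncomputable def n2027 : Strat := .move 718 n928 (.cons 677 n2026 .nil)
noncomputable def n2028 : Strat := .move 717 n815 (.cons 676 n2027 .nil)
noncomputable def n2029 : Strat := .move 882 n824 (.cons 923 n2012 .nil)
noncomputable def n2030 : Strat := .move 881 n2029 (.cons 882 n1707 .nil)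
noncomputable def n2031 : Strat := .move 880 n155 (.cons 921 n2030 .nil)
noncomputable def n2032 : Strat := .move 758 n818 (.cons 921 n817 (.cons 880 n2028 (.cons 717 n2031 .nil)))
noncomputable def n2033 : Strat := .win 883 7 718
noncomputable def n2034 : Strat := .move 842 n2033 (.cons 883 n518 .nil)
noncomputable def n2035 : Strat := .move 718 n474 (.cons 677 n2034 .nil)
noncomputable def n2036 : Strat := .move 759 n1674 (.cons 797 n2035 .nil)
noncomputable def n2037 : Strat := .move 760 n1595 (.cons 761 n2036 .nil)
noncomputable def n2038 : Strat := .move 801 n910 (.cons 802 n2037 .nil)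
noncomputable def n2039 : Strat := .move 715 n470 (.cons 880 n469 .nil)
noncomputable def n2040 : Strat := .move 756 n468 (.cons 755 n2039 .nil)
noncomputable def n2041 : Strat := .move 838 n535 (.cons 837 n2040 .nil)
noncomputable def n2042 : Strat := .move 755 n1939 (.cons 756 n773 .nil)
noncomputable def n2043 : Strat := .move 796 n1303 (.cons 795 n2042 .nil)
noncomputable def n2044 : Strat := .win 838 4 796
noncomputable def n2045 : Strat := .move 796 n1303 (.cons 795 n772 .nil)
noncomputable def n2046 : Strat := .move 837 n2044 (.cons 838 n2045 .nil)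
noncomputable def n2047 : Strat := .move 797 n2041 (.cons 838 n2043 (.cons 756 n2046 .nil))
noncomputable def n2048 : Strat := .move 800 n2000 (.cons 838 n2038 (.cons 801 n2047 .nil))
noncomputable def n2049 : Strat := .move 717 n815 (.cons 676 n1474 .nil)
noncomputable def n2050 : Strat := .move 882 n824 (.cons 923 n2010 .nil)
noncomputable def n2051 : Strat := .move 880 n408 (.cons 921 n2050 .nil)
noncomputable def n2052 : Strat := .move 922 n171 (.cons 963 n677 .nil)
noncomputable def n2053 : Strat := .move 921 n821 (.cons 880 n2052 .nil)
noncomputable def n2054 : Strat := .move 922 n171 (.cons 963 n1493 .nil)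
noncomputable def n2055 : Strat := .move 881 n2051 (.cons 882 n2053 (.cons 880 n2054 .nil))
noncomputable def n2056 : Strat := .move 758 n818 (.cons 880 n2049 (.cons 717 n2055 .nil))
noncomputable def n2057 : Strat := .win 796 5 755
noncomputable def n2058 : Strat := .win 800 5 756
noncomputable def n2059 : Strat := .move 760 n2058 (.cons 800 n1414 .nil)
noncomputable def n2060 : Strat := .move 797 n2057 (.cons 796 n2059 .nil)
noncomputable def n2061 : Strat := .move 759 n442 (.cons 718 n2060 .nil)
noncomputable def n2062 : Strat := .move 881 n1707 (.cons 922 n2061 (.cons 718 n1697 .nil))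
noncomputable def n2063 : Strat := .move 880 n155 (.cons 921 n2062 .nil)
noncomputable def n2064 : Strat := .move 758 n818 (.cons 921 n817 (.cons 880 n2028 (.cons 717 n2063 .nil)))
noncomputable def n2065 : Strat := .move 755 n773 (.cons 754 n1939 .nil)
noncomputable def n2066 : Strat := .move 796 n1303 (.cons 795 n2065 .nil)
noncomputable def n2067 : Strat := .win 758 5 755
noncomputable def n2068 : Strat := .move 796 n2067 (.cons 758 n1303 .nil)
noncomputable def n2069 : Strat := .move 759 n473 (.cons 760 n2068 .nil)
noncomputable def n2070 : Strat := .win 758 3 717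
noncomputable def n2071 : Strat := .move 718 n2070 (.cons 758 n474 .nil)
noncomputable def n2072 : Strat := .move 881 n1459 (.cons 922 n2071 .nil)
noncomputable def n2073 : Strat := .move 759 n473 (.cons 760 n2072 .nil)
noncomputable def n2074 : Strat := .move 797 n2066 (.cons 754 n2069 (.cons 796 n2073 .nil))
noncomputable def n2075 : Strat := .move 838 n877 (.cons 801 n2074 .nil)
noncomputable def n2076 : Strat := .move 881 n2070 (.cons 758 n1459 .nil)
noncomputable def n2077 : Strat := .move 718 n474 (.cons 677 n2076 .nil)
noncomputable def n2078 : Strat := .move 759 n1674 (.cons 797 n2077 .nil)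
noncomputable def n2079 : Strat := .move 760 n1595 (.cons 761 n2078 .nil)
noncomputable def n2080 : Strat := .move 801 n910 (.cons 802 n2079 .nil)
noncomputable def n2081 : Strat := .move 838 n268 (.cons 837 n2074 .nil)
noncomputable def n2082 : Strat := .move 800 n2000 (.cons 837 n2075 (.cons 838 n2080 (.cons 801 n2081 .nil)))
noncomputable def n2083 : Strat := .move 837 n232 (.cons 836 n7 .nil)
noncomputable def n2084 : Strat := .move 800 n877 (.cons 801 n268 .nil)
noncomputable def n2085 : Strat := .move 759 n2067 (.cons 758 n473 .nil)
noncomputable def n2086 : Strat := .move 796 n1303 (.cons 795 n2085 .nil)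
noncomputable def n2087 : Strat := .move 797 n2040 (.cons 715 n2066 (.cons 756 n2086 .nil))
noncomputable def n2088 : Strat := .move 800 n877 (.cons 801 n2087 .nil)
noncomputable def n2089 : Strat := .move 754 n83 (.cons 713 n972 .nil)
noncomputable def n2090 : Strat := .move 755 n75 (.cons 714 n2089 .nil)
noncomputable def n2091 : Strat := .move 878 n2 (.cons 877 n2090 .nil)
noncomputable def n2092 : Strat := .move 796 n0 (.cons 795 n2091 .nil)
noncomputable def n2093 : Strat := .move 837 n232 (.cons 836 n2092 .nil)
noncomputable def n2094 : Strat := .move 838 n2083 (.cons 836 n2084 (.cons 837 n2088 (.cons 800 n2093 .nil)))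
noncomputable def n2095 : Strat := .move 921 n158 (.cons 962 n1803 .nil)
noncomputable def n2096 : Strat := .move 881 n2029 (.cons 883 n1707 .nil)
noncomputable def n2097 : Strat := .move 758 n156 (.cons 717 n2096 .nil)
noncomputable def n2098 : Strat := .move 880 n1344 (.cons 962 n640 (.cons 758 n2095 (.cons 921 n2097 .nil)))
noncomputable def n2099 : Strat := .move 714 n775 (.cons 879 n774 .nil)
noncomputable def n2100 : Strat := .move 755 n773 (.cons 754 n2099 .nil)
noncomputable def n2101 : Strat := .move 838 n231 (.cons 800 n2100 .nil)
noncomputable def n2102 : Strat := .move 837 n772 (.cons 836 n2101 .nil)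
noncomputable def n2103 : Strat := .move 796 n1303 (.cons 795 n2102 .nil)
noncomputable def n2104 : Strat := .move 837 n232 (.cons 836 n231 .nil)
noncomputable def n2105 : Strat := .move 756 n1566 (.cons 921 n95 .nil)
noncomputable def n2106 : Strat := .move 800 n468 (.cons 755 n877 .nil)
noncomputable def n2107 : Strat := .move 756 n95 (.cons 715 n2106 .nil)
noncomputable def n2108 : Strat := .move 880 n1344 (.cons 962 n2105 (.cons 921 n2107 .nil))
noncomputable def n2109 : Strat := .win 879 1 755
noncomputable def n2110 : Strat := .move 919 n2109 (.cons 879 n79 .nil)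
noncomputable def n2111 : Strat := .move 756 n77 (.cons 715 n2110 .nil)
noncomputable def n2112 : Strat := .move 878 n2 (.cons 877 n2111 .nil)
noncomputable def n2113 : Strat := .move 837 n232 (.cons 836 n2112 .nil)
noncomputable def n2114 : Strat := .move 838 n2104 (.cons 837 n2108 (.cons 800 n2113 .nil))
noncomputable def n2115 : Strat := .move 800 n1939 (.cons 756 n1992 .nil)
noncomputable def n2116 : Strat := .move 755 n773 (.cons 754 n2115 .nil)
noncomputable def n2117 : Strat := .move 796 n1303 (.cons 795 n2116 .nil)
noncomputable def n2118 : Strat := .move 878 n590 (.cons 715 n76 .nil)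
noncomputable def n2119 : Strat := .move 756 n1602 (.cons 800 n2118 .nil)
noncomputable def n2120 : Strat := .move 755 n773 (.cons 754 n2119 .nil)
noncomputable def n2121 : Strat := .move 837 n772 (.cons 836 n2120 .nil)
noncomputable def n2122 : Strat := .move 796 n1303 (.cons 795 n2121 .nil)
noncomputable def n2123 : Strat := .win 918 1 754
noncomputable def n2124 : Strat := .win 838 4 836
noncomputable def n2125 : Strat := .move 877 n2123 (.cons 918 n2124 .nil)
noncomputable def n2126 : Strat := .move 756 n590 (.cons 715 n76 .nil)
noncomputable def n2127 : Strat := .move 878 n2125 (.cons 838 n2126 .nil)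
noncomputable def n2128 : Strat := .move 755 n773 (.cons 754 n2127 .nil)
noncomputable def n2129 : Strat := .move 837 n772 (.cons 836 n2128 .nil)
noncomputable def n2130 : Strat := .move 796 n1303 (.cons 795 n2129 .nil)
noncomputable def n2131 : Strat := .move 838 n231 (.cons 800 n997 .nil)
noncomputable def n2132 : Strat := .move 837 n772 (.cons 836 n2131 .nil)
noncomputable def n2133 : Strat := .move 796 n1303 (.cons 795 n2132 .nil)
noncomputable def n2134 : Strat := .move 797 n2103 (.cons 796 n2114 (.cons 836 n2117 (.cons 838 n2122 (.cons 800 n2130 (.cons 755 n2133 .nil)))))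
noncomputable def n2135 : Strat := .move 799 n2032 (.cons 758 n2048 (.cons 800 n2056 (.cons 838 n2064 (.cons 880 n2082 (.cons 718 n2094 (.cons 760 n2098 (.cons 759 n2134 .nil)))))))
noncomputable def n2136 : Strat := .win 799 6 675
noncomputable def n2137 : Strat := .win 715 7 674
noncomputable def n2138 : Strat := .win 633 7 633
noncomputable def n2139 : Strat := .move 674 n2137 (.cons 715 n2138 .nil)
noncomputable def n2140 : Strat := .move 675 n2136 (.cons 799 n2139 .nil)
noncomputable def n2141 : Strat := .win 717 3 675
noncomputable def n2142 : Strat := .win 635 3 634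
noncomputable def n2143 : Strat := .move 676 n2141 (.cons 717 n2142 .nil)
noncomputable def n2144 : Strat := .move 675 n2136 (.cons 799 n2143 .nil)
noncomputable def n2145 : Strat := .move 880 n1267 (.cons 758 n1271 .nil)
noncomputable def n2146 : Strat := .move 717 n1266 (.cons 676 n2145 .nil)
noncomputable def n2147 : Strat := .move 715 n1270 (.cons 674 n2146 .nil)
noncomputable def n2148 : Strat := .move 716 n2140 (.cons 715 n2144 (.cons 799 n2147 .nil))
noncomputable def n2149 : Strat := .move 921 n1277 (.cons 799 n1832 .nil)
noncomputable def n2150 : Strat := .move 758 n1278 (.cons 717 n2149 .nil)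
noncomputable def n2151 : Strat := .win 760 4 756
noncomputable def n2152 : Strat := .move 797 n1502 (.cons 796 n2151 .nil)
noncomputable def n2153 : Strat := .move 799 n1338 (.cons 800 n1339 .nil)
noncomputable def n2154 : Strat := .win 799 0 755
noncomputable def n2155 : Strat := .move 800 n1402 (.cons 801 n2154 .nil)
noncomputable def n2156 : Strat := .move 796 n1510 (.cons 797 n1509 .nil)
noncomputable def n2157 : Strat := .move 755 n2153 (.cons 754 n2155 (.cons 800 n2156 .nil))
noncomputable def n2158 : Strat := .move 760 n1415 (.cons 797 n1500 .nil)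
noncomputable def n2159 : Strat := .win 720 5 716
noncomputable def n2160 : Strat := .win 718 5 715
noncomputable def n2161 : Strat := .move 719 n2159 (.cons 720 n2160 .nil)
noncomputable def n2162 : Strat := .move 760 n1500 (.cons 800 n2161 .nil)
noncomputable def n2163 : Strat := .move 759 n2152 (.cons 760 n2157 (.cons 796 n2158 (.cons 797 n2162 .nil)))
noncomputable def n2164 : Strat := .move 756 n162 (.cons 715 n2163 .nil)
noncomputable def n2165 : Strat := .move 758 n1278 (.cons 717 n2164 .nil)
noncomputable def n2166 : Strat := .move 921 n1831 (.cons 797 n655 .nil)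
noncomputable def n2167 : Strat := .move 756 n162 (.cons 715 n2166 .nil)
noncomputable def n2168 : Strat := .move 921 n1831 (.cons 797 n1683 .nil)
noncomputable def n2169 : Strat := .move 756 n162 (.cons 715 n2168 .nil)
noncomputable def n2170 : Strat := .move 921 n1277 (.cons 799 n1683 .nil)
noncomputable def n2171 : Strat := .move 758 n1278 (.cons 717 n2170 .nil)
noncomputable def n2172 : Strat := .move 880 n2150 (.cons 921 n2165 (.cons 717 n2167 (.cons 758 n2169 (.cons 756 n2171 .nil))))
noncomputable def n2173 : Strat := .win 838 1 715
noncomputable def n2174 : Strat := .move 716 n2173 (.cons 838 n1272 .nil)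
noncomputable def n2175 : Strat := .move 879 n871 (.cons 920 n2174 .nil)
noncomputable def n2176 : Strat := .move 796 n1634 (.cons 759 n1303 .nil)
noncomputable def n2177 : Strat := .move 758 n1278 (.cons 717 n2176 .nil)
noncomputable def n2178 : Strat := .move 797 n1566 (.cons 921 n2177 .nil)
noncomputable def n2179 : Strat := .move 756 n162 (.cons 715 n2178 .nil)
noncomputable def n2180 : Strat := .move 716 n2173 (.cons 838 n1268 .nil)
noncomputable def n2181 : Strat := .move 879 n871 (.cons 920 n2180 .nil)
noncomputable def n2182 : Strat := .move 880 n2175 (.cons 879 n2179 (.cons 756 n2181 .nil))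
noncomputable def n2183 : Strat := .win 880 3 716
noncomputable def n2184 : Strat := .win 759 0 714
noncomputable def n2185 : Strat := .win 713 0 713
noncomputable def n2186 : Strat := .move 714 n2184 (.cons 759 n2185 .nil)
noncomputable def n2187 : Strat := .move 715 n1270 (.cons 674 n2186 .nil)
noncomputable def n2188 : Strat := .move 758 n2183 (.cons 880 n2187 .nil)
noncomputable def n2189 : Strat := .move 717 n1266 (.cons 676 n2188 .nil)
noncomputable def n2190 : Strat := .move 716 n2144 (.cons 675 n2189 (.cons 717 n2140 .nil))
noncomputable def n2191 : Strat := .win 797 1 674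
noncomputable def n2192 : Strat := .move 675 n2136 (.cons 799 n2191 .nil)
noncomputable def n2193 : Strat := .move 838 n1316 (.cons 879 n2192 .nil)
noncomputable def n2194 : Strat := .move 879 n2173 (.cons 838 n871 .nil)
noncomputable def n2195 : Strat := .move 880 n1271 (.cons 756 n2194 .nil)
noncomputable def n2196 : Strat := .move 715 n1270 (.cons 674 n2195 .nil)
noncomputable def n2197 : Strat := .move 716 n2140 (.cons 674 n2193 (.cons 675 n2196 .nil))
noncomputable def n2198 : Strat := .move 675 n2191 (.cons 797 n2143 .nil)
noncomputable def n2199 : Strat := .move 838 n1316 (.cons 879 n2198 .nil)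
noncomputable def n2200 : Strat := .move 838 n1316 (.cons 879 n2191 .nil)
noncomputable def n2201 : Strat := .move 675 n2136 (.cons 799 n2200 .nil)
noncomputable def n2202 : Strat := .move 880 n1267 (.cons 758 n2194 .nil)
noncomputable def n2203 : Strat := .move 717 n1266 (.cons 676 n2202 .nil)
noncomputable def n2204 : Strat := .move 716 n2144 (.cons 799 n2199 (.cons 717 n2201 (.cons 675 n2203 .nil)))
noncomputable def n2205 : Strat := .move 756 n1443 (.cons 755 n1442 .nil)
noncomputable def n2206 : Strat := .win 799 3 676
noncomputable def n2207 : Strat := .win 678 5 674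
noncomputable def n2208 : Strat := .move 677 n2206 (.cons 799 n2207 .nil)
noncomputable def n2209 : Strat := .move 758 n2186 (.cons 713 n1441 (.cons 759 n2208 .nil))
noncomputable def n2210 : Strat := .move 718 n2205 (.cons 719 n2209 .nil)
noncomputable def n2211 : Strat := .move 715 n1270 (.cons 674 n2210 .nil)
noncomputable def n2212 : Strat := .move 717 n1266 (.cons 676 n2211 .nil)
noncomputable def n2213 : Strat := .move 716 n2140 (.cons 799 n2199 (.cons 675 n2212 .nil))
noncomputable def n2214 : Strat := .move 757 n2148 (.cons 716 n2172 (.cons 799 n2182 (.cons 756 n2190 (.cons 717 n2197 (.cons 715 n2204 (.cons 880 n2213 .nil))))))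
noncomputable def n2215 : Strat := .move 880 n152 (.cons 922 n2019 .nil)
noncomputable def n2216 : Strat := .move 881 n153 (.cons 716 n2215 .nil)
noncomputable def n2217 : Strat := .move 881 n152 (.cons 922 n2019 .nil)
noncomputable def n2218 : Strat := .move 883 n1395 (.cons 884 n2009 .nil)
noncomputable def n2219 : Strat := .win 838 0 837
noncomputable def n2220 : Strat := .win 836 2 836
noncomputable def n2221 : Strat := .move 878 n2220 (.cons 836 n1320 .nil)
noncomputable def n2222 : Strat := .move 837 n2219 (.cons 838 n2221 .nil)
noncomputable def n2223 : Strat := .win 925 0 880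
noncomputable def n2224 : Strat := .win 923 0 879
noncomputable def n2225 : Strat := .move 924 n2223 (.cons 925 n2224 .nil)
noncomputable def n2226 : Strat := .move 883 n1395 (.cons 884 n2225 .nil)
noncomputable def n2227 : Strat := .move 882 n2012 (.cons 837 n2218 (.cons 883 n2222 (.cons 838 n2226 .nil)))
noncomputable def n2228 : Strat := .move 879 n871 (.cons 920 n2227 .nil)
noncomputable def n2229 : Strat := .move 881 n152 (.cons 922 n2228 .nil)
noncomputable def n2230 : Strat := .move 880 n2217 (.cons 922 n2179 (.cons 756 n2229 .nil))
noncomputable def n2231 : Strat := .move 716 n521 (.cons 881 n2199 .nil)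
noncomputable def n2232 : Strat := .move 716 n521 (.cons 881 n2147 .nil)
noncomputable def n2233 : Strat := .move 757 n2216 (.cons 716 n2230 (.cons 715 n2231 (.cons 797 n2232 (.cons 881 n2182 .nil))))
noncomputable def n2234 : Strat := .win 799 1 757
noncomputable def n2235 : Strat := .move 921 n2234 (.cons 799 n1920 .nil)
noncomputable def n2236 : Strat := .move 758 n1278 (.cons 717 n2235 .nil)
noncomputable def n2237 : Strat := .move 799 n1890 (.cons 961 n1892 (.cons 921 n1916 .nil))
noncomputable def n2238 : Strat := .win 719 5 715
noncomputable def n2239 : Strat := .win 799 3 717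
noncomputable def n2240 : Strat := .move 718 n2238 (.cons 719 n2239 .nil)
noncomputable def n2241 : Strat := .move 759 n2152 (.cons 760 n2240 .nil)
noncomputable def n2242 : Strat := .move 756 n162 (.cons 715 n2241 .nil)
noncomputable def n2243 : Strat := .move 758 n1278 (.cons 717 n2242 .nil)
noncomputable def n2244 : Strat := .move 921 n1831 (.cons 797 n1920 .nil)
noncomputable def n2245 : Strat := .move 756 n162 (.cons 715 n2244 .nil)
noncomputable def n2246 : Strat := .move 880 n2236 (.cons 758 n2237 (.cons 921 n2243 (.cons 799 n2245 .nil)))
noncomputable def n2247 : Strat := .move 757 n153 (.cons 716 n2246 .nil)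
noncomputable def n2248 : Strat := .move 758 n821 (.cons 880 n1490 .nil)
noncomputable def n2249 : Strat := .move 921 n677 (.cons 962 n2248 .nil)
noncomputable def n2250 : Strat := .move 799 n328 (.cons 757 n2249 .nil)
noncomputable def n2251 : Strat := .move 922 n171 (.cons 963 n2250 .nil)
noncomputable def n2252 : Strat := .move 757 n153 (.cons 716 n1985 .nil)
noncomputable def n2253 : Strat := .move 922 n171 (.cons 963 n2252 .nil)
noncomputable def n2254 : Strat := .move 921 n821 (.cons 880 n1490 .nil)
noncomputable def n2255 : Strat := .move 758 n2254 (.cons 880 n1397 (.cons 718 n927 .nil))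
noncomputable def n2256 : Strat := .move 758 n1643 (.cons 676 n1493 .nil)
noncomputable def n2257 : Strat := .move 801 n910 (.cons 802 n2256 .nil)
noncomputable def n2258 : Strat := .move 800 n909 (.cons 759 n2257 .nil)
noncomputable def n2259 : Strat := .move 920 n1929 (.cons 883 n1930 .nil)
noncomputable def n2260 : Strat := .move 882 n889 (.cons 758 n2259 .nil)
noncomputable def n2261 : Strat := .move 923 n458 (.cons 964 n2260 .nil)
noncomputable def n2262 : Strat := .move 921 n677 (.cons 962 n2261 .nil)
noncomputable def n2263 : Strat := .move 799 n2249 (.cons 758 n1934 (.cons 962 n2255 (.cons 921 n2258 (.cons 880 n2262 .nil))))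
noncomputable def n2264 : Strat := .move 922 n171 (.cons 963 n2263 .nil)
noncomputable def n2265 : Strat := .move 881 n1984 (.cons 922 n2247 (.cons 716 n2251 (.cons 880 n2253 (.cons 757 n2264 .nil))))
noncomputable def n2266 : Strat := .move 799 n2249 (.cons 880 n2001 (.cons 759 n1999 .nil))
noncomputable def n2267 : Strat := .move 922 n171 (.cons 963 n2266 .nil)
noncomputable def n2268 : Strat := .move 882 n2010 (.cons 884 n2012 (.cons 838 n2226 (.cons 883 n2222 .nil)))
noncomputable def n2269 : Strat := .move 879 n871 (.cons 920 n2268 .nil)
noncomputable def n2270 : Strat := .move 880 n1989 (.cons 799 n2269 .nil)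
noncomputable def n2271 : Strat := .move 757 n153 (.cons 716 n2270 .nil)
noncomputable def n2272 : Strat := .move 881 n1984 (.cons 757 n2267 (.cons 963 n1991 (.cons 922 n2271 (.cons 880 n1987 .nil))))
noncomputable def n2273 : Strat := .move 799 n328 (.cons 757 n1995 .nil)
noncomputable def n2274 : Strat := .move 922 n171 (.cons 963 n2273 .nil)
noncomputable def n2275 : Strat := .move 799 n328 (.cons 757 n2001 .nil)
noncomputable def n2276 : Strat := .move 922 n171 (.cons 963 n2275 .nil)
noncomputable def n2277 : Strat := .move 797 n1308 (.cons 838 n1095 .nil)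
noncomputable def n2278 : Strat := .move 962 n2004 (.cons 1003 n2277 .nil)
noncomputable def n2279 : Strat := .move 921 n1378 (.cons 920 n2278 .nil)
noncomputable def n2280 : Strat := .move 880 n170 (.cons 757 n2279 .nil)
noncomputable def n2281 : Strat := .move 922 n171 (.cons 963 n2280 .nil)
noncomputable def n2282 : Strat := .move 922 n328 (.cons 757 n1995 .nil)
noncomputable def n2283 : Strat := .move 801 n693 (.cons 838 n910 .nil)
noncomputable def n2284 : Strat := .move 796 n772 (.cons 836 n1303 .nil)
noncomputable def n2285 : Strat := .move 837 n2044 (.cons 838 n2284 .nil)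
noncomputable def n2286 : Strat := .move 718 n474 (.cons 677 n2070 .nil)
noncomputable def n2287 : Strat := .move 759 n473 (.cons 760 n2286 .nil)
noncomputable def n2288 : Strat := .move 797 n2285 (.cons 837 n2287 .nil)
noncomputable def n2289 : Strat := .move 801 n910 (.cons 802 n519 .nil)
noncomputable def n2290 : Strat := .move 800 n2283 (.cons 802 n2000 (.cons 801 n2288 (.cons 838 n2289 .nil)))
noncomputable def n2291 : Strat := .move 757 n574 (.cons 922 n2290 .nil)
noncomputable def n2292 : Strat := .move 922 n328 (.cons 757 n2001 .nil)
noncomputable def n2293 : Strat := .move 880 n156 (.cons 717 n1341 .nil)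
noncomputable def n2294 : Strat := .move 760 n1415 (.cons 797 n1414 .nil)
noncomputable def n2295 : Strat := .move 759 n442 (.cons 718 n2294 .nil)
noncomputable def n2296 : Strat := .move 757 n2293 (.cons 880 n2295 .nil)
noncomputable def n2297 : Strat := .win 757 4 756
noncomputable def n2298 : Strat := .move 760 n2297 (.cons 757 n1414 .nil)
noncomputable def n2299 : Strat := .move 797 n2057 (.cons 796 n2298 .nil)
noncomputable def n2300 : Strat := .move 759 n442 (.cons 718 n2299 .nil)
noncomputable def n2301 : Strat := .move 758 n927 (.cons 921 n2296 (.cons 880 n2300 .nil))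
noncomputable def n2302 : Strat := .move 757 n152 (.cons 922 n1580 .nil)
noncomputable def n2303 : Strat := .move 921 n677 (.cons 962 n1378 .nil)
noncomputable def n2304 : Strat := .move 922 n170 (.cons 757 n2303 .nil)
noncomputable def n2305 : Strat := .move 880 n1216 (.cons 921 n2302 (.cons 758 n2304 .nil))
noncomputable def n2306 : Strat := .move 922 n1995 (.cons 758 n2001 (.cons 838 n2249 (.cons 800 n1999 .nil)))
noncomputable def n2307 : Strat := .move 758 n156 (.cons 717 n1417 .nil)
noncomputable def n2308 : Strat := .move 757 n152 (.cons 922 n2307 .nil)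
noncomputable def n2309 : Strat := .move 921 n677 (.cons 962 n1997 .nil)
noncomputable def n2310 : Strat := .move 922 n170 (.cons 757 n2309 .nil)
noncomputable def n2311 : Strat := .move 880 n1216 (.cons 921 n2308 (.cons 758 n2310 .nil))
noncomputable def n2312 : Strat := .move 799 n2282 (.cons 880 n2291 (.cons 758 n2292 (.cons 922 n2301 (.cons 759 n2305 (.cons 757 n2306 (.cons 800 n2311 .nil))))))
noncomputable def n2313 : Strat := .move 799 n1995 (.cons 758 n2001 (.cons 838 n2249 (.cons 800 n1999 .nil)))
noncomputable def n2314 : Strat := .move 922 n171 (.cons 963 n2313 .nil)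
noncomputable def n2315 : Strat := .move 757 n1989 (.cons 758 n2008 (.cons 921 n2017 (.cons 799 n2019 .nil)))
noncomputable def n2316 : Strat := .move 757 n2017 (.cons 879 n2243 (.cons 717 n2269 .nil))
noncomputable def n2317 : Strat := .move 962 n2004 (.cons 1003 n1313 .nil)
noncomputable def n2318 : Strat := .move 921 n1831 (.cons 797 n2317 .nil)
noncomputable def n2319 : Strat := .move 756 n162 (.cons 715 n2318 .nil)
noncomputable def n2320 : Strat := .move 757 n2019 (.cons 879 n2319 (.cons 920 n2179 (.cons 756 n2228 .nil)))
noncomputable def n2321 : Strat := .move 799 n408 (.cons 921 n1417 .nil)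
noncomputable def n2322 : Strat := .move 758 n1278 (.cons 717 n2321 .nil)
noncomputable def n2323 : Strat := .move 757 n1989 (.cons 799 n2319 (.cons 921 n2243 (.cons 756 n2322 .nil)))
noncomputable def n2324 : Strat := .move 757 n1989 (.cons 799 n2269 .nil)
noncomputable def n2325 : Strat := .move 797 n1095 (.cons 756 n1308 .nil)
noncomputable def n2326 : Strat := .move 962 n2004 (.cons 1003 n2325 .nil)
noncomputable def n2327 : Strat := .move 838 n318 (.cons 836 n9 .nil)
noncomputable def n2328 : Strat := .move 838 n231 (.cons 800 n318 .nil)
noncomputable def n2329 : Strat := .move 838 n231 (.cons 800 n9 .nil)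
noncomputable def n2330 : Strat := .move 837 n2327 (.cons 882 n2328 (.cons 836 n2329 (.cons 838 n2284 .nil)))
noncomputable def n2331 : Strat := .move 797 n1095 (.cons 756 n2330 .nil)
noncomputable def n2332 : Strat := .move 799 n496 (.cons 758 n2331 .nil)
noncomputable def n2333 : Strat := .move 921 n497 (.cons 799 n2326 (.cons 962 n2332 .nil))
noncomputable def n2334 : Strat := .move 757 n2322 (.cons 799 n2228 .nil)
noncomputable def n2335 : Strat := .move 837 n9 (.cons 882 n318 .nil)
noncomputable def n2336 : Strat := .move 882 n249 (.cons 837 n2011 .nil)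
noncomputable def n2337 : Strat := .win 837 0 836
noncomputable def n2338 : Strat := .move 962 n869 (.cons 797 n2004 .nil)
noncomputable def n2339 : Strat := .move 962 n869 (.cons 797 n868 .nil)
noncomputable def n2340 : Strat := .move 757 n1920 (.cons 879 n1922 .nil)
noncomputable def n2341 : Strat := .move 921 n2005 (.cons 799 n2338 (.cons 1003 n2339 (.cons 962 n2340 .nil)))
noncomputable def n2342 : Strat := .move 836 n2337 (.cons 837 n2341 .nil)
noncomputable def n2343 : Strat := .move 962 n868 (.cons 799 n2004 .nil)
noncomputable def n2344 : Strat := .move 797 n1095 (.cons 756 n295 .nil)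
noncomputable def n2345 : Strat := .move 879 n389 (.cons 919 n390 .nil)
noncomputable def n2346 : Strat := .move 882 n2011 (.cons 883 n2345 .nil)
noncomputable def n2347 : Strat := .move 920 n657 (.cons 961 n2346 .nil)
noncomputable def n2348 : Strat := .move 921 n2343 (.cons 799 n2344 (.cons 962 n2347 .nil))
noncomputable def n2349 : Strat := .move 838 n2335 (.cons 836 n2336 (.cons 882 n2342 (.cons 837 n2348 .nil)))
noncomputable def n2350 : Strat := .move 880 n2315 (.cons 921 n2316 (.cons 799 n2320 (.cons 879 n2323 (.cons 797 n2324 (.cons 757 n2333 (.cons 756 n2334 (.cons 758 n2349 .nil)))))))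
noncomputable def n2351 : Strat := .move 881 n2274 (.cons 880 n2276 (.cons 799 n2281 (.cons 963 n2312 (.cons 838 n2251 (.cons 757 n2314 (.cons 922 n2350 .nil))))))
noncomputable def n2352 : Strat := .move 716 n521 (.cons 881 n520 .nil)
noncomputable def n2353 : Strat := .move 838 n1316 (.cons 879 n528 .nil)
noncomputable def n2354 : Strat := .move 717 n1266 (.cons 676 n2353 .nil)
noncomputable def n2355 : Strat := .move 716 n520 (.cons 675 n2354 .nil)
noncomputable def n2356 : Strat := .move 838 n7 (.cons 800 n318 .nil)
noncomputable def n2357 : Strat := .move 838 n9 (.cons 882 n7 .nil)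
noncomputable def n2358 : Strat := .move 838 n9 (.cons 882 n318 .nil)
noncomputable def n2359 : Strat := .move 837 n2356 (.cons 836 n2357 (.cons 800 n2358 (.cons 838 n2221 .nil)))
noncomputable def n2360 : Strat := .move 879 n871 (.cons 920 n2359 .nil)
noncomputable def n2361 : Strat := .move 880 n1921 (.cons 921 n2360 (.cons 879 n1923 .nil))
noncomputable def n2362 : Strat := .move 881 n574 (.cons 922 n2361 .nil)
noncomputable def n2363 : Strat := .move 799 n2352 (.cons 881 n2355 (.cons 675 n1883 (.cons 716 n2362 .nil)))
noncomputable def n2364 : Strat := .move 799 n520 (.cons 675 n2354 .nil)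
noncomputable def n2365 : Strat := .move 799 n520 (.cons 675 n1888 .nil)
noncomputable def n2366 : Strat := .move 718 n1442 (.cons 719 n1443 .nil)
noncomputable def n2367 : Strat := .move 717 n1266 (.cons 676 n2366 .nil)
noncomputable def n2368 : Strat := .move 756 n1760 (.cons 880 n2367 .nil)
noncomputable def n2369 : Strat := .move 715 n1270 (.cons 674 n2368 .nil)
noncomputable def n2370 : Strat := .move 716 n2364 (.cons 838 n2365 (.cons 675 n2369 .nil))
noncomputable def n2371 : Strat := .move 716 n521 (.cons 881 n2140 .nil)
noncomputable def n2372 : Strat := .move 881 n153 (.cons 716 n1983 .nil)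
noncomputable def n2373 : Strat := .move 881 n152 (.cons 922 n2008 .nil)
noncomputable def n2374 : Strat := .move 921 n1831 (.cons 797 n2005 .nil)
noncomputable def n2375 : Strat := .move 756 n162 (.cons 715 n2374 .nil)
noncomputable def n2376 : Strat := .move 881 n152 (.cons 922 n2375 .nil)
noncomputable def n2377 : Strat := .move 921 n657 (.cons 961 n2005 .nil)
noncomputable def n2378 : Strat := .move 920 n1682 (.cons 879 n2377 .nil)
noncomputable def n2379 : Strat := .move 881 n152 (.cons 922 n2378 .nil)
noncomputable def n2380 : Strat := .move 880 n2373 (.cons 881 n2169 (.cons 879 n2376 (.cons 756 n2379 (.cons 921 n2229 .nil))))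
noncomputable def n2381 : Strat := .move 757 n2363 (.cons 881 n2370 (.cons 880 n2371 (.cons 799 n2372 (.cons 716 n2380 .nil))))
noncomputable def n2382 : Strat := .move 758 n816 (.cons 880 n2187 .nil)
noncomputable def n2383 : Strat := .move 717 n1266 (.cons 676 n2382 .nil)
noncomputable def n2384 : Strat := .move 716 n520 (.cons 675 n2383 .nil)
noncomputable def n2385 : Strat := .move 758 n2293 (.cons 880 n1417 .nil)
noncomputable def n2386 : Strat := .move 881 n574 (.cons 922 n2385 .nil)
noncomputable def n2387 : Strat := .move 799 n2352 (.cons 675 n1883 (.cons 881 n2384 (.cons 716 n2386 .nil)))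
noncomputable def n2388 : Strat := .move 880 n152 (.cons 922 n2017 .nil)
noncomputable def n2389 : Strat := .move 880 n2017 (.cons 879 n2243 (.cons 717 n2269 .nil))
noncomputable def n2390 : Strat := .move 881 n2388 (.cons 880 n1986 (.cons 799 n1983 (.cons 922 n2389 .nil)))
noncomputable def n2391 : Strat := .move 799 n520 (.cons 675 n2383 .nil)
noncomputable def n2392 : Strat := .move 716 n2391 (.cons 880 n2140 (.cons 799 n2147 (.cons 715 n2144 .nil)))
noncomputable def n2393 : Strat := .move 757 n2387 (.cons 880 n2371 (.cons 675 n2372 (.cons 716 n2390 (.cons 881 n2392 .nil))))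
noncomputable def n2394 : Strat := .move 758 n408 (.cons 921 n1341 .nil)
noncomputable def n2395 : Strat := .win 758 0 755
noncomputable def n2396 : Strat := .move 755 n2395 (.cons 758 n1339 .nil)
noncomputable def n2397 : Strat := .move 800 n1581 (.cons 801 n2396 .nil)
noncomputable def n2398 : Strat := .move 756 n162 (.cons 715 n2397 .nil)
noncomputable def n2399 : Strat := .move 799 n1216 (.cons 758 n1921 (.cons 962 n2394 (.cons 921 n2398 .nil)))
noncomputable def n2400 : Strat := .move 881 n152 (.cons 922 n2399 .nil)
noncomputable def n2401 : Strat := .move 881 n152 (.cons 922 n2269 .nil)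
noncomputable def n2402 : Strat := .move 880 n2400 (.cons 921 n2401 (.cons 881 n2167 .nil))
noncomputable def n2403 : Strat := .move 757 n2372 (.cons 922 n2371 (.cons 716 n2402 (.cons 881 n2197 .nil)))
noncomputable def n2404 : Strat := .move 757 n153 (.cons 716 n279 .nil)
noncomputable def n2405 : Strat := .move 922 n171 (.cons 963 n2404 .nil)
noncomputable def n2406 : Strat := .move 922 n279 (.cons 880 n1985 .nil)
noncomputable def n2407 : Strat := .move 757 n153 (.cons 716 n2406 .nil)
noncomputable def n2408 : Strat := .move 757 n279 (.cons 880 n1985 .nil)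
noncomputable def n2409 : Strat := .move 922 n171 (.cons 963 n2408 .nil)
noncomputable def n2410 : Strat := .move 880 n1989 (.cons 799 n2319 (.cons 921 n2243 (.cons 756 n2322 .nil)))
noncomputable def n2411 : Strat := .move 757 n153 (.cons 716 n2410 .nil)
noncomputable def n2412 : Strat := .move 758 n821 (.cons 880 n1493 .nil)
noncomputable def n2413 : Strat := .move 921 n677 (.cons 962 n2412 .nil)
noncomputable def n2414 : Strat := .move 799 n2249 (.cons 921 n2001 (.cons 800 n2413 .nil))
noncomputable def n2415 : Strat := .move 922 n171 (.cons 963 n2414 .nil)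
noncomputable def n2416 : Strat := .move 881 n2405 (.cons 963 n2407 (.cons 716 n2409 (.cons 922 n2411 (.cons 757 n2415 (.cons 880 n2276 .nil)))))
noncomputable def n2417 : Strat := .move 880 n152 (.cons 922 n2322 .nil)
noncomputable def n2418 : Strat := .move 757 n153 (.cons 716 n2417 .nil)
noncomputable def n2419 : Strat := .move 799 n2249 (.cons 758 n2001 (.cons 800 n2413 .nil))
noncomputable def n2420 : Strat := .move 922 n171 (.cons 963 n2419 .nil)
noncomputable def n2421 : Strat := .move 880 n2322 (.cons 799 n2228 .nil)
noncomputable def n2422 : Strat := .move 757 n153 (.cons 716 n2421 .nil)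
noncomputable def n2423 : Strat := .move 881 n2405 (.cons 963 n2418 (.cons 757 n2420 (.cons 880 n1987 (.cons 922 n2422 .nil))))
noncomputable def n2424 : Strat := .move 880 n1989 (.cons 799 n2179 (.cons 758 n2375 (.cons 921 n2243 (.cons 756 n2322 .nil))))
noncomputable def n2425 : Strat := .move 757 n153 (.cons 716 n2424 .nil)
noncomputable def n2426 : Strat := .move 800 n909 (.cons 759 n877 .nil)
noncomputable def n2427 : Strat := .move 838 n2426 (.cons 801 n2249 (.cons 800 n2413 .nil))
noncomputable def n2428 : Strat := .move 799 n2001 (.cons 837 n2427 (.cons 800 n2413 .nil))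
noncomputable def n2429 : Strat := .move 922 n171 (.cons 963 n2428 .nil)
noncomputable def n2430 : Strat := .move 881 n1984 (.cons 716 n2409 (.cons 963 n2407 (.cons 880 n1987 (.cons 922 n2425 (.cons 757 n2429 .nil)))))
noncomputable def n2431 : Strat := .move 842 n518 (.cons 843 n523 .nil)
noncomputable def n2432 : Strat := .move 801 n693 (.cons 838 n2431 .nil)
noncomputable def n2433 : Strat := .move 801 n910 (.cons 802 n2431 .nil)
noncomputable def n2434 : Strat := .move 757 n1317 (.cons 675 n521 .nil)
noncomputable def n2435 : Strat := .move 757 n1316 (.cons 879 n1317 .nil)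
noncomputable def n2436 : Strat := .move 757 n1316 (.cons 879 n521 .nil)
noncomputable def n2437 : Strat := .move 715 n1058 (.cons 675 n469 .nil)
noncomputable def n2438 : Strat := .move 716 n2434 (.cons 881 n2435 (.cons 675 n2436 (.cons 757 n2437 .nil)))
noncomputable def n2439 : Strat := .move 756 n468 (.cons 755 n2438 .nil)
noncomputable def n2440 : Strat := .move 797 n2066 (.cons 796 n2439 (.cons 756 n2086 .nil))
noncomputable def n2441 : Strat := .move 838 n268 (.cons 837 n2440 .nil)
noncomputable def n2442 : Strat := .move 800 n2283 (.cons 802 n2432 (.cons 838 n2433 (.cons 801 n2441 .nil)))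
noncomputable def n2443 : Strat := .move 796 n773 (.cons 754 n1303 .nil)
noncomputable def n2444 : Strat := .move 755 n1939 (.cons 756 n2443 .nil)
noncomputable def n2445 : Strat := .move 797 n2287 (.cons 759 n2444 .nil)
noncomputable def n2446 : Strat := .move 760 n1595 (.cons 761 n1674 .nil)
noncomputable def n2447 : Strat := .move 759 n2286 (.cons 758 n2446 .nil)
noncomputable def n2448 : Strat := .move 801 n910 (.cons 802 n2447 .nil)
noncomputable def n2449 : Strat := .move 800 n2289 (.cons 801 n2445 (.cons 756 n2448 .nil))
noncomputable def n2450 : Strat := .move 757 n153 (.cons 716 n2449 .nil)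
noncomputable def n2451 : Strat := .move 922 n171 (.cons 963 n2262 .nil)
noncomputable def n2452 : Strat := .move 881 n329 (.cons 922 n2450 (.cons 757 n2451 .nil))
noncomputable def n2453 : Strat := .move 758 n442 (.cons 718 n1696 .nil)
noncomputable def n2454 : Strat := .move 759 n1396 (.cons 800 n2453 .nil)
noncomputable def n2455 : Strat := .move 922 n171 (.cons 963 n2454 .nil)
noncomputable def n2456 : Strat := .win 757 6 716
noncomputable def n2457 : Strat := .move 717 n815 (.cons 676 n933 .nil)
noncomputable def n2458 : Strat := .move 797 n2058 (.cons 800 n2057 .nil)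
noncomputable def n2459 : Strat := .move 760 n1414 (.cons 761 n2458 .nil)
noncomputable def n2460 : Strat := .move 759 n442 (.cons 718 n2459 .nil)
noncomputable def n2461 : Strat := .move 758 n2457 (.cons 675 n2460 .nil)
noncomputable def n2462 : Strat := .move 716 n2456 (.cons 757 n2461 .nil)
noncomputable def n2463 : Strat := .move 881 n329 (.cons 963 n575 (.cons 757 n2455 (.cons 922 n2462 .nil)))
noncomputable def n2464 : Strat := .move 757 n519 (.cons 756 n1883 .nil)
noncomputable def n2465 : Strat := .move 801 n910 (.cons 802 n2464 .nil)
noncomputable def n2466 : Strat := .move 838 n535 (.cons 837 n2066 .nil)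
noncomputable def n2467 : Strat := .move 838 n535 (.cons 837 n2439 .nil)
noncomputable def n2468 : Strat := .move 797 n2466 (.cons 838 n2043 (.cons 796 n2467 (.cons 756 n2046 .nil)))
noncomputable def n2469 : Strat := .move 800 n2283 (.cons 838 n2465 (.cons 802 n2000 (.cons 801 n2468 .nil)))
noncomputable def n2470 : Strat := .move 717 n815 (.cons 676 n930 .nil)
noncomputable def n2471 : Strat := .move 757 n153 (.cons 716 n2470 .nil)
noncomputable def n2472 : Strat := .move 718 n929 (.cons 759 n928 .nil)
noncomputable def n2473 : Strat := .move 717 n815 (.cons 676 n2472 .nil)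
noncomputable def n2474 : Strat := .win 802 2 757
noncomputable def n2475 : Strat := .move 800 n2474 (.cons 802 n693 .nil)
noncomputable def n2476 : Strat := .win 756 0 756
noncomputable def n2477 : Strat := .move 800 n2476 (.cons 756 n2474 .nil)
noncomputable def n2478 : Strat := .move 800 n2476 (.cons 756 n693 .nil)
noncomputable def n2479 : Strat := .move 760 n1498 (.cons 802 n1414 .nil)
noncomputable def n2480 : Strat := .move 801 n2475 (.cons 838 n2477 (.cons 802 n2478 (.cons 800 n2479 .nil)))
noncomputable def n2481 : Strat := .move 759 n442 (.cons 718 n2480 .nil)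
noncomputable def n2482 : Strat := .move 757 n153 (.cons 716 n2481 .nil)
noncomputable def n2483 : Strat := .move 716 n2456 (.cons 757 n2457 .nil)
noncomputable def n2484 : Strat := .move 758 n2471 (.cons 757 n2473 (.cons 717 n2482 (.cons 759 n2483 .nil)))
noncomputable def n2485 : Strat := .move 922 n171 (.cons 963 n2001 .nil)
noncomputable def n2486 : Strat := .move 881 n329 (.cons 922 n2484 (.cons 757 n2485 .nil))
noncomputable def n2487 : Strat := .move 758 n1411 (.cons 882 n2470 .nil)
noncomputable def n2488 : Strat := .move 923 n458 (.cons 964 n2487 .nil)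
noncomputable def n2489 : Strat := .move 922 n171 (.cons 963 n2488 .nil)
noncomputable def n2490 : Strat := .move 757 n153 (.cons 716 n2295 .nil)
noncomputable def n2491 : Strat := .move 758 n2490 (.cons 757 n2473 (.cons 759 n2483 .nil))
noncomputable def n2492 : Strat := .move 881 n329 (.cons 757 n2489 (.cons 922 n2491 .nil))
noncomputable def n2493 : Strat := .move 800 n1939 (.cons 756 n877 .nil)
noncomputable def n2494 : Strat := .move 755 n773 (.cons 754 n2493 .nil)
noncomputable def n2495 : Strat := .move 796 n1303 (.cons 795 n2494 .nil)
noncomputable def n2496 : Strat := .win 920 7 755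
noncomputable def n2497 : Strat := .win 756 7 714
noncomputable def n2498 : Strat := .move 714 n2497 (.cons 756 n774 .nil)
noncomputable def n2499 : Strat := .move 879 n2496 (.cons 920 n2498 .nil)
noncomputable def n2500 : Strat := .move 755 n773 (.cons 754 n2499 .nil)
noncomputable def n2501 : Strat := .move 796 n1303 (.cons 795 n2500 .nil)
noncomputable def n2502 : Strat := .move 759 n473 (.cons 760 n2067 .nil)
noncomputable def n2503 : Strat := .move 796 n1303 (.cons 795 n2502 .nil)
noncomputable def n2504 : Strat := .move 800 n877 (.cons 801 n2503 .nil)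
noncomputable def n2505 : Strat := .move 796 n2067 (.cons 758 n773 .nil)
noncomputable def n2506 : Strat := .move 755 n1939 (.cons 756 n2505 .nil)
noncomputable def n2507 : Strat := .move 759 n473 (.cons 760 n2506 .nil)
noncomputable def n2508 : Strat := .move 800 n877 (.cons 801 n2507 .nil)
noncomputable def n2509 : Strat := .win 878 1 755
noncomputable def n2510 : Strat := .move 756 n2509 (.cons 878 n468 .nil)
noncomputable def n2511 : Strat := .move 920 n250 (.cons 960 n100 .nil)
noncomputable def n2512 : Strat := .move 919 n2510 (.cons 755 n2511 .nil)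
noncomputable def n2513 : Strat := .move 800 n877 (.cons 801 n2512 .nil)
noncomputable def n2514 : Strat := .win 757 1 715
noncomputable def n2515 : Strat := .move 755 n104 (.cons 714 n1602 .nil)
noncomputable def n2516 : Strat := .move 756 n2106 (.cons 801 n2515 (.cons 755 n2437 .nil))
noncomputable def n2517 : Strat := .move 716 n2514 (.cons 757 n2516 .nil)
noncomputable def n2518 : Strat := .move 879 n227 (.cons 716 n102 (.cons 757 n2513 (.cons 920 n2517 .nil)))
noncomputable def n2519 : Strat := .move 797 n2495 (.cons 800 n2501 (.cons 754 n2504 (.cons 795 n2508 (.cons 796 n2518 .nil))))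
noncomputable def n2520 : Strat := .move 838 n2083 (.cons 800 n2093 (.cons 836 n2084 (.cons 837 n2519 .nil)))
noncomputable def n2521 : Strat := .move 799 n2442 (.cons 757 n2082 (.cons 838 n2452 (.cons 801 n2463 (.cons 758 n2469 (.cons 797 n2486 (.cons 800 n2492 (.cons 881 n2520 .nil)))))))
noncomputable def n2522 : Strat := .move 798 n2022 (.cons 757 n2135 (.cons 881 n2214 (.cons 799 n2233 (.cons 838 n2265 (.cons 797 n2272 (.cons 716 n2351 (.cons 758 n2381 (.cons 921 n2393 (.cons 717 n2403 (.cons 879 n2416 (.cons 756 n2423 (.cons 920 n2430 (.cons 880 n2521 .nil)))))))))))))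
noncomputable def n2523 : Strat := .move 839 n112 (.cons 960 n241 (.cons 836 n288 (.cons 716 n336 (.cons 715 n398 (.cons 883 n483 (.cons 877 n548 (.cons 880 n609 (.cons 837 n665 (.cons 920 n692 (.cons 878 n763 (.cons 842 n786 (.cons 757 n799 (.cons 796 n925 (.cons 797 n970 (.cons 801 n1022 (.cons 879 n1044 (.cons 800 n1165 (.cons 881 n1208 (.cons 798 n1232 (.cons 799 n1254 (.cons 882 n1367 (.cons 838 n1982 (.cons 841 n2522 .nil)))))))))))))))))))))))

end Vale.Agent.Snaky.R4_1
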