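import Vale.Agent.Snaky.Assemble

namespace Vale.Agent.Snaky.R4_2

open Vale.Agent.Snaky

noncomputable def n0 : Strat := .win 757 7 757
noncomputable def n1 : Strat := .win 839 7 798
noncomputable def n2 : Strat := .win 759 3 758
noncomputable def n3 : Strat := .win 841 3 799
noncomputable def n4 : Strat := .move 800 n2 (.cons 759 n3 .nil)
noncomputable def n5 : Strat := .move 963 n1 (.cons 839 n4 .nil)
noncomputable def n6 : Strat := .move 798 n0 (.cons 757 n5 .nil)
noncomputable def n7 : Strat := .win 962 1 798
noncomputable def n8 : Strat := .win 880 1 757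
noncomputable def n9 : Strat := .win 798 7 757
noncomputable def n10 : Strat := .win 716 7 716
noncomputable def n11 : Strat := .move 757 n9 (.cons 798 n10 .nil)
noncomputable def n12 : Strat := .move 758 n8 (.cons 880 n11 .nil)
noncomputable def n13 : Strat := .move 921 n7 (.cons 962 n12 .nil)
noncomputable def n14 : Strat := .win 964 6 799
noncomputable def n15 : Strat := .win 882 6 758
noncomputable def n16 : Strat := .move 921 n7 (.cons 962 n8 .nil)
noncomputable def n17 : Strat := .move 758 n15 (.cons 882 n16 .nil)
noncomputable def n18 : Strat := .move 923 n14 (.cons 964 n17 .nil)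
noncomputable def n19 : Strat := .move 799 n6 (.cons 841 n13 (.cons 798 n18 .nil))
noncomputable def n20 : Strat := .win 798 7 798
noncomputable def n21 : Strat := .win 880 7 839
noncomputable def n22 : Strat := .win 800 3 799
noncomputable def n23 : Strat := .win 882 3 840
noncomputable def n24 : Strat := .move 841 n22 (.cons 800 n23 .nil)
noncomputable def n25 : Strat := .move 1004 n21 (.cons 880 n24 .nil)
noncomputable def n26 : Strat := .move 839 n20 (.cons 798 n25 .nil)
noncomputable def n27 : Strat := .win 962 1 839
noncomputable def n28 : Strat := .win 1044 1 880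
noncomputable def n29 : Strat := .move 1003 n27 (.cons 962 n28 .nil)
noncomputable def n30 : Strat := .move 1004 n21 (.cons 880 n29 .nil)
noncomputable def n31 : Strat := .move 839 n20 (.cons 798 n30 .nil)
noncomputable def n32 : Strat := .move 1004 n23 (.cons 882 n29 .nil)
noncomputable def n33 : Strat := .move 841 n22 (.cons 800 n32 .nil)
noncomputable def n34 : Strat := .win 1003 1 839
noncomputable def n35 : Strat := .win 883 0 838
noncomputable def n36 : Strat := .win 837 0 837
noncomputable def n37 : Strat := .move 882 n35 (.cons 883 n36 .nil)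
noncomputable def n38 : Strat := .win 842 4 838
noncomputable def n39 : Strat := .win 878 4 837
noncomputable def n40 : Strat := .move 879 n38 (.cons 842 n39 .nil)
noncomputable def n41 : Strat := .win 843 4 839
noncomputable def n42 : Strat := .win 879 4 838
noncomputable def n43 : Strat := .move 842 n41 (.cons 843 n42 .nil)
noncomputable def n44 : Strat := .win 921 7 797
noncomputable def n45 : Strat := .win 796 2 796
noncomputable def n46 : Strat := .move 797 n44 (.cons 921 n45 .nil)
noncomputable def n47 : Strat := .move 880 n40 (.cons 878 n43 (.cons 842 n46 .nil))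
noncomputable def n48 : Strat := .move 838 n37 (.cons 837 n47 .nil)
noncomputable def n49 : Strat := .move 962 n34 (.cons 1003 n48 .nil)
noncomputable def n50 : Strat := .move 841 n22 (.cons 800 n49 .nil)
noncomputable def n51 : Strat := .move 839 n20 (.cons 798 n50 .nil)
noncomputable def n52 : Strat := .move 963 n26 (.cons 882 n31 (.cons 839 n33 (.cons 1004 n51 .nil)))
noncomputable def n53 : Strat := .win 923 6 799
noncomputable def n54 : Strat := .win 1005 6 840
noncomputable def n55 : Strat := .move 964 n53 (.cons 923 n54 .nil)
noncomputable def n56 : Strat := .move 963 n3 (.cons 841 n55 .nil)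
noncomputable def n57 : Strat := .move 800 n2 (.cons 759 n56 .nil)
noncomputable def n58 : Strat := .win 921 1 798
noncomputable def n59 : Strat := .move 962 n58 (.cons 921 n34 .nil)
noncomputable def n60 : Strat := .move 963 n3 (.cons 841 n59 .nil)
noncomputable def n61 : Strat := .move 800 n2 (.cons 759 n60 .nil)
noncomputable def n62 : Strat := .move 799 n18 (.cons 880 n57 (.cons 923 n61 .nil))
noncomputable def n63 : Strat := .move 923 n14 (.cons 964 n15 .nil)
noncomputable def n64 : Strat := .move 758 n8 (.cons 880 n63 .nil)
noncomputable def n65 : Strat := .move 921 n7 (.cons 962 n64 .nil)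
noncomputable def n66 : Strat := .move 758 n15 (.cons 882 n11 .nil)
noncomputable def n67 : Strat := .move 923 n14 (.cons 964 n66 .nil)
noncomputable def n68 : Strat := .win 842 0 797
noncomputable def n69 : Strat := .win 796 0 796
noncomputable def n70 : Strat := .move 841 n68 (.cons 842 n69 .nil)
noncomputable def n71 : Strat := .win 801 4 797
noncomputable def n72 : Strat := .win 837 4 796
noncomputable def n73 : Strat := .move 838 n71 (.cons 801 n72 .nil)
noncomputable def n74 : Strat := .win 802 4 798
noncomputable def n75 : Strat := .win 838 4 797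
noncomputable def n76 : Strat := .move 801 n74 (.cons 802 n75 .nil)
noncomputable def n77 : Strat := .win 880 7 756
noncomputable def n78 : Strat := .win 755 2 755
noncomputable def n79 : Strat := .move 756 n77 (.cons 880 n78 .nil)
noncomputable def n80 : Strat := .move 839 n73 (.cons 837 n76 (.cons 801 n79 .nil))
noncomputable def n81 : Strat := .move 797 n70 (.cons 796 n80 .nil)
noncomputable def n82 : Strat := .move 921 n7 (.cons 962 n81 .nil)
noncomputable def n83 : Strat := .move 800 n2 (.cons 759 n82 .nil)
noncomputable def n84 : Strat := .move 798 n0 (.cons 757 n83 .nil)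
noncomputable def n85 : Strat := .move 799 n65 (.cons 882 n13 (.cons 921 n67 (.cons 758 n84 .nil)))
noncomputable def n86 : Strat := .move 963 n1 (.cons 839 n59 .nil)
noncomputable def n87 : Strat := .move 798 n0 (.cons 757 n86 .nil)
noncomputable def n88 : Strat := .move 963 n1 (.cons 839 n55 .nil)
noncomputable def n89 : Strat := .move 798 n0 (.cons 757 n88 .nil)
noncomputable def n90 : Strat := .move 799 n13 (.cons 758 n87 (.cons 921 n89 (.cons 798 n65 .nil)))
noncomputable def n91 : Strat := .move 798 n0 (.cons 757 n1 .nil)
noncomputable def n92 : Strat := .move 963 n3 (.cons 841 n91 .nil)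
noncomputable def n93 : Strat := .move 800 n2 (.cons 759 n92 .nil)
noncomputable def n94 : Strat := .move 799 n93 (.cons 839 n57 (.cons 841 n89 (.cons 963 n67 .nil)))
noncomputable def n95 : Strat := .win 800 3 758
noncomputable def n96 : Strat := .win 718 3 717
noncomputable def n97 : Strat := .move 759 n95 (.cons 800 n96 .nil)
noncomputable def n98 : Strat := .move 758 n8 (.cons 880 n97 .nil)
noncomputable def n99 : Strat := .move 921 n7 (.cons 962 n98 .nil)
noncomputable def n100 : Strat := .move 799 n6 (.cons 963 n13 (.cons 798 n99 .nil))
noncomputable def n101 : Strat := .move 922 n19 (.cons 799 n52 (.cons 839 n62 (.cons 963 n85 (.cons 841 n90 (.cons 880 n94 (.cons 882 n100 .nil))))))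
noncomputable def n102 : Strat := .win 922 3 758
noncomputable def n103 : Strat := .win 802 2 757
noncomputable def n104 : Strat := .win 756 0 756
noncomputable def n105 : Strat := .move 801 n103 (.cons 802 n104 .nil)
noncomputable def n106 : Strat := .move 800 n102 (.cons 922 n105 .nil)
noncomputable def n107 : Strat := .move 759 n96 (.cons 718 n106 .nil)
noncomputable def n108 : Strat := .move 757 n10 (.cons 716 n107 .nil)
noncomputable def n109 : Strat := .win 923 6 758
noncomputable def n110 : Strat := .win 841 6 717
noncomputable def n111 : Strat := .win 759 3 717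
noncomputable def n112 : Strat := .win 677 3 676
noncomputable def n113 : Strat := .move 718 n111 (.cons 759 n112 .nil)
noncomputable def n114 : Strat := .move 717 n110 (.cons 841 n113 .nil)
noncomputable def n115 : Strat := .move 882 n109 (.cons 923 n114 .nil)
noncomputable def n116 : Strat := .win 922 7 757
noncomputable def n117 : Strat := .win 839 1 675
noncomputable def n118 : Strat := .win 635 1 634
noncomputable def n119 : Strat := .move 676 n117 (.cons 839 n118 .nil)
noncomputable def n120 : Strat := .move 717 n110 (.cons 841 n119 .nil)
noncomputable def n121 : Strat := .move 882 n109 (.cons 923 n120 .nil)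
noncomputable def n122 : Strat := .move 798 n116 (.cons 922 n121 .nil)
noncomputable def n123 : Strat := .move 757 n10 (.cons 716 n122 .nil)
noncomputable def n124 : Strat := .move 758 n108 (.cons 757 n115 (.cons 718 n123 .nil))
noncomputable def n125 : Strat := .win 843 2 798
noncomputable def n126 : Strat := .win 797 0 797
noncomputable def n127 : Strat := .move 842 n125 (.cons 843 n126 .nil)
noncomputable def n128 : Strat := .move 797 n69 (.cons 796 n68 .nil)
noncomputable def n129 : Strat := .move 839 n74 (.cons 802 n75 .nil)
noncomputable def n130 : Strat := .win 803 4 799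
noncomputable def n131 : Strat := .win 839 4 798
noncomputable def n132 : Strat := .move 802 n130 (.cons 803 n131 .nil)
noncomputable def n133 : Strat := .win 882 3 759
noncomputable def n134 : Strat := .win 761 5 757
noncomputable def n135 : Strat := .move 760 n133 (.cons 882 n134 .nil)
noncomputable def n136 : Strat := .move 801 n129 (.cons 838 n132 (.cons 802 n135 .nil))
noncomputable def n137 : Strat := .move 923 n14 (.cons 964 n136 .nil)
noncomputable def n138 : Strat := .move 841 n127 (.cons 843 n128 (.cons 842 n137 .nil))
noncomputable def n139 : Strat := .move 800 n2 (.cons 759 n138 .nil)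
noncomputable def n140 : Strat := .move 798 n0 (.cons 757 n139 .nil)
noncomputable def n141 : Strat := .move 922 n93 (.cons 839 n57 (.cons 800 n89 (.cons 963 n140 .nil)))
noncomputable def n142 : Strat := .win 760 4 756
noncomputable def n143 : Strat := .win 796 5 755
noncomputable def n144 : Strat := .move 797 n142 (.cons 760 n143 .nil)
noncomputable def n145 : Strat := .move 759 n96 (.cons 718 n144 .nil)
noncomputable def n146 : Strat := .move 798 n116 (.cons 922 n145 .nil)
noncomputable def n147 : Strat := .move 757 n10 (.cons 716 n146 .nil)
noncomputable def n148 : Strat := .win 757 7 716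
noncomputable def n149 : Strat := .win 675 7 675
noncomputable def n150 : Strat := .move 716 n148 (.cons 757 n149 .nil)
noncomputable def n151 : Strat := .move 717 n110 (.cons 841 n150 .nil)
noncomputable def n152 : Strat := .move 882 n109 (.cons 923 n151 .nil)
noncomputable def n153 : Strat := .move 758 n147 (.cons 760 n152 (.cons 757 n115 .nil))
noncomputable def n154 : Strat := .move 801 n104 (.cons 756 n103 .nil)
noncomputable def n155 : Strat := .move 757 n10 (.cons 716 n154 .nil)
noncomputable def n156 : Strat := .move 800 n102 (.cons 922 n155 .nil)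
noncomputable def n157 : Strat := .move 759 n96 (.cons 718 n156 .nil)
noncomputable def n158 : Strat := .move 758 n115 (.cons 882 n157 (.cons 759 n152 .nil))
noncomputable def n159 : Strat := .move 757 n10 (.cons 716 n9 .nil)
noncomputable def n160 : Strat := .move 758 n15 (.cons 882 n159 .nil)
noncomputable def n161 : Strat := .move 923 n14 (.cons 964 n160 .nil)
noncomputable def n162 : Strat := .move 759 n96 (.cons 718 n95 .nil)
noncomputable def n163 : Strat := .move 758 n15 (.cons 882 n162 .nil)
noncomputable def n164 : Strat := .move 923 n14 (.cons 964 n163 .nil)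
noncomputable def n165 : Strat := .win 963 7 798
noncomputable def n166 : Strat := .win 837 5 796
noncomputable def n167 : Strat := .move 838 n71 (.cons 801 n166 .nil)
noncomputable def n168 : Strat := .move 800 n2 (.cons 759 n167 .nil)
noncomputable def n169 : Strat := .move 839 n165 (.cons 963 n168 .nil)
noncomputable def n170 : Strat := .move 798 n0 (.cons 757 n169 .nil)
noncomputable def n171 : Strat := .move 922 n89 (.cons 839 n161 (.cons 798 n164 (.cons 964 n170 .nil)))
noncomputable def n172 : Strat := .move 963 n3 (.cons 841 n1 .nil)
noncomputable def n173 : Strat := .move 800 n2 (.cons 759 n172 .nil)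
noncomputable def n174 : Strat := .move 798 n0 (.cons 757 n173 .nil)
noncomputable def n175 : Strat := .move 841 n69 (.cons 796 n68 .nil)
noncomputable def n176 : Strat := .win 841 0 796
noncomputable def n177 : Strat := .win 754 2 754
noncomputable def n178 : Strat := .win 756 2 755
noncomputable def n179 : Strat := .move 755 n177 (.cons 754 n178 .nil)
noncomputable def n180 : Strat := .move 796 n176 (.cons 841 n179 .nil)
noncomputable def n181 : Strat := .win 838 4 796
noncomputable def n182 : Strat := .win 836 4 795
noncomputable def n183 : Strat := .move 796 n182 (.cons 836 n179 .nil)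
noncomputable def n184 : Strat := .move 837 n181 (.cons 838 n183 .nil)
noncomputable def n185 : Strat := .win 841 0 797
noncomputable def n186 : Strat := .win 843 0 798
noncomputable def n187 : Strat := .win 839 4 797
noncomputable def n188 : Strat := .move 838 n187 (.cons 839 n72 .nil)
noncomputable def n189 : Strat := .move 801 n186 (.cons 843 n188 .nil)
noncomputable def n190 : Strat := .move 842 n185 (.cons 841 n189 .nil)
noncomputable def n191 : Strat := .move 797 n175 (.cons 842 n180 (.cons 841 n184 (.cons 796 n190 .nil)))
noncomputable def n192 : Strat := .move 800 n2 (.cons 759 n191 .nil)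
noncomputable def n193 : Strat := .move 798 n0 (.cons 757 n192 .nil)
noncomputable def n194 : Strat := .move 922 n174 (.cons 841 n89 (.cons 798 n57 (.cons 963 n193 .nil)))
noncomputable def n195 : Strat := .win 760 5 756
noncomputable def n196 : Strat := .move 797 n143 (.cons 796 n195 .nil)
noncomputable def n197 : Strat := .win 761 4 757
noncomputable def n198 : Strat := .win 797 5 756
noncomputable def n199 : Strat := .move 760 n197 (.cons 761 n198 .nil)
noncomputable def n200 : Strat := .win 676 1 675
noncomputable def n201 : Strat := .win 880 1 716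
noncomputable def n202 : Strat := .move 717 n200 (.cons 676 n201 .nil)
noncomputable def n203 : Strat := .move 801 n75 (.cons 838 n74 .nil)
noncomputable def n204 : Strat := .move 839 n202 (.cons 880 n203 .nil)
noncomputable def n205 : Strat := .move 760 n197 (.cons 761 n204 .nil)
noncomputable def n206 : Strat := .move 797 n143 (.cons 796 n204 .nil)
noncomputable def n207 : Strat := .move 798 n196 (.cons 796 n199 (.cons 797 n205 (.cons 760 n206 .nil)))
noncomputable def n208 : Strat := .move 800 n102 (.cons 922 n207 .nil)
noncomputable def n209 : Strat := .move 759 n96 (.cons 718 n208 .nil)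
noncomputable def n210 : Strat := .win 798 1 675
noncomputable def n211 : Strat := .win 636 3 635
noncomputable def n212 : Strat := .win 718 3 676
noncomputable def n213 : Strat := .move 677 n211 (.cons 636 n212 .nil)
noncomputable def n214 : Strat := .move 676 n210 (.cons 798 n213 .nil)
noncomputable def n215 : Strat := .move 839 n201 (.cons 880 n214 .nil)
noncomputable def n216 : Strat := .move 717 n110 (.cons 841 n215 .nil)
noncomputable def n217 : Strat := .move 882 n109 (.cons 923 n216 .nil)
noncomputable def n218 : Strat := .move 923 n15 (.cons 882 n14 .nil)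
noncomputable def n219 : Strat := .move 922 n95 (.cons 800 n218 .nil)
noncomputable def n220 : Strat := .move 759 n96 (.cons 718 n219 .nil)
noncomputable def n221 : Strat := .win 634 7 634
noncomputable def n222 : Strat := .win 716 7 675
noncomputable def n223 : Strat := .move 675 n221 (.cons 634 n222 .nil)
noncomputable def n224 : Strat := .move 676 n210 (.cons 798 n223 .nil)
noncomputable def n225 : Strat := .move 839 n201 (.cons 880 n224 .nil)
noncomputable def n226 : Strat := .move 717 n110 (.cons 841 n225 .nil)
noncomputable def n227 : Strat := .move 882 n109 (.cons 923 n226 .nil)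
noncomputable def n228 : Strat := .move 758 n115 (.cons 882 n209 (.cons 759 n217 (.cons 717 n220 (.cons 718 n227 .nil))))
noncomputable def n229 : Strat := .win 758 7 716
noncomputable def n230 : Strat := .win 675 6 675
noncomputable def n231 : Strat := .move 716 n229 (.cons 758 n230 .nil)
noncomputable def n232 : Strat := .move 757 n116 (.cons 922 n231 .nil)
noncomputable def n233 : Strat := .win 839 6 716
noncomputable def n234 : Strat := .move 716 n230 (.cons 675 n233 .nil)
noncomputable def n235 : Strat := .move 757 n116 (.cons 922 n234 .nil)
noncomputable def n236 : Strat := .move 963 n1 (.cons 839 n3 .nil)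
noncomputable def n237 : Strat := .move 800 n2 (.cons 759 n236 .nil)
noncomputable def n238 : Strat := .move 922 n0 (.cons 757 n237 .nil)
noncomputable def n239 : Strat := .move 716 n229 (.cons 758 n233 .nil)
noncomputable def n240 : Strat := .win 797 4 756
noncomputable def n241 : Strat := .move 760 n240 (.cons 797 n197 .nil)
noncomputable def n242 : Strat := .move 759 n96 (.cons 718 n241 .nil)
noncomputable def n243 : Strat := .move 839 n200 (.cons 676 n201 .nil)
noncomputable def n244 : Strat := .move 882 n110 (.cons 841 n119 .nil)
noncomputable def n245 : Strat := .win 882 6 717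
noncomputable def n246 : Strat := .win 800 6 676
noncomputable def n247 : Strat := .move 676 n246 (.cons 800 n118 .nil)
noncomputable def n248 : Strat := .move 841 n245 (.cons 882 n247 .nil)
noncomputable def n249 : Strat := .win 797 2 797
noncomputable def n250 : Strat := .move 842 n249 (.cons 797 n125 .nil)
noncomputable def n251 : Strat := .move 841 n245 (.cons 882 n250 .nil)
noncomputable def n252 : Strat := .move 839 n201 (.cons 880 n251 .nil)
noncomputable def n253 : Strat := .move 717 n243 (.cons 880 n244 (.cons 839 n248 (.cons 676 n252 .nil)))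
noncomputable def n254 : Strat := .move 676 n118 (.cons 635 n117 .nil)
noncomputable def n255 : Strat := .move 717 n243 (.cons 880 n254 (.cons 839 n113 .nil))
noncomputable def n256 : Strat := .move 758 n145 (.cons 796 n242 (.cons 759 n253 (.cons 797 n255 .nil)))
noncomputable def n257 : Strat := .move 757 n231 (.cons 758 n234 (.cons 675 n239 (.cons 716 n256 .nil)))
noncomputable def n258 : Strat := .win 800 0 797
noncomputable def n259 : Strat := .move 797 n69 (.cons 796 n258 .nil)
noncomputable def n260 : Strat := .move 842 n125 (.cons 843 n259 .nil)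
noncomputable def n261 : Strat := .win 963 3 799
noncomputable def n262 : Strat := .move 922 n261 (.cons 963 n2 .nil)
noncomputable def n263 : Strat := .move 800 n262 (.cons 759 n203 .nil)
noncomputable def n264 : Strat := .win 882 0 838
noncomputable def n265 : Strat := .win 884 0 839
noncomputable def n266 : Strat := .move 883 n264 (.cons 882 n265 .nil)
noncomputable def n267 : Strat := .win 800 4 797
noncomputable def n268 : Strat := .win 802 5 798
noncomputable def n269 : Strat := .move 801 n267 (.cons 800 n268 .nil)
noncomputable def n270 : Strat := .move 838 n37 (.cons 837 n266 (.cons 883 n269 .nil))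
noncomputable def n271 : Strat := .win 880 4 838
noncomputable def n272 : Strat := .move 838 n39 (.cons 878 n37 .nil)
noncomputable def n273 : Strat := .move 879 n271 (.cons 880 n272 .nil)
noncomputable def n274 : Strat := .move 922 n165 (.cons 963 n95 .nil)
noncomputable def n275 : Strat := .win 717 1 716
noncomputable def n276 : Strat := .move 758 n275 (.cons 717 n96 .nil)
noncomputable def n277 : Strat := .move 759 n274 (.cons 800 n276 .nil)
noncomputable def n278 : Strat := .move 880 n42 (.cons 879 n277 .nil)
noncomputable def n279 : Strat := .move 839 n263 (.cons 759 n270 (.cons 800 n273 (.cons 838 n278 .nil)))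
noncomputable def n280 : Strat := .move 842 n125 (.cons 843 n279 .nil)
noncomputable def n281 : Strat := .move 839 n249 (.cons 797 n273 .nil)
noncomputable def n282 : Strat := .move 842 n125 (.cons 843 n281 .nil)
noncomputable def n283 : Strat := .win 718 1 717
noncomputable def n284 : Strat := .move 759 n102 (.cons 922 n283 .nil)
noncomputable def n285 : Strat := .move 800 n68 (.cons 842 n284 .nil)
noncomputable def n286 : Strat := .move 797 n69 (.cons 796 n285 .nil)
noncomputable def n287 : Strat := .move 800 n102 (.cons 922 n283 .nil)
noncomputable def n288 : Strat := .move 800 n283 (.cons 718 n195 .nil)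
noncomputable def n289 : Strat := .move 839 n201 (.cons 880 n200 .nil)
noncomputable def n290 : Strat := .move 717 n245 (.cons 882 n289 .nil)
noncomputable def n291 : Strat := .move 758 n96 (.cons 718 n290 .nil)
noncomputable def n292 : Strat := .move 800 n102 (.cons 922 n195 .nil)
noncomputable def n293 : Strat := .move 759 n287 (.cons 922 n288 (.cons 800 n291 (.cons 718 n292 .nil)))
noncomputable def n294 : Strat := .move 797 n69 (.cons 796 n293 .nil)
noncomputable def n295 : Strat := .move 841 n260 (.cons 797 n280 (.cons 800 n282 (.cons 843 n286 (.cons 842 n294 .nil))))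
noncomputable def n296 : Strat := .move 798 n232 (.cons 758 n235 (.cons 716 n238 (.cons 922 n257 (.cons 757 n295 .nil))))
noncomputable def n297 : Strat := .win 839 1 716
noncomputable def n298 : Strat := .move 717 n297 (.cons 839 n113 .nil)
noncomputable def n299 : Strat := .move 717 n297 (.cons 839 n150 .nil)
noncomputable def n300 : Strat := .win 801 0 756
noncomputable def n301 : Strat := .win 755 0 755
noncomputable def n302 : Strat := .move 800 n300 (.cons 801 n301 .nil)
noncomputable def n303 : Strat := .win 796 4 755
noncomputable def n304 : Strat := .move 797 n142 (.cons 760 n303 .nil)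
noncomputable def n305 : Strat := .move 760 n197 (.cons 761 n240 .nil)
noncomputable def n306 : Strat := .win 839 7 715
noncomputable def n307 : Strat := .win 714 2 714
noncomputable def n308 : Strat := .move 715 n306 (.cons 839 n307 .nil)
noncomputable def n309 : Strat := .move 798 n304 (.cons 796 n305 (.cons 760 n308 .nil))
noncomputable def n310 : Strat := .move 756 n302 (.cons 755 n309 .nil)
noncomputable def n311 : Strat := .move 759 n96 (.cons 718 n310 .nil)
noncomputable def n312 : Strat := .move 757 n10 (.cons 716 n311 .nil)
noncomputable def n313 : Strat := .win 802 0 757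
noncomputable def n314 : Strat := .win 800 0 756
noncomputable def n315 : Strat := .move 801 n313 (.cons 802 n314 .nil)
noncomputable def n316 : Strat := .move 798 n240 (.cons 797 n197 .nil)
noncomputable def n317 : Strat := .move 760 n315 (.cons 800 n316 .nil)
noncomputable def n318 : Strat := .win 800 0 755
noncomputable def n319 : Strat := .win 713 2 713
noncomputable def n320 : Strat := .win 715 2 714
noncomputable def n321 : Strat := .move 714 n319 (.cons 713 n320 .nil)
noncomputable def n322 : Strat := .move 755 n318 (.cons 800 n321 .nil)
noncomputable def n323 : Strat := .win 795 4 754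
noncomputable def n324 : Strat := .win 797 4 755
noncomputable def n325 : Strat := .move 796 n323 (.cons 795 n324 .nil)
noncomputable def n326 : Strat := .move 755 n321 (.cons 715 n325 .nil)
noncomputable def n327 : Strat := .move 756 n302 (.cons 755 n317 (.cons 801 n322 (.cons 800 n326 .nil)))
noncomputable def n328 : Strat := .move 757 n10 (.cons 716 n327 .nil)
noncomputable def n329 : Strat := .move 759 n96 (.cons 718 n328 .nil)
noncomputable def n330 : Strat := .move 880 n298 (.cons 759 n299 (.cons 717 n312 (.cons 839 n329 .nil)))
noncomputable def n331 : Strat := .move 798 n197 (.cons 761 n240 .nil)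
noncomputable def n332 : Strat := .win 798 4 757
noncomputable def n333 : Strat := .win 803 0 758
noncomputable def n334 : Strat := .win 801 0 757
noncomputable def n335 : Strat := .move 802 n333 (.cons 803 n334 .nil)
noncomputable def n336 : Strat := .move 761 n332 (.cons 798 n335 .nil)
noncomputable def n337 : Strat := .move 756 n300 (.cons 801 n301 .nil)
noncomputable def n338 : Strat := .move 801 n104 (.cons 756 n313 .nil)
noncomputable def n339 : Strat := .win 841 3 718
noncomputable def n340 : Strat := .win 720 5 716
noncomputable def n341 : Strat := .move 719 n339 (.cons 841 n340 .nil)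
noncomputable def n342 : Strat := .move 800 n337 (.cons 755 n338 (.cons 801 n341 .nil))
noncomputable def n343 : Strat := .move 760 n331 (.cons 797 n336 (.cons 761 n342 .nil))
noncomputable def n344 : Strat := .move 882 n109 (.cons 923 n343 .nil)
noncomputable def n345 : Strat := .move 759 n96 (.cons 718 n344 .nil)
noncomputable def n346 : Strat := .move 757 n10 (.cons 716 n345 .nil)
noncomputable def n347 : Strat := .move 758 n152 (.cons 757 n115 (.cons 923 n330 (.cons 717 n346 .nil)))
noncomputable def n348 : Strat := .move 1003 n28 (.cons 1044 n27 .nil)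
noncomputable def n349 : Strat := .move 1004 n23 (.cons 882 n348 .nil)
noncomputable def n350 : Strat := .move 841 n22 (.cons 800 n349 .nil)
noncomputable def n351 : Strat := .move 963 n1 (.cons 839 n350 .nil)
noncomputable def n352 : Strat := .move 798 n0 (.cons 757 n351 .nil)
noncomputable def n353 : Strat := .win 758 6 758
noncomputable def n354 : Strat := .win 800 1 799
noncomputable def n355 : Strat := .win 1004 3 840
noncomputable def n356 : Strat := .move 841 n354 (.cons 800 n355 .nil)
noncomputable def n357 : Strat := .win 1045 3 881
noncomputable def n358 : Strat := .move 1004 n21 (.cons 880 n357 .nil)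
noncomputable def n359 : Strat := .move 839 n20 (.cons 798 n358 .nil)
noncomputable def n360 : Strat := .move 838 n35 (.cons 883 n36 .nil)
noncomputable def n361 : Strat := .move 839 n20 (.cons 798 n360 .nil)
noncomputable def n362 : Strat := .move 841 n354 (.cons 800 n361 .nil)
noncomputable def n363 : Strat := .move 963 n356 (.cons 841 n359 (.cons 1004 n362 .nil))
noncomputable def n364 : Strat := .move 882 n353 (.cons 758 n363 .nil)
noncomputable def n365 : Strat := .move 923 n14 (.cons 964 n364 .nil)
noncomputable def n366 : Strat := .move 963 n54 (.cons 1005 n350 .nil)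
noncomputable def n367 : Strat := .move 964 n53 (.cons 923 n366 .nil)
noncomputable def n368 : Strat := .move 922 n89 (.cons 923 n352 (.cons 757 n365 (.cons 963 n161 (.cons 798 n367 .nil))))
noncomputable def n369 : Strat := .move 799 n124 (.cons 758 n141 (.cons 800 n153 (.cons 798 n158 (.cons 841 n171 (.cons 882 n194 (.cons 757 n228 (.cons 923 n296 (.cons 922 n347 (.cons 759 n368 .nil)))))))))
noncomputable def n370 : Strat := .move 798 n116 (.cons 922 n144 .nil)
noncomputable def n371 : Strat := .move 759 n96 (.cons 718 n370 .nil)
noncomputable def n372 : Strat := .move 757 n10 (.cons 716 n371 .nil)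
noncomputable def n373 : Strat := .win 921 1 757
noncomputable def n374 : Strat := .move 880 n373 (.cons 921 n298 .nil)
noncomputable def n375 : Strat := .move 880 n373 (.cons 921 n299 .nil)
noncomputable def n376 : Strat := .move 758 n372 (.cons 760 n374 (.cons 759 n375 .nil))
noncomputable def n377 : Strat := .move 922 n6 (.cons 841 n87 (.cons 798 n61 (.cons 963 n84 .nil)))
noncomputable def n378 : Strat := .move 758 n374 (.cons 677 n375 (.cons 880 n157 .nil))
noncomputable def n379 : Strat := .move 758 n8 (.cons 880 n159 .nil)
noncomputable def n380 : Strat := .move 921 n7 (.cons 962 n379 .nil)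
noncomputable def n381 : Strat := .win 1046 6 881
noncomputable def n382 : Strat := .win 964 6 840
noncomputable def n383 : Strat := .move 1005 n381 (.cons 1046 n382 .nil)
noncomputable def n384 : Strat := .move 1004 n348 (.cons 962 n383 .nil)
noncomputable def n385 : Strat := .move 758 n10 (.cons 716 n384 .nil)
noncomputable def n386 : Strat := .move 757 n9 (.cons 798 n385 .nil)
noncomputable def n387 : Strat := .move 963 n3 (.cons 841 n386 .nil)
noncomputable def n388 : Strat := .move 800 n2 (.cons 759 n387 .nil)
noncomputable def n389 : Strat := .move 842 n126 (.cons 797 n125 .nil)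
noncomputable def n390 : Strat := .move 798 n0 (.cons 757 n389 .nil)
noncomputable def n391 : Strat := .move 841 n261 (.cons 963 n390 .nil)
noncomputable def n392 : Strat := .move 800 n2 (.cons 759 n391 .nil)
noncomputable def n393 : Strat := .move 922 n61 (.cons 800 n380 (.cons 921 n388 (.cons 962 n392 .nil)))
noncomputable def n394 : Strat := .move 798 n0 (.cons 757 n172 .nil)
noncomputable def n395 : Strat := .move 800 n2 (.cons 759 n394 .nil)
noncomputable def n396 : Strat := .move 839 n75 (.cons 838 n74 .nil)
noncomputable def n397 : Strat := .move 801 n186 (.cons 843 n396 .nil)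
noncomputable def n398 : Strat := .move 842 n185 (.cons 841 n397 .nil)
noncomputable def n399 : Strat := .move 797 n175 (.cons 842 n180 (.cons 841 n184 (.cons 796 n398 .nil)))
noncomputable def n400 : Strat := .move 798 n0 (.cons 757 n399 .nil)
noncomputable def n401 : Strat := .move 800 n2 (.cons 759 n400 .nil)
noncomputable def n402 : Strat := .move 922 n395 (.cons 839 n61 (.cons 800 n87 (.cons 963 n401 .nil)))
noncomputable def n403 : Strat := .win 756 2 756
noncomputable def n404 : Strat := .move 801 n103 (.cons 802 n403 .nil)
noncomputable def n405 : Strat := .move 797 n68 (.cons 842 n69 .nil)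
noncomputable def n406 : Strat := .win 676 6 676
noncomputable def n407 : Strat := .move 717 n406 (.cons 676 n245 .nil)
noncomputable def n408 : Strat := .move 841 n405 (.cons 796 n389 (.cons 842 n407 .nil))
noncomputable def n409 : Strat := .move 756 n301 (.cons 755 n408 .nil)
noncomputable def n410 : Strat := .move 842 n126 (.cons 797 n186 .nil)
noncomputable def n411 : Strat := .move 841 n405 (.cons 796 n410 (.cons 842 n407 .nil))
noncomputable def n412 : Strat := .move 801 n103 (.cons 802 n411 .nil)
noncomputable def n413 : Strat := .move 800 n404 (.cons 801 n409 (.cons 756 n412 .nil))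
noncomputable def n414 : Strat := .move 798 n116 (.cons 922 n413 .nil)
noncomputable def n415 : Strat := .move 757 n10 (.cons 716 n414 .nil)
noncomputable def n416 : Strat := .move 676 n246 (.cons 800 n213 .nil)
noncomputable def n417 : Strat := .move 841 n245 (.cons 882 n416 .nil)
noncomputable def n418 : Strat := .move 717 n297 (.cons 839 n417 .nil)
noncomputable def n419 : Strat := .move 880 n373 (.cons 921 n418 .nil)
noncomputable def n420 : Strat := .move 921 n8 (.cons 880 n7 .nil)
noncomputable def n421 : Strat := .move 922 n9 (.cons 798 n420 .nil)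
noncomputable def n422 : Strat := .move 757 n10 (.cons 716 n421 .nil)
noncomputable def n423 : Strat := .move 758 n375 (.cons 880 n415 (.cons 757 n419 (.cons 717 n422 .nil)))
noncomputable def n424 : Strat := .win 798 4 756
noncomputable def n425 : Strat := .move 797 n424 (.cons 798 n303 .nil)
noncomputable def n426 : Strat := .move 760 n315 (.cons 800 n425 .nil)
noncomputable def n427 : Strat := .move 756 n302 (.cons 755 n426 (.cons 801 n322 (.cons 800 n326 .nil)))
noncomputable def n428 : Strat := .move 759 n96 (.cons 718 n427 .nil)
noncomputable def n429 : Strat := .move 757 n10 (.cons 716 n428 .nil)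
noncomputable def n430 : Strat := .move 882 n151 (.cons 841 n429 (.cons 757 n114 .nil))
noncomputable def n431 : Strat := .move 880 n373 (.cons 921 n310 .nil)
noncomputable def n432 : Strat := .move 759 n96 (.cons 718 n431 .nil)
noncomputable def n433 : Strat := .move 757 n10 (.cons 716 n432 .nil)
noncomputable def n434 : Strat := .move 758 n374 (.cons 880 n430 (.cons 759 n375 (.cons 717 n433 .nil)))
noncomputable def n435 : Strat := .move 1004 n21 (.cons 880 n348 .nil)
noncomputable def n436 : Strat := .move 839 n20 (.cons 798 n435 .nil)
noncomputable def n437 : Strat := .move 963 n3 (.cons 841 n436 .nil)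
noncomputable def n438 : Strat := .move 800 n2 (.cons 759 n437 .nil)
noncomputable def n439 : Strat := .win 758 1 757
noncomputable def n440 : Strat := .win 798 6 798
noncomputable def n441 : Strat := .win 1004 7 839
noncomputable def n442 : Strat := .move 839 n440 (.cons 798 n441 .nil)
noncomputable def n443 : Strat := .win 1045 7 880
noncomputable def n444 : Strat := .move 1004 n23 (.cons 882 n443 .nil)
noncomputable def n445 : Strat := .move 841 n22 (.cons 800 n444 .nil)
noncomputable def n446 : Strat := .move 842 n42 (.cons 879 n41 .nil)
noncomputable def n447 : Strat := .move 841 n22 (.cons 800 n446 .nil)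
noncomputable def n448 : Strat := .move 839 n440 (.cons 798 n447 .nil)
noncomputable def n449 : Strat := .move 963 n442 (.cons 839 n445 (.cons 1004 n448 .nil))
noncomputable def n450 : Strat := .move 880 n439 (.cons 758 n449 .nil)
noncomputable def n451 : Strat := .move 921 n7 (.cons 962 n450 .nil)
noncomputable def n452 : Strat := .move 758 n8 (.cons 880 n162 .nil)
noncomputable def n453 : Strat := .move 921 n7 (.cons 962 n452 .nil)
noncomputable def n454 : Strat := .move 1004 n21 (.cons 880 n383 .nil)
noncomputable def n455 : Strat := .move 839 n20 (.cons 798 n454 .nil)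
noncomputable def n456 : Strat := .move 963 n34 (.cons 1003 n455 .nil)
noncomputable def n457 : Strat := .move 962 n58 (.cons 921 n456 .nil)
noncomputable def n458 : Strat := .win 798 2 798
noncomputable def n459 : Strat := .win 844 2 799
noncomputable def n460 : Strat := .move 843 n458 (.cons 798 n459 .nil)
noncomputable def n461 : Strat := .move 798 n126 (.cons 797 n125 .nil)
noncomputable def n462 : Strat := .win 801 5 797
noncomputable def n463 : Strat := .move 838 n462 (.cons 801 n166 .nil)
noncomputable def n464 : Strat := .win 838 5 797
noncomputable def n465 : Strat := .move 801 n464 (.cons 838 n74 .nil)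
noncomputable def n466 : Strat := .win 798 0 797
noncomputable def n467 : Strat := .move 838 n45 (.cons 796 n166 .nil)
noncomputable def n468 : Strat := .move 797 n466 (.cons 798 n467 .nil)
noncomputable def n469 : Strat := .move 758 n275 (.cons 717 n373 .nil)
noncomputable def n470 : Strat := .move 880 n42 (.cons 879 n469 .nil)
noncomputable def n471 : Strat := .move 839 n463 (.cons 837 n465 (.cons 801 n468 (.cons 838 n470 .nil)))
noncomputable def n472 : Strat := .win 880 4 839
noncomputable def n473 : Strat := .move 843 n459 (.cons 844 n472 .nil)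
noncomputable def n474 : Strat := .move 842 n460 (.cons 844 n461 (.cons 843 n471 (.cons 798 n473 .nil)))
noncomputable def n475 : Strat := .move 841 n261 (.cons 963 n474 .nil)
noncomputable def n476 : Strat := .move 800 n2 (.cons 759 n475 .nil)
noncomputable def n477 : Strat := .move 922 n61 (.cons 921 n438 (.cons 759 n451 (.cons 963 n453 (.cons 800 n457 (.cons 962 n476 .nil)))))
noncomputable def n478 : Strat := .move 799 n376 (.cons 758 n377 (.cons 798 n378 (.cons 839 n393 (.cons 880 n402 (.cons 759 n423 (.cons 921 n296 (.cons 922 n434 (.cons 757 n477 .nil))))))))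
noncomputable def n479 : Strat := .win 760 3 759
noncomputable def n480 : Strat := .move 801 n479 (.cons 760 n132 .nil)
noncomputable def n481 : Strat := .move 882 n353 (.cons 758 n480 .nil)
noncomputable def n482 : Strat := .move 923 n14 (.cons 964 n481 .nil)
noncomputable def n483 : Strat := .move 841 n390 (.cons 798 n482 .nil)
noncomputable def n484 : Strat := .move 838 n166 (.cons 837 n71 .nil)
noncomputable def n485 : Strat := .move 839 n165 (.cons 963 n484 .nil)
noncomputable def n486 : Strat := .move 798 n0 (.cons 757 n485 .nil)
noncomputable def n487 : Strat := .move 800 n92 (.cons 963 n483 (.cons 757 n60 (.cons 841 n486 .nil)))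
noncomputable def n488 : Strat := .move 758 n8 (.cons 880 n15 .nil)
noncomputable def n489 : Strat := .move 921 n7 (.cons 962 n488 .nil)
noncomputable def n490 : Strat := .move 923 n14 (.cons 964 n489 .nil)
noncomputable def n491 : Strat := .move 799 n487 (.cons 921 n89 (.cons 839 n490 (.cons 923 n87 .nil)))
noncomputable def n492 : Strat := .move 799 n89 (.cons 923 n352 (.cons 757 n365 (.cons 963 n161 (.cons 798 n367 .nil))))
noncomputable def n493 : Strat := .win 884 4 880
noncomputable def n494 : Strat := .win 920 5 879
noncomputable def n495 : Strat := .move 883 n493 (.cons 884 n494 .nil)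
noncomputable def n496 : Strat := .move 921 n7 (.cons 962 n495 .nil)
noncomputable def n497 : Strat := .move 882 n353 (.cons 758 n496 .nil)
noncomputable def n498 : Strat := .move 923 n14 (.cons 964 n497 .nil)
noncomputable def n499 : Strat := .win 919 5 878
noncomputable def n500 : Strat := .win 883 5 879
noncomputable def n501 : Strat := .move 882 n499 (.cons 919 n500 .nil)
noncomputable def n502 : Strat := .win 882 5 878
noncomputable def n503 : Strat := .win 877 2 877
noncomputable def n504 : Strat := .win 879 2 878
noncomputable def n505 : Strat := .move 878 n503 (.cons 877 n504 .nil)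
noncomputable def n506 : Strat := .move 919 n502 (.cons 882 n505 .nil)
noncomputable def n507 : Strat := .win 959 4 918
noncomputable def n508 : Strat := .win 961 4 919
noncomputable def n509 : Strat := .move 960 n507 (.cons 959 n508 .nil)
noncomputable def n510 : Strat := .move 919 n503 (.cons 877 n509 .nil)
noncomputable def n511 : Strat := .move 878 n504 (.cons 879 n510 .nil)
noncomputable def n512 : Strat := .win 882 5 879
noncomputable def n513 : Strat := .win 884 5 880
noncomputable def n514 : Strat := .win 879 2 879
noncomputable def n515 : Strat := .win 925 2 880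
noncomputable def n516 : Strat := .move 880 n514 (.cons 879 n515 .nil)
noncomputable def n517 : Strat := .move 924 n513 (.cons 884 n516 .nil)
noncomputable def n518 : Strat := .move 883 n512 (.cons 882 n517 .nil)
noncomputable def n519 : Strat := .move 920 n501 (.cons 883 n506 (.cons 882 n511 (.cons 919 n518 .nil)))
noncomputable def n520 : Strat := .move 921 n7 (.cons 962 n519 .nil)
noncomputable def n521 : Strat := .move 923 n14 (.cons 964 n520 .nil)
noncomputable def n522 : Strat := .move 799 n490 (.cons 880 n498 (.cons 923 n13 (.cons 962 n67 (.cons 758 n521 .nil))))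
noncomputable def n523 : Strat := .move 799 n89 (.cons 1005 n87 (.cons 839 n498 .nil))
noncomputable def n524 : Strat := .win 878 0 878
noncomputable def n525 : Strat := .win 924 2 879
noncomputable def n526 : Strat := .move 879 n524 (.cons 878 n525 .nil)
noncomputable def n527 : Strat := .move 923 n14 (.cons 964 n526 .nil)
noncomputable def n528 : Strat := .move 880 n439 (.cons 758 n527 .nil)
noncomputable def n529 : Strat := .move 921 n7 (.cons 962 n528 .nil)
noncomputable def n530 : Strat := .move 799 n87 (.cons 798 n529 (.cons 921 n89 .nil))
noncomputable def n531 : Strat := .win 799 1 798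
noncomputable def n532 : Strat := .win 1086 7 921
noncomputable def n533 : Strat := .win 880 7 880
noncomputable def n534 : Strat := .move 1045 n532 (.cons 1086 n533 .nil)
noncomputable def n535 : Strat := .move 1004 n23 (.cons 882 n534 .nil)
noncomputable def n536 : Strat := .move 841 n22 (.cons 800 n535 .nil)
noncomputable def n537 : Strat := .move 921 n531 (.cons 799 n536 .nil)
noncomputable def n538 : Strat := .move 962 n34 (.cons 1003 n537 .nil)
noncomputable def n539 : Strat := .win 880 7 797
noncomputable def n540 : Strat := .move 797 n45 (.cons 796 n539 .nil)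
noncomputable def n541 : Strat := .move 838 n37 (.cons 837 n540 .nil)
noncomputable def n542 : Strat := .move 841 n22 (.cons 800 n541 .nil)
noncomputable def n543 : Strat := .move 839 n20 (.cons 798 n542 .nil)
noncomputable def n544 : Strat := .move 921 n531 (.cons 799 n543 .nil)
noncomputable def n545 : Strat := .move 962 n34 (.cons 1003 n544 .nil)
noncomputable def n546 : Strat := .move 882 n355 (.cons 1004 n361 .nil)
noncomputable def n547 : Strat := .move 841 n22 (.cons 800 n546 .nil)
noncomputable def n548 : Strat := .move 962 n34 (.cons 1003 n547 .nil)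
noncomputable def n549 : Strat := .move 963 n26 (.cons 839 n538 (.cons 1004 n545 (.cons 800 n31 (.cons 880 n548 .nil))))
noncomputable def n550 : Strat := .move 1005 n382 (.cons 964 n381 .nil)
noncomputable def n551 : Strat := .move 1004 n21 (.cons 880 n550 .nil)
noncomputable def n552 : Strat := .move 839 n20 (.cons 798 n551 .nil)
noncomputable def n553 : Strat := .move 963 n552 (.cons 1004 n51 (.cons 798 n33 .nil))
noncomputable def n554 : Strat := .win 919 0 919
noncomputable def n555 : Strat := .win 965 2 920
noncomputable def n556 : Strat := .move 920 n554 (.cons 919 n555 .nil)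
noncomputable def n557 : Strat := .move 921 n531 (.cons 799 n556 .nil)
noncomputable def n558 : Strat := .move 964 n54 (.cons 1005 n557 .nil)
noncomputable def n559 : Strat := .move 962 n34 (.cons 1003 n558 .nil)
noncomputable def n560 : Strat := .win 799 6 799
noncomputable def n561 : Strat := .win 1004 1 840
noncomputable def n562 : Strat := .win 801 3 800
noncomputable def n563 : Strat := .win 844 4 840
noncomputable def n564 : Strat := .move 843 n563 (.cons 844 n472 .nil)
noncomputable def n565 : Strat := .move 842 n562 (.cons 801 n564 .nil)
noncomputable def n566 : Strat := .move 882 n561 (.cons 1004 n565 .nil)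
noncomputable def n567 : Strat := .move 841 n22 (.cons 800 n566 .nil)
noncomputable def n568 : Strat := .move 923 n560 (.cons 799 n567 .nil)
noncomputable def n569 : Strat := .move 964 n54 (.cons 1005 n568 .nil)
noncomputable def n570 : Strat := .move 963 n559 (.cons 799 n33 (.cons 962 n569 .nil))
noncomputable def n571 : Strat := .move 923 n560 (.cons 799 n361 .nil)
noncomputable def n572 : Strat := .move 882 n355 (.cons 1004 n571 .nil)
noncomputable def n573 : Strat := .move 841 n22 (.cons 800 n572 .nil)
noncomputable def n574 : Strat := .move 964 n54 (.cons 1005 n573 .nil)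
noncomputable def n575 : Strat := .move 880 n42 (.cons 879 n41 .nil)
noncomputable def n576 : Strat := .win 882 3 800
noncomputable def n577 : Strat := .move 801 n268 (.cons 802 n576 .nil)
noncomputable def n578 : Strat := .move 842 n575 (.cons 843 n577 .nil)
noncomputable def n579 : Strat := .move 839 n20 (.cons 798 n578 .nil)
noncomputable def n580 : Strat := .move 841 n22 (.cons 800 n579 .nil)
noncomputable def n581 : Strat := .move 923 n560 (.cons 799 n580 .nil)
noncomputable def n582 : Strat := .move 964 n54 (.cons 1005 n581 .nil)
noncomputable def n583 : Strat := .move 963 n26 (.cons 798 n569 (.cons 882 n552 (.cons 880 n574 (.cons 1004 n582 .nil))))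
noncomputable def n584 : Strat := .move 922 n491 (.cons 921 n492 (.cons 839 n522 (.cons 880 n523 (.cons 882 n530 (.cons 964 n549 (.cons 799 n553 (.cons 798 n570 (.cons 962 n583 .nil))))))))
noncomputable def n585 : Strat := .move 758 n8 (.cons 880 n218 .nil)
noncomputable def n586 : Strat := .move 921 n7 (.cons 962 n585 .nil)
noncomputable def n587 : Strat := .move 922 n93 (.cons 841 n586 .nil)
noncomputable def n588 : Strat := .move 882 n109 (.cons 923 n110 .nil)
noncomputable def n589 : Strat := .move 717 n297 (.cons 839 n588 .nil)
noncomputable def n590 : Strat := .move 880 n373 (.cons 921 n589 .nil)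
noncomputable def n591 : Strat := .move 922 n95 (.cons 800 n9 .nil)
noncomputable def n592 : Strat := .move 759 n96 (.cons 718 n591 .nil)
noncomputable def n593 : Strat := .move 757 n10 (.cons 716 n592 .nil)
noncomputable def n594 : Strat := .move 758 n590 (.cons 841 n593 .nil)
noncomputable def n595 : Strat := .win 842 5 838
noncomputable def n596 : Strat := .win 878 5 837
noncomputable def n597 : Strat := .move 841 n595 (.cons 842 n596 .nil)
noncomputable def n598 : Strat := .win 883 2 838
noncomputable def n599 : Strat := .move 838 n598 (.cons 883 n36 .nil)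
noncomputable def n600 : Strat := .win 884 2 839
noncomputable def n601 : Strat := .win 838 2 838
noncomputable def n602 : Strat := .move 883 n600 (.cons 884 n601 .nil)
noncomputable def n603 : Strat := .win 798 1 756
noncomputable def n604 : Strat := .win 919 4 878
noncomputable def n605 : Strat := .move 920 n603 (.cons 798 n604 .nil)
noncomputable def n606 : Strat := .move 839 n599 (.cons 837 n602 (.cons 883 n605 .nil))
noncomputable def n607 : Strat := .move 879 n597 (.cons 878 n606 .nil)
noncomputable def n608 : Strat := .move 757 n10 (.cons 716 n607 .nil)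
noncomputable def n609 : Strat := .move 882 n109 (.cons 923 n608 .nil)
noncomputable def n610 : Strat := .move 880 n373 (.cons 921 n609 .nil)
noncomputable def n611 : Strat := .move 758 n590 (.cons 841 n375 (.cons 880 n152 (.cons 717 n610 .nil)))
noncomputable def n612 : Strat := .move 842 n186 (.cons 843 n185 .nil)
noncomputable def n613 : Strat := .move 797 n612 (.cons 841 n188 .nil)
noncomputable def n614 : Strat := .win 844 0 799
noncomputable def n615 : Strat := .win 842 0 798
noncomputable def n616 : Strat := .move 843 n614 (.cons 844 n615 .nil)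
noncomputable def n617 : Strat := .move 802 n131 (.cons 839 n616 .nil)
noncomputable def n618 : Strat := .win 762 5 758
noncomputable def n619 : Strat := .win 760 5 757
noncomputable def n620 : Strat := .move 761 n618 (.cons 762 n619 .nil)
noncomputable def n621 : Strat := .move 802 n616 (.cons 842 n620 .nil)
noncomputable def n622 : Strat := .move 801 n396 (.cons 802 n613 (.cons 838 n617 (.cons 839 n621 .nil)))
noncomputable def n623 : Strat := .move 921 n7 (.cons 962 n622 .nil)
noncomputable def n624 : Strat := .move 798 n0 (.cons 757 n623 .nil)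
noncomputable def n625 : Strat := .move 800 n2 (.cons 759 n624 .nil)
noncomputable def n626 : Strat := .move 922 n93 (.cons 841 n87 (.cons 798 n61 (.cons 963 n625 .nil)))
noncomputable def n627 : Strat := .move 758 n15 (.cons 882 n420 .nil)
noncomputable def n628 : Strat := .move 923 n14 (.cons 964 n627 .nil)
noncomputable def n629 : Strat := .move 922 n628 (.cons 880 n57 (.cons 923 n61 .nil))
noncomputable def n630 : Strat := .move 922 n586 (.cons 758 n87 (.cons 962 n161 .nil))
noncomputable def n631 : Strat := .move 758 n108 (.cons 756 n152 (.cons 757 n115 .nil))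
noncomputable def n632 : Strat := .move 799 n587 (.cons 963 n594 (.cons 922 n611 (.cons 758 n626 (.cons 839 n629 (.cons 841 n630 (.cons 921 n631 .nil))))))
noncomputable def n633 : Strat := .move 922 n586 (.cons 882 n61 (.cons 921 n93 .nil))
noncomputable def n634 : Strat := .move 922 n9 (.cons 798 n162 .nil)
noncomputable def n635 : Strat := .move 757 n10 (.cons 716 n634 .nil)
noncomputable def n636 : Strat := .move 758 n590 (.cons 841 n635 .nil)
noncomputable def n637 : Strat := .win 715 7 715
noncomputable def n638 : Strat := .win 754 0 754
noncomputable def n639 : Strat := .move 755 n318 (.cons 800 n638 .nil)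
noncomputable def n640 : Strat := .move 756 n637 (.cons 715 n639 .nil)
noncomputable def n641 : Strat := .move 839 n275 (.cons 717 n640 .nil)
noncomputable def n642 : Strat := .move 880 n373 (.cons 921 n641 .nil)
noncomputable def n643 : Strat := .move 757 n10 (.cons 716 n642 .nil)
noncomputable def n644 : Strat := .move 882 n110 (.cons 841 n109 .nil)
noncomputable def n645 : Strat := .move 717 n644 (.cons 923 n254 .nil)
noncomputable def n646 : Strat := .move 760 n197 (.cons 761 n645 .nil)
noncomputable def n647 : Strat := .move 759 n96 (.cons 718 n646 .nil)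
noncomputable def n648 : Strat := .move 757 n10 (.cons 716 n647 .nil)
noncomputable def n649 : Strat := .move 717 n112 (.cons 677 n644 .nil)
noncomputable def n650 : Strat := .move 718 n111 (.cons 759 n649 .nil)
noncomputable def n651 : Strat := .move 757 n10 (.cons 716 n650 .nil)
noncomputable def n652 : Strat := .move 715 n307 (.cons 714 n306 .nil)
noncomputable def n653 : Strat := .move 756 n639 (.cons 754 n302 (.cons 800 n652 .nil))
noncomputable def n654 : Strat := .move 759 n96 (.cons 718 n653 .nil)
noncomputable def n655 : Strat := .move 880 n373 (.cons 921 n654 .nil)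
noncomputable def n656 : Strat := .move 757 n10 (.cons 716 n655 .nil)
noncomputable def n657 : Strat := .move 798 n643 (.cons 880 n648 (.cons 839 n651 (.cons 717 n656 (.cons 757 n590 .nil))))
noncomputable def n658 : Strat := .move 758 n657 (.cons 880 n152 (.cons 882 n374 (.cons 717 n610 .nil)))
noncomputable def n659 : Strat := .move 922 n57 (.cons 800 n161 (.cons 923 n93 .nil))
noncomputable def n660 : Strat := .move 922 n61 (.cons 921 n93 (.cons 963 n380 .nil))
noncomputable def n661 : Strat := .move 717 n297 (.cons 839 n110 .nil)
noncomputable def n662 : Strat := .move 882 n109 (.cons 923 n661 .nil)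
noncomputable def n663 : Strat := .move 880 n373 (.cons 921 n662 .nil)
noncomputable def n664 : Strat := .move 922 n9 (.cons 798 n218 .nil)
noncomputable def n665 : Strat := .move 757 n10 (.cons 716 n664 .nil)
noncomputable def n666 : Strat := .move 758 n375 (.cons 675 n663 (.cons 880 n665 .nil))
noncomputable def n667 : Strat := .move 839 n99 (.cons 962 n168 (.cons 800 n65 .nil))
noncomputable def n668 : Strat := .move 798 n88 (.cons 963 n667 (.cons 923 n86 (.cons 839 n490 .nil)))
noncomputable def n669 : Strat := .move 923 n14 (.cons 964 n488 .nil)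
noncomputable def n670 : Strat := .move 921 n7 (.cons 962 n669 .nil)
noncomputable def n671 : Strat := .move 839 n441 (.cons 1004 n440 .nil)
noncomputable def n672 : Strat := .move 963 n3 (.cons 841 n671 .nil)
noncomputable def n673 : Strat := .move 800 n2 (.cons 759 n672 .nil)
noncomputable def n674 : Strat := .move 880 n439 (.cons 758 n673 .nil)
noncomputable def n675 : Strat := .move 921 n7 (.cons 962 n674 .nil)
noncomputable def n676 : Strat := .move 922 n668 (.cons 921 n57 (.cons 800 n670 (.cons 964 n675 .nil)))
noncomputable def n677 : Strat := .move 800 n2 (.cons 759 n76 .nil)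
noncomputable def n678 : Strat := .move 839 n165 (.cons 963 n677 .nil)
noncomputable def n679 : Strat := .move 798 n0 (.cons 757 n678 .nil)
noncomputable def n680 : Strat := .move 923 n14 (.cons 964 n679 .nil)
noncomputable def n681 : Strat := .move 921 n7 (.cons 962 n680 .nil)
noncomputable def n682 : Strat := .move 922 n586 (.cons 964 n380 (.cons 921 n161 (.cons 758 n681 .nil)))
noncomputable def n683 : Strat := .move 880 n373 (.cons 921 n297 .nil)
noncomputable def n684 : Strat := .move 717 n110 (.cons 841 n683 .nil)
noncomputable def n685 : Strat := .move 882 n109 (.cons 923 n684 .nil)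
noncomputable def n686 : Strat := .move 922 n95 (.cons 800 n420 .nil)
noncomputable def n687 : Strat := .move 759 n96 (.cons 718 n686 .nil)
noncomputable def n688 : Strat := .move 758 n685 (.cons 839 n220 (.cons 882 n687 .nil))
noncomputable def n689 : Strat := .move 924 n514 (.cons 879 n515 .nil)
noncomputable def n690 : Strat := .win 883 4 879
noncomputable def n691 : Strat := .move 882 n690 (.cons 883 n499 .nil)
noncomputable def n692 : Strat := .win 839 1 797
noncomputable def n693 : Strat := .win 960 4 919
noncomputable def n694 : Strat := .move 961 n692 (.cons 839 n693 .nil)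
noncomputable def n695 : Strat := .move 920 n691 (.cons 919 n694 .nil)
noncomputable def n696 : Strat := .move 798 n0 (.cons 757 n695 .nil)
noncomputable def n697 : Strat := .move 880 n526 (.cons 878 n689 (.cons 879 n696 .nil))
noncomputable def n698 : Strat := .move 923 n14 (.cons 964 n697 .nil)
noncomputable def n699 : Strat := .move 921 n7 (.cons 962 n698 .nil)
noncomputable def n700 : Strat := .move 922 n61 (.cons 759 n89 (.cons 963 n699 .nil))
noncomputable def n701 : Strat := .move 798 n0 (.cons 757 n490 .nil)
noncomputable def n702 : Strat := .move 922 n701 (.cons 923 n453 (.cons 921 n161 (.cons 758 n61 .nil)))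
noncomputable def n703 : Strat := .move 799 n633 (.cons 963 n636 (.cons 922 n658 (.cons 880 n659 (.cons 882 n660 (.cons 800 n666 (.cons 757 n676 (.cons 841 n682 (.cons 798 n688 (.cons 758 n700 (.cons 839 n702 .nil))))))))))
noncomputable def n704 : Strat := .move 799 n61 (.cons 921 n93 (.cons 963 n670 .nil))
noncomputable def n705 : Strat := .move 839 n20 (.cons 798 n21 .nil)
noncomputable def n706 : Strat := .move 1004 n23 (.cons 882 n705 .nil)
noncomputable def n707 : Strat := .move 841 n22 (.cons 800 n706 .nil)
noncomputable def n708 : Strat := .move 799 n58 (.cons 921 n53 .nil)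
noncomputable def n709 : Strat := .move 964 n54 (.cons 1005 n708 .nil)
noncomputable def n710 : Strat := .move 962 n34 (.cons 1003 n709 .nil)
noncomputable def n711 : Strat := .move 963 n33 (.cons 962 n707 (.cons 1004 n710 .nil))
noncomputable def n712 : Strat := .move 839 n203 (.cons 802 n73 (.cons 838 n79 .nil))
noncomputable def n713 : Strat := .move 797 n70 (.cons 796 n712 .nil)
noncomputable def n714 : Strat := .move 921 n7 (.cons 962 n713 .nil)
noncomputable def n715 : Strat := .move 798 n0 (.cons 757 n714 .nil)
noncomputable def n716 : Strat := .move 800 n2 (.cons 759 n715 .nil)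
noncomputable def n717 : Strat := .move 758 n15 (.cons 882 n97 .nil)
noncomputable def n718 : Strat := .move 923 n14 (.cons 964 n717 .nil)
noncomputable def n719 : Strat := .move 799 n670 (.cons 758 n716 (.cons 962 n718 .nil))
noncomputable def n720 : Strat := .move 880 n446 (.cons 843 n40 (.cons 879 n46 .nil))
noncomputable def n721 : Strat := .move 838 n37 (.cons 837 n720 .nil)
noncomputable def n722 : Strat := .move 962 n34 (.cons 1003 n721 .nil)
noncomputable def n723 : Strat := .move 839 n20 (.cons 798 n722 .nil)
noncomputable def n724 : Strat := .move 841 n22 (.cons 800 n723 .nil)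
noncomputable def n725 : Strat := .move 963 n33 (.cons 1004 n724 (.cons 800 n552 .nil))
noncomputable def n726 : Strat := .move 799 n53 (.cons 923 n59 .nil)
noncomputable def n727 : Strat := .move 964 n54 (.cons 1005 n726 .nil)
noncomputable def n728 : Strat := .move 799 n53 (.cons 923 n4 .nil)
noncomputable def n729 : Strat := .move 964 n54 (.cons 1005 n728 .nil)
noncomputable def n730 : Strat := .move 963 n727 (.cons 964 n33 (.cons 1003 n729 .nil))
noncomputable def n731 : Strat := .move 799 n58 (.cons 921 n55 .nil)
noncomputable def n732 : Strat := .move 962 n34 (.cons 1003 n731 .nil)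
noncomputable def n733 : Strat := .move 799 n58 (.cons 921 n4 .nil)
noncomputable def n734 : Strat := .move 962 n34 (.cons 1003 n733 .nil)
noncomputable def n735 : Strat := .move 963 n732 (.cons 962 n552 (.cons 964 n734 .nil))
noncomputable def n736 : Strat := .move 964 n54 (.cons 1005 n556 .nil)
noncomputable def n737 : Strat := .move 921 n531 (.cons 799 n736 .nil)
noncomputable def n738 : Strat := .move 962 n34 (.cons 1003 n737 .nil)
noncomputable def n739 : Strat := .move 963 n738 (.cons 799 n552 (.cons 964 n31 .nil))
noncomputable def n740 : Strat := .move 963 n707 (.cons 882 n552 (.cons 1004 n729 .nil))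
noncomputable def n741 : Strat := .move 963 n707 (.cons 800 n31 (.cons 880 n33 (.cons 1004 n734 .nil)))
noncomputable def n742 : Strat := .move 922 n704 (.cons 757 n711 (.cons 963 n719 (.cons 799 n725 (.cons 880 n730 (.cons 882 n735 (.cons 800 n739 (.cons 962 n740 (.cons 964 n741 .nil))))))))
noncomputable def n743 : Strat := .move 963 n732 (.cons 923 n33 (.cons 962 n707 .nil))
noncomputable def n744 : Strat := .move 799 n18 (.cons 882 n6 .nil)
noncomputable def n745 : Strat := .move 882 n500 (.cons 883 n499 .nil)
noncomputable def n746 : Strat := .move 879 n525 (.cons 924 n524 .nil)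
noncomputable def n747 : Strat := .move 924 n515 (.cons 925 n514 .nil)
noncomputable def n748 : Strat := .move 880 n746 (.cons 878 n747 (.cons 924 n694 .nil))
noncomputable def n749 : Strat := .move 920 n745 (.cons 919 n748 .nil)
noncomputable def n750 : Strat := .move 798 n0 (.cons 757 n749 .nil)
noncomputable def n751 : Strat := .move 923 n14 (.cons 964 n750 .nil)
noncomputable def n752 : Strat := .move 921 n7 (.cons 962 n751 .nil)
noncomputable def n753 : Strat := .move 799 n65 (.cons 882 n13 (.cons 921 n67 (.cons 758 n752 .nil)))
noncomputable def n754 : Strat := .move 1004 n23 (.cons 882 n550 .nil)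
noncomputable def n755 : Strat := .move 841 n22 (.cons 800 n754 .nil)
noncomputable def n756 : Strat := .move 799 n53 (.cons 923 n91 .nil)
noncomputable def n757 : Strat := .move 964 n54 (.cons 1005 n756 .nil)
noncomputable def n758 : Strat := .move 963 n755 (.cons 1046 n33 (.cons 841 n757 .nil))
noncomputable def n759 : Strat := .move 799 n58 (.cons 921 n91 .nil)
noncomputable def n760 : Strat := .move 962 n34 (.cons 1003 n759 .nil)
noncomputable def n761 : Strat := .move 963 n33 (.cons 962 n707 (.cons 1004 n760 .nil))
noncomputable def n762 : Strat := .win 839 6 839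
noncomputable def n763 : Strat := .move 880 n443 (.cons 1045 n762 .nil)
noncomputable def n764 : Strat := .move 1004 n23 (.cons 882 n763 .nil)
noncomputable def n765 : Strat := .move 841 n22 (.cons 800 n764 .nil)
noncomputable def n766 : Strat := .move 921 n531 (.cons 799 n765 .nil)
noncomputable def n767 : Strat := .move 962 n34 (.cons 1003 n766 .nil)
noncomputable def n768 : Strat := .move 963 n710 (.cons 921 n755 (.cons 1005 n767 .nil))
noncomputable def n769 : Strat := .move 799 n174 (.cons 839 n718 (.cons 800 n67 .nil))
noncomputable def n770 : Strat := .move 799 n18 (.cons 962 n718 (.cons 882 n99 (.cons 758 n61 .nil)))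
noncomputable def n771 : Strat := .win 920 2 920
noncomputable def n772 : Strat := .win 966 2 921
noncomputable def n773 : Strat := .move 965 n771 (.cons 920 n772 .nil)
noncomputable def n774 : Strat := .win 924 4 920
noncomputable def n775 : Strat := .win 960 5 919
noncomputable def n776 : Strat := .move 923 n774 (.cons 924 n775 .nil)
noncomputable def n777 : Strat := .win 880 1 838
noncomputable def n778 : Strat := .win 1001 4 960
noncomputable def n779 : Strat := .move 1002 n777 (.cons 880 n778 .nil)
noncomputable def n780 : Strat := .move 961 n776 (.cons 960 n779 .nil)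
noncomputable def n781 : Strat := .move 839 n20 (.cons 798 n780 .nil)
noncomputable def n782 : Strat := .move 921 n556 (.cons 919 n773 (.cons 920 n781 .nil))
noncomputable def n783 : Strat := .move 964 n54 (.cons 1005 n782 .nil)
noncomputable def n784 : Strat := .move 962 n34 (.cons 1003 n783 .nil)
noncomputable def n785 : Strat := .move 963 n33 (.cons 800 n552 (.cons 1004 n784 .nil))
noncomputable def n786 : Strat := .move 841 n22 (.cons 800 n43 .nil)
noncomputable def n787 : Strat := .move 880 n441 (.cons 1004 n786 .nil)
noncomputable def n788 : Strat := .move 839 n20 (.cons 798 n787 .nil)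
noncomputable def n789 : Strat := .move 964 n54 (.cons 1005 n788 .nil)
noncomputable def n790 : Strat := .move 962 n34 (.cons 1003 n789 .nil)
noncomputable def n791 : Strat := .move 963 n732 (.cons 962 n757 (.cons 1005 n760 (.cons 799 n790 .nil)))
noncomputable def n792 : Strat := .move 922 n743 (.cons 1044 n744 (.cons 963 n753 (.cons 921 n758 (.cons 923 n761 (.cons 798 n768 (.cons 962 n769 (.cons 839 n770 (.cons 799 n785 (.cons 882 n791 .nil)))))))))
noncomputable def n793 : Strat := .move 799 n6 (.cons 841 n13 (.cons 798 n65 .nil))
noncomputable def n794 : Strat := .move 963 n710 (.cons 923 n31 (.cons 962 n26 .nil))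
noncomputable def n795 : Strat := .move 1004 n23 (.cons 882 n21 .nil)
noncomputable def n796 : Strat := .move 841 n22 (.cons 800 n795 .nil)
noncomputable def n797 : Strat := .move 839 n20 (.cons 798 n796 .nil)
noncomputable def n798 : Strat := .win 924 5 920
noncomputable def n799 : Strat := .move 923 n798 (.cons 924 n775 .nil)
noncomputable def n800 : Strat := .move 920 n555 (.cons 965 n554 .nil)
noncomputable def n801 : Strat := .move 965 n772 (.cons 966 n771 .nil)
noncomputable def n802 : Strat := .move 921 n800 (.cons 919 n801 (.cons 965 n779 .nil))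
noncomputable def n803 : Strat := .move 961 n799 (.cons 960 n802 .nil)
noncomputable def n804 : Strat := .move 839 n20 (.cons 798 n803 .nil)
noncomputable def n805 : Strat := .move 964 n54 (.cons 1005 n804 .nil)
noncomputable def n806 : Strat := .move 962 n34 (.cons 1003 n805 .nil)
noncomputable def n807 : Strat := .move 963 n552 (.cons 1046 n797 (.cons 839 n33 (.cons 1004 n806 .nil)))
noncomputable def n808 : Strat := .move 799 n99 (.cons 718 n670 (.cons 962 n67 (.cons 758 n84 .nil)))
noncomputable def n809 : Strat := .move 799 n718 (.cons 758 n61 (.cons 759 n490 .nil))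
noncomputable def n810 : Strat := .move 839 n20 (.cons 798 n795 .nil)
noncomputable def n811 : Strat := .move 841 n22 (.cons 800 n810 .nil)
noncomputable def n812 : Strat := .move 963 n755 (.cons 1046 n811 (.cons 841 n757 .nil))
noncomputable def n813 : Strat := .move 799 n13 (.cons 921 n89 (.cons 798 n65 .nil))
noncomputable def n814 : Strat := .move 923 n14 (.cons 964 n747 .nil)
noncomputable def n815 : Strat := .move 880 n439 (.cons 758 n814 .nil)
noncomputable def n816 : Strat := .move 921 n7 (.cons 962 n815 .nil)
noncomputable def n817 : Strat := .move 800 n2 (.cons 759 n816 .nil)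
noncomputable def n818 : Strat := .move 798 n0 (.cons 757 n817 .nil)
noncomputable def n819 : Strat := .move 799 n6 (.cons 841 n87 (.cons 798 n61 (.cons 963 n818 .nil)))
noncomputable def n820 : Strat := .move 963 n31 (.cons 1044 n797 (.cons 839 n734 .nil))
noncomputable def n821 : Strat := .move 799 n93 (.cons 839 n57 (.cons 800 n89 (.cons 963 n67 .nil)))
noncomputable def n822 : Strat := .move 922 n793 (.cons 758 n794 (.cons 799 n807 (.cons 963 n808 (.cons 839 n809 (.cons 921 n812 (.cons 841 n813 (.cons 882 n819 (.cons 923 n820 (.cons 880 n821 .nil)))))))))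
noncomputable def n823 : Strat := .move 758 n635 (.cons 716 n687 (.cons 800 n375 .nil))
noncomputable def n824 : Strat := .move 758 n687 (.cons 880 n220 (.cons 922 n685 .nil))
noncomputable def n825 : Strat := .move 758 n152 (.cons 716 n685 (.cons 841 n375 (.cons 717 n346 .nil)))
noncomputable def n826 : Strat := .move 758 n375 (.cons 880 n665 (.cons 757 n590 .nil))
noncomputable def n827 : Strat := .move 922 n57 (.cons 1005 n395 (.cons 800 n161 .nil))
noncomputable def n828 : Strat := .move 922 n61 (.cons 800 n89 (.cons 963 n752 .nil))
noncomputable def n829 : Strat := .move 922 n95 (.cons 800 n159 .nil)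
noncomputable def n830 : Strat := .move 759 n96 (.cons 718 n829 .nil)
noncomputable def n831 : Strat := .win 717 6 717
noncomputable def n832 : Strat := .win 800 3 718
noncomputable def n833 : Strat := .move 719 n832 (.cons 800 n340 .nil)
noncomputable def n834 : Strat := .move 760 n316 (.cons 761 n833 .nil)
noncomputable def n835 : Strat := .move 841 n831 (.cons 717 n834 .nil)
noncomputable def n836 : Strat := .move 882 n109 (.cons 923 n835 .nil)
noncomputable def n837 : Strat := .move 757 n10 (.cons 716 n836 .nil)
noncomputable def n838 : Strat := .move 759 n96 (.cons 718 n837 .nil)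
noncomputable def n839 : Strat := .move 758 n830 (.cons 798 n220 (.cons 759 n665 (.cons 922 n838 .nil)))
noncomputable def n840 : Strat := .move 799 n823 (.cons 716 n824 (.cons 922 n825 (.cons 800 n826 (.cons 880 n827 (.cons 758 n828 (.cons 839 n839 .nil))))))
noncomputable def n841 : Strat := .move 799 n61 (.cons 921 n438 (.cons 759 n451 (.cons 963 n453 (.cons 800 n457 (.cons 962 n476 .nil)))))
noncomputable def n842 : Strat := .move 799 n61 (.cons 1003 n57 (.cons 800 n529 .nil))
noncomputable def n843 : Strat := .move 882 n353 (.cons 758 n495 .nil)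
noncomputable def n844 : Strat := .move 921 n7 (.cons 962 n843 .nil)
noncomputable def n845 : Strat := .move 923 n14 (.cons 964 n844 .nil)
noncomputable def n846 : Strat := .move 799 n57 (.cons 923 n61 (.cons 841 n845 .nil))
noncomputable def n847 : Strat := .win 963 1 799
noncomputable def n848 : Strat := .move 841 n847 (.cons 963 n480 .nil)
noncomputable def n849 : Strat := .move 800 n2 (.cons 759 n848 .nil)
noncomputable def n850 : Strat := .move 882 n353 (.cons 758 n849 .nil)
noncomputable def n851 : Strat := .move 923 n14 (.cons 964 n850 .nil)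
noncomputable def n852 : Strat := .move 921 n439 (.cons 758 n7 .nil)
noncomputable def n853 : Strat := .move 880 n42 (.cons 879 n852 .nil)
noncomputable def n854 : Strat := .move 839 n463 (.cons 837 n465 (.cons 801 n468 (.cons 838 n853 .nil)))
noncomputable def n855 : Strat := .move 842 n460 (.cons 844 n461 (.cons 843 n854 (.cons 798 n473 .nil)))
noncomputable def n856 : Strat := .move 841 n261 (.cons 963 n855 .nil)
noncomputable def n857 : Strat := .move 800 n2 (.cons 759 n856 .nil)
noncomputable def n858 : Strat := .move 799 n851 (.cons 882 n57 (.cons 963 n490 (.cons 964 n857 .nil)))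
noncomputable def n859 : Strat := .win 880 2 879
noncomputable def n860 : Strat := .win 878 2 878
noncomputable def n861 : Strat := .move 879 n859 (.cons 880 n860 .nil)
noncomputable def n862 : Strat := .move 880 n515 (.cons 925 n514 .nil)
noncomputable def n863 : Strat := .move 883 n513 (.cons 884 n512 .nil)
noncomputable def n864 : Strat := .move 924 n861 (.cons 878 n862 (.cons 880 n863 .nil))
noncomputable def n865 : Strat := .move 919 n505 (.cons 879 n509 .nil)
noncomputable def n866 : Strat := .move 920 n745 (.cons 919 n864 (.cons 883 n506 (.cons 882 n865 .nil)))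
noncomputable def n867 : Strat := .move 800 n2 (.cons 759 n866 .nil)
noncomputable def n868 : Strat := .move 923 n14 (.cons 964 n867 .nil)
noncomputable def n869 : Strat := .move 921 n7 (.cons 962 n868 .nil)
noncomputable def n870 : Strat := .move 799 n670 (.cons 923 n453 (.cons 962 n718 (.cons 758 n869 .nil)))
noncomputable def n871 : Strat := .win 925 4 921
noncomputable def n872 : Strat := .win 961 5 920
noncomputable def n873 : Strat := .move 924 n871 (.cons 925 n872 .nil)
noncomputable def n874 : Strat := .move 923 n560 (.cons 799 n873 .nil)
noncomputable def n875 : Strat := .move 962 n34 (.cons 1003 n874 .nil)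
noncomputable def n876 : Strat := .move 964 n54 (.cons 1005 n875 .nil)
noncomputable def n877 : Strat := .move 963 n755 (.cons 964 n707 (.cons 882 n876 .nil))
noncomputable def n878 : Strat := .win 1086 3 922
noncomputable def n879 : Strat := .win 882 3 881
noncomputable def n880 : Strat := .move 1045 n878 (.cons 1086 n879 .nil)
noncomputable def n881 : Strat := .move 1004 n21 (.cons 880 n880 .nil)
noncomputable def n882 : Strat := .move 839 n20 (.cons 798 n881 .nil)
noncomputable def n883 : Strat := .move 923 n560 (.cons 799 n882 .nil)
noncomputable def n884 : Strat := .move 964 n54 (.cons 1005 n883 .nil)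
noncomputable def n885 : Strat := .move 923 n560 (.cons 799 n579 .nil)
noncomputable def n886 : Strat := .move 841 n22 (.cons 800 n885 .nil)
noncomputable def n887 : Strat := .move 964 n54 (.cons 1005 n886 .nil)
noncomputable def n888 : Strat := .move 963 n707 (.cons 839 n755 (.cons 882 n789 (.cons 841 n884 (.cons 1004 n887 .nil))))
noncomputable def n889 : Strat := .win 1004 6 839
noncomputable def n890 : Strat := .move 880 n889 (.cons 1004 n786 .nil)
noncomputable def n891 : Strat := .move 839 n20 (.cons 798 n890 .nil)
noncomputable def n892 : Strat := .move 921 n531 (.cons 799 n891 .nil)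
noncomputable def n893 : Strat := .move 962 n34 (.cons 1003 n892 .nil)
noncomputable def n894 : Strat := .win 797 7 797
noncomputable def n895 : Strat := .win 836 0 836
noncomputable def n896 : Strat := .win 882 0 837
noncomputable def n897 : Strat := .move 837 n895 (.cons 836 n896 .nil)
noncomputable def n898 : Strat := .move 838 n894 (.cons 797 n897 .nil)
noncomputable def n899 : Strat := .move 880 n889 (.cons 1004 n898 .nil)
noncomputable def n900 : Strat := .move 839 n20 (.cons 798 n899 .nil)
noncomputable def n901 : Strat := .move 921 n531 (.cons 799 n900 .nil)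
noncomputable def n902 : Strat := .move 962 n34 (.cons 1003 n901 .nil)
noncomputable def n903 : Strat := .move 963 n707 (.cons 880 n33 (.cons 882 n893 (.cons 841 n902 (.cons 1004 n545 .nil))))
noncomputable def n904 : Strat := .move 963 n738 (.cons 799 n552 (.cons 964 n902 .nil))
noncomputable def n905 : Strat := .move 922 n711 (.cons 923 n841 (.cons 882 n842 (.cons 880 n846 (.cons 1003 n858 (.cons 963 n870 (.cons 799 n725 (.cons 921 n877 (.cons 962 n888 (.cons 964 n903 (.cons 800 n904 .nil))))))))))
noncomputable def n906 : Strat := .move 758 n635 (.cons 800 n147 (.cons 757 n685 .nil))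
noncomputable def n907 : Strat := .move 758 n635 (.cons 798 n115 (.cons 759 n685 .nil))
noncomputable def n908 : Strat := .move 922 n6 (.cons 839 n61 (.cons 800 n89 (.cons 963 n84 .nil)))
noncomputable def n909 : Strat := .move 758 n152 (.cons 675 n115 (.cons 923 n374 (.cons 717 n346 .nil)))
noncomputable def n910 : Strat := .move 758 n115 (.cons 841 n687 (.cons 759 n685 .nil))
noncomputable def n911 : Strat := .move 758 n147 (.cons 757 n685 .nil)
noncomputable def n912 : Strat := .move 922 n89 (.cons 798 n670 (.cons 923 n87 .nil))
noncomputable def n913 : Strat := .win 719 3 718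
noncomputable def n914 : Strat := .win 762 4 758
noncomputable def n915 : Strat := .move 761 n914 (.cons 762 n332 .nil)
noncomputable def n916 : Strat := .move 760 n913 (.cons 719 n915 .nil)
noncomputable def n917 : Strat := .move 841 n831 (.cons 717 n916 .nil)
noncomputable def n918 : Strat := .move 882 n109 (.cons 923 n917 .nil)
noncomputable def n919 : Strat := .move 800 n102 (.cons 922 n918 .nil)
noncomputable def n920 : Strat := .move 759 n96 (.cons 718 n919 .nil)
noncomputable def n921 : Strat := .move 758 n108 (.cons 922 n152 (.cons 757 n920 .nil))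
noncomputable def n922 : Strat := .move 717 n297 (.cons 839 n248 .nil)
noncomputable def n923 : Strat := .move 880 n373 (.cons 921 n922 .nil)
noncomputable def n924 : Strat := .move 798 n116 (.cons 922 n923 .nil)
noncomputable def n925 : Strat := .move 757 n10 (.cons 716 n924 .nil)
noncomputable def n926 : Strat := .move 758 n593 (.cons 922 n374 (.cons 759 n925 .nil))
noncomputable def n927 : Strat := .move 799 n906 (.cons 796 n907 (.cons 758 n908 (.cons 922 n909 (.cons 798 n910 (.cons 800 n911 (.cons 759 n912 (.cons 921 n921 (.cons 923 n926 .nil))))))))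
noncomputable def n928 : Strat := .move 758 n593 (.cons 800 n375 (.cons 757 n685 .nil))
noncomputable def n929 : Strat := .move 922 n851 (.cons 882 n57 (.cons 963 n490 (.cons 964 n857 .nil)))
noncomputable def n930 : Strat := .move 758 n372 (.cons 922 n374 (.cons 759 n375 .nil))
noncomputable def n931 : Strat := .win 880 1 797
noncomputable def n932 : Strat := .move 961 n693 (.cons 960 n931 .nil)
noncomputable def n933 : Strat := .move 920 n932 (.cons 880 n745 .nil)
noncomputable def n934 : Strat := .move 923 n14 (.cons 964 n933 .nil)
noncomputable def n935 : Strat := .move 921 n7 (.cons 962 n934 .nil)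
noncomputable def n936 : Strat := .move 839 n165 (.cons 963 n935 .nil)
noncomputable def n937 : Strat := .move 798 n0 (.cons 757 n936 .nil)
noncomputable def n938 : Strat := .move 841 n405 (.cons 796 n410 (.cons 842 n135 .nil))
noncomputable def n939 : Strat := .move 801 n129 (.cons 838 n617 (.cons 802 n938 .nil))
noncomputable def n940 : Strat := .move 923 n14 (.cons 964 n939 .nil)
noncomputable def n941 : Strat := .move 800 n2 (.cons 759 n940 .nil)
noncomputable def n942 : Strat := .move 798 n0 (.cons 757 n941 .nil)
noncomputable def n943 : Strat := .win 966 0 921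
noncomputable def n944 : Strat := .win 882 6 800
noncomputable def n945 : Strat := .move 965 n943 (.cons 966 n944 .nil)
noncomputable def n946 : Strat := .move 924 n945 (.cons 882 n516 .nil)
noncomputable def n947 : Strat := .move 921 n7 (.cons 962 n946 .nil)
noncomputable def n948 : Strat := .move 923 n14 (.cons 964 n947 .nil)
noncomputable def n949 : Strat := .move 841 n261 (.cons 963 n948 .nil)
noncomputable def n950 : Strat := .move 800 n2 (.cons 759 n949 .nil)
noncomputable def n951 : Strat := .move 922 n174 (.cons 839 n392 (.cons 800 n937 (.cons 963 n942 (.cons 798 n950 .nil))))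
noncomputable def n952 : Strat := .move 758 n152 (.cons 923 n374 (.cons 717 n346 .nil))
noncomputable def n953 : Strat := .move 758 n115 (.cons 759 n685 (.cons 717 n220 (.cons 882 n157 .nil)))
noncomputable def n954 : Strat := .move 757 n10 (.cons 716 n591 .nil)
noncomputable def n955 : Strat := .move 759 n96 (.cons 718 n954 .nil)
noncomputable def n956 : Strat := .move 758 n955 (.cons 759 n665 (.cons 716 n220 (.cons 922 n152 .nil)))
noncomputable def n957 : Strat := .move 758 n590 (.cons 923 n375 (.cons 839 n665 .nil))
noncomputable def n958 : Strat := .move 799 n928 (.cons 757 n929 (.cons 923 n930 (.cons 758 n951 (.cons 922 n952 (.cons 798 n953 (.cons 839 n956 (.cons 759 n957 .nil)))))))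
noncomputable def n959 : Strat := .move 758 n593 (.cons 800 n375 (.cons 757 n590 .nil))
noncomputable def n960 : Strat := .move 758 n687 (.cons 922 n663 (.cons 880 n157 .nil))
noncomputable def n961 : Strat := .move 922 n174 (.cons 841 n170 (.cons 963 n84 (.cons 839 n392 (.cons 798 n950 (.cons 800 n937 .nil)))))
noncomputable def n962 : Strat := .move 758 n374 (.cons 921 n152 (.cons 717 n433 .nil))
noncomputable def n963 : Strat := .move 841 n261 (.cons 963 n389 .nil)
noncomputable def n964 : Strat := .move 798 n0 (.cons 757 n963 .nil)
noncomputable def n965 : Strat := .move 800 n2 (.cons 759 n964 .nil)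
noncomputable def n966 : Strat := .move 841 n261 (.cons 963 n482 .nil)
noncomputable def n967 : Strat := .move 800 n2 (.cons 759 n966 .nil)
noncomputable def n968 : Strat := .move 920 n500 (.cons 883 n499 .nil)
noncomputable def n969 : Strat := .move 921 n7 (.cons 962 n968 .nil)
noncomputable def n970 : Strat := .move 882 n353 (.cons 758 n969 .nil)
noncomputable def n971 : Strat := .move 923 n14 (.cons 964 n970 .nil)
noncomputable def n972 : Strat := .move 798 n0 (.cons 757 n971 .nil)
noncomputable def n973 : Strat := .move 800 n2 (.cons 759 n972 .nil)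
noncomputable def n974 : Strat := .move 922 n965 (.cons 759 n87 (.cons 798 n967 (.cons 963 n973 .nil)))
noncomputable def n975 : Strat := .move 758 n593 (.cons 757 n374 (.cons 718 n422 .nil))
noncomputable def n976 : Strat := .move 755 n638 (.cons 754 n318 .nil)
noncomputable def n977 : Strat := .move 756 n637 (.cons 715 n976 .nil)
noncomputable def n978 : Strat := .move 839 n275 (.cons 717 n977 .nil)
noncomputable def n979 : Strat := .move 880 n373 (.cons 921 n978 .nil)
noncomputable def n980 : Strat := .move 798 n116 (.cons 922 n979 .nil)
noncomputable def n981 : Strat := .move 757 n10 (.cons 716 n980 .nil)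
noncomputable def n982 : Strat := .move 758 n590 (.cons 882 n981 (.cons 880 n665 .nil))
noncomputable def n983 : Strat := .move 922 n453 (.cons 758 n392 (.cons 759 n670 .nil))
noncomputable def n984 : Strat := .move 758 n590 (.cons 841 n374 (.cons 717 n687 (.cons 880 n920 .nil)))
noncomputable def n985 : Strat := .move 758 n375 (.cons 839 n422 (.cons 880 n147 (.cons 757 n590 .nil)))
noncomputable def n986 : Strat := .move 799 n959 (.cons 675 n960 (.cons 758 n961 (.cons 922 n962 (.cons 880 n974 (.cons 841 n975 (.cons 759 n982 (.cons 839 n983 (.cons 757 n984 (.cons 921 n921 (.cons 800 n985 .nil))))))))))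
noncomputable def n987 : Strat := .move 963 n738 (.cons 965 n552 (.cons 964 n31 .nil))
noncomputable def n988 : Strat := .move 961 n775 (.cons 960 n798 .nil)
noncomputable def n989 : Strat := .move 962 n34 (.cons 1003 n988 .nil)
noncomputable def n990 : Strat := .move 923 n560 (.cons 799 n989 .nil)
noncomputable def n991 : Strat := .move 964 n54 (.cons 1005 n990 .nil)
noncomputable def n992 : Strat := .move 963 n552 (.cons 1046 n31 (.cons 880 n991 .nil))
noncomputable def n993 : Strat := .move 920 n501 (.cons 882 n511 (.cons 919 n518 .nil))
noncomputable def n994 : Strat := .move 921 n7 (.cons 962 n993 .nil)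
noncomputable def n995 : Strat := .move 923 n14 (.cons 964 n994 .nil)
noncomputable def n996 : Strat := .move 799 n490 (.cons 923 n380 (.cons 758 n995 (.cons 962 n67 .nil)))
noncomputable def n997 : Strat := .move 962 n34 (.cons 1003 n708 .nil)
noncomputable def n998 : Strat := .move 964 n54 (.cons 1005 n997 .nil)
noncomputable def n999 : Strat := .move 923 n775 (.cons 960 n798 .nil)
noncomputable def n1000 : Strat := .win 920 2 919
noncomputable def n1001 : Strat := .win 918 2 918
noncomputable def n1002 : Strat := .win 1000 4 959
noncomputable def n1003 : Strat := .win 1002 4 960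
noncomputable def n1004 : Strat := .move 1001 n1002 (.cons 1000 n1003 .nil)
noncomputable def n1005 : Strat := .move 960 n1001 (.cons 918 n1004 .nil)
noncomputable def n1006 : Strat := .move 919 n1000 (.cons 920 n1005 .nil)
noncomputable def n1007 : Strat := .win 919 2 919
noncomputable def n1008 : Strat := .win 921 2 920
noncomputable def n1009 : Strat := .win 925 5 921
noncomputable def n1010 : Strat := .win 923 5 920
noncomputable def n1011 : Strat := .move 924 n1009 (.cons 925 n1010 .nil)
noncomputable def n1012 : Strat := .move 965 n1008 (.cons 921 n1011 .nil)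
noncomputable def n1013 : Strat := .move 920 n1007 (.cons 919 n1012 .nil)
noncomputable def n1014 : Strat := .move 961 n999 (.cons 923 n1006 (.cons 960 n1013 .nil))
noncomputable def n1015 : Strat := .move 962 n34 (.cons 1003 n1014 .nil)
noncomputable def n1016 : Strat := .move 964 n54 (.cons 1005 n1015 .nil)
noncomputable def n1017 : Strat := .move 963 n998 (.cons 921 n991 (.cons 964 n760 (.cons 1003 n757 (.cons 799 n1016 .nil))))
noncomputable def n1018 : Strat := .move 880 n762 (.cons 839 n443 .nil)
noncomputable def n1019 : Strat := .move 1045 n533 (.cons 880 n532 .nil)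
noncomputable def n1020 : Strat := .move 1004 n1018 (.cons 839 n1019 (.cons 880 n550 .nil))
noncomputable def n1021 : Strat := .move 921 n531 (.cons 799 n1020 .nil)
noncomputable def n1022 : Strat := .move 962 n34 (.cons 1003 n1021 .nil)
noncomputable def n1023 : Strat := .win 841 1 840
noncomputable def n1024 : Strat := .move 882 n1023 (.cons 841 n357 .nil)
noncomputable def n1025 : Strat := .move 1045 n879 (.cons 882 n878 .nil)
noncomputable def n1026 : Strat := .win 839 7 839
noncomputable def n1027 : Strat := .win 921 7 880
noncomputable def n1028 : Strat := .move 1045 n1027 (.cons 921 n878 .nil)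
noncomputable def n1029 : Strat := .move 880 n1026 (.cons 839 n1028 .nil)
noncomputable def n1030 : Strat := .win 924 0 879
noncomputable def n1031 : Strat := .move 879 n1030 (.cons 924 n524 .nil)
noncomputable def n1032 : Strat := .move 880 n1026 (.cons 839 n1031 .nil)
noncomputable def n1033 : Strat := .move 882 n1023 (.cons 841 n1032 .nil)
noncomputable def n1034 : Strat := .move 1004 n1024 (.cons 841 n1025 (.cons 882 n1029 (.cons 1045 n1033 .nil)))
noncomputable def n1035 : Strat := .move 923 n560 (.cons 799 n1034 .nil)
noncomputable def n1036 : Strat := .move 964 n54 (.cons 1005 n1035 .nil)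
noncomputable def n1037 : Strat := .win 841 3 840
noncomputable def n1038 : Strat := .win 920 4 879
noncomputable def n1039 : Strat := .move 883 n1038 (.cons 920 n493 .nil)
noncomputable def n1040 : Strat := .move 882 n1037 (.cons 841 n1039 .nil)
noncomputable def n1041 : Strat := .move 880 n762 (.cons 839 n1040 .nil)
noncomputable def n1042 : Strat := .move 841 n23 (.cons 882 n534 .nil)
noncomputable def n1043 : Strat := .win 923 3 881
noncomputable def n1044 : Strat := .move 1045 n1043 (.cons 923 n532 .nil)
noncomputable def n1045 : Strat := .move 882 n1037 (.cons 841 n1044 .nil)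
noncomputable def n1046 : Strat := .move 1004 n1018 (.cons 1045 n1041 (.cons 839 n1042 (.cons 880 n1045 .nil)))
noncomputable def n1047 : Strat := .move 921 n531 (.cons 799 n1046 .nil)
noncomputable def n1048 : Strat := .move 962 n34 (.cons 1003 n1047 .nil)
noncomputable def n1049 : Strat := .move 962 n34 (.cons 1003 n873 .nil)
noncomputable def n1050 : Strat := .move 923 n560 (.cons 799 n1049 .nil)
noncomputable def n1051 : Strat := .move 964 n54 (.cons 1005 n1050 .nil)
noncomputable def n1052 : Strat := .move 882 n1043 (.cons 923 n1037 .nil)
noncomputable def n1053 : Strat := .move 1045 n1027 (.cons 921 n1052 .nil)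
noncomputable def n1054 : Strat := .move 880 n1026 (.cons 839 n1053 .nil)
noncomputable def n1055 : Strat := .move 1004 n381 (.cons 1046 n1054 .nil)
noncomputable def n1056 : Strat := .move 1005 n382 (.cons 964 n1055 .nil)
noncomputable def n1057 : Strat := .move 962 n34 (.cons 1003 n1056 .nil)
noncomputable def n1058 : Strat := .move 963 n559 (.cons 965 n1022 (.cons 962 n1036 (.cons 964 n1048 (.cons 921 n1051 (.cons 799 n1057 .nil)))))
noncomputable def n1059 : Strat := .move 842 n125 (.cons 843 n249 .nil)
noncomputable def n1060 : Strat := .win 838 0 838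
noncomputable def n1061 : Strat := .move 883 n1060 (.cons 838 n600 .nil)
noncomputable def n1062 : Strat := .move 758 n831 (.cons 717 n109 .nil)
noncomputable def n1063 : Strat := .move 882 n360 (.cons 837 n1061 (.cons 883 n1062 .nil))
noncomputable def n1064 : Strat := .move 797 n69 (.cons 796 n1063 .nil)
noncomputable def n1065 : Strat := .move 883 n1060 (.cons 838 n265 .nil)
noncomputable def n1066 : Strat := .move 882 n360 (.cons 837 n1065 (.cons 883 n1062 .nil))
noncomputable def n1067 : Strat := .move 842 n125 (.cons 843 n1066 .nil)
noncomputable def n1068 : Strat := .move 841 n1059 (.cons 842 n1064 (.cons 797 n1067 .nil))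
noncomputable def n1069 : Strat := .move 839 n165 (.cons 963 n1068 .nil)
noncomputable def n1070 : Strat := .move 798 n0 (.cons 757 n1069 .nil)
noncomputable def n1071 : Strat := .move 718 n112 (.cons 677 n111 .nil)
noncomputable def n1072 : Strat := .move 717 n110 (.cons 841 n1071 .nil)
noncomputable def n1073 : Strat := .move 882 n109 (.cons 923 n1072 .nil)
noncomputable def n1074 : Strat := .move 758 n8 (.cons 880 n1073 .nil)
noncomputable def n1075 : Strat := .move 921 n7 (.cons 962 n1074 .nil)
noncomputable def n1076 : Strat := .move 799 n13 (.cons 880 n87 (.cons 921 n1070 (.cons 798 n1075 .nil)))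
noncomputable def n1077 : Strat := .move 963 n20 (.cons 798 n551 .nil)
noncomputable def n1078 : Strat := .move 964 n54 (.cons 1005 n803 .nil)
noncomputable def n1079 : Strat := .move 962 n34 (.cons 1003 n1078 .nil)
noncomputable def n1080 : Strat := .move 921 n771 (.cons 920 n772 .nil)
noncomputable def n1081 : Strat := .move 920 n1008 (.cons 921 n1007 .nil)
noncomputable def n1082 : Strat := .move 965 n1080 (.cons 966 n1081 (.cons 920 n1011 .nil))
noncomputable def n1083 : Strat := .win 923 5 919
noncomputable def n1084 : Strat := .move 919 n1001 (.cons 918 n1000 .nil)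
noncomputable def n1085 : Strat := .move 960 n1083 (.cons 923 n1084 .nil)
noncomputable def n1086 : Strat := .move 960 n1084 (.cons 920 n1004 .nil)
noncomputable def n1087 : Strat := .move 961 n799 (.cons 960 n1082 (.cons 924 n1085 (.cons 923 n1086 .nil)))
noncomputable def n1088 : Strat := .move 962 n34 (.cons 1003 n1087 .nil)
noncomputable def n1089 : Strat := .move 964 n54 (.cons 1005 n1088 .nil)
noncomputable def n1090 : Strat := .move 963 n551 (.cons 964 n30 (.cons 1004 n1079 (.cons 880 n1089 .nil)))
noncomputable def n1091 : Strat := .move 963 n20 (.cons 798 n1089 .nil)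
noncomputable def n1092 : Strat := .move 963 n20 (.cons 798 n30 .nil)
noncomputable def n1093 : Strat := .win 841 0 838
noncomputable def n1094 : Strat := .move 838 n36 (.cons 837 n1093 .nil)
noncomputable def n1095 : Strat := .move 883 n600 (.cons 884 n1094 .nil)
noncomputable def n1096 : Strat := .win 923 0 878
noncomputable def n1097 : Strat := .win 841 4 837
noncomputable def n1098 : Strat := .move 878 n1096 (.cons 923 n1097 .nil)
noncomputable def n1099 : Strat := .move 923 n1030 (.cons 924 n524 .nil)
noncomputable def n1100 : Strat := .move 841 n38 (.cons 842 n39 .nil)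
noncomputable def n1101 : Strat := .win 757 6 757
noncomputable def n1102 : Strat := .win 961 3 797
noncomputable def n1103 : Strat := .move 920 n1102 (.cons 961 n604 .nil)
noncomputable def n1104 : Strat := .move 798 n1101 (.cons 757 n1103 .nil)
noncomputable def n1105 : Strat := .move 879 n1098 (.cons 841 n1099 (.cons 923 n1100 (.cons 878 n1104 .nil)))
noncomputable def n1106 : Strat := .move 841 n38 (.cons 842 n45 .nil)
noncomputable def n1107 : Strat := .win 921 6 756
noncomputable def n1108 : Strat := .win 715 6 715
noncomputable def n1109 : Strat := .move 756 n1107 (.cons 921 n1108 .nil)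
noncomputable def n1110 : Strat := .move 797 n1106 (.cons 796 n1109 .nil)
noncomputable def n1111 : Strat := .move 879 n1098 (.cons 841 n1099 (.cons 923 n1100 (.cons 878 n1110 .nil)))
noncomputable def n1112 : Strat := .win 795 0 795
noncomputable def n1113 : Strat := .win 841 2 796
noncomputable def n1114 : Strat := .move 796 n1112 (.cons 795 n1113 .nil)
noncomputable def n1115 : Strat := .win 756 7 756
noncomputable def n1116 : Strat := .win 962 7 797
noncomputable def n1117 : Strat := .move 921 n1115 (.cons 756 n1116 .nil)
noncomputable def n1118 : Strat := .move 797 n1114 (.cons 841 n1117 .nil)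
noncomputable def n1119 : Strat := .move 798 n1101 (.cons 757 n1118 .nil)
noncomputable def n1120 : Strat := .move 879 n1099 (.cons 878 n1103 .nil)
noncomputable def n1121 : Strat := .move 798 n1101 (.cons 757 n1120 .nil)
noncomputable def n1122 : Strat := .move 880 n1105 (.cons 961 n1111 (.cons 879 n1119 (.cons 841 n1121 .nil)))
noncomputable def n1123 : Strat := .move 838 n36 (.cons 837 n1122 .nil)
noncomputable def n1124 : Strat := .win 923 0 879
noncomputable def n1125 : Strat := .win 925 0 880
noncomputable def n1126 : Strat := .move 924 n1124 (.cons 923 n1125 .nil)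
noncomputable def n1127 : Strat := .win 841 4 838
noncomputable def n1128 : Strat := .win 843 5 839
noncomputable def n1129 : Strat := .move 842 n1127 (.cons 841 n1128 .nil)
noncomputable def n1130 : Strat := .move 879 n1099 (.cons 878 n1126 (.cons 924 n1129 .nil))
noncomputable def n1131 : Strat := .move 921 n1038 (.cons 920 n1130 .nil)
noncomputable def n1132 : Strat := .move 798 n249 (.cons 797 n1101 .nil)
noncomputable def n1133 : Strat := .move 841 n42 (.cons 879 n1132 .nil)
noncomputable def n1134 : Strat := .move 842 n1128 (.cons 843 n1133 .nil)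
noncomputable def n1135 : Strat := .win 877 0 877
noncomputable def n1136 : Strat := .move 878 n1135 (.cons 877 n1096 .nil)
noncomputable def n1137 : Strat := .win 841 5 837
noncomputable def n1138 : Strat := .move 878 n1137 (.cons 841 n1135 .nil)
noncomputable def n1139 : Strat := .move 879 n1099 (.cons 878 n1126 (.cons 924 n1136 (.cons 923 n1138 .nil)))
noncomputable def n1140 : Strat := .move 921 n1038 (.cons 920 n1139 .nil)
noncomputable def n1141 : Strat := .win 841 2 797
noncomputable def n1142 : Strat := .move 842 n1141 (.cons 841 n1128 .nil)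
noncomputable def n1143 : Strat := .move 921 n1115 (.cons 756 n1038 .nil)
noncomputable def n1144 : Strat := .move 797 n1142 (.cons 843 n1143 .nil)
noncomputable def n1145 : Strat := .move 798 n1101 (.cons 757 n1144 .nil)
noncomputable def n1146 : Strat := .win 921 4 879
noncomputable def n1147 : Strat := .move 879 n604 (.cons 919 n1099 .nil)
noncomputable def n1148 : Strat := .move 920 n1146 (.cons 921 n1147 .nil)
noncomputable def n1149 : Strat := .move 880 n1131 (.cons 878 n1134 (.cons 842 n1140 (.cons 879 n1145 (.cons 841 n1148 .nil))))
noncomputable def n1150 : Strat := .move 883 n600 (.cons 884 n1149 .nil)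
noncomputable def n1151 : Strat := .move 880 n601 (.cons 838 n1148 .nil)
noncomputable def n1152 : Strat := .move 883 n600 (.cons 884 n1151 .nil)
noncomputable def n1153 : Strat := .move 882 n1095 (.cons 883 n1123 (.cons 838 n1150 (.cons 841 n1152 .nil)))
noncomputable def n1154 : Strat := .move 839 n1077 (.cons 798 n1090 (.cons 880 n1091 (.cons 964 n1092 (.cons 963 n1153 .nil))))
noncomputable def n1155 : Strat := .win 1085 1 921
noncomputable def n1156 : Strat := .win 1003 1 880
noncomputable def n1157 : Strat := .move 1044 n1155 (.cons 1085 n1156 .nil)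
noncomputable def n1158 : Strat := .move 1045 n1043 (.cons 923 n1157 .nil)
noncomputable def n1159 : Strat := .move 882 n1037 (.cons 841 n1158 .nil)
noncomputable def n1160 : Strat := .move 1004 n21 (.cons 880 n1159 .nil)
noncomputable def n1161 : Strat := .move 839 n20 (.cons 798 n1160 .nil)
noncomputable def n1162 : Strat := .move 1004 n381 (.cons 1046 n1159 .nil)
noncomputable def n1163 : Strat := .move 1005 n382 (.cons 964 n1162 .nil)
noncomputable def n1164 : Strat := .move 963 n552 (.cons 964 n1161 (.cons 798 n1036 (.cons 1004 n757 (.cons 839 n1163 .nil))))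
noncomputable def n1165 : Strat := .move 922 n987 (.cons 963 n753 (.cons 921 n992 (.cons 839 n996 (.cons 880 n1017 (.cons 798 n1058 (.cons 964 n1076 (.cons 799 n1154 (.cons 962 n1164 .nil))))))))
noncomputable def n1166 : Strat := .move 922 n65 (.cons 882 n13 (.cons 921 n67 (.cons 758 n84 .nil)))
noncomputable def n1167 : Strat := .move 924 n516 (.cons 925 n861 (.cons 879 n863 .nil))
noncomputable def n1168 : Strat := .move 920 n745 (.cons 919 n1167 (.cons 883 n506 (.cons 882 n865 .nil)))
noncomputable def n1169 : Strat := .move 800 n2 (.cons 759 n1168 .nil)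
noncomputable def n1170 : Strat := .move 921 n7 (.cons 962 n1169 .nil)
noncomputable def n1171 : Strat := .move 923 n14 (.cons 964 n1170 .nil)
noncomputable def n1172 : Strat := .move 922 n84 (.cons 921 n140 (.cons 801 n752 (.cons 839 n1171 .nil)))
noncomputable def n1173 : Strat := .move 922 n65 (.cons 882 n13 (.cons 921 n67 (.cons 758 n752 .nil)))
noncomputable def n1174 : Strat := .move 922 n670 (.cons 923 n453 (.cons 962 n718 (.cons 758 n869 .nil)))
noncomputable def n1175 : Strat := .move 922 n13 (.cons 921 n193 (.cons 798 n453 .nil))
noncomputable def n1176 : Strat := .move 922 n67 (.cons 923 n401 (.cons 798 n164 .nil))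
noncomputable def n1177 : Strat := .move 758 n590 (.cons 839 n152 (.cons 882 n374 (.cons 717 n433 .nil)))
noncomputable def n1178 : Strat := .move 799 n1166 (.cons 758 n1172 (.cons 797 n636 (.cons 800 n1173 (.cons 757 n1174 (.cons 882 n1175 (.cons 880 n1176 (.cons 922 n1177 .nil)))))))
noncomputable def n1179 : Strat := .move 758 n830 (.cons 798 n220 (.cons 759 n665 (.cons 922 n152 .nil)))
noncomputable def n1180 : Strat := .move 800 n102 (.cons 922 n154 .nil)
noncomputable def n1181 : Strat := .move 757 n10 (.cons 716 n1180 .nil)
noncomputable def n1182 : Strat := .move 759 n96 (.cons 718 n1181 .nil)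
noncomputable def n1183 : Strat := .move 879 n595 (.cons 842 n596 .nil)
noncomputable def n1184 : Strat := .move 880 n373 (.cons 921 n1183 .nil)
noncomputable def n1185 : Strat := .move 841 n831 (.cons 717 n1184 .nil)
noncomputable def n1186 : Strat := .move 882 n109 (.cons 923 n1185 .nil)
noncomputable def n1187 : Strat := .move 757 n10 (.cons 716 n1186 .nil)
noncomputable def n1188 : Strat := .move 759 n96 (.cons 718 n1187 .nil)
noncomputable def n1189 : Strat := .move 758 n1182 (.cons 802 n955 (.cons 718 n422 (.cons 922 n1188 (.cons 757 n920 .nil))))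
noncomputable def n1190 : Strat := .move 758 n220 (.cons 800 n152 (.cons 882 n687 .nil))
noncomputable def n1191 : Strat := .move 880 n373 (.cons 921 n329 .nil)
noncomputable def n1192 : Strat := .move 758 n152 (.cons 882 n1191 (.cons 757 n115 .nil))
noncomputable def n1193 : Strat := .move 922 n490 (.cons 880 n498 (.cons 923 n13 (.cons 962 n67 (.cons 758 n521 .nil))))
noncomputable def n1194 : Strat := .win 965 6 800
noncomputable def n1195 : Strat := .move 924 n1194 (.cons 965 n515 .nil)
noncomputable def n1196 : Strat := .move 879 n595 (.cons 842 n524 .nil)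
noncomputable def n1197 : Strat := .move 880 n1195 (.cons 925 n1031 (.cons 924 n1196 .nil))
noncomputable def n1198 : Strat := .move 882 n353 (.cons 758 n1197 .nil)
noncomputable def n1199 : Strat := .move 841 n261 (.cons 963 n1198 .nil)
noncomputable def n1200 : Strat := .move 800 n2 (.cons 759 n1199 .nil)
noncomputable def n1201 : Strat := .move 923 n14 (.cons 964 n1200 .nil)
noncomputable def n1202 : Strat := .move 922 n490 (.cons 964 n453 (.cons 758 n61 (.cons 921 n1201 .nil)))
noncomputable def n1203 : Strat := .move 922 n61 (.cons 800 n995 (.cons 921 n57 .nil))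
noncomputable def n1204 : Strat := .move 799 n1179 (.cons 923 n393 (.cons 964 n1189 (.cons 798 n1190 (.cons 922 n1192 (.cons 759 n1193 (.cons 757 n1202 (.cons 758 n1203 .nil)))))))
noncomputable def n1205 : Strat := .move 839 n165 (.cons 963 n167 .nil)
noncomputable def n1206 : Strat := .move 800 n2 (.cons 759 n1205 .nil)
noncomputable def n1207 : Strat := .move 798 n0 (.cons 757 n1206 .nil)
noncomputable def n1208 : Strat := .move 799 n1207 (.cons 801 n99 (.cons 800 n13 .nil))
noncomputable def n1209 : Strat := .move 963 n26 (.cons 880 n33 (.cons 882 n31 (.cons 1004 n51 .nil)))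
noncomputable def n1210 : Strat := .move 799 n99 (.cons 962 n392 (.cons 800 n13 .nil))
noncomputable def n1211 : Strat := .move 839 n20 (.cons 798 n1061 .nil)
noncomputable def n1212 : Strat := .move 882 n355 (.cons 1004 n1211 .nil)
noncomputable def n1213 : Strat := .move 841 n22 (.cons 800 n1212 .nil)
noncomputable def n1214 : Strat := .move 963 n33 (.cons 800 n760 (.cons 1003 n1213 .nil))
noncomputable def n1215 : Strat := .move 882 n36 (.cons 837 n35 .nil)
noncomputable def n1216 : Strat := .win 879 4 837
noncomputable def n1217 : Strat := .win 877 4 836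
noncomputable def n1218 : Strat := .win 795 2 795
noncomputable def n1219 : Strat := .win 797 2 796
noncomputable def n1220 : Strat := .move 796 n1218 (.cons 795 n1219 .nil)
noncomputable def n1221 : Strat := .move 837 n1217 (.cons 877 n1220 .nil)
noncomputable def n1222 : Strat := .move 878 n1216 (.cons 879 n1221 .nil)
noncomputable def n1223 : Strat := .move 842 n265 (.cons 884 n575 .nil)
noncomputable def n1224 : Strat := .move 883 n264 (.cons 882 n1223 .nil)
noncomputable def n1225 : Strat := .move 838 n1215 (.cons 882 n1222 (.cons 837 n1224 .nil))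
noncomputable def n1226 : Strat := .move 839 n20 (.cons 798 n1225 .nil)
noncomputable def n1227 : Strat := .move 841 n22 (.cons 800 n1226 .nil)
noncomputable def n1228 : Strat := .move 963 n811 (.cons 882 n31 (.cons 839 n33 (.cons 1004 n1227 .nil)))
noncomputable def n1229 : Strat := .move 880 n373 (.cons 921 n275 .nil)
noncomputable def n1230 : Strat := .move 758 n1229 (.cons 880 n97 .nil)
noncomputable def n1231 : Strat := .move 839 n165 (.cons 963 n1230 .nil)
noncomputable def n1232 : Strat := .move 798 n0 (.cons 757 n1231 .nil)
noncomputable def n1233 : Strat := .move 797 n70 (.cons 796 n612 (.cons 842 n188 .nil))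
noncomputable def n1234 : Strat := .move 801 n129 (.cons 838 n617 (.cons 802 n1233 (.cons 839 n621 .nil)))
noncomputable def n1235 : Strat := .move 800 n2 (.cons 759 n1234 .nil)
noncomputable def n1236 : Strat := .move 798 n0 (.cons 757 n1235 .nil)
noncomputable def n1237 : Strat := .move 923 n66 (.cons 757 n717 (.cons 882 n1236 .nil))
noncomputable def n1238 : Strat := .move 882 n109 (.cons 923 n831 .nil)
noncomputable def n1239 : Strat := .move 717 n297 (.cons 839 n406 .nil)
noncomputable def n1240 : Strat := .move 880 n373 (.cons 921 n1239 .nil)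
noncomputable def n1241 : Strat := .move 882 n109 (.cons 923 n1184 .nil)
noncomputable def n1242 : Strat := .move 758 n1238 (.cons 882 n1240 (.cons 717 n1241 .nil))
noncomputable def n1243 : Strat := .move 841 n261 (.cons 963 n1242 .nil)
noncomputable def n1244 : Strat := .move 800 n2 (.cons 759 n1243 .nil)
noncomputable def n1245 : Strat := .move 883 n601 (.cons 838 n600 .nil)
noncomputable def n1246 : Strat := .move 882 n109 (.cons 923 n1245 .nil)
noncomputable def n1247 : Strat := .move 880 n373 (.cons 921 n1246 .nil)
noncomputable def n1248 : Strat := .move 717 n110 (.cons 841 n200 .nil)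
noncomputable def n1249 : Strat := .move 882 n109 (.cons 923 n1248 .nil)
noncomputable def n1250 : Strat := .move 758 n1229 (.cons 717 n1247 (.cons 880 n1249 .nil))
noncomputable def n1251 : Strat := .move 839 n165 (.cons 963 n1250 .nil)
noncomputable def n1252 : Strat := .move 798 n0 (.cons 757 n1251 .nil)
noncomputable def n1253 : Strat := .move 799 n1207 (.cons 801 n1232 (.cons 963 n1237 (.cons 798 n1244 (.cons 800 n1252 (.cons 839 n392 .nil)))))
noncomputable def n1254 : Strat := .move 920 n690 (.cons 883 n604 .nil)
noncomputable def n1255 : Strat := .move 883 n1125 (.cons 925 n493 .nil)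
noncomputable def n1256 : Strat := .move 924 n1124 (.cons 923 n1255 .nil)
noncomputable def n1257 : Strat := .move 963 n355 (.cons 1004 n22 .nil)
noncomputable def n1258 : Strat := .move 841 n595 (.cons 842 n1257 .nil)
noncomputable def n1259 : Strat := .move 882 n1039 (.cons 884 n1254 (.cons 920 n1256 (.cons 883 n1258 .nil)))
noncomputable def n1260 : Strat := .move 878 n1135 (.cons 877 n1137 .nil)
noncomputable def n1261 : Strat := .move 879 n1136 (.cons 878 n1259 (.cons 923 n1260 .nil))
noncomputable def n1262 : Strat := .move 880 n439 (.cons 758 n1261 .nil)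
noncomputable def n1263 : Strat := .move 921 n7 (.cons 962 n1262 .nil)
noncomputable def n1264 : Strat := .move 716 n149 (.cons 675 n148 .nil)
noncomputable def n1265 : Strat := .move 717 n110 (.cons 841 n1264 .nil)
noncomputable def n1266 : Strat := .move 882 n109 (.cons 923 n1265 .nil)
noncomputable def n1267 : Strat := .move 758 n96 (.cons 718 n1266 .nil)
noncomputable def n1268 : Strat := .move 759 n95 (.cons 800 n1267 .nil)
noncomputable def n1269 : Strat := .move 799 n99 (.cons 800 n1075 (.cons 962 n1244 (.cons 759 n1263 (.cons 758 n61 (.cons 921 n1268 .nil)))))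
noncomputable def n1270 : Strat := .move 799 n99 (.cons 962 n1237 (.cons 759 n13 (.cons 758 n84 .nil)))
noncomputable def n1271 : Strat := .move 922 n1208 (.cons 799 n1209 (.cons 839 n1210 (.cons 880 n1214 (.cons 921 n1228 (.cons 800 n1076 (.cons 962 n1253 (.cons 798 n1269 (.cons 963 n1270 .nil))))))))
noncomputable def n1272 : Strat := .move 924 n513 (.cons 884 n861 .nil)
noncomputable def n1273 : Strat := .move 883 n512 (.cons 882 n1272 .nil)
noncomputable def n1274 : Strat := .move 920 n501 (.cons 882 n511 (.cons 919 n1273 .nil))
noncomputable def n1275 : Strat := .move 923 n14 (.cons 964 n1274 .nil)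
noncomputable def n1276 : Strat := .move 921 n7 (.cons 962 n1275 .nil)
noncomputable def n1277 : Strat := .move 922 n61 (.cons 921 n57 (.cons 841 n1276 .nil))
noncomputable def n1278 : Strat := .move 757 n10 (.cons 716 n337 .nil)
noncomputable def n1279 : Strat := .move 841 n831 (.cons 717 n1278 .nil)
noncomputable def n1280 : Strat := .move 882 n109 (.cons 923 n1279 .nil)
noncomputable def n1281 : Strat := .move 800 n102 (.cons 922 n1280 .nil)
noncomputable def n1282 : Strat := .move 759 n96 (.cons 718 n1281 .nil)
noncomputable def n1283 : Strat := .move 758 n1282 (.cons 923 n157 (.cons 756 n152 (.cons 757 n115 .nil)))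
noncomputable def n1284 : Strat := .move 758 n687 (.cons 921 n157 (.cons 800 n375 .nil))
noncomputable def n1285 : Strat := .move 841 n596 (.cons 878 n595 .nil)
noncomputable def n1286 : Strat := .win 836 2 836
noncomputable def n1287 : Strat := .win 838 2 837
noncomputable def n1288 : Strat := .move 837 n1286 (.cons 836 n1287 .nil)
noncomputable def n1289 : Strat := .move 878 n1137 (.cons 841 n1288 .nil)
noncomputable def n1290 : Strat := .win 918 4 877
noncomputable def n1291 : Strat := .win 920 4 878
noncomputable def n1292 : Strat := .move 919 n1290 (.cons 918 n1291 .nil)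
noncomputable def n1293 : Strat := .move 878 n1286 (.cons 836 n1292 .nil)
noncomputable def n1294 : Strat := .move 837 n1287 (.cons 838 n1293 .nil)
noncomputable def n1295 : Strat := .win 841 5 838
noncomputable def n1296 : Strat := .win 839 2 838
noncomputable def n1297 : Strat := .win 837 2 837
noncomputable def n1298 : Strat := .move 838 n1296 (.cons 839 n1297 .nil)
noncomputable def n1299 : Strat := .move 883 n1128 (.cons 843 n1298 .nil)
noncomputable def n1300 : Strat := .move 842 n1295 (.cons 841 n1299 .nil)
noncomputable def n1301 : Strat := .move 879 n1285 (.cons 842 n1289 (.cons 841 n1294 (.cons 878 n1300 .nil)))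
noncomputable def n1302 : Strat := .move 882 n109 (.cons 923 n1301 .nil)
noncomputable def n1303 : Strat := .move 880 n373 (.cons 921 n1302 .nil)
noncomputable def n1304 : Strat := .move 758 n663 (.cons 717 n1303 (.cons 839 n152 (.cons 882 n375 .nil)))
noncomputable def n1305 : Strat := .move 799 n688 (.cons 758 n1277 (.cons 880 n1283 (.cons 882 n1284 (.cons 800 n1304 .nil))))
noncomputable def n1306 : Strat := .move 758 n635 (.cons 800 n422 (.cons 757 n374 .nil))
noncomputable def n1307 : Strat := .move 758 n422 (.cons 757 n374 (.cons 880 n665 .nil))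
noncomputable def n1308 : Strat := .move 880 n439 (.cons 758 n526 .nil)
noncomputable def n1309 : Strat := .move 923 n14 (.cons 964 n1308 .nil)
noncomputable def n1310 : Strat := .move 921 n7 (.cons 962 n1309 .nil)
noncomputable def n1311 : Strat := .win 963 6 798
noncomputable def n1312 : Strat := .move 839 n1311 (.cons 963 n677 .nil)
noncomputable def n1313 : Strat := .move 798 n0 (.cons 757 n1312 .nil)
noncomputable def n1314 : Strat := .move 880 n439 (.cons 758 n1313 .nil)
noncomputable def n1315 : Strat := .move 921 n7 (.cons 962 n1314 .nil)
noncomputable def n1316 : Strat := .move 922 n1310 (.cons 878 n670 (.cons 921 n89 (.cons 964 n1315 .nil)))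
noncomputable def n1317 : Strat := .move 922 n87 (.cons 798 n1276 (.cons 921 n89 .nil))
noncomputable def n1318 : Strat := .move 838 n36 (.cons 837 n598 .nil)
noncomputable def n1319 : Strat := .move 839 n275 (.cons 717 n1318 .nil)
noncomputable def n1320 : Strat := .move 880 n373 (.cons 921 n1319 .nil)
noncomputable def n1321 : Strat := .move 882 n109 (.cons 923 n1320 .nil)
noncomputable def n1322 : Strat := .move 882 n109 (.cons 923 n429 .nil)
noncomputable def n1323 : Strat := .move 758 n1321 (.cons 880 n1322 (.cons 923 n375 .nil))
noncomputable def n1324 : Strat := .move 922 n65 (.cons 921 n164 (.cons 758 n1276 (.cons 882 n453 .nil)))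
noncomputable def n1325 : Strat := .move 799 n1306 (.cons 921 n171 (.cons 800 n1307 (.cons 718 n1316 (.cons 758 n1317 (.cons 922 n1323 (.cons 798 n1324 .nil))))))
noncomputable def n1326 : Strat := .move 841 n261 (.cons 963 n127 .nil)
noncomputable def n1327 : Strat := .move 800 n2 (.cons 759 n1326 .nil)
noncomputable def n1328 : Strat := .move 798 n0 (.cons 757 n1327 .nil)
noncomputable def n1329 : Strat := .move 799 n1328 (.cons 843 n395 (.cons 798 n718 (.cons 800 n67 .nil)))
noncomputable def n1330 : Strat := .move 880 n41 (.cons 843 n42 .nil)
noncomputable def n1331 : Strat := .win 885 0 840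
noncomputable def n1332 : Strat := .win 883 0 839
noncomputable def n1333 : Strat := .move 884 n1331 (.cons 885 n1332 .nil)
noncomputable def n1334 : Strat := .move 843 n472 (.cons 880 n1333 .nil)
noncomputable def n1335 : Strat := .win 923 3 800
noncomputable def n1336 : Strat := .move 801 n1335 (.cons 923 n268 .nil)
noncomputable def n1337 : Strat := .move 882 n360 (.cons 837 n1065 (.cons 883 n1336 .nil))
noncomputable def n1338 : Strat := .move 842 n1330 (.cons 879 n1334 (.cons 843 n1337 .nil))
noncomputable def n1339 : Strat := .move 964 n54 (.cons 1005 n1338 .nil)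
noncomputable def n1340 : Strat := .move 841 n22 (.cons 800 n1339 .nil)
noncomputable def n1341 : Strat := .move 839 n20 (.cons 798 n1340 .nil)
noncomputable def n1342 : Strat := .move 963 n707 (.cons 880 n755 (.cons 841 n552 (.cons 1004 n1341 .nil)))
noncomputable def n1343 : Strat := .move 799 n170 (.cons 801 n67 (.cons 798 n718 .nil))
noncomputable def n1344 : Strat := .move 799 n718 (.cons 923 n392 (.cons 800 n67 .nil))
noncomputable def n1345 : Strat := .move 879 n271 (.cons 880 n39 .nil)
noncomputable def n1346 : Strat := .move 842 n265 (.cons 884 n1345 .nil)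
noncomputable def n1347 : Strat := .move 883 n264 (.cons 882 n1346 .nil)
noncomputable def n1348 : Strat := .move 838 n1215 (.cons 882 n1222 (.cons 837 n1347 .nil))
noncomputable def n1349 : Strat := .move 841 n22 (.cons 800 n1348 .nil)
noncomputable def n1350 : Strat := .move 839 n20 (.cons 798 n1349 .nil)
noncomputable def n1351 : Strat := .move 963 n797 (.cons 882 n552 (.cons 839 n755 (.cons 1004 n1350 .nil)))
noncomputable def n1352 : Strat := .move 879 n38 (.cons 842 n596 .nil)
noncomputable def n1353 : Strat := .move 841 n22 (.cons 800 n1352 .nil)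
noncomputable def n1354 : Strat := .move 880 n441 (.cons 1004 n1353 .nil)
noncomputable def n1355 : Strat := .move 839 n20 (.cons 798 n1354 .nil)
noncomputable def n1356 : Strat := .move 963 n552 (.cons 839 n729 (.cons 1005 n1355 .nil))
noncomputable def n1357 : Strat := .win 965 0 920
noncomputable def n1358 : Strat := .move 920 n554 (.cons 919 n1357 .nil)
noncomputable def n1359 : Strat := .win 920 0 920
noncomputable def n1360 : Strat := .move 965 n772 (.cons 966 n1359 .nil)
noncomputable def n1361 : Strat := .move 1004 n443 (.cons 1045 n1026 .nil)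
noncomputable def n1362 : Strat := .move 880 n689 (.cons 925 n746 (.cons 879 n1361 .nil))
noncomputable def n1363 : Strat := .move 965 n772 (.cons 966 n1362 .nil)
noncomputable def n1364 : Strat := .move 920 n554 (.cons 919 n1362 .nil)
noncomputable def n1365 : Strat := .move 921 n1358 (.cons 919 n1360 (.cons 920 n1363 (.cons 965 n1364 .nil)))
noncomputable def n1366 : Strat := .move 923 n560 (.cons 799 n1365 .nil)
noncomputable def n1367 : Strat := .move 964 n54 (.cons 1005 n1366 .nil)
noncomputable def n1368 : Strat := .move 1045 n1027 (.cons 921 n1157 .nil)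
noncomputable def n1369 : Strat := .move 880 n1026 (.cons 839 n1368 .nil)
noncomputable def n1370 : Strat := .move 1004 n23 (.cons 882 n1369 .nil)
noncomputable def n1371 : Strat := .move 841 n22 (.cons 800 n1370 .nil)
noncomputable def n1372 : Strat := .move 963 n755 (.cons 841 n1367 (.cons 964 n1371 (.cons 1004 n729 .nil)))
noncomputable def n1373 : Strat := .move 923 n14 (.cons 964 n1236 .nil)
noncomputable def n1374 : Strat := .move 880 n297 (.cons 839 n373 .nil)
noncomputable def n1375 : Strat := .move 841 n245 (.cons 882 n406 .nil)
noncomputable def n1376 : Strat := .move 717 n1374 (.cons 921 n1375 .nil)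
noncomputable def n1377 : Strat := .move 801 n103 (.cons 802 n1376 .nil)
noncomputable def n1378 : Strat := .move 758 n10 (.cons 716 n1377 .nil)
noncomputable def n1379 : Strat := .move 757 n9 (.cons 798 n1378 .nil)
noncomputable def n1380 : Strat := .move 800 n2 (.cons 759 n1379 .nil)
noncomputable def n1381 : Strat := .move 799 n67 (.cons 757 n718 (.cons 758 n942 (.cons 964 n1237 (.cons 882 n1373 (.cons 923 n1380 .nil)))))
noncomputable def n1382 : Strat := .move 922 n1329 (.cons 799 n1342 (.cons 841 n1343 (.cons 839 n1344 (.cons 923 n1351 (.cons 882 n1356 (.cons 798 n1372 (.cons 800 n1164 (.cons 964 n1253 (.cons 963 n1381 .nil)))))))))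
noncomputable def n1383 : Strat := .move 961 n999 (.cons 924 n1085 (.cons 923 n1006 (.cons 960 n1013 .nil)))
noncomputable def n1384 : Strat := .move 962 n34 (.cons 1003 n1383 .nil)
noncomputable def n1385 : Strat := .move 964 n54 (.cons 1005 n1384 .nil)
noncomputable def n1386 : Strat := .move 963 n33 (.cons 841 n1385 (.cons 962 n755 .nil))
noncomputable def n1387 : Strat := .move 799 n67 (.cons 923 n401 (.cons 798 n164 .nil))
noncomputable def n1388 : Strat := .move 922 n94 (.cons 799 n1386 (.cons 800 n1017 (.cons 964 n1214 (.cons 963 n1387 .nil))))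
noncomputable def n1389 : Strat := .move 799 n13 (.cons 921 n193 (.cons 798 n453 .nil))
noncomputable def n1390 : Strat := .move 799 n174 (.cons 963 n193 (.cons 841 n87 (.cons 798 n61 .nil)))
noncomputable def n1391 : Strat := .move 799 n99 (.cons 921 n57 (.cons 759 n529 .nil))
noncomputable def n1392 : Strat := .move 921 n772 (.cons 966 n771 .nil)
noncomputable def n1393 : Strat := .move 965 n1081 (.cons 919 n1392 (.cons 921 n1011 .nil))
noncomputable def n1394 : Strat := .move 961 n799 (.cons 960 n1393 (.cons 924 n1085 (.cons 923 n1086 .nil)))
noncomputable def n1395 : Strat := .move 964 n54 (.cons 1005 n1394 .nil)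
noncomputable def n1396 : Strat := .move 962 n34 (.cons 1003 n1395 .nil)
noncomputable def n1397 : Strat := .move 839 n30 (.cons 880 n1396 (.cons 962 n551 .nil))
noncomputable def n1398 : Strat := .move 839 n20 (.cons 798 n1396 .nil)
noncomputable def n1399 : Strat := .move 965 n1009 (.cons 925 n1081 .nil)
noncomputable def n1400 : Strat := .move 924 n1010 (.cons 923 n1399 .nil)
noncomputable def n1401 : Strat := .move 961 n999 (.cons 923 n1006 (.cons 960 n1400 .nil))
noncomputable def n1402 : Strat := .move 964 n54 (.cons 1005 n1401 .nil)
noncomputable def n1403 : Strat := .move 962 n34 (.cons 1003 n1402 .nil)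
noncomputable def n1404 : Strat := .move 963 n31 (.cons 962 n552 (.cons 798 n1397 (.cons 880 n1398 (.cons 839 n1403 .nil))))
noncomputable def n1405 : Strat := .move 922 n100 (.cons 962 n1356 (.cons 759 n530 (.cons 963 n1389 (.cons 880 n1390 (.cons 798 n1391 (.cons 799 n1404 .nil))))))
noncomputable def n1406 : Strat := .move 799 n6 (.cons 798 n61 (.cons 963 n84 (.cons 841 n87 .nil)))
noncomputable def n1407 : Strat := .move 799 n61 (.cons 759 n89 (.cons 963 n699 .nil))
noncomputable def n1408 : Strat := .move 799 n93 (.cons 839 n57 (.cons 800 n89 (.cons 963 n140 .nil)))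
noncomputable def n1409 : Strat := .move 799 n61 (.cons 921 n57 (.cons 841 n1276 .nil))
noncomputable def n1410 : Strat := .move 799 n89 (.cons 923 n87 (.cons 839 n995 .nil))
noncomputable def n1411 : Strat := .move 799 n84 (.cons 921 n140 (.cons 801 n752 (.cons 839 n1171 .nil)))
noncomputable def n1412 : Strat := .move 963 n26 (.cons 880 n33 (.cons 841 n552 (.cons 1004 n51 .nil)))
noncomputable def n1413 : Strat := .move 922 n1406 (.cons 797 n1407 (.cons 921 n1408 (.cons 798 n1409 (.cons 800 n1410 (.cons 963 n1411 (.cons 799 n1412 .nil))))))
noncomputable def n1414 : Strat := .move 883 n600 (.cons 884 n1093 .nil)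
noncomputable def n1415 : Strat := .move 882 n36 (.cons 837 n1414 .nil)
noncomputable def n1416 : Strat := .win 880 0 836
noncomputable def n1417 : Strat := .win 796 2 795
noncomputable def n1418 : Strat := .win 794 2 794
noncomputable def n1419 : Strat := .move 795 n1417 (.cons 796 n1418 .nil)
noncomputable def n1420 : Strat := .move 836 n1416 (.cons 880 n1419 .nil)
noncomputable def n1421 : Strat := .move 841 n1216 (.cons 879 n1220 .nil)
noncomputable def n1422 : Strat := .move 878 n1217 (.cons 877 n1421 .nil)
noncomputable def n1423 : Strat := .win 878 4 836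
noncomputable def n1424 : Strat := .win 876 4 835
noncomputable def n1425 : Strat := .move 877 n1423 (.cons 878 n1424 .nil)
noncomputable def n1426 : Strat := .move 836 n1416 (.cons 880 n1425 .nil)
noncomputable def n1427 : Strat := .move 837 n1420 (.cons 836 n1422 (.cons 796 n1426 .nil))
noncomputable def n1428 : Strat := .win 880 2 838
noncomputable def n1429 : Strat := .move 883 n600 (.cons 884 n1428 .nil)
noncomputable def n1430 : Strat := .move 882 n36 (.cons 837 n1429 .nil)
noncomputable def n1431 : Strat := .move 797 n45 (.cons 796 n1109 .nil)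
noncomputable def n1432 : Strat := .move 880 n38 (.cons 842 n1431 .nil)
noncomputable def n1433 : Strat := .move 879 n39 (.cons 878 n1432 .nil)
noncomputable def n1434 : Strat := .move 882 n35 (.cons 883 n1433 .nil)
noncomputable def n1435 : Strat := .win 798 2 797
noncomputable def n1436 : Strat := .move 797 n45 (.cons 796 n1435 .nil)
noncomputable def n1437 : Strat := .move 842 n271 (.cons 880 n1436 .nil)
noncomputable def n1438 : Strat := .move 879 n39 (.cons 878 n1437 .nil)
noncomputable def n1439 : Strat := .move 797 n1435 (.cons 798 n45 .nil)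
noncomputable def n1440 : Strat := .move 842 n1439 (.cons 796 n564 .nil)
noncomputable def n1441 : Strat := .move 759 n283 (.cons 718 n1440 .nil)
noncomputable def n1442 : Strat := .move 800 n462 (.cons 801 n1441 .nil)
noncomputable def n1443 : Strat := .move 882 n35 (.cons 883 n1442 .nil)
noncomputable def n1444 : Strat := .win 757 1 756
noncomputable def n1445 : Strat := .move 798 n1444 (.cons 757 n1102 .nil)
noncomputable def n1446 : Strat := .move 920 n604 (.cons 919 n1445 .nil)
noncomputable def n1447 : Strat := .move 880 n38 (.cons 842 n1446 .nil)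
noncomputable def n1448 : Strat := .move 879 n39 (.cons 878 n1447 .nil)
noncomputable def n1449 : Strat := .move 882 n35 (.cons 883 n1448 .nil)
noncomputable def n1450 : Strat := .win 960 1 796
noncomputable def n1451 : Strat := .win 880 4 878
noncomputable def n1452 : Strat := .move 919 n1450 (.cons 960 n1451 .nil)
noncomputable def n1453 : Strat := .win 757 3 756
noncomputable def n1454 : Strat := .move 798 n1453 (.cons 757 n1102 .nil)
noncomputable def n1455 : Strat := .move 920 n1452 (.cons 880 n1454 .nil)
noncomputable def n1456 : Strat := .move 797 n45 (.cons 796 n1455 .nil)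
noncomputable def n1457 : Strat := .move 879 n39 (.cons 878 n1456 .nil)
noncomputable def n1458 : Strat := .move 882 n35 (.cons 883 n1457 .nil)
noncomputable def n1459 : Strat := .win 800 5 797
noncomputable def n1460 : Strat := .move 842 n268 (.cons 802 n1439 .nil)
noncomputable def n1461 : Strat := .move 801 n1459 (.cons 800 n1460 .nil)
noncomputable def n1462 : Strat := .move 882 n35 (.cons 883 n1461 .nil)
noncomputable def n1463 : Strat := .move 841 n1434 (.cons 882 n1438 (.cons 879 n1443 (.cons 797 n1449 (.cons 842 n1458 (.cons 880 n1462 .nil)))))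
noncomputable def n1464 : Strat := .move 838 n1415 (.cons 882 n1427 (.cons 841 n1430 (.cons 837 n1463 .nil)))
noncomputable def n1465 : Strat := .move 841 n1219 (.cons 797 n1216 .nil)
noncomputable def n1466 : Strat := .move 878 n1217 (.cons 877 n1465 .nil)
noncomputable def n1467 : Strat := .move 796 n1218 (.cons 795 n1466 .nil)
noncomputable def n1468 : Strat := .move 837 n896 (.cons 882 n1467 .nil)
noncomputable def n1469 : Strat := .win 800 5 796
noncomputable def n1470 : Strat := .win 673 6 673
noncomputable def n1471 : Strat := .win 879 6 714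
noncomputable def n1472 : Strat := .move 714 n1470 (.cons 673 n1471 .nil)
noncomputable def n1473 : Strat := .move 798 n177 (.cons 754 n182 .nil)
noncomputable def n1474 : Strat := .move 755 n1472 (.cons 879 n1473 .nil)
noncomputable def n1475 : Strat := .move 799 n1469 (.cons 800 n1474 .nil)
noncomputable def n1476 : Strat := .move 797 n1113 (.cons 841 n1475 .nil)
noncomputable def n1477 : Strat := .move 796 n1218 (.cons 795 n1476 .nil)
noncomputable def n1478 : Strat := .move 837 n896 (.cons 882 n1477 .nil)
noncomputable def n1479 : Strat := .win 799 5 796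
noncomputable def n1480 : Strat := .move 837 n1479 (.cons 799 n1220 .nil)
noncomputable def n1481 : Strat := .move 800 n462 (.cons 801 n1480 .nil)
noncomputable def n1482 : Strat := .win 842 2 797
noncomputable def n1483 : Strat := .win 716 6 716
noncomputable def n1484 : Strat := .win 920 3 756
noncomputable def n1485 : Strat := .move 879 n1484 (.cons 920 n39 .nil)
noncomputable def n1486 : Strat := .move 757 n1483 (.cons 716 n1485 .nil)
noncomputable def n1487 : Strat := .move 798 n1482 (.cons 842 n1486 .nil)
noncomputable def n1488 : Strat := .move 797 n45 (.cons 796 n1487 .nil)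
noncomputable def n1489 : Strat := .move 878 n1217 (.cons 877 n1216 .nil)
noncomputable def n1490 : Strat := .move 837 n1479 (.cons 799 n1489 .nil)
noncomputable def n1491 : Strat := .move 800 n462 (.cons 801 n1490 .nil)
noncomputable def n1492 : Strat := .move 841 n1481 (.cons 837 n1488 (.cons 797 n1491 .nil))
noncomputable def n1493 : Strat := .move 758 n109 (.cons 923 n831 .nil)
noncomputable def n1494 : Strat := .win 964 3 800
noncomputable def n1495 : Strat := .move 923 n1494 (.cons 964 n353 .nil)
noncomputable def n1496 : Strat := .move 843 n458 (.cons 798 n563 .nil)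
noncomputable def n1497 : Strat := .move 799 n1493 (.cons 717 n1495 (.cons 923 n1496 .nil))
noncomputable def n1498 : Strat := .move 842 n268 (.cons 802 n1497 .nil)
noncomputable def n1499 : Strat := .move 801 n1459 (.cons 800 n1498 .nil)
noncomputable def n1500 : Strat := .move 882 n35 (.cons 883 n1499 .nil)
noncomputable def n1501 : Strat := .win 964 7 799
noncomputable def n1502 : Strat := .move 799 n1501 (.cons 964 n353 .nil)
noncomputable def n1503 : Strat := .win 1005 7 840
noncomputable def n1504 : Strat := .win 799 7 799
noncomputable def n1505 : Strat := .move 964 n1503 (.cons 1005 n1504 .nil)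
noncomputable def n1506 : Strat := .win 799 6 758
noncomputable def n1507 : Strat := .win 717 7 717
noncomputable def n1508 : Strat := .move 759 n1507 (.cons 717 n283 .nil)
noncomputable def n1509 : Strat := .move 758 n1506 (.cons 799 n1508 .nil)
noncomputable def n1510 : Strat := .win 1006 6 841
noncomputable def n1511 : Strat := .win 924 6 800
noncomputable def n1512 : Strat := .move 965 n1510 (.cons 1006 n1511 .nil)
noncomputable def n1513 : Strat := .move 964 n1503 (.cons 1005 n1512 .nil)
noncomputable def n1514 : Strat := .move 923 n1502 (.cons 758 n1505 (.cons 964 n1509 (.cons 799 n1513 .nil)))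
noncomputable def n1515 : Strat := .move 800 n462 (.cons 801 n1514 .nil)
noncomputable def n1516 : Strat := .move 882 n35 (.cons 883 n1515 .nil)
noncomputable def n1517 : Strat := .move 841 n1462 (.cons 882 n1488 (.cons 797 n1500 (.cons 842 n1516 .nil)))
noncomputable def n1518 : Strat := .win 798 5 795
noncomputable def n1519 : Strat := .move 836 n1518 (.cons 798 n1425 .nil)
noncomputable def n1520 : Strat := .move 799 n1469 (.cons 800 n1519 .nil)
noncomputable def n1521 : Strat := .move 837 n896 (.cons 882 n1520 .nil)
noncomputable def n1522 : Strat := .move 838 n1468 (.cons 877 n1478 (.cons 882 n1492 (.cons 796 n1415 (.cons 837 n1517 (.cons 841 n1521 .nil)))))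
noncomputable def n1523 : Strat := .move 801 n268 (.cons 802 n1459 .nil)
noncomputable def n1524 : Strat := .move 838 n45 (.cons 796 n1523 .nil)
noncomputable def n1525 : Strat := .move 797 n1435 (.cons 798 n1524 .nil)
noncomputable def n1526 : Strat := .move 842 n42 (.cons 879 n1525 .nil)
noncomputable def n1527 : Strat := .move 837 n895 (.cons 836 n1220 .nil)
noncomputable def n1528 : Strat := .move 800 n1479 (.cons 799 n462 .nil)
noncomputable def n1529 : Strat := .move 837 n895 (.cons 836 n1528 .nil)
noncomputable def n1530 : Strat := .move 838 n1431 (.cons 756 n1527 (.cons 797 n1529 .nil))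
noncomputable def n1531 : Strat := .move 879 n596 (.cons 878 n1530 .nil)
noncomputable def n1532 : Strat := .move 842 n41 (.cons 843 n1525 .nil)
noncomputable def n1533 : Strat := .move 880 n446 (.cons 843 n1526 (.cons 842 n1531 (.cons 879 n1532 .nil)))
noncomputable def n1534 : Strat := .move 838 n1481 (.cons 837 n1488 (.cons 797 n1491 .nil))
noncomputable def n1535 : Strat := .win 920 1 756
noncomputable def n1536 : Strat := .move 757 n1483 (.cons 716 n1535 .nil)
noncomputable def n1537 : Strat := .win 962 3 798
noncomputable def n1538 : Strat := .move 799 n1537 (.cons 962 n439 .nil)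
noncomputable def n1539 : Strat := .win 1003 3 839
noncomputable def n1540 : Strat := .win 799 3 798
noncomputable def n1541 : Strat := .move 962 n1539 (.cons 1003 n1540 .nil)
noncomputable def n1542 : Strat := .move 797 n1115 (.cons 756 n69 .nil)
noncomputable def n1543 : Strat := .move 799 n439 (.cons 758 n1542 .nil)
noncomputable def n1544 : Strat := .win 920 1 797
noncomputable def n1545 : Strat := .win 1002 1 838
noncomputable def n1546 : Strat := .move 962 n1545 (.cons 1002 n1539 .nil)
noncomputable def n1547 : Strat := .move 961 n1544 (.cons 920 n1546 .nil)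
noncomputable def n1548 : Strat := .move 921 n1538 (.cons 758 n1541 (.cons 962 n1543 (.cons 799 n1547 .nil)))
noncomputable def n1549 : Strat := .win 717 3 716
noncomputable def n1550 : Strat := .win 799 1 757
noncomputable def n1551 : Strat := .move 758 n1549 (.cons 717 n1550 .nil)
noncomputable def n1552 : Strat := .win 797 7 756
noncomputable def n1553 : Strat := .move 756 n1552 (.cons 797 n637 .nil)
noncomputable def n1554 : Strat := .move 921 n1538 (.cons 758 n1541 (.cons 962 n1551 (.cons 799 n1553 .nil)))
noncomputable def n1555 : Strat := .move 757 n1483 (.cons 716 n1554 .nil)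
noncomputable def n1556 : Strat := .move 798 n1536 (.cons 757 n1548 (.cons 920 n1555 .nil))
noncomputable def n1557 : Strat := .move 879 n596 (.cons 878 n1556 .nil)
noncomputable def n1558 : Strat := .move 757 n1549 (.cons 717 n1483 .nil)
noncomputable def n1559 : Strat := .move 758 n1550 (.cons 799 n1558 .nil)
noncomputable def n1560 : Strat := .move 961 n1545 (.cons 1002 n1544 .nil)
noncomputable def n1561 : Strat := .move 962 n1539 (.cons 1003 n1560 .nil)
noncomputable def n1562 : Strat := .move 921 n1538 (.cons 758 n1541 (.cons 962 n1559 (.cons 799 n1561 .nil)))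
noncomputable def n1563 : Strat := .move 798 n249 (.cons 797 n1562 .nil)
noncomputable def n1564 : Strat := .move 842 n41 (.cons 843 n1563 .nil)
noncomputable def n1565 : Strat := .move 880 n446 (.cons 842 n1557 (.cons 879 n1564 .nil))
noncomputable def n1566 : Strat := .move 880 n41 (.cons 843 n1525 .nil)
noncomputable def n1567 : Strat := .win 924 7 759
noncomputable def n1568 : Strat := .move 883 n1567 (.cons 924 n265 .nil)
noncomputable def n1569 : Strat := .move 759 n283 (.cons 718 n1568 .nil)
noncomputable def n1570 : Strat := .move 800 n464 (.cons 838 n1569 .nil)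
noncomputable def n1571 : Strat := .move 801 n268 (.cons 802 n1570 .nil)
noncomputable def n1572 : Strat := .move 880 n1525 (.cons 797 n1571 (.cons 801 n1563 .nil))
noncomputable def n1573 : Strat := .move 880 n41 (.cons 843 n1563 .nil)
noncomputable def n1574 : Strat := .win 801 5 798
noncomputable def n1575 : Strat := .win 803 5 799
noncomputable def n1576 : Strat := .move 802 n1574 (.cons 801 n1575 .nil)
noncomputable def n1577 : Strat := .move 843 n472 (.cons 880 n1576 .nil)
noncomputable def n1578 : Strat := .win 799 2 798
noncomputable def n1579 : Strat := .move 843 n1578 (.cons 799 n1576 .nil)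
noncomputable def n1580 : Strat := .move 798 n249 (.cons 797 n1579 .nil)
noncomputable def n1581 : Strat := .move 842 n1566 (.cons 843 n1572 (.cons 801 n1573 (.cons 797 n1577 (.cons 880 n1580 .nil))))
noncomputable def n1582 : Strat := .move 801 n1459 (.cons 800 n268 .nil)
noncomputable def n1583 : Strat := .move 842 n1435 (.cons 798 n1582 .nil)
noncomputable def n1584 : Strat := .move 797 n45 (.cons 796 n1583 .nil)
noncomputable def n1585 : Strat := .move 842 n271 (.cons 880 n1582 .nil)
noncomputable def n1586 : Strat := .move 879 n39 (.cons 878 n1585 .nil)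
noncomputable def n1587 : Strat := .move 796 n1219 (.cons 797 n1218 .nil)
noncomputable def n1588 : Strat := .move 837 n1217 (.cons 877 n1587 .nil)
noncomputable def n1589 : Strat := .move 878 n1216 (.cons 879 n1588 .nil)
noncomputable def n1590 : Strat := .move 838 n1438 (.cons 879 n1584 (.cons 797 n1586 (.cons 842 n1589 .nil)))
noncomputable def n1591 : Strat := .move 838 n1459 (.cons 800 n1527 .nil)
noncomputable def n1592 : Strat := .move 801 n268 (.cons 802 n1591 .nil)
noncomputable def n1593 : Strat := .move 842 n41 (.cons 843 n1592 .nil)
noncomputable def n1594 : Strat := .move 880 n1352 (.cons 878 n446 (.cons 879 n1593 (.cons 842 n1531 .nil)))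
noncomputable def n1595 : Strat := .move 880 n42 (.cons 879 n1571 .nil)
noncomputable def n1596 : Strat := .move 842 n575 (.cons 843 n1595 (.cons 879 n1577 (.cons 880 n1571 .nil)))
noncomputable def n1597 : Strat := .move 880 n1431 (.cons 756 n1527 (.cons 797 n1529 .nil))
noncomputable def n1598 : Strat := .move 879 n39 (.cons 878 n1597 .nil)
noncomputable def n1599 : Strat := .move 837 n1479 (.cons 799 n1587 .nil)
noncomputable def n1600 : Strat := .move 800 n462 (.cons 801 n1599 .nil)
noncomputable def n1601 : Strat := .move 878 n1216 (.cons 879 n1217 .nil)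
noncomputable def n1602 : Strat := .move 837 n1479 (.cons 799 n1601 .nil)
noncomputable def n1603 : Strat := .move 800 n462 (.cons 801 n1602 .nil)
noncomputable def n1604 : Strat := .move 880 n1107 (.cons 921 n1108 .nil)
noncomputable def n1605 : Strat := .win 798 3 756
noncomputable def n1606 : Strat := .win 716 3 715
noncomputable def n1607 : Strat := .move 757 n1605 (.cons 798 n1606 .nil)
noncomputable def n1608 : Strat := .win 962 6 797
noncomputable def n1609 : Strat := .win 880 6 756
noncomputable def n1610 : Strat := .move 921 n1608 (.cons 962 n1609 .nil)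
noncomputable def n1611 : Strat := .move 920 n1454 (.cons 961 n1607 (.cons 757 n1610 .nil))
noncomputable def n1612 : Strat := .win 880 6 715
noncomputable def n1613 : Strat := .win 675 3 674
noncomputable def n1614 : Strat := .win 757 3 715
noncomputable def n1615 : Strat := .move 716 n1613 (.cons 675 n1614 .nil)
noncomputable def n1616 : Strat := .move 715 n1612 (.cons 880 n1615 .nil)
noncomputable def n1617 : Strat := .win 673 7 673
noncomputable def n1618 : Strat := .win 755 7 714
noncomputable def n1619 : Strat := .move 714 n1617 (.cons 673 n1618 .nil)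
noncomputable def n1620 : Strat := .move 715 n1615 (.cons 757 n1619 .nil)
noncomputable def n1621 : Strat := .move 756 n1604 (.cons 715 n1611 (.cons 921 n1616 (.cons 880 n1620 .nil)))
noncomputable def n1622 : Strat := .move 797 n45 (.cons 796 n1621 .nil)
noncomputable def n1623 : Strat := .move 879 n39 (.cons 878 n1622 .nil)
noncomputable def n1624 : Strat := .move 838 n1598 (.cons 879 n1600 (.cons 797 n1603 (.cons 799 n1589 (.cons 837 n1623 .nil))))
noncomputable def n1625 : Strat := .move 841 n1533 (.cons 880 n1534 (.cons 838 n1565 (.cons 879 n1581 (.cons 799 n1590 (.cons 798 n1594 (.cons 797 n1596 (.cons 842 n1624 .nil)))))))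
noncomputable def n1626 : Strat := .move 838 n36 (.cons 837 n1414 .nil)
noncomputable def n1627 : Strat := .move 879 n1127 (.cons 841 n1126 .nil)
noncomputable def n1628 : Strat := .move 842 n1128 (.cons 843 n1627 .nil)
noncomputable def n1629 : Strat := .move 921 n1038 (.cons 920 n1538 .nil)
noncomputable def n1630 : Strat := .move 841 n42 (.cons 879 n1629 .nil)
noncomputable def n1631 : Strat := .move 842 n1128 (.cons 843 n1630 .nil)
noncomputable def n1632 : Strat := .move 799 n439 (.cons 758 n1537 .nil)
noncomputable def n1633 : Strat := .move 921 n1038 (.cons 920 n1632 .nil)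
noncomputable def n1634 : Strat := .move 880 n1628 (.cons 923 n1631 (.cons 842 n1633 .nil))
noncomputable def n1635 : Strat := .move 883 n600 (.cons 884 n1634 .nil)
noncomputable def n1636 : Strat := .move 838 n36 (.cons 837 n1429 .nil)
noncomputable def n1637 : Strat := .move 841 n35 (.cons 883 n1433 .nil)
noncomputable def n1638 : Strat := .move 838 n36 (.cons 837 n1637 .nil)
noncomputable def n1639 : Strat := .move 842 n271 (.cons 880 n1523 .nil)
noncomputable def n1640 : Strat := .move 879 n39 (.cons 878 n1639 .nil)
noncomputable def n1641 : Strat := .move 964 n1504 (.cons 799 n1503 .nil)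
noncomputable def n1642 : Strat := .move 923 n1641 (.cons 1005 n1502 (.cons 799 n1513 (.cons 964 n1509 .nil)))
noncomputable def n1643 : Strat := .move 800 n462 (.cons 801 n1642 .nil)
noncomputable def n1644 : Strat := .move 841 n1433 (.cons 921 n1640 (.cons 880 n1643 .nil))
noncomputable def n1645 : Strat := .move 838 n36 (.cons 837 n1644 .nil)
noncomputable def n1646 : Strat := .move 882 n1626 (.cons 838 n1635 (.cons 841 n1636 (.cons 884 n1638 (.cons 883 n1645 .nil))))
noncomputable def n1647 : Strat := .move 879 n39 (.cons 878 n38 .nil)
noncomputable def n1648 : Strat := .move 882 n35 (.cons 883 n1431 .nil)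
noncomputable def n1649 : Strat := .move 879 n39 (.cons 878 n1648 .nil)
noncomputable def n1650 : Strat := .move 842 n41 (.cons 843 n1439 .nil)
noncomputable def n1651 : Strat := .move 882 n35 (.cons 883 n1650 .nil)
noncomputable def n1652 : Strat := .move 838 n1647 (.cons 878 n446 (.cons 842 n1649 (.cons 879 n1651 .nil)))
noncomputable def n1653 : Strat := .win 923 1 759
noncomputable def n1654 : Strat := .win 719 1 718
noncomputable def n1655 : Strat := .move 760 n1653 (.cons 923 n1654 .nil)
noncomputable def n1656 : Strat := .move 801 n268 (.cons 802 n1655 .nil)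
noncomputable def n1657 : Strat := .move 882 n1060 (.cons 838 n1656 .nil)
noncomputable def n1658 : Strat := .move 883 n265 (.cons 884 n1657 .nil)
noncomputable def n1659 : Strat := .move 842 n41 (.cons 843 n1658 .nil)
noncomputable def n1660 : Strat := .move 838 n35 (.cons 883 n1431 .nil)
noncomputable def n1661 : Strat := .move 923 n1030 (.cons 924 n1502 .nil)
noncomputable def n1662 : Strat := .move 882 n1660 (.cons 883 n1661 .nil)
noncomputable def n1663 : Strat := .move 879 n596 (.cons 878 n1662 .nil)
noncomputable def n1664 : Strat := .move 880 n1652 (.cons 878 n446 (.cons 843 n1352 (.cons 879 n1659 (.cons 842 n1663 .nil))))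
noncomputable def n1665 : Strat := .win 759 7 759
noncomputable def n1666 : Strat := .win 965 7 800
noncomputable def n1667 : Strat := .move 924 n1665 (.cons 759 n1666 .nil)
noncomputable def n1668 : Strat := .move 800 n464 (.cons 838 n1667 .nil)
noncomputable def n1669 : Strat := .move 801 n268 (.cons 802 n1668 .nil)
noncomputable def n1670 : Strat := .move 883 n265 (.cons 884 n1669 .nil)
noncomputable def n1671 : Strat := .move 884 n1332 (.cons 883 n1331 .nil)
noncomputable def n1672 : Strat := .move 843 n1578 (.cons 799 n1671 .nil)
noncomputable def n1673 : Strat := .move 798 n249 (.cons 797 n1672 .nil)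
noncomputable def n1674 : Strat := .move 757 n403 (.cons 756 n1483 .nil)
noncomputable def n1675 : Strat := .move 799 n186 (.cons 843 n1674 .nil)
noncomputable def n1676 : Strat := .move 800 n464 (.cons 838 n1675 .nil)
noncomputable def n1677 : Strat := .move 801 n268 (.cons 802 n1676 .nil)
noncomputable def n1678 : Strat := .move 798 n249 (.cons 797 n1677 .nil)
noncomputable def n1679 : Strat := .move 842 n1670 (.cons 838 n1673 (.cons 884 n1678 .nil))
noncomputable def n1680 : Strat := .move 843 n472 (.cons 880 n1671 .nil)
noncomputable def n1681 : Strat := .win 961 1 797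
noncomputable def n1682 : Strat := .win 882 4 879
noncomputable def n1683 : Strat := .move 920 n1681 (.cons 961 n1682 .nil)
noncomputable def n1684 : Strat := .move 921 n1538 (.cons 758 n1541 (.cons 962 n1683 .nil))
noncomputable def n1685 : Strat := .move 798 n249 (.cons 797 n1684 .nil)
noncomputable def n1686 : Strat := .move 883 n265 (.cons 884 n1685 .nil)
noncomputable def n1687 : Strat := .move 880 n42 (.cons 879 n1686 .nil)
noncomputable def n1688 : Strat := .move 842 n575 (.cons 879 n1680 (.cons 880 n1673 (.cons 843 n1687 .nil)))
noncomputable def n1689 : Strat := .move 838 n1433 (.cons 879 n1442 (.cons 842 n1457 (.cons 797 n1448 (.cons 880 n1461 .nil))))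
noncomputable def n1690 : Strat := .win 880 0 879
noncomputable def n1691 : Strat := .move 924 n1690 (.cons 880 n1194 .nil)
noncomputable def n1692 : Strat := .move 923 n1502 (.cons 758 n1505 (.cons 964 n1691 .nil))
noncomputable def n1693 : Strat := .move 879 n39 (.cons 878 n1692 .nil)
noncomputable def n1694 : Strat := .move 800 n462 (.cons 801 n1693 .nil)
noncomputable def n1695 : Strat := .move 838 n1457 (.cons 797 n1694 (.cons 878 n1515 .nil))
noncomputable def n1696 : Strat := .move 802 n1575 (.cons 803 n1574 .nil)
noncomputable def n1697 : Strat := .move 843 n563 (.cons 844 n1696 .nil)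
noncomputable def n1698 : Strat := .move 842 n1435 (.cons 798 n1697 .nil)
noncomputable def n1699 : Strat := .move 797 n45 (.cons 796 n1698 .nil)
noncomputable def n1700 : Strat := .move 838 n1461 (.cons 800 n1699 (.cons 801 n1488 (.cons 797 n1499 (.cons 798 n1643 .nil))))
noncomputable def n1701 : Strat := .move 842 n1435 (.cons 798 n564 .nil)
noncomputable def n1702 : Strat := .move 797 n45 (.cons 796 n1701 .nil)
noncomputable def n1703 : Strat := .move 842 n268 (.cons 802 n564 .nil)
noncomputable def n1704 : Strat := .move 801 n1459 (.cons 800 n1703 .nil)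
noncomputable def n1705 : Strat := .move 842 n268 (.cons 802 n1435 .nil)
noncomputable def n1706 : Strat := .move 801 n1459 (.cons 800 n1705 .nil)
noncomputable def n1707 : Strat := .move 797 n45 (.cons 796 n1706 .nil)
noncomputable def n1708 : Strat := .move 838 n1442 (.cons 800 n1702 (.cons 797 n1704 (.cons 843 n1707 (.cons 842 n1515 .nil))))
noncomputable def n1709 : Strat := .move 842 n271 (.cons 880 n1439 .nil)
noncomputable def n1710 : Strat := .move 879 n39 (.cons 878 n1709 .nil)
noncomputable def n1711 : Strat := .move 838 n1433 (.cons 756 n1710 (.cons 879 n1702 (.cons 842 n1457 (.cons 797 n1448 (.cons 880 n1699 .nil)))))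
noncomputable def n1712 : Strat := .move 838 n1433 (.cons 921 n1640 (.cons 880 n1643 .nil))
noncomputable def n1713 : Strat := .move 838 n1433 (.cons 756 n1448 (.cons 879 n1702 (.cons 880 n1488 (.cons 842 n1457 .nil))))
noncomputable def n1714 : Strat := .move 842 n268 (.cons 802 n1330 .nil)
noncomputable def n1715 : Strat := .move 801 n1459 (.cons 800 n1714 .nil)
noncomputable def n1716 : Strat := .move 838 n1448 (.cons 842 n1694 (.cons 878 n1715 (.cons 879 n1704 (.cons 880 n1499 .nil))))
noncomputable def n1717 : Strat := .move 843 n472 (.cons 880 n563 .nil)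
noncomputable def n1718 : Strat := .move 798 n249 (.cons 797 n1578 .nil)
noncomputable def n1719 : Strat := .move 843 n563 (.cons 844 n1718 .nil)
noncomputable def n1720 : Strat := .move 799 n109 (.cons 923 n275 .nil)
noncomputable def n1721 : Strat := .move 799 n373 (.cons 921 n109 .nil)
noncomputable def n1722 : Strat := .move 799 n373 (.cons 921 n275 .nil)
noncomputable def n1723 : Strat := .move 758 n1720 (.cons 717 n1721 (.cons 923 n1722 (.cons 799 n1558 .nil)))
noncomputable def n1724 : Strat := .move 798 n249 (.cons 797 n1723 .nil)
noncomputable def n1725 : Strat := .move 880 n42 (.cons 879 n1724 .nil)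
noncomputable def n1726 : Strat := .move 842 n575 (.cons 879 n1717 (.cons 880 n1719 (.cons 843 n1725 .nil)))
noncomputable def n1727 : Strat := .move 882 n1689 (.cons 842 n1695 (.cons 880 n1700 (.cons 879 n1708 (.cons 800 n1711 (.cons 798 n1712 (.cons 801 n1713 (.cons 797 n1716 (.cons 838 n1726 .nil))))))))
noncomputable def n1728 : Strat := .move 842 n265 (.cons 884 n1582 .nil)
noncomputable def n1729 : Strat := .move 883 n264 (.cons 882 n1728 .nil)
noncomputable def n1730 : Strat := .move 838 n1438 (.cons 879 n1729 (.cons 842 n1458 .nil))
noncomputable def n1731 : Strat := .move 882 n1060 (.cons 838 n1655 .nil)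
noncomputable def n1732 : Strat := .move 801 n268 (.cons 802 n1731 .nil)
noncomputable def n1733 : Strat := .move 883 n265 (.cons 884 n1732 .nil)
noncomputable def n1734 : Strat := .move 842 n575 (.cons 879 n1680 (.cons 880 n1733 .nil))
noncomputable def n1735 : Strat := .move 838 n35 (.cons 883 n1457 .nil)
noncomputable def n1736 : Strat := .move 838 n35 (.cons 883 n1515 .nil)
noncomputable def n1737 : Strat := .move 880 n373 (.cons 921 n1125 .nil)
noncomputable def n1738 : Strat := .win 800 6 759
noncomputable def n1739 : Strat := .move 759 n96 (.cons 718 n1738 .nil)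
noncomputable def n1740 : Strat := .move 924 n1737 (.cons 925 n1739 .nil)
noncomputable def n1741 : Strat := .move 758 n831 (.cons 717 n1740 .nil)
noncomputable def n1742 : Strat := .move 923 n353 (.cons 758 n1501 .nil)
noncomputable def n1743 : Strat := .win 924 6 759
noncomputable def n1744 : Strat := .move 759 n1743 (.cons 924 n283 .nil)
noncomputable def n1745 : Strat := .move 801 n479 (.cons 760 n74 .nil)
noncomputable def n1746 : Strat := .move 800 n1744 (.cons 718 n1745 .nil)
noncomputable def n1747 : Strat := .move 923 n1501 (.cons 964 n1746 .nil)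
noncomputable def n1748 : Strat := .move 799 n1062 (.cons 923 n1741 (.cons 717 n1742 (.cons 758 n1747 .nil)))
noncomputable def n1749 : Strat := .move 883 n600 (.cons 884 n1748 .nil)
noncomputable def n1750 : Strat := .move 882 n1735 (.cons 883 n1695 (.cons 880 n1736 (.cons 838 n1749 .nil)))
noncomputable def n1751 : Strat := .move 841 n1664 (.cons 880 n1679 (.cons 838 n1688 (.cons 883 n1727 (.cons 799 n1730 (.cons 797 n1734 (.cons 842 n1750 .nil))))))
noncomputable def n1752 : Strat := .move 841 n1433 (.cons 879 n1442 (.cons 842 n1457 (.cons 797 n1448 (.cons 880 n1461 .nil))))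
noncomputable def n1753 : Strat := .move 882 n36 (.cons 837 n1752 .nil)
noncomputable def n1754 : Strat := .move 841 n1448 (.cons 842 n1694 (.cons 878 n1715 (.cons 879 n1704 (.cons 880 n1499 .nil))))
noncomputable def n1755 : Strat := .move 882 n36 (.cons 837 n1754 .nil)
noncomputable def n1756 : Strat := .move 924 n1194 (.cons 965 n1690 .nil)
noncomputable def n1757 : Strat := .move 923 n1641 (.cons 1005 n1502 (.cons 799 n1756 .nil))
noncomputable def n1758 : Strat := .move 800 n462 (.cons 801 n1757 .nil)
noncomputable def n1759 : Strat := .move 879 n39 (.cons 878 n1758 .nil)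
noncomputable def n1760 : Strat := .move 841 n1710 (.cons 879 n1442 (.cons 797 n1640 (.cons 842 n1759 (.cons 880 n1461 .nil))))
noncomputable def n1761 : Strat := .move 882 n36 (.cons 837 n1760 .nil)
noncomputable def n1762 : Strat := .move 841 n1461 (.cons 800 n1699 (.cons 801 n1488 (.cons 797 n1499 (.cons 798 n1643 .nil))))
noncomputable def n1763 : Strat := .move 882 n36 (.cons 837 n1762 .nil)
noncomputable def n1764 : Strat := .move 882 n36 (.cons 837 n1644 .nil)
noncomputable def n1765 : Strat := .move 841 n1433 (.cons 756 n1710 (.cons 879 n1702 (.cons 842 n1457 (.cons 797 n1448 (.cons 880 n1699 .nil)))))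
noncomputable def n1766 : Strat := .move 882 n36 (.cons 837 n1765 .nil)
noncomputable def n1767 : Strat := .move 841 n1433 (.cons 756 n1448 (.cons 879 n1702 (.cons 880 n1488 (.cons 842 n1457 .nil))))
noncomputable def n1768 : Strat := .move 882 n36 (.cons 837 n1767 .nil)
noncomputable def n1769 : Strat := .move 841 n1457 (.cons 797 n1694 (.cons 878 n1515 .nil))
noncomputable def n1770 : Strat := .move 882 n36 (.cons 837 n1769 .nil)
noncomputable def n1771 : Strat := .move 841 n1442 (.cons 800 n1702 (.cons 797 n1704 (.cons 843 n1707 (.cons 842 n1515 .nil))))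
noncomputable def n1772 : Strat := .move 882 n36 (.cons 837 n1771 .nil)
noncomputable def n1773 : Strat := .move 837 n1420 (.cons 796 n1426 (.cons 836 n1422 .nil))
noncomputable def n1774 : Strat := .move 882 n1433 (.cons 879 n1442 (.cons 842 n1457 (.cons 797 n1448 (.cons 880 n1461 .nil))))
noncomputable def n1775 : Strat := .move 882 n1442 (.cons 800 n1702 (.cons 797 n1704 (.cons 843 n1707 (.cons 842 n1515 .nil))))
noncomputable def n1776 : Strat := .move 882 n1457 (.cons 797 n1694 (.cons 878 n1515 .nil))
noncomputable def n1777 : Strat := .move 882 n1448 (.cons 842 n1694 (.cons 878 n1715 (.cons 879 n1704 (.cons 880 n1499 .nil))))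
noncomputable def n1778 : Strat := .move 882 n1433 (.cons 756 n1710 (.cons 879 n1702 (.cons 842 n1457 (.cons 797 n1448 (.cons 880 n1699 .nil)))))
noncomputable def n1779 : Strat := .move 882 n1433 (.cons 756 n1448 (.cons 879 n1702 (.cons 880 n1488 (.cons 842 n1457 .nil))))
noncomputable def n1780 : Strat := .move 882 n1433 (.cons 921 n1640 (.cons 880 n1643 .nil))
noncomputable def n1781 : Strat := .move 842 n1435 (.cons 798 n271 .nil)
noncomputable def n1782 : Strat := .move 797 n45 (.cons 796 n1781 .nil)
noncomputable def n1783 : Strat := .move 879 n39 (.cons 878 n1782 .nil)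
noncomputable def n1784 : Strat := .move 882 n1461 (.cons 800 n1699 (.cons 801 n1488 (.cons 797 n1499 (.cons 798 n1643 .nil))))
noncomputable def n1785 : Strat := .move 841 n1774 (.cons 879 n1775 (.cons 842 n1776 (.cons 797 n1777 (.cons 800 n1778 (.cons 801 n1779 (.cons 798 n1780 (.cons 882 n1783 (.cons 880 n1784 .nil))))))))
noncomputable def n1786 : Strat := .move 837 n896 (.cons 882 n1420 .nil)
noncomputable def n1787 : Strat := .move 838 n1753 (.cons 797 n1755 (.cons 920 n1761 (.cons 880 n1763 (.cons 798 n1764 (.cons 800 n1766 (.cons 801 n1768 (.cons 842 n1770 (.cons 879 n1772 (.cons 882 n1773 (.cons 837 n1785 (.cons 841 n1786 .nil)))))))))))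
noncomputable def n1788 : Strat := .move 841 n35 (.cons 883 n1442 .nil)
noncomputable def n1789 : Strat := .move 838 n36 (.cons 837 n1788 .nil)
noncomputable def n1790 : Strat := .win 964 1 800
noncomputable def n1791 : Strat := .win 760 1 759
noncomputable def n1792 : Strat := .move 923 n1790 (.cons 964 n1791 .nil)
noncomputable def n1793 : Strat := .win 761 3 760
noncomputable def n1794 : Strat := .win 841 5 798
noncomputable def n1795 : Strat := .move 802 n1793 (.cons 761 n1794 .nil)
noncomputable def n1796 : Strat := .move 801 n1792 (.cons 760 n1795 .nil)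
noncomputable def n1797 : Strat := .move 924 n1125 (.cons 925 n1796 .nil)
noncomputable def n1798 : Strat := .move 842 n1128 (.cons 843 n1797 .nil)
noncomputable def n1799 : Strat := .move 880 n1633 (.cons 921 n1798 .nil)
noncomputable def n1800 : Strat := .move 883 n600 (.cons 884 n1799 .nil)
noncomputable def n1801 : Strat := .move 838 n36 (.cons 837 n1771 .nil)
noncomputable def n1802 : Strat := .move 882 n1789 (.cons 838 n1800 (.cons 880 n1626 (.cons 841 n1636 (.cons 883 n1801 .nil))))
noncomputable def n1803 : Strat := .move 841 n35 (.cons 883 n1457 .nil)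
noncomputable def n1804 : Strat := .move 838 n36 (.cons 837 n1803 .nil)
noncomputable def n1805 : Strat := .win 877 5 836
noncomputable def n1806 : Strat := .move 878 n1137 (.cons 841 n1805 .nil)
noncomputable def n1807 : Strat := .move 879 n1124 (.cons 923 n1806 .nil)
noncomputable def n1808 : Strat := .move 924 n1125 (.cons 925 n1807 .nil)
noncomputable def n1809 : Strat := .move 880 n1633 (.cons 921 n1808 .nil)
noncomputable def n1810 : Strat := .move 883 n600 (.cons 884 n1809 .nil)
noncomputable def n1811 : Strat := .move 841 n35 (.cons 883 n1515 .nil)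
noncomputable def n1812 : Strat := .move 838 n36 (.cons 837 n1811 .nil)
noncomputable def n1813 : Strat := .move 838 n36 (.cons 837 n1769 .nil)
noncomputable def n1814 : Strat := .move 882 n1804 (.cons 838 n1810 (.cons 880 n1812 (.cons 841 n1636 (.cons 883 n1813 .nil))))
noncomputable def n1815 : Strat := .move 841 n35 (.cons 883 n1448 .nil)
noncomputable def n1816 : Strat := .move 838 n36 (.cons 837 n1815 .nil)
noncomputable def n1817 : Strat := .move 920 n604 (.cons 919 n1146 .nil)
noncomputable def n1818 : Strat := .move 879 n1127 (.cons 841 n1817 .nil)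
noncomputable def n1819 : Strat := .move 842 n1128 (.cons 843 n1818 .nil)
noncomputable def n1820 : Strat := .move 880 n1628 (.cons 925 n1819 (.cons 843 n1633 .nil))
noncomputable def n1821 : Strat := .move 883 n600 (.cons 884 n1820 .nil)
noncomputable def n1822 : Strat := .move 838 n36 (.cons 837 n1754 .nil)
noncomputable def n1823 : Strat := .move 882 n1816 (.cons 838 n1821 (.cons 880 n1626 (.cons 841 n1636 (.cons 883 n1822 .nil))))
noncomputable def n1824 : Strat := .move 883 n1093 (.cons 841 n1428 .nil)
noncomputable def n1825 : Strat := .move 838 n36 (.cons 837 n1824 .nil)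
noncomputable def n1826 : Strat := .move 838 n1093 (.cons 841 n1428 .nil)
noncomputable def n1827 : Strat := .move 883 n600 (.cons 884 n1826 .nil)
noncomputable def n1828 : Strat := .move 880 n1633 (.cons 962 n1628 .nil)
noncomputable def n1829 : Strat := .move 883 n600 (.cons 884 n1828 .nil)
noncomputable def n1830 : Strat := .move 838 n36 (.cons 837 n1767 .nil)
noncomputable def n1831 : Strat := .move 882 n1626 (.cons 841 n1636 (.cons 884 n1825 (.cons 837 n1827 (.cons 838 n1829 (.cons 883 n1830 .nil)))))
noncomputable def n1832 : Strat := .move 760 n1654 (.cons 719 n1653 .nil)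
noncomputable def n1833 : Strat := .move 801 n268 (.cons 802 n1832 .nil)
noncomputable def n1834 : Strat := .move 841 n42 (.cons 879 n1833 .nil)
noncomputable def n1835 : Strat := .move 842 n1128 (.cons 843 n1834 .nil)
noncomputable def n1836 : Strat := .win 759 6 759
noncomputable def n1837 : Strat := .move 800 n1666 (.cons 965 n1836 .nil)
noncomputable def n1838 : Strat := .move 924 n1125 (.cons 925 n1837 .nil)
noncomputable def n1839 : Strat := .move 841 n42 (.cons 879 n1838 .nil)
noncomputable def n1840 : Strat := .move 842 n1128 (.cons 843 n1839 .nil)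
noncomputable def n1841 : Strat := .move 921 n439 (.cons 758 n1537 .nil)
noncomputable def n1842 : Strat := .move 879 n1126 (.cons 925 n1806 .nil)
noncomputable def n1843 : Strat := .move 921 n1537 (.cons 962 n1842 .nil)
noncomputable def n1844 : Strat := .move 758 n109 (.cons 923 n275 .nil)
noncomputable def n1845 : Strat := .move 799 n1841 (.cons 758 n1843 (.cons 921 n1844 .nil))
noncomputable def n1846 : Strat := .win 879 0 879
noncomputable def n1847 : Strat := .move 801 n1790 (.cons 964 n1791 .nil)
noncomputable def n1848 : Strat := .move 842 n1128 (.cons 843 n1847 .nil)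
noncomputable def n1849 : Strat := .move 923 n1846 (.cons 879 n1848 .nil)
noncomputable def n1850 : Strat := .move 924 n1125 (.cons 925 n1849 .nil)
noncomputable def n1851 : Strat := .move 880 n1835 (.cons 802 n1840 (.cons 842 n1845 (.cons 841 n1850 (.cons 879 n1798 .nil))))
noncomputable def n1852 : Strat := .move 883 n600 (.cons 884 n1851 .nil)
noncomputable def n1853 : Strat := .move 838 n36 (.cons 837 n1428 .nil)
noncomputable def n1854 : Strat := .move 883 n600 (.cons 884 n1853 .nil)
noncomputable def n1855 : Strat := .move 838 n36 (.cons 837 n1760 .nil)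
noncomputable def n1856 : Strat := .move 882 n1626 (.cons 837 n1827 (.cons 884 n1825 (.cons 838 n1852 (.cons 841 n1854 (.cons 883 n1855 .nil)))))
noncomputable def n1857 : Strat := .move 841 n38 (.cons 842 n596 .nil)
noncomputable def n1858 : Strat := .move 878 n1805 (.cons 877 n1137 .nil)
noncomputable def n1859 : Strat := .win 882 4 878
noncomputable def n1860 : Strat := .win 1002 3 838
noncomputable def n1861 : Strat := .win 921 1 797
noncomputable def n1862 : Strat := .move 798 n1861 (.cons 921 n1444 .nil)
noncomputable def n1863 : Strat := .move 961 n1860 (.cons 1002 n1862 .nil)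
noncomputable def n1864 : Strat := .move 920 n1859 (.cons 882 n1863 .nil)
noncomputable def n1865 : Strat := .move 919 n1290 (.cons 918 n1864 .nil)
noncomputable def n1866 : Strat := .move 878 n1805 (.cons 877 n1865 .nil)
noncomputable def n1867 : Strat := .move 882 n109 (.cons 923 n604 .nil)
noncomputable def n1868 : Strat := .move 757 n10 (.cons 716 n603 .nil)
noncomputable def n1869 : Strat := .move 920 n1867 (.cons 919 n1868 .nil)
noncomputable def n1870 : Strat := .move 758 n275 (.cons 717 n1869 .nil)
noncomputable def n1871 : Strat := .move 798 n1681 (.cons 961 n1444 .nil)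
noncomputable def n1872 : Strat := .win 798 1 797
noncomputable def n1873 : Strat := .move 961 n1872 (.cons 798 n1860 .nil)
noncomputable def n1874 : Strat := .move 882 n690 (.cons 883 n604 .nil)
noncomputable def n1875 : Strat := .move 920 n1871 (.cons 757 n1873 (.cons 961 n1874 .nil))
noncomputable def n1876 : Strat := .move 921 n1537 (.cons 962 n1875 .nil)
noncomputable def n1877 : Strat := .move 799 n469 (.cons 921 n1870 (.cons 717 n1841 (.cons 758 n1876 .nil)))
noncomputable def n1878 : Strat := .move 841 n38 (.cons 842 n1877 .nil)
noncomputable def n1879 : Strat := .move 879 n1857 (.cons 842 n1858 (.cons 841 n1866 (.cons 878 n1878 .nil)))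
noncomputable def n1880 : Strat := .win 918 5 877
noncomputable def n1881 : Strat := .win 964 2 919
noncomputable def n1882 : Strat := .move 963 n1881 (.cons 964 n889 .nil)
noncomputable def n1883 : Strat := .move 919 n1880 (.cons 918 n1882 .nil)
noncomputable def n1884 : Strat := .move 920 n1872 (.cons 798 n1883 .nil)
noncomputable def n1885 : Strat := .move 961 n1545 (.cons 1002 n1884 .nil)
noncomputable def n1886 : Strat := .move 962 n1539 (.cons 1003 n1885 .nil)
noncomputable def n1887 : Strat := .move 796 n176 (.cons 841 n1112 .nil)
noncomputable def n1888 : Strat := .move 797 n1115 (.cons 756 n1887 .nil)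
noncomputable def n1889 : Strat := .move 799 n439 (.cons 758 n1888 .nil)
noncomputable def n1890 : Strat := .move 841 n69 (.cons 796 n1482 .nil)
noncomputable def n1891 : Strat := .move 797 n1115 (.cons 756 n1890 .nil)
noncomputable def n1892 : Strat := .move 799 n439 (.cons 758 n1891 .nil)
noncomputable def n1893 : Strat := .move 757 n1483 (.cons 716 n1553 .nil)
noncomputable def n1894 : Strat := .move 757 n1483 (.cons 716 n1549 .nil)
noncomputable def n1895 : Strat := .move 758 n1550 (.cons 799 n1894 .nil)
noncomputable def n1896 : Strat := .move 798 n1889 (.cons 795 n1892 (.cons 799 n1893 (.cons 797 n1895 .nil)))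
noncomputable def n1897 : Strat := .move 921 n1632 (.cons 799 n1886 (.cons 962 n1896 .nil))
noncomputable def n1898 : Strat := .win 961 6 796
noncomputable def n1899 : Strat := .win 755 6 755
noncomputable def n1900 : Strat := .move 796 n1898 (.cons 961 n1899 .nil)
noncomputable def n1901 : Strat := .move 837 n1286 (.cons 836 n1900 .nil)
noncomputable def n1902 : Strat := .move 920 n1859 (.cons 882 n1901 .nil)
noncomputable def n1903 : Strat := .move 919 n1290 (.cons 918 n1902 .nil)
noncomputable def n1904 : Strat := .move 878 n1805 (.cons 877 n1903 .nil)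
noncomputable def n1905 : Strat := .move 923 n1030 (.cons 924 n1641 .nil)
noncomputable def n1906 : Strat := .move 841 n38 (.cons 842 n1905 .nil)
noncomputable def n1907 : Strat := .move 924 n1125 (.cons 925 n1124 .nil)
noncomputable def n1908 : Strat := .move 883 n600 (.cons 884 n1907 .nil)
noncomputable def n1909 : Strat := .move 841 n38 (.cons 842 n1908 .nil)
noncomputable def n1910 : Strat := .move 842 n1128 (.cons 843 n1907 .nil)
noncomputable def n1911 : Strat := .move 883 n600 (.cons 884 n1910 .nil)
noncomputable def n1912 : Strat := .move 883 n600 (.cons 884 n1128 .nil)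
noncomputable def n1913 : Strat := .move 842 n1127 (.cons 841 n1912 .nil)
noncomputable def n1914 : Strat := .win 841 7 799
noncomputable def n1915 : Strat := .move 964 n1914 (.cons 841 n1503 .nil)
noncomputable def n1916 : Strat := .move 799 n353 (.cons 758 n1915 .nil)
noncomputable def n1917 : Strat := .move 923 n1030 (.cons 924 n1916 .nil)
noncomputable def n1918 : Strat := .move 882 n1906 (.cons 964 n1909 (.cons 841 n1911 (.cons 923 n1913 (.cons 842 n1917 .nil))))
noncomputable def n1919 : Strat := .move 879 n1857 (.cons 841 n1904 (.cons 878 n1918 .nil))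
noncomputable def n1920 : Strat := .move 883 n1146 (.cons 921 n600 .nil)
noncomputable def n1921 : Strat := .move 920 n604 (.cons 919 n1920 .nil)
noncomputable def n1922 : Strat := .move 961 n1861 (.cons 921 n1860 .nil)
noncomputable def n1923 : Strat := .move 798 n1444 (.cons 757 n1922 .nil)
noncomputable def n1924 : Strat := .move 920 n604 (.cons 919 n1923 .nil)
noncomputable def n1925 : Strat := .move 882 n1908 (.cons 925 n1921 (.cons 883 n1924 .nil))
noncomputable def n1926 : Strat := .move 841 n38 (.cons 842 n1925 .nil)
noncomputable def n1927 : Strat := .move 879 n1857 (.cons 841 n1866 (.cons 878 n1926 .nil))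
noncomputable def n1928 : Strat := .win 879 1 756
noncomputable def n1929 : Strat := .move 920 n1928 (.cons 879 n1681 .nil)
noncomputable def n1930 : Strat := .move 757 n1483 (.cons 716 n1929 .nil)
noncomputable def n1931 : Strat := .win 879 4 878
noncomputable def n1932 : Strat := .move 919 n1931 (.cons 879 n1880 .nil)
noncomputable def n1933 : Strat := .move 882 n690 (.cons 883 n1932 .nil)
noncomputable def n1934 : Strat := .move 920 n1681 (.cons 961 n1933 .nil)
noncomputable def n1935 : Strat := .move 756 n637 (.cons 715 n1552 .nil)
noncomputable def n1936 : Strat := .move 757 n1483 (.cons 716 n1935 .nil)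
noncomputable def n1937 : Strat := .move 798 n1930 (.cons 757 n1934 (.cons 961 n1936 .nil))
noncomputable def n1938 : Strat := .move 799 n1537 (.cons 962 n1937 .nil)
noncomputable def n1939 : Strat := .move 799 n439 (.cons 758 n1937 .nil)
noncomputable def n1940 : Strat := .move 921 n1632 (.cons 758 n1938 (.cons 799 n1886 (.cons 962 n1939 .nil)))
noncomputable def n1941 : Strat := .move 798 n1888 (.cons 795 n1930 .nil)
noncomputable def n1942 : Strat := .move 921 n1537 (.cons 962 n1941 .nil)
noncomputable def n1943 : Strat := .win 798 7 715
noncomputable def n1944 : Strat := .move 715 n307 (.cons 714 n1943 .nil)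
noncomputable def n1945 : Strat := .move 756 n302 (.cons 755 n1944 .nil)
noncomputable def n1946 : Strat := .move 759 n96 (.cons 718 n1945 .nil)
noncomputable def n1947 : Strat := .move 757 n10 (.cons 716 n1946 .nil)
noncomputable def n1948 : Strat := .move 758 n275 (.cons 717 n1947 .nil)
noncomputable def n1949 : Strat := .move 799 n469 (.cons 717 n1841 (.cons 758 n1942 (.cons 921 n1948 .nil)))
noncomputable def n1950 : Strat := .win 966 6 801
noncomputable def n1951 : Strat := .win 882 0 880
noncomputable def n1952 : Strat := .move 925 n1950 (.cons 966 n1951 .nil)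
noncomputable def n1953 : Strat := .move 800 n1665 (.cons 759 n1666 .nil)
noncomputable def n1954 : Strat := .move 924 n1952 (.cons 882 n1953 .nil)
noncomputable def n1955 : Strat := .move 801 n268 (.cons 802 n1954 .nil)
noncomputable def n1956 : Strat := .move 883 n265 (.cons 884 n1955 .nil)
noncomputable def n1957 : Strat := .move 842 n41 (.cons 843 n1956 .nil)
noncomputable def n1958 : Strat := .move 923 n1501 (.cons 964 n1030 .nil)
noncomputable def n1959 : Strat := .move 883 n1038 (.cons 920 n600 .nil)
noncomputable def n1960 : Strat := .move 882 n1958 (.cons 924 n1959 .nil)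
noncomputable def n1961 : Strat := .move 921 n1537 (.cons 962 n1960 .nil)
noncomputable def n1962 : Strat := .move 799 n469 (.cons 758 n1961 (.cons 921 n1870 .nil))
noncomputable def n1963 : Strat := .move 879 n596 (.cons 878 n1962 .nil)
noncomputable def n1964 : Strat := .move 841 n446 (.cons 843 n1352 (.cons 879 n1957 (.cons 842 n1963 .nil)))
noncomputable def n1965 : Strat := .move 799 n373 (.cons 921 n640 .nil)
noncomputable def n1966 : Strat := .move 758 n1549 (.cons 717 n1965 .nil)
noncomputable def n1967 : Strat := .move 757 n1483 (.cons 716 n1966 .nil)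
noncomputable def n1968 : Strat := .move 842 n42 (.cons 879 n125 .nil)
noncomputable def n1969 : Strat := .move 921 n1115 (.cons 756 n1537 .nil)
noncomputable def n1970 : Strat := .move 797 n69 (.cons 796 n1969 .nil)
noncomputable def n1971 : Strat := .move 841 n1968 (.cons 879 n1059 (.cons 842 n1970 .nil))
noncomputable def n1972 : Strat := .win 800 5 756
noncomputable def n1973 : Strat := .move 760 n1972 (.cons 800 n197 .nil)
noncomputable def n1974 : Strat := .move 797 n143 (.cons 796 n1973 .nil)
noncomputable def n1975 : Strat := .move 759 n96 (.cons 718 n1974 .nil)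
noncomputable def n1976 : Strat := .move 758 n275 (.cons 717 n1975 .nil)
noncomputable def n1977 : Strat := .move 799 n469 (.cons 717 n1841 (.cons 758 n1971 (.cons 921 n1976 .nil)))
noncomputable def n1978 : Strat := .move 797 n303 (.cons 796 n142 .nil)
noncomputable def n1979 : Strat := .win 719 5 715
noncomputable def n1980 : Strat := .win 799 3 717
noncomputable def n1981 : Strat := .move 718 n1979 (.cons 719 n1980 .nil)
noncomputable def n1982 : Strat := .move 759 n1978 (.cons 760 n1981 .nil)
noncomputable def n1983 : Strat := .move 756 n637 (.cons 715 n1982 .nil)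
noncomputable def n1984 : Strat := .move 758 n1549 (.cons 717 n1983 .nil)
noncomputable def n1985 : Strat := .move 757 n1483 (.cons 716 n1984 .nil)
noncomputable def n1986 : Strat := .move 921 n1552 (.cons 797 n1538 .nil)
noncomputable def n1987 : Strat := .move 756 n637 (.cons 715 n1986 .nil)
noncomputable def n1988 : Strat := .move 757 n1483 (.cons 716 n1987 .nil)
noncomputable def n1989 : Strat := .move 759 n96 (.cons 718 n305 .nil)
noncomputable def n1990 : Strat := .move 799 n373 (.cons 921 n1989 .nil)
noncomputable def n1991 : Strat := .move 758 n1549 (.cons 717 n1990 .nil)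
noncomputable def n1992 : Strat := .move 757 n1483 (.cons 716 n1991 .nil)
noncomputable def n1993 : Strat := .win 921 7 756
noncomputable def n1994 : Strat := .move 759 n303 (.cons 796 n142 .nil)
noncomputable def n1995 : Strat := .move 797 n1993 (.cons 921 n1994 .nil)
noncomputable def n1996 : Strat := .move 756 n637 (.cons 715 n1995 .nil)
noncomputable def n1997 : Strat := .move 758 n1549 (.cons 717 n1996 .nil)
noncomputable def n1998 : Strat := .move 757 n1483 (.cons 716 n1997 .nil)
noncomputable def n1999 : Strat := .win 799 0 796
noncomputable def n2000 : Strat := .move 796 n1999 (.cons 799 n1112 .nil)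
noncomputable def n2001 : Strat := .move 841 n1482 (.cons 842 n2000 .nil)
noncomputable def n2002 : Strat := .move 797 n1993 (.cons 921 n2001 .nil)
noncomputable def n2003 : Strat := .move 756 n637 (.cons 715 n2002 .nil)
noncomputable def n2004 : Strat := .move 757 n1483 (.cons 716 n2003 .nil)
noncomputable def n2005 : Strat := .move 798 n1967 (.cons 757 n1977 (.cons 921 n1985 (.cons 717 n1988 (.cons 756 n1992 (.cons 799 n1998 (.cons 758 n2004 .nil))))))
noncomputable def n2006 : Strat := .move 880 n1879 (.cons 879 n1897 (.cons 921 n1919 (.cons 799 n1927 (.cons 841 n1940 (.cons 919 n1949 (.cons 961 n1964 (.cons 920 n2005 .nil)))))))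
noncomputable def n2007 : Strat := .move 837 n896 (.cons 882 n895 .nil)
noncomputable def n2008 : Strat := .win 798 3 797
noncomputable def n2009 : Strat := .move 961 n2008 (.cons 798 n1860 .nil)
noncomputable def n2010 : Strat := .move 920 n604 (.cons 919 n2009 .nil)
noncomputable def n2011 : Strat := .move 882 n598 (.cons 883 n2010 .nil)
noncomputable def n2012 : Strat := .win 920 6 755
noncomputable def n2013 : Strat := .win 714 6 714
noncomputable def n2014 : Strat := .move 755 n2012 (.cons 920 n2013 .nil)
noncomputable def n2015 : Strat := .move 796 n1218 (.cons 795 n2014 .nil)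
noncomputable def n2016 : Strat := .move 878 n1217 (.cons 877 n2015 .nil)
noncomputable def n2017 : Strat := .move 837 n895 (.cons 836 n2016 .nil)
noncomputable def n2018 : Strat := .move 838 n2007 (.cons 837 n2011 (.cons 882 n2017 .nil))
noncomputable def n2019 : Strat := .move 920 n1898 (.cons 961 n1899 .nil)
noncomputable def n2020 : Strat := .win 754 7 754
noncomputable def n2021 : Strat := .win 838 2 795
noncomputable def n2022 : Strat := .move 795 n2020 (.cons 754 n2021 .nil)
noncomputable def n2023 : Strat := .move 796 n2019 (.cons 755 n2022 .nil)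
noncomputable def n2024 : Strat := .move 919 n1290 (.cons 918 n2023 .nil)
noncomputable def n2025 : Strat := .move 837 n1286 (.cons 836 n2024 .nil)
noncomputable def n2026 : Strat := .move 878 n1805 (.cons 877 n2025 .nil)
noncomputable def n2027 : Strat := .move 758 n373 (.cons 921 n275 .nil)
noncomputable def n2028 : Strat := .move 799 n1469 (.cons 800 n2027 .nil)
noncomputable def n2029 : Strat := .move 838 n896 (.cons 882 n2028 .nil)
noncomputable def n2030 : Strat := .move 837 n1286 (.cons 836 n2029 .nil)
noncomputable def n2031 : Strat := .move 878 n1805 (.cons 877 n2030 .nil)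
noncomputable def n2032 : Strat := .move 838 n36 (.cons 837 n2010 .nil)
noncomputable def n2033 : Strat := .move 883 n600 (.cons 884 n1146 .nil)
noncomputable def n2034 : Strat := .move 920 n604 (.cons 919 n2033 .nil)
noncomputable def n2035 : Strat := .move 882 n1318 (.cons 883 n2032 (.cons 837 n602 (.cons 838 n2034 .nil)))
noncomputable def n2036 : Strat := .move 879 n2018 (.cons 838 n1866 (.cons 882 n2026 (.cons 961 n2031 (.cons 878 n2035 .nil))))
noncomputable def n2037 : Strat := .move 883 n600 (.cons 884 n1850 .nil)
noncomputable def n2038 : Strat := .move 878 n1805 (.cons 877 n1292 .nil)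
noncomputable def n2039 : Strat := .move 838 n36 (.cons 837 n2038 .nil)
noncomputable def n2040 : Strat := .move 837 n1286 (.cons 836 n1292 .nil)
noncomputable def n2041 : Strat := .move 878 n1805 (.cons 877 n2040 .nil)
noncomputable def n2042 : Strat := .win 838 0 837
noncomputable def n2043 : Strat := .move 878 n1805 (.cons 877 n1286 .nil)
noncomputable def n2044 : Strat := .move 837 n2042 (.cons 838 n2043 .nil)
noncomputable def n2045 : Strat := .win 838 3 797
noncomputable def n2046 : Strat := .move 961 n2045 (.cons 838 n1860 .nil)
noncomputable def n2047 : Strat := .move 798 n1444 (.cons 757 n2046 .nil)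
noncomputable def n2048 : Strat := .move 920 n604 (.cons 919 n2047 .nil)
noncomputable def n2049 : Strat := .move 879 n2032 (.cons 961 n2039 (.cons 838 n2041 (.cons 919 n2044 (.cons 837 n2048 .nil))))
noncomputable def n2050 : Strat := .move 882 n1318 (.cons 838 n2037 (.cons 883 n2049 .nil))
noncomputable def n2051 : Strat := .move 962 n1540 (.cons 799 n1539 .nil)
noncomputable def n2052 : Strat := .move 838 n894 (.cons 797 n2007 .nil)
noncomputable def n2053 : Strat := .move 962 n1539 (.cons 1003 n2052 .nil)
noncomputable def n2054 : Strat := .move 838 n895 (.cons 836 n896 .nil)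
noncomputable def n2055 : Strat := .win 800 4 796
noncomputable def n2056 : Strat := .move 838 n2055 (.cons 800 n895 .nil)
noncomputable def n2057 : Strat := .move 838 n2055 (.cons 800 n896 .nil)
noncomputable def n2058 : Strat := .move 796 n182 (.cons 836 n1112 .nil)
noncomputable def n2059 : Strat := .move 837 n2054 (.cons 882 n2056 (.cons 836 n2057 (.cons 838 n2058 .nil)))
noncomputable def n2060 : Strat := .move 797 n1115 (.cons 756 n2059 .nil)
noncomputable def n2061 : Strat := .move 798 n1930 (.cons 879 n1936 (.cons 757 n2060 .nil))
noncomputable def n2062 : Strat := .move 799 n439 (.cons 758 n2061 .nil)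
noncomputable def n2063 : Strat := .move 921 n2051 (.cons 799 n2053 (.cons 1003 n1632 (.cons 962 n2062 .nil)))
noncomputable def n2064 : Strat := .move 882 n36 (.cons 837 n598 .nil)
noncomputable def n2065 : Strat := .move 838 n894 (.cons 797 n2064 .nil)
noncomputable def n2066 : Strat := .move 962 n1539 (.cons 1003 n2065 .nil)
noncomputable def n2067 : Strat := .move 799 n439 (.cons 758 n1936 .nil)
noncomputable def n2068 : Strat := .move 799 n439 (.cons 758 n2060 .nil)
noncomputable def n2069 : Strat := .move 798 n2067 (.cons 716 n2068 (.cons 799 n1893 (.cons 797 n1895 .nil)))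
noncomputable def n2070 : Strat := .move 921 n2051 (.cons 799 n2066 (.cons 1003 n1632 (.cons 962 n2069 .nil)))
noncomputable def n2071 : Strat := .win 838 7 797
noncomputable def n2072 : Strat := .move 797 n1115 (.cons 756 n2071 .nil)
noncomputable def n2073 : Strat := .move 962 n1539 (.cons 1003 n2072 .nil)
noncomputable def n2074 : Strat := .move 799 n439 (.cons 758 n1934 .nil)
noncomputable def n2075 : Strat := .move 921 n1632 (.cons 799 n2073 (.cons 962 n2074 .nil))
noncomputable def n2076 : Strat := .move 879 n604 (.cons 919 n1907 .nil)
noncomputable def n2077 : Strat := .move 920 n1146 (.cons 921 n2076 .nil)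
noncomputable def n2078 : Strat := .move 883 n600 (.cons 884 n2077 .nil)
noncomputable def n2079 : Strat := .move 962 n894 (.cons 797 n1539 .nil)
noncomputable def n2080 : Strat := .move 797 n1116 (.cons 962 n1115 .nil)
noncomputable def n2081 : Strat := .move 919 n1880 (.cons 918 n1931 .nil)
noncomputable def n2082 : Strat := .move 920 n1681 (.cons 961 n2081 .nil)
noncomputable def n2083 : Strat := .move 921 n2079 (.cons 1003 n2080 (.cons 797 n2082 .nil))
noncomputable def n2084 : Strat := .move 838 n36 (.cons 837 n2083 .nil)
noncomputable def n2085 : Strat := .move 882 n1318 (.cons 838 n2078 (.cons 883 n2084 .nil))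
noncomputable def n2086 : Strat := .win 759 5 756
noncomputable def n2087 : Strat := .move 797 n2086 (.cons 759 n1115 .nil)
noncomputable def n2088 : Strat := .move 801 n134 (.cons 761 n74 .nil)
noncomputable def n2089 : Strat := .move 760 n2087 (.cons 756 n2088 .nil)
noncomputable def n2090 : Strat := .move 921 n1537 (.cons 962 n2089 .nil)
noncomputable def n2091 : Strat := .win 838 5 796
noncomputable def n2092 : Strat := .move 756 n78 (.cons 755 n1993 .nil)
noncomputable def n2093 : Strat := .move 797 n1969 (.cons 962 n2092 (.cons 756 n2058 .nil))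
noncomputable def n2094 : Strat := .move 837 n2091 (.cons 838 n2093 .nil)
noncomputable def n2095 : Strat := .move 800 n167 (.cons 838 n2090 (.cons 801 n2094 .nil))
noncomputable def n2096 : Strat := .move 799 n1841 (.cons 921 n1976 (.cons 758 n2095 .nil))
noncomputable def n2097 : Strat := .move 921 n1632 (.cons 962 n2074 (.cons 758 n2051 (.cons 799 n1934 .nil)))
noncomputable def n2098 : Strat := .move 879 n2038 (.cons 878 n1908 .nil)
noncomputable def n2099 : Strat := .move 838 n36 (.cons 837 n1103 .nil)
noncomputable def n2100 : Strat := .move 878 n1286 (.cons 836 n1805 .nil)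
noncomputable def n2101 : Strat := .move 837 n2042 (.cons 838 n2100 .nil)
noncomputable def n2102 : Strat := .move 879 n2099 (.cons 961 n2101 (.cons 838 n2038 .nil))
noncomputable def n2103 : Strat := .move 882 n1318 (.cons 838 n2098 (.cons 883 n2102 .nil))
noncomputable def n2104 : Strat := .move 798 n2075 (.cons 799 n2085 (.cons 882 n2096 (.cons 838 n2097 (.cons 921 n2103 .nil))))
noncomputable def n2105 : Strat := .move 920 n1681 (.cons 961 n1928 .nil)
noncomputable def n2106 : Strat := .move 921 n1550 (.cons 799 n2105 .nil)
noncomputable def n2107 : Strat := .move 758 n1549 (.cons 717 n2106 .nil)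
noncomputable def n2108 : Strat := .move 757 n1483 (.cons 716 n2107 .nil)
noncomputable def n2109 : Strat := .move 758 n1550 (.cons 799 n2105 .nil)
noncomputable def n2110 : Strat := .move 921 n2109 (.cons 799 n1929 (.cons 879 n1632 .nil))
noncomputable def n2111 : Strat := .move 757 n1483 (.cons 716 n2110 .nil)
noncomputable def n2112 : Strat := .move 921 n1552 (.cons 797 n1541 .nil)
noncomputable def n2113 : Strat := .move 756 n637 (.cons 715 n2112 .nil)
noncomputable def n2114 : Strat := .move 757 n1483 (.cons 716 n2113 .nil)
noncomputable def n2115 : Strat := .move 921 n1552 (.cons 797 n2105 .nil)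
noncomputable def n2116 : Strat := .move 756 n637 (.cons 715 n2115 .nil)
noncomputable def n2117 : Strat := .move 757 n1483 (.cons 716 n2116 .nil)
noncomputable def n2118 : Strat := .move 798 n2108 (.cons 757 n2096 (.cons 717 n2111 (.cons 921 n1985 (.cons 758 n2114 (.cons 799 n2117 .nil)))))
noncomputable def n2119 : Strat := .move 883 n600 (.cons 884 n1633 .nil)
noncomputable def n2120 : Strat := .move 921 n1539 (.cons 1003 n1540 .nil)
noncomputable def n2121 : Strat := .win 797 6 797
noncomputable def n2122 : Strat := .move 921 n2121 (.cons 797 n1539 .nil)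
noncomputable def n2123 : Strat := .move 921 n2121 (.cons 797 n1540 .nil)
noncomputable def n2124 : Strat := .win 1003 6 838
noncomputable def n2125 : Strat := .move 961 n2124 (.cons 1003 n1860 .nil)
noncomputable def n2126 : Strat := .move 962 n2120 (.cons 799 n2122 (.cons 1003 n2123 (.cons 921 n2125 .nil)))
noncomputable def n2127 : Strat := .move 920 n604 (.cons 919 n2126 .nil)
noncomputable def n2128 : Strat := .move 838 n36 (.cons 837 n2127 .nil)
noncomputable def n2129 : Strat := .move 919 n1291 (.cons 920 n1290 .nil)
noncomputable def n2130 : Strat := .move 878 n1805 (.cons 877 n2129 .nil)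
noncomputable def n2131 : Strat := .move 879 n2128 (.cons 1002 n2039 (.cons 919 n2044 (.cons 838 n2130 .nil)))
noncomputable def n2132 : Strat := .move 882 n1318 (.cons 838 n2119 (.cons 883 n2131 .nil))
noncomputable def n2133 : Strat := .move 880 n2036 (.cons 921 n2050 (.cons 838 n1940 (.cons 883 n2063 (.cons 879 n2070 (.cons 757 n2104 (.cons 882 n2118 (.cons 798 n2132 .nil)))))))
noncomputable def n2134 : Strat := .move 839 n1464 (.cons 880 n1522 (.cons 882 n1625 (.cons 798 n1646 (.cons 837 n1751 (.cons 883 n1787 (.cons 879 n1802 (.cons 842 n1814 (.cons 797 n1823 (.cons 801 n1831 (.cons 920 n1856 (.cons 838 n2006 (.cons 841 n2133 .nil))))))))))))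
noncomputable def n2135 : Strat := .move 839 n600 (.cons 884 n1094 .nil)
noncomputable def n2136 : Strat := .move 879 n604 (.cons 919 n1126 .nil)
noncomputable def n2137 : Strat := .move 920 n1146 (.cons 921 n2136 .nil)
noncomputable def n2138 : Strat := .move 880 n601 (.cons 838 n2137 .nil)
noncomputable def n2139 : Strat := .move 839 n600 (.cons 884 n2138 .nil)
noncomputable def n2140 : Strat := .win 922 6 757
noncomputable def n2141 : Strat := .move 757 n2140 (.cons 922 n1483 .nil)
noncomputable def n2142 : Strat := .move 798 n249 (.cons 797 n2141 .nil)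
noncomputable def n2143 : Strat := .move 841 n42 (.cons 879 n2142 .nil)
noncomputable def n2144 : Strat := .move 842 n1128 (.cons 843 n2143 .nil)
noncomputable def n2145 : Strat := .move 922 n1101 (.cons 757 n1311 .nil)
noncomputable def n2146 : Strat := .move 797 n1115 (.cons 756 n1141 .nil)
noncomputable def n2147 : Strat := .move 798 n2141 (.cons 716 n2145 (.cons 922 n2146 .nil))
noncomputable def n2148 : Strat := .move 921 n1038 (.cons 920 n2147 .nil)
noncomputable def n2149 : Strat := .move 842 n1128 (.cons 843 n2148 .nil)
noncomputable def n2150 : Strat := .move 880 n2144 (.cons 841 n2137 (.cons 879 n2149 .nil))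
noncomputable def n2151 : Strat := .move 839 n600 (.cons 884 n2150 .nil)
noncomputable def n2152 : Strat := .move 839 n601 (.cons 838 n2144 .nil)
noncomputable def n2153 : Strat := .move 839 n2144 (.cons 841 n2137 (.cons 879 n2149 .nil))
noncomputable def n2154 : Strat := .move 839 n601 (.cons 838 n2137 .nil)
noncomputable def n2155 : Strat := .move 839 n601 (.cons 838 n2149 .nil)
noncomputable def n2156 : Strat := .move 879 n1295 (.cons 841 n1907 .nil)
noncomputable def n2157 : Strat := .move 842 n1128 (.cons 843 n2156 .nil)
noncomputable def n2158 : Strat := .move 880 n2152 (.cons 838 n2153 (.cons 841 n2154 (.cons 879 n2155 (.cons 839 n2157 .nil))))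
noncomputable def n2159 : Strat := .win 879 5 838
noncomputable def n2160 : Strat := .move 841 n2159 (.cons 879 n1838 .nil)
noncomputable def n2161 : Strat := .move 842 n1128 (.cons 843 n2160 .nil)
noncomputable def n2162 : Strat := .move 879 n1126 (.cons 925 n597 .nil)
noncomputable def n2163 : Strat := .move 922 n493 (.cons 884 n2162 .nil)
noncomputable def n2164 : Strat := .move 921 n1038 (.cons 920 n2163 .nil)
noncomputable def n2165 : Strat := .win 885 2 840
noncomputable def n2166 : Strat := .win 922 4 880
noncomputable def n2167 : Strat := .move 921 n2166 (.cons 922 n1038 .nil)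
noncomputable def n2168 : Strat := .move 884 n2165 (.cons 885 n2167 .nil)
noncomputable def n2169 : Strat := .move 841 n2159 (.cons 879 n2168 .nil)
noncomputable def n2170 : Strat := .move 842 n1128 (.cons 843 n2169 .nil)
noncomputable def n2171 : Strat := .move 841 n1838 (.cons 924 n2168 .nil)
noncomputable def n2172 : Strat := .move 842 n1128 (.cons 843 n2171 .nil)
noncomputable def n2173 : Strat := .move 879 n1124 (.cons 923 n1260 .nil)
noncomputable def n2174 : Strat := .move 924 n1125 (.cons 925 n2173 .nil)
noncomputable def n2175 : Strat := .move 922 n493 (.cons 884 n2174 .nil)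
noncomputable def n2176 : Strat := .move 921 n1038 (.cons 920 n2175 .nil)
noncomputable def n2177 : Strat := .win 961 4 920
noncomputable def n2178 : Strat := .move 962 n2177 (.cons 961 n1539 .nil)
noncomputable def n2179 : Strat := .move 923 n1846 (.cons 879 n2178 .nil)
noncomputable def n2180 : Strat := .move 924 n1125 (.cons 925 n2179 .nil)
noncomputable def n2181 : Strat := .move 922 n493 (.cons 884 n2180 .nil)
noncomputable def n2182 : Strat := .move 921 n1038 (.cons 920 n2181 .nil)
noncomputable def n2183 : Strat := .move 880 n2161 (.cons 843 n2164 (.cons 924 n2170 (.cons 879 n2172 (.cons 842 n2176 (.cons 841 n2182 .nil)))))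
noncomputable def n2184 : Strat := .move 882 n2135 (.cons 841 n2139 (.cons 838 n2151 (.cons 884 n2158 (.cons 839 n2183 .nil))))
noncomputable def n2185 : Strat := .move 880 n1128 (.cons 843 n2160 .nil)
noncomputable def n2186 : Strat := .move 880 n2159 (.cons 879 n1838 .nil)
noncomputable def n2187 : Strat := .win 922 1 758
noncomputable def n2188 : Strat := .move 759 n283 (.cons 718 n2187 .nil)
noncomputable def n2189 : Strat := .win 759 1 758
noncomputable def n2190 : Strat := .move 922 n2189 (.cons 759 n261 .nil)
noncomputable def n2191 : Strat := .win 921 4 880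
noncomputable def n2192 : Strat := .move 884 n2191 (.cons 921 n2165 .nil)
noncomputable def n2193 : Strat := .move 922 n261 (.cons 963 n2192 .nil)
noncomputable def n2194 : Strat := .move 759 n283 (.cons 718 n1743 .nil)
noncomputable def n2195 : Strat := .move 800 n2188 (.cons 718 n2190 (.cons 759 n2193 (.cons 922 n2194 .nil)))
noncomputable def n2196 : Strat := .move 880 n2159 (.cons 879 n2168 .nil)
noncomputable def n2197 : Strat := .move 841 n2186 (.cons 880 n2195 (.cons 924 n2196 .nil))
noncomputable def n2198 : Strat := .win 924 1 760
noncomputable def n2199 : Strat := .win 720 1 719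
noncomputable def n2200 : Strat := .move 761 n2198 (.cons 924 n2199 .nil)
noncomputable def n2201 : Strat := .move 802 n1575 (.cons 803 n2200 .nil)
noncomputable def n2202 : Strat := .move 843 n563 (.cons 844 n2201 .nil)
noncomputable def n2203 : Strat := .move 841 n2165 (.cons 885 n2202 .nil)
noncomputable def n2204 : Strat := .win 844 5 840
noncomputable def n2205 : Strat := .win 965 3 801
noncomputable def n2206 : Strat := .win 761 1 760
noncomputable def n2207 : Strat := .move 924 n2205 (.cons 965 n2206 .nil)
noncomputable def n2208 : Strat := .win 925 6 760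
noncomputable def n2209 : Strat := .move 801 n2208 (.cons 925 n1653 .nil)
noncomputable def n2210 : Strat := .win 719 6 719
noncomputable def n2211 : Strat := .move 801 n2210 (.cons 719 n2208 .nil)
noncomputable def n2212 : Strat := .move 801 n2210 (.cons 719 n1653 .nil)
noncomputable def n2213 : Strat := .win 719 7 719
noncomputable def n2214 : Strat := .move 761 n2213 (.cons 719 n2199 .nil)
noncomputable def n2215 : Strat := .move 760 n2209 (.cons 923 n2211 (.cons 925 n2212 (.cons 801 n2214 .nil)))
noncomputable def n2216 : Strat := .win 801 7 801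
noncomputable def n2217 : Strat := .win 1007 7 842
noncomputable def n2218 : Strat := .move 966 n2216 (.cons 801 n2217 .nil)
noncomputable def n2219 : Strat := .win 966 7 801
noncomputable def n2220 : Strat := .win 760 6 760
noncomputable def n2221 : Strat := .move 801 n2219 (.cons 966 n2220 .nil)
noncomputable def n2222 : Strat := .win 762 3 761
noncomputable def n2223 : Strat := .win 841 5 799
noncomputable def n2224 : Strat := .move 803 n2222 (.cons 762 n2223 .nil)
noncomputable def n2225 : Strat := .move 925 n2218 (.cons 1007 n2221 (.cons 801 n2224 .nil))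
noncomputable def n2226 : Strat := .move 802 n2200 (.cons 720 n2207 (.cons 924 n2215 (.cons 761 n2225 .nil)))
noncomputable def n2227 : Strat := .move 843 n2204 (.cons 844 n2226 .nil)
noncomputable def n2228 : Strat := .move 800 n261 (.cons 963 n2189 .nil)
noncomputable def n2229 : Strat := .move 922 n2191 (.cons 921 n2228 .nil)
noncomputable def n2230 : Strat := .move 843 n563 (.cons 844 n2229 .nil)
noncomputable def n2231 : Strat := .move 841 n2165 (.cons 885 n2230 .nil)
noncomputable def n2232 : Strat := .move 760 n2208 (.cons 925 n1653 .nil)
noncomputable def n2233 : Strat := .move 760 n2210 (.cons 719 n2208 .nil)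
noncomputable def n2234 : Strat := .move 760 n2210 (.cons 719 n1653 .nil)
noncomputable def n2235 : Strat := .win 885 4 881
noncomputable def n2236 : Strat := .move 922 n2235 (.cons 885 n2191 .nil)
noncomputable def n2237 : Strat := .win 924 1 800
noncomputable def n2238 : Strat := .win 1005 3 841
noncomputable def n2239 : Strat := .move 964 n2237 (.cons 924 n2238 .nil)
noncomputable def n2240 : Strat := .move 923 n2236 (.cons 921 n2239 .nil)
noncomputable def n2241 : Strat := .move 801 n2232 (.cons 923 n2233 (.cons 925 n2234 (.cons 760 n2240 .nil)))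
noncomputable def n2242 : Strat := .move 843 n2204 (.cons 844 n2241 .nil)
noncomputable def n2243 : Strat := .win 841 2 840
noncomputable def n2244 : Strat := .win 923 4 881
noncomputable def n2245 : Strat := .move 922 n2191 (.cons 921 n2244 .nil)
noncomputable def n2246 : Strat := .move 885 n2243 (.cons 841 n2245 .nil)
noncomputable def n2247 : Strat := .move 884 n2203 (.cons 885 n2227 (.cons 803 n2231 (.cons 841 n2242 (.cons 843 n2246 .nil))))
noncomputable def n2248 : Strat := .move 923 n1846 (.cons 879 n1847 .nil)
noncomputable def n2249 : Strat := .move 924 n1125 (.cons 925 n2248 .nil)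
noncomputable def n2250 : Strat := .move 921 n1038 (.cons 920 n2249 .nil)
noncomputable def n2251 : Strat := .move 880 n1128 (.cons 843 n2250 .nil)
noncomputable def n2252 : Strat := .move 880 n1128 (.cons 843 n2169 .nil)
noncomputable def n2253 : Strat := .move 882 n2185 (.cons 843 n2197 (.cons 880 n2247 (.cons 841 n2251 (.cons 924 n2252 .nil))))
noncomputable def n2254 : Strat := .win 841 4 839
noncomputable def n2255 : Strat := .win 882 5 839
noncomputable def n2256 : Strat := .move 880 n2254 (.cons 841 n2255 .nil)
noncomputable def n2257 : Strat := .win 880 5 839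
noncomputable def n2258 : Strat := .win 845 4 841
noncomputable def n2259 : Strat := .win 884 5 840
noncomputable def n2260 : Strat := .move 844 n2258 (.cons 845 n2259 .nil)
noncomputable def n2261 : Strat := .move 882 n2257 (.cons 880 n2260 .nil)
noncomputable def n2262 : Strat := .win 882 4 840
noncomputable def n2263 : Strat := .win 804 5 800
noncomputable def n2264 : Strat := .win 802 5 799
noncomputable def n2265 : Strat := .move 803 n2263 (.cons 804 n2264 .nil)
noncomputable def n2266 : Strat := .move 844 n2262 (.cons 882 n2265 .nil)
noncomputable def n2267 : Strat := .move 841 n1331 (.cons 885 n2266 .nil)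
noncomputable def n2268 : Strat := .move 882 n2204 (.cons 844 n2191 .nil)
noncomputable def n2269 : Strat := .move 802 n2206 (.cons 761 n2205 .nil)
noncomputable def n2270 : Strat := .move 760 n2208 (.cons 925 n2210 .nil)
noncomputable def n2271 : Strat := .move 925 n1950 (.cons 966 n2220 .nil)
noncomputable def n2272 : Strat := .win 921 5 880
noncomputable def n2273 : Strat := .move 923 n1790 (.cons 964 n2272 .nil)
noncomputable def n2274 : Strat := .move 801 n2270 (.cons 719 n2271 (.cons 925 n2273 .nil))
noncomputable def n2275 : Strat := .move 924 n2269 (.cons 965 n2274 .nil)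
noncomputable def n2276 : Strat := .win 882 5 840
noncomputable def n2277 : Strat := .move 925 n2219 (.cons 966 n2220 .nil)
noncomputable def n2278 : Strat := .win 800 2 800
noncomputable def n2279 : Strat := .win 846 4 842
noncomputable def n2280 : Strat := .move 845 n2278 (.cons 800 n2279 .nil)
noncomputable def n2281 : Strat := .move 801 n2270 (.cons 719 n2277 (.cons 925 n2280 .nil))
noncomputable def n2282 : Strat := .move 844 n2276 (.cons 882 n2281 .nil)
noncomputable def n2283 : Strat := .move 922 n2268 (.cons 882 n2275 (.cons 921 n2282 .nil))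
noncomputable def n2284 : Strat := .win 841 0 840
noncomputable def n2285 : Strat := .move 882 n2244 (.cons 923 n2191 .nil)
noncomputable def n2286 : Strat := .move 885 n2284 (.cons 841 n2285 .nil)
noncomputable def n2287 : Strat := .move 841 n1331 (.cons 885 n2201 .nil)
noncomputable def n2288 : Strat := .win 923 5 880
noncomputable def n2289 : Strat := .win 882 4 880
noncomputable def n2290 : Strat := .move 921 n2288 (.cons 923 n2289 .nil)
noncomputable def n2291 : Strat := .move 924 n2269 (.cons 965 n2290 .nil)
noncomputable def n2292 : Strat := .move 922 n2286 (.cons 923 n2287 (.cons 885 n2291 .nil))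
noncomputable def n2293 : Strat := .win 887 2 842
noncomputable def n2294 : Strat := .win 923 4 882
noncomputable def n2295 : Strat := .move 924 n2294 (.cons 923 n2269 .nil)
noncomputable def n2296 : Strat := .move 886 n2293 (.cons 887 n2295 .nil)
noncomputable def n2297 : Strat := .move 885 n2284 (.cons 841 n2296 .nil)
noncomputable def n2298 : Strat := .move 922 n2244 (.cons 923 n2191 .nil)
noncomputable def n2299 : Strat := .move 885 n2284 (.cons 841 n2298 .nil)
noncomputable def n2300 : Strat := .move 882 n2204 (.cons 844 n2299 .nil)
noncomputable def n2301 : Strat := .move 884 n2267 (.cons 841 n2283 (.cons 844 n2292 (.cons 882 n2297 (.cons 802 n2300 .nil))))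
noncomputable def n2302 : Strat := .move 884 n1331 (.cons 885 n2200 .nil)
noncomputable def n2303 : Strat := .move 802 n1575 (.cons 803 n2302 .nil)
noncomputable def n2304 : Strat := .move 841 n472 (.cons 880 n2303 .nil)
noncomputable def n2305 : Strat := .move 843 n2256 (.cons 841 n2261 (.cons 880 n2301 (.cons 882 n2304 .nil)))
noncomputable def n2306 : Strat := .move 882 n1128 (.cons 843 n2156 .nil)
noncomputable def n2307 : Strat := .win 802 3 801
noncomputable def n2308 : Strat := .win 1005 1 841
noncomputable def n2309 : Strat := .win 923 1 800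
noncomputable def n2310 : Strat := .move 964 n2308 (.cons 1005 n2309 .nil)
noncomputable def n2311 : Strat := .win 1007 6 842
noncomputable def n2312 : Strat := .win 925 6 801
noncomputable def n2313 : Strat := .move 966 n2311 (.cons 1007 n2312 .nil)
noncomputable def n2314 : Strat := .move 801 n2310 (.cons 923 n2313 .nil)
noncomputable def n2315 : Strat := .move 965 n2307 (.cons 802 n2314 .nil)
noncomputable def n2316 : Strat := .win 801 3 760
noncomputable def n2317 : Strat := .move 761 n2316 (.cons 801 n2199 .nil)
noncomputable def n2318 : Strat := .move 802 n2205 (.cons 965 n2317 .nil)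
noncomputable def n2319 : Strat := .win 922 2 880
noncomputable def n2320 : Strat := .move 925 n1950 (.cons 966 n2319 .nil)
noncomputable def n2321 : Strat := .move 923 n1790 (.cons 964 n2320 .nil)
noncomputable def n2322 : Strat := .win 720 3 719
noncomputable def n2323 : Strat := .win 802 3 760
noncomputable def n2324 : Strat := .move 761 n2322 (.cons 720 n2323 .nil)
noncomputable def n2325 : Strat := .win 718 7 718
noncomputable def n2326 : Strat := .win 800 7 759
noncomputable def n2327 : Strat := .move 759 n2325 (.cons 718 n2326 .nil)
noncomputable def n2328 : Strat := .move 760 n2324 (.cons 802 n2327 .nil)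
noncomputable def n2329 : Strat := .move 801 n2321 (.cons 923 n2328 .nil)
noncomputable def n2330 : Strat := .move 801 n1790 (.cons 964 n2320 .nil)
noncomputable def n2331 : Strat := .win 921 2 879
noncomputable def n2332 : Strat := .move 879 n2331 (.cons 921 n524 .nil)
noncomputable def n2333 : Strat := .move 922 n515 (.cons 925 n2332 .nil)
noncomputable def n2334 : Strat := .win 801 1 800
noncomputable def n2335 : Strat := .win 1046 3 882
noncomputable def n2336 : Strat := .win 965 1 841
noncomputable def n2337 : Strat := .move 1005 n2335 (.cons 1046 n2336 .nil)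
noncomputable def n2338 : Strat := .move 964 n2334 (.cons 801 n2337 .nil)
noncomputable def n2339 : Strat := .move 923 n2330 (.cons 801 n2333 (.cons 922 n2338 .nil))
noncomputable def n2340 : Strat := .win 1046 1 882
noncomputable def n2341 : Strat := .win 964 1 841
noncomputable def n2342 : Strat := .move 1005 n2340 (.cons 1046 n2341 .nil)
noncomputable def n2343 : Strat := .win 1048 6 883
noncomputable def n2344 : Strat := .win 966 6 842
noncomputable def n2345 : Strat := .move 1007 n2343 (.cons 1048 n2344 .nil)
noncomputable def n2346 : Strat := .move 1006 n2342 (.cons 964 n2345 .nil)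
noncomputable def n2347 : Strat := .move 965 n2307 (.cons 802 n2346 .nil)
noncomputable def n2348 : Strat := .move 924 n2315 (.cons 1007 n2318 (.cons 965 n2329 (.cons 802 n2339 (.cons 801 n2347 .nil))))
noncomputable def n2349 : Strat := .move 843 n2255 (.cons 882 n2348 .nil)
noncomputable def n2350 : Strat := .win 1006 7 841
noncomputable def n2351 : Strat := .win 800 7 800
noncomputable def n2352 : Strat := .move 841 n2350 (.cons 1006 n2351 .nil)
noncomputable def n2353 : Strat := .win 841 7 841
noncomputable def n2354 : Strat := .move 1006 n2340 (.cons 1046 n2353 .nil)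
noncomputable def n2355 : Strat := .move 1005 n2341 (.cons 964 n2354 .nil)
noncomputable def n2356 : Strat := .win 841 7 800
noncomputable def n2357 : Strat := .move 800 n2356 (.cons 841 n1665 .nil)
noncomputable def n2358 : Strat := .move 801 n1792 (.cons 760 n2310 (.cons 964 n2357 .nil))
noncomputable def n2359 : Strat := .move 965 n2352 (.cons 800 n2355 (.cons 1006 n2358 (.cons 841 n2346 .nil)))
noncomputable def n2360 : Strat := .move 924 n1125 (.cons 925 n2359 .nil)
noncomputable def n2361 : Strat := .move 882 n1128 (.cons 843 n2360 .nil)
noncomputable def n2362 : Strat := .move 920 n1146 (.cons 921 n604 .nil)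
noncomputable def n2363 : Strat := .move 879 n1295 (.cons 841 n2362 .nil)
noncomputable def n2364 : Strat := .move 882 n1128 (.cons 843 n2363 .nil)
noncomputable def n2365 : Strat := .move 882 n2156 (.cons 879 n2360 (.cons 924 n2363 (.cons 841 n2249 .nil)))
noncomputable def n2366 : Strat := .move 843 n2254 (.cons 841 n2348 .nil)
noncomputable def n2367 : Strat := .move 880 n2306 (.cons 841 n2349 (.cons 879 n2361 (.cons 924 n2364 (.cons 843 n2365 (.cons 882 n2366 .nil)))))
noncomputable def n2368 : Strat := .move 884 n1331 (.cons 885 n2266 .nil)
noncomputable def n2369 : Strat := .move 841 n472 (.cons 880 n2368 .nil)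
noncomputable def n2370 : Strat := .move 925 n2220 (.cons 760 n2219 .nil)
noncomputable def n2371 : Strat := .move 845 n2279 (.cons 846 n2278 .nil)
noncomputable def n2372 : Strat := .move 844 n2276 (.cons 882 n2371 .nil)
noncomputable def n2373 : Strat := .move 884 n2233 (.cons 719 n2370 (.cons 760 n2372 .nil))
noncomputable def n2374 : Strat := .move 884 n2210 (.cons 719 n2208 .nil)
noncomputable def n2375 : Strat := .win 884 6 719
noncomputable def n2376 : Strat := .win 679 3 678
noncomputable def n2377 : Strat := .win 761 3 719
noncomputable def n2378 : Strat := .move 720 n2376 (.cons 679 n2377 .nil)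
noncomputable def n2379 : Strat := .move 719 n2375 (.cons 884 n2378 .nil)
noncomputable def n2380 : Strat := .move 759 n2326 (.cons 800 n2325 .nil)
noncomputable def n2381 : Strat := .move 924 n2323 (.cons 802 n2380 .nil)
noncomputable def n2382 : Strat := .move 761 n2322 (.cons 720 n2381 .nil)
noncomputable def n2383 : Strat := .move 760 n2374 (.cons 925 n2379 (.cons 884 n2382 .nil))
noncomputable def n2384 : Strat := .move 802 n1793 (.cons 761 n2205 .nil)
noncomputable def n2385 : Strat := .move 761 n2323 (.cons 802 n2322 .nil)
noncomputable def n2386 : Strat := .move 924 n2384 (.cons 965 n2385 (.cons 761 n2380 .nil))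
noncomputable def n2387 : Strat := .move 760 n1653 (.cons 923 n2386 .nil)
noncomputable def n2388 : Strat := .move 882 n2257 (.cons 880 n2387 .nil)
noncomputable def n2389 : Strat := .move 801 n2261 (.cons 880 n2373 (.cons 882 n2383 (.cons 884 n2388 .nil)))
noncomputable def n2390 : Strat := .move 882 n563 (.cons 844 n2201 .nil)
noncomputable def n2391 : Strat := .move 841 n1331 (.cons 885 n2390 .nil)
noncomputable def n2392 : Strat := .move 801 n2278 (.cons 800 n2270 .nil)
noncomputable def n2393 : Strat := .move 845 n2279 (.cons 846 n2392 .nil)
noncomputable def n2394 : Strat := .move 844 n2276 (.cons 882 n2393 .nil)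
noncomputable def n2395 : Strat := .move 884 n2267 (.cons 804 n2391 (.cons 844 n2287 (.cons 885 n2394 .nil)))
noncomputable def n2396 : Strat := .move 843 n2369 (.cons 804 n2256 (.cons 841 n2389 (.cons 880 n2395 (.cons 882 n2304 .nil))))
noncomputable def n2397 : Strat := .move 884 n1331 (.cons 885 n2201 .nil)
noncomputable def n2398 : Strat := .move 882 n563 (.cons 844 n2397 .nil)
noncomputable def n2399 : Strat := .move 841 n472 (.cons 880 n2398 .nil)
noncomputable def n2400 : Strat := .move 924 n2205 (.cons 965 n1793 .nil)
noncomputable def n2401 : Strat := .win 924 3 760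
noncomputable def n2402 : Strat := .move 761 n2199 (.cons 720 n2401 .nil)
noncomputable def n2403 : Strat := .move 844 n2259 (.cons 884 n2258 .nil)
noncomputable def n2404 : Strat := .move 882 n2257 (.cons 880 n2403 .nil)
noncomputable def n2405 : Strat := .move 801 n2400 (.cons 965 n2402 (.cons 924 n2404 .nil))
noncomputable def n2406 : Strat := .move 801 n2402 (.cons 924 n2404 .nil)
noncomputable def n2407 : Strat := .win 884 1 760
noncomputable def n2408 : Strat := .move 761 n2199 (.cons 720 n2407 .nil)
noncomputable def n2409 : Strat := .move 924 n2205 (.cons 965 n2408 .nil)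
noncomputable def n2410 : Strat := .move 761 n2199 (.cons 720 n2316 .nil)
noncomputable def n2411 : Strat := .move 924 n2205 (.cons 965 n2410 .nil)
noncomputable def n2412 : Strat := .move 802 n2405 (.cons 965 n2406 (.cons 880 n2409 (.cons 924 n2261 (.cons 884 n2411 .nil))))
noncomputable def n2413 : Strat := .move 761 n2407 (.cons 884 n2199 .nil)
noncomputable def n2414 : Strat := .move 924 n2205 (.cons 965 n2413 .nil)
noncomputable def n2415 : Strat := .move 802 n1575 (.cons 803 n2414 .nil)
noncomputable def n2416 : Strat := .move 841 n472 (.cons 880 n2415 .nil)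
noncomputable def n2417 : Strat := .move 882 n563 (.cons 844 n2415 .nil)
noncomputable def n2418 : Strat := .move 964 n2238 (.cons 1005 n562 .nil)
noncomputable def n2419 : Strat := .move 800 n2189 (.cons 759 n847 .nil)
noncomputable def n2420 : Strat := .move 884 n2191 (.cons 921 n1331 .nil)
noncomputable def n2421 : Strat := .move 922 n2419 (.cons 963 n2420 .nil)
noncomputable def n2422 : Strat := .move 923 n2418 (.cons 801 n2421 .nil)
noncomputable def n2423 : Strat := .move 882 n563 (.cons 844 n2422 .nil)
noncomputable def n2424 : Strat := .move 803 n2264 (.cons 802 n2263 .nil)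
noncomputable def n2425 : Strat := .move 844 n2262 (.cons 882 n2424 .nil)
noncomputable def n2426 : Strat := .move 841 n2398 (.cons 844 n2397 (.cons 885 n2417 (.cons 924 n2423 (.cons 884 n2425 .nil))))
noncomputable def n2427 : Strat := .move 843 n2399 (.cons 841 n2412 (.cons 844 n2256 (.cons 882 n2416 (.cons 880 n2426 .nil))))
noncomputable def n2428 : Strat := .move 884 n2165 (.cons 885 n2230 .nil)
noncomputable def n2429 : Strat := .move 802 n1575 (.cons 803 n2207 .nil)
noncomputable def n2430 : Strat := .move 843 n563 (.cons 844 n2429 .nil)
noncomputable def n2431 : Strat := .move 884 n2165 (.cons 885 n2430 .nil)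
noncomputable def n2432 : Strat := .move 884 n2165 (.cons 885 n2229 .nil)
noncomputable def n2433 : Strat := .move 924 n1836 (.cons 759 n1666 .nil)
noncomputable def n2434 : Strat := .move 802 n1793 (.cons 761 n130 .nil)
noncomputable def n2435 : Strat := .move 801 n1832 (.cons 923 n2434 .nil)
noncomputable def n2436 : Strat := .move 924 n1666 (.cons 965 n2435 .nil)
noncomputable def n2437 : Strat := .move 800 n2188 (.cons 718 n2433 (.cons 759 n2436 .nil))
noncomputable def n2438 : Strat := .move 841 n2428 (.cons 800 n2431 (.cons 844 n2432 (.cons 884 n2437 .nil)))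
noncomputable def n2439 : Strat := .win 841 4 840
noncomputable def n2440 : Strat := .move 844 n2439 (.cons 841 n2258 .nil)
noncomputable def n2441 : Strat := .move 843 n2257 (.cons 880 n2440 .nil)
noncomputable def n2442 : Strat := .move 841 n2186 (.cons 880 n2195 (.cons 800 n2196 .nil))
noncomputable def n2443 : Strat := .move 882 n2185 (.cons 880 n2438 (.cons 924 n2441 (.cons 843 n2442 (.cons 841 n2251 .nil))))
noncomputable def n2444 : Strat := .move 800 n2189 (.cons 759 n261 .nil)
noncomputable def n2445 : Strat := .move 922 n2191 (.cons 921 n2444 .nil)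
noncomputable def n2446 : Strat := .move 884 n1331 (.cons 885 n2445 .nil)
noncomputable def n2447 : Strat := .move 882 n563 (.cons 844 n2446 .nil)
noncomputable def n2448 : Strat := .move 841 n2398 (.cons 882 n2303 (.cons 885 n2417 (.cons 884 n2425 (.cons 802 n2447 .nil))))
noncomputable def n2449 : Strat := .move 843 n2399 (.cons 841 n2261 (.cons 882 n2304 (.cons 884 n2256 (.cons 880 n2448 .nil))))
noncomputable def n2450 : Strat := .move 841 n472 (.cons 880 n2447 .nil)
noncomputable def n2451 : Strat := .win 884 0 840
noncomputable def n2452 : Strat := .win 886 0 841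
noncomputable def n2453 : Strat := .move 844 n2452 (.cons 886 n2265 .nil)
noncomputable def n2454 : Strat := .move 885 n2451 (.cons 884 n2453 .nil)
noncomputable def n2455 : Strat := .move 841 n472 (.cons 880 n2454 .nil)
noncomputable def n2456 : Strat := .move 882 n2439 (.cons 841 n2258 .nil)
noncomputable def n2457 : Strat := .move 882 n2258 (.cons 845 n2259 .nil)
noncomputable def n2458 : Strat := .win 884 4 842
noncomputable def n2459 : Strat := .win 888 0 843
noncomputable def n2460 : Strat := .win 886 0 842
noncomputable def n2461 : Strat := .move 887 n2459 (.cons 888 n2460 .nil)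
noncomputable def n2462 : Strat := .move 846 n2458 (.cons 884 n2461 .nil)
noncomputable def n2463 : Strat := .move 841 n1331 (.cons 885 n2265 .nil)
noncomputable def n2464 : Strat := .move 884 n2279 (.cons 846 n2463 .nil)
noncomputable def n2465 : Strat := .win 887 0 842
noncomputable def n2466 : Strat := .win 885 0 841
noncomputable def n2467 : Strat := .move 841 n2466 (.cons 885 n2265 .nil)
noncomputable def n2468 : Strat := .move 886 n2465 (.cons 887 n2467 .nil)
noncomputable def n2469 : Strat := .move 845 n2462 (.cons 888 n2464 (.cons 846 n2468 .nil))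
noncomputable def n2470 : Strat := .move 882 n2439 (.cons 841 n2259 .nil)
noncomputable def n2471 : Strat := .move 844 n2456 (.cons 841 n2457 (.cons 882 n2469 (.cons 845 n2470 .nil)))
noncomputable def n2472 : Strat := .move 843 n2450 (.cons 841 n2261 (.cons 882 n2455 (.cons 884 n2256 (.cons 880 n2471 .nil))))
noncomputable def n2473 : Strat := .move 882 n2204 (.cons 844 n2287 .nil)
noncomputable def n2474 : Strat := .move 924 n2206 (.cons 761 n2205 .nil)
noncomputable def n2475 : Strat := .move 801 n2208 (.cons 925 n2210 .nil)
noncomputable def n2476 : Strat := .move 801 n1653 (.cons 923 n2208 .nil)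
noncomputable def n2477 : Strat := .move 801 n1653 (.cons 923 n2210 .nil)
noncomputable def n2478 : Strat := .move 760 n2475 (.cons 719 n2476 (.cons 925 n2477 (.cons 801 n2214 .nil)))
noncomputable def n2479 : Strat := .move 966 n2217 (.cons 1007 n2216 .nil)
noncomputable def n2480 : Strat := .move 925 n2221 (.cons 760 n2479 (.cons 966 n2224 .nil))
noncomputable def n2481 : Strat := .move 802 n2200 (.cons 720 n2474 (.cons 924 n2478 (.cons 761 n2480 .nil)))
noncomputable def n2482 : Strat := .move 882 n2204 (.cons 844 n2481 .nil)
noncomputable def n2483 : Strat := .move 760 n1653 (.cons 923 n2210 .nil)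
noncomputable def n2484 : Strat := .move 801 n2270 (.cons 719 n2277 (.cons 925 n2483 (.cons 760 n2240 .nil)))
noncomputable def n2485 : Strat := .move 882 n2204 (.cons 844 n2484 .nil)
noncomputable def n2486 : Strat := .move 884 n2473 (.cons 885 n2482 (.cons 841 n2485 (.cons 844 n2297 (.cons 924 n2300 .nil))))
noncomputable def n2487 : Strat := .move 841 n472 (.cons 880 n2397 .nil)
noncomputable def n2488 : Strat := .move 843 n2256 (.cons 880 n2486 (.cons 882 n2487 (.cons 841 n2261 .nil)))
noncomputable def n2489 : Strat := .move 884 n2165 (.cons 885 n2208 .nil)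
noncomputable def n2490 : Strat := .move 841 n1654 (.cons 719 n2489 .nil)
noncomputable def n2491 : Strat := .move 882 n1653 (.cons 923 n2490 .nil)
noncomputable def n2492 : Strat := .move 843 n2204 (.cons 844 n2210 .nil)
noncomputable def n2493 : Strat := .move 884 n2208 (.cons 925 n2492 .nil)
noncomputable def n2494 : Strat := .move 882 n1653 (.cons 923 n2493 .nil)
noncomputable def n2495 : Strat := .win 882 1 759
noncomputable def n2496 : Strat := .move 923 n1790 (.cons 964 n2495 .nil)
noncomputable def n2497 : Strat := .move 924 n2326 (.cons 800 n2496 .nil)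
noncomputable def n2498 : Strat := .move 759 n2325 (.cons 718 n2497 .nil)
noncomputable def n2499 : Strat := .move 924 n2326 (.cons 800 n2385 .nil)
noncomputable def n2500 : Strat := .move 759 n2325 (.cons 718 n2499 .nil)
noncomputable def n2501 : Strat := .move 760 n2491 (.cons 841 n2494 (.cons 719 n2498 (.cons 882 n2500 .nil)))
noncomputable def n2502 : Strat := .win 843 6 719
noncomputable def n2503 : Strat := .win 841 1 718
noncomputable def n2504 : Strat := .move 719 n2502 (.cons 843 n2503 .nil)
noncomputable def n2505 : Strat := .move 884 n2208 (.cons 925 n2504 .nil)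
noncomputable def n2506 : Strat := .move 882 n1653 (.cons 923 n2505 .nil)
noncomputable def n2507 : Strat := .move 719 n2502 (.cons 843 n2378 .nil)
noncomputable def n2508 : Strat := .move 884 n2208 (.cons 925 n2507 .nil)
noncomputable def n2509 : Strat := .move 719 n2503 (.cons 841 n2378 .nil)
noncomputable def n2510 : Strat := .move 882 n1653 (.cons 923 n2509 .nil)
noncomputable def n2511 : Strat := .win 843 5 840
noncomputable def n2512 : Strat := .win 845 5 841
noncomputable def n2513 : Strat := .move 885 n2512 (.cons 845 n2243 .nil)
noncomputable def n2514 : Strat := .move 844 n2511 (.cons 843 n2513 .nil)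
noncomputable def n2515 : Strat := .move 884 n2208 (.cons 925 n2514 .nil)
noncomputable def n2516 : Strat := .move 882 n1653 (.cons 923 n2515 .nil)
noncomputable def n2517 : Strat := .move 760 n2506 (.cons 882 n2508 (.cons 884 n2510 (.cons 719 n2516 .nil)))
noncomputable def n2518 : Strat := .win 843 3 801
noncomputable def n2519 : Strat := .move 965 n2356 (.cons 841 n2518 .nil)
noncomputable def n2520 : Strat := .move 800 n1665 (.cons 759 n2519 .nil)
noncomputable def n2521 : Strat := .move 802 n1793 (.cons 761 n2520 .nil)
noncomputable def n2522 : Strat := .move 802 n130 (.cons 803 n1793 .nil)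
noncomputable def n2523 : Strat := .move 841 n1666 (.cons 965 n2522 .nil)
noncomputable def n2524 : Strat := .move 800 n1665 (.cons 759 n2523 .nil)
noncomputable def n2525 : Strat := .move 965 n2356 (.cons 841 n2310 .nil)
noncomputable def n2526 : Strat := .move 800 n1665 (.cons 759 n2525 .nil)
noncomputable def n2527 : Strat := .move 841 n1331 (.cons 885 n1575 .nil)
noncomputable def n2528 : Strat := .move 884 n2271 (.cons 760 n2527 .nil)
noncomputable def n2529 : Strat := .move 843 n2205 (.cons 965 n2528 .nil)
noncomputable def n2530 : Strat := .move 802 n1793 (.cons 761 n2529 .nil)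
noncomputable def n2531 : Strat := .win 884 6 760
noncomputable def n2532 : Strat := .move 925 n1950 (.cons 966 n2531 .nil)
noncomputable def n2533 : Strat := .move 760 n2325 (.cons 718 n2532 .nil)
noncomputable def n2534 : Strat := .move 759 n2326 (.cons 800 n2533 .nil)
noncomputable def n2535 : Strat := .move 802 n1793 (.cons 761 n2534 .nil)
noncomputable def n2536 : Strat := .move 924 n2521 (.cons 843 n2524 (.cons 802 n2526 (.cons 800 n2530 (.cons 965 n2535 .nil))))
noncomputable def n2537 : Strat := .win 841 3 800
noncomputable def n2538 : Strat := .move 964 n2237 (.cons 924 n2537 .nil)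
noncomputable def n2539 : Strat := .move 923 n1791 (.cons 760 n2538 .nil)
noncomputable def n2540 : Strat := .move 760 n1653 (.cons 923 n2490 .nil)
noncomputable def n2541 : Strat := .win 677 7 677
noncomputable def n2542 : Strat := .win 759 7 718
noncomputable def n2543 : Strat := .move 718 n2541 (.cons 677 n2542 .nil)
noncomputable def n2544 : Strat := .move 719 n2378 (.cons 761 n2543 .nil)
noncomputable def n2545 : Strat := .move 884 n2208 (.cons 925 n2544 .nil)
noncomputable def n2546 : Strat := .move 800 n2187 (.cons 922 n1743 .nil)
noncomputable def n2547 : Strat := .move 759 n2325 (.cons 718 n2546 .nil)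
noncomputable def n2548 : Strat := .move 841 n1654 (.cons 719 n2547 .nil)
noncomputable def n2549 : Strat := .move 760 n2490 (.cons 841 n2545 (.cons 925 n2548 (.cons 719 n2500 .nil)))
noncomputable def n2550 : Strat := .move 759 n2187 (.cons 922 n283 .nil)
noncomputable def n2551 : Strat := .move 759 n2187 (.cons 922 n1743 .nil)
noncomputable def n2552 : Strat := .move 924 n1666 (.cons 965 n2522 .nil)
noncomputable def n2553 : Strat := .move 800 n2194 (.cons 924 n2550 (.cons 718 n2551 (.cons 759 n2552 .nil)))
noncomputable def n2554 : Strat := .move 965 n2350 (.cons 1006 n2351 .nil)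
noncomputable def n2555 : Strat := .move 800 n1836 (.cons 759 n2522 .nil)
noncomputable def n2556 : Strat := .move 965 n2308 (.cons 1005 n2350 .nil)
noncomputable def n2557 : Strat := .move 964 n2309 (.cons 923 n2556 .nil)
noncomputable def n2558 : Strat := .move 924 n1837 (.cons 759 n2554 (.cons 965 n2555 (.cons 800 n2557 .nil)))
noncomputable def n2559 : Strat := .move 800 n2194 (.cons 924 n2550 (.cons 718 n2551 (.cons 759 n2193 .nil)))
noncomputable def n2560 : Strat := .move 963 n54 (.cons 1005 n355 .nil)
noncomputable def n2561 : Strat := .move 922 n2192 (.cons 885 n2560 .nil)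
noncomputable def n2562 : Strat := .move 964 n1335 (.cons 923 n2561 .nil)
noncomputable def n2563 : Strat := .move 841 n2553 (.cons 922 n2558 (.cons 761 n2559 (.cons 800 n2562 .nil)))
noncomputable def n2564 : Strat := .move 923 n1791 (.cons 760 n1790 .nil)
noncomputable def n2565 : Strat := .move 965 n2308 (.cons 1005 n2313 .nil)
noncomputable def n2566 : Strat := .move 964 n2309 (.cons 923 n2565 .nil)
noncomputable def n2567 : Strat := .move 760 n2385 (.cons 720 n2532 .nil)
noncomputable def n2568 : Strat := .move 760 n2385 (.cons 720 n2380 .nil)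
noncomputable def n2569 : Strat := .move 964 n2565 (.cons 965 n2567 (.cons 925 n2568 .nil))
noncomputable def n2570 : Strat := .move 760 n1653 (.cons 923 n2385 .nil)
noncomputable def n2571 : Strat := .move 924 n2564 (.cons 760 n2566 (.cons 923 n2569 (.cons 964 n2570 .nil)))
noncomputable def n2572 : Strat := .move 882 n2539 (.cons 924 n2540 (.cons 923 n2549 (.cons 760 n2563 (.cons 841 n2571 .nil))))
noncomputable def n2573 : Strat := .move 924 n2326 (.cons 800 n2323 .nil)
noncomputable def n2574 : Strat := .move 761 n2322 (.cons 720 n2573 .nil)
noncomputable def n2575 : Strat := .move 759 n2325 (.cons 718 n2574 .nil)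
noncomputable def n2576 : Strat := .move 843 n2210 (.cons 719 n2372 .nil)
noncomputable def n2577 : Strat := .move 884 n2208 (.cons 925 n2576 .nil)
noncomputable def n2578 : Strat := .move 760 n2575 (.cons 802 n2508 (.cons 761 n2577 .nil))
noncomputable def n2579 : Strat := .move 882 n1653 (.cons 923 n2548 .nil)
noncomputable def n2580 : Strat := .move 924 n2326 (.cons 800 n2532 .nil)
noncomputable def n2581 : Strat := .move 759 n2325 (.cons 718 n2580 .nil)
noncomputable def n2582 : Strat := .move 760 n2491 (.cons 923 n2577 (.cons 925 n2579 (.cons 882 n2581 .nil)))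
noncomputable def n2583 : Strat := .move 760 n2579 (.cons 882 n2575 (.cons 800 n2510 .nil))
noncomputable def n2584 : Strat := .move 924 n1793 (.cons 761 n2520 .nil)
noncomputable def n2585 : Strat := .move 841 n1666 (.cons 965 n130 .nil)
noncomputable def n2586 : Strat := .move 800 n1665 (.cons 759 n2585 .nil)
noncomputable def n2587 : Strat := .move 924 n1793 (.cons 761 n2586 .nil)
noncomputable def n2588 : Strat := .move 965 n2518 (.cons 843 n2310 .nil)
noncomputable def n2589 : Strat := .move 924 n1793 (.cons 761 n2588 .nil)
noncomputable def n2590 : Strat := .win 800 4 799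
noncomputable def n2591 : Strat := .win 804 4 800
noncomputable def n2592 : Strat := .move 841 n2590 (.cons 800 n2591 .nil)
noncomputable def n2593 : Strat := .win 843 5 799
noncomputable def n2594 : Strat := .move 841 n2590 (.cons 800 n2593 .nil)
noncomputable def n2595 : Strat := .win 843 4 801
noncomputable def n2596 : Strat := .win 847 0 802
noncomputable def n2597 : Strat := .win 845 0 801
noncomputable def n2598 : Strat := .move 846 n2596 (.cons 847 n2597 .nil)
noncomputable def n2599 : Strat := .move 805 n2595 (.cons 843 n2598 .nil)
noncomputable def n2600 : Strat := .win 846 0 801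
noncomputable def n2601 : Strat := .win 844 0 800
noncomputable def n2602 : Strat := .move 845 n2600 (.cons 846 n2601 .nil)
noncomputable def n2603 : Strat := .win 764 5 760
noncomputable def n2604 : Strat := .win 762 5 759
noncomputable def n2605 : Strat := .move 763 n2603 (.cons 764 n2604 .nil)
noncomputable def n2606 : Strat := .move 800 n2602 (.cons 844 n2605 .nil)
noncomputable def n2607 : Strat := .win 765 5 761
noncomputable def n2608 : Strat := .win 763 5 760
noncomputable def n2609 : Strat := .move 764 n2607 (.cons 765 n2608 .nil)
noncomputable def n2610 : Strat := .move 805 n2595 (.cons 843 n2609 .nil)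
noncomputable def n2611 : Strat := .move 804 n2599 (.cons 805 n2606 (.cons 845 n2610 .nil))
noncomputable def n2612 : Strat := .move 841 n2591 (.cons 804 n2593 .nil)
noncomputable def n2613 : Strat := .move 803 n2592 (.cons 804 n2594 (.cons 841 n2611 (.cons 800 n2612 .nil)))
noncomputable def n2614 : Strat := .move 802 n2584 (.cons 843 n2587 (.cons 800 n2589 (.cons 924 n2613 .nil)))
noncomputable def n2615 : Strat := .move 801 n2501 (.cons 924 n2517 (.cons 882 n2536 (.cons 843 n2572 (.cons 923 n2578 (.cons 761 n2582 (.cons 925 n2583 (.cons 760 n2614 .nil)))))))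
noncomputable def n2616 : Strat := .move 841 n1575 (.cons 803 n472 .nil)
noncomputable def n2617 : Strat := .move 843 n2205 (.cons 965 n2616 .nil)
noncomputable def n2618 : Strat := .move 802 n1793 (.cons 761 n2617 .nil)
noncomputable def n2619 : Strat := .move 760 n2531 (.cons 884 n2324 .nil)
noncomputable def n2620 : Strat := .move 925 n1950 (.cons 966 n2619 .nil)
noncomputable def n2621 : Strat := .move 841 n1953 (.cons 800 n2620 .nil)
noncomputable def n2622 : Strat := .move 925 n2531 (.cons 884 n1950 .nil)
noncomputable def n2623 : Strat := .move 760 n2622 (.cons 966 n2327 .nil)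
noncomputable def n2624 : Strat := .move 843 n2205 (.cons 965 n2623 .nil)
noncomputable def n2625 : Strat := .move 802 n1793 (.cons 761 n2624 .nil)
noncomputable def n2626 : Strat := .move 925 n2220 (.cons 760 n1950 .nil)
noncomputable def n2627 : Strat := .move 843 n1331 (.cons 885 n472 .nil)
noncomputable def n2628 : Strat := .move 884 n2626 (.cons 966 n2627 .nil)
noncomputable def n2629 : Strat := .move 841 n1666 (.cons 965 n2628 .nil)
noncomputable def n2630 : Strat := .move 800 n1665 (.cons 759 n2629 .nil)
noncomputable def n2631 : Strat := .move 801 n2618 (.cons 843 n2621 (.cons 841 n2625 (.cons 965 n2620 (.cons 802 n2630 .nil))))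
noncomputable def n2632 : Strat := .win 880 2 880
noncomputable def n2633 : Strat := .move 922 n2272 (.cons 921 n2632 .nil)
noncomputable def n2634 : Strat := .move 923 n1790 (.cons 964 n2633 .nil)
noncomputable def n2635 : Strat := .move 884 n2220 (.cons 760 n2634 .nil)
noncomputable def n2636 : Strat := .move 925 n1950 (.cons 966 n2635 .nil)
noncomputable def n2637 : Strat := .move 801 n2524 (.cons 761 n2630 (.cons 800 n2636 .nil))
noncomputable def n2638 : Strat := .move 801 n2620 (.cons 760 n2526 .nil)
noncomputable def n2639 : Strat := .move 760 n2531 (.cons 884 n2544 .nil)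
noncomputable def n2640 : Strat := .move 925 n1950 (.cons 966 n2639 .nil)
noncomputable def n2641 : Strat := .move 801 n2618 (.cons 802 n2640 (.cons 761 n2636 .nil))
noncomputable def n2642 : Strat := .move 965 n2307 (.cons 802 n2310 .nil)
noncomputable def n2643 : Strat := .move 760 n2325 (.cons 718 n2322 .nil)
noncomputable def n2644 : Strat := .move 759 n2326 (.cons 800 n2643 .nil)
noncomputable def n2645 : Strat := .move 761 n2323 (.cons 802 n2644 .nil)
noncomputable def n2646 : Strat := .move 843 n2384 (.cons 761 n2642 (.cons 802 n2566 (.cons 965 n2645 .nil)))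
noncomputable def n2647 : Strat := .move 760 n2325 (.cons 718 n2324 .nil)
noncomputable def n2648 : Strat := .move 759 n2326 (.cons 800 n2647 .nil)
noncomputable def n2649 : Strat := .move 801 n2521 (.cons 841 n2646 (.cons 965 n2648 (.cons 802 n2526 (.cons 800 n2618 .nil))))
noncomputable def n2650 : Strat := .move 800 n1666 (.cons 965 n2522 .nil)
noncomputable def n2651 : Strat := .move 803 n2591 (.cons 804 n2590 .nil)
noncomputable def n2652 : Strat := .move 802 n1793 (.cons 761 n2651 .nil)
noncomputable def n2653 : Strat := .move 965 n2351 (.cons 800 n2310 .nil)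
noncomputable def n2654 : Strat := .move 841 n2650 (.cons 965 n2652 (.cons 800 n2620 (.cons 802 n2653 .nil)))
noncomputable def n2655 : Strat := .win 1006 3 842
noncomputable def n2656 : Strat := .move 884 n2655 (.cons 1006 n2220 .nil)
noncomputable def n2657 : Strat := .move 965 n2310 (.cons 923 n2656 .nil)
noncomputable def n2658 : Strat := .move 925 n1950 (.cons 966 n2657 .nil)
noncomputable def n2659 : Strat := .move 760 n2322 (.cons 720 n2622 .nil)
noncomputable def n2660 : Strat := .move 761 n2323 (.cons 802 n2659 .nil)
noncomputable def n2661 : Strat := .move 843 n2384 (.cons 761 n2642 (.cons 802 n2658 (.cons 965 n2660 .nil)))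
noncomputable def n2662 : Strat := .move 801 n2618 (.cons 843 n2654 (.cons 841 n2661 (.cons 965 n2636 .nil)))
noncomputable def n2663 : Strat := .move 841 n472 (.cons 880 n2351 .nil)
noncomputable def n2664 : Strat := .move 843 n2307 (.cons 802 n2663 .nil)
noncomputable def n2665 : Strat := .move 1006 n2340 (.cons 1046 n2345 .nil)
noncomputable def n2666 : Strat := .move 1005 n2341 (.cons 964 n2665 .nil)
noncomputable def n2667 : Strat := .move 841 n2351 (.cons 800 n2666 .nil)
noncomputable def n2668 : Strat := .win 884 3 842
noncomputable def n2669 : Strat := .move 843 n2668 (.cons 884 n2307 .nil)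
noncomputable def n2670 : Strat := .move 1006 n2340 (.cons 1046 n2669 .nil)
noncomputable def n2671 : Strat := .move 1005 n2341 (.cons 964 n2670 .nil)
noncomputable def n2672 : Strat := .move 966 n2311 (.cons 1007 n2671 .nil)
noncomputable def n2673 : Strat := .move 965 n2664 (.cons 843 n2667 (.cons 841 n2672 .nil))
noncomputable def n2674 : Strat := .move 801 n2312 (.cons 925 n2309 .nil)
noncomputable def n2675 : Strat := .move 964 n2308 (.cons 1005 n2674 .nil)
noncomputable def n2676 : Strat := .move 966 n2311 (.cons 1007 n2675 .nil)
noncomputable def n2677 : Strat := .move 884 n1331 (.cons 885 n2655 .nil)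
noncomputable def n2678 : Strat := .move 843 n472 (.cons 880 n2677 .nil)
noncomputable def n2679 : Strat := .move 841 n2351 (.cons 800 n2678 .nil)
noncomputable def n2680 : Strat := .move 965 n2676 (.cons 923 n2679 .nil)
noncomputable def n2681 : Strat := .move 841 n1331 (.cons 885 n472 .nil)
noncomputable def n2682 : Strat := .move 884 n2655 (.cons 1006 n2681 .nil)
noncomputable def n2683 : Strat := .move 843 n2307 (.cons 802 n2682 .nil)
noncomputable def n2684 : Strat := .move 801 n2309 (.cons 923 n2357 .nil)
noncomputable def n2685 : Strat := .move 964 n2308 (.cons 1005 n2684 .nil)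
noncomputable def n2686 : Strat := .move 802 n2518 (.cons 843 n1793 .nil)
noncomputable def n2687 : Strat := .move 801 n2309 (.cons 923 n2686 .nil)
noncomputable def n2688 : Strat := .move 964 n2308 (.cons 1005 n2687 .nil)
noncomputable def n2689 : Strat := .move 965 n2664 (.cons 800 n2683 (.cons 843 n2685 (.cons 841 n2688 .nil)))
noncomputable def n2690 : Strat := .move 802 n2205 (.cons 965 n2623 .nil)
noncomputable def n2691 : Strat := .move 760 n2531 (.cons 884 n2327 .nil)
noncomputable def n2692 : Strat := .move 925 n1950 (.cons 966 n2691 .nil)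
noncomputable def n2693 : Strat := .win 678 6 678
noncomputable def n2694 : Strat := .move 719 n2693 (.cons 678 n2375 .nil)
noncomputable def n2695 : Strat := .move 760 n2327 (.cons 800 n2694 .nil)
noncomputable def n2696 : Strat := .move 802 n2205 (.cons 965 n2695 .nil)
noncomputable def n2697 : Strat := .move 843 n2690 (.cons 965 n2692 (.cons 925 n2696 (.cons 884 n2642 .nil)))
noncomputable def n2698 : Strat := .move 843 n2205 (.cons 965 n2695 .nil)
noncomputable def n2699 : Strat := .move 802 n1793 (.cons 761 n2698 .nil)
noncomputable def n2700 : Strat := .move 802 n1793 (.cons 761 n2588 .nil)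
noncomputable def n2701 : Strat := .move 801 n2625 (.cons 761 n2697 (.cons 759 n2661 (.cons 884 n2646 (.cons 925 n2699 (.cons 843 n2620 (.cons 802 n2692 (.cons 760 n2700 .nil)))))))
noncomputable def n2702 : Strat := .win 885 5 881
noncomputable def n2703 : Strat := .move 884 n2702 (.cons 885 n2272 .nil)
noncomputable def n2704 : Strat := .move 922 n2632 (.cons 880 n2703 .nil)
noncomputable def n2705 : Strat := .move 925 n1950 (.cons 966 n2704 .nil)
noncomputable def n2706 : Strat := .move 923 n1790 (.cons 964 n2705 .nil)
noncomputable def n2707 : Strat := .move 801 n2620 (.cons 802 n2692 (.cons 884 n2648 (.cons 760 n2706 .nil)))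
noncomputable def n2708 : Strat := .move 924 n2631 (.cons 720 n2637 (.cons 803 n2638 (.cons 800 n2641 (.cons 884 n2649 (.cons 759 n2662 (.cons 801 n2673 (.cons 802 n2680 (.cons 966 n2689 (.cons 841 n2701 (.cons 965 n2707 .nil))))))))))
noncomputable def n2709 : Strat := .move 760 n2491 (.cons 719 n2498 (.cons 882 n2500 .nil))
noncomputable def n2710 : Strat := .move 800 n1665 (.cons 759 n2522 .nil)
noncomputable def n2711 : Strat := .move 841 n1953 (.cons 759 n2653 (.cons 800 n2566 (.cons 965 n2710 .nil)))
noncomputable def n2712 : Strat := .move 841 n1953 (.cons 800 n2566 (.cons 965 n2534 .nil))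
noncomputable def n2713 : Strat := .move 924 n2621 (.cons 759 n2654 (.cons 760 n2711 (.cons 841 n2620 (.cons 761 n2712 (.cons 925 n2524 .nil)))))
noncomputable def n2714 : Strat := .win 880 0 880
noncomputable def n2715 : Strat := .move 925 n2714 (.cons 880 n1950 .nil)
noncomputable def n2716 : Strat := .move 882 n1791 (.cons 760 n2715 .nil)
noncomputable def n2717 : Strat := .move 923 n1790 (.cons 964 n2716 .nil)
noncomputable def n2718 : Strat := .move 924 n2717 (.cons 760 n2524 .nil)
noncomputable def n2719 : Strat := .move 719 n2541 (.cons 677 n2378 .nil)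
noncomputable def n2720 : Strat := .move 718 n2542 (.cons 759 n2719 .nil)
noncomputable def n2721 : Strat := .move 884 n2208 (.cons 925 n2720 .nil)
noncomputable def n2722 : Strat := .move 841 n2159 (.cons 879 n2165 .nil)
noncomputable def n2723 : Strat := .move 880 n2167 (.cons 920 n2722 .nil)
noncomputable def n2724 : Strat := .move 884 n2208 (.cons 925 n2723 .nil)
noncomputable def n2725 : Strat := .move 882 n1653 (.cons 923 n2724 .nil)
noncomputable def n2726 : Strat := .move 760 n2491 (.cons 882 n2721 (.cons 884 n2510 (.cons 719 n2725 .nil)))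
noncomputable def n2727 : Strat := .move 880 n2319 (.cons 922 n1951 .nil)
noncomputable def n2728 : Strat := .move 925 n1950 (.cons 966 n2727 .nil)
noncomputable def n2729 : Strat := .move 923 n1790 (.cons 964 n2728 .nil)
noncomputable def n2730 : Strat := .move 924 n2524 (.cons 841 n2729 .nil)
noncomputable def n2731 : Strat := .move 760 n2531 (.cons 884 n2495 .nil)
noncomputable def n2732 : Strat := .move 925 n1950 (.cons 966 n2731 .nil)
noncomputable def n2733 : Strat := .move 923 n1790 (.cons 964 n2732 .nil)
noncomputable def n2734 : Strat := .move 760 n2495 (.cons 882 n2385 .nil)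
noncomputable def n2735 : Strat := .move 923 n1790 (.cons 964 n2734 .nil)
noncomputable def n2736 : Strat := .move 924 n2733 (.cons 760 n2729 (.cons 882 n2620 (.cons 925 n2735 .nil)))
noncomputable def n2737 : Strat := .move 760 n2531 (.cons 884 n2385 .nil)
noncomputable def n2738 : Strat := .move 925 n1950 (.cons 966 n2737 .nil)
noncomputable def n2739 : Strat := .win 882 1 718
noncomputable def n2740 : Strat := .win 678 1 677
noncomputable def n2741 : Strat := .move 719 n2739 (.cons 882 n2740 .nil)
noncomputable def n2742 : Strat := .move 760 n2532 (.cons 884 n2741 .nil)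
noncomputable def n2743 : Strat := .move 841 n1666 (.cons 965 n2742 .nil)
noncomputable def n2744 : Strat := .move 800 n1665 (.cons 759 n2743 .nil)
noncomputable def n2745 : Strat := .move 924 n2524 (.cons 965 n2738 (.cons 761 n2744 .nil))
noncomputable def n2746 : Strat := .move 880 n1846 (.cons 879 n1125 .nil)
noncomputable def n2747 : Strat := .move 882 n1791 (.cons 760 n2746 .nil)
noncomputable def n2748 : Strat := .move 923 n1790 (.cons 964 n2747 .nil)
noncomputable def n2749 : Strat := .move 924 n2717 (.cons 923 n2744 (.cons 882 n2712 (.cons 966 n2748 (.cons 760 n2526 .nil))))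
noncomputable def n2750 : Strat := .move 884 n2166 (.cons 922 n2165 .nil)
noncomputable def n2751 : Strat := .move 880 n2159 (.cons 879 n1038 .nil)
noncomputable def n2752 : Strat := .move 921 n2750 (.cons 885 n2751 .nil)
noncomputable def n2753 : Strat := .move 841 n1654 (.cons 719 n2752 .nil)
noncomputable def n2754 : Strat := .move 882 n1653 (.cons 923 n2753 .nil)
noncomputable def n2755 : Strat := .move 760 n2579 (.cons 800 n2754 (.cons 882 n2575 .nil))
noncomputable def n2756 : Strat := .move 801 n2709 (.cons 882 n2713 (.cons 720 n2718 (.cons 924 n2726 (.cons 760 n2730 (.cons 841 n2736 (.cons 923 n2745 (.cons 761 n2749 (.cons 925 n2755 .nil))))))))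
noncomputable def n2757 : Strat := .move 843 n472 (.cons 880 n2447 .nil)
noncomputable def n2758 : Strat := .move 800 n1836 (.cons 759 n1666 .nil)
noncomputable def n2759 : Strat := .move 924 n1125 (.cons 925 n2758 .nil)
noncomputable def n2760 : Strat := .move 880 n2159 (.cons 879 n2759 .nil)
noncomputable def n2761 : Strat := .move 922 n261 (.cons 963 n2189 .nil)
noncomputable def n2762 : Strat := .move 800 n2188 (.cons 718 n2761 (.cons 759 n2193 (.cons 922 n2194 .nil)))
noncomputable def n2763 : Strat := .move 882 n2760 (.cons 965 n2196 (.cons 880 n2762 .nil))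
noncomputable def n2764 : Strat := .move 882 n2187 (.cons 922 n1743 .nil)
noncomputable def n2765 : Strat := .move 759 n283 (.cons 718 n2764 .nil)
noncomputable def n2766 : Strat := .win 882 1 758
noncomputable def n2767 : Strat := .move 922 n261 (.cons 963 n2766 .nil)
noncomputable def n2768 : Strat := .move 759 n283 (.cons 718 n2767 .nil)
noncomputable def n2769 : Strat := .move 924 n1666 (.cons 965 n1836 .nil)
noncomputable def n2770 : Strat := .move 922 n2191 (.cons 921 n261 .nil)
noncomputable def n2771 : Strat := .move 884 n2165 (.cons 885 n2770 .nil)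
noncomputable def n2772 : Strat := .move 882 n2551 (.cons 922 n2769 (.cons 924 n2761 (.cons 759 n2771 .nil)))
noncomputable def n2773 : Strat := .win 882 2 840
noncomputable def n2774 : Strat := .win 843 0 840
noncomputable def n2775 : Strat := .move 885 n2773 (.cons 882 n2774 .nil)
noncomputable def n2776 : Strat := .win 886 2 841
noncomputable def n2777 : Strat := .move 885 n2776 (.cons 886 n2773 .nil)
noncomputable def n2778 : Strat := .move 885 n2776 (.cons 886 n2774 .nil)
noncomputable def n2779 : Strat := .move 884 n2775 (.cons 843 n2777 (.cons 882 n2778 (.cons 885 n2290 .nil)))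
noncomputable def n2780 : Strat := .move 922 n261 (.cons 963 n2779 .nil)
noncomputable def n2781 : Strat := .move 924 n1666 (.cons 965 n2780 .nil)
noncomputable def n2782 : Strat := .win 801 7 759
noncomputable def n2783 : Strat := .move 924 n1666 (.cons 965 n2782 .nil)
noncomputable def n2784 : Strat := .move 759 n283 (.cons 718 n2783 .nil)
noncomputable def n2785 : Strat := .move 800 n2765 (.cons 924 n2768 (.cons 718 n2772 (.cons 759 n2781 (.cons 882 n2784 .nil))))
noncomputable def n2786 : Strat := .win 882 5 838
noncomputable def n2787 : Strat := .move 879 n596 (.cons 878 n2786 .nil)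
noncomputable def n2788 : Strat := .move 880 n41 (.cons 843 n2787 .nil)
noncomputable def n2789 : Strat := .move 885 n2451 (.cons 884 n2452 .nil)
noncomputable def n2790 : Strat := .win 805 5 801
noncomputable def n2791 : Strat := .win 803 5 800
noncomputable def n2792 : Strat := .move 804 n2790 (.cons 805 n2791 .nil)
noncomputable def n2793 : Strat := .move 845 n2279 (.cons 846 n2792 .nil)
noncomputable def n2794 : Strat := .move 884 n1331 (.cons 885 n2793 .nil)
noncomputable def n2795 : Strat := .move 924 n2782 (.cons 801 n1666 .nil)
noncomputable def n2796 : Strat := .move 759 n283 (.cons 718 n2795 .nil)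
noncomputable def n2797 : Strat := .win 801 2 800
noncomputable def n2798 : Strat := .move 886 n2465 (.cons 887 n2466 .nil)
noncomputable def n2799 : Strat := .move 845 n2797 (.cons 801 n2798 .nil)
noncomputable def n2800 : Strat := .move 845 n2798 (.cons 885 n2792 .nil)
noncomputable def n2801 : Strat := .move 800 n2796 (.cons 759 n2799 (.cons 801 n2800 .nil))
noncomputable def n2802 : Strat := .move 845 n2792 (.cons 803 n2462 .nil)
noncomputable def n2803 : Strat := .move 844 n2789 (.cons 886 n2794 (.cons 884 n2801 (.cons 885 n2802 .nil)))
noncomputable def n2804 : Strat := .move 843 n472 (.cons 880 n2803 .nil)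
noncomputable def n2805 : Strat := .move 841 n2757 (.cons 843 n2763 (.cons 880 n2785 (.cons 884 n2788 (.cons 882 n2804 .nil))))
noncomputable def n2806 : Strat := .win 802 2 801
noncomputable def n2807 : Strat := .move 846 n2458 (.cons 884 n2806 .nil)
noncomputable def n2808 : Strat := .move 845 n2278 (.cons 800 n2807 .nil)
noncomputable def n2809 : Strat := .win 846 2 801
noncomputable def n2810 : Strat := .move 802 n2809 (.cons 846 n2402 .nil)
noncomputable def n2811 : Strat := .move 845 n2278 (.cons 800 n2810 .nil)
noncomputable def n2812 : Strat := .win 845 2 800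
noncomputable def n2813 : Strat := .move 800 n2812 (.cons 845 n1665 .nil)
noncomputable def n2814 : Strat := .move 802 n2205 (.cons 965 n1793 .nil)
noncomputable def n2815 : Strat := .move 924 n2813 (.cons 759 n2814 .nil)
noncomputable def n2816 : Strat := .move 760 n2532 (.cons 884 n2380 .nil)
noncomputable def n2817 : Strat := .move 924 n2814 (.cons 761 n2642 (.cons 965 n2567 (.cons 802 n2816 .nil)))
noncomputable def n2818 : Strat := .move 884 n2279 (.cons 846 n2233 .nil)
noncomputable def n2819 : Strat := .move 845 n2278 (.cons 800 n2818 .nil)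
noncomputable def n2820 : Strat := .move 924 n2385 (.cons 720 n2532 .nil)
noncomputable def n2821 : Strat := .move 760 n2374 (.cons 925 n2379 (.cons 719 n2820 (.cons 884 n2544 .nil)))
noncomputable def n2822 : Strat := .move 844 n2808 (.cons 884 n2811 (.cons 846 n2815 (.cons 845 n2817 (.cons 802 n2819 (.cons 800 n2821 .nil)))))
noncomputable def n2823 : Strat := .move 964 n2238 (.cons 1005 n2237 .nil)
noncomputable def n2824 : Strat := .move 923 n1791 (.cons 760 n2823 .nil)
noncomputable def n2825 : Strat := .move 882 n2257 (.cons 880 n2824 .nil)
noncomputable def n2826 : Strat := .move 843 n2261 (.cons 882 n2822 (.cons 884 n2825 .nil))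
noncomputable def n2827 : Strat := .move 924 n2625 (.cons 761 n2697 (.cons 759 n2661 (.cons 884 n2646 (.cons 925 n2699 (.cons 843 n2620 (.cons 802 n2692 (.cons 760 n2700 .nil)))))))
noncomputable def n2828 : Strat := .move 884 n2370 (.cons 966 n2270 (.cons 925 n2372 .nil))
noncomputable def n2829 : Strat := .move 924 n2690 (.cons 965 n2692 (.cons 925 n2696 (.cons 884 n2642 .nil)))
noncomputable def n2830 : Strat := .move 843 n2261 (.cons 884 n2825 (.cons 880 n2828 (.cons 882 n2829 .nil)))
noncomputable def n2831 : Strat := .move 965 n2311 (.cons 1007 n2655 .nil)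
noncomputable def n2832 : Strat := .move 966 n2312 (.cons 925 n2831 .nil)
noncomputable def n2833 : Strat := .move 760 n2210 (.cons 719 n2496 .nil)
noncomputable def n2834 : Strat := .move 884 n2271 (.cons 760 n2832 (.cons 966 n2233 (.cons 925 n2833 .nil)))
noncomputable def n2835 : Strat := .move 760 n2531 (.cons 884 n2496 .nil)
noncomputable def n2836 : Strat := .move 925 n1950 (.cons 966 n2835 .nil)
noncomputable def n2837 : Strat := .move 760 n2495 (.cons 882 n2380 .nil)
noncomputable def n2838 : Strat := .move 923 n1790 (.cons 964 n2837 .nil)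
noncomputable def n2839 : Strat := .move 760 n2531 (.cons 884 n2380 .nil)
noncomputable def n2840 : Strat := .move 925 n1950 (.cons 966 n2839 .nil)
noncomputable def n2841 : Strat := .move 924 n2834 (.cons 1006 n2836 (.cons 884 n2566 (.cons 925 n2838 (.cons 923 n2840 .nil))))
noncomputable def n2842 : Strat := .move 761 n2322 (.cons 720 n2374 .nil)
noncomputable def n2843 : Strat := .move 924 n2532 (.cons 884 n2380 .nil)
noncomputable def n2844 : Strat := .move 761 n2322 (.cons 720 n2843 .nil)
noncomputable def n2845 : Strat := .move 719 n2541 (.cons 677 n2375 .nil)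
noncomputable def n2846 : Strat := .move 718 n2542 (.cons 759 n2845 .nil)
noncomputable def n2847 : Strat := .move 761 n2322 (.cons 720 n2846 .nil)
noncomputable def n2848 : Strat := .move 884 n2208 (.cons 925 n2210 .nil)
noncomputable def n2849 : Strat := .move 760 n2842 (.cons 719 n2844 (.cons 925 n2847 (.cons 761 n2848 (.cons 884 n2720 .nil))))
noncomputable def n2850 : Strat := .move 843 n2261 (.cons 884 n2825 (.cons 880 n2841 (.cons 882 n2849 .nil)))
noncomputable def n2851 : Strat := .move 843 n2261 (.cons 880 n2373 (.cons 882 n2383 (.cons 884 n2388 .nil)))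
noncomputable def n2852 : Strat := .move 760 n2848 (.cons 884 n2382 .nil)
noncomputable def n2853 : Strat := .move 843 n2261 (.cons 884 n2825 (.cons 882 n2852 .nil))
noncomputable def n2854 : Strat := .move 843 n2205 (.cons 965 n2404 .nil)
noncomputable def n2855 : Strat := .move 802 n1793 (.cons 761 n2854 .nil)
noncomputable def n2856 : Strat := .move 924 n2729 (.cons 882 n2700 (.cons 923 n2855 .nil))
noncomputable def n2857 : Strat := .move 759 n2325 (.cons 718 n2573 .nil)
noncomputable def n2858 : Strat := .move 761 n2322 (.cons 720 n2857 .nil)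
noncomputable def n2859 : Strat := .move 884 n2204 (.cons 844 n2210 .nil)
noncomputable def n2860 : Strat := .move 843 n2257 (.cons 880 n2859 .nil)
noncomputable def n2861 : Strat := .move 882 n1653 (.cons 923 n2860 .nil)
noncomputable def n2862 : Strat := .move 760 n2858 (.cons 924 n2861 .nil)
noncomputable def n2863 : Strat := .move 880 n1125 (.cons 925 n1128 .nil)
noncomputable def n2864 : Strat := .move 882 n1791 (.cons 760 n2863 .nil)
noncomputable def n2865 : Strat := .move 923 n1790 (.cons 964 n2864 .nil)
noncomputable def n2866 : Strat := .move 880 n1846 (.cons 879 n1128 .nil)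
noncomputable def n2867 : Strat := .move 882 n1791 (.cons 760 n2866 .nil)
noncomputable def n2868 : Strat := .move 923 n1790 (.cons 964 n2867 .nil)
noncomputable def n2869 : Strat := .move 882 n1653 (.cons 923 n2257 .nil)
noncomputable def n2870 : Strat := .move 760 n2869 (.cons 880 n2380 .nil)
noncomputable def n2871 : Strat := .move 843 n2205 (.cons 965 n2870 .nil)
noncomputable def n2872 : Strat := .move 802 n1793 (.cons 761 n2871 .nil)
noncomputable def n2873 : Strat := .move 965 n2518 (.cons 843 n2313 .nil)
noncomputable def n2874 : Strat := .move 802 n1793 (.cons 761 n2873 .nil)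
noncomputable def n2875 : Strat := .move 924 n2865 (.cons 882 n2646 (.cons 925 n2868 (.cons 964 n2872 (.cons 843 n2717 (.cons 923 n2874 .nil)))))
noncomputable def n2876 : Strat := .move 843 n2257 (.cons 880 n2374 .nil)
noncomputable def n2877 : Strat := .move 882 n1653 (.cons 923 n2876 .nil)
noncomputable def n2878 : Strat := .move 882 n2204 (.cons 844 n2257 .nil)
noncomputable def n2879 : Strat := .move 843 n2210 (.cons 719 n2878 .nil)
noncomputable def n2880 : Strat := .move 884 n2208 (.cons 925 n2879 .nil)
noncomputable def n2881 : Strat := .move 882 n2204 (.cons 844 n1653 .nil)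
noncomputable def n2882 : Strat := .move 884 n2208 (.cons 925 n2881 .nil)
noncomputable def n2883 : Strat := .win 761 1 719
noncomputable def n2884 : Strat := .move 719 n2693 (.cons 678 n2376 .nil)
noncomputable def n2885 : Strat := .move 720 n2883 (.cons 761 n2884 .nil)
noncomputable def n2886 : Strat := .move 802 n2374 (.cons 925 n2694 (.cons 719 n2882 (.cons 884 n2885 .nil)))
noncomputable def n2887 : Strat := .move 882 n1653 (.cons 923 n2544 .nil)
noncomputable def n2888 : Strat := .move 843 n2886 (.cons 884 n2887 (.cons 679 n2848 (.cons 719 n2882 .nil)))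
noncomputable def n2889 : Strat := .move 884 n2204 (.cons 844 n2208 .nil)
noncomputable def n2890 : Strat := .move 843 n2257 (.cons 880 n2889 .nil)
noncomputable def n2891 : Strat := .move 882 n1653 (.cons 923 n2890 .nil)
noncomputable def n2892 : Strat := .move 760 n2877 (.cons 923 n2880 (.cons 925 n2861 (.cons 880 n2888 (.cons 843 n2720 (.cons 719 n2891 .nil)))))
noncomputable def n2893 : Strat := .move 760 n2858 (.cons 924 n2880 .nil)
noncomputable def n2894 : Strat := .move 801 n2826 (.cons 882 n2827 (.cons 843 n2736 (.cons 761 n2830 (.cons 802 n2850 (.cons 964 n2851 (.cons 966 n2853 (.cons 760 n2856 (.cons 925 n2862 (.cons 884 n2875 (.cons 924 n2892 (.cons 923 n2893 .nil)))))))))))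
noncomputable def n2895 : Strat := .move 842 n2253 (.cons 963 n2305 (.cons 884 n2367 (.cons 964 n2396 (.cons 760 n2427 (.cons 720 n2443 (.cons 801 n2449 (.cons 924 n2472 (.cons 800 n2488 (.cons 880 n2615 (.cons 882 n2708 (.cons 843 n2756 (.cons 802 n2805 (.cons 841 n2894 .nil)))))))))))))
noncomputable def n2896 : Strat := .move 922 n1311 (.cons 963 n1101 .nil)
noncomputable def n2897 : Strat := .win 922 6 798
noncomputable def n2898 : Strat := .move 962 n889 (.cons 1004 n1539 .nil)
noncomputable def n2899 : Strat := .move 963 n2897 (.cons 922 n2898 .nil)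
noncomputable def n2900 : Strat := .move 798 n2141 (.cons 716 n2896 (.cons 922 n1936 (.cons 757 n2899 .nil)))
noncomputable def n2901 : Strat := .move 921 n1038 (.cons 920 n2900 .nil)
noncomputable def n2902 : Strat := .move 839 n2137 (.cons 920 n1850 (.cons 924 n2901 .nil))
noncomputable def n2903 : Strat := .move 839 n601 (.cons 838 n1850 .nil)
noncomputable def n2904 : Strat := .move 839 n601 (.cons 838 n2901 .nil)
noncomputable def n2905 : Strat := .move 921 n1038 (.cons 920 n1850 .nil)
noncomputable def n2906 : Strat := .move 880 n2154 (.cons 838 n2902 (.cons 920 n2903 (.cons 924 n2904 (.cons 839 n2905 .nil))))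
noncomputable def n2907 : Strat := .move 880 n2137 (.cons 920 n1850 (.cons 924 n2901 .nil))
noncomputable def n2908 : Strat := .move 839 n600 (.cons 884 n2907 .nil)
noncomputable def n2909 : Strat := .move 839 n600 (.cons 884 n1853 .nil)
noncomputable def n2910 : Strat := .win 842 5 839
noncomputable def n2911 : Strat := .move 843 n2910 (.cons 842 n2204 .nil)
noncomputable def n2912 : Strat := .move 884 n2166 (.cons 922 n2911 .nil)
noncomputable def n2913 : Strat := .move 921 n1038 (.cons 920 n2912 .nil)
noncomputable def n2914 : Strat := .move 880 n2182 (.cons 884 n2905 (.cons 923 n2913 (.cons 921 n1850 .nil)))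
noncomputable def n2915 : Strat := .win 839 2 839
noncomputable def n2916 : Strat := .move 844 n2511 (.cons 843 n2512 .nil)
noncomputable def n2917 : Strat := .move 885 n2244 (.cons 923 n2916 .nil)
noncomputable def n2918 : Strat := .move 922 n2191 (.cons 921 n2917 .nil)
noncomputable def n2919 : Strat := .move 884 n2915 (.cons 839 n2918 .nil)
noncomputable def n2920 : Strat := .move 882 n2139 (.cons 884 n2906 (.cons 838 n2908 (.cons 924 n2909 (.cons 839 n2914 (.cons 880 n2919 .nil)))))
noncomputable def n2921 : Strat := .move 839 n600 (.cons 884 n1826 .nil)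
noncomputable def n2922 : Strat := .move 839 n601 (.cons 838 n1835 .nil)
noncomputable def n2923 : Strat := .win 839 5 798
noncomputable def n2924 : Strat := .move 802 n130 (.cons 803 n2923 .nil)
noncomputable def n2925 : Strat := .move 801 n1832 (.cons 923 n2924 .nil)
noncomputable def n2926 : Strat := .move 800 n2550 (.cons 718 n2761 (.cons 922 n2925 .nil))
noncomputable def n2927 : Strat := .move 841 n2159 (.cons 879 n2926 .nil)
noncomputable def n2928 : Strat := .move 842 n1128 (.cons 843 n2927 .nil)
noncomputable def n2929 : Strat := .move 842 n1128 (.cons 843 n2363 .nil)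
noncomputable def n2930 : Strat := .move 880 n2152 (.cons 841 n2904 (.cons 922 n2922 (.cons 838 n2928 (.cons 839 n2929 .nil))))
noncomputable def n2931 : Strat := .move 885 n2243 (.cons 841 n2916 .nil)
noncomputable def n2932 : Strat := .move 885 n2243 (.cons 841 n2244 .nil)
noncomputable def n2933 : Strat := .move 922 n2191 (.cons 921 n2932 .nil)
noncomputable def n2934 : Strat := .move 921 n1038 (.cons 920 n2166 .nil)
noncomputable def n2935 : Strat := .move 880 n2910 (.cons 842 n2934 .nil)
noncomputable def n2936 : Strat := .move 843 n2204 (.cons 844 n2935 .nil)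
noncomputable def n2937 : Strat := .move 884 n2931 (.cons 843 n2933 (.cons 885 n2936 .nil))
noncomputable def n2938 : Strat := .move 882 n2135 (.cons 841 n2909 (.cons 837 n2921 (.cons 884 n2930 (.cons 839 n2937 .nil))))
noncomputable def n2939 : Strat := .move 879 n1124 (.cons 923 n1289 .nil)
noncomputable def n2940 : Strat := .move 924 n1125 (.cons 925 n2939 .nil)
noncomputable def n2941 : Strat := .move 879 n1295 (.cons 841 n1294 .nil)
noncomputable def n2942 : Strat := .move 842 n1128 (.cons 843 n2941 .nil)
noncomputable def n2943 : Strat := .win 886 4 882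
noncomputable def n2944 : Strat := .win 922 4 881
noncomputable def n2945 : Strat := .move 923 n2943 (.cons 886 n2944 .nil)
noncomputable def n2946 : Strat := .move 885 n2243 (.cons 841 n2945 .nil)
noncomputable def n2947 : Strat := .move 924 n1125 (.cons 925 n2946 .nil)
noncomputable def n2948 : Strat := .move 884 n2204 (.cons 844 n2947 .nil)
noncomputable def n2949 : Strat := .move 843 n2910 (.cons 842 n2948 .nil)
noncomputable def n2950 : Strat := .move 880 n2161 (.cons 842 n2940 (.cons 924 n2942 (.cons 841 n1850 (.cons 879 n2949 .nil))))
noncomputable def n2951 : Strat := .move 839 n600 (.cons 884 n601 .nil)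
noncomputable def n2952 : Strat := .move 880 n1128 (.cons 843 n2951 .nil)
noncomputable def n2953 : Strat := .move 802 n2205 (.cons 965 n2206 .nil)
noncomputable def n2954 : Strat := .move 965 n2655 (.cons 1006 n2307 .nil)
noncomputable def n2955 : Strat := .move 964 n2334 (.cons 801 n2238 .nil)
noncomputable def n2956 : Strat := .move 885 n2943 (.cons 886 n2944 .nil)
noncomputable def n2957 : Strat := .move 923 n1847 (.cons 760 n2955 (.cons 964 n2956 .nil))
noncomputable def n2958 : Strat := .move 924 n2953 (.cons 761 n2954 (.cons 965 n2957 .nil))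
noncomputable def n2959 : Strat := .move 843 n2204 (.cons 844 n2958 .nil)
noncomputable def n2960 : Strat := .move 884 n2915 (.cons 839 n2959 .nil)
noncomputable def n2961 : Strat := .move 880 n1128 (.cons 843 n2249 .nil)
noncomputable def n2962 : Strat := .move 842 n2952 (.cons 880 n2960 (.cons 839 n2961 (.cons 843 n2909 .nil)))
noncomputable def n2963 : Strat := .move 761 n2199 (.cons 720 n2198 .nil)
noncomputable def n2964 : Strat := .move 802 n1575 (.cons 803 n2963 .nil)
noncomputable def n2965 : Strat := .move 842 n472 (.cons 880 n2964 .nil)
noncomputable def n2966 : Strat := .move 843 n2204 (.cons 844 n2965 .nil)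
noncomputable def n2967 : Strat := .move 841 n2165 (.cons 885 n2966 .nil)
noncomputable def n2968 : Strat := .move 884 n2915 (.cons 839 n2967 .nil)
noncomputable def n2969 : Strat := .move 879 n1124 (.cons 923 n1858 .nil)
noncomputable def n2970 : Strat := .move 924 n1125 (.cons 925 n2969 .nil)
noncomputable def n2971 : Strat := .move 839 n601 (.cons 838 n2970 .nil)
noncomputable def n2972 : Strat := .move 879 n1124 (.cons 923 n2038 .nil)
noncomputable def n2973 : Strat := .move 924 n1125 (.cons 925 n2972 .nil)
noncomputable def n2974 : Strat := .move 839 n601 (.cons 838 n2973 .nil)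
noncomputable def n2975 : Strat := .move 839 n601 (.cons 838 n1798 .nil)
noncomputable def n2976 : Strat := .move 880 n2152 (.cons 842 n2971 (.cons 841 n2974 (.cons 879 n2975 (.cons 839 n2157 .nil))))
noncomputable def n2977 : Strat := .move 882 n2135 (.cons 839 n2950 (.cons 841 n2962 (.cons 837 n2921 (.cons 838 n2968 (.cons 884 n2976 .nil)))))
noncomputable def n2978 : Strat := .move 801 n2234 (.cons 923 n2270 (.cons 719 n2232 (.cons 760 n2240 .nil)))
noncomputable def n2979 : Strat := .move 842 n2257 (.cons 880 n2978 .nil)
noncomputable def n2980 : Strat := .move 843 n2204 (.cons 844 n2979 .nil)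
noncomputable def n2981 : Strat := .move 760 n2212 (.cons 923 n2475 (.cons 719 n2209 (.cons 801 n2214 .nil)))
noncomputable def n2982 : Strat := .move 802 n2963 (.cons 924 n2981 (.cons 720 n2207 (.cons 761 n2480 .nil)))
noncomputable def n2983 : Strat := .move 842 n2257 (.cons 880 n2982 .nil)
noncomputable def n2984 : Strat := .move 843 n2204 (.cons 844 n2983 .nil)
noncomputable def n2985 : Strat := .move 884 n2967 (.cons 843 n2246 (.cons 841 n2980 (.cons 885 n2984 .nil)))
noncomputable def n2986 : Strat := .move 884 n2915 (.cons 839 n2980 .nil)
noncomputable def n2987 : Strat := .move 839 n2144 (.cons 716 n1835 (.cons 842 n2970 (.cons 841 n1850 (.cons 879 n1798 .nil))))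
noncomputable def n2988 : Strat := .move 880 n2152 (.cons 842 n2971 (.cons 838 n2987 (.cons 841 n2903 (.cons 879 n2975 (.cons 839 n2157 .nil)))))
noncomputable def n2989 : Strat := .move 882 n2135 (.cons 839 n2985 (.cons 841 n2986 (.cons 884 n2988 .nil)))
noncomputable def n2990 : Strat := .move 884 n2165 (.cons 885 n2191 .nil)
noncomputable def n2991 : Strat := .move 922 n261 (.cons 963 n2990 .nil)
noncomputable def n2992 : Strat := .move 800 n2188 (.cons 922 n2194 (.cons 718 n2190 (.cons 759 n2991 .nil)))
noncomputable def n2993 : Strat := .move 880 n1038 (.cons 920 n1183 .nil)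
noncomputable def n2994 : Strat := .move 921 n2166 (.cons 922 n2993 .nil)
noncomputable def n2995 : Strat := .move 884 n2165 (.cons 885 n2994 .nil)
noncomputable def n2996 : Strat := .move 880 n2159 (.cons 879 n1125 .nil)
noncomputable def n2997 : Strat := .move 924 n1666 (.cons 965 n2996 .nil)
noncomputable def n2998 : Strat := .move 842 n2188 (.cons 718 n2433 (.cons 759 n2997 .nil))
noncomputable def n2999 : Strat := .move 924 n1194 (.cons 965 n2746 .nil)
noncomputable def n3000 : Strat := .win 842 3 800
noncomputable def n3001 : Strat := .move 801 n3000 (.cons 842 n479 .nil)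
noncomputable def n3002 : Strat := .move 964 n1503 (.cons 1005 n3001 .nil)
noncomputable def n3003 : Strat := .move 923 n2999 (.cons 924 n3002 .nil)
noncomputable def n3004 : Strat := .move 922 n261 (.cons 963 n3003 .nil)
noncomputable def n3005 : Strat := .move 800 n2998 (.cons 925 n2188 (.cons 759 n3004 (.cons 922 n2194 .nil)))
noncomputable def n3006 : Strat := .move 965 n2351 (.cons 800 n2350 .nil)
noncomputable def n3007 : Strat := .move 924 n1125 (.cons 925 n3006 .nil)
noncomputable def n3008 : Strat := .move 842 n2159 (.cons 879 n3007 .nil)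
noncomputable def n3009 : Strat := .move 879 n596 (.cons 878 n595 .nil)
noncomputable def n3010 : Strat := .move 879 n596 (.cons 878 n1907 .nil)
noncomputable def n3011 : Strat := .win 923 6 800
noncomputable def n3012 : Strat := .move 965 n3011 (.cons 923 n2350 .nil)
noncomputable def n3013 : Strat := .move 800 n1836 (.cons 759 n3012 .nil)
noncomputable def n3014 : Strat := .move 924 n1125 (.cons 925 n3013 .nil)
noncomputable def n3015 : Strat := .move 880 n3008 (.cons 925 n3009 (.cons 842 n3010 (.cons 879 n3014 .nil)))
noncomputable def n3016 : Strat := .move 841 n2992 (.cons 963 n2995 (.cons 921 n3005 (.cons 922 n3015 .nil)))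
noncomputable def n3017 : Strat := .move 879 n1857 (.cons 842 n1858 (.cons 841 n2362 .nil))
noncomputable def n3018 : Strat := .move 798 n2141 (.cons 716 n2145 (.cons 922 n1936 (.cons 757 n2899 .nil)))
noncomputable def n3019 : Strat := .move 921 n1038 (.cons 920 n3018 .nil)
noncomputable def n3020 : Strat := .move 879 n1857 (.cons 842 n1858 (.cons 841 n1907 .nil))
noncomputable def n3021 : Strat := .move 880 n3017 (.cons 879 n3019 (.cons 921 n3020 .nil))
noncomputable def n3022 : Strat := .move 839 n1094 (.cons 838 n3021 (.cons 841 n1853 .nil))
noncomputable def n3023 : Strat := .move 882 n2135 (.cons 839 n3016 (.cons 841 n2909 (.cons 884 n3022 .nil)))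
noncomputable def n3024 : Strat := .move 844 n2512 (.cons 845 n2511 .nil)
noncomputable def n3025 : Strat := .move 885 n2243 (.cons 841 n3024 .nil)
noncomputable def n3026 : Strat := .move 884 n2166 (.cons 922 n3025 .nil)
noncomputable def n3027 : Strat := .move 921 n1038 (.cons 920 n3026 .nil)
noncomputable def n3028 : Strat := .move 842 n1128 (.cons 843 n2360 .nil)
noncomputable def n3029 : Strat := .move 924 n2294 (.cons 923 n1125 .nil)
noncomputable def n3030 : Strat := .win 846 5 842
noncomputable def n3031 : Strat := .win 844 5 841
noncomputable def n3032 : Strat := .move 845 n3030 (.cons 846 n3031 .nil)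
noncomputable def n3033 : Strat := .move 886 n3029 (.cons 925 n3032 .nil)
noncomputable def n3034 : Strat := .move 885 n2243 (.cons 841 n3033 .nil)
noncomputable def n3035 : Strat := .move 884 n2166 (.cons 922 n3034 .nil)
noncomputable def n3036 : Strat := .move 921 n1038 (.cons 920 n3035 .nil)
noncomputable def n3037 : Strat := .move 880 n2172 (.cons 842 n3027 (.cons 921 n2949 (.cons 884 n3028 (.cons 841 n2913 (.cons 843 n3036 .nil)))))
noncomputable def n3038 : Strat := .move 880 n2149 (.cons 922 n1798 (.cons 843 n3019 .nil))
noncomputable def n3039 : Strat := .move 839 n1094 (.cons 838 n3038 (.cons 841 n1853 .nil))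
noncomputable def n3040 : Strat := .move 882 n2135 (.cons 839 n3037 (.cons 841 n2909 (.cons 884 n3039 .nil)))
noncomputable def n3041 : Strat := .move 841 n1183 (.cons 878 n2228 .nil)
noncomputable def n3042 : Strat := .move 962 n1539 (.cons 1003 n3041 .nil)
noncomputable def n3043 : Strat := .move 922 n493 (.cons 884 n3042 .nil)
noncomputable def n3044 : Strat := .move 921 n1038 (.cons 920 n3043 .nil)
noncomputable def n3045 : Strat := .move 880 n2161 (.cons 841 n2913 (.cons 843 n3044 (.cons 842 n3027 .nil)))
noncomputable def n3046 : Strat := .move 880 n2144 (.cons 922 n1840 (.cons 879 n3019 .nil))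
noncomputable def n3047 : Strat := .move 839 n1094 (.cons 838 n3046 (.cons 841 n1853 .nil))
noncomputable def n3048 : Strat := .move 882 n2135 (.cons 839 n3045 (.cons 884 n3047 (.cons 841 n2909 .nil)))
noncomputable def n3049 : Strat := .move 839 n601 (.cons 838 n2249 .nil)
noncomputable def n3050 : Strat := .move 842 n1128 (.cons 843 n3049 .nil)
noncomputable def n3051 : Strat := .move 841 n596 (.cons 878 n38 .nil)
noncomputable def n3052 : Strat := .move 879 n3051 (.cons 842 n1806 (.cons 841 n2362 .nil))
noncomputable def n3053 : Strat := .move 839 n601 (.cons 838 n3052 .nil)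
noncomputable def n3054 : Strat := .move 879 n1126 (.cons 925 n1858 .nil)
noncomputable def n3055 : Strat := .move 962 n1539 (.cons 1003 n3054 .nil)
noncomputable def n3056 : Strat := .move 921 n1038 (.cons 920 n3055 .nil)
noncomputable def n3057 : Strat := .move 839 n601 (.cons 838 n3056 .nil)
noncomputable def n3058 : Strat := .move 798 n2141 (.cons 716 n2896 (.cons 922 n2146 .nil))
noncomputable def n3059 : Strat := .move 921 n1038 (.cons 920 n3058 .nil)
noncomputable def n3060 : Strat := .move 842 n1128 (.cons 843 n3059 .nil)
noncomputable def n3061 : Strat := .move 839 n601 (.cons 838 n3060 .nil)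
noncomputable def n3062 : Strat := .move 880 n2152 (.cons 841 n3050 (.cons 843 n3053 (.cons 839 n2157 (.cons 842 n3057 (.cons 879 n3061 .nil)))))
noncomputable def n3063 : Strat := .move 884 n2915 (.cons 839 n2936 .nil)
noncomputable def n3064 : Strat := .move 922 n493 (.cons 884 n2228 .nil)
noncomputable def n3065 : Strat := .move 921 n1038 (.cons 920 n3064 .nil)
noncomputable def n3066 : Strat := .move 841 n2159 (.cons 879 n3065 .nil)
noncomputable def n3067 : Strat := .move 842 n1128 (.cons 843 n3066 .nil)
noncomputable def n3068 : Strat := .move 842 n1128 (.cons 843 n2250 .nil)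
noncomputable def n3069 : Strat := .move 884 n2166 (.cons 922 n2204 .nil)
noncomputable def n3070 : Strat := .move 843 n2910 (.cons 842 n3069 .nil)
noncomputable def n3071 : Strat := .move 921 n1038 (.cons 920 n3070 .nil)
noncomputable def n3072 : Strat := .move 880 n2157 (.cons 842 n2176 (.cons 924 n3067 (.cons 841 n3068 (.cons 879 n3071 .nil))))
noncomputable def n3073 : Strat := .move 882 n2135 (.cons 884 n3062 (.cons 838 n3063 (.cons 839 n3072 .nil)))
noncomputable def n3074 : Strat := .move 879 n1295 (.cons 841 n1298 .nil)
noncomputable def n3075 : Strat := .move 842 n1128 (.cons 843 n3074 .nil)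
noncomputable def n3076 : Strat := .move 842 n1127 (.cons 841 n1126 .nil)
noncomputable def n3077 : Strat := .move 879 n3076 (.cons 925 n3051 (.cons 841 n2362 .nil))
noncomputable def n3078 : Strat := .move 839 n601 (.cons 838 n3077 .nil)
noncomputable def n3079 : Strat := .move 879 n1297 (.cons 837 n2362 .nil)
noncomputable def n3080 : Strat := .move 838 n1296 (.cons 839 n3079 .nil)
noncomputable def n3081 : Strat := .move 880 n3075 (.cons 843 n3078 (.cons 842 n3080 (.cons 839 n2157 (.cons 879 n2975 .nil))))
noncomputable def n3082 : Strat := .move 841 n1331 (.cons 885 n2964 .nil)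
noncomputable def n3083 : Strat := .move 842 n2257 (.cons 880 n3082 .nil)
noncomputable def n3084 : Strat := .move 843 n2204 (.cons 844 n3083 .nil)
noncomputable def n3085 : Strat := .move 884 n2915 (.cons 839 n3084 .nil)
noncomputable def n3086 : Strat := .move 879 n1124 (.cons 923 n2362 .nil)
noncomputable def n3087 : Strat := .move 924 n1125 (.cons 925 n3086 .nil)
noncomputable def n3088 : Strat := .move 884 n2165 (.cons 885 n2204 .nil)
noncomputable def n3089 : Strat := .move 841 n3088 (.cons 885 n3014 .nil)
noncomputable def n3090 : Strat := .move 843 n2910 (.cons 842 n3089 .nil)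
noncomputable def n3091 : Strat := .move 880 n2157 (.cons 842 n3087 (.cons 924 n2929 (.cons 879 n3090 .nil)))
noncomputable def n3092 : Strat := .move 882 n2135 (.cons 884 n3081 (.cons 841 n2909 (.cons 838 n3085 (.cons 839 n3091 .nil))))
noncomputable def n3093 : Strat := .move 880 n2176 (.cons 922 n3087 (.cons 921 n2940 (.cons 879 n3027 .nil)))
noncomputable def n3094 : Strat := .move 884 n2915 (.cons 839 n2933 .nil)
noncomputable def n3095 : Strat := .move 841 n22 (.cons 800 n355 .nil)
noncomputable def n3096 : Strat := .move 922 n20 (.cons 798 n3095 .nil)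
noncomputable def n3097 : Strat := .move 879 n1099 (.cons 878 n1126 (.cons 924 n1817 .nil))
noncomputable def n3098 : Strat := .move 880 n441 (.cons 1004 n3097 .nil)
noncomputable def n3099 : Strat := .move 922 n20 (.cons 798 n3098 .nil)
noncomputable def n3100 : Strat := .move 921 n1038 (.cons 920 n2898 .nil)
noncomputable def n3101 : Strat := .move 880 n3100 (.cons 1003 n2137 (.cons 921 n1808 .nil))
noncomputable def n3102 : Strat := .win 922 7 798
noncomputable def n3103 : Strat := .move 920 n1928 (.cons 879 n1146 .nil)
noncomputable def n3104 : Strat := .move 757 n1483 (.cons 716 n3103 .nil)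
noncomputable def n3105 : Strat := .move 879 n1126 (.cons 925 n1817 .nil)
noncomputable def n3106 : Strat := .move 757 n1535 (.cons 920 n1483 .nil)
noncomputable def n3107 : Strat := .move 879 n1126 (.cons 925 n3106 .nil)
noncomputable def n3108 : Strat := .move 757 n637 (.cons 715 n1483 .nil)
noncomputable def n3109 : Strat := .move 921 n1552 (.cons 797 n1038 .nil)
noncomputable def n3110 : Strat := .move 756 n3108 (.cons 716 n3109 .nil)
noncomputable def n3111 : Strat := .move 880 n3104 (.cons 757 n3105 (.cons 921 n3107 (.cons 879 n3110 (.cons 920 n1842 .nil))))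
noncomputable def n3112 : Strat := .move 798 n3102 (.cons 922 n3111 .nil)
noncomputable def n3113 : Strat := .move 963 n3096 (.cons 841 n3099 (.cons 922 n3101 (.cons 1004 n3112 .nil)))
noncomputable def n3114 : Strat := .move 839 n1094 (.cons 838 n3113 (.cons 841 n1853 .nil))
noncomputable def n3115 : Strat := .move 882 n2135 (.cons 839 n3093 (.cons 841 n2909 (.cons 838 n3094 (.cons 884 n3114 .nil))))
noncomputable def n3116 : Strat := .move 882 n2915 (.cons 839 n2931 .nil)
noncomputable def n3117 : Strat := .win 839 0 839
noncomputable def n3118 : Strat := .move 885 n2774 (.cons 843 n2776 .nil)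
noncomputable def n3119 : Strat := .move 841 n3117 (.cons 839 n3118 .nil)
noncomputable def n3120 : Strat := .win 802 1 760
noncomputable def n3121 : Strat := .move 761 n3120 (.cons 802 n2322 .nil)
noncomputable def n3122 : Strat := .move 924 n3121 (.cons 720 n2380 .nil)
noncomputable def n3123 : Strat := .move 843 n2210 (.cons 719 n3122 .nil)
noncomputable def n3124 : Strat := .move 760 n2208 (.cons 925 n3123 .nil)
noncomputable def n3125 : Strat := .move 922 n2702 (.cons 885 n2272 .nil)
noncomputable def n3126 : Strat := .move 923 n1790 (.cons 964 n3125 .nil)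
noncomputable def n3127 : Strat := .move 925 n1950 (.cons 966 n3126 .nil)
noncomputable def n3128 : Strat := .move 965 n2311 (.cons 1007 n2686 .nil)
noncomputable def n3129 : Strat := .move 966 n2312 (.cons 925 n3128 .nil)
noncomputable def n3130 : Strat := .move 924 n3127 (.cons 925 n2700 (.cons 923 n3129 .nil))
noncomputable def n3131 : Strat := .win 924 6 801
noncomputable def n3132 : Strat := .move 966 n2217 (.cons 1007 n3131 .nil)
noncomputable def n3133 : Strat := .move 925 n2220 (.cons 760 n3132 .nil)
noncomputable def n3134 : Strat := .move 760 n2208 (.cons 925 n2507 .nil)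
noncomputable def n3135 : Strat := .move 719 n2502 (.cons 843 n2543 .nil)
noncomputable def n3136 : Strat := .move 760 n3123 (.cons 924 n2507 (.cons 719 n2382 (.cons 761 n3135 .nil)))
noncomputable def n3137 : Strat := .move 801 n3124 (.cons 760 n3130 (.cons 761 n3133 (.cons 924 n3134 (.cons 925 n3136 .nil))))
noncomputable def n3138 : Strat := .move 719 n2541 (.cons 677 n2502 .nil)
noncomputable def n3139 : Strat := .move 718 n2542 (.cons 759 n3138 .nil)
noncomputable def n3140 : Strat := .move 760 n2208 (.cons 925 n3139 .nil)
noncomputable def n3141 : Strat := .move 759 n1567 (.cons 924 n283 .nil)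
noncomputable def n3142 : Strat := .move 719 n2740 (.cons 678 n2502 .nil)
noncomputable def n3143 : Strat := .move 800 n1667 (.cons 965 n3141 (.cons 759 n3142 .nil))
noncomputable def n3144 : Strat := .move 760 n2208 (.cons 925 n3143 .nil)
noncomputable def n3145 : Strat := .move 803 n2590 (.cons 800 n2593 .nil)
noncomputable def n3146 : Strat := .move 802 n1793 (.cons 761 n3145 .nil)
noncomputable def n3147 : Strat := .move 803 n2591 (.cons 804 n2593 .nil)
noncomputable def n3148 : Strat := .move 802 n1793 (.cons 761 n3147 .nil)
noncomputable def n3149 : Strat := .move 924 n1953 (.cons 965 n2710 (.cons 759 n3146 (.cons 800 n3148 .nil)))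
noncomputable def n3150 : Strat := .move 924 n2385 (.cons 720 n1953 .nil)
noncomputable def n3151 : Strat := .move 760 n2208 (.cons 925 n3150 .nil)
noncomputable def n3152 : Strat := .move 966 n3131 (.cons 924 n2217 .nil)
noncomputable def n3153 : Strat := .move 925 n2220 (.cons 760 n3152 .nil)
noncomputable def n3154 : Strat := .move 801 n3140 (.cons 677 n3144 (.cons 760 n3149 (.cons 843 n3151 (.cons 759 n3153 .nil))))
noncomputable def n3155 : Strat := .move 841 n3117 (.cons 839 n3154 .nil)
noncomputable def n3156 : Strat := .move 924 n2385 (.cons 720 n2380 .nil)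
noncomputable def n3157 : Strat := .move 760 n2208 (.cons 925 n3156 .nil)
noncomputable def n3158 : Strat := .move 841 n3117 (.cons 839 n3157 .nil)
noncomputable def n3159 : Strat := .move 800 n1666 (.cons 965 n1665 .nil)
noncomputable def n3160 : Strat := .move 924 n2271 (.cons 760 n3159 .nil)
noncomputable def n3161 : Strat := .move 841 n3117 (.cons 839 n3160 .nil)
noncomputable def n3162 : Strat := .move 760 n2208 (.cons 925 n2500 .nil)
noncomputable def n3163 : Strat := .move 965 n2310 (.cons 923 n2313 .nil)
noncomputable def n3164 : Strat := .move 924 n3159 (.cons 759 n2650 (.cons 965 n2710 (.cons 800 n3163 .nil)))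
noncomputable def n3165 : Strat := .move 841 n3117 (.cons 839 n3164 .nil)
noncomputable def n3166 : Strat := .move 760 n2208 (.cons 925 n2544 .nil)
noncomputable def n3167 : Strat := .move 841 n3117 (.cons 839 n3166 .nil)
noncomputable def n3168 : Strat := .move 841 n3117 (.cons 839 n3153 .nil)
noncomputable def n3169 : Strat := .move 841 n3117 (.cons 839 n2651 .nil)
noncomputable def n3170 : Strat := .move 924 n1665 (.cons 759 n1793 .nil)
noncomputable def n3171 : Strat := .move 800 n130 (.cons 803 n3170 .nil)
noncomputable def n3172 : Strat := .move 841 n3117 (.cons 839 n3171 .nil)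
noncomputable def n3173 : Strat := .win 679 1 678
noncomputable def n3174 : Strat := .win 760 3 719
noncomputable def n3175 : Strat := .move 720 n3173 (.cons 679 n3174 .nil)
noncomputable def n3176 : Strat := .move 761 n2401 (.cons 924 n3175 .nil)
noncomputable def n3177 : Strat := .move 802 n3169 (.cons 804 n3172 (.cons 841 n3176 .nil))
noncomputable def n3178 : Strat := .move 801 n3158 (.cons 718 n3161 (.cons 841 n3162 (.cons 760 n3165 (.cons 924 n3167 (.cons 759 n3168 (.cons 925 n3177 .nil))))))
noncomputable def n3179 : Strat := .move 842 n3119 (.cons 841 n3137 (.cons 885 n3155 (.cons 843 n3178 .nil)))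
noncomputable def n3180 : Strat := .move 882 n2243 (.cons 841 n2916 .nil)
noncomputable def n3181 : Strat := .move 882 n2916 (.cons 844 n2245 .nil)
noncomputable def n3182 : Strat := .move 842 n2774 (.cons 843 n2776 .nil)
noncomputable def n3183 : Strat := .move 841 n2773 (.cons 882 n3182 .nil)
noncomputable def n3184 : Strat := .move 882 n2243 (.cons 841 n2245 .nil)
noncomputable def n3185 : Strat := .win 841 2 841
noncomputable def n3186 : Strat := .win 843 2 842
noncomputable def n3187 : Strat := .win 925 4 883
noncomputable def n3188 : Strat := .move 887 n3186 (.cons 843 n3187 .nil)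
noncomputable def n3189 : Strat := .move 842 n3185 (.cons 841 n3188 .nil)
noncomputable def n3190 : Strat := .move 886 n2294 (.cons 923 n3189 .nil)
noncomputable def n3191 : Strat := .win 929 0 884
noncomputable def n3192 : Strat := .win 927 0 883
noncomputable def n3193 : Strat := .move 928 n3191 (.cons 929 n3192 .nil)
noncomputable def n3194 : Strat := .move 887 n3187 (.cons 925 n3193 .nil)
noncomputable def n3195 : Strat := .move 886 n2294 (.cons 923 n3194 .nil)
noncomputable def n3196 : Strat := .move 965 n2307 (.cons 802 n2655 .nil)
noncomputable def n3197 : Strat := .move 843 n2293 (.cons 887 n3196 .nil)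
noncomputable def n3198 : Strat := .move 842 n3185 (.cons 841 n3197 .nil)
noncomputable def n3199 : Strat := .move 886 n2294 (.cons 923 n3198 .nil)
noncomputable def n3200 : Strat := .move 886 n3185 (.cons 841 n3188 .nil)
noncomputable def n3201 : Strat := .move 843 n2307 (.cons 802 n2655 .nil)
noncomputable def n3202 : Strat := .move 965 n3201 (.cons 1006 n2686 (.cons 802 n2313 .nil))
noncomputable def n3203 : Strat := .move 760 n2208 (.cons 925 n2324 .nil)
noncomputable def n3204 : Strat := .move 801 n2271 (.cons 760 n3202 (.cons 966 n3203 (.cons 925 n2328 .nil)))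
noncomputable def n3205 : Strat := .win 887 4 883
noncomputable def n3206 : Strat := .move 801 n1950 (.cons 966 n2220 .nil)
noncomputable def n3207 : Strat := .move 925 n3205 (.cons 887 n3206 .nil)
noncomputable def n3208 : Strat := .move 886 n3185 (.cons 841 n3207 .nil)
noncomputable def n3209 : Strat := .move 886 n3185 (.cons 841 n3197 .nil)
noncomputable def n3210 : Strat := .move 842 n3200 (.cons 841 n3204 (.cons 843 n3208 (.cons 925 n3209 .nil)))
noncomputable def n3211 : Strat := .move 843 n2284 (.cons 841 n3196 .nil)
noncomputable def n3212 : Strat := .win 922 5 881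
noncomputable def n3213 : Strat := .move 923 n1790 (.cons 964 n3212 .nil)
noncomputable def n3214 : Strat := .move 925 n1950 (.cons 966 n3213 .nil)
noncomputable def n3215 : Strat := .move 965 n2310 (.cons 923 n3201 .nil)
noncomputable def n3216 : Strat := .move 801 n2271 (.cons 760 n3214 (.cons 966 n3203 (.cons 925 n3215 .nil)))
noncomputable def n3217 : Strat := .move 759 n283 (.cons 718 n2782 .nil)
noncomputable def n3218 : Strat := .move 800 n1666 (.cons 965 n3217 .nil)
noncomputable def n3219 : Strat := .move 841 n2774 (.cons 843 n3218 .nil)
noncomputable def n3220 : Strat := .win 925 5 881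
noncomputable def n3221 : Strat := .move 922 n3220 (.cons 925 n2272 .nil)
noncomputable def n3222 : Strat := .move 923 n1790 (.cons 964 n3221 .nil)
noncomputable def n3223 : Strat := .move 965 n2310 (.cons 923 n2357 .nil)
noncomputable def n3224 : Strat := .move 801 n2271 (.cons 760 n3222 (.cons 925 n3223 .nil))
noncomputable def n3225 : Strat := .move 843 n2210 (.cons 719 n2284 .nil)
noncomputable def n3226 : Strat := .move 760 n2324 (.cons 802 n3225 .nil)
noncomputable def n3227 : Strat := .move 801 n2271 (.cons 760 n3214 (.cons 966 n3203 (.cons 925 n3226 .nil)))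
noncomputable def n3228 : Strat := .move 842 n3211 (.cons 841 n3216 (.cons 802 n3219 (.cons 843 n3224 (.cons 965 n3227 .nil))))
noncomputable def n3229 : Strat := .move 924 n3190 (.cons 843 n3195 (.cons 925 n3199 (.cons 923 n3210 (.cons 886 n3228 .nil))))
noncomputable def n3230 : Strat := .move 885 n3180 (.cons 841 n3181 (.cons 844 n3183 (.cons 843 n3184 (.cons 882 n3229 .nil))))
noncomputable def n3231 : Strat := .move 882 n2915 (.cons 839 n2918 .nil)
noncomputable def n3232 : Strat := .move 882 n2915 (.cons 839 n2246 .nil)
noncomputable def n3233 : Strat := .win 882 2 839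
noncomputable def n3234 : Strat := .win 841 0 839
noncomputable def n3235 : Strat := .move 839 n3233 (.cons 882 n3234 .nil)
noncomputable def n3236 : Strat := .move 843 n2210 (.cons 719 n2204 .nil)
noncomputable def n3237 : Strat := .move 882 n1653 (.cons 923 n3236 .nil)
noncomputable def n3238 : Strat := .move 760 n2208 (.cons 925 n3237 .nil)
noncomputable def n3239 : Strat := .move 841 n3140 (.cons 677 n3144 (.cons 760 n3149 (.cons 843 n3151 (.cons 759 n3153 .nil))))
noncomputable def n3240 : Strat := .move 882 n1653 (.cons 923 n3156 .nil)
noncomputable def n3241 : Strat := .move 760 n3237 (.cons 882 n2507 (.cons 719 n3240 .nil))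
noncomputable def n3242 : Strat := .move 760 n2208 (.cons 925 n2510 .nil)
noncomputable def n3243 : Strat := .move 802 n2963 (.cons 924 n2224 .nil)
noncomputable def n3244 : Strat := .move 925 n2219 (.cons 966 n3243 .nil)
noncomputable def n3245 : Strat := .move 843 n2372 (.cons 844 n3244 .nil)
noncomputable def n3246 : Strat := .move 801 n3238 (.cons 882 n3239 (.cons 925 n3241 (.cons 843 n3242 (.cons 719 n3133 (.cons 760 n3245 .nil)))))
noncomputable def n3247 : Strat := .move 843 n2204 (.cons 844 n2953 .nil)
noncomputable def n3248 : Strat := .move 882 n2915 (.cons 839 n3247 .nil)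
noncomputable def n3249 : Strat := .move 843 n2204 (.cons 844 n2954 .nil)
noncomputable def n3250 : Strat := .move 882 n2915 (.cons 839 n3249 .nil)
noncomputable def n3251 : Strat := .move 760 n1653 (.cons 923 n2208 .nil)
noncomputable def n3252 : Strat := .move 801 n2271 (.cons 760 n3163 (.cons 966 n3251 (.cons 925 n2564 .nil)))
noncomputable def n3253 : Strat := .move 882 n2915 (.cons 839 n3252 .nil)
noncomputable def n3254 : Strat := .move 923 n2495 (.cons 882 n1790 .nil)
noncomputable def n3255 : Strat := .move 760 n2208 (.cons 925 n3254 .nil)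
noncomputable def n3256 : Strat := .move 965 n2311 (.cons 1007 n2310 .nil)
noncomputable def n3257 : Strat := .move 966 n2312 (.cons 925 n3256 .nil)
noncomputable def n3258 : Strat := .move 760 n2495 (.cons 882 n2324 .nil)
noncomputable def n3259 : Strat := .move 923 n1790 (.cons 964 n3258 .nil)
noncomputable def n3260 : Strat := .move 801 n2626 (.cons 966 n3255 (.cons 760 n3257 (.cons 925 n3259 .nil)))
noncomputable def n3261 : Strat := .move 760 n2322 (.cons 720 n2327 .nil)
noncomputable def n3262 : Strat := .move 761 n2323 (.cons 802 n3261 .nil)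
noncomputable def n3263 : Strat := .move 801 n2626 (.cons 966 n3203 (.cons 925 n3262 (.cons 760 n3257 .nil)))
noncomputable def n3264 : Strat := .move 801 n1790 (.cons 964 n2271 .nil)
noncomputable def n3265 : Strat := .move 801 n1791 (.cons 760 n1790 .nil)
noncomputable def n3266 : Strat := .move 882 n2915 (.cons 839 n3265 .nil)
noncomputable def n3267 : Strat := .move 964 n2238 (.cons 1005 n2334 .nil)
noncomputable def n3268 : Strat := .move 882 n2915 (.cons 839 n3267 .nil)
noncomputable def n3269 : Strat := .move 962 n871 (.cons 925 n34 .nil)
noncomputable def n3270 : Strat := .move 839 n20 (.cons 798 n3233 .nil)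
noncomputable def n3271 : Strat := .move 963 n3269 (.cons 1003 n3270 .nil)
noncomputable def n3272 : Strat := .move 922 n2272 (.cons 921 n3271 .nil)
noncomputable def n3273 : Strat := .move 923 n3264 (.cons 966 n3266 (.cons 760 n3268 (.cons 801 n3272 .nil)))
noncomputable def n3274 : Strat := .move 924 n3248 (.cons 761 n3250 (.cons 843 n3253 (.cons 839 n3260 (.cons 882 n3263 (.cons 965 n3273 .nil)))))
noncomputable def n3275 : Strat := .move 842 n3235 (.cons 839 n3246 (.cons 882 n3155 (.cons 841 n3274 .nil)))
noncomputable def n3276 : Strat := .move 884 n3116 (.cons 882 n3179 (.cons 839 n3230 (.cons 841 n3231 (.cons 843 n3232 (.cons 885 n3275 .nil)))))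
noncomputable def n3277 : Strat := .move 839 n265 (.cons 884 n1330 .nil)
noncomputable def n3278 : Strat := .move 843 n472 (.cons 880 n2303 .nil)
noncomputable def n3279 : Strat := .move 880 n42 (.cons 879 n2142 .nil)
noncomputable def n3280 : Strat := .move 839 n265 (.cons 884 n3279 .nil)
noncomputable def n3281 : Strat := .win 839 4 838
noncomputable def n3282 : Strat := .move 879 n3281 (.cons 839 n596 .nil)
noncomputable def n3283 : Strat := .move 880 n41 (.cons 843 n3282 .nil)
noncomputable def n3284 : Strat := .move 884 n3117 (.cons 839 n3118 .nil)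
noncomputable def n3285 : Strat := .move 841 n3277 (.cons 839 n3278 (.cons 843 n3280 (.cons 884 n3283 (.cons 880 n3284 .nil))))
noncomputable def n3286 : Strat := .move 880 n42 (.cons 879 n2141 .nil)
noncomputable def n3287 : Strat := .move 798 n249 (.cons 797 n3286 .nil)
noncomputable def n3288 : Strat := .move 839 n265 (.cons 884 n3287 .nil)
noncomputable def n3289 : Strat := .win 880 6 757
noncomputable def n3290 : Strat := .move 757 n3289 (.cons 880 n1483 .nil)
noncomputable def n3291 : Strat := .move 922 n165 (.cons 963 n3290 .nil)
noncomputable def n3292 : Strat := .move 798 n249 (.cons 797 n3291 .nil)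
noncomputable def n3293 : Strat := .move 839 n265 (.cons 884 n3292 .nil)
noncomputable def n3294 : Strat := .move 843 n472 (.cons 880 n2454 .nil)
noncomputable def n3295 : Strat := .move 838 n1459 (.cons 800 n1436 .nil)
noncomputable def n3296 : Strat := .move 801 n268 (.cons 802 n3295 .nil)
noncomputable def n3297 : Strat := .move 839 n265 (.cons 884 n3296 .nil)
noncomputable def n3298 : Strat := .move 841 n3277 (.cons 843 n3288 (.cons 884 n3283 (.cons 879 n3293 (.cons 839 n3294 (.cons 880 n3297 .nil)))))
noncomputable def n3299 : Strat := .move 884 n3119 (.cons 841 n3137 (.cons 885 n3155 (.cons 843 n3178 .nil)))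
noncomputable def n3300 : Strat := .move 841 n3277 (.cons 839 n2804 (.cons 884 n3283 (.cons 880 n3284 (.cons 843 n3280 .nil))))
noncomputable def n3301 : Strat := .move 839 n1330 (.cons 843 n1669 .nil)
noncomputable def n3302 : Strat := .move 839 n265 (.cons 884 n1669 .nil)
noncomputable def n3303 : Strat := .move 841 n3277 (.cons 839 n3278 (.cons 884 n3301 (.cons 843 n3302 .nil)))
noncomputable def n3304 : Strat := .move 843 n472 (.cons 880 n2415 .nil)
noncomputable def n3305 : Strat := .move 884 n3117 (.cons 839 n3154 .nil)
noncomputable def n3306 : Strat := .move 841 n3277 (.cons 839 n3304 (.cons 880 n3305 (.cons 843 n3280 (.cons 884 n3283 .nil))))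
noncomputable def n3307 : Strat := .move 839 n268 (.cons 802 n265 .nil)
noncomputable def n3308 : Strat := .move 841 n1666 (.cons 965 n3307 .nil)
noncomputable def n3309 : Strat := .move 800 n1665 (.cons 759 n3308 .nil)
noncomputable def n3310 : Strat := .move 839 n464 (.cons 838 n265 .nil)
noncomputable def n3311 : Strat := .move 841 n1666 (.cons 965 n3310 .nil)
noncomputable def n3312 : Strat := .move 800 n1665 (.cons 759 n3311 .nil)
noncomputable def n3313 : Strat := .move 802 n2923 (.cons 839 n1793 .nil)
noncomputable def n3314 : Strat := .move 841 n1666 (.cons 965 n3313 .nil)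
noncomputable def n3315 : Strat := .move 800 n1665 (.cons 759 n3314 .nil)
noncomputable def n3316 : Strat := .move 801 n3309 (.cons 800 n2620 (.cons 802 n3312 (.cons 884 n3315 .nil)))
noncomputable def n3317 : Strat := .move 879 n39 (.cons 878 n271 .nil)
noncomputable def n3318 : Strat := .move 838 n1436 (.cons 798 n3317 .nil)
noncomputable def n3319 : Strat := .move 839 n265 (.cons 884 n3318 .nil)
noncomputable def n3320 : Strat := .move 841 n2351 (.cons 800 n3319 .nil)
noncomputable def n3321 : Strat := .move 965 n3320 (.cons 839 n2667 (.cons 841 n2666 .nil))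
noncomputable def n3322 : Strat := .move 965 n2308 (.cons 1005 n2328 .nil)
noncomputable def n3323 : Strat := .move 964 n2309 (.cons 923 n3322 .nil)
noncomputable def n3324 : Strat := .move 884 n2220 (.cons 760 n2633 .nil)
noncomputable def n3325 : Strat := .move 923 n1790 (.cons 964 n3324 .nil)
noncomputable def n3326 : Strat := .move 925 n1950 (.cons 966 n3325 .nil)
noncomputable def n3327 : Strat := .move 801 n2620 (.cons 925 n3323 (.cons 761 n3326 (.cons 760 n3257 .nil)))
noncomputable def n3328 : Strat := .move 800 n130 (.cons 803 n1665 .nil)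
noncomputable def n3329 : Strat := .move 841 n2923 (.cons 839 n3328 .nil)
noncomputable def n3330 : Strat := .move 802 n1793 (.cons 761 n3329 .nil)
noncomputable def n3331 : Strat := .move 760 n2324 (.cons 802 n2622 .nil)
noncomputable def n3332 : Strat := .move 800 n1665 (.cons 759 n3331 .nil)
noncomputable def n3333 : Strat := .move 760 n2325 (.cons 718 n2622 .nil)
noncomputable def n3334 : Strat := .move 759 n2326 (.cons 800 n3333 .nil)
noncomputable def n3335 : Strat := .move 841 n2710 (.cons 803 n3332 (.cons 759 n2652 (.cons 800 n2620 (.cons 802 n3334 .nil))))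
noncomputable def n3336 : Strat := .move 801 n3330 (.cons 839 n3335 (.cons 841 n2620 (.cons 802 n2692 .nil)))
noncomputable def n3337 : Strat := .move 759 n2782 (.cons 801 n283 .nil)
noncomputable def n3338 : Strat := .move 800 n1666 (.cons 965 n3337 .nil)
noncomputable def n3339 : Strat := .move 800 n464 (.cons 838 n1666 .nil)
noncomputable def n3340 : Strat := .move 801 n268 (.cons 802 n3339 .nil)
noncomputable def n3341 : Strat := .move 839 n265 (.cons 884 n3340 .nil)
noncomputable def n3342 : Strat := .move 801 n268 (.cons 802 n3318 .nil)
noncomputable def n3343 : Strat := .move 839 n265 (.cons 884 n3342 .nil)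
noncomputable def n3344 : Strat := .move 800 n1666 (.cons 965 n3318 .nil)
noncomputable def n3345 : Strat := .move 839 n265 (.cons 884 n3344 .nil)
noncomputable def n3346 : Strat := .move 841 n3338 (.cons 759 n3341 (.cons 800 n3343 (.cons 801 n3345 .nil)))
noncomputable def n3347 : Strat := .move 841 n2923 (.cons 839 n3163 .nil)
noncomputable def n3348 : Strat := .move 802 n1793 (.cons 761 n3347 .nil)
noncomputable def n3349 : Strat := .move 801 n3315 (.cons 802 n2526 (.cons 800 n3348 (.cons 841 n2566 (.cons 965 n3330 .nil))))
noncomputable def n3350 : Strat := .move 841 n265 (.cons 884 n3342 .nil)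
noncomputable def n3351 : Strat := .move 801 n268 (.cons 802 n3163 .nil)
noncomputable def n3352 : Strat := .move 841 n265 (.cons 884 n3351 .nil)
noncomputable def n3353 : Strat := .move 841 n268 (.cons 802 n3318 .nil)
noncomputable def n3354 : Strat := .move 801 n3353 (.cons 802 n2566 .nil)
noncomputable def n3355 : Strat := .move 841 n265 (.cons 884 n3287 .nil)
noncomputable def n3356 : Strat := .move 963 n20 (.cons 798 n435 .nil)
noncomputable def n3357 : Strat := .move 921 n514 (.cons 879 n513 .nil)
noncomputable def n3358 : Strat := .move 880 n515 (.cons 925 n3357 .nil)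
noncomputable def n3359 : Strat := .move 923 n3358 (.cons 880 n2338 .nil)
noncomputable def n3360 : Strat := .move 964 n54 (.cons 1005 n2334 .nil)
noncomputable def n3361 : Strat := .move 923 n3360 (.cons 801 n3269 .nil)
noncomputable def n3362 : Strat := .move 963 n20 (.cons 798 n3361 .nil)
noncomputable def n3363 : Strat := .move 922 n3356 (.cons 963 n3359 (.cons 880 n3362 .nil))
noncomputable def n3364 : Strat := .move 839 n3350 (.cons 878 n3352 (.cons 884 n3354 (.cons 801 n3355 (.cons 841 n3363 .nil))))
noncomputable def n3365 : Strat := .move 924 n3316 (.cons 801 n3321 (.cons 841 n3327 (.cons 965 n3336 (.cons 966 n3346 (.cons 884 n3349 (.cons 800 n3364 .nil))))))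
noncomputable def n3366 : Strat := .move 843 n472 (.cons 880 n1331 .nil)
noncomputable def n3367 : Strat := .move 841 n3117 (.cons 839 n3366 .nil)
noncomputable def n3368 : Strat := .move 922 n2632 (.cons 880 n2272 .nil)
noncomputable def n3369 : Strat := .move 923 n1790 (.cons 964 n3368 .nil)
noncomputable def n3370 : Strat := .move 925 n1950 (.cons 966 n3369 .nil)
noncomputable def n3371 : Strat := .move 924 n3370 (.cons 880 n3127 (.cons 925 n2700 (.cons 923 n3129 .nil)))
noncomputable def n3372 : Strat := .move 760 n2507 (.cons 843 n2500 (.cons 761 n3135 .nil))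
noncomputable def n3373 : Strat := .move 801 n3134 (.cons 760 n3371 (.cons 843 n3162 (.cons 761 n3133 (.cons 925 n3372 .nil))))
noncomputable def n3374 : Strat := .move 843 n2210 (.cons 719 n472 .nil)
noncomputable def n3375 : Strat := .move 841 n3117 (.cons 839 n3374 .nil)
noncomputable def n3376 : Strat := .move 760 n2208 (.cons 925 n3375 .nil)
noncomputable def n3377 : Strat := .move 965 n2307 (.cons 802 n2351 .nil)
noncomputable def n3378 : Strat := .move 843 n472 (.cons 880 n3377 .nil)
noncomputable def n3379 : Strat := .move 800 n261 (.cons 963 n1665 .nil)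
noncomputable def n3380 : Strat := .move 923 n2272 (.cons 921 n1790 .nil)
noncomputable def n3381 : Strat := .move 922 n3379 (.cons 759 n3380 .nil)
noncomputable def n3382 : Strat := .move 843 n472 (.cons 880 n2953 .nil)
noncomputable def n3383 : Strat := .move 924 n3159 (.cons 759 n3378 (.cons 965 n3381 (.cons 800 n3382 .nil)))
noncomputable def n3384 : Strat := .move 841 n3117 (.cons 839 n3383 .nil)
noncomputable def n3385 : Strat := .move 801 n3376 (.cons 760 n3384 (.cons 880 n3134 (.cons 843 n3158 .nil)))
noncomputable def n3386 : Strat := .move 841 n3117 (.cons 839 n3218 .nil)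
noncomputable def n3387 : Strat := .move 801 n2271 (.cons 760 n3159 .nil)
noncomputable def n3388 : Strat := .move 841 n3117 (.cons 839 n3387 .nil)
noncomputable def n3389 : Strat := .move 965 n2351 (.cons 800 n2346 .nil)
noncomputable def n3390 : Strat := .move 841 n3117 (.cons 839 n3389 .nil)
noncomputable def n3391 : Strat := .move 923 n1790 (.cons 964 n2328 .nil)
noncomputable def n3392 : Strat := .move 925 n1950 (.cons 966 n3368 .nil)
noncomputable def n3393 : Strat := .move 923 n1790 (.cons 964 n3392 .nil)
noncomputable def n3394 : Strat := .move 801 n2626 (.cons 925 n3391 (.cons 760 n3393 .nil))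
noncomputable def n3395 : Strat := .move 925 n2702 (.cons 885 n2632 .nil)
noncomputable def n3396 : Strat := .move 922 n2272 (.cons 921 n3395 .nil)
noncomputable def n3397 : Strat := .move 923 n3264 (.cons 801 n3396 (.cons 925 n2338 .nil))
noncomputable def n3398 : Strat := .move 839 n3234 (.cons 841 n3397 .nil)
noncomputable def n3399 : Strat := .move 924 n3386 (.cons 718 n3388 (.cons 801 n3390 (.cons 841 n3394 (.cons 800 n3398 .nil))))
noncomputable def n3400 : Strat := .move 884 n3367 (.cons 880 n3119 (.cons 841 n3373 (.cons 885 n3385 (.cons 843 n3399 .nil))))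
noncomputable def n3401 : Strat := .move 841 n41 (.cons 843 n3282 .nil)
noncomputable def n3402 : Strat := .move 925 n2319 (.cons 922 n1950 .nil)
noncomputable def n3403 : Strat := .move 923 n1790 (.cons 964 n3402 .nil)
noncomputable def n3404 : Strat := .move 843 n2814 (.cons 761 n2642 (.cons 965 n3403 .nil))
noncomputable def n3405 : Strat := .move 801 n3404 (.cons 923 n2645 (.cons 802 n3403 .nil))
noncomputable def n3406 : Strat := .move 879 n596 (.cons 878 n3281 .nil)
noncomputable def n3407 : Strat := .move 841 n1666 (.cons 965 n3406 .nil)
noncomputable def n3408 : Strat := .move 800 n1665 (.cons 759 n3407 .nil)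
noncomputable def n3409 : Strat := .move 801 n3408 (.cons 800 n3403 .nil)
noncomputable def n3410 : Strat := .move 880 n3401 (.cons 841 n3405 (.cons 843 n3409 .nil))
noncomputable def n3411 : Strat := .move 759 n2326 (.cons 800 n2873 .nil)
noncomputable def n3412 : Strat := .move 802 n1793 (.cons 761 n3411 .nil)
noncomputable def n3413 : Strat := .move 801 n2700 (.cons 802 n2566 (.cons 964 n3412 (.cons 965 n3262 .nil)))
noncomputable def n3414 : Strat := .move 843 n472 (.cons 880 n2307 .nil)
noncomputable def n3415 : Strat := .move 841 n2351 (.cons 800 n3414 .nil)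
noncomputable def n3416 : Strat := .move 965 n3415 (.cons 843 n2666 .nil)
noncomputable def n3417 : Strat := .move 843 n2205 (.cons 965 n472 .nil)
noncomputable def n3418 : Strat := .move 841 n2923 (.cons 839 n3417 .nil)
noncomputable def n3419 : Strat := .move 802 n1793 (.cons 761 n3418 .nil)
noncomputable def n3420 : Strat := .move 843 n1575 (.cons 803 n472 .nil)
noncomputable def n3421 : Strat := .move 841 n2923 (.cons 839 n3420 .nil)
noncomputable def n3422 : Strat := .move 802 n1793 (.cons 761 n3421 .nil)
noncomputable def n3423 : Strat := .move 801 n3419 (.cons 843 n3348 (.cons 839 n2618 (.cons 802 n2566 (.cons 965 n3422 .nil))))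
noncomputable def n3424 : Strat := .move 966 n2311 (.cons 1007 n2674 .nil)
noncomputable def n3425 : Strat := .move 964 n2308 (.cons 1005 n3424 .nil)
noncomputable def n3426 : Strat := .move 880 n41 (.cons 843 n3406 .nil)
noncomputable def n3427 : Strat := .move 841 n2351 (.cons 800 n3426 .nil)
noncomputable def n3428 : Strat := .move 965 n3425 (.cons 1007 n3427 .nil)
noncomputable def n3429 : Strat := .move 841 n3338 (.cons 759 n3283 .nil)
noncomputable def n3430 : Strat := .move 801 n3403 (.cons 922 n2645 .nil)
noncomputable def n3431 : Strat := .move 880 n3401 (.cons 841 n3430 .nil)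
noncomputable def n3432 : Strat := .move 924 n3410 (.cons 841 n3413 (.cons 843 n3349 (.cons 801 n3416 (.cons 800 n3423 (.cons 802 n3428 (.cons 964 n3429 (.cons 965 n3431 .nil)))))))
noncomputable def n3433 : Strat := .move 801 n2700 (.cons 843 n2620 (.cons 802 n2692 .nil))
noncomputable def n3434 : Strat := .move 801 n2620 (.cons 884 n3262 (.cons 802 n2692 (.cons 760 n2706 .nil)))
noncomputable def n3435 : Strat := .move 965 n2518 (.cons 843 n2308 .nil)
noncomputable def n3436 : Strat := .move 964 n2309 (.cons 923 n3435 .nil)
noncomputable def n3437 : Strat := .move 759 n2326 (.cons 800 n3436 .nil)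
noncomputable def n3438 : Strat := .move 802 n1793 (.cons 761 n3437 .nil)
noncomputable def n3439 : Strat := .move 801 n2636 (.cons 966 n3438 (.cons 964 n2692 .nil))
noncomputable def n3440 : Strat := .move 801 n2312 (.cons 925 n2310 .nil)
noncomputable def n3441 : Strat := .move 966 n2311 (.cons 1007 n3440 .nil)
noncomputable def n3442 : Strat := .move 1006 n2668 (.cons 884 n2342 .nil)
noncomputable def n3443 : Strat := .move 966 n2311 (.cons 1007 n3442 .nil)
noncomputable def n3444 : Strat := .move 843 n2307 (.cons 802 n3443 .nil)
noncomputable def n3445 : Strat := .move 801 n2312 (.cons 925 n2686 .nil)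
noncomputable def n3446 : Strat := .move 966 n2311 (.cons 1007 n3445 .nil)
noncomputable def n3447 : Strat := .move 965 n3441 (.cons 801 n3444 (.cons 1007 n2688 (.cons 964 n3446 .nil)))
noncomputable def n3448 : Strat := .move 802 n1793 (.cons 761 n2692 .nil)
noncomputable def n3449 : Strat := .move 719 n2375 (.cons 884 n2693 .nil)
noncomputable def n3450 : Strat := .move 760 n2327 (.cons 800 n3449 .nil)
noncomputable def n3451 : Strat := .move 843 n2205 (.cons 965 n3450 .nil)
noncomputable def n3452 : Strat := .move 802 n1793 (.cons 761 n3451 .nil)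
noncomputable def n3453 : Strat := .move 801 n3448 (.cons 966 n3452 (.cons 884 n3412 (.cons 761 n2692 (.cons 800 n2620 .nil))))
noncomputable def n3454 : Strat := .move 1006 n2668 (.cons 884 n2345 .nil)
noncomputable def n3455 : Strat := .move 843 n3442 (.cons 1046 n3441 (.cons 964 n3454 .nil))
noncomputable def n3456 : Strat := .move 801 n2309 (.cons 923 n2623 .nil)
noncomputable def n3457 : Strat := .move 964 n2308 (.cons 1005 n3456 .nil)
noncomputable def n3458 : Strat := .win 967 2 922
noncomputable def n3459 : Strat := .win 921 0 921
noncomputable def n3460 : Strat := .move 922 n3458 (.cons 967 n3459 .nil)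
noncomputable def n3461 : Strat := .move 966 n2311 (.cons 1007 n3460 .nil)
noncomputable def n3462 : Strat := .move 923 n2334 (.cons 801 n3461 .nil)
noncomputable def n3463 : Strat := .move 964 n2308 (.cons 1005 n3462 .nil)
noncomputable def n3464 : Strat := .win 925 3 883
noncomputable def n3465 : Strat := .win 843 3 842
noncomputable def n3466 : Strat := .move 884 n3464 (.cons 925 n3465 .nil)
noncomputable def n3467 : Strat := .win 1089 6 924
noncomputable def n3468 : Strat := .win 1007 6 883
noncomputable def n3469 : Strat := .move 1048 n3467 (.cons 1089 n3468 .nil)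
noncomputable def n3470 : Strat := .move 1047 n3466 (.cons 843 n3469 .nil)
noncomputable def n3471 : Strat := .move 1006 n2340 (.cons 1046 n3470 .nil)
noncomputable def n3472 : Strat := .move 1005 n2341 (.cons 964 n3471 .nil)
noncomputable def n3473 : Strat := .win 1087 1 923
noncomputable def n3474 : Strat := .win 1005 1 882
noncomputable def n3475 : Strat := .move 1046 n3473 (.cons 1087 n3474 .nil)
noncomputable def n3476 : Strat := .move 1047 n3475 (.cons 1005 n3466 .nil)
noncomputable def n3477 : Strat := .move 1006 n2343 (.cons 1048 n3476 .nil)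
noncomputable def n3478 : Strat := .move 1007 n2344 (.cons 966 n3477 .nil)
noncomputable def n3479 : Strat := .move 801 n2312 (.cons 925 n1790 .nil)
noncomputable def n3480 : Strat := .win 967 0 922
noncomputable def n3481 : Strat := .win 801 6 801
noncomputable def n3482 : Strat := .move 925 n3480 (.cons 967 n3481 .nil)
noncomputable def n3483 : Strat := .move 922 n3459 (.cons 921 n3482 .nil)
noncomputable def n3484 : Strat := .win 964 2 922
noncomputable def n3485 : Strat := .win 968 2 923
noncomputable def n3486 : Strat := .move 967 n3484 (.cons 964 n3485 .nil)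
noncomputable def n3487 : Strat := .move 922 n3459 (.cons 921 n3486 .nil)
noncomputable def n3488 : Strat := .move 923 n3479 (.cons 964 n3483 (.cons 925 n3487 .nil))
noncomputable def n3489 : Strat := .move 966 n2311 (.cons 1007 n3488 .nil)
noncomputable def n3490 : Strat := .move 965 n3455 (.cons 1007 n3457 (.cons 925 n3463 (.cons 966 n3472 (.cons 964 n3478 (.cons 1005 n3489 .nil)))))
noncomputable def n3491 : Strat := .move 966 n3459 (.cons 921 n2311 .nil)
noncomputable def n3492 : Strat := .move 923 n2334 (.cons 801 n3491 .nil)
noncomputable def n3493 : Strat := .move 964 n2308 (.cons 1005 n3492 .nil)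
noncomputable def n3494 : Strat := .move 843 n2307 (.cons 802 n3454 .nil)
noncomputable def n3495 : Strat := .move 922 n3493 (.cons 964 n3494 (.cons 966 n2688 .nil))
noncomputable def n3496 : Strat := .move 965 n3495 (.cons 802 n3463 (.cons 922 n2688 (.cons 964 n3494 .nil)))
noncomputable def n3497 : Strat := .win 884 7 842
noncomputable def n3498 : Strat := .win 965 6 842
noncomputable def n3499 : Strat := .move 1007 n3497 (.cons 884 n3498 .nil)
noncomputable def n3500 : Strat := .move 966 n3480 (.cons 967 n3499 .nil)
noncomputable def n3501 : Strat := .move 925 n2632 (.cons 880 n3500 .nil)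
noncomputable def n3502 : Strat := .move 964 n1359 (.cons 920 n2308 .nil)
noncomputable def n3503 : Strat := .move 965 n943 (.cons 966 n3502 .nil)
noncomputable def n3504 : Strat := .move 921 n513 (.cons 884 n3503 .nil)
noncomputable def n3505 : Strat := .move 880 n515 (.cons 925 n2332 .nil)
noncomputable def n3506 : Strat := .move 923 n3358 (.cons 921 n3501 (.cons 925 n3504 (.cons 884 n3505 .nil)))
noncomputable def n3507 : Strat := .win 963 6 840
noncomputable def n3508 : Strat := .move 1005 n2336 (.cons 965 n3507 .nil)
noncomputable def n3509 : Strat := .move 923 n872 (.cons 961 n871 .nil)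
noncomputable def n3510 : Strat := .move 962 n34 (.cons 1003 n3509 .nil)
noncomputable def n3511 : Strat := .move 963 n54 (.cons 1005 n3510 .nil)
noncomputable def n3512 : Strat := .move 963 n34 (.cons 1003 n3509 .nil)
noncomputable def n3513 : Strat := .win 1044 3 880
noncomputable def n3514 : Strat := .win 880 3 839
noncomputable def n3515 : Strat := .move 1003 n3513 (.cons 1044 n3514 .nil)
noncomputable def n3516 : Strat := .move 923 n2177 (.cons 961 n513 .nil)
noncomputable def n3517 : Strat := .move 921 n3515 (.cons 880 n3516 .nil)
noncomputable def n3518 : Strat := .move 921 n2177 (.cons 961 n513 .nil)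
noncomputable def n3519 : Strat := .win 963 4 921
noncomputable def n3520 : Strat := .move 925 n3519 (.cons 963 n2632 .nil)
noncomputable def n3521 : Strat := .move 923 n3518 (.cons 884 n3520 .nil)
noncomputable def n3522 : Strat := .win 965 5 921
noncomputable def n3523 : Strat := .win 923 4 921
noncomputable def n3524 : Strat := .move 925 n3522 (.cons 965 n3523 .nil)
noncomputable def n3525 : Strat := .move 963 n34 (.cons 1003 n3524 .nil)
noncomputable def n3526 : Strat := .win 963 1 839
noncomputable def n3527 : Strat := .move 921 n3513 (.cons 1044 n3514 .nil)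
noncomputable def n3528 : Strat := .move 1003 n3526 (.cons 963 n3527 .nil)
noncomputable def n3529 : Strat := .move 962 n3512 (.cons 963 n3517 (.cons 1003 n3521 (.cons 961 n3525 (.cons 923 n3528 .nil))))
noncomputable def n3530 : Strat := .move 923 n2337 (.cons 965 n3358 .nil)
noncomputable def n3531 : Strat := .move 964 n3508 (.cons 965 n3511 (.cons 1005 n3529 (.cons 963 n3530 .nil)))
noncomputable def n3532 : Strat := .win 925 0 922
noncomputable def n3533 : Strat := .move 967 n3484 (.cons 964 n3532 .nil)
noncomputable def n3534 : Strat := .move 923 n3459 (.cons 921 n3533 .nil)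
noncomputable def n3535 : Strat := .move 966 n2311 (.cons 1007 n3534 .nil)
noncomputable def n3536 : Strat := .move 967 n3485 (.cons 968 n3532 .nil)
noncomputable def n3537 : Strat := .move 923 n3459 (.cons 921 n3536 .nil)
noncomputable def n3538 : Strat := .move 966 n2311 (.cons 1007 n3537 .nil)
noncomputable def n3539 : Strat := .move 965 n2671 (.cons 1046 n3535 (.cons 964 n3538 .nil))
noncomputable def n3540 : Strat := .move 1004 n381 (.cons 1046 n348 .nil)
noncomputable def n3541 : Strat := .move 1005 n382 (.cons 964 n3540 .nil)
noncomputable def n3542 : Strat := .move 1004 n21 (.cons 880 n28 .nil)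
noncomputable def n3543 : Strat := .move 1003 n27 (.cons 962 n3542 .nil)
noncomputable def n3544 : Strat := .move 839 n20 (.cons 798 n3543 .nil)
noncomputable def n3545 : Strat := .move 1004 n21 (.cons 880 n381 .nil)
noncomputable def n3546 : Strat := .move 839 n20 (.cons 798 n3545 .nil)
noncomputable def n3547 : Strat := .move 1005 n382 (.cons 964 n3546 .nil)
noncomputable def n3548 : Strat := .win 921 2 921
noncomputable def n3549 : Strat := .move 966 n3548 (.cons 921 n2311 .nil)
noncomputable def n3550 : Strat := .move 962 n1009 (.cons 925 n34 .nil)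
noncomputable def n3551 : Strat := .move 965 n3549 (.cons 1007 n3550 .nil)
noncomputable def n3552 : Strat := .move 964 n54 (.cons 1005 n3551 .nil)
noncomputable def n3553 : Strat := .move 963 n3541 (.cons 1046 n3544 (.cons 1003 n3547 (.cons 1004 n3552 .nil)))
noncomputable def n3554 : Strat := .move 923 n871 (.cons 925 n3518 .nil)
noncomputable def n3555 : Strat := .move 962 n34 (.cons 1003 n3554 .nil)
noncomputable def n3556 : Strat := .move 1004 n28 (.cons 1044 n383 .nil)
noncomputable def n3557 : Strat := .move 1003 n27 (.cons 962 n3556 .nil)
noncomputable def n3558 : Strat := .move 963 n3555 (.cons 923 n3557 (.cons 962 n455 .nil))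
noncomputable def n3559 : Strat := .move 921 n513 (.cons 884 n516 .nil)
noncomputable def n3560 : Strat := .move 925 n2632 (.cons 880 n2703 .nil)
noncomputable def n3561 : Strat := .move 1003 n3514 (.cons 880 n3526 .nil)
noncomputable def n3562 : Strat := .move 962 n2177 (.cons 961 n3561 .nil)
noncomputable def n3563 : Strat := .move 921 n513 (.cons 884 n3562 .nil)
noncomputable def n3564 : Strat := .move 963 n871 (.cons 925 n34 .nil)
noncomputable def n3565 : Strat := .move 962 n2177 (.cons 961 n3564 .nil)
noncomputable def n3566 : Strat := .move 921 n513 (.cons 884 n3565 .nil)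
noncomputable def n3567 : Strat := .move 923 n3559 (.cons 879 n3560 (.cons 921 n3501 (.cons 925 n3563 (.cons 880 n3566 (.cons 884 n3505 .nil)))))
noncomputable def n3568 : Strat := .win 964 5 920
noncomputable def n3569 : Strat := .move 961 n3568 (.cons 964 n775 .nil)
noncomputable def n3570 : Strat := .move 923 n871 (.cons 925 n3569 .nil)
noncomputable def n3571 : Strat := .move 962 n34 (.cons 1003 n3570 .nil)
noncomputable def n3572 : Strat := .move 963 n3541 (.cons 1044 n3547 (.cons 1005 n3571 (.cons 964 n436 .nil)))
noncomputable def n3573 : Strat := .win 963 2 921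
noncomputable def n3574 : Strat := .win 923 0 921
noncomputable def n3575 : Strat := .move 921 n3573 (.cons 963 n3574 .nil)
noncomputable def n3576 : Strat := .move 966 n2311 (.cons 1007 n3575 .nil)
noncomputable def n3577 : Strat := .move 964 n2308 (.cons 1005 n3576 .nil)
noncomputable def n3578 : Strat := .move 965 n2671 (.cons 964 n3494 (.cons 884 n2666 (.cons 1006 n3577 .nil)))
noncomputable def n3579 : Strat := .move 922 n3506 (.cons 966 n3531 (.cons 880 n3539 (.cons 923 n3553 (.cons 965 n3558 (.cons 1005 n3567 (.cons 921 n3572 (.cons 925 n3578 .nil)))))))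
noncomputable def n3580 : Strat := .move 1047 n3475 (.cons 1005 n3469 .nil)
noncomputable def n3581 : Strat := .move 1006 n2668 (.cons 884 n3580 .nil)
noncomputable def n3582 : Strat := .move 843 n2307 (.cons 802 n3581 .nil)
noncomputable def n3583 : Strat := .move 801 n2309 (.cons 923 n2328 .nil)
noncomputable def n3584 : Strat := .move 964 n2308 (.cons 1005 n3583 .nil)
noncomputable def n3585 : Strat := .move 964 n2309 (.cons 923 n2686 .nil)
noncomputable def n3586 : Strat := .move 964 n2309 (.cons 923 n2328 .nil)
noncomputable def n3587 : Strat := .move 884 n2655 (.cons 1006 n2233 .nil)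
noncomputable def n3588 : Strat := .move 843 n2307 (.cons 802 n3587 .nil)
noncomputable def n3589 : Strat := .move 843 n2210 (.cons 719 n2655 .nil)
noncomputable def n3590 : Strat := .move 884 n2208 (.cons 925 n3589 .nil)
noncomputable def n3591 : Strat := .move 760 n2327 (.cons 800 n3590 .nil)
noncomputable def n3592 : Strat := .move 801 n3585 (.cons 843 n3586 (.cons 761 n3588 (.cons 802 n3591 .nil)))
noncomputable def n3593 : Strat := .move 965 n2688 (.cons 964 n3582 (.cons 843 n3584 (.cons 802 n3472 (.cons 1005 n3592 .nil))))
noncomputable def n3594 : Strat := .move 924 n3433 (.cons 843 n3327 (.cons 884 n3413 (.cons 965 n3434 (.cons 720 n3439 (.cons 718 n3447 (.cons 964 n3453 (.cons 802 n3490 (.cons 925 n3496 (.cons 801 n3579 (.cons 966 n3593 .nil))))))))))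
noncomputable def n3595 : Strat := .move 842 n3285 (.cons 839 n2708 (.cons 924 n3298 (.cons 880 n3299 (.cons 802 n3300 (.cons 922 n3303 (.cons 885 n3306 (.cons 843 n3365 (.cons 803 n3400 (.cons 884 n3432 (.cons 841 n3594 .nil))))))))))
noncomputable def n3596 : Strat := .move 879 n1124 (.cons 923 n1285 .nil)
noncomputable def n3597 : Strat := .move 882 n1125 (.cons 925 n3596 .nil)
noncomputable def n3598 : Strat := .move 802 n1794 (.cons 841 n1793 .nil)
noncomputable def n3599 : Strat := .move 801 n1792 (.cons 760 n3598 .nil)
noncomputable def n3600 : Strat := .move 839 n601 (.cons 838 n3599 .nil)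
noncomputable def n3601 : Strat := .move 842 n1128 (.cons 843 n3600 .nil)
noncomputable def n3602 : Strat := .move 879 n1124 (.cons 923 n1298 .nil)
noncomputable def n3603 : Strat := .move 841 n42 (.cons 879 n3006 .nil)
noncomputable def n3604 : Strat := .move 842 n1128 (.cons 843 n3603 .nil)
noncomputable def n3605 : Strat := .move 839 n601 (.cons 838 n3604 .nil)
noncomputable def n3606 : Strat := .move 882 n3596 (.cons 879 n3601 (.cons 842 n3602 (.cons 923 n3605 .nil)))
noncomputable def n3607 : Strat := .move 882 n1125 (.cons 925 n3602 .nil)
noncomputable def n3608 : Strat := .move 882 n1125 (.cons 925 n3601 .nil)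
noncomputable def n3609 : Strat := .move 882 n1125 (.cons 925 n3605 .nil)
noncomputable def n3610 : Strat := .move 842 n3401 (.cons 841 n3405 (.cons 843 n3409 .nil))
noncomputable def n3611 : Strat := .move 880 n3597 (.cons 925 n3606 (.cons 842 n3607 (.cons 879 n3608 (.cons 923 n3609 (.cons 882 n3610 .nil)))))
noncomputable def n3612 : Strat := .move 842 n3410 (.cons 841 n3413 (.cons 843 n3349 (.cons 801 n3416 (.cons 800 n3423 (.cons 802 n3428 (.cons 964 n3429 (.cons 965 n3431 .nil)))))))
noncomputable def n3613 : Strat := .move 842 n3401 (.cons 841 n3430 .nil)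
noncomputable def n3614 : Strat := .move 879 n1127 (.cons 841 n1124 .nil)
noncomputable def n3615 : Strat := .move 842 n1128 (.cons 843 n3614 .nil)
noncomputable def n3616 : Strat := .move 839 n601 (.cons 838 n3615 .nil)
noncomputable def n3617 : Strat := .move 882 n1125 (.cons 925 n3616 .nil)
noncomputable def n3618 : Strat := .move 842 n1128 (.cons 843 n3599 .nil)
noncomputable def n3619 : Strat := .move 839 n601 (.cons 838 n3618 .nil)
noncomputable def n3620 : Strat := .move 839 n601 (.cons 838 n1819 .nil)
noncomputable def n3621 : Strat := .move 882 n3596 (.cons 878 n3616 (.cons 879 n3619 (.cons 842 n3602 (.cons 923 n3620 .nil))))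
noncomputable def n3622 : Strat := .move 882 n1125 (.cons 925 n3619 .nil)
noncomputable def n3623 : Strat := .move 882 n1125 (.cons 925 n3620 .nil)
noncomputable def n3624 : Strat := .move 880 n3597 (.cons 882 n3613 (.cons 878 n3617 (.cons 925 n3621 (.cons 879 n3622 (.cons 841 n3607 (.cons 923 n3623 .nil))))))
noncomputable def n3625 : Strat := .move 879 n524 (.cons 878 n2331 .nil)
noncomputable def n3626 : Strat := .move 923 n515 (.cons 925 n3625 .nil)
noncomputable def n3627 : Strat := .move 839 n20 (.cons 798 n441 .nil)
noncomputable def n3628 : Strat := .move 1004 n1026 (.cons 839 n348 .nil)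
noncomputable def n3629 : Strat := .move 841 n22 (.cons 800 n384 .nil)
noncomputable def n3630 : Strat := .move 839 n20 (.cons 798 n447 .nil)
noncomputable def n3631 : Strat := .move 963 n3627 (.cons 798 n3628 (.cons 839 n3629 (.cons 1004 n3630 .nil)))
noncomputable def n3632 : Strat := .win 921 4 920
noncomputable def n3633 : Strat := .move 961 n775 (.cons 960 n3632 .nil)
noncomputable def n3634 : Strat := .move 923 n515 (.cons 925 n3633 .nil)
noncomputable def n3635 : Strat := .move 962 n34 (.cons 1003 n3634 .nil)
noncomputable def n3636 : Strat := .move 963 n3627 (.cons 798 n3635 .nil)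
noncomputable def n3637 : Strat := .move 922 n3626 (.cons 925 n3631 (.cons 879 n3636 .nil))
noncomputable def n3638 : Strat := .move 882 n3596 (.cons 842 n3602 (.cons 879 n3619 (.cons 923 n3605 .nil)))
noncomputable def n3639 : Strat := .move 880 n3597 (.cons 842 n3607 (.cons 882 n3637 (.cons 925 n3638 (.cons 879 n3622 (.cons 923 n3609 .nil)))))
noncomputable def n3640 : Strat := .move 841 n3338 (.cons 801 n3283 .nil)
noncomputable def n3641 : Strat := .move 965 n2308 (.cons 1005 n2686 .nil)
noncomputable def n3642 : Strat := .move 964 n2309 (.cons 923 n3641 .nil)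
noncomputable def n3643 : Strat := .move 965 n2518 (.cons 843 n2346 .nil)
noncomputable def n3644 : Strat := .move 802 n1793 (.cons 761 n3643 .nil)
noncomputable def n3645 : Strat := .move 760 n2869 (.cons 880 n2327 .nil)
noncomputable def n3646 : Strat := .move 843 n2205 (.cons 965 n3645 .nil)
noncomputable def n3647 : Strat := .move 802 n1793 (.cons 761 n3646 .nil)
noncomputable def n3648 : Strat := .move 801 n2868 (.cons 760 n3642 (.cons 923 n3644 (.cons 964 n3647 (.cons 843 n3259 .nil))))
noncomputable def n3649 : Strat := .move 843 n472 (.cons 880 n2266 .nil)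
noncomputable def n3650 : Strat := .move 802 n1793 (.cons 761 n2923 .nil)
noncomputable def n3651 : Strat := .move 800 n1665 (.cons 759 n2924 .nil)
noncomputable def n3652 : Strat := .move 882 n1653 (.cons 923 n1654 .nil)
noncomputable def n3653 : Strat := .move 760 n2325 (.cons 718 n3652 .nil)
noncomputable def n3654 : Strat := .move 759 n2326 (.cons 800 n3653 .nil)
noncomputable def n3655 : Strat := .move 801 n3650 (.cons 761 n3651 (.cons 802 n3654 .nil))
noncomputable def n3656 : Strat := .move 841 n3283 (.cons 839 n3649 (.cons 880 n3655 .nil))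
noncomputable def n3657 : Strat := .move 843 n563 (.cons 844 n2307 .nil)
noncomputable def n3658 : Strat := .move 882 n2350 (.cons 1006 n3657 .nil)
noncomputable def n3659 : Strat := .move 965 n2351 (.cons 800 n3658 .nil)
noncomputable def n3660 : Strat := .win 882 6 759
noncomputable def n3661 : Strat := .move 759 n283 (.cons 718 n3660 .nil)
noncomputable def n3662 : Strat := .move 800 n1666 (.cons 965 n3661 .nil)
noncomputable def n3663 : Strat := .move 841 n3283 (.cons 880 n3659 (.cons 843 n3662 .nil))
noncomputable def n3664 : Strat := .move 841 n2351 (.cons 800 n3658 .nil)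
noncomputable def n3665 : Strat := .move 801 n2923 (.cons 839 n1793 .nil)
noncomputable def n3666 : Strat := .move 802 n2518 (.cons 843 n3665 .nil)
noncomputable def n3667 : Strat := .move 841 n2351 (.cons 800 n3666 .nil)
noncomputable def n3668 : Strat := .win 882 7 841
noncomputable def n3669 : Strat := .move 1006 n3668 (.cons 882 n2342 .nil)
noncomputable def n3670 : Strat := .move 841 n2351 (.cons 800 n3669 .nil)
noncomputable def n3671 : Strat := .move 965 n3664 (.cons 1006 n3667 (.cons 841 n2688 (.cons 802 n3670 .nil)))
noncomputable def n3672 : Strat := .move 760 n2495 (.cons 882 n2327 .nil)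
noncomputable def n3673 : Strat := .move 923 n1790 (.cons 964 n3672 .nil)
noncomputable def n3674 : Strat := .move 801 n3315 (.cons 841 n3259 (.cons 802 n3673 .nil))
noncomputable def n3675 : Strat := .move 879 n1124 (.cons 923 n1295 .nil)
noncomputable def n3676 : Strat := .move 882 n1128 (.cons 843 n3675 .nil)
noncomputable def n3677 : Strat := .move 843 n2254 (.cons 841 n2255 .nil)
noncomputable def n3678 : Strat := .move 882 n1124 (.cons 923 n1295 .nil)
noncomputable def n3679 : Strat := .move 841 n3281 (.cons 839 n596 .nil)
noncomputable def n3680 : Strat := .move 838 n1297 (.cons 837 n1296 .nil)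
noncomputable def n3681 : Strat := .move 882 n1124 (.cons 923 n3680 .nil)
noncomputable def n3682 : Strat := .move 879 n3678 (.cons 882 n3679 (.cons 841 n3681 .nil))
noncomputable def n3683 : Strat := .move 879 n1124 (.cons 923 n3680 .nil)
noncomputable def n3684 : Strat := .move 882 n1128 (.cons 843 n3683 .nil)
noncomputable def n3685 : Strat := .move 880 n3676 (.cons 879 n3677 (.cons 882 n3401 (.cons 843 n3682 (.cons 841 n3684 .nil))))
noncomputable def n3686 : Strat := .move 842 n3640 (.cons 841 n3648 (.cons 965 n3656 (.cons 801 n3663 (.cons 880 n3671 (.cons 843 n3674 (.cons 800 n3685 .nil))))))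
noncomputable def n3687 : Strat := .move 880 n1125 (.cons 925 n3596 .nil)
noncomputable def n3688 : Strat := .move 880 n1125 (.cons 925 n3605 .nil)
noncomputable def n3689 : Strat := .move 880 n1125 (.cons 925 n3602 .nil)
noncomputable def n3690 : Strat := .move 965 n2350 (.cons 1006 n3011 .nil)
noncomputable def n3691 : Strat := .move 800 n1836 (.cons 759 n3690 .nil)
noncomputable def n3692 : Strat := .move 880 n41 (.cons 843 n1125 .nil)
noncomputable def n3693 : Strat := .move 842 n1666 (.cons 965 n3692 .nil)
noncomputable def n3694 : Strat := .move 800 n1836 (.cons 759 n3693 .nil)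
noncomputable def n3695 : Strat := .move 842 n249 (.cons 797 n41 .nil)
noncomputable def n3696 : Strat := .move 798 n3695 (.cons 843 n2141 .nil)
noncomputable def n3697 : Strat := .move 839 n1060 (.cons 838 n3696 .nil)
noncomputable def n3698 : Strat := .move 880 n1125 (.cons 925 n3697 .nil)
noncomputable def n3699 : Strat := .move 841 n3691 (.cons 1006 n3694 (.cons 800 n3698 .nil))
noncomputable def n3700 : Strat := .move 842 n1666 (.cons 965 n564 .nil)
noncomputable def n3701 : Strat := .move 800 n1836 (.cons 759 n3700 .nil)
noncomputable def n3702 : Strat := .move 842 n41 (.cons 843 n2159 .nil)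
noncomputable def n3703 : Strat := .move 879 n1124 (.cons 923 n596 .nil)
noncomputable def n3704 : Strat := .move 880 n3702 (.cons 879 n3697 (.cons 843 n3703 .nil))
noncomputable def n3705 : Strat := .move 841 n3691 (.cons 923 n3701 (.cons 800 n3704 .nil))
noncomputable def n3706 : Strat := .move 800 n1836 (.cons 759 n3011 .nil)
noncomputable def n3707 : Strat := .move 841 n2350 (.cons 1006 n3706 .nil)
noncomputable def n3708 : Strat := .move 964 n2309 (.cons 923 n2308 .nil)
noncomputable def n3709 : Strat := .move 966 n2312 (.cons 925 n2311 .nil)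
noncomputable def n3710 : Strat := .move 801 n3708 (.cons 1005 n3709 .nil)
noncomputable def n3711 : Strat := .move 842 n3657 (.cons 802 n3710 .nil)
noncomputable def n3712 : Strat := .move 841 n2350 (.cons 1006 n3711 .nil)
noncomputable def n3713 : Strat := .win 842 7 800
noncomputable def n3714 : Strat := .move 800 n1836 (.cons 759 n3713 .nil)
noncomputable def n3715 : Strat := .move 841 n2350 (.cons 1006 n3714 .nil)
noncomputable def n3716 : Strat := .move 964 n2334 (.cons 801 n2308 .nil)
noncomputable def n3717 : Strat := .move 802 n1793 (.cons 761 n2518 .nil)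
noncomputable def n3718 : Strat := .move 801 n1790 (.cons 964 n3717 .nil)
noncomputable def n3719 : Strat := .win 1047 7 882
noncomputable def n3720 : Strat := .move 1006 n3719 (.cons 1047 n2340 .nil)
noncomputable def n3721 : Strat := .move 1005 n2341 (.cons 964 n3720 .nil)
noncomputable def n3722 : Strat := .move 1006 n3719 (.cons 1047 n2345 .nil)
noncomputable def n3723 : Strat := .move 923 n3716 (.cons 1005 n3718 (.cons 801 n3721 (.cons 964 n3722 .nil)))
noncomputable def n3724 : Strat := .move 843 n2307 (.cons 802 n2346 .nil)
noncomputable def n3725 : Strat := .move 801 n3717 (.cons 843 n3709 .nil)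
noncomputable def n3726 : Strat := .move 923 n3716 (.cons 1005 n3718 (.cons 801 n3721 (.cons 964 n3725 .nil)))
noncomputable def n3727 : Strat := .move 801 n2312 (.cons 925 n3717 .nil)
noncomputable def n3728 : Strat := .move 966 n2311 (.cons 1007 n3727 .nil)
noncomputable def n3729 : Strat := .move 801 n2309 (.cons 923 n3717 .nil)
noncomputable def n3730 : Strat := .move 964 n2308 (.cons 1005 n3729 .nil)
noncomputable def n3731 : Strat := .move 801 n2309 (.cons 923 n3709 .nil)
noncomputable def n3732 : Strat := .move 964 n2308 (.cons 1005 n3731 .nil)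
noncomputable def n3733 : Strat := .move 842 n3723 (.cons 801 n3724 (.cons 1048 n3726 (.cons 964 n3728 (.cons 966 n3730 (.cons 802 n3732 .nil)))))
noncomputable def n3734 : Strat := .move 841 n2351 (.cons 800 n3657 .nil)
noncomputable def n3735 : Strat := .move 841 n3657 (.cons 802 n3710 .nil)
noncomputable def n3736 : Strat := .move 839 n1574 (.cons 801 n1060 .nil)
noncomputable def n3737 : Strat := .move 802 n2518 (.cons 843 n3736 .nil)
noncomputable def n3738 : Strat := .move 841 n2351 (.cons 800 n3737 .nil)
noncomputable def n3739 : Strat := .move 841 n2351 (.cons 800 n3710 .nil)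
noncomputable def n3740 : Strat := .move 842 n3734 (.cons 800 n3735 (.cons 844 n3738 (.cons 841 n3730 (.cons 843 n3739 .nil))))
noncomputable def n3741 : Strat := .move 965 n3707 (.cons 800 n3712 (.cons 923 n3715 (.cons 841 n3733 (.cons 1006 n3740 .nil))))
noncomputable def n3742 : Strat := .move 882 n3687 (.cons 923 n3688 (.cons 842 n3689 (.cons 879 n3699 (.cons 925 n3705 (.cons 880 n3741 .nil)))))
noncomputable def n3743 : Strat := .move 880 n3703 (.cons 878 n3702 (.cons 879 n3697 .nil))
noncomputable def n3744 : Strat := .move 841 n3691 (.cons 923 n3701 (.cons 800 n3743 .nil))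
noncomputable def n3745 : Strat := .move 841 n3691 (.cons 800 n3698 .nil)
noncomputable def n3746 : Strat := .move 842 n2352 (.cons 841 n3724 (.cons 1006 n3734 .nil))
noncomputable def n3747 : Strat := .win 842 1 841
noncomputable def n3748 : Strat := .win 923 7 840
noncomputable def n3749 : Strat := .move 964 n3747 (.cons 842 n3748 .nil)
noncomputable def n3750 : Strat := .move 1005 n2340 (.cons 1046 n3749 .nil)
noncomputable def n3751 : Strat := .move 1006 n2353 (.cons 841 n3750 .nil)
noncomputable def n3752 : Strat := .move 1005 n3748 (.cons 923 n3747 .nil)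
noncomputable def n3753 : Strat := .win 800 6 800
noncomputable def n3754 : Strat := .move 841 n561 (.cons 1004 n3753 .nil)
noncomputable def n3755 : Strat := .move 962 n872 (.cons 961 n1009 .nil)
noncomputable def n3756 : Strat := .move 963 n3754 (.cons 800 n3755 .nil)
noncomputable def n3757 : Strat := .move 923 n1503 (.cons 1005 n3756 .nil)
noncomputable def n3758 : Strat := .win 1002 4 961
noncomputable def n3759 : Strat := .win 922 1 839
noncomputable def n3760 : Strat := .move 1003 n3758 (.cons 1002 n3759 .nil)
noncomputable def n3761 : Strat := .move 962 n1009 (.cons 925 n3760 .nil)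
noncomputable def n3762 : Strat := .move 800 n3011 (.cons 923 n1836 .nil)
noncomputable def n3763 : Strat := .move 800 n3713 (.cons 842 n3011 .nil)
noncomputable def n3764 : Strat := .move 800 n3713 (.cons 842 n1836 .nil)
noncomputable def n3765 : Strat := .win 922 3 840
noncomputable def n3766 : Strat := .win 923 1 840
noncomputable def n3767 : Strat := .move 1004 n3765 (.cons 922 n3766 .nil)
noncomputable def n3768 : Strat := .move 841 n3762 (.cons 759 n3763 (.cons 923 n3764 (.cons 800 n3767 .nil)))
noncomputable def n3769 : Strat := .move 923 n3754 (.cons 800 n3755 .nil)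
noncomputable def n3770 : Strat := .move 963 n3761 (.cons 962 n3768 (.cons 922 n3769 .nil))
noncomputable def n3771 : Strat := .move 842 n2308 (.cons 1005 n3734 .nil)
noncomputable def n3772 : Strat := .move 964 n3752 (.cons 842 n3757 (.cons 1005 n3770 (.cons 923 n3771 .nil)))
noncomputable def n3773 : Strat := .move 1006 n2340 (.cons 1046 n3749 .nil)
noncomputable def n3774 : Strat := .win 1087 3 923
noncomputable def n3775 : Strat := .win 1006 1 882
noncomputable def n3776 : Strat := .move 1046 n3774 (.cons 1087 n3775 .nil)
noncomputable def n3777 : Strat := .move 964 n3748 (.cons 923 n3776 .nil)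
noncomputable def n3778 : Strat := .move 964 n3748 (.cons 923 n3747 .nil)
noncomputable def n3779 : Strat := .win 923 7 882
noncomputable def n3780 : Strat := .move 1047 n3779 (.cons 923 n3469 .nil)
noncomputable def n3781 : Strat := .move 1006 n2340 (.cons 1046 n3780 .nil)
noncomputable def n3782 : Strat := .move 964 n3747 (.cons 842 n3776 .nil)
noncomputable def n3783 : Strat := .move 1005 n3773 (.cons 842 n3777 (.cons 1046 n3778 (.cons 964 n3781 (.cons 923 n3782 .nil))))
noncomputable def n3784 : Strat := .move 965 n3746 (.cons 842 n3707 (.cons 800 n3751 (.cons 1006 n3772 (.cons 841 n3783 .nil))))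
noncomputable def n3785 : Strat := .move 882 n3687 (.cons 925 n3744 (.cons 923 n3688 (.cons 842 n3689 (.cons 879 n3745 (.cons 880 n3784 .nil)))))
noncomputable def n3786 : Strat := .move 842 n2334 (.cons 801 n1128 .nil)
noncomputable def n3787 : Strat := .move 964 n1503 (.cons 1005 n3786 .nil)
noncomputable def n3788 : Strat := .move 923 n1846 (.cons 879 n3787 .nil)
noncomputable def n3789 : Strat := .move 880 n1125 (.cons 925 n3788 .nil)
noncomputable def n3790 : Strat := .move 841 n2159 (.cons 879 n3006 .nil)
noncomputable def n3791 : Strat := .move 842 n1128 (.cons 843 n3790 .nil)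
noncomputable def n3792 : Strat := .move 880 n1125 (.cons 925 n3791 .nil)
noncomputable def n3793 : Strat := .move 880 n1125 (.cons 925 n3086 .nil)
noncomputable def n3794 : Strat := .move 801 n1950 (.cons 966 n1792 .nil)
noncomputable def n3795 : Strat := .move 965 n2310 (.cons 923 n2686 .nil)
noncomputable def n3796 : Strat := .move 801 n1950 (.cons 966 n3795 .nil)
noncomputable def n3797 : Strat := .move 841 n2351 (.cons 800 n2350 .nil)
noncomputable def n3798 : Strat := .move 965 n3797 (.cons 1006 n3734 (.cons 800 n2355 (.cons 841 n2346 .nil)))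
noncomputable def n3799 : Strat := .move 801 n1792 (.cons 760 n2310 (.cons 964 n2686 .nil))
noncomputable def n3800 : Strat := .move 965 n3797 (.cons 1006 n3734 (.cons 800 n2355 (.cons 841 n3799 .nil)))
noncomputable def n3801 : Strat := .move 760 n1653 (.cons 923 n2324 .nil)
noncomputable def n3802 : Strat := .move 801 n1950 (.cons 966 n3801 .nil)
noncomputable def n3803 : Strat := .move 842 n3794 (.cons 760 n3796 (.cons 801 n3798 (.cons 966 n3800 (.cons 964 n3802 .nil))))
noncomputable def n3804 : Strat := .move 925 n2714 (.cons 880 n3803 .nil)
noncomputable def n3805 : Strat := .move 880 n1128 (.cons 843 n3675 .nil)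
noncomputable def n3806 : Strat := .move 880 n1128 (.cons 843 n3790 .nil)
noncomputable def n3807 : Strat := .move 880 n1128 (.cons 843 n2248 .nil)
noncomputable def n3808 : Strat := .move 801 n1792 (.cons 760 n2522 .nil)
noncomputable def n3809 : Strat := .move 800 n1666 (.cons 965 n3808 .nil)
noncomputable def n3810 : Strat := .move 965 n2350 (.cons 1006 n3657 .nil)
noncomputable def n3811 : Strat := .move 800 n1836 (.cons 759 n3808 .nil)
noncomputable def n3812 : Strat := .move 841 n2758 (.cons 759 n3809 (.cons 800 n3810 (.cons 965 n3811 .nil)))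
noncomputable def n3813 : Strat := .move 965 n2308 (.cons 1005 n3797 .nil)
noncomputable def n3814 : Strat := .move 964 n2309 (.cons 923 n3813 .nil)
noncomputable def n3815 : Strat := .move 801 n2564 (.cons 760 n3814 (.cons 923 n2524 .nil))
noncomputable def n3816 : Strat := .move 842 n3805 (.cons 923 n3806 (.cons 841 n3807 (.cons 880 n3812 (.cons 843 n3815 .nil))))
noncomputable def n3817 : Strat := .move 801 n1655 (.cons 719 n1792 (.cons 923 n3709 .nil))
noncomputable def n3818 : Strat := .move 842 n3657 (.cons 802 n3817 .nil)
noncomputable def n3819 : Strat := .move 841 n2350 (.cons 1006 n3818 .nil)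
noncomputable def n3820 : Strat := .move 964 n2308 (.cons 1005 n3725 .nil)
noncomputable def n3821 : Strat := .move 842 n3730 (.cons 923 n3820 (.cons 761 n3732 (.cons 964 n3728 (.cons 801 n2666 .nil))))
noncomputable def n3822 : Strat := .move 841 n3657 (.cons 802 n3817 .nil)
noncomputable def n3823 : Strat := .move 801 n1792 (.cons 760 n3708 (.cons 964 n3709 .nil))
noncomputable def n3824 : Strat := .move 843 n2307 (.cons 802 n3823 .nil)
noncomputable def n3825 : Strat := .move 842 n3734 (.cons 800 n3822 (.cons 844 n3824 (.cons 843 n3732 .nil)))
noncomputable def n3826 : Strat := .move 965 n3707 (.cons 800 n3819 (.cons 923 n3715 (.cons 841 n3821 (.cons 1006 n3825 .nil))))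
noncomputable def n3827 : Strat := .move 882 n3687 (.cons 841 n3789 (.cons 923 n3792 (.cons 842 n3793 (.cons 879 n3804 (.cons 925 n3816 (.cons 880 n3826 .nil))))))
noncomputable def n3828 : Strat := .move 879 n604 (.cons 919 n1124 .nil)
noncomputable def n3829 : Strat := .move 920 n1146 (.cons 921 n3828 .nil)
noncomputable def n3830 : Strat := .move 839 n601 (.cons 838 n3829 .nil)
noncomputable def n3831 : Strat := .move 880 n1125 (.cons 925 n3830 .nil)
noncomputable def n3832 : Strat := .move 880 n41 (.cons 843 n2159 .nil)
noncomputable def n3833 : Strat := .move 839 n268 (.cons 802 n1060 .nil)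
noncomputable def n3834 : Strat := .move 801 n1655 (.cons 719 n1792 (.cons 923 n3833 .nil))
noncomputable def n3835 : Strat := .move 880 n41 (.cons 843 n3834 .nil)
noncomputable def n3836 : Strat := .move 843 n2307 (.cons 802 n563 .nil)
noncomputable def n3837 : Strat := .move 965 n2350 (.cons 1006 n3836 .nil)
noncomputable def n3838 : Strat := .move 839 n1060 (.cons 838 n1656 .nil)
noncomputable def n3839 : Strat := .move 842 n3832 (.cons 879 n3835 (.cons 880 n3837 (.cons 843 n3838 .nil)))
noncomputable def n3840 : Strat := .move 800 n1836 (.cons 759 n3834 .nil)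
noncomputable def n3841 : Strat := .move 842 n3832 (.cons 879 n1717 (.cons 880 n3840 .nil))
noncomputable def n3842 : Strat := .move 841 n3691 (.cons 800 n3839 (.cons 923 n3701 (.cons 965 n3841 .nil)))
noncomputable def n3843 : Strat := .move 880 n1125 (.cons 925 n3601 .nil)
noncomputable def n3844 : Strat := .move 801 n1792 (.cons 760 n3833 .nil)
noncomputable def n3845 : Strat := .move 800 n1836 (.cons 759 n3844 .nil)
noncomputable def n3846 : Strat := .move 841 n2758 (.cons 759 n2554 (.cons 800 n3810 (.cons 965 n3845 .nil)))
noncomputable def n3847 : Strat := .move 801 n2564 (.cons 923 n2645 (.cons 760 n3642 .nil))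
noncomputable def n3848 : Strat := .move 841 n130 (.cons 803 n2923 .nil)
noncomputable def n3849 : Strat := .move 802 n1793 (.cons 761 n3848 .nil)
noncomputable def n3850 : Strat := .move 800 n1665 (.cons 759 n3849 .nil)
noncomputable def n3851 : Strat := .move 801 n2564 (.cons 760 n3850 .nil)
noncomputable def n3852 : Strat := .move 843 n1575 (.cons 803 n563 .nil)
noncomputable def n3853 : Strat := .move 802 n3736 (.cons 838 n3665 (.cons 801 n3852 .nil))
noncomputable def n3854 : Strat := .move 800 n1836 (.cons 759 n3853 .nil)
noncomputable def n3855 : Strat := .move 841 n2758 (.cons 759 n2554 (.cons 800 n3810 (.cons 965 n3854 .nil)))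
noncomputable def n3856 : Strat := .move 965 n2518 (.cons 843 n2350 .nil)
noncomputable def n3857 : Strat := .move 841 n2923 (.cons 839 n3856 .nil)
noncomputable def n3858 : Strat := .move 802 n1793 (.cons 761 n3857 .nil)
noncomputable def n3859 : Strat := .move 801 n2564 (.cons 923 n3858 .nil)
noncomputable def n3860 : Strat := .move 801 n2309 (.cons 923 n2313 .nil)
noncomputable def n3861 : Strat := .move 964 n2308 (.cons 1005 n3860 .nil)
noncomputable def n3862 : Strat := .move 965 n2352 (.cons 841 n3861 .nil)
noncomputable def n3863 : Strat := .move 965 n2352 (.cons 841 n3724 (.cons 1006 n3734 .nil))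
noncomputable def n3864 : Strat := .move 842 n3846 (.cons 841 n3847 (.cons 965 n3851 (.cons 760 n3855 (.cons 800 n3859 (.cons 802 n3862 (.cons 801 n3863 .nil))))))
noncomputable def n3865 : Strat := .move 882 n3792 (.cons 842 n3831 (.cons 925 n3842 (.cons 879 n3843 (.cons 880 n3864 .nil))))
noncomputable def n3866 : Strat := .move 841 n2350 (.cons 1006 n3823 .nil)
noncomputable def n3867 : Strat := .move 842 n2352 (.cons 800 n3866 (.cons 841 n3732 .nil))
noncomputable def n3868 : Strat := .move 1005 n3778 (.cons 842 n3777 (.cons 923 n3782 (.cons 964 n3781 .nil)))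
noncomputable def n3869 : Strat := .move 842 n2334 (.cons 801 n2311 .nil)
noncomputable def n3870 : Strat := .win 922 2 922
noncomputable def n3871 : Strat := .move 967 n3870 (.cons 922 n3485 .nil)
noncomputable def n3872 : Strat := .move 966 n3869 (.cons 1007 n3871 .nil)
noncomputable def n3873 : Strat := .move 964 n1503 (.cons 1005 n3872 .nil)
noncomputable def n3874 : Strat := .move 962 n1009 (.cons 925 n872 .nil)
noncomputable def n3875 : Strat := .move 963 n3754 (.cons 800 n3874 .nil)
noncomputable def n3876 : Strat := .move 964 n1503 (.cons 1005 n3875 .nil)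
noncomputable def n3877 : Strat := .move 921 n494 (.cons 920 n943 .nil)
noncomputable def n3878 : Strat := .move 841 n355 (.cons 1004 n354 .nil)
noncomputable def n3879 : Strat := .move 1004 n357 (.cons 1045 n1037 .nil)
noncomputable def n3880 : Strat := .move 963 n3878 (.cons 800 n3879 (.cons 1004 n3269 .nil))
noncomputable def n3881 : Strat := .move 922 n3877 (.cons 966 n3880 .nil)
noncomputable def n3882 : Strat := .move 923 n3873 (.cons 968 n3876 (.cons 964 n3881 .nil))
noncomputable def n3883 : Strat := .move 965 n3867 (.cons 1007 n3707 (.cons 923 n3715 (.cons 800 n3751 (.cons 841 n3868 (.cons 1006 n3882 .nil)))))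
noncomputable def n3884 : Strat := .move 882 n3687 (.cons 923 n3688 (.cons 925 n3744 (.cons 842 n3689 (.cons 879 n3745 (.cons 880 n3883 .nil)))))
noncomputable def n3885 : Strat := .move 843 n472 (.cons 880 n2205 .nil)
noncomputable def n3886 : Strat := .move 841 n2923 (.cons 839 n3885 .nil)
noncomputable def n3887 : Strat := .move 802 n1793 (.cons 761 n3886 .nil)
noncomputable def n3888 : Strat := .move 965 n2351 (.cons 800 n2518 .nil)
noncomputable def n3889 : Strat := .move 841 n2923 (.cons 839 n3888 .nil)
noncomputable def n3890 : Strat := .move 802 n1793 (.cons 761 n3889 .nil)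
noncomputable def n3891 : Strat := .move 882 n3692 (.cons 925 n2564 .nil)
noncomputable def n3892 : Strat := .move 841 n1666 (.cons 965 n3891 .nil)
noncomputable def n3893 : Strat := .move 800 n1665 (.cons 759 n3892 .nil)
noncomputable def n3894 : Strat := .move 880 n1128 (.cons 843 n1125 .nil)
noncomputable def n3895 : Strat := .move 882 n1791 (.cons 760 n3894 .nil)
noncomputable def n3896 : Strat := .move 923 n1790 (.cons 964 n3895 .nil)
noncomputable def n3897 : Strat := .move 801 n3887 (.cons 880 n3890 (.cons 802 n3893 (.cons 841 n3896 (.cons 843 n3315 .nil))))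
noncomputable def n3898 : Strat := .move 801 n1792 (.cons 923 n2645 (.cons 760 n3642 .nil))
noncomputable def n3899 : Strat := .move 801 n1792 (.cons 760 n2715 .nil)
noncomputable def n3900 : Strat := .move 882 n2863 (.cons 880 n3898 (.cons 843 n3899 .nil))
noncomputable def n3901 : Strat := .move 882 n1792 (.cons 760 n2715 .nil)
noncomputable def n3902 : Strat := .move 801 n3315 (.cons 841 n3901 .nil)
noncomputable def n3903 : Strat := .move 843 n2307 (.cons 802 n472 .nil)
noncomputable def n3904 : Strat := .move 841 n2351 (.cons 800 n3903 .nil)
noncomputable def n3905 : Strat := .move 882 n2350 (.cons 1006 n3692 .nil)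
noncomputable def n3906 : Strat := .move 841 n2351 (.cons 800 n3905 .nil)
noncomputable def n3907 : Strat := .move 965 n3904 (.cons 802 n3906 (.cons 841 n3425 .nil))
noncomputable def n3908 : Strat := .move 801 n3330 (.cons 839 n3896 .nil)
noncomputable def n3909 : Strat := .move 802 n2205 (.cons 965 n1575 .nil)
noncomputable def n3910 : Strat := .move 843 n472 (.cons 880 n3909 .nil)
noncomputable def n3911 : Strat := .move 802 n1575 (.cons 803 n3736 .nil)
noncomputable def n3912 : Strat := .move 882 n563 (.cons 844 n3911 .nil)
noncomputable def n3913 : Strat := .move 843 n472 (.cons 880 n3912 .nil)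
noncomputable def n3914 : Strat := .move 841 n3338 (.cons 759 n3910 (.cons 965 n3913 .nil))
noncomputable def n3915 : Strat := .move 965 n2351 (.cons 800 n3905 .nil)
noncomputable def n3916 : Strat := .move 923 n2319 (.cons 922 n1790 .nil)
noncomputable def n3917 : Strat := .move 801 n1950 (.cons 966 n3916 .nil)
noncomputable def n3918 : Strat := .move 925 n1951 (.cons 882 n3917 .nil)
noncomputable def n3919 : Strat := .move 880 n41 (.cons 843 n3918 .nil)
noncomputable def n3920 : Strat := .move 841 n3338 (.cons 801 n3915 (.cons 965 n3919 .nil))
noncomputable def n3921 : Strat := .move 843 n563 (.cons 844 n2205 .nil)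
noncomputable def n3922 : Strat := .move 841 n2923 (.cons 839 n3921 .nil)
noncomputable def n3923 : Strat := .move 802 n1793 (.cons 761 n3922 .nil)
noncomputable def n3924 : Strat := .move 882 n1792 (.cons 923 n3923 .nil)
noncomputable def n3925 : Strat := .move 925 n1950 (.cons 966 n2714 .nil)
noncomputable def n3926 : Strat := .move 882 n1791 (.cons 760 n3925 .nil)
noncomputable def n3927 : Strat := .move 923 n1790 (.cons 964 n3926 .nil)
noncomputable def n3928 : Strat := .move 801 n3887 (.cons 880 n3924 (.cons 802 n3896 (.cons 843 n3927 .nil)))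
noncomputable def n3929 : Strat := .move 843 n2307 (.cons 802 n2256 .nil)
noncomputable def n3930 : Strat := .move 965 n3904 (.cons 843 n3670 (.cons 800 n3929 (.cons 841 n2666 .nil)))
noncomputable def n3931 : Strat := .move 965 n2351 (.cons 800 n3903 .nil)
noncomputable def n3932 : Strat := .move 802 n1575 (.cons 803 n3665 .nil)
noncomputable def n3933 : Strat := .move 843 n472 (.cons 880 n3932 .nil)
noncomputable def n3934 : Strat := .move 841 n3338 (.cons 759 n3931 (.cons 800 n3910 (.cons 965 n3933 .nil)))
noncomputable def n3935 : Strat := .move 882 n1792 (.cons 760 n3850 .nil)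
noncomputable def n3936 : Strat := .move 801 n3890 (.cons 802 n2526 (.cons 800 n3924 (.cons 841 n2700 (.cons 965 n3935 .nil))))
noncomputable def n3937 : Strat := .move 842 n3897 (.cons 841 n3900 (.cons 843 n3902 (.cons 760 n3907 (.cons 965 n3908 (.cons 964 n3914 (.cons 802 n3920 (.cons 800 n3928 (.cons 801 n3930 (.cons 882 n3934 (.cons 880 n3936 .nil))))))))))
noncomputable def n3938 : Strat := .move 842 n42 (.cons 879 n3006 .nil)
noncomputable def n3939 : Strat := .move 879 n596 (.cons 878 n1817 .nil)
noncomputable def n3940 : Strat := .move 965 n3713 (.cons 842 n2350 .nil)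
noncomputable def n3941 : Strat := .move 800 n1836 (.cons 759 n3940 .nil)
noncomputable def n3942 : Strat := .move 841 n1352 (.cons 878 n3938 (.cons 842 n3939 (.cons 879 n3941 .nil)))
noncomputable def n3943 : Strat := .move 839 n601 (.cons 838 n3942 .nil)
noncomputable def n3944 : Strat := .move 882 n1125 (.cons 925 n3943 .nil)
noncomputable def n3945 : Strat := .win 923 2 880
noncomputable def n3946 : Strat := .move 839 n441 (.cons 1004 n20 .nil)
noncomputable def n3947 : Strat := .move 964 n3522 (.cons 965 n54 .nil)
noncomputable def n3948 : Strat := .move 962 n34 (.cons 1003 n3947 .nil)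
noncomputable def n3949 : Strat := .move 963 n3946 (.cons 798 n3628 (.cons 1004 n3948 .nil))
noncomputable def n3950 : Strat := .move 922 n3945 (.cons 923 n3949 .nil)
noncomputable def n3951 : Strat := .move 925 n1951 (.cons 882 n3950 .nil)
noncomputable def n3952 : Strat := .move 925 n3945 (.cons 923 n3949 .nil)
noncomputable def n3953 : Strat := .move 839 n20 (.cons 798 n1353 .nil)
noncomputable def n3954 : Strat := .move 963 n3627 (.cons 798 n3628 (.cons 839 n3557 (.cons 1004 n3953 .nil)))
noncomputable def n3955 : Strat := .move 922 n3626 (.cons 879 n3952 (.cons 923 n3954 .nil))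
noncomputable def n3956 : Strat := .move 882 n1124 (.cons 923 n1285 .nil)
noncomputable def n3957 : Strat := .win 839 0 838
noncomputable def n3958 : Strat := .move 838 n1297 (.cons 837 n3957 .nil)
noncomputable def n3959 : Strat := .move 882 n595 (.cons 842 n3958 .nil)
noncomputable def n3960 : Strat := .move 841 n596 (.cons 878 n3959 .nil)
noncomputable def n3961 : Strat := .move 882 n1124 (.cons 923 n1298 .nil)
noncomputable def n3962 : Strat := .win 839 5 836
noncomputable def n3963 : Strat := .win 921 0 877
noncomputable def n3964 : Strat := .move 922 n3963 (.cons 921 n1096 .nil)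
noncomputable def n3965 : Strat := .move 877 n3962 (.cons 839 n3964 .nil)
noncomputable def n3966 : Strat := .move 878 n1137 (.cons 841 n3965 .nil)
noncomputable def n3967 : Strat := .move 879 n3956 (.cons 923 n3960 (.cons 842 n3961 (.cons 882 n3966 .nil)))
noncomputable def n3968 : Strat := .move 880 n3597 (.cons 842 n3607 (.cons 923 n3944 (.cons 879 n3951 (.cons 882 n3955 (.cons 925 n3967 .nil)))))
noncomputable def n3969 : Strat := .move 842 n41 (.cons 843 n3406 .nil)
noncomputable def n3970 : Strat := .move 923 n2331 (.cons 921 n515 .nil)
noncomputable def n3971 : Strat := .move 963 n20 (.cons 798 n22 .nil)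
noncomputable def n3972 : Strat := .move 922 n3970 (.cons 925 n3971 .nil)
noncomputable def n3973 : Strat := .move 839 n38 (.cons 842 n3972 .nil)
noncomputable def n3974 : Strat := .move 879 n596 (.cons 878 n3973 .nil)
noncomputable def n3975 : Strat := .move 963 n22 (.cons 800 n3946 .nil)
noncomputable def n3976 : Strat := .move 922 n3970 (.cons 925 n3975 .nil)
noncomputable def n3977 : Strat := .move 879 n596 (.cons 878 n3976 .nil)
noncomputable def n3978 : Strat := .move 842 n41 (.cons 843 n3338 .nil)
noncomputable def n3979 : Strat := .move 841 n3969 (.cons 843 n3974 (.cons 842 n3977 (.cons 879 n3978 .nil)))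
noncomputable def n3980 : Strat := .move 842 n41 (.cons 843 n3281 .nil)
noncomputable def n3981 : Strat := .move 841 n596 (.cons 878 n3980 .nil)
noncomputable def n3982 : Strat := .move 879 n3956 (.cons 841 n3961 (.cons 923 n3981 .nil))
noncomputable def n3983 : Strat := .move 801 n1832 (.cons 923 n3833 .nil)
noncomputable def n3984 : Strat := .move 841 n3006 (.cons 1006 n1837 (.cons 800 n3983 .nil))
noncomputable def n3985 : Strat := .move 842 n1128 (.cons 843 n3984 .nil)
noncomputable def n3986 : Strat := .move 882 n1125 (.cons 925 n3985 .nil)
noncomputable def n3987 : Strat := .move 880 n3597 (.cons 882 n3979 (.cons 925 n3982 (.cons 841 n3607 (.cons 923 n3609 (.cons 879 n3986 .nil)))))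
noncomputable def n3988 : Strat := .move 842 n41 (.cons 843 n3834 .nil)
noncomputable def n3989 : Strat := .move 841 n3702 (.cons 843 n3703 (.cons 879 n3988 .nil))
noncomputable def n3990 : Strat := .move 882 n1125 (.cons 925 n3989 .nil)
noncomputable def n3991 : Strat := .move 839 n601 (.cons 838 n1818 .nil)
noncomputable def n3992 : Strat := .move 842 n1128 (.cons 843 n3991 .nil)
noncomputable def n3993 : Strat := .move 882 n3989 (.cons 879 n3619 (.cons 842 n3602 (.cons 839 n3596 (.cons 923 n3992 .nil))))
noncomputable def n3994 : Strat := .move 882 n1125 (.cons 925 n3992 .nil)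
noncomputable def n3995 : Strat := .move 841 n41 (.cons 843 n3406 .nil)
noncomputable def n3996 : Strat := .move 841 n596 (.cons 878 n3281 .nil)
noncomputable def n3997 : Strat := .move 798 n165 (.cons 963 n1101 .nil)
noncomputable def n3998 : Strat := .move 922 n3970 (.cons 925 n3997 .nil)
noncomputable def n3999 : Strat := .move 839 n1127 (.cons 841 n3998 .nil)
noncomputable def n4000 : Strat := .win 835 2 835
noncomputable def n4001 : Strat := .win 837 2 836
noncomputable def n4002 : Strat := .move 836 n4000 (.cons 835 n4001 .nil)
noncomputable def n4003 : Strat := .move 877 n3964 (.cons 923 n4002 .nil)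
noncomputable def n4004 : Strat := .move 878 n1137 (.cons 841 n4003 .nil)
noncomputable def n4005 : Strat := .move 922 n524 (.cons 878 n515 .nil)
noncomputable def n4006 : Strat := .move 922 n2331 (.cons 921 n524 .nil)
noncomputable def n4007 : Strat := .move 922 n2331 (.cons 921 n515 .nil)
noncomputable def n4008 : Strat := .move 923 n4005 (.cons 925 n4006 (.cons 878 n4007 (.cons 922 n2338 .nil)))
noncomputable def n4009 : Strat := .move 879 n3996 (.cons 878 n3999 (.cons 839 n4004 (.cons 841 n4008 .nil)))
noncomputable def n4010 : Strat := .move 843 n2254 (.cons 841 n2315 .nil)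
noncomputable def n4011 : Strat := .move 965 n2688 (.cons 801 n3724 (.cons 843 n3861 (.cons 964 n3446 .nil)))
noncomputable def n4012 : Strat := .move 842 n3995 (.cons 843 n4009 (.cons 879 n4010 (.cons 841 n4011 .nil)))
noncomputable def n4013 : Strat := .move 880 n3990 (.cons 925 n3993 (.cons 879 n3622 (.cons 842 n3607 (.cons 839 n3597 (.cons 923 n3994 (.cons 882 n4012 .nil))))))
noncomputable def n4014 : Strat := .move 923 n871 (.cons 925 n3633 .nil)
noncomputable def n4015 : Strat := .move 962 n34 (.cons 1003 n4014 .nil)
noncomputable def n4016 : Strat := .move 839 n1060 (.cons 838 n20 .nil)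
noncomputable def n4017 : Strat := .move 882 n355 (.cons 1004 n4016 .nil)
noncomputable def n4018 : Strat := .move 841 n22 (.cons 800 n4017 .nil)
noncomputable def n4019 : Strat := .move 963 n4015 (.cons 961 n4018 .nil)
noncomputable def n4020 : Strat := .move 882 n1125 (.cons 925 n3683 .nil)
noncomputable def n4021 : Strat := .move 879 n1817 (.cons 921 n1858 .nil)
noncomputable def n4022 : Strat := .move 839 n601 (.cons 838 n4021 .nil)
noncomputable def n4023 : Strat := .move 882 n1125 (.cons 925 n4022 .nil)
noncomputable def n4024 : Strat := .move 923 n524 (.cons 878 n2331 .nil)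
noncomputable def n4025 : Strat := .move 877 n3962 (.cons 839 n3963 .nil)
noncomputable def n4026 : Strat := .move 878 n1137 (.cons 841 n4025 .nil)
noncomputable def n4027 : Strat := .move 879 n3681 (.cons 882 n4024 (.cons 923 n4026 .nil))
noncomputable def n4028 : Strat := .move 925 n1951 (.cons 882 n3945 .nil)
noncomputable def n4029 : Strat := .move 880 n4020 (.cons 882 n3626 (.cons 923 n4023 (.cons 925 n4027 (.cons 879 n4028 .nil))))
noncomputable def n4030 : Strat := .move 798 n1101 (.cons 757 n165 .nil)
noncomputable def n4031 : Strat := .move 839 n601 (.cons 838 n4030 .nil)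
noncomputable def n4032 : Strat := .move 880 n1125 (.cons 925 n4031 .nil)
noncomputable def n4033 : Strat := .move 880 n1125 (.cons 925 n4022 .nil)
noncomputable def n4034 : Strat := .move 841 n355 (.cons 1004 n22 .nil)
noncomputable def n4035 : Strat := .move 1004 n1026 (.cons 839 n1037 .nil)
noncomputable def n4036 : Strat := .move 841 n596 (.cons 878 n22 .nil)
noncomputable def n4037 : Strat := .move 879 n1817 (.cons 921 n4036 .nil)
noncomputable def n4038 : Strat := .move 963 n4034 (.cons 800 n4035 (.cons 1004 n4037 (.cons 841 n3946 .nil)))
noncomputable def n4039 : Strat := .move 880 n1125 (.cons 925 n4038 .nil)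
noncomputable def n4040 : Strat := .move 841 n2444 (.cons 963 n3939 .nil)
noncomputable def n4041 : Strat := .move 880 n1125 (.cons 925 n4040 .nil)
noncomputable def n4042 : Strat := .move 838 n1093 (.cons 841 n36 .nil)
noncomputable def n4043 : Strat := .move 839 n20 (.cons 798 n4042 .nil)
noncomputable def n4044 : Strat := .move 838 n1428 (.cons 880 n36 .nil)
noncomputable def n4045 : Strat := .move 839 n20 (.cons 798 n4044 .nil)
noncomputable def n4046 : Strat := .move 963 n3095 (.cons 800 n4043 (.cons 841 n4045 .nil))
noncomputable def n4047 : Strat := .move 841 n355 (.cons 1004 n4016 .nil)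
noncomputable def n4048 : Strat := .move 841 n22 (.cons 800 n4016 .nil)
noncomputable def n4049 : Strat := .move 963 n3095 (.cons 800 n4047 (.cons 841 n3557 (.cons 1004 n4048 .nil)))
noncomputable def n4050 : Strat := .move 882 n4032 (.cons 963 n4033 (.cons 838 n4039 (.cons 839 n4041 (.cons 925 n4046 (.cons 880 n4049 .nil)))))
noncomputable def n4051 : Strat := .move 963 n4015 (.cons 923 n436 (.cons 962 n455 .nil))
noncomputable def n4052 : Strat := .move 880 n1125 (.cons 925 n3703 .nil)
noncomputable def n4053 : Strat := .move 882 n355 (.cons 1004 n4052 .nil)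
noncomputable def n4054 : Strat := .move 841 n22 (.cons 800 n4053 .nil)
noncomputable def n4055 : Strat := .move 963 n4015 (.cons 923 n350 (.cons 962 n4054 .nil))
noncomputable def n4056 : Strat := .move 963 n4018 (.cons 882 n3571 .nil)
noncomputable def n4057 : Strat := .move 963 n20 (.cons 798 n796 .nil)
noncomputable def n4058 : Strat := .move 882 n355 (.cons 1004 n1060 .nil)
noncomputable def n4059 : Strat := .move 841 n22 (.cons 800 n4058 .nil)
noncomputable def n4060 : Strat := .move 963 n20 (.cons 798 n4059 .nil)
noncomputable def n4061 : Strat := .move 757 n1483 (.cons 716 n3289 .nil)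
noncomputable def n4062 : Strat := .move 798 n165 (.cons 963 n4061 .nil)
noncomputable def n4063 : Strat := .move 882 n36 (.cons 837 n1093 .nil)
noncomputable def n4064 : Strat := .move 882 n1093 (.cons 841 n1428 .nil)
noncomputable def n4065 : Strat := .move 795 n1418 (.cons 794 n1417 .nil)
noncomputable def n4066 : Strat := .move 836 n1416 (.cons 880 n4065 .nil)
noncomputable def n4067 : Strat := .move 841 n1587 (.cons 795 n1601 .nil)
noncomputable def n4068 : Strat := .move 877 n1424 (.cons 876 n1423 .nil)
noncomputable def n4069 : Strat := .move 836 n1416 (.cons 880 n4068 .nil)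
noncomputable def n4070 : Strat := .move 837 n4066 (.cons 836 n4067 (.cons 796 n4069 .nil))
noncomputable def n4071 : Strat := .move 882 n36 (.cons 837 n1428 .nil)
noncomputable def n4072 : Strat := .move 838 n4063 (.cons 837 n4064 (.cons 882 n4070 (.cons 841 n4071 .nil)))
noncomputable def n4073 : Strat := .move 839 n4057 (.cons 841 n3356 (.cons 880 n4060 (.cons 1004 n4062 (.cons 963 n4072 .nil))))
noncomputable def n4074 : Strat := .move 922 n4019 (.cons 963 n4029 (.cons 923 n4050 (.cons 882 n4051 (.cons 839 n4055 (.cons 921 n4056 (.cons 925 n4073 .nil))))))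
noncomputable def n4075 : Strat := .move 801 n3890 (.cons 841 n3259 (.cons 802 n2526 .nil))
noncomputable def n4076 : Strat := .move 801 n3330 (.cons 839 n3259 (.cons 802 n3673 .nil))
noncomputable def n4077 : Strat := .move 801 n3259 (.cons 923 n2874 (.cons 802 n3673 .nil))
noncomputable def n4078 : Strat := .move 843 n1575 (.cons 803 n2205 .nil)
noncomputable def n4079 : Strat := .move 841 n2923 (.cons 839 n4078 .nil)
noncomputable def n4080 : Strat := .move 802 n1793 (.cons 761 n4079 .nil)
noncomputable def n4081 : Strat := .move 760 n2495 (.cons 882 n2544 .nil)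
noncomputable def n4082 : Strat := .move 923 n1790 (.cons 964 n4081 .nil)
noncomputable def n4083 : Strat := .move 1006 n3719 (.cons 1047 n2353 .nil)
noncomputable def n4084 : Strat := .move 965 n2313 (.cons 925 n4083 .nil)
noncomputable def n4085 : Strat := .move 882 n1791 (.cons 760 n4084 .nil)
noncomputable def n4086 : Strat := .move 923 n1790 (.cons 964 n4085 .nil)
noncomputable def n4087 : Strat := .move 801 n4080 (.cons 843 n3259 (.cons 802 n4082 (.cons 761 n4086 .nil)))
noncomputable def n4088 : Strat := .move 965 n2356 (.cons 841 n2313 .nil)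
noncomputable def n4089 : Strat := .move 800 n1665 (.cons 759 n4088 .nil)
noncomputable def n4090 : Strat := .move 801 n3890 (.cons 839 n2524 (.cons 802 n4089 (.cons 800 n4080 (.cons 841 n3412 (.cons 965 n3330 .nil)))))
noncomputable def n4091 : Strat := .move 841 n2350 (.cons 1006 n3753 .nil)
noncomputable def n4092 : Strat := .move 965 n2313 (.cons 925 n4091 .nil)
noncomputable def n4093 : Strat := .move 882 n1791 (.cons 760 n4092 .nil)
noncomputable def n4094 : Strat := .move 923 n1790 (.cons 964 n4093 .nil)
noncomputable def n4095 : Strat := .move 801 n2526 (.cons 800 n4082 (.cons 964 n4089 (.cons 759 n4094 .nil)))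
noncomputable def n4096 : Strat := .move 965 n3664 (.cons 882 n3425 .nil)
noncomputable def n4097 : Strat := .move 964 n2308 (.cons 1005 n3550 .nil)
noncomputable def n4098 : Strat := .move 841 n23 (.cons 882 n22 .nil)
noncomputable def n4099 : Strat := .move 1004 n348 (.cons 962 n4098 .nil)
noncomputable def n4100 : Strat := .move 1005 n381 (.cons 1046 n2341 .nil)
noncomputable def n4101 : Strat := .move 1004 n4098 (.cons 800 n4100 .nil)
noncomputable def n4102 : Strat := .move 963 n4097 (.cons 964 n4099 (.cons 1003 n4101 .nil))
noncomputable def n4103 : Strat := .move 922 n3577 (.cons 921 n4102 (.cons 964 n3538 .nil))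
noncomputable def n4104 : Strat := .move 965 n3664 (.cons 841 n2666 (.cons 1006 n4103 .nil))
noncomputable def n4105 : Strat := .move 842 n4075 (.cons 965 n4076 (.cons 841 n4077 (.cons 800 n4087 (.cons 964 n4090 (.cons 802 n4095 (.cons 761 n4096 (.cons 801 n4104 .nil)))))))
noncomputable def n4106 : Strat := .move 842 n3904 (.cons 841 n2666 .nil)
noncomputable def n4107 : Strat := .move 842 n2351 (.cons 800 n3905 .nil)
noncomputable def n4108 : Strat := .move 882 n2350 (.cons 1006 n3714 .nil)
noncomputable def n4109 : Strat := .move 842 n2351 (.cons 800 n3283 .nil)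
noncomputable def n4110 : Strat := .move 879 n1297 (.cons 837 n596 .nil)
noncomputable def n4111 : Strat := .move 838 n3957 (.cons 839 n4110 .nil)
noncomputable def n4112 : Strat := .move 880 n1125 (.cons 925 n4111 .nil)
noncomputable def n4113 : Strat := .move 882 n2350 (.cons 1006 n4112 .nil)
noncomputable def n4114 : Strat := .move 841 n4107 (.cons 880 n4108 (.cons 1006 n4109 (.cons 842 n4113 .nil)))
noncomputable def n4115 : Strat := .move 841 n2351 (.cons 800 n3283 .nil)
noncomputable def n4116 : Strat := .move 1005 n2341 (.cons 964 n3734 .nil)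
noncomputable def n4117 : Strat := .move 801 n3709 (.cons 1007 n3833 .nil)
noncomputable def n4118 : Strat := .move 841 n2351 (.cons 800 n4117 .nil)
noncomputable def n4119 : Strat := .move 801 n1665 (.cons 759 n3709 .nil)
noncomputable def n4120 : Strat := .move 800 n2356 (.cons 841 n4119 .nil)
noncomputable def n4121 : Strat := .move 882 n4116 (.cons 841 n3820 (.cons 843 n4118 (.cons 802 n4120 .nil)))
noncomputable def n4122 : Strat := .move 964 n2308 (.cons 1005 n3728 .nil)
noncomputable def n4123 : Strat := .move 838 n264 (.cons 882 n1436 .nil)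
noncomputable def n4124 : Strat := .move 801 n268 (.cons 802 n3709 .nil)
noncomputable def n4125 : Strat := .move 839 n4123 (.cons 838 n4124 .nil)
noncomputable def n4126 : Strat := .move 841 n2351 (.cons 800 n4125 .nil)
noncomputable def n4127 : Strat := .move 842 n3904 (.cons 802 n4115 (.cons 880 n4121 (.cons 800 n3929 (.cons 841 n4122 (.cons 843 n4126 .nil)))))
noncomputable def n4128 : Strat := .move 1005 n2341 (.cons 964 n3727 .nil)
noncomputable def n4129 : Strat := .move 966 n2311 (.cons 1007 n4128 .nil)
noncomputable def n4130 : Strat := .move 1006 n2353 (.cons 841 n2340 .nil)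
noncomputable def n4131 : Strat := .move 925 n3481 (.cons 801 n2714 .nil)
noncomputable def n4132 : Strat := .move 882 n4130 (.cons 1046 n4131 .nil)
noncomputable def n4133 : Strat := .move 1005 n2341 (.cons 964 n4132 .nil)
noncomputable def n4134 : Strat := .move 966 n2311 (.cons 1007 n4133 .nil)
noncomputable def n4135 : Strat := .move 842 n3929 (.cons 882 n4129 (.cons 843 n4134 .nil))
noncomputable def n4136 : Strat := .move 882 n2350 (.cons 1006 n2996 .nil)
noncomputable def n4137 : Strat := .move 841 n2351 (.cons 800 n4136 .nil)
noncomputable def n4138 : Strat := .move 800 n1665 (.cons 759 n2356 .nil)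
noncomputable def n4139 : Strat := .move 801 n2312 (.cons 925 n4138 .nil)
noncomputable def n4140 : Strat := .move 966 n2311 (.cons 1007 n4139 .nil)
noncomputable def n4141 : Strat := .move 879 n3680 (.cons 839 n1817 .nil)
noncomputable def n4142 : Strat := .move 882 n1125 (.cons 925 n4141 .nil)
noncomputable def n4143 : Strat := .move 966 n3481 (.cons 801 n2311 .nil)
noncomputable def n4144 : Strat := .move 925 n1951 (.cons 882 n4143 .nil)
noncomputable def n4145 : Strat := .move 964 n2308 (.cons 1005 n4144 .nil)
noncomputable def n4146 : Strat := .move 880 n4142 (.cons 839 n4145 (.cons 925 n2666 .nil))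
noncomputable def n4147 : Strat := .move 842 n4137 (.cons 800 n4134 (.cons 1006 n4126 (.cons 882 n4140 (.cons 841 n4146 (.cons 925 n3670 .nil)))))
noncomputable def n4148 : Strat := .move 880 n1125 (.cons 925 n4141 .nil)
noncomputable def n4149 : Strat := .move 1006 n2353 (.cons 841 n4148 .nil)
noncomputable def n4150 : Strat := .move 1047 n3467 (.cons 1089 n3473 .nil)
noncomputable def n4151 : Strat := .move 1046 n3474 (.cons 1005 n4150 .nil)
noncomputable def n4152 : Strat := .move 1048 n3468 (.cons 1007 n4151 .nil)
noncomputable def n4153 : Strat := .move 1006 n2353 (.cons 841 n4152 .nil)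
noncomputable def n4154 : Strat := .move 879 n1297 (.cons 837 n1817 .nil)
noncomputable def n4155 : Strat := .move 838 n1296 (.cons 839 n4154 .nil)
noncomputable def n4156 : Strat := .move 880 n1125 (.cons 925 n4155 .nil)
noncomputable def n4157 : Strat := .move 882 n4149 (.cons 880 n4153 (.cons 841 n4156 .nil))
noncomputable def n4158 : Strat := .move 882 n563 (.cons 844 n2350 .nil)
noncomputable def n4159 : Strat := .move 843 n2307 (.cons 802 n4158 .nil)
noncomputable def n4160 : Strat := .move 841 n2351 (.cons 800 n4159 .nil)
noncomputable def n4161 : Strat := .move 964 n2308 (.cons 1005 n4160 .nil)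
noncomputable def n4162 : Strat := .move 842 n3667 (.cons 801 n4161 (.cons 843 n3670 (.cons 841 n3728 .nil)))
noncomputable def n4163 : Strat := .move 842 n2344 (.cons 966 n2341 .nil)
noncomputable def n4164 : Strat := .move 1007 n2343 (.cons 1048 n4163 .nil)
noncomputable def n4165 : Strat := .move 1006 n2340 (.cons 1046 n4164 .nil)
noncomputable def n4166 : Strat := .win 922 6 840
noncomputable def n4167 : Strat := .win 961 0 961
noncomputable def n4168 : Strat := .move 962 n1009 (.cons 925 n4167 .nil)
noncomputable def n4169 : Strat := .move 963 n4166 (.cons 922 n4168 .nil)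
noncomputable def n4170 : Strat := .move 964 n3747 (.cons 842 n4169 .nil)
noncomputable def n4171 : Strat := .move 1006 n2340 (.cons 1046 n4170 .nil)
noncomputable def n4172 : Strat := .win 842 6 842
noncomputable def n4173 : Strat := .win 967 5 963
noncomputable def n4174 : Strat := .win 1003 5 962
noncomputable def n4175 : Strat := .move 1004 n4173 (.cons 967 n4174 .nil)
noncomputable def n4176 : Strat := .move 966 n4172 (.cons 842 n4175 .nil)
noncomputable def n4177 : Strat := .move 1007 n2343 (.cons 1048 n4176 .nil)
noncomputable def n4178 : Strat := .move 1006 n2340 (.cons 1046 n4177 .nil)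
noncomputable def n4179 : Strat := .move 842 n2341 (.cons 964 n3728 .nil)
noncomputable def n4180 : Strat := .move 964 n4166 (.cons 922 n3776 .nil)
noncomputable def n4181 : Strat := .move 1006 n4167 (.cons 961 n2340 .nil)
noncomputable def n4182 : Strat := .move 962 n1009 (.cons 925 n4181 .nil)
noncomputable def n4183 : Strat := .move 964 n4166 (.cons 922 n4182 .nil)
noncomputable def n4184 : Strat := .move 922 n382 (.cons 964 n3540 .nil)
noncomputable def n4185 : Strat := .win 922 6 881
noncomputable def n4186 : Strat := .move 1046 n4185 (.cons 922 n3775 .nil)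
noncomputable def n4187 : Strat := .move 922 n381 (.cons 1046 n348 .nil)
noncomputable def n4188 : Strat := .win 962 2 962
noncomputable def n4189 : Strat := .move 1007 n4188 (.cons 962 n2343 .nil)
noncomputable def n4190 : Strat := .move 1006 n2340 (.cons 1046 n4189 .nil)
noncomputable def n4191 : Strat := .move 839 n21 (.cons 880 n20 .nil)
noncomputable def n4192 : Strat := .move 922 n348 (.cons 962 n4191 .nil)
noncomputable def n4193 : Strat := .move 1004 n4186 (.cons 1006 n4187 (.cons 922 n4190 (.cons 1046 n4192 .nil)))
noncomputable def n4194 : Strat := .win 1004 2 962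
noncomputable def n4195 : Strat := .win 964 0 962
noncomputable def n4196 : Strat := .move 962 n4194 (.cons 1004 n4195 .nil)
noncomputable def n4197 : Strat := .move 1007 n2343 (.cons 1048 n4196 .nil)
noncomputable def n4198 : Strat := .move 1006 n2340 (.cons 1046 n4197 .nil)
noncomputable def n4199 : Strat := .win 1007 0 962
noncomputable def n4200 : Strat := .move 1006 n4199 (.cons 1007 n4167 .nil)
noncomputable def n4201 : Strat := .move 962 n1009 (.cons 925 n4200 .nil)
noncomputable def n4202 : Strat := .move 964 n4166 (.cons 922 n4201 .nil)
noncomputable def n4203 : Strat := .move 963 n4180 (.cons 1087 n4183 (.cons 1006 n4184 (.cons 964 n4193 (.cons 922 n4198 (.cons 1046 n4202 .nil)))))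
noncomputable def n4204 : Strat := .move 1005 n4165 (.cons 1007 n4171 (.cons 964 n4178 (.cons 1046 n4179 (.cons 842 n4203 .nil))))
noncomputable def n4205 : Strat := .move 965 n4106 (.cons 802 n4114 (.cons 1006 n4127 (.cons 800 n4135 (.cons 843 n4147 (.cons 842 n4157 (.cons 880 n4162 (.cons 841 n4204 .nil)))))))
noncomputable def n4206 : Strat := .move 964 n2334 (.cons 801 n3508 .nil)
noncomputable def n4207 : Strat := .win 882 0 879
noncomputable def n4208 : Strat := .move 879 n4207 (.cons 882 n524 .nil)
noncomputable def n4209 : Strat := .move 880 n515 (.cons 925 n4208 .nil)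
noncomputable def n4210 : Strat := .move 923 n4206 (.cons 963 n4209 .nil)
noncomputable def n4211 : Strat := .move 925 n1950 (.cons 966 n2632 .nil)
noncomputable def n4212 : Strat := .move 801 n1790 (.cons 964 n4211 .nil)
noncomputable def n4213 : Strat := .win 882 3 841
noncomputable def n4214 : Strat := .move 1005 n4213 (.cons 882 n2336 .nil)
noncomputable def n4215 : Strat := .move 964 n2334 (.cons 801 n4214 .nil)
noncomputable def n4216 : Strat := .move 923 n4209 (.cons 882 n4212 (.cons 925 n4215 .nil))
noncomputable def n4217 : Strat := .move 923 n1790 (.cons 964 n4211 .nil)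
noncomputable def n4218 : Strat := .move 801 n4217 (.cons 923 n2645 .nil)
noncomputable def n4219 : Strat := .move 882 n1128 (.cons 843 n1125 .nil)
noncomputable def n4220 : Strat := .move 880 n441 (.cons 1004 n4219 .nil)
noncomputable def n4221 : Strat := .move 839 n20 (.cons 798 n4220 .nil)
noncomputable def n4222 : Strat := .move 963 n3541 (.cons 1046 n4221 (.cons 1004 n3552 .nil))
noncomputable def n4223 : Strat := .move 965 n3459 (.cons 921 n2311 .nil)
noncomputable def n4224 : Strat := .move 966 n2312 (.cons 925 n4223 .nil)
noncomputable def n4225 : Strat := .move 923 n1790 (.cons 964 n4224 .nil)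
noncomputable def n4226 : Strat := .move 964 n2309 (.cons 923 n3508 .nil)
noncomputable def n4227 : Strat := .move 801 n4225 (.cons 921 n4226 (.cons 923 n2645 .nil))
noncomputable def n4228 : Strat := .move 882 n1125 (.cons 925 n1128 .nil)
noncomputable def n4229 : Strat := .move 923 n515 (.cons 925 n2332 .nil)
noncomputable def n4230 : Strat := .move 882 n1128 (.cons 843 n4031 .nil)
noncomputable def n4231 : Strat := .move 880 n4228 (.cons 882 n4229 (.cons 925 n4230 .nil))
noncomputable def n4232 : Strat := .move 962 n872 (.cons 961 n34 .nil)
noncomputable def n4233 : Strat := .move 923 n2334 (.cons 801 n4232 .nil)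
noncomputable def n4234 : Strat := .move 964 n54 (.cons 1005 n4233 .nil)
noncomputable def n4235 : Strat := .move 882 n601 (.cons 838 n1128 .nil)
noncomputable def n4236 : Strat := .move 880 n441 (.cons 1004 n4235 .nil)
noncomputable def n4237 : Strat := .move 839 n20 (.cons 798 n4236 .nil)
noncomputable def n4238 : Strat := .move 963 n4234 (.cons 964 n4237 .nil)
noncomputable def n4239 : Strat := .move 842 n4210 (.cons 963 n4216 (.cons 882 n4218 (.cons 923 n4222 (.cons 880 n4227 (.cons 964 n4231 (.cons 925 n4238 .nil))))))
noncomputable def n4240 : Strat := .move 921 n1038 (.cons 920 n2178 .nil)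
noncomputable def n4241 : Strat := .move 923 n1846 (.cons 879 n4240 .nil)
noncomputable def n4242 : Strat := .move 882 n1125 (.cons 925 n4241 .nil)
noncomputable def n4243 : Strat := .move 842 n1128 (.cons 843 n4141 .nil)
noncomputable def n4244 : Strat := .move 882 n1125 (.cons 925 n4243 .nil)
noncomputable def n4245 : Strat := .move 923 n515 (.cons 925 n2338 .nil)
noncomputable def n4246 : Strat := .move 802 n2205 (.cons 965 n2410 .nil)
noncomputable def n4247 : Strat := .move 843 n2255 (.cons 882 n4246 .nil)
noncomputable def n4248 : Strat := .move 842 n4228 (.cons 843 n4028 (.cons 882 n4245 (.cons 925 n4247 .nil)))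
noncomputable def n4249 : Strat := .move 879 n524 (.cons 878 n4207 .nil)
noncomputable def n4250 : Strat := .win 964 0 920
noncomputable def n4251 : Strat := .move 965 n4250 (.cons 964 n943 .nil)
noncomputable def n4252 : Strat := .move 920 n1682 (.cons 882 n4251 .nil)
noncomputable def n4253 : Strat := .move 921 n2178 (.cons 1003 n4252 .nil)
noncomputable def n4254 : Strat := .move 923 n4249 (.cons 879 n4253 (.cons 882 n3625 .nil))
noncomputable def n4255 : Strat := .move 880 n4242 (.cons 923 n4244 (.cons 921 n4020 (.cons 879 n4248 (.cons 882 n3626 (.cons 925 n4254 .nil)))))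
noncomputable def n4256 : Strat := .move 882 n601 (.cons 838 n1125 .nil)
noncomputable def n4257 : Strat := .move 880 n441 (.cons 1004 n4256 .nil)
noncomputable def n4258 : Strat := .move 839 n20 (.cons 798 n4257 .nil)
noncomputable def n4259 : Strat := .move 963 n4015 (.cons 923 n4258 (.cons 925 n436 .nil))
noncomputable def n4260 : Strat := .move 882 n1125 (.cons 925 n3788 .nil)
noncomputable def n4261 : Strat := .move 1005 n2335 (.cons 1046 n3507 .nil)
noncomputable def n4262 : Strat := .move 965 n1359 (.cons 920 n943 .nil)
noncomputable def n4263 : Strat := .move 964 n4261 (.cons 963 n4262 .nil)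
noncomputable def n4264 : Strat := .move 921 n514 (.cons 879 n4263 .nil)
noncomputable def n4265 : Strat := .move 923 n515 (.cons 925 n4264 .nil)
noncomputable def n4266 : Strat := .move 882 n1125 (.cons 925 n4031 .nil)
noncomputable def n4267 : Strat := .move 963 n20 (.cons 798 n441 .nil)
noncomputable def n4268 : Strat := .move 879 n1124 (.cons 923 n1817 .nil)
noncomputable def n4269 : Strat := .move 882 n601 (.cons 838 n4268 .nil)
noncomputable def n4270 : Strat := .move 839 n4267 (.cons 1004 n3997 (.cons 963 n4269 .nil))
noncomputable def n4271 : Strat := .move 880 n4260 (.cons 882 n4265 (.cons 879 n4028 (.cons 923 n4266 (.cons 925 n4270 .nil))))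
noncomputable def n4272 : Strat := .move 842 n3541 (.cons 1046 n4221 (.cons 1004 n3552 .nil))
noncomputable def n4273 : Strat := .move 965 n1009 (.cons 925 n1080 .nil)
noncomputable def n4274 : Strat := .move 962 n34 (.cons 1003 n4273 .nil)
noncomputable def n4275 : Strat := .move 964 n54 (.cons 1005 n4274 .nil)
noncomputable def n4276 : Strat := .move 963 n4272 (.cons 842 n4258 (.cons 839 n3541 (.cons 1004 n4275 .nil)))
noncomputable def n4277 : Strat := .move 925 n3945 (.cons 923 n1951 .nil)
noncomputable def n4278 : Strat := .move 880 n441 (.cons 1004 n4277 .nil)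
noncomputable def n4279 : Strat := .move 839 n20 (.cons 798 n4278 .nil)
noncomputable def n4280 : Strat := .move 963 n3541 (.cons 1046 n3571 (.cons 964 n4279 .nil))
noncomputable def n4281 : Strat := .move 880 n515 (.cons 925 n4249 .nil)
noncomputable def n4282 : Strat := .move 965 n2311 (.cons 1007 n3459 .nil)
noncomputable def n4283 : Strat := .move 842 n3481 (.cons 801 n4282 .nil)
noncomputable def n4284 : Strat := .move 966 n3480 (.cons 967 n4283 .nil)
noncomputable def n4285 : Strat := .move 925 n2632 (.cons 880 n4284 .nil)
noncomputable def n4286 : Strat := .move 1005 n3507 (.cons 963 n2335 .nil)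
noncomputable def n4287 : Strat := .win 882 7 840
noncomputable def n4288 : Strat := .move 1005 n2335 (.cons 1046 n4287 .nil)
noncomputable def n4289 : Strat := .move 920 n1357 (.cons 965 n512 .nil)
noncomputable def n4290 : Strat := .win 962 4 920
noncomputable def n4291 : Strat := .move 961 n693 (.cons 960 n4290 .nil)
noncomputable def n4292 : Strat := .move 920 n512 (.cons 882 n4291 .nil)
noncomputable def n4293 : Strat := .move 921 n4289 (.cons 882 n4262 (.cons 965 n4292 (.cons 920 n3565 .nil)))
noncomputable def n4294 : Strat := .move 964 n4286 (.cons 963 n4288 (.cons 1005 n4293 .nil))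
noncomputable def n4295 : Strat := .move 879 n860 (.cons 878 n859 .nil)
noncomputable def n4296 : Strat := .move 920 n512 (.cons 882 n4295 .nil)
noncomputable def n4297 : Strat := .move 921 n4289 (.cons 882 n4262 (.cons 965 n4296 (.cons 920 n3562 .nil)))
noncomputable def n4298 : Strat := .move 964 n4286 (.cons 963 n4288 (.cons 1005 n4297 .nil))
noncomputable def n4299 : Strat := .move 923 n4281 (.cons 879 n4285 (.cons 880 n4294 (.cons 925 n4298 .nil)))
noncomputable def n4300 : Strat := .move 962 n34 (.cons 1003 n3524 .nil)
noncomputable def n4301 : Strat := .move 964 n54 (.cons 1005 n4300 .nil)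
noncomputable def n4302 : Strat := .move 1004 n381 (.cons 1046 n4191 .nil)
noncomputable def n4303 : Strat := .move 1005 n382 (.cons 964 n4302 .nil)
noncomputable def n4304 : Strat := .move 963 n4015 (.cons 961 n4301 (.cons 962 n4303 .nil))
noncomputable def n4305 : Strat := .move 842 n2334 (.cons 801 n4214 .nil)
noncomputable def n4306 : Strat := .move 964 n4286 (.cons 963 n4305 (.cons 1005 n4297 .nil))
noncomputable def n4307 : Strat := .move 962 n1539 (.cons 1003 n2177 .nil)
noncomputable def n4308 : Strat := .move 880 n514 (.cons 879 n4307 .nil)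
noncomputable def n4309 : Strat := .move 882 n1128 (.cons 843 n1038 .nil)
noncomputable def n4310 : Strat := .move 880 n514 (.cons 879 n4309 .nil)
noncomputable def n4311 : Strat := .move 842 n4308 (.cons 880 n4292 (.cons 961 n4310 .nil))
noncomputable def n4312 : Strat := .move 1003 n3513 (.cons 1044 n3526 .nil)
noncomputable def n4313 : Strat := .move 962 n2177 (.cons 961 n4312 .nil)
noncomputable def n4314 : Strat := .move 882 n494 (.cons 920 n4313 .nil)
noncomputable def n4315 : Strat := .move 882 n601 (.cons 838 n1038 .nil)
noncomputable def n4316 : Strat := .move 798 n1101 (.cons 757 n1311 .nil)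
noncomputable def n4317 : Strat := .move 839 n4315 (.cons 920 n4316 .nil)
noncomputable def n4318 : Strat := .move 880 n514 (.cons 879 n4317 .nil)
noncomputable def n4319 : Strat := .move 921 n4311 (.cons 880 n4314 (.cons 882 n4308 (.cons 962 n4318 .nil)))
noncomputable def n4320 : Strat := .move 964 n54 (.cons 1005 n4232 .nil)
noncomputable def n4321 : Strat := .move 963 n3946 (.cons 798 n4320 .nil)
noncomputable def n4322 : Strat := .move 880 n3625 (.cons 921 n4321 .nil)
noncomputable def n4323 : Strat := .move 921 n4289 (.cons 882 n4262 (.cons 965 n4292 (.cons 920 n4313 .nil)))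
noncomputable def n4324 : Strat := .move 964 n4286 (.cons 963 n4288 (.cons 1005 n4323 .nil))
noncomputable def n4325 : Strat := .move 1005 n2336 (.cons 965 n2335 .nil)
noncomputable def n4326 : Strat := .move 964 n2334 (.cons 801 n4325 .nil)
noncomputable def n4327 : Strat := .move 880 n1128 (.cons 843 n1846 .nil)
noncomputable def n4328 : Strat := .move 882 n1791 (.cons 760 n4327 .nil)
noncomputable def n4329 : Strat := .move 801 n1790 (.cons 964 n4328 .nil)
noncomputable def n4330 : Strat := .move 921 n4310 (.cons 880 n4292 (.cons 920 n4308 .nil))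
noncomputable def n4331 : Strat := .move 842 n4215 (.cons 882 n4326 (.cons 1005 n4329 (.cons 964 n4330 .nil)))
noncomputable def n4332 : Strat := .move 842 n1128 (.cons 843 n2334 .nil)
noncomputable def n4333 : Strat := .move 880 n1846 (.cons 879 n4332 .nil)
noncomputable def n4334 : Strat := .move 964 n1503 (.cons 1005 n4333 .nil)
noncomputable def n4335 : Strat := .win 964 7 840
noncomputable def n4336 : Strat := .move 1006 n2340 (.cons 1046 n3719 .nil)
noncomputable def n4337 : Strat := .move 965 n3877 (.cons 966 n4336 .nil)
noncomputable def n4338 : Strat := .move 1005 n4335 (.cons 964 n4337 .nil)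
noncomputable def n4339 : Strat := .move 880 n1846 (.cons 879 n4031 .nil)
noncomputable def n4340 : Strat := .move 882 n4334 (.cons 843 n4338 (.cons 964 n4339 .nil))
noncomputable def n4341 : Strat := .move 1004 n348 (.cons 962 n4191 .nil)
noncomputable def n4342 : Strat := .move 964 n54 (.cons 1005 n4341 .nil)
noncomputable def n4343 : Strat := .move 880 n441 (.cons 1004 n4208 .nil)
noncomputable def n4344 : Strat := .move 839 n20 (.cons 798 n4343 .nil)
noncomputable def n4345 : Strat := .move 963 n4320 (.cons 961 n4342 (.cons 964 n4344 .nil))
noncomputable def n4346 : Strat := .move 923 n4306 (.cons 964 n4319 (.cons 882 n4322 (.cons 880 n4324 (.cons 963 n4331 (.cons 962 n4340 (.cons 921 n4345 .nil))))))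
noncomputable def n4347 : Strat := .move 1005 n3507 (.cons 963 n3747 .nil)
noncomputable def n4348 : Strat := .move 923 n2334 (.cons 801 n3459 .nil)
noncomputable def n4349 : Strat := .move 966 n2311 (.cons 1007 n4348 .nil)
noncomputable def n4350 : Strat := .move 963 n3549 (.cons 1007 n3550 .nil)
noncomputable def n4351 : Strat := .move 842 n4349 (.cons 966 n3729 (.cons 801 n3576 (.cons 923 n4350 .nil)))
noncomputable def n4352 : Strat := .move 963 n54 (.cons 1005 n3550 .nil)
noncomputable def n4353 : Strat := .win 923 3 882
noncomputable def n4354 : Strat := .move 1046 n4353 (.cons 923 n3775 .nil)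
noncomputable def n4355 : Strat := .move 1005 n3747 (.cons 842 n4354 .nil)
noncomputable def n4356 : Strat := .move 964 n4347 (.cons 1005 n4351 (.cons 842 n4352 (.cons 963 n4355 .nil)))
noncomputable def n4357 : Strat := .move 843 n2307 (.cons 802 n3710 .nil)
noncomputable def n4358 : Strat := .move 842 n4357 (.cons 923 n3820 (.cons 801 n3535 (.cons 964 n3728 (.cons 966 n3730 .nil))))
noncomputable def n4359 : Strat := .move 1005 n3747 (.cons 842 n3507 .nil)
noncomputable def n4360 : Strat := .move 921 n1359 (.cons 920 n943 .nil)
noncomputable def n4361 : Strat := .move 964 n4359 (.cons 963 n4360 .nil)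
noncomputable def n4362 : Strat := .move 920 n512 (.cons 882 n4250 .nil)
noncomputable def n4363 : Strat := .move 921 n943 (.cons 966 n4362 .nil)
noncomputable def n4364 : Strat := .move 921 n943 (.cons 966 n4292 .nil)
noncomputable def n4365 : Strat := .move 964 n3747 (.cons 842 n3507 .nil)
noncomputable def n4366 : Strat := .win 964 3 882
noncomputable def n4367 : Strat := .move 1046 n4366 (.cons 964 n3775 .nil)
noncomputable def n4368 : Strat := .win 1004 6 881
noncomputable def n4369 : Strat := .move 1046 n4368 (.cons 1004 n3775 .nil)
noncomputable def n4370 : Strat := .move 963 n3269 (.cons 1003 n4369 .nil)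
noncomputable def n4371 : Strat := .move 1005 n4365 (.cons 963 n4367 (.cons 964 n4370 .nil))
noncomputable def n4372 : Strat := .move 923 n4361 (.cons 1005 n4363 (.cons 964 n4364 (.cons 921 n4371 .nil)))
noncomputable def n4373 : Strat := .move 964 n54 (.cons 1005 n3550 .nil)
noncomputable def n4374 : Strat := .move 1005 n382 (.cons 964 n4369 .nil)
noncomputable def n4375 : Strat := .win 964 5 921
noncomputable def n4376 : Strat := .move 925 n4375 (.cons 964 n3523 .nil)
noncomputable def n4377 : Strat := .move 962 n34 (.cons 1003 n4376 .nil)
noncomputable def n4378 : Strat := .move 963 n4373 (.cons 925 n4374 (.cons 1005 n4377 (.cons 964 n4015 .nil)))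
noncomputable def n4379 : Strat := .win 1008 0 963
noncomputable def n4380 : Strat := .move 1007 n4379 (.cons 1008 n4172 .nil)
noncomputable def n4381 : Strat := .move 963 n3548 (.cons 921 n4380 .nil)
noncomputable def n4382 : Strat := .move 923 n3458 (.cons 967 n3459 .nil)
noncomputable def n4383 : Strat := .win 1089 7 924
noncomputable def n4384 : Strat := .win 1006 6 883
noncomputable def n4385 : Strat := .move 1048 n4383 (.cons 1089 n4384 .nil)
noncomputable def n4386 : Strat := .move 1007 n4172 (.cons 842 n4385 .nil)
noncomputable def n4387 : Strat := .move 966 n3575 (.cons 923 n4381 (.cons 963 n4382 (.cons 921 n4386 .nil)))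
noncomputable def n4388 : Strat := .move 1005 n3507 (.cons 963 n4354 .nil)
noncomputable def n4389 : Strat := .move 964 n4347 (.cons 1005 n4387 (.cons 842 n4388 (.cons 963 n4355 .nil)))
noncomputable def n4390 : Strat := .win 925 7 883
noncomputable def n4391 : Strat := .move 1048 n4390 (.cons 925 n4384 .nil)
noncomputable def n4392 : Strat := .move 1007 n4172 (.cons 842 n4391 .nil)
noncomputable def n4393 : Strat := .move 964 n3575 (.cons 923 n4381 (.cons 963 n4382 (.cons 921 n4392 .nil)))
noncomputable def n4394 : Strat := .win 1004 4 962
noncomputable def n4395 : Strat := .move 1003 n4394 (.cons 1004 n27 .nil)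
noncomputable def n4396 : Strat := .move 963 n3548 (.cons 921 n4395 .nil)
noncomputable def n4397 : Strat := .move 964 n4381 (.cons 963 n4392 (.cons 842 n4396 .nil))
noncomputable def n4398 : Strat := .move 801 n2309 (.cons 923 n2312 .nil)
noncomputable def n4399 : Strat := .move 842 n2311 (.cons 1007 n4398 .nil)
noncomputable def n4400 : Strat := .move 964 n4382 (.cons 921 n4399 (.cons 923 n4392 .nil))
noncomputable def n4401 : Strat := .move 964 n3575 (.cons 923 n4381 (.cons 963 n4382 (.cons 921 n4386 .nil)))
noncomputable def n4402 : Strat := .move 964 n3575 (.cons 923 n4381 (.cons 963 n4382 (.cons 921 n4399 .nil)))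
noncomputable def n4403 : Strat := .move 966 n4393 (.cons 923 n4397 (.cons 963 n4400 (.cons 925 n4401 (.cons 1006 n4402 (.cons 1007 n3534 (.cons 921 n4392 .nil))))))
noncomputable def n4404 : Strat := .move 1007 n2343 (.cons 1048 n4172 .nil)
noncomputable def n4405 : Strat := .move 1006 n2340 (.cons 1046 n4404 .nil)
noncomputable def n4406 : Strat := .move 1005 n4405 (.cons 1006 n3537 .nil)
noncomputable def n4407 : Strat := .move 966 n4406 (.cons 1007 n3537 (.cons 968 n4392 (.cons 925 n4386 .nil)))
noncomputable def n4408 : Strat := .move 842 n3730 (.cons 761 n3732 (.cons 1005 n3728 (.cons 801 n2666 .nil)))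
noncomputable def n4409 : Strat := .move 962 n771 (.cons 920 n1009 .nil)
noncomputable def n4410 : Strat := .move 921 n772 (.cons 966 n4409 .nil)
noncomputable def n4411 : Strat := .move 962 n34 (.cons 1003 n1080 .nil)
noncomputable def n4412 : Strat := .move 966 n3548 (.cons 921 n4380 .nil)
noncomputable def n4413 : Strat := .move 963 n3550 (.cons 1003 n4410 (.cons 925 n4411 (.cons 962 n4412 .nil)))
noncomputable def n4414 : Strat := .move 842 n2308 (.cons 1005 n3725 .nil)
noncomputable def n4415 : Strat := .move 963 n54 (.cons 1005 n4411 .nil)
noncomputable def n4416 : Strat := .move 964 n4352 (.cons 1005 n4413 (.cons 963 n4414 (.cons 925 n4415 .nil)))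
noncomputable def n4417 : Strat := .move 965 n4356 (.cons 963 n4358 (.cons 1007 n4372 (.cons 966 n4378 (.cons 925 n4389 (.cons 1005 n4403 (.cons 964 n4407 (.cons 921 n4408 (.cons 923 n4416 .nil))))))))
noncomputable def n4418 : Strat := .move 922 n4239 (.cons 963 n4255 (.cons 842 n4259 (.cons 961 n4271 (.cons 923 n4276 (.cons 921 n4280 (.cons 839 n4299 (.cons 882 n4304 (.cons 925 n4346 (.cons 880 n4417 .nil)))))))))
noncomputable def n4419 : Strat := .move 924 n3611 (.cons 882 n3612 (.cons 965 n3624 (.cons 966 n3639 (.cons 925 n3686 (.cons 760 n3742 (.cons 801 n3785 (.cons 839 n3827 (.cons 878 n3865 (.cons 802 n3884 (.cons 879 n3937 (.cons 843 n3968 (.cons 964 n3987 (.cons 800 n4013 (.cons 842 n4074 (.cons 880 n4105 (.cons 923 n4205 (.cons 841 n4418 .nil)))))))))))))))))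
noncomputable def n4420 : Strat := .move 883 n2184 (.cons 839 n2895 (.cons 841 n2920 (.cons 924 n2938 (.cons 921 n2977 (.cons 920 n2989 (.cons 843 n3023 (.cons 879 n3040 (.cons 923 n3048 (.cons 885 n3073 (.cons 922 n3092 (.cons 842 n3115 (.cons 880 n3276 (.cons 882 n3595 (.cons 884 n4419 .nil))))))))))))))
noncomputable def n4421 : Strat := .move 881 n101 (.cons 921 n369 (.cons 923 n478 (.cons 759 n584 (.cons 796 n632 (.cons 797 n703 (.cons 716 n742 (.cons 838 n792 (.cons 878 n822 (.cons 842 n840 (.cons 757 n905 (.cons 879 n927 (.cons 1003 n958 (.cons 1005 n986 (.cons 800 n1165 (.cons 963 n1178 (.cons 839 n1204 (.cons 964 n1271 (.cons 798 n1305 (.cons 841 n1325 (.cons 962 n1382 (.cons 880 n1388 (.cons 882 n1405 (.cons 758 n1413 (.cons 922 n2134 (.cons 799 n4420 .nil)))))))))))))))))))))))))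

end Vale.Agent.Snaky.R4_2
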