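import Vale.Agent.Snaky.Assemble

namespace Vale.Agent.Snaky.R4_3

open Vale.Agent.Snaky

noncomputable def n0 : Strat := .win 797 2 797
noncomputable def n1 : Strat := .win 799 2 798
noncomputable def n2 : Strat := .win 879 4 838
noncomputable def n3 : Strat := .win 881 4 839
noncomputable def n4 : Strat := .move 880 n2 (.cons 879 n3 .nil)
noncomputable def n5 : Strat := .move 843 n1 (.cons 799 n4 .nil)
noncomputable def n6 : Strat := .move 798 n0 (.cons 797 n5 .nil)
noncomputable def n7 : Strat := .win 884 0 839
noncomputable def n8 : Strat := .win 882 0 838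
noncomputable def n9 : Strat := .win 802 5 798
noncomputable def n10 : Strat := .win 800 5 797
noncomputable def n11 : Strat := .move 801 n9 (.cons 802 n10 .nil)
noncomputable def n12 : Strat := .move 838 n8 (.cons 882 n11 .nil)
noncomputable def n13 : Strat := .move 883 n7 (.cons 884 n12 .nil)
noncomputable def n14 : Strat := .move 839 n6 (.cons 799 n13 .nil)
noncomputable def n15 : Strat := .move 883 n7 (.cons 884 n8 .nil)
noncomputable def n16 : Strat := .move 838 n10 (.cons 800 n15 .nil)
noncomputable def n17 : Strat := .move 801 n9 (.cons 802 n16 .nil)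
noncomputable def n18 : Strat := .win 880 4 838
noncomputable def n19 : Strat := .win 878 4 837
noncomputable def n20 : Strat := .move 879 n18 (.cons 880 n19 .nil)
noncomputable def n21 : Strat := .move 838 n8 (.cons 882 n20 .nil)
noncomputable def n22 : Strat := .move 883 n7 (.cons 884 n21 .nil)
noncomputable def n23 : Strat := .move 838 n10 (.cons 800 n20 .nil)
noncomputable def n24 : Strat := .move 801 n9 (.cons 802 n23 .nil)
noncomputable def n25 : Strat := .win 922 6 757
noncomputable def n26 : Strat := .win 716 6 716
noncomputable def n27 : Strat := .move 881 n25 (.cons 922 n26 .nil)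
noncomputable def n28 : Strat := .win 921 3 757
noncomputable def n29 : Strat := .win 717 1 716
noncomputable def n30 : Strat := .move 758 n28 (.cons 921 n29 .nil)
noncomputable def n31 : Strat := .win 962 3 798
noncomputable def n32 : Strat := .win 758 3 757
noncomputable def n33 : Strat := .move 921 n31 (.cons 962 n32 .nil)
noncomputable def n34 : Strat := .win 800 2 756
noncomputable def n35 : Strat := .win 715 7 715
noncomputable def n36 : Strat := .move 756 n34 (.cons 800 n35 .nil)
noncomputable def n37 : Strat := .move 799 n30 (.cons 717 n33 (.cons 921 n36 .nil))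
noncomputable def n38 : Strat := .move 757 n27 (.cons 716 n37 .nil)
noncomputable def n39 : Strat := .move 801 n9 (.cons 802 n38 .nil)
noncomputable def n40 : Strat := .move 880 n2 (.cons 879 n39 .nil)
noncomputable def n41 : Strat := .move 798 n0 (.cons 797 n40 .nil)
noncomputable def n42 : Strat := .move 839 n17 (.cons 800 n22 (.cons 883 n24 (.cons 838 n41 .nil)))
noncomputable def n43 : Strat := .win 843 4 839
noncomputable def n44 : Strat := .win 963 7 798
noncomputable def n45 : Strat := .win 757 6 757
noncomputable def n46 : Strat := .move 922 n44 (.cons 963 n45 .nil)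
noncomputable def n47 : Strat := .move 881 n43 (.cons 843 n46 .nil)
noncomputable def n48 : Strat := .move 880 n2 (.cons 879 n47 .nil)
noncomputable def n49 : Strat := .move 798 n0 (.cons 797 n48 .nil)
noncomputable def n50 : Strat := .win 798 2 797
noncomputable def n51 : Strat := .win 796 2 796
noncomputable def n52 : Strat := .move 797 n50 (.cons 798 n51 .nil)
noncomputable def n53 : Strat := .move 838 n8 (.cons 882 n52 .nil)
noncomputable def n54 : Strat := .move 883 n7 (.cons 884 n53 .nil)
noncomputable def n55 : Strat := .move 839 n49 (.cons 881 n54 (.cons 798 n22 .nil))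
noncomputable def n56 : Strat := .win 843 2 798
noncomputable def n57 : Strat := .move 758 n29 (.cons 717 n28 .nil)
noncomputable def n58 : Strat := .move 799 n56 (.cons 843 n57 .nil)
noncomputable def n59 : Strat := .move 880 n2 (.cons 879 n58 .nil)
noncomputable def n60 : Strat := .move 798 n0 (.cons 797 n59 .nil)
noncomputable def n61 : Strat := .move 838 n10 (.cons 800 n52 .nil)
noncomputable def n62 : Strat := .move 801 n9 (.cons 802 n61 .nil)
noncomputable def n63 : Strat := .move 839 n60 (.cons 799 n24 (.cons 880 n62 .nil))
noncomputable def n64 : Strat := .win 803 5 799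
noncomputable def n65 : Strat := .win 839 5 798
noncomputable def n66 : Strat := .win 885 0 840
noncomputable def n67 : Strat := .win 719 6 719
noncomputable def n68 : Strat := .win 925 7 760
noncomputable def n69 : Strat := .move 760 n67 (.cons 719 n68 .nil)
noncomputable def n70 : Strat := .move 884 n66 (.cons 885 n69 .nil)
noncomputable def n71 : Strat := .move 801 n65 (.cons 839 n70 .nil)
noncomputable def n72 : Strat := .move 802 n64 (.cons 803 n71 .nil)
noncomputable def n73 : Strat := .win 880 4 839
noncomputable def n74 : Strat := .win 882 4 840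
noncomputable def n75 : Strat := .win 802 5 799
noncomputable def n76 : Strat := .win 804 5 800
noncomputable def n77 : Strat := .move 803 n75 (.cons 802 n76 .nil)
noncomputable def n78 : Strat := .move 844 n74 (.cons 882 n77 .nil)
noncomputable def n79 : Strat := .move 881 n73 (.cons 880 n78 .nil)
noncomputable def n80 : Strat := .win 884 0 840
noncomputable def n81 : Strat := .win 886 0 841
noncomputable def n82 : Strat := .move 885 n80 (.cons 884 n81 .nil)
noncomputable def n83 : Strat := .move 844 n74 (.cons 882 n82 .nil)
noncomputable def n84 : Strat := .move 881 n73 (.cons 880 n83 .nil)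
noncomputable def n85 : Strat := .move 843 n72 (.cons 925 n79 (.cons 802 n84 .nil))
noncomputable def n86 : Strat := .win 798 2 798
noncomputable def n87 : Strat := .win 800 2 799
noncomputable def n88 : Strat := .move 881 n73 (.cons 880 n74 .nil)
noncomputable def n89 : Strat := .move 844 n87 (.cons 800 n88 .nil)
noncomputable def n90 : Strat := .move 799 n86 (.cons 798 n89 .nil)
noncomputable def n91 : Strat := .move 844 n87 (.cons 800 n77 .nil)
noncomputable def n92 : Strat := .move 799 n86 (.cons 798 n91 .nil)
noncomputable def n93 : Strat := .win 923 6 758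
noncomputable def n94 : Strat := .win 717 6 717
noncomputable def n95 : Strat := .move 882 n93 (.cons 923 n94 .nil)
noncomputable def n96 : Strat := .win 922 3 758
noncomputable def n97 : Strat := .win 718 1 717
noncomputable def n98 : Strat := .move 759 n96 (.cons 922 n97 .nil)
noncomputable def n99 : Strat := .win 963 3 799
noncomputable def n100 : Strat := .win 759 3 758
noncomputable def n101 : Strat := .move 922 n99 (.cons 963 n100 .nil)
noncomputable def n102 : Strat := .win 801 2 757
noncomputable def n103 : Strat := .win 716 7 716
noncomputable def n104 : Strat := .move 757 n102 (.cons 801 n103 .nil)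
noncomputable def n105 : Strat := .move 800 n98 (.cons 718 n101 (.cons 922 n104 .nil))
noncomputable def n106 : Strat := .move 758 n95 (.cons 717 n105 .nil)
noncomputable def n107 : Strat := .move 802 n64 (.cons 803 n106 .nil)
noncomputable def n108 : Strat := .move 881 n73 (.cons 880 n107 .nil)
noncomputable def n109 : Strat := .move 799 n86 (.cons 798 n108 .nil)
noncomputable def n110 : Strat := .move 843 n90 (.cons 882 n92 (.cons 799 n79 (.cons 844 n109 .nil)))
noncomputable def n111 : Strat := .move 844 n87 (.cons 800 n82 .nil)
noncomputable def n112 : Strat := .move 799 n86 (.cons 798 n111 .nil)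
noncomputable def n113 : Strat := .move 843 n72 (.cons 802 n112 (.cons 884 n92 .nil))
noncomputable def n114 : Strat := .move 842 n14 (.cons 843 n42 (.cons 802 n55 (.cons 884 n63 (.cons 798 n85 (.cons 839 n110 (.cons 880 n113 .nil))))))
noncomputable def n115 : Strat := .move 842 n17 (.cons 800 n22 (.cons 883 n24 (.cons 838 n41 .nil)))
noncomputable def n116 : Strat := .win 801 5 797
noncomputable def n117 : Strat := .win 799 5 796
noncomputable def n118 : Strat := .win 883 0 838
noncomputable def n119 : Strat := .win 881 0 837
noncomputable def n120 : Strat := .move 882 n118 (.cons 883 n119 .nil)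
noncomputable def n121 : Strat := .move 837 n117 (.cons 799 n120 .nil)
noncomputable def n122 : Strat := .move 800 n116 (.cons 801 n121 .nil)
noncomputable def n123 : Strat := .move 801 n10 (.cons 800 n9 .nil)
noncomputable def n124 : Strat := .move 842 n18 (.cons 880 n123 .nil)
noncomputable def n125 : Strat := .move 879 n19 (.cons 878 n124 .nil)
noncomputable def n126 : Strat := .win 837 0 837
noncomputable def n127 : Strat := .win 842 4 838
noncomputable def n128 : Strat := .win 919 4 878
noncomputable def n129 : Strat := .win 757 1 756
noncomputable def n130 : Strat := .win 961 3 797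
noncomputable def n131 : Strat := .move 798 n129 (.cons 757 n130 .nil)
noncomputable def n132 : Strat := .move 920 n128 (.cons 919 n131 .nil)
noncomputable def n133 : Strat := .move 880 n127 (.cons 842 n132 .nil)
noncomputable def n134 : Strat := .move 881 n126 (.cons 837 n133 .nil)
noncomputable def n135 : Strat := .move 882 n118 (.cons 883 n134 .nil)
noncomputable def n136 : Strat := .move 879 n19 (.cons 878 n135 .nil)
noncomputable def n137 : Strat := .move 838 n122 (.cons 881 n125 (.cons 801 n136 .nil))
noncomputable def n138 : Strat := .win 965 7 800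
noncomputable def n139 : Strat := .win 759 7 759
noncomputable def n140 : Strat := .move 800 n138 (.cons 965 n139 .nil)
noncomputable def n141 : Strat := .win 800 7 800
noncomputable def n142 : Strat := .win 1005 1 841
noncomputable def n143 : Strat := .win 923 1 800
noncomputable def n144 : Strat := .move 964 n142 (.cons 1005 n143 .nil)
noncomputable def n145 : Strat := .move 965 n141 (.cons 800 n144 .nil)
noncomputable def n146 : Strat := .win 923 1 759
noncomputable def n147 : Strat := .win 719 1 718
noncomputable def n148 : Strat := .move 760 n146 (.cons 923 n147 .nil)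
noncomputable def n149 : Strat := .win 760 1 759
noncomputable def n150 : Strat := .win 964 1 800
noncomputable def n151 : Strat := .move 923 n149 (.cons 760 n150 .nil)
noncomputable def n152 : Strat := .win 881 0 880
noncomputable def n153 : Strat := .win 966 6 801
noncomputable def n154 : Strat := .move 925 n152 (.cons 881 n153 .nil)
noncomputable def n155 : Strat := .move 882 n148 (.cons 719 n151 (.cons 923 n154 .nil))
noncomputable def n156 : Strat := .move 924 n140 (.cons 759 n145 (.cons 965 n155 .nil))
noncomputable def n157 : Strat := .move 880 n2 (.cons 879 n156 .nil)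
noncomputable def n158 : Strat := .move 883 n7 (.cons 884 n157 .nil)
noncomputable def n159 : Strat := .move 801 n9 (.cons 802 n158 .nil)
noncomputable def n160 : Strat := .move 799 n32 (.cons 758 n31 .nil)
noncomputable def n161 : Strat := .move 757 n25 (.cons 922 n26 .nil)
noncomputable def n162 : Strat := .win 963 6 798
noncomputable def n163 : Strat := .move 922 n162 (.cons 963 n45 .nil)
noncomputable def n164 : Strat := .win 882 4 879
noncomputable def n165 : Strat := .win 961 1 797
noncomputable def n166 : Strat := .move 920 n164 (.cons 882 n165 .nil)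
noncomputable def n167 : Strat := .move 881 n161 (.cons 716 n163 (.cons 922 n166 .nil))
noncomputable def n168 : Strat := .move 921 n160 (.cons 962 n167 .nil)
noncomputable def n169 : Strat := .move 883 n7 (.cons 884 n168 .nil)
noncomputable def n170 : Strat := .move 798 n0 (.cons 797 n169 .nil)
noncomputable def n171 : Strat := .move 880 n2 (.cons 879 n170 .nil)
noncomputable def n172 : Strat := .move 882 n146 (.cons 923 n147 .nil)
noncomputable def n173 : Strat := .win 924 7 759
noncomputable def n174 : Strat := .win 718 6 718
noncomputable def n175 : Strat := .move 759 n173 (.cons 924 n174 .nil)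
noncomputable def n176 : Strat := .move 924 n138 (.cons 965 n139 .nil)
noncomputable def n177 : Strat := .win 799 5 757
noncomputable def n178 : Strat := .win 720 3 719
noncomputable def n179 : Strat := .move 761 n177 (.cons 799 n178 .nil)
noncomputable def n180 : Strat := .move 800 n175 (.cons 718 n176 (.cons 924 n179 .nil))
noncomputable def n181 : Strat := .move 760 n172 (.cons 719 n180 .nil)
noncomputable def n182 : Strat := .move 798 n0 (.cons 797 n181 .nil)
noncomputable def n183 : Strat := .move 883 n7 (.cons 884 n182 .nil)
noncomputable def n184 : Strat := .move 801 n9 (.cons 802 n183 .nil)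
noncomputable def n185 : Strat := .move 842 n41 (.cons 756 n159 (.cons 800 n171 (.cons 881 n184 .nil)))
noncomputable def n186 : Strat := .move 842 n50 (.cons 798 n123 .nil)
noncomputable def n187 : Strat := .move 797 n51 (.cons 796 n186 .nil)
noncomputable def n188 : Strat := .move 842 n50 (.cons 798 n18 .nil)
noncomputable def n189 : Strat := .move 879 n19 (.cons 878 n188 .nil)
noncomputable def n190 : Strat := .move 797 n51 (.cons 796 n189 .nil)
noncomputable def n191 : Strat := .move 838 n122 (.cons 881 n187 (.cons 800 n190 .nil))
noncomputable def n192 : Strat := .win 879 4 837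
noncomputable def n193 : Strat := .win 877 4 836
noncomputable def n194 : Strat := .move 878 n192 (.cons 879 n193 .nil)
noncomputable def n195 : Strat := .move 837 n119 (.cons 881 n194 .nil)
noncomputable def n196 : Strat := .move 882 n118 (.cons 883 n195 .nil)
noncomputable def n197 : Strat := .move 837 n117 (.cons 799 n194 .nil)
noncomputable def n198 : Strat := .move 800 n116 (.cons 801 n197 .nil)
noncomputable def n199 : Strat := .win 921 6 756
noncomputable def n200 : Strat := .win 715 6 715
noncomputable def n201 : Strat := .move 880 n199 (.cons 921 n200 .nil)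
noncomputable def n202 : Strat := .win 920 3 756
noncomputable def n203 : Strat := .win 716 1 715
noncomputable def n204 : Strat := .move 757 n202 (.cons 920 n203 .nil)
noncomputable def n205 : Strat := .win 757 3 756
noncomputable def n206 : Strat := .move 920 n130 (.cons 961 n205 .nil)
noncomputable def n207 : Strat := .win 799 2 755
noncomputable def n208 : Strat := .win 714 7 714
noncomputable def n209 : Strat := .move 755 n207 (.cons 799 n208 .nil)
noncomputable def n210 : Strat := .move 798 n204 (.cons 716 n206 (.cons 920 n209 .nil))
noncomputable def n211 : Strat := .move 756 n201 (.cons 715 n210 .nil)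
noncomputable def n212 : Strat := .move 800 n116 (.cons 801 n211 .nil)
noncomputable def n213 : Strat := .move 879 n19 (.cons 878 n212 .nil)
noncomputable def n214 : Strat := .move 797 n51 (.cons 796 n213 .nil)
noncomputable def n215 : Strat := .move 838 n122 (.cons 799 n196 (.cons 882 n198 (.cons 837 n214 .nil)))
noncomputable def n216 : Strat := .move 881 n26 (.cons 716 n25 .nil)
noncomputable def n217 : Strat := .win 881 6 716
noncomputable def n218 : Strat := .win 676 3 675
noncomputable def n219 : Strat := .win 758 3 716
noncomputable def n220 : Strat := .move 717 n218 (.cons 676 n219 .nil)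
noncomputable def n221 : Strat := .move 716 n217 (.cons 881 n220 .nil)
noncomputable def n222 : Strat := .win 674 7 674
noncomputable def n223 : Strat := .win 756 7 715
noncomputable def n224 : Strat := .move 715 n222 (.cons 674 n223 .nil)
noncomputable def n225 : Strat := .move 716 n218 (.cons 676 n224 .nil)
noncomputable def n226 : Strat := .move 717 n219 (.cons 758 n225 .nil)
noncomputable def n227 : Strat := .win 881 6 757
noncomputable def n228 : Strat := .win 799 3 757
noncomputable def n229 : Strat := .win 717 3 716
noncomputable def n230 : Strat := .move 758 n228 (.cons 799 n229 .nil)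
noncomputable def n231 : Strat := .move 921 n162 (.cons 963 n230 .nil)
noncomputable def n232 : Strat := .move 922 n227 (.cons 881 n231 .nil)
noncomputable def n233 : Strat := .move 757 n216 (.cons 922 n221 (.cons 881 n226 (.cons 716 n232 .nil)))
noncomputable def n234 : Strat := .move 880 n2 (.cons 879 n233 .nil)
noncomputable def n235 : Strat := .move 798 n0 (.cons 797 n234 .nil)
noncomputable def n236 : Strat := .move 797 n51 (.cons 796 n50 .nil)
noncomputable def n237 : Strat := .move 838 n8 (.cons 882 n236 .nil)
noncomputable def n238 : Strat := .move 883 n7 (.cons 884 n237 .nil)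
noncomputable def n239 : Strat := .move 842 n22 (.cons 838 n171 (.cons 882 n235 (.cons 880 n238 .nil)))
noncomputable def n240 : Strat := .win 842 2 797
noncomputable def n241 : Strat := .move 757 n203 (.cons 716 n202 .nil)
noncomputable def n242 : Strat := .move 798 n240 (.cons 842 n241 .nil)
noncomputable def n243 : Strat := .move 879 n19 (.cons 878 n242 .nil)
noncomputable def n244 : Strat := .move 797 n51 (.cons 796 n243 .nil)
noncomputable def n245 : Strat := .win 837 4 796
noncomputable def n246 : Strat := .win 755 2 755
noncomputable def n247 : Strat := .win 674 6 674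
noncomputable def n248 : Strat := .win 880 6 715
noncomputable def n249 : Strat := .move 715 n247 (.cons 674 n248 .nil)
noncomputable def n250 : Strat := .move 756 n246 (.cons 755 n249 .nil)
noncomputable def n251 : Strat := .move 799 n245 (.cons 837 n250 .nil)
noncomputable def n252 : Strat := .move 800 n116 (.cons 801 n251 .nil)
noncomputable def n253 : Strat := .move 798 n240 (.cons 842 n252 .nil)
noncomputable def n254 : Strat := .move 797 n51 (.cons 796 n253 .nil)
noncomputable def n255 : Strat := .move 838 n244 (.cons 842 n198 (.cons 878 n254 .nil))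
noncomputable def n256 : Strat := .move 800 n116 (.cons 801 n117 .nil)
noncomputable def n257 : Strat := .move 837 n119 (.cons 881 n256 .nil)
noncomputable def n258 : Strat := .move 882 n118 (.cons 883 n257 .nil)
noncomputable def n259 : Strat := .win 756 6 756
noncomputable def n260 : Strat := .win 962 7 797
noncomputable def n261 : Strat := .move 921 n259 (.cons 756 n260 .nil)
noncomputable def n262 : Strat := .move 797 n51 (.cons 796 n261 .nil)
noncomputable def n263 : Strat := .move 880 n127 (.cons 842 n262 .nil)
noncomputable def n264 : Strat := .move 879 n19 (.cons 878 n263 .nil)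
noncomputable def n265 : Strat := .move 838 n258 (.cons 837 n264 .nil)
noncomputable def n266 : Strat := .move 879 n19 (.cons 878 n241 .nil)
noncomputable def n267 : Strat := .move 798 n240 (.cons 842 n266 .nil)
noncomputable def n268 : Strat := .move 797 n51 (.cons 796 n267 .nil)
noncomputable def n269 : Strat := .move 838 n122 (.cons 837 n268 .nil)
noncomputable def n270 : Strat := .move 797 n51 (.cons 796 n188 .nil)
noncomputable def n271 : Strat := .move 879 n19 (.cons 878 n270 .nil)
noncomputable def n272 : Strat := .move 883 n8 (.cons 882 n7 .nil)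
noncomputable def n273 : Strat := .move 842 n50 (.cons 798 n272 .nil)
noncomputable def n274 : Strat := .move 797 n51 (.cons 796 n273 .nil)
noncomputable def n275 : Strat := .move 838 n271 (.cons 842 n196 (.cons 878 n274 .nil))
noncomputable def n276 : Strat := .win 797 2 796
noncomputable def n277 : Strat := .win 795 2 795
noncomputable def n278 : Strat := .move 796 n276 (.cons 797 n277 .nil)
noncomputable def n279 : Strat := .move 837 n119 (.cons 881 n278 .nil)
noncomputable def n280 : Strat := .move 882 n118 (.cons 883 n279 .nil)
noncomputable def n281 : Strat := .move 837 n117 (.cons 799 n278 .nil)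
noncomputable def n282 : Strat := .move 800 n116 (.cons 801 n281 .nil)
noncomputable def n283 : Strat := .win 922 1 758
noncomputable def n284 : Strat := .move 881 n283 (.cons 922 n97 .nil)
noncomputable def n285 : Strat := .win 719 3 718
noncomputable def n286 : Strat := .win 799 5 756
noncomputable def n287 : Strat := .move 760 n285 (.cons 719 n286 .nil)
noncomputable def n288 : Strat := .move 759 n284 (.cons 718 n287 .nil)
noncomputable def n289 : Strat := .move 882 n118 (.cons 883 n288 .nil)
noncomputable def n290 : Strat := .move 800 n116 (.cons 801 n289 .nil)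
noncomputable def n291 : Strat := .move 798 n240 (.cons 842 n290 .nil)
noncomputable def n292 : Strat := .move 797 n51 (.cons 796 n291 .nil)
noncomputable def n293 : Strat := .move 838 n122 (.cons 801 n280 (.cons 883 n282 (.cons 837 n292 .nil)))
noncomputable def n294 : Strat := .move 839 n115 (.cons 756 n137 (.cons 838 n185 (.cons 757 n191 (.cons 842 n215 (.cons 800 n239 (.cons 882 n255 (.cons 798 n265 (.cons 880 n269 (.cons 799 n275 (.cons 879 n293 .nil))))))))))
noncomputable def n295 : Strat := .move 879 n19 (.cons 878 n18 .nil)
noncomputable def n296 : Strat := .move 842 n50 (.cons 798 n295 .nil)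
noncomputable def n297 : Strat := .move 797 n51 (.cons 796 n296 .nil)
noncomputable def n298 : Strat := .move 838 n297 (.cons 880 n258 .nil)
noncomputable def n299 : Strat := .move 838 n8 (.cons 882 n10 .nil)
noncomputable def n300 : Strat := .move 883 n7 (.cons 884 n299 .nil)
noncomputable def n301 : Strat := .move 801 n9 (.cons 802 n300 .nil)
noncomputable def n302 : Strat := .move 842 n6 (.cons 881 n301 .nil)
noncomputable def n303 : Strat := .win 801 5 798
noncomputable def n304 : Strat := .move 802 n303 (.cons 801 n64 .nil)
noncomputable def n305 : Strat := .move 843 n1 (.cons 799 n304 .nil)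
noncomputable def n306 : Strat := .move 798 n0 (.cons 797 n305 .nil)
noncomputable def n307 : Strat := .move 843 n3 (.cons 881 n304 .nil)
noncomputable def n308 : Strat := .move 880 n2 (.cons 879 n307 .nil)
noncomputable def n309 : Strat := .move 842 n6 (.cons 881 n306 (.cons 798 n308 (.cons 843 n41 .nil)))
noncomputable def n310 : Strat := .move 837 n119 (.cons 881 n117 .nil)
noncomputable def n311 : Strat := .move 800 n116 (.cons 801 n310 .nil)
noncomputable def n312 : Strat := .move 882 n118 (.cons 883 n311 .nil)
noncomputable def n313 : Strat := .move 798 n130 (.cons 961 n205 .nil)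
noncomputable def n314 : Strat := .win 798 3 797
noncomputable def n315 : Strat := .win 1001 1 837
noncomputable def n316 : Strat := .win 919 1 796
noncomputable def n317 : Strat := .move 960 n315 (.cons 1001 n316 .nil)
noncomputable def n318 : Strat := .move 961 n314 (.cons 798 n317 .nil)
noncomputable def n319 : Strat := .move 756 n199 (.cons 921 n200 .nil)
noncomputable def n320 : Strat := .win 962 6 797
noncomputable def n321 : Strat := .move 921 n259 (.cons 756 n320 .nil)
noncomputable def n322 : Strat := .win 881 4 878
noncomputable def n323 : Strat := .win 960 1 796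
noncomputable def n324 : Strat := .move 919 n322 (.cons 881 n323 .nil)
noncomputable def n325 : Strat := .move 880 n319 (.cons 715 n321 (.cons 921 n324 .nil))
noncomputable def n326 : Strat := .move 920 n313 (.cons 757 n318 (.cons 961 n325 .nil))
noncomputable def n327 : Strat := .move 882 n118 (.cons 883 n326 .nil)
noncomputable def n328 : Strat := .move 879 n19 (.cons 878 n327 .nil)
noncomputable def n329 : Strat := .move 797 n51 (.cons 796 n328 .nil)
noncomputable def n330 : Strat := .move 838 n280 (.cons 795 n312 (.cons 883 n198 (.cons 837 n329 .nil)))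
noncomputable def n331 : Strat := .move 838 n196 (.cons 837 n125 (.cons 879 n258 .nil))
noncomputable def n332 : Strat := .move 879 n19 (.cons 878 n204 .nil)
noncomputable def n333 : Strat := .move 799 n245 (.cons 837 n332 .nil)
noncomputable def n334 : Strat := .move 800 n116 (.cons 801 n333 .nil)
noncomputable def n335 : Strat := .move 798 n240 (.cons 842 n334 .nil)
noncomputable def n336 : Strat := .move 797 n51 (.cons 796 n335 .nil)
noncomputable def n337 : Strat := .move 838 n258 (.cons 800 n274 (.cons 883 n336 .nil))
noncomputable def n338 : Strat := .move 798 n0 (.cons 797 n1 .nil)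
noncomputable def n339 : Strat := .move 843 n3 (.cons 881 n338 .nil)
noncomputable def n340 : Strat := .move 880 n2 (.cons 879 n339 .nil)
noncomputable def n341 : Strat := .win 883 0 839
noncomputable def n342 : Strat := .move 884 n341 (.cons 883 n66 .nil)
noncomputable def n343 : Strat := .move 843 n3 (.cons 881 n342 .nil)
noncomputable def n344 : Strat := .move 880 n2 (.cons 879 n343 .nil)
noncomputable def n345 : Strat := .move 842 n340 (.cons 799 n344 (.cons 880 n238 .nil))
noncomputable def n346 : Strat := .move 843 n1 (.cons 799 n342 .nil)
noncomputable def n347 : Strat := .move 798 n0 (.cons 797 n346 .nil)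
noncomputable def n348 : Strat := .move 842 n347 (.cons 883 n306 (.cons 843 n301 .nil))
noncomputable def n349 : Strat := .move 842 n18 (.cons 880 n236 .nil)
noncomputable def n350 : Strat := .move 879 n19 (.cons 878 n349 .nil)
noncomputable def n351 : Strat := .move 842 n18 (.cons 880 n272 .nil)
noncomputable def n352 : Strat := .move 879 n19 (.cons 878 n351 .nil)
noncomputable def n353 : Strat := .move 838 n350 (.cons 879 n280 (.cons 796 n352 .nil))
noncomputable def n354 : Strat := .move 839 n298 (.cons 878 n302 (.cons 838 n309 (.cons 842 n330 (.cons 798 n331 (.cons 880 n337 (.cons 800 n345 (.cons 879 n348 (.cons 799 n353 .nil))))))))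
noncomputable def n355 : Strat := .win 759 1 758
noncomputable def n356 : Strat := .move 922 n99 (.cons 963 n355 .nil)
noncomputable def n357 : Strat := .move 881 n126 (.cons 837 n356 .nil)
noncomputable def n358 : Strat := .move 882 n118 (.cons 883 n357 .nil)
noncomputable def n359 : Strat := .move 800 n116 (.cons 801 n358 .nil)
noncomputable def n360 : Strat := .move 838 n359 (.cons 881 n125 (.cons 800 n352 .nil))
noncomputable def n361 : Strat := .move 882 n118 (.cons 883 n310 .nil)
noncomputable def n362 : Strat := .move 800 n116 (.cons 801 n361 .nil)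
noncomputable def n363 : Strat := .win 963 1 799
noncomputable def n364 : Strat := .win 881 1 758
noncomputable def n365 : Strat := .move 922 n363 (.cons 963 n364 .nil)
noncomputable def n366 : Strat := .win 799 7 758
noncomputable def n367 : Strat := .win 717 7 717
noncomputable def n368 : Strat := .move 758 n366 (.cons 799 n367 .nil)
noncomputable def n369 : Strat := .move 923 n365 (.cons 881 n368 .nil)
noncomputable def n370 : Strat := .win 881 1 717
noncomputable def n371 : Strat := .win 678 3 677
noncomputable def n372 : Strat := .win 760 3 718
noncomputable def n373 : Strat := .move 719 n371 (.cons 678 n372 .nil)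
noncomputable def n374 : Strat := .move 718 n370 (.cons 881 n373 .nil)
noncomputable def n375 : Strat := .win 676 7 676
noncomputable def n376 : Strat := .win 758 7 717
noncomputable def n377 : Strat := .move 717 n375 (.cons 676 n376 .nil)
noncomputable def n378 : Strat := .move 718 n373 (.cons 760 n377 .nil)
noncomputable def n379 : Strat := .move 759 n284 (.cons 718 n369 (.cons 922 n374 (.cons 881 n378 .nil)))
noncomputable def n380 : Strat := .move 882 n118 (.cons 883 n379 .nil)
noncomputable def n381 : Strat := .move 800 n116 (.cons 801 n380 .nil)
noncomputable def n382 : Strat := .move 797 n186 (.cons 800 n273 (.cons 798 n381 .nil))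
noncomputable def n383 : Strat := .win 837 5 796
noncomputable def n384 : Strat := .win 923 7 758
noncomputable def n385 : Strat := .move 758 n94 (.cons 717 n384 .nil)
noncomputable def n386 : Strat := .move 882 n118 (.cons 883 n385 .nil)
noncomputable def n387 : Strat := .move 799 n383 (.cons 837 n386 .nil)
noncomputable def n388 : Strat := .move 800 n116 (.cons 801 n387 .nil)
noncomputable def n389 : Strat := .move 838 n362 (.cons 800 n196 (.cons 837 n382 (.cons 881 n388 (.cons 882 n198 .nil))))
noncomputable def n390 : Strat := .move 842 n301 (.cons 800 n344 (.cons 883 n340 .nil))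
noncomputable def n391 : Strat := .win 964 7 799
noncomputable def n392 : Strat := .win 758 7 758
noncomputable def n393 : Strat := .move 799 n391 (.cons 964 n392 .nil)
noncomputable def n394 : Strat := .win 799 7 799
noncomputable def n395 : Strat := .win 1004 1 840
noncomputable def n396 : Strat := .win 922 1 799
noncomputable def n397 : Strat := .move 963 n395 (.cons 1004 n396 .nil)
noncomputable def n398 : Strat := .move 964 n394 (.cons 799 n397 .nil)
noncomputable def n399 : Strat := .move 759 n283 (.cons 922 n97 .nil)
noncomputable def n400 : Strat := .move 922 n355 (.cons 759 n363 .nil)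
noncomputable def n401 : Strat := .win 880 0 879
noncomputable def n402 : Strat := .win 965 6 800
noncomputable def n403 : Strat := .move 924 n401 (.cons 880 n402 .nil)
noncomputable def n404 : Strat := .move 881 n399 (.cons 718 n400 (.cons 922 n403 .nil))
noncomputable def n405 : Strat := .move 923 n393 (.cons 758 n398 (.cons 964 n404 .nil))
noncomputable def n406 : Strat := .move 879 n19 (.cons 878 n405 .nil)
noncomputable def n407 : Strat := .move 882 n118 (.cons 883 n406 .nil)
noncomputable def n408 : Strat := .move 800 n116 (.cons 801 n407 .nil)
noncomputable def n409 : Strat := .move 838 n362 (.cons 801 n196 (.cons 883 n198 (.cons 837 n408 .nil)))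
noncomputable def n410 : Strat := .move 880 n2 (.cons 879 n30 .nil)
noncomputable def n411 : Strat := .move 799 n56 (.cons 843 n410 .nil)
noncomputable def n412 : Strat := .move 798 n0 (.cons 797 n411 .nil)
noncomputable def n413 : Strat := .move 883 n7 (.cons 884 n412 .nil)
noncomputable def n414 : Strat := .move 801 n9 (.cons 802 n413 .nil)
noncomputable def n415 : Strat := .move 842 n308 (.cons 881 n414 (.cons 879 n347 (.cons 843 n159 .nil)))
noncomputable def n416 : Strat := .win 838 0 838
noncomputable def n417 : Strat := .win 964 3 800
noncomputable def n418 : Strat := .move 923 n149 (.cons 760 n417 .nil)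
noncomputable def n419 : Strat := .move 801 n9 (.cons 802 n418 .nil)
noncomputable def n420 : Strat := .move 882 n416 (.cons 838 n419 .nil)
noncomputable def n421 : Strat := .move 883 n7 (.cons 884 n420 .nil)
noncomputable def n422 : Strat := .move 842 n344 (.cons 883 n340 (.cons 880 n421 .nil))
noncomputable def n423 : Strat := .win 838 5 797
noncomputable def n424 : Strat := .move 759 n174 (.cons 718 n173 .nil)
noncomputable def n425 : Strat := .move 883 n7 (.cons 884 n424 .nil)
noncomputable def n426 : Strat := .move 800 n423 (.cons 838 n425 .nil)
noncomputable def n427 : Strat := .move 801 n9 (.cons 802 n426 .nil)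
noncomputable def n428 : Strat := .move 842 n308 (.cons 801 n340 (.cons 843 n427 .nil))
noncomputable def n429 : Strat := .move 800 n423 (.cons 838 n424 .nil)
noncomputable def n430 : Strat := .move 883 n7 (.cons 884 n429 .nil)
noncomputable def n431 : Strat := .move 801 n9 (.cons 802 n430 .nil)
noncomputable def n432 : Strat := .move 838 n8 (.cons 882 n295 .nil)
noncomputable def n433 : Strat := .move 883 n7 (.cons 884 n432 .nil)
noncomputable def n434 : Strat := .win 843 0 798
noncomputable def n435 : Strat := .win 761 5 757
noncomputable def n436 : Strat := .win 678 1 677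
noncomputable def n437 : Strat := .win 882 1 718
noncomputable def n438 : Strat := .move 719 n436 (.cons 678 n437 .nil)
noncomputable def n439 : Strat := .move 760 n435 (.cons 761 n438 .nil)
noncomputable def n440 : Strat := .move 799 n434 (.cons 843 n439 .nil)
noncomputable def n441 : Strat := .move 798 n0 (.cons 797 n440 .nil)
noncomputable def n442 : Strat := .move 800 n423 (.cons 838 n441 .nil)
noncomputable def n443 : Strat := .move 801 n9 (.cons 802 n442 .nil)
noncomputable def n444 : Strat := .move 842 n431 (.cons 838 n414 (.cons 802 n433 (.cons 884 n443 .nil)))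
noncomputable def n445 : Strat := .win 845 4 841
noncomputable def n446 : Strat := .win 881 4 840
noncomputable def n447 : Strat := .move 844 n445 (.cons 845 n446 .nil)
noncomputable def n448 : Strat := .move 843 n1 (.cons 799 n447 .nil)
noncomputable def n449 : Strat := .move 798 n0 (.cons 797 n448 .nil)
noncomputable def n450 : Strat := .move 882 n416 (.cons 838 n449 .nil)
noncomputable def n451 : Strat := .move 883 n7 (.cons 884 n450 .nil)
noncomputable def n452 : Strat := .win 881 4 879
noncomputable def n453 : Strat := .move 920 n165 (.cons 961 n452 .nil)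
noncomputable def n454 : Strat := .move 921 n453 (.cons 881 n160 .nil)
noncomputable def n455 : Strat := .move 798 n0 (.cons 797 n454 .nil)
noncomputable def n456 : Strat := .move 880 n2 (.cons 879 n455 .nil)
noncomputable def n457 : Strat := .move 882 n416 (.cons 838 n456 .nil)
noncomputable def n458 : Strat := .move 883 n7 (.cons 884 n457 .nil)
noncomputable def n459 : Strat := .move 842 n340 (.cons 880 n451 (.cons 798 n344 (.cons 843 n458 (.cons 881 n413 .nil))))
noncomputable def n460 : Strat := .win 845 2 800
noncomputable def n461 : Strat := .win 799 2 799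
noncomputable def n462 : Strat := .move 844 n460 (.cons 845 n461 .nil)
noncomputable def n463 : Strat := .move 843 n3 (.cons 881 n462 .nil)
noncomputable def n464 : Strat := .move 880 n2 (.cons 879 n463 .nil)
noncomputable def n465 : Strat := .move 800 n423 (.cons 838 n464 .nil)
noncomputable def n466 : Strat := .move 801 n9 (.cons 802 n465 .nil)
noncomputable def n467 : Strat := .win 799 2 756
noncomputable def n468 : Strat := .move 756 n35 (.cons 715 n467 .nil)
noncomputable def n469 : Strat := .move 757 n27 (.cons 716 n468 .nil)
noncomputable def n470 : Strat := .move 880 n2 (.cons 879 n469 .nil)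
noncomputable def n471 : Strat := .move 798 n0 (.cons 797 n470 .nil)
noncomputable def n472 : Strat := .move 800 n423 (.cons 838 n471 .nil)
noncomputable def n473 : Strat := .move 801 n9 (.cons 802 n472 .nil)
noncomputable def n474 : Strat := .move 842 n340 (.cons 798 n466 (.cons 799 n308 (.cons 843 n473 (.cons 881 n443 .nil))))
noncomputable def n475 : Strat := .win 756 2 756
noncomputable def n476 : Strat := .win 675 6 675
noncomputable def n477 : Strat := .move 716 n476 (.cons 675 n217 .nil)
noncomputable def n478 : Strat := .move 757 n475 (.cons 756 n477 .nil)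
noncomputable def n479 : Strat := .move 799 n434 (.cons 843 n478 .nil)
noncomputable def n480 : Strat := .move 798 n0 (.cons 797 n479 .nil)
noncomputable def n481 : Strat := .move 800 n423 (.cons 838 n480 .nil)
noncomputable def n482 : Strat := .move 801 n9 (.cons 802 n481 .nil)
noncomputable def n483 : Strat := .move 842 n431 (.cons 838 n347 (.cons 884 n482 .nil))
noncomputable def n484 : Strat := .move 839 n360 (.cons 880 n389 (.cons 963 n390 (.cons 842 n409 (.cons 838 n415 (.cons 800 n422 (.cons 882 n428 (.cons 881 n444 (.cons 801 n459 (.cons 883 n474 (.cons 879 n483 .nil))))))))))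
noncomputable def n485 : Strat := .move 842 n60 (.cons 799 n24 (.cons 880 n62 .nil))
noncomputable def n486 : Strat := .move 838 n198 (.cons 800 n271 (.cons 879 n122 .nil))
noncomputable def n487 : Strat := .move 843 n1 (.cons 799 n3 .nil)
noncomputable def n488 : Strat := .move 880 n2 (.cons 879 n487 .nil)
noncomputable def n489 : Strat := .move 798 n0 (.cons 797 n488 .nil)
noncomputable def n490 : Strat := .win 880 1 716
noncomputable def n491 : Strat := .win 676 1 675
noncomputable def n492 : Strat := .move 758 n490 (.cons 880 n491 .nil)
noncomputable def n493 : Strat := .win 882 6 717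
noncomputable def n494 : Strat := .move 758 n493 (.cons 882 n490 .nil)
noncomputable def n495 : Strat := .move 758 n493 (.cons 882 n491 .nil)
noncomputable def n496 : Strat := .move 716 n218 (.cons 676 n476 .nil)
noncomputable def n497 : Strat := .move 717 n492 (.cons 676 n494 (.cons 880 n495 (.cons 758 n496 .nil)))
noncomputable def n498 : Strat := .win 922 7 757
noncomputable def n499 : Strat := .move 881 n498 (.cons 922 n26 .nil)
noncomputable def n500 : Strat := .move 880 n30 (.cons 717 n33 (.cons 921 n36 .nil))
noncomputable def n501 : Strat := .move 757 n477 (.cons 881 n497 (.cons 675 n499 (.cons 716 n500 .nil)))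
noncomputable def n502 : Strat := .move 801 n9 (.cons 802 n501 .nil)
noncomputable def n503 : Strat := .move 799 n56 (.cons 843 n502 .nil)
noncomputable def n504 : Strat := .move 798 n0 (.cons 797 n503 .nil)
noncomputable def n505 : Strat := .move 800 n478 (.cons 757 n439 .nil)
noncomputable def n506 : Strat := .move 801 n9 (.cons 802 n505 .nil)
noncomputable def n507 : Strat := .move 799 n56 (.cons 843 n506 .nil)
noncomputable def n508 : Strat := .move 798 n0 (.cons 797 n507 .nil)
noncomputable def n509 : Strat := .move 880 n2 (.cons 879 n57 .nil)
noncomputable def n510 : Strat := .move 799 n56 (.cons 843 n509 .nil)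
noncomputable def n511 : Strat := .move 798 n0 (.cons 797 n510 .nil)
noncomputable def n512 : Strat := .move 842 n489 (.cons 843 n41 (.cons 798 n308 (.cons 879 n504 (.cons 880 n508 (.cons 881 n511 .nil)))))
noncomputable def n513 : Strat := .move 838 n198 (.cons 878 n362 (.cons 801 n280 (.cons 837 n214 .nil)))
noncomputable def n514 : Strat := .move 838 n198 (.cons 879 n122 (.cons 837 n264 .nil))
noncomputable def n515 : Strat := .move 838 n282 (.cons 800 n268 (.cons 797 n122 .nil))
noncomputable def n516 : Strat := .move 880 n127 (.cons 842 n261 .nil)
noncomputable def n517 : Strat := .move 797 n51 (.cons 796 n516 .nil)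
noncomputable def n518 : Strat := .move 879 n19 (.cons 878 n517 .nil)
noncomputable def n519 : Strat := .move 800 n116 (.cons 801 n399 .nil)
noncomputable def n520 : Strat := .move 881 n126 (.cons 837 n519 .nil)
noncomputable def n521 : Strat := .move 882 n118 (.cons 883 n520 .nil)
noncomputable def n522 : Strat := .move 797 n51 (.cons 796 n521 .nil)
noncomputable def n523 : Strat := .move 879 n19 (.cons 878 n522 .nil)
noncomputable def n524 : Strat := .move 880 n127 (.cons 842 n521 .nil)
noncomputable def n525 : Strat := .move 879 n19 (.cons 878 n524 .nil)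
noncomputable def n526 : Strat := .move 838 n518 (.cons 842 n523 (.cons 878 n187 (.cons 797 n525 .nil)))
noncomputable def n527 : Strat := .move 881 n126 (.cons 837 n132 .nil)
noncomputable def n528 : Strat := .move 882 n118 (.cons 883 n527 .nil)
noncomputable def n529 : Strat := .move 880 n127 (.cons 842 n528 .nil)
noncomputable def n530 : Strat := .move 879 n19 (.cons 878 n529 .nil)
noncomputable def n531 : Strat := .win 881 0 879
noncomputable def n532 : Strat := .move 924 n402 (.cons 965 n531 .nil)
noncomputable def n533 : Strat := .move 799 n392 (.cons 758 n391 .nil)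
noncomputable def n534 : Strat := .move 923 n532 (.cons 881 n533 .nil)
noncomputable def n535 : Strat := .move 800 n116 (.cons 801 n534 .nil)
noncomputable def n536 : Strat := .move 882 n118 (.cons 883 n535 .nil)
noncomputable def n537 : Strat := .move 880 n127 (.cons 842 n536 .nil)
noncomputable def n538 : Strat := .move 879 n19 (.cons 878 n537 .nil)
noncomputable def n539 : Strat := .move 838 n122 (.cons 799 n525 (.cons 800 n530 (.cons 881 n198 (.cons 837 n538 .nil))))
noncomputable def n540 : Strat := .move 921 n260 (.cons 962 n259 .nil)
noncomputable def n541 : Strat := .move 880 n127 (.cons 842 n540 .nil)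
noncomputable def n542 : Strat := .move 879 n19 (.cons 878 n541 .nil)
noncomputable def n543 : Strat := .move 797 n51 (.cons 796 n542 .nil)
noncomputable def n544 : Strat := .move 838 n543 (.cons 842 n280 (.cons 796 n530 .nil))
noncomputable def n545 : Strat := .win 799 5 795
noncomputable def n546 : Strat := .win 835 5 794
noncomputable def n547 : Strat := .move 836 n545 (.cons 799 n546 .nil)
noncomputable def n548 : Strat := .move 837 n119 (.cons 881 n547 .nil)
noncomputable def n549 : Strat := .move 882 n118 (.cons 883 n548 .nil)
noncomputable def n550 : Strat := .move 798 n240 (.cons 842 n549 .nil)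
noncomputable def n551 : Strat := .move 797 n51 (.cons 796 n550 .nil)
noncomputable def n552 : Strat := .move 838 n122 (.cons 800 n551 (.cons 883 n282 (.cons 837 n292 (.cons 799 n522 .nil))))
noncomputable def n553 : Strat := .move 839 n485 (.cons 921 n486 (.cons 838 n512 (.cons 842 n513 (.cons 798 n514 (.cons 880 n515 (.cons 799 n526 (.cons 797 n539 (.cons 801 n544 (.cons 879 n552 .nil)))))))))
noncomputable def n554 : Strat := .move 838 n10 (.cons 800 n272 .nil)
noncomputable def n555 : Strat := .move 801 n9 (.cons 802 n554 .nil)
noncomputable def n556 : Strat := .move 842 n555 (.cons 882 n306 (.cons 801 n340 .nil))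
noncomputable def n557 : Strat := .move 838 n122 (.cons 881 n282 (.cons 800 n280 (.cons 837 n408 .nil)))
noncomputable def n558 : Strat := .move 798 n0 (.cons 797 n487 .nil)
noncomputable def n559 : Strat := .move 880 n2 (.cons 879 n558 .nil)
noncomputable def n560 : Strat := .move 842 n308 (.cons 803 n559 (.cons 880 n347 (.cons 843 n159 .nil)))
noncomputable def n561 : Strat := .move 842 n344 (.cons 880 n238 (.cons 883 n340 .nil))
noncomputable def n562 : Strat := .move 838 n10 (.cons 800 n295 .nil)
noncomputable def n563 : Strat := .move 801 n9 (.cons 802 n562 .nil)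
noncomputable def n564 : Strat := .move 842 n306 (.cons 798 n563 (.cons 801 n6 .nil))
noncomputable def n565 : Strat := .move 798 n240 (.cons 842 n332 .nil)
noncomputable def n566 : Strat := .move 797 n51 (.cons 796 n565 .nil)
noncomputable def n567 : Strat := .move 882 n118 (.cons 883 n566 .nil)
noncomputable def n568 : Strat := .move 800 n116 (.cons 801 n567 .nil)
noncomputable def n569 : Strat := .move 838 n122 (.cons 881 n282 (.cons 800 n280 (.cons 837 n568 .nil)))
noncomputable def n570 : Strat := .move 842 n301 (.cons 882 n306 (.cons 801 n347 .nil))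
noncomputable def n571 : Strat := .move 838 n8 (.cons 882 n123 .nil)
noncomputable def n572 : Strat := .move 883 n7 (.cons 884 n571 .nil)
noncomputable def n573 : Strat := .move 842 n572 (.cons 800 n433 (.cons 883 n563 (.cons 838 n308 .nil)))
noncomputable def n574 : Strat := .move 839 n556 (.cons 843 n137 (.cons 842 n557 (.cons 838 n560 (.cons 800 n561 (.cons 882 n564 (.cons 880 n569 (.cons 879 n570 (.cons 799 n573 .nil))))))))
noncomputable def n575 : Strat := .win 838 4 797
noncomputable def n576 : Strat := .move 800 n575 (.cons 838 n478 .nil)
noncomputable def n577 : Strat := .move 801 n9 (.cons 802 n576 .nil)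
noncomputable def n578 : Strat := .move 799 n56 (.cons 843 n577 .nil)
noncomputable def n579 : Strat := .move 798 n0 (.cons 797 n578 .nil)
noncomputable def n580 : Strat := .move 839 n431 (.cons 884 n579 (.cons 800 n347 .nil))
noncomputable def n581 : Strat := .move 839 n347 (.cons 883 n306 (.cons 843 n301 .nil))
noncomputable def n582 : Strat := .move 799 n478 (.cons 757 n439 .nil)
noncomputable def n583 : Strat := .move 798 n0 (.cons 797 n582 .nil)
noncomputable def n584 : Strat := .move 800 n423 (.cons 838 n583 .nil)
noncomputable def n585 : Strat := .move 801 n9 (.cons 802 n584 .nil)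
noncomputable def n586 : Strat := .move 839 n301 (.cons 883 n585 (.cons 802 n54 (.cons 882 n427 (.cons 838 n184 .nil))))
noncomputable def n587 : Strat := .move 843 n92 (.cons 844 n109 (.cons 798 n79 (.cons 802 n90 .nil)))
noncomputable def n588 : Strat := .win 839 0 839
noncomputable def n589 : Strat := .win 761 1 760
noncomputable def n590 : Strat := .win 965 3 801
noncomputable def n591 : Strat := .move 924 n589 (.cons 761 n590 .nil)
noncomputable def n592 : Strat := .move 802 n64 (.cons 803 n591 .nil)
noncomputable def n593 : Strat := .move 883 n588 (.cons 839 n592 .nil)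
noncomputable def n594 : Strat := .move 884 n66 (.cons 885 n593 .nil)
noncomputable def n595 : Strat := .move 843 n90 (.cons 881 n112 (.cons 798 n79 (.cons 844 n594 .nil)))
noncomputable def n596 : Strat := .win 844 4 840
noncomputable def n597 : Strat := .win 921 4 880
noncomputable def n598 : Strat := .move 800 n355 (.cons 759 n99 .nil)
noncomputable def n599 : Strat := .move 922 n597 (.cons 921 n598 .nil)
noncomputable def n600 : Strat := .move 882 n596 (.cons 844 n599 .nil)
noncomputable def n601 : Strat := .move 881 n73 (.cons 880 n600 .nil)
noncomputable def n602 : Strat := .move 883 n588 (.cons 839 n601 .nil)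
noncomputable def n603 : Strat := .move 884 n66 (.cons 885 n602 .nil)
noncomputable def n604 : Strat := .move 843 n72 (.cons 801 n79 (.cons 802 n603 .nil))
noncomputable def n605 : Strat := .move 839 n347 (.cons 798 n421 (.cons 884 n306 .nil))
noncomputable def n606 : Strat := .win 962 1 798
noncomputable def n607 : Strat := .win 882 4 880
noncomputable def n608 : Strat := .move 921 n606 (.cons 962 n607 .nil)
noncomputable def n609 : Strat := .move 800 n100 (.cons 759 n99 .nil)
noncomputable def n610 : Strat := .move 922 n608 (.cons 882 n609 .nil)
noncomputable def n611 : Strat := .move 799 n86 (.cons 798 n610 .nil)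
noncomputable def n612 : Strat := .move 881 n73 (.cons 880 n611 .nil)
noncomputable def n613 : Strat := .move 883 n588 (.cons 839 n612 .nil)
noncomputable def n614 : Strat := .move 884 n66 (.cons 885 n613 .nil)
noncomputable def n615 : Strat := .move 758 n93 (.cons 923 n94 .nil)
noncomputable def n616 : Strat := .move 799 n86 (.cons 798 n615 .nil)
noncomputable def n617 : Strat := .move 882 n596 (.cons 844 n616 .nil)
noncomputable def n618 : Strat := .move 881 n73 (.cons 880 n617 .nil)
noncomputable def n619 : Strat := .move 883 n588 (.cons 839 n618 .nil)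
noncomputable def n620 : Strat := .move 884 n66 (.cons 885 n619 .nil)
noncomputable def n621 : Strat := .move 843 n90 (.cons 798 n603 (.cons 881 n112 (.cons 844 n614 (.cons 800 n620 .nil))))
noncomputable def n622 : Strat := .move 842 n580 (.cons 718 n581 (.cons 843 n586 (.cons 839 n587 (.cons 801 n595 (.cons 798 n604 (.cons 800 n605 (.cons 802 n621 .nil)))))))
noncomputable def n623 : Strat := .move 842 n559 (.cons 879 n306 (.cons 798 n563 .nil))
noncomputable def n624 : Strat := .move 880 n200 (.cons 715 n199 .nil)
noncomputable def n625 : Strat := .win 675 3 674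
noncomputable def n626 : Strat := .win 757 3 715
noncomputable def n627 : Strat := .move 716 n625 (.cons 675 n626 .nil)
noncomputable def n628 : Strat := .move 715 n248 (.cons 880 n627 .nil)
noncomputable def n629 : Strat := .win 673 7 673
noncomputable def n630 : Strat := .win 755 7 714
noncomputable def n631 : Strat := .move 714 n629 (.cons 673 n630 .nil)
noncomputable def n632 : Strat := .move 715 n625 (.cons 675 n631 .nil)
noncomputable def n633 : Strat := .move 716 n626 (.cons 757 n632 .nil)
noncomputable def n634 : Strat := .win 880 6 756
noncomputable def n635 : Strat := .move 798 n205 (.cons 757 n130 .nil)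
noncomputable def n636 : Strat := .move 920 n320 (.cons 962 n635 .nil)
noncomputable def n637 : Strat := .move 921 n634 (.cons 880 n636 .nil)
noncomputable def n638 : Strat := .move 756 n624 (.cons 921 n628 (.cons 880 n633 (.cons 715 n637 .nil)))
noncomputable def n639 : Strat := .move 797 n51 (.cons 796 n638 .nil)
noncomputable def n640 : Strat := .move 879 n19 (.cons 878 n639 .nil)
noncomputable def n641 : Strat := .move 838 n198 (.cons 799 n640 (.cons 879 n282 .nil))
noncomputable def n642 : Strat := .move 842 n6 (.cons 843 n41 (.cons 881 n306 (.cons 798 n308 .nil)))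
noncomputable def n643 : Strat := .move 842 n489 (.cons 843 n235 (.cons 881 n306 (.cons 798 n308 .nil)))
noncomputable def n644 : Strat := .move 842 n308 (.cons 881 n427 (.cons 802 n344 .nil))
noncomputable def n645 : Strat := .move 842 n306 (.cons 843 n427 (.cons 801 n347 .nil))
noncomputable def n646 : Strat := .move 757 n216 (.cons 881 n226 (.cons 716 n232 .nil))
noncomputable def n647 : Strat := .move 880 n2 (.cons 879 n646 .nil)
noncomputable def n648 : Strat := .move 798 n0 (.cons 797 n647 .nil)
noncomputable def n649 : Strat := .move 842 n489 (.cons 879 n347 (.cons 843 n648 (.cons 799 n344 .nil)))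
noncomputable def n650 : Strat := .move 839 n623 (.cons 843 n255 (.cons 842 n641 (.cons 838 n642 (.cons 800 n643 (.cons 797 n644 (.cons 879 n645 (.cons 801 n649 .nil)))))))
noncomputable def n651 : Strat := .move 842 n555 (.cons 802 n238 (.cons 883 n340 .nil))
noncomputable def n652 : Strat := .move 838 n280 (.cons 882 n190 (.cons 797 n258 .nil))
noncomputable def n653 : Strat := .move 758 n384 (.cons 923 n94 .nil)
noncomputable def n654 : Strat := .move 923 n391 (.cons 964 n392 .nil)
noncomputable def n655 : Strat := .win 798 5 756
noncomputable def n656 : Strat := .move 760 n655 (.cons 798 n285 .nil)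
noncomputable def n657 : Strat := .move 799 n653 (.cons 717 n654 (.cons 923 n656 .nil))
noncomputable def n658 : Strat := .move 759 n284 (.cons 718 n657 .nil)
noncomputable def n659 : Strat := .move 797 n51 (.cons 796 n658 .nil)
noncomputable def n660 : Strat := .move 882 n118 (.cons 883 n659 .nil)
noncomputable def n661 : Strat := .move 800 n116 (.cons 801 n660 .nil)
noncomputable def n662 : Strat := .move 838 n122 (.cons 800 n280 (.cons 837 n661 (.cons 881 n198 .nil)))
noncomputable def n663 : Strat := .move 842 n308 (.cons 881 n414 (.cons 843 n159 (.cons 801 n340 (.cons 879 n347 .nil))))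
noncomputable def n664 : Strat := .move 842 n344 (.cons 880 n238 (.cons 884 n340 .nil))
noncomputable def n665 : Strat := .move 800 n139 (.cons 759 n138 .nil)
noncomputable def n666 : Strat := .win 882 0 880
noncomputable def n667 : Strat := .move 925 n666 (.cons 882 n153 .nil)
noncomputable def n668 : Strat := .move 924 n665 (.cons 965 n667 .nil)
noncomputable def n669 : Strat := .move 881 n43 (.cons 843 n668 .nil)
noncomputable def n670 : Strat := .move 880 n2 (.cons 879 n669 .nil)
noncomputable def n671 : Strat := .move 801 n9 (.cons 802 n670 .nil)
noncomputable def n672 : Strat := .move 883 n7 (.cons 884 n671 .nil)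
noncomputable def n673 : Strat := .move 842 n572 (.cons 883 n563 (.cons 838 n672 (.cons 800 n433 .nil)))
noncomputable def n674 : Strat := .win 842 0 797
noncomputable def n675 : Strat := .move 798 n674 (.cons 842 n250 .nil)
noncomputable def n676 : Strat := .move 799 n383 (.cons 837 n675 .nil)
noncomputable def n677 : Strat := .move 800 n116 (.cons 801 n676 .nil)
noncomputable def n678 : Strat := .move 797 n51 (.cons 796 n677 .nil)
noncomputable def n679 : Strat := .move 838 n678 (.cons 674 n198 (.cons 800 n190 .nil))
noncomputable def n680 : Strat := .win 799 0 798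
noncomputable def n681 : Strat := .move 844 n74 (.cons 882 n460 .nil)
noncomputable def n682 : Strat := .move 881 n73 (.cons 880 n681 .nil)
noncomputable def n683 : Strat := .move 843 n680 (.cons 799 n682 .nil)
noncomputable def n684 : Strat := .move 798 n0 (.cons 797 n683 .nil)
noncomputable def n685 : Strat := .move 800 n423 (.cons 838 n684 .nil)
noncomputable def n686 : Strat := .move 801 n9 (.cons 802 n685 .nil)
noncomputable def n687 : Strat := .move 842 n301 (.cons 883 n686 (.cons 838 n347 .nil))
noncomputable def n688 : Strat := .move 839 n651 (.cons 843 n191 (.cons 802 n652 (.cons 842 n662 (.cons 838 n663 (.cons 800 n664 (.cons 799 n673 (.cons 883 n679 (.cons 879 n687 .nil))))))))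
noncomputable def n689 : Strat := .win 920 4 879
noncomputable def n690 : Strat := .win 758 1 757
noncomputable def n691 : Strat := .move 799 n690 (.cons 758 n31 .nil)
noncomputable def n692 : Strat := .move 921 n689 (.cons 920 n691 .nil)
noncomputable def n693 : Strat := .move 882 n416 (.cons 838 n692 .nil)
noncomputable def n694 : Strat := .move 883 n7 (.cons 884 n693 .nil)
noncomputable def n695 : Strat := .move 881 n43 (.cons 843 n694 .nil)
noncomputable def n696 : Strat := .move 880 n2 (.cons 879 n695 .nil)
noncomputable def n697 : Strat := .move 839 n427 (.cons 838 n308 (.cons 802 n696 .nil))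
noncomputable def n698 : Strat := .move 839 n308 (.cons 881 n427 (.cons 802 n344 .nil))
noncomputable def n699 : Strat := .move 839 n301 (.cons 838 n159 (.cons 802 n22 (.cons 884 n24 .nil)))
noncomputable def n700 : Strat := .move 922 n100 (.cons 759 n99 .nil)
noncomputable def n701 : Strat := .move 800 n700 (.cons 963 n98 (.cons 759 n104 .nil))
noncomputable def n702 : Strat := .move 758 n95 (.cons 717 n701 .nil)
noncomputable def n703 : Strat := .move 802 n64 (.cons 803 n702 .nil)
noncomputable def n704 : Strat := .move 799 n86 (.cons 798 n703 .nil)
noncomputable def n705 : Strat := .move 881 n73 (.cons 880 n704 .nil)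
noncomputable def n706 : Strat := .move 799 n86 (.cons 798 n87 .nil)
noncomputable def n707 : Strat := .move 844 n74 (.cons 882 n706 .nil)
noncomputable def n708 : Strat := .move 881 n73 (.cons 880 n707 .nil)
noncomputable def n709 : Strat := .move 843 n79 (.cons 844 n705 (.cons 880 n92 (.cons 802 n708 .nil)))
noncomputable def n710 : Strat := .move 843 n79 (.cons 802 n708 (.cons 882 n594 .nil))
noncomputable def n711 : Strat := .move 882 n416 (.cons 838 n418 .nil)
noncomputable def n712 : Strat := .move 801 n9 (.cons 802 n711 .nil)
noncomputable def n713 : Strat := .move 883 n7 (.cons 884 n712 .nil)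
noncomputable def n714 : Strat := .move 839 n344 (.cons 881 n713 (.cons 883 n308 .nil))
noncomputable def n715 : Strat := .win 802 3 801
noncomputable def n716 : Strat := .win 1006 3 842
noncomputable def n717 : Strat := .move 965 n715 (.cons 802 n716 .nil)
noncomputable def n718 : Strat := .move 802 n589 (.cons 761 n590 .nil)
noncomputable def n719 : Strat := .win 925 6 760
noncomputable def n720 : Strat := .move 760 n719 (.cons 925 n67 .nil)
noncomputable def n721 : Strat := .win 760 6 760
noncomputable def n722 : Strat := .move 925 n721 (.cons 760 n153 .nil)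
noncomputable def n723 : Strat := .win 802 1 760
noncomputable def n724 : Strat := .move 760 n178 (.cons 720 n67 .nil)
noncomputable def n725 : Strat := .move 761 n723 (.cons 802 n724 .nil)
noncomputable def n726 : Strat := .win 844 2 799
noncomputable def n727 : Strat := .win 798 0 798
noncomputable def n728 : Strat := .move 799 n726 (.cons 844 n727 .nil)
noncomputable def n729 : Strat := .move 800 n139 (.cons 759 n728 .nil)
noncomputable def n730 : Strat := .move 801 n720 (.cons 719 n722 (.cons 925 n725 (.cons 760 n729 .nil)))
noncomputable def n731 : Strat := .move 965 n716 (.cons 1006 n141 .nil)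
noncomputable def n732 : Strat := .move 924 n717 (.cons 1006 n718 (.cons 965 n730 (.cons 802 n731 .nil)))
noncomputable def n733 : Strat := .move 883 n588 (.cons 839 n732 .nil)
noncomputable def n734 : Strat := .move 884 n66 (.cons 885 n733 .nil)
noncomputable def n735 : Strat := .move 882 n446 (.cons 881 n445 .nil)
noncomputable def n736 : Strat := .win 882 4 841
noncomputable def n737 : Strat := .win 846 4 842
noncomputable def n738 : Strat := .move 845 n736 (.cons 882 n737 .nil)
noncomputable def n739 : Strat := .move 844 n735 (.cons 881 n738 (.cons 882 n706 .nil))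
noncomputable def n740 : Strat := .move 883 n588 (.cons 839 n739 .nil)
noncomputable def n741 : Strat := .move 884 n66 (.cons 885 n740 .nil)
noncomputable def n742 : Strat := .move 843 n72 (.cons 839 n92 (.cons 803 n734 (.cons 802 n741 .nil)))
noncomputable def n743 : Strat := .move 845 n737 (.cons 846 n736 .nil)
noncomputable def n744 : Strat := .move 844 n87 (.cons 800 n743 .nil)
noncomputable def n745 : Strat := .move 799 n86 (.cons 798 n744 .nil)
noncomputable def n746 : Strat := .move 883 n588 (.cons 839 n745 .nil)
noncomputable def n747 : Strat := .move 884 n66 (.cons 885 n746 .nil)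
noncomputable def n748 : Strat := .move 881 n73 (.cons 880 n98 .nil)
noncomputable def n749 : Strat := .move 800 n726 (.cons 844 n748 .nil)
noncomputable def n750 : Strat := .move 799 n86 (.cons 798 n749 .nil)
noncomputable def n751 : Strat := .move 884 n66 (.cons 885 n750 .nil)
noncomputable def n752 : Strat := .move 843 n708 (.cons 799 n84 (.cons 880 n741 (.cons 881 n747 (.cons 844 n614 (.cons 882 n751 .nil)))))
noncomputable def n753 : Strat := .win 844 0 799
noncomputable def n754 : Strat := .win 757 2 757
noncomputable def n755 : Strat := .win 676 6 676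
noncomputable def n756 : Strat := .move 717 n755 (.cons 676 n493 .nil)
noncomputable def n757 : Strat := .move 758 n754 (.cons 757 n756 .nil)
noncomputable def n758 : Strat := .move 800 n753 (.cons 844 n757 .nil)
noncomputable def n759 : Strat := .move 799 n86 (.cons 798 n758 .nil)
noncomputable def n760 : Strat := .move 801 n65 (.cons 839 n759 .nil)
noncomputable def n761 : Strat := .move 802 n64 (.cons 803 n760 .nil)
noncomputable def n762 : Strat := .win 924 1 760
noncomputable def n763 : Strat := .win 720 1 719
noncomputable def n764 : Strat := .move 883 n762 (.cons 924 n763 .nil)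
noncomputable def n765 : Strat := .win 801 5 758
noncomputable def n766 : Strat := .win 721 3 720
noncomputable def n767 : Strat := .move 762 n765 (.cons 801 n766 .nil)
noncomputable def n768 : Strat := .move 761 n764 (.cons 720 n767 .nil)
noncomputable def n769 : Strat := .move 800 n726 (.cons 844 n768 .nil)
noncomputable def n770 : Strat := .move 799 n86 (.cons 798 n769 .nil)
noncomputable def n771 : Strat := .move 884 n66 (.cons 885 n770 .nil)
noncomputable def n772 : Strat := .move 802 n64 (.cons 803 n771 .nil)
noncomputable def n773 : Strat := .move 843 n72 (.cons 802 n747 (.cons 884 n761 (.cons 839 n772 .nil)))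
noncomputable def n774 : Strat := .move 842 n697 (.cons 882 n698 (.cons 843 n699 (.cons 839 n709 (.cons 801 n710 (.cons 800 n714 (.cons 880 n742 (.cons 802 n752 (.cons 881 n773 .nil))))))))
noncomputable def n775 : Strat := .move 797 n51 (.cons 796 n319 .nil)
noncomputable def n776 : Strat := .move 880 n127 (.cons 842 n775 .nil)
noncomputable def n777 : Strat := .move 879 n19 (.cons 878 n776 .nil)
noncomputable def n778 : Strat := .move 882 n118 (.cons 883 n777 .nil)
noncomputable def n779 : Strat := .move 800 n116 (.cons 801 n778 .nil)
noncomputable def n780 : Strat := .move 838 n258 (.cons 882 n198 (.cons 800 n196 (.cons 837 n779 .nil)))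
noncomputable def n781 : Strat := .move 882 n147 (.cons 719 n146 .nil)
noncomputable def n782 : Strat := .win 759 7 718
noncomputable def n783 : Strat := .win 677 7 677
noncomputable def n784 : Strat := .win 679 3 678
noncomputable def n785 : Strat := .win 761 3 719
noncomputable def n786 : Strat := .move 720 n784 (.cons 679 n785 .nil)
noncomputable def n787 : Strat := .move 719 n783 (.cons 677 n786 .nil)
noncomputable def n788 : Strat := .move 718 n782 (.cons 759 n787 .nil)
noncomputable def n789 : Strat := .win 882 1 759
noncomputable def n790 : Strat := .win 800 7 759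
noncomputable def n791 : Strat := .win 718 7 718
noncomputable def n792 : Strat := .move 759 n790 (.cons 800 n791 .nil)
noncomputable def n793 : Strat := .move 924 n150 (.cons 964 n792 .nil)
noncomputable def n794 : Strat := .move 923 n789 (.cons 882 n793 .nil)
noncomputable def n795 : Strat := .move 760 n781 (.cons 882 n788 (.cons 719 n794 .nil))
noncomputable def n796 : Strat := .move 883 n7 (.cons 884 n795 .nil)
noncomputable def n797 : Strat := .move 801 n9 (.cons 802 n796 .nil)
noncomputable def n798 : Strat := .win 925 0 880
noncomputable def n799 : Strat := .win 759 6 759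
noncomputable def n800 : Strat := .move 800 n799 (.cons 759 n138 .nil)
noncomputable def n801 : Strat := .move 924 n798 (.cons 925 n800 .nil)
noncomputable def n802 : Strat := .move 882 n692 (.cons 921 n801 .nil)
noncomputable def n803 : Strat := .move 883 n7 (.cons 884 n802 .nil)
noncomputable def n804 : Strat := .move 881 n43 (.cons 843 n803 .nil)
noncomputable def n805 : Strat := .move 880 n2 (.cons 879 n804 .nil)
noncomputable def n806 : Strat := .move 842 n308 (.cons 881 n797 (.cons 802 n805 .nil))
noncomputable def n807 : Strat := .move 838 n196 (.cons 879 n280 (.cons 883 n264 .nil))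
noncomputable def n808 : Strat := .move 797 n51 (.cons 796 n381 .nil)
noncomputable def n809 : Strat := .move 838 n362 (.cons 837 n808 (.cons 799 n196 (.cons 882 n198 .nil)))
noncomputable def n810 : Strat := .move 759 n284 (.cons 718 n365 (.cons 922 n368 .nil))
noncomputable def n811 : Strat := .win 1006 6 841
noncomputable def n812 : Strat := .win 924 6 800
noncomputable def n813 : Strat := .move 965 n811 (.cons 1006 n812 .nil)
noncomputable def n814 : Strat := .move 964 n397 (.cons 922 n813 .nil)
noncomputable def n815 : Strat := .move 923 n533 (.cons 964 n810 (.cons 758 n398 (.cons 799 n814 .nil)))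
noncomputable def n816 : Strat := .move 800 n116 (.cons 801 n815 .nil)
noncomputable def n817 : Strat := .move 882 n118 (.cons 883 n816 .nil)
noncomputable def n818 : Strat := .move 797 n51 (.cons 796 n817 .nil)
noncomputable def n819 : Strat := .move 838 n312 (.cons 882 n282 (.cons 800 n280 (.cons 837 n818 .nil)))
noncomputable def n820 : Strat := .move 838 n198 (.cons 800 n264 (.cons 879 n282 .nil))
noncomputable def n821 : Strat := .move 839 n780 (.cons 838 n806 (.cons 800 n807 (.cons 880 n809 (.cons 879 n819 (.cons 883 n820 .nil)))))
noncomputable def n822 : Strat := .move 838 n297 (.cons 796 n125 (.cons 879 n187 (.cons 842 n282 .nil)))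
noncomputable def n823 : Strat := .move 842 n306 (.cons 798 n797 (.cons 801 n347 .nil))
noncomputable def n824 : Strat := .win 798 3 756
noncomputable def n825 : Strat := .win 716 3 715
noncomputable def n826 : Strat := .move 757 n824 (.cons 798 n825 .nil)
noncomputable def n827 : Strat := .move 920 n320 (.cons 962 n826 .nil)
noncomputable def n828 : Strat := .move 921 n634 (.cons 880 n827 .nil)
noncomputable def n829 : Strat := .move 756 n624 (.cons 880 n633 (.cons 715 n828 .nil))
noncomputable def n830 : Strat := .move 879 n19 (.cons 878 n829 .nil)
noncomputable def n831 : Strat := .move 797 n51 (.cons 796 n830 .nil)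
noncomputable def n832 : Strat := .move 838 n282 (.cons 800 n831 (.cons 797 n198 .nil))
noncomputable def n833 : Strat := .move 800 n116 (.cons 801 n190 .nil)
noncomputable def n834 : Strat := .move 756 n624 (.cons 921 n628 (.cons 880 n633 (.cons 715 n828 .nil)))
noncomputable def n835 : Strat := .move 879 n19 (.cons 878 n834 .nil)
noncomputable def n836 : Strat := .move 797 n51 (.cons 796 n835 .nil)
noncomputable def n837 : Strat := .move 838 n833 (.cons 797 n125 (.cons 879 n274 (.cons 842 n836 .nil)))
noncomputable def n838 : Strat := .move 885 n81 (.cons 886 n80 .nil)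
noncomputable def n839 : Strat := .move 803 n76 (.cons 804 n75 .nil)
noncomputable def n840 : Strat := .move 844 n838 (.cons 884 n839 .nil)
noncomputable def n841 : Strat := .move 838 n19 (.cons 878 n840 .nil)
noncomputable def n842 : Strat := .move 879 n18 (.cons 880 n841 .nil)
noncomputable def n843 : Strat := .move 843 n1 (.cons 799 n842 .nil)
noncomputable def n844 : Strat := .move 798 n0 (.cons 797 n843 .nil)
noncomputable def n845 : Strat := .move 842 n347 (.cons 883 n844 (.cons 797 n433 (.cons 884 n511 .nil)))
noncomputable def n846 : Strat := .move 799 n383 (.cons 837 n385 .nil)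
noncomputable def n847 : Strat := .move 882 n118 (.cons 883 n846 .nil)
noncomputable def n848 : Strat := .move 800 n116 (.cons 801 n847 .nil)
noncomputable def n849 : Strat := .move 838 n198 (.cons 801 n518 (.cons 878 n848 .nil))
noncomputable def n850 : Strat := .win 794 2 794
noncomputable def n851 : Strat := .win 796 2 795
noncomputable def n852 : Strat := .move 795 n850 (.cons 794 n851 .nil)
noncomputable def n853 : Strat := .win 876 4 835
noncomputable def n854 : Strat := .win 878 4 836
noncomputable def n855 : Strat := .move 877 n853 (.cons 876 n854 .nil)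
noncomputable def n856 : Strat := .move 836 n852 (.cons 796 n855 .nil)
noncomputable def n857 : Strat := .move 842 n7 (.cons 884 n856 .nil)
noncomputable def n858 : Strat := .move 883 n8 (.cons 882 n857 .nil)
noncomputable def n859 : Strat := .move 837 n117 (.cons 799 n858 .nil)
noncomputable def n860 : Strat := .move 800 n116 (.cons 801 n859 .nil)
noncomputable def n861 : Strat := .move 838 n198 (.cons 799 n125 (.cons 801 n352 (.cons 879 n860 (.cons 878 n388 .nil))))
noncomputable def n862 : Strat := .move 839 n822 (.cons 838 n823 (.cons 842 n832 (.cons 799 n837 (.cons 801 n845 (.cons 798 n849 (.cons 797 n861 .nil))))))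
noncomputable def n863 : Strat := .move 838 n297 (.cons 878 n274 (.cons 842 n198 .nil))
noncomputable def n864 : Strat := .move 842 n301 (.cons 882 n306 (.cons 801 n6 .nil))
noncomputable def n865 : Strat := .move 842 n6 (.cons 843 n184 (.cons 799 n308 .nil))
noncomputable def n866 : Strat := .move 838 n198 (.cons 837 n214 (.cons 879 n122 (.cons 801 n280 .nil)))
noncomputable def n867 : Strat := .move 838 n196 (.cons 877 n312 (.cons 882 n125 .nil))
noncomputable def n868 : Strat := .move 842 n344 (.cons 880 n238 (.cons 884 n559 .nil))
noncomputable def n869 : Strat := .move 838 n282 (.cons 837 n274 (.cons 796 n122 .nil))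
noncomputable def n870 : Strat := .move 842 n306 (.cons 843 n563 (.cons 801 n6 .nil))
noncomputable def n871 : Strat := .move 838 n350 (.cons 798 n352 (.cons 879 n280 .nil))
noncomputable def n872 : Strat := .move 839 n863 (.cons 837 n864 (.cons 838 n865 (.cons 842 n866 (.cons 798 n867 (.cons 800 n868 (.cons 880 n869 (.cons 882 n870 (.cons 799 n871 .nil))))))))
noncomputable def n873 : Strat := .move 838 n122 (.cons 800 n274 (.cons 882 n282 .nil))
noncomputable def n874 : Strat := .move 884 n66 (.cons 885 n341 .nil)
noncomputable def n875 : Strat := .move 802 n64 (.cons 803 n303 .nil)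
noncomputable def n876 : Strat := .move 843 n874 (.cons 883 n875 .nil)
noncomputable def n877 : Strat := .move 837 n193 (.cons 877 n876 .nil)
noncomputable def n878 : Strat := .move 878 n192 (.cons 879 n877 .nil)
noncomputable def n879 : Strat := .move 842 n50 (.cons 798 n878 .nil)
noncomputable def n880 : Strat := .move 797 n51 (.cons 796 n879 .nil)
noncomputable def n881 : Strat := .move 838 n274 (.cons 797 n196 (.cons 882 n880 (.cons 883 n268 .nil)))
noncomputable def n882 : Strat := .move 800 n121 (.cons 837 n567 (.cons 882 n281 .nil))
noncomputable def n883 : Strat := .move 838 n882 (.cons 878 n280 (.cons 795 n196 (.cons 881 n268 .nil)))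
noncomputable def n884 : Strat := .win 760 5 756
noncomputable def n885 : Strat := .win 677 1 676
noncomputable def n886 : Strat := .move 718 n885 (.cons 677 n370 .nil)
noncomputable def n887 : Strat := .move 759 n884 (.cons 760 n886 .nil)
noncomputable def n888 : Strat := .move 798 n674 (.cons 842 n887 .nil)
noncomputable def n889 : Strat := .move 797 n51 (.cons 796 n888 .nil)
noncomputable def n890 : Strat := .move 799 n383 (.cons 837 n889 .nil)
noncomputable def n891 : Strat := .move 800 n116 (.cons 801 n890 .nil)
noncomputable def n892 : Strat := .move 838 n282 (.cons 795 n891 (.cons 837 n268 (.cons 797 n198 .nil)))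
noncomputable def n893 : Strat := .move 879 n19 (.cons 878 n381 .nil)
noncomputable def n894 : Strat := .move 838 n362 (.cons 800 n196 (.cons 882 n198 (.cons 837 n893 .nil)))
noncomputable def n895 : Strat := .move 838 n187 (.cons 796 n388 (.cons 801 n268 .nil))
noncomputable def n896 : Strat := .move 842 n431 (.cons 884 n482 (.cons 838 n347 .nil))
noncomputable def n897 : Strat := .move 923 n150 (.cons 964 n789 .nil)
noncomputable def n898 : Strat := .move 760 n172 (.cons 719 n897 (.cons 923 n792 .nil))
noncomputable def n899 : Strat := .win 1007 6 842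
noncomputable def n900 : Strat := .win 925 6 801
noncomputable def n901 : Strat := .move 966 n899 (.cons 1007 n900 .nil)
noncomputable def n902 : Strat := .move 965 n144 (.cons 923 n901 .nil)
noncomputable def n903 : Strat := .move 924 n665 (.cons 965 n898 (.cons 759 n145 (.cons 800 n902 .nil)))
noncomputable def n904 : Strat := .move 801 n9 (.cons 802 n903 .nil)
noncomputable def n905 : Strat := .move 883 n7 (.cons 884 n904 .nil)
noncomputable def n906 : Strat := .move 798 n346 (.cons 884 n507 (.cons 799 n905 .nil))
noncomputable def n907 : Strat := .move 798 n0 (.cons 797 n905 .nil)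
noncomputable def n908 : Strat := .move 719 n437 (.cons 882 n786 .nil)
noncomputable def n909 : Strat := .move 924 n150 (.cons 964 n665 .nil)
noncomputable def n910 : Strat := .move 923 n789 (.cons 882 n909 .nil)
noncomputable def n911 : Strat := .move 760 n781 (.cons 923 n908 (.cons 882 n788 (.cons 719 n910 .nil)))
noncomputable def n912 : Strat := .move 801 n9 (.cons 802 n911 .nil)
noncomputable def n913 : Strat := .move 883 n7 (.cons 884 n912 .nil)
noncomputable def n914 : Strat := .move 842 n347 (.cons 884 n508 (.cons 797 n906 (.cons 799 n907 (.cons 798 n913 .nil))))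
noncomputable def n915 : Strat := .move 839 n873 (.cons 800 n881 (.cons 798 n809 (.cons 801 n883 (.cons 883 n892 (.cons 797 n894 (.cons 881 n895 (.cons 837 n896 (.cons 838 n914 .nil))))))))
noncomputable def n916 : Strat := .move 844 n87 (.cons 800 n74 .nil)
noncomputable def n917 : Strat := .move 881 n73 (.cons 880 n916 .nil)
noncomputable def n918 : Strat := .move 799 n86 (.cons 798 n917 .nil)
noncomputable def n919 : Strat := .move 882 n94 (.cons 717 n93 .nil)
noncomputable def n920 : Strat := .win 759 3 717
noncomputable def n921 : Strat := .win 677 3 676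
noncomputable def n922 : Strat := .win 675 7 675
noncomputable def n923 : Strat := .win 757 7 716
noncomputable def n924 : Strat := .move 716 n922 (.cons 675 n923 .nil)
noncomputable def n925 : Strat := .move 717 n921 (.cons 677 n924 .nil)
noncomputable def n926 : Strat := .move 718 n920 (.cons 759 n925 .nil)
noncomputable def n927 : Strat := .win 882 6 758
noncomputable def n928 : Strat := .win 964 6 799
noncomputable def n929 : Strat := .win 800 3 758
noncomputable def n930 : Strat := .win 718 3 717
noncomputable def n931 : Strat := .move 759 n929 (.cons 800 n930 .nil)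
noncomputable def n932 : Strat := .move 922 n928 (.cons 964 n931 .nil)
noncomputable def n933 : Strat := .move 923 n927 (.cons 882 n932 .nil)
noncomputable def n934 : Strat := .move 758 n919 (.cons 882 n926 (.cons 717 n933 .nil))
noncomputable def n935 : Strat := .move 881 n73 (.cons 880 n934 .nil)
noncomputable def n936 : Strat := .move 799 n86 (.cons 798 n935 .nil)
noncomputable def n937 : Strat := .move 843 n918 (.cons 880 n112 (.cons 800 n84 (.cons 844 n936 .nil)))
noncomputable def n938 : Strat := .move 839 n54 (.cons 883 n511 (.cons 798 n22 .nil))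
noncomputable def n939 : Strat := .win 921 1 757
noncomputable def n940 : Strat := .move 758 n29 (.cons 717 n939 .nil)
noncomputable def n941 : Strat := .move 921 n31 (.cons 962 n690 .nil)
noncomputable def n942 : Strat := .move 838 n383 (.cons 837 n116 .nil)
noncomputable def n943 : Strat := .move 800 n700 (.cons 963 n98 (.cons 759 n942 .nil))
noncomputable def n944 : Strat := .move 921 n31 (.cons 962 n943 .nil)
noncomputable def n945 : Strat := .move 758 n29 (.cons 717 n943 .nil)
noncomputable def n946 : Strat := .move 799 n940 (.cons 717 n941 (.cons 758 n944 (.cons 921 n945 .nil)))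
noncomputable def n947 : Strat := .move 881 n43 (.cons 843 n946 .nil)
noncomputable def n948 : Strat := .move 880 n2 (.cons 879 n947 .nil)
noncomputable def n949 : Strat := .move 796 n277 (.cons 795 n276 .nil)
noncomputable def n950 : Strat := .move 837 n117 (.cons 799 n949 .nil)
noncomputable def n951 : Strat := .move 800 n116 (.cons 801 n950 .nil)
noncomputable def n952 : Strat := .move 838 n8 (.cons 882 n951 .nil)
noncomputable def n953 : Strat := .move 883 n7 (.cons 884 n952 .nil)
noncomputable def n954 : Strat := .move 839 n22 (.cons 838 n805 (.cons 883 n948 (.cons 880 n953 .nil)))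
noncomputable def n955 : Strat := .move 757 n230 (.cons 717 n27 .nil)
noncomputable def n956 : Strat := .win 799 3 798
noncomputable def n957 : Strat := .win 1002 1 838
noncomputable def n958 : Strat := .win 920 1 797
noncomputable def n959 : Strat := .move 961 n957 (.cons 1002 n958 .nil)
noncomputable def n960 : Strat := .move 962 n956 (.cons 799 n959 .nil)
noncomputable def n961 : Strat := .win 1004 6 839
noncomputable def n962 : Strat := .win 922 6 798
noncomputable def n963 : Strat := .move 963 n961 (.cons 1004 n962 .nil)
noncomputable def n964 : Strat := .move 962 n959 (.cons 920 n963 .nil)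
noncomputable def n965 : Strat := .move 921 n160 (.cons 962 n955 (.cons 758 n960 (.cons 799 n964 .nil)))
noncomputable def n966 : Strat := .move 798 n0 (.cons 797 n965 .nil)
noncomputable def n967 : Strat := .move 880 n2 (.cons 879 n966 .nil)
noncomputable def n968 : Strat := .move 801 n23 (.cons 880 n61 (.cons 800 n967 .nil))
noncomputable def n969 : Strat := .move 799 n31 (.cons 962 n32 .nil)
noncomputable def n970 : Strat := .move 922 n45 (.cons 757 n162 .nil)
noncomputable def n971 : Strat := .move 881 n161 (.cons 716 n970 (.cons 922 n166 .nil))
noncomputable def n972 : Strat := .move 921 n969 (.cons 758 n960 (.cons 962 n971 .nil))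
noncomputable def n973 : Strat := .move 883 n7 (.cons 884 n972 .nil)
noncomputable def n974 : Strat := .move 880 n2 (.cons 879 n973 .nil)
noncomputable def n975 : Strat := .move 798 n0 (.cons 797 n974 .nil)
noncomputable def n976 : Strat := .move 839 n54 (.cons 883 n968 (.cons 797 n22 (.cons 838 n975 .nil)))
noncomputable def n977 : Strat := .move 759 n97 (.cons 718 n96 .nil)
noncomputable def n978 : Strat := .move 881 n73 (.cons 880 n977 .nil)
noncomputable def n979 : Strat := .move 800 n726 (.cons 844 n978 .nil)
noncomputable def n980 : Strat := .move 799 n86 (.cons 798 n979 .nil)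
noncomputable def n981 : Strat := .move 839 n341 (.cons 883 n4 .nil)
noncomputable def n982 : Strat := .move 884 n66 (.cons 885 n981 .nil)
noncomputable def n983 : Strat := .move 843 n112 (.cons 886 n980 (.cons 799 n982 .nil))
noncomputable def n984 : Strat := .move 882 n118 (.cons 883 n126 .nil)
noncomputable def n985 : Strat := .win 882 0 837
noncomputable def n986 : Strat := .win 836 0 836
noncomputable def n987 : Strat := .move 837 n985 (.cons 882 n986 .nil)
noncomputable def n988 : Strat := .move 801 n10 (.cons 800 n987 .nil)
noncomputable def n989 : Strat := .move 837 n117 (.cons 799 n986 .nil)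
noncomputable def n990 : Strat := .move 800 n116 (.cons 801 n989 .nil)
noncomputable def n991 : Strat := .move 882 n118 (.cons 883 n519 .nil)
noncomputable def n992 : Strat := .move 838 n984 (.cons 883 n988 (.cons 882 n990 (.cons 837 n991 .nil)))
noncomputable def n993 : Strat := .move 881 n43 (.cons 843 n992 .nil)
noncomputable def n994 : Strat := .move 880 n2 (.cons 879 n993 .nil)
noncomputable def n995 : Strat := .win 801 4 797
noncomputable def n996 : Strat := .move 800 n995 (.cons 801 n383 .nil)
noncomputable def n997 : Strat := .win 800 5 796
noncomputable def n998 : Strat := .win 836 5 795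
noncomputable def n999 : Strat := .move 837 n997 (.cons 800 n998 .nil)
noncomputable def n1000 : Strat := .move 883 n8 (.cons 882 n999 .nil)
noncomputable def n1001 : Strat := .move 837 n119 (.cons 881 n998 .nil)
noncomputable def n1002 : Strat := .move 882 n118 (.cons 883 n1001 .nil)
noncomputable def n1003 : Strat := .move 923 n392 (.cons 758 n391 .nil)
noncomputable def n1004 : Strat := .move 882 n118 (.cons 883 n1003 .nil)
noncomputable def n1005 : Strat := .move 800 n995 (.cons 801 n1004 .nil)
noncomputable def n1006 : Strat := .move 838 n996 (.cons 801 n1000 (.cons 800 n1002 (.cons 837 n1005 .nil)))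
noncomputable def n1007 : Strat := .move 799 n56 (.cons 843 n1006 .nil)
noncomputable def n1008 : Strat := .move 798 n0 (.cons 797 n1007 .nil)
noncomputable def n1009 : Strat := .move 922 n45 (.cons 757 n44 .nil)
noncomputable def n1010 : Strat := .move 798 n0 (.cons 797 n1009 .nil)
noncomputable def n1011 : Strat := .move 881 n43 (.cons 843 n1010 .nil)
noncomputable def n1012 : Strat := .move 880 n2 (.cons 879 n1011 .nil)
noncomputable def n1013 : Strat := .move 882 n119 (.cons 881 n118 .nil)
noncomputable def n1014 : Strat := .move 837 n117 (.cons 799 n1013 .nil)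
noncomputable def n1015 : Strat := .move 800 n116 (.cons 801 n1014 .nil)
noncomputable def n1016 : Strat := .move 838 n19 (.cons 878 n1015 .nil)
noncomputable def n1017 : Strat := .move 879 n18 (.cons 880 n1016 .nil)
noncomputable def n1018 : Strat := .move 798 n0 (.cons 797 n1017 .nil)
noncomputable def n1019 : Strat := .move 839 n60 (.cons 798 n994 (.cons 880 n1008 (.cons 799 n1012 (.cons 843 n1018 .nil))))
noncomputable def n1020 : Strat := .move 923 n363 (.cons 963 n391 .nil)
noncomputable def n1021 : Strat := .move 922 n364 (.cons 881 n1020 .nil)
noncomputable def n1022 : Strat := .win 924 6 759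
noncomputable def n1023 : Strat := .move 839 n416 (.cons 838 n7 .nil)
noncomputable def n1024 : Strat := .move 883 n1022 (.cons 924 n1023 .nil)
noncomputable def n1025 : Strat := .move 882 n1003 (.cons 964 n653 (.cons 758 n1021 (.cons 923 n1024 .nil)))
noncomputable def n1026 : Strat := .win 883 6 718
noncomputable def n1027 : Strat := .move 718 n885 (.cons 677 n1026 .nil)
noncomputable def n1028 : Strat := .move 759 n886 (.cons 718 n1025 (.cons 881 n1027 .nil))
noncomputable def n1029 : Strat := .move 800 n726 (.cons 844 n1028 .nil)
noncomputable def n1030 : Strat := .move 799 n86 (.cons 798 n1029 .nil)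
noncomputable def n1031 : Strat := .move 839 n341 (.cons 883 n338 .nil)
noncomputable def n1032 : Strat := .move 884 n66 (.cons 885 n1031 .nil)
noncomputable def n1033 : Strat := .win 883 4 841
noncomputable def n1034 : Strat := .win 887 0 842
noncomputable def n1035 : Strat := .win 885 0 841
noncomputable def n1036 : Strat := .move 886 n1034 (.cons 887 n1035 .nil)
noncomputable def n1037 : Strat := .move 845 n1033 (.cons 883 n1036 .nil)
noncomputable def n1038 : Strat := .move 882 n446 (.cons 881 n1037 .nil)
noncomputable def n1039 : Strat := .move 844 n87 (.cons 800 n1038 .nil)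
noncomputable def n1040 : Strat := .move 799 n86 (.cons 798 n1039 .nil)
noncomputable def n1041 : Strat := .move 799 n87 (.cons 800 n743 .nil)
noncomputable def n1042 : Strat := .win 801 2 800
noncomputable def n1043 : Strat := .move 845 n1042 (.cons 801 n737 .nil)
noncomputable def n1044 : Strat := .move 800 n461 (.cons 799 n1043 .nil)
noncomputable def n1045 : Strat := .move 759 n1022 (.cons 924 n174 .nil)
noncomputable def n1046 : Strat := .move 800 n461 (.cons 799 n1045 .nil)
noncomputable def n1047 : Strat := .move 882 n446 (.cons 881 n1046 .nil)
noncomputable def n1048 : Strat := .move 844 n735 (.cons 881 n1041 (.cons 882 n1044 (.cons 845 n1047 .nil)))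
noncomputable def n1049 : Strat := .move 883 n588 (.cons 839 n1048 .nil)
noncomputable def n1050 : Strat := .move 884 n66 (.cons 885 n1049 .nil)
noncomputable def n1051 : Strat := .win 805 5 801
noncomputable def n1052 : Strat := .win 803 5 800
noncomputable def n1053 : Strat := .move 804 n1051 (.cons 805 n1052 .nil)
noncomputable def n1054 : Strat := .move 845 n1033 (.cons 883 n1053 .nil)
noncomputable def n1055 : Strat := .move 882 n446 (.cons 881 n1054 .nil)
noncomputable def n1056 : Strat := .move 844 n81 (.cons 886 n1055 .nil)
noncomputable def n1057 : Strat := .move 885 n80 (.cons 884 n1056 .nil)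
noncomputable def n1058 : Strat := .move 843 n112 (.cons 885 n1030 (.cons 844 n1032 (.cons 884 n1040 (.cons 798 n1050 (.cons 799 n1057 .nil)))))
noncomputable def n1059 : Strat := .move 842 n55 (.cons 883 n937 (.cons 881 n938 (.cons 798 n954 (.cons 843 n976 (.cons 882 n983 (.cons 884 n1019 (.cons 880 n1058 .nil)))))))
noncomputable def n1060 : Strat := .move 839 n303 (.cons 801 n4 .nil)
noncomputable def n1061 : Strat := .move 802 n64 (.cons 803 n1060 .nil)
noncomputable def n1062 : Strat := .move 843 n90 (.cons 882 n92 (.cons 799 n1061 .nil))
noncomputable def n1063 : Strat := .move 843 n92 (.cons 804 n918 (.cons 799 n79 (.cons 844 n109 .nil)))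
noncomputable def n1064 : Strat := .move 838 n51 (.cons 796 n840 .nil)
noncomputable def n1065 : Strat := .move 797 n50 (.cons 798 n1064 .nil)
noncomputable def n1066 : Strat := .move 843 n3 (.cons 881 n1065 .nil)
noncomputable def n1067 : Strat := .move 880 n2 (.cons 879 n1066 .nil)
noncomputable def n1068 : Strat := .move 839 n308 (.cons 881 n24 (.cons 880 n62 (.cons 801 n1067 (.cons 802 n1012 .nil))))
noncomputable def n1069 : Strat := .move 839 n62 (.cons 798 n24 (.cons 801 n844 (.cons 838 n306 (.cons 802 n511 .nil))))
noncomputable def n1070 : Strat := .move 843 n918 (.cons 882 n92 (.cons 799 n79 (.cons 844 n936 .nil)))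
noncomputable def n1071 : Strat := .move 843 n79 (.cons 804 n84 (.cons 882 n72 .nil))
noncomputable def n1072 : Strat := .move 843 n92 (.cons 802 n112 (.cons 800 n72 .nil))
noncomputable def n1073 : Strat := .move 839 n60 (.cons 879 n579 (.cons 843 n24 .nil))
noncomputable def n1074 : Strat := .move 801 n9 (.cons 802 n967 .nil)
noncomputable def n1075 : Strat := .move 839 n24 (.cons 880 n62 (.cons 802 n968 (.cons 838 n41 (.cons 800 n1074 (.cons 801 n235 .nil)))))
noncomputable def n1076 : Strat := .move 842 n1062 (.cons 839 n1063 (.cons 799 n1068 (.cons 881 n1069 (.cons 801 n1070 (.cons 798 n1071 (.cons 880 n1072 (.cons 802 n937 (.cons 844 n1073 (.cons 843 n1075 .nil)))))))))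
noncomputable def n1077 : Strat := .move 839 n13 (.cons 883 n308 (.cons 801 n22 .nil))
noncomputable def n1078 : Strat := .move 801 n9 (.cons 802 n425 .nil)
noncomputable def n1079 : Strat := .win 882 1 758
noncomputable def n1080 : Strat := .move 759 n1079 (.cons 882 n97 .nil)
noncomputable def n1081 : Strat := .move 922 n99 (.cons 963 n1080 .nil)
noncomputable def n1082 : Strat := .move 881 n43 (.cons 843 n1081 .nil)
noncomputable def n1083 : Strat := .move 880 n2 (.cons 879 n1082 .nil)
noncomputable def n1084 : Strat := .move 801 n9 (.cons 802 n1083 .nil)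
noncomputable def n1085 : Strat := .move 881 n43 (.cons 843 n161 .nil)
noncomputable def n1086 : Strat := .move 880 n2 (.cons 879 n1085 .nil)
noncomputable def n1087 : Strat := .move 798 n0 (.cons 797 n1086 .nil)
noncomputable def n1088 : Strat := .move 801 n9 (.cons 802 n1087 .nil)
noncomputable def n1089 : Strat := .win 882 6 759
noncomputable def n1090 : Strat := .move 924 n138 (.cons 965 n1089 .nil)
noncomputable def n1091 : Strat := .move 759 n174 (.cons 718 n1090 .nil)
noncomputable def n1092 : Strat := .move 883 n7 (.cons 884 n1091 .nil)
noncomputable def n1093 : Strat := .move 800 n1078 (.cons 883 n1084 (.cons 759 n1088 (.cons 801 n1092 .nil)))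
noncomputable def n1094 : Strat := .move 839 n1093 (.cons 880 n907 (.cons 802 n1012 (.cons 797 n308 .nil)))
noncomputable def n1095 : Strat := .move 839 n22 (.cons 883 n1067 (.cons 880 n54 (.cons 884 n1012 .nil)))
noncomputable def n1096 : Strat := .move 801 n9 (.cons 802 n299 .nil)
noncomputable def n1097 : Strat := .move 883 n7 (.cons 884 n1096 .nil)
noncomputable def n1098 : Strat := .move 839 n1097 (.cons 883 n62 (.cons 801 n54 (.cons 838 n907 .nil)))
noncomputable def n1099 : Strat := .move 839 n24 (.cons 801 n1012 (.cons 880 n62 .nil))
noncomputable def n1100 : Strat := .move 839 n22 (.cons 883 n1012 (.cons 880 n54 .nil))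
noncomputable def n1101 : Strat := .win 965 1 801
noncomputable def n1102 : Strat := .win 883 1 760
noncomputable def n1103 : Strat := .move 924 n1101 (.cons 965 n1102 .nil)
noncomputable def n1104 : Strat := .win 801 7 760
noncomputable def n1105 : Strat := .win 719 7 719
noncomputable def n1106 : Strat := .move 760 n1104 (.cons 801 n1105 .nil)
noncomputable def n1107 : Strat := .move 925 n1103 (.cons 883 n1106 .nil)
noncomputable def n1108 : Strat := .win 883 1 719
noncomputable def n1109 : Strat := .win 680 3 679
noncomputable def n1110 : Strat := .win 762 3 720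
noncomputable def n1111 : Strat := .move 721 n1109 (.cons 680 n1110 .nil)
noncomputable def n1112 : Strat := .move 720 n1108 (.cons 883 n1111 .nil)
noncomputable def n1113 : Strat := .win 678 7 678
noncomputable def n1114 : Strat := .win 760 7 719
noncomputable def n1115 : Strat := .move 719 n1113 (.cons 678 n1114 .nil)
noncomputable def n1116 : Strat := .move 720 n1111 (.cons 762 n1115 .nil)
noncomputable def n1117 : Strat := .move 761 n764 (.cons 720 n1107 (.cons 924 n1112 (.cons 883 n1116 .nil)))
noncomputable def n1118 : Strat := .move 884 n66 (.cons 885 n1117 .nil)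
noncomputable def n1119 : Strat := .move 802 n64 (.cons 803 n1118 .nil)
noncomputable def n1120 : Strat := .move 881 n73 (.cons 880 n1119 .nil)
noncomputable def n1121 : Strat := .move 881 n78 (.cons 882 n1119 (.cons 802 n83 .nil))
noncomputable def n1122 : Strat := .move 883 n763 (.cons 720 n762 .nil)
noncomputable def n1123 : Strat := .move 720 n1113 (.cons 678 n1111 .nil)
noncomputable def n1124 : Strat := .move 719 n1114 (.cons 760 n1123 .nil)
noncomputable def n1125 : Strat := .move 925 n1104 (.cons 801 n1101 .nil)
noncomputable def n1126 : Strat := .move 760 n1105 (.cons 719 n1125 .nil)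
noncomputable def n1127 : Strat := .move 924 n1102 (.cons 883 n1126 .nil)
noncomputable def n1128 : Strat := .move 761 n1122 (.cons 924 n1112 (.cons 883 n1124 (.cons 720 n1127 .nil)))
noncomputable def n1129 : Strat := .move 802 n64 (.cons 803 n1128 .nil)
noncomputable def n1130 : Strat := .move 884 n66 (.cons 885 n1129 .nil)
noncomputable def n1131 : Strat := .move 843 n79 (.cons 802 n84 (.cons 882 n1120 (.cons 880 n1121 (.cons 881 n1130 .nil))))
noncomputable def n1132 : Strat := .move 842 n1077 (.cons 883 n1068 (.cons 838 n1094 (.cons 801 n1095 (.cons 880 n1098 (.cons 884 n1099 (.cons 802 n1100 (.cons 839 n1131 .nil)))))))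
noncomputable def n1133 : Strat := .move 842 n340 (.cons 879 n347 (.cons 843 n22 .nil))
noncomputable def n1134 : Strat := .move 842 n347 (.cons 798 n421 (.cons 884 n306 .nil))
noncomputable def n1135 : Strat := .move 838 n280 (.cons 881 n831 (.cons 797 n196 .nil))
noncomputable def n1136 : Strat := .move 842 n344 (.cons 881 n713 (.cons 883 n308 .nil))
noncomputable def n1137 : Strat := .move 839 n1133 (.cons 882 n643 (.cons 843 n239 (.cons 879 n1134 (.cons 798 n807 (.cons 842 n1135 (.cons 797 n1136 .nil))))))
noncomputable def n1138 : Strat := .move 801 n425 (.cons 883 n480 .nil)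
noncomputable def n1139 : Strat := .move 801 n9 (.cons 802 n480 .nil)
noncomputable def n1140 : Strat := .move 800 n1078 (.cons 802 n1138 (.cons 883 n1139 (.cons 801 n6 .nil)))
noncomputable def n1141 : Strat := .move 839 n1140 (.cons 843 n41 (.cons 880 n347 (.cons 797 n308 .nil)))
noncomputable def n1142 : Strat := .move 839 n306 (.cons 798 n797 (.cons 801 n347 .nil))
noncomputable def n1143 : Strat := .move 839 n308 (.cons 881 n797 (.cons 802 n805 .nil))
noncomputable def n1144 : Strat := .move 839 n41 (.cons 756 n159 (.cons 800 n171 (.cons 881 n184 .nil)))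
noncomputable def n1145 : Strat := .move 839 n340 (.cons 843 n171 (.cons 799 n344 (.cons 880 n347 .nil)))
noncomputable def n1146 : Strat := .move 843 n90 (.cons 799 n79 (.cons 844 n109 (.cons 880 n92 .nil)))
noncomputable def n1147 : Strat := .move 842 n1141 (.cons 799 n1094 (.cons 881 n1142 (.cons 798 n1143 (.cons 843 n1144 (.cons 800 n1145 (.cons 839 n1146 .nil))))))
noncomputable def n1148 : Strat := .move 797 n51 (.cons 796 n675 .nil)
noncomputable def n1149 : Strat := .move 799 n386 (.cons 882 n1148 .nil)
noncomputable def n1150 : Strat := .move 798 n240 (.cons 842 n251 .nil)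
noncomputable def n1151 : Strat := .move 797 n51 (.cons 796 n1150 .nil)
noncomputable def n1152 : Strat := .move 800 n121 (.cons 837 n1149 (.cons 799 n358 (.cons 882 n1151 .nil)))
noncomputable def n1153 : Strat := .win 881 1 757
noncomputable def n1154 : Strat := .move 758 n1153 (.cons 881 n29 .nil)
noncomputable def n1155 : Strat := .move 921 n31 (.cons 962 n1154 .nil)
noncomputable def n1156 : Strat := .move 880 n127 (.cons 842 n1155 .nil)
noncomputable def n1157 : Strat := .move 879 n19 (.cons 878 n1156 .nil)
noncomputable def n1158 : Strat := .win 798 2 755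
noncomputable def n1159 : Strat := .move 755 n208 (.cons 714 n1158 .nil)
noncomputable def n1160 : Strat := .move 756 n201 (.cons 715 n1159 .nil)
noncomputable def n1161 : Strat := .move 879 n19 (.cons 878 n1160 .nil)
noncomputable def n1162 : Strat := .move 797 n51 (.cons 796 n1161 .nil)
noncomputable def n1163 : Strat := .move 799 n1148 (.cons 798 n1157 (.cons 842 n1162 (.cons 880 n889 .nil)))
noncomputable def n1164 : Strat := .move 924 n531 (.cons 881 n402 .nil)
noncomputable def n1165 : Strat := .move 923 n393 (.cons 758 n1164 .nil)
noncomputable def n1166 : Strat := .move 880 n127 (.cons 842 n1165 .nil)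
noncomputable def n1167 : Strat := .move 879 n19 (.cons 878 n1166 .nil)
noncomputable def n1168 : Strat := .move 882 n118 (.cons 883 n1167 .nil)
noncomputable def n1169 : Strat := .move 800 n1149 (.cons 842 n660 (.cons 798 n778 (.cons 882 n1163 (.cons 796 n1168 .nil))))
noncomputable def n1170 : Strat := .move 798 n240 (.cons 842 n204 .nil)
noncomputable def n1171 : Strat := .move 879 n19 (.cons 878 n1170 .nil)
noncomputable def n1172 : Strat := .move 797 n51 (.cons 796 n1171 .nil)
noncomputable def n1173 : Strat := .move 882 n118 (.cons 883 n1172 .nil)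
noncomputable def n1174 : Strat := .move 838 n1152 (.cons 837 n1169 (.cons 881 n1173 (.cons 797 n196 (.cons 882 n244 .nil))))
noncomputable def n1175 : Strat := .move 800 n361 (.cons 882 n197 (.cons 837 n778 .nil))
noncomputable def n1176 : Strat := .move 838 n1175 (.cons 881 n518 (.cons 879 n280 (.cons 797 n196 .nil)))
noncomputable def n1177 : Strat := .move 842 n22 (.cons 883 n1067 (.cons 880 n54 (.cons 884 n1012 .nil)))
noncomputable def n1178 : Strat := .move 881 n985 (.cons 882 n986 .nil)
noncomputable def n1179 : Strat := .win 881 0 836
noncomputable def n1180 : Strat := .win 835 0 835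
noncomputable def n1181 : Strat := .move 836 n1179 (.cons 881 n1180 .nil)
noncomputable def n1182 : Strat := .move 800 n117 (.cons 799 n1181 .nil)
noncomputable def n1183 : Strat := .win 798 5 795
noncomputable def n1184 : Strat := .move 836 n1183 (.cons 798 n1180 .nil)
noncomputable def n1185 : Strat := .move 799 n997 (.cons 800 n1184 .nil)
noncomputable def n1186 : Strat := .move 758 n939 (.cons 921 n29 .nil)
noncomputable def n1187 : Strat := .move 799 n997 (.cons 800 n1186 .nil)
noncomputable def n1188 : Strat := .move 881 n985 (.cons 882 n1187 .nil)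
noncomputable def n1189 : Strat := .move 837 n1178 (.cons 882 n1182 (.cons 881 n1185 (.cons 836 n1188 .nil)))
noncomputable def n1190 : Strat := .move 880 n127 (.cons 842 n1189 .nil)
noncomputable def n1191 : Strat := .move 879 n19 (.cons 878 n1190 .nil)
noncomputable def n1192 : Strat := .win 920 1 756
noncomputable def n1193 : Strat := .move 757 n203 (.cons 716 n1192 .nil)
noncomputable def n1194 : Strat := .move 920 n130 (.cons 961 n129 .nil)
noncomputable def n1195 : Strat := .move 921 n32 (.cons 758 n31 .nil)
noncomputable def n1196 : Strat := .move 837 n998 (.cons 836 n997 .nil)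
noncomputable def n1197 : Strat := .move 799 n1195 (.cons 962 n30 (.cons 758 n1196 .nil))
noncomputable def n1198 : Strat := .move 920 n130 (.cons 961 n1197 .nil)
noncomputable def n1199 : Strat := .move 757 n203 (.cons 716 n1197 .nil)
noncomputable def n1200 : Strat := .move 798 n1193 (.cons 716 n1194 (.cons 757 n1198 (.cons 920 n1199 .nil)))
noncomputable def n1201 : Strat := .move 880 n127 (.cons 842 n1200 .nil)
noncomputable def n1202 : Strat := .move 879 n19 (.cons 878 n1201 .nil)
noncomputable def n1203 : Strat := .move 836 n1183 (.cons 798 n852 .nil)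
noncomputable def n1204 : Strat := .move 799 n997 (.cons 800 n1203 .nil)
noncomputable def n1205 : Strat := .move 837 n119 (.cons 881 n1204 .nil)
noncomputable def n1206 : Strat := .move 882 n118 (.cons 883 n1205 .nil)
noncomputable def n1207 : Strat := .move 838 n196 (.cons 881 n352 (.cons 883 n1191 (.cons 882 n1202 (.cons 879 n1206 .nil))))
noncomputable def n1208 : Strat := .move 844 n74 (.cons 882 n838 .nil)
noncomputable def n1209 : Strat := .move 881 n73 (.cons 880 n1208 .nil)
noncomputable def n1210 : Strat := .move 843 n1 (.cons 799 n1209 .nil)
noncomputable def n1211 : Strat := .move 798 n0 (.cons 797 n1210 .nil)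
noncomputable def n1212 : Strat := .move 881 n73 (.cons 880 n596 .nil)
noncomputable def n1213 : Strat := .move 881 n73 (.cons 880 n616 .nil)
noncomputable def n1214 : Strat := .move 844 n87 (.cons 800 n445 .nil)
noncomputable def n1215 : Strat := .move 799 n86 (.cons 798 n1214 .nil)
noncomputable def n1216 : Strat := .move 843 n1212 (.cons 844 n1213 (.cons 881 n1215 .nil))
noncomputable def n1217 : Strat := .move 882 n416 (.cons 838 n1216 .nil)
noncomputable def n1218 : Strat := .move 883 n7 (.cons 884 n1217 .nil)
noncomputable def n1219 : Strat := .move 717 n491 (.cons 676 n490 .nil)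
noncomputable def n1220 : Strat := .move 880 n29 (.cons 717 n28 .nil)
noncomputable def n1221 : Strat := .win 757 7 757
noncomputable def n1222 : Strat := .move 922 n1221 (.cons 757 n44 .nil)
noncomputable def n1223 : Strat := .move 757 n498 (.cons 922 n26 .nil)
noncomputable def n1224 : Strat := .win 880 1 757
noncomputable def n1225 : Strat := .move 922 n606 (.cons 962 n44 .nil)
noncomputable def n1226 : Strat := .move 921 n1224 (.cons 880 n1225 .nil)
noncomputable def n1227 : Strat := .move 838 n126 (.cons 837 n118 .nil)
noncomputable def n1228 : Strat := .move 882 n93 (.cons 923 n1227 .nil)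
noncomputable def n1229 : Strat := .move 881 n1222 (.cons 963 n1223 (.cons 757 n1226 (.cons 922 n1228 .nil)))
noncomputable def n1230 : Strat := .move 717 n491 (.cons 676 n493 .nil)
noncomputable def n1231 : Strat := .move 758 n1219 (.cons 676 n1220 (.cons 717 n1229 (.cons 880 n1230 .nil)))
noncomputable def n1232 : Strat := .move 799 n56 (.cons 843 n1231 .nil)
noncomputable def n1233 : Strat := .move 798 n0 (.cons 797 n1232 .nil)
noncomputable def n1234 : Strat := .move 844 n74 (.cons 882 n839 .nil)
noncomputable def n1235 : Strat := .move 881 n73 (.cons 880 n1234 .nil)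
noncomputable def n1236 : Strat := .move 843 n66 (.cons 885 n1235 .nil)
noncomputable def n1237 : Strat := .move 884 n341 (.cons 883 n1236 .nil)
noncomputable def n1238 : Strat := .move 842 n347 (.cons 883 n1211 (.cons 797 n1218 (.cons 884 n1233 (.cons 843 n238 (.cons 798 n1237 .nil)))))
noncomputable def n1239 : Strat := .win 800 4 796
noncomputable def n1240 : Strat := .move 799 n1239 (.cons 800 n998 .nil)
noncomputable def n1241 : Strat := .move 882 n119 (.cons 881 n547 .nil)
noncomputable def n1242 : Strat := .win 880 0 836
noncomputable def n1243 : Strat := .move 836 n1242 (.cons 880 n546 .nil)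
noncomputable def n1244 : Strat := .move 881 n985 (.cons 882 n1243 .nil)
noncomputable def n1245 : Strat := .move 881 n985 (.cons 882 n1222 .nil)
noncomputable def n1246 : Strat := .move 799 n1239 (.cons 800 n1245 .nil)
noncomputable def n1247 : Strat := .move 837 n1240 (.cons 800 n1241 (.cons 799 n1244 (.cons 836 n1246 .nil)))
noncomputable def n1248 : Strat := .move 798 n240 (.cons 842 n1247 .nil)
noncomputable def n1249 : Strat := .move 797 n51 (.cons 796 n1248 .nil)
noncomputable def n1250 : Strat := .move 881 n1242 (.cons 880 n985 .nil)
noncomputable def n1251 : Strat := .move 836 n1183 (.cons 798 n1250 .nil)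
noncomputable def n1252 : Strat := .move 799 n997 (.cons 800 n1251 .nil)
noncomputable def n1253 : Strat := .move 837 n193 (.cons 877 n1252 .nil)
noncomputable def n1254 : Strat := .move 878 n192 (.cons 879 n1253 .nil)
noncomputable def n1255 : Strat := .move 797 n51 (.cons 796 n1254 .nil)
noncomputable def n1256 : Strat := .move 838 n244 (.cons 797 n1191 (.cons 879 n1249 (.cons 798 n264 (.cons 842 n1255 .nil))))
noncomputable def n1257 : Strat := .move 921 n320 (.cons 962 n634 .nil)
noncomputable def n1258 : Strat := .move 920 n826 (.cons 716 n313 (.cons 798 n1257 .nil))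
noncomputable def n1259 : Strat := .move 715 n627 (.cons 757 n631 .nil)
noncomputable def n1260 : Strat := .move 756 n201 (.cons 715 n1258 (.cons 921 n628 (.cons 880 n1259 .nil)))
noncomputable def n1261 : Strat := .move 879 n19 (.cons 878 n1260 .nil)
noncomputable def n1262 : Strat := .move 797 n51 (.cons 796 n1261 .nil)
noncomputable def n1263 : Strat := .move 882 n118 (.cons 883 n1262 .nil)
noncomputable def n1264 : Strat := .win 961 7 796
noncomputable def n1265 : Strat := .move 880 n1179 (.cons 881 n1180 .nil)
noncomputable def n1266 : Strat := .move 799 n1183 (.cons 798 n997 .nil)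
noncomputable def n1267 : Strat := .move 836 n1265 (.cons 835 n1266 .nil)
noncomputable def n1268 : Strat := .move 920 n1264 (.cons 961 n1267 .nil)
noncomputable def n1269 : Strat := .move 837 n277 (.cons 795 n1268 .nil)
noncomputable def n1270 : Strat := .move 796 n276 (.cons 797 n1269 .nil)
noncomputable def n1271 : Strat := .move 879 n19 (.cons 878 n1270 .nil)
noncomputable def n1272 : Strat := .move 838 n280 (.cons 796 n196 (.cons 837 n329 (.cons 883 n1255 (.cons 881 n1263 (.cons 882 n1271 .nil)))))
noncomputable def n1273 : Strat := .move 839 n1174 (.cons 880 n883 (.cons 798 n1176 (.cons 881 n845 (.cons 882 n649 (.cons 799 n1177 (.cons 797 n1207 (.cons 879 n1238 (.cons 883 n1256 (.cons 842 n1272 .nil)))))))))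
noncomputable def n1274 : Strat := .move 922 n99 (.cons 963 n1079 .nil)
noncomputable def n1275 : Strat := .move 759 n97 (.cons 718 n1274 .nil)
noncomputable def n1276 : Strat := .win 755 0 755
noncomputable def n1277 : Strat := .win 801 0 756
noncomputable def n1278 : Strat := .move 756 n1276 (.cons 755 n1277 .nil)
noncomputable def n1279 : Strat := .move 757 n103 (.cons 716 n1278 .nil)
noncomputable def n1280 : Strat := .move 799 n93 (.cons 923 n1279 .nil)
noncomputable def n1281 : Strat := .move 758 n367 (.cons 717 n1280 .nil)
noncomputable def n1282 : Strat := .win 923 3 759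
noncomputable def n1283 : Strat := .win 802 0 757
noncomputable def n1284 : Strat := .win 756 0 756
noncomputable def n1285 : Strat := .move 757 n1283 (.cons 802 n1284 .nil)
noncomputable def n1286 : Strat := .move 801 n1282 (.cons 923 n1285 .nil)
noncomputable def n1287 : Strat := .move 760 n285 (.cons 719 n1286 .nil)
noncomputable def n1288 : Strat := .move 758 n367 (.cons 717 n1287 .nil)
noncomputable def n1289 : Strat := .win 885 2 840
noncomputable def n1290 : Strat := .win 801 3 759
noncomputable def n1291 : Strat := .move 760 n1290 (.cons 801 n285 .nil)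
noncomputable def n1292 : Strat := .win 1005 7 840
noncomputable def n1293 : Strat := .move 964 n1292 (.cons 1005 n394 .nil)
noncomputable def n1294 : Strat := .move 923 n1291 (.cons 719 n1293 .nil)
noncomputable def n1295 : Strat := .move 884 n1289 (.cons 885 n1294 .nil)
noncomputable def n1296 : Strat := .move 883 n1022 (.cons 924 n1295 .nil)
noncomputable def n1297 : Strat := .win 842 5 838
noncomputable def n1298 : Strat := .win 878 5 837
noncomputable def n1299 : Strat := .move 879 n1297 (.cons 842 n1298 .nil)
noncomputable def n1300 : Strat := .win 879 5 838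
noncomputable def n1301 : Strat := .move 842 n1300 (.cons 879 n43 .nil)
noncomputable def n1302 : Strat := .win 799 1 757
noncomputable def n1303 : Strat := .move 921 n689 (.cons 920 n1302 .nil)
noncomputable def n1304 : Strat := .move 880 n1299 (.cons 878 n1301 (.cons 842 n1303 .nil))
noncomputable def n1305 : Strat := .move 883 n1022 (.cons 924 n1304 .nil)
noncomputable def n1306 : Strat := .move 758 n367 (.cons 717 n1305 .nil)
noncomputable def n1307 : Strat := .move 882 n1281 (.cons 799 n1288 (.cons 758 n1296 (.cons 923 n1306 .nil)))
noncomputable def n1308 : Strat := .move 759 n97 (.cons 718 n1307 .nil)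
noncomputable def n1309 : Strat := .win 758 6 758
noncomputable def n1310 : Strat := .win 796 0 796
noncomputable def n1311 : Strat := .move 797 n674 (.cons 842 n1310 .nil)
noncomputable def n1312 : Strat := .move 798 n1221 (.cons 757 n1311 .nil)
noncomputable def n1313 : Strat := .move 882 n1309 (.cons 758 n1312 .nil)
noncomputable def n1314 : Strat := .move 923 n928 (.cons 964 n1313 .nil)
noncomputable def n1315 : Strat := .move 799 n100 (.cons 759 n1314 .nil)
noncomputable def n1316 : Strat := .move 922 n99 (.cons 963 n1315 .nil)
noncomputable def n1317 : Strat := .win 799 3 758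
noncomputable def n1318 : Strat := .move 922 n99 (.cons 963 n1317 .nil)
noncomputable def n1319 : Strat := .move 759 n97 (.cons 718 n1318 .nil)
noncomputable def n1320 : Strat := .move 921 n1224 (.cons 880 n606 .nil)
noncomputable def n1321 : Strat := .move 758 n94 (.cons 717 n1320 .nil)
noncomputable def n1322 : Strat := .move 882 n1312 (.cons 796 n1321 .nil)
noncomputable def n1323 : Strat := .win 797 0 797
noncomputable def n1324 : Strat := .move 842 n1323 (.cons 797 n56 .nil)
noncomputable def n1325 : Strat := .move 798 n1221 (.cons 757 n1324 .nil)
noncomputable def n1326 : Strat := .win 883 5 879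
noncomputable def n1327 : Strat := .win 919 5 878
noncomputable def n1328 : Strat := .move 920 n1326 (.cons 883 n1327 .nil)
noncomputable def n1329 : Strat := .move 921 n606 (.cons 962 n1328 .nil)
noncomputable def n1330 : Strat := .move 882 n1309 (.cons 758 n1329 .nil)
noncomputable def n1331 : Strat := .move 923 n928 (.cons 964 n1330 .nil)
noncomputable def n1332 : Strat := .move 799 n1314 (.cons 923 n1322 (.cons 758 n1325 (.cons 797 n1331 .nil)))
noncomputable def n1333 : Strat := .move 922 n99 (.cons 963 n1332 .nil)
noncomputable def n1334 : Strat := .move 881 n1275 (.cons 922 n1308 (.cons 718 n1316 (.cons 882 n1319 (.cons 759 n1333 .nil))))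
noncomputable def n1335 : Strat := .win 799 1 676
noncomputable def n1336 : Strat := .win 719 3 677
noncomputable def n1337 : Strat := .win 637 3 636
noncomputable def n1338 : Strat := .move 678 n1336 (.cons 719 n1337 .nil)
noncomputable def n1339 : Strat := .move 677 n1335 (.cons 799 n1338 .nil)
noncomputable def n1340 : Strat := .move 882 n94 (.cons 717 n384 .nil)
noncomputable def n1341 : Strat := .move 798 n56 (.cons 843 n1323 .nil)
noncomputable def n1342 : Strat := .move 842 n1026 (.cons 883 n1341 .nil)
noncomputable def n1343 : Strat := .move 758 n756 (.cons 676 n1340 (.cons 717 n1342 .nil))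
noncomputable def n1344 : Strat := .move 798 n1323 (.cons 797 n56 .nil)
noncomputable def n1345 : Strat := .move 842 n1026 (.cons 883 n1344 .nil)
noncomputable def n1346 : Strat := .win 714 0 714
noncomputable def n1347 : Strat := .win 760 0 715
noncomputable def n1348 : Strat := .move 715 n1346 (.cons 714 n1347 .nil)
noncomputable def n1349 : Strat := .move 716 n922 (.cons 675 n1348 .nil)
noncomputable def n1350 : Strat := .move 758 n493 (.cons 882 n1349 .nil)
noncomputable def n1351 : Strat := .move 717 n375 (.cons 676 n1350 .nil)
noncomputable def n1352 : Strat := .move 799 n1343 (.cons 717 n1345 (.cons 842 n1351 .nil))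
noncomputable def n1353 : Strat := .move 882 n372 (.cons 760 n376 .nil)
noncomputable def n1354 : Strat := .move 717 n375 (.cons 676 n1353 .nil)
noncomputable def n1355 : Strat := .move 719 n371 (.cons 678 n1354 .nil)
noncomputable def n1356 : Strat := .move 718 n1339 (.cons 677 n1352 (.cons 799 n1355 .nil))
noncomputable def n1357 : Strat := .move 760 n285 (.cons 719 n1290 .nil)
noncomputable def n1358 : Strat := .move 923 n366 (.cons 799 n1357 .nil)
noncomputable def n1359 : Strat := .move 758 n367 (.cons 717 n1358 .nil)
noncomputable def n1360 : Strat := .move 923 n1290 (.cons 801 n533 .nil)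
noncomputable def n1361 : Strat := .move 760 n285 (.cons 719 n1360 .nil)
noncomputable def n1362 : Strat := .win 803 4 799
noncomputable def n1363 : Strat := .win 757 0 757
noncomputable def n1364 : Strat := .move 758 n1363 (.cons 757 n367 .nil)
noncomputable def n1365 : Strat := .move 802 n1362 (.cons 803 n1364 .nil)
noncomputable def n1366 : Strat := .move 801 n1282 (.cons 923 n1365 .nil)
noncomputable def n1367 : Strat := .move 760 n285 (.cons 719 n1366 .nil)
noncomputable def n1368 : Strat := .win 883 6 759
noncomputable def n1369 : Strat := .move 924 n1368 (.cons 883 n402 .nil)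
noncomputable def n1370 : Strat := .move 923 n1290 (.cons 801 n1369 .nil)
noncomputable def n1371 : Strat := .move 760 n285 (.cons 719 n1370 .nil)
noncomputable def n1372 : Strat := .win 762 4 758
noncomputable def n1373 : Strat := .win 798 4 757
noncomputable def n1374 : Strat := .move 799 n1372 (.cons 762 n1373 .nil)
noncomputable def n1375 : Strat := .win 799 4 758
noncomputable def n1376 : Strat := .win 804 0 759
noncomputable def n1377 : Strat := .win 802 0 758
noncomputable def n1378 : Strat := .move 803 n1376 (.cons 804 n1377 .nil)
noncomputable def n1379 : Strat := .move 762 n1375 (.cons 799 n1378 .nil)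
noncomputable def n1380 : Strat := .move 801 n1283 (.cons 802 n1284 .nil)
noncomputable def n1381 : Strat := .win 803 0 758
noncomputable def n1382 : Strat := .win 801 0 757
noncomputable def n1383 : Strat := .move 802 n1381 (.cons 803 n1382 .nil)
noncomputable def n1384 : Strat := .win 799 4 757
noncomputable def n1385 : Strat := .win 797 4 756
noncomputable def n1386 : Strat := .move 798 n1384 (.cons 799 n1385 .nil)
noncomputable def n1387 : Strat := .move 757 n1380 (.cons 756 n1383 (.cons 802 n1386 .nil))
noncomputable def n1388 : Strat := .win 722 5 718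
noncomputable def n1389 : Strat := .win 720 5 717
noncomputable def n1390 : Strat := .move 721 n1388 (.cons 722 n1389 .nil)
noncomputable def n1391 : Strat := .move 762 n1378 (.cons 802 n1390 .nil)
noncomputable def n1392 : Strat := .move 761 n1374 (.cons 798 n1379 (.cons 762 n1387 (.cons 799 n1391 .nil)))
noncomputable def n1393 : Strat := .move 760 n285 (.cons 719 n1392 .nil)
noncomputable def n1394 : Strat := .move 758 n367 (.cons 717 n1393 .nil)
noncomputable def n1395 : Strat := .move 923 n366 (.cons 799 n1369 .nil)
noncomputable def n1396 : Strat := .move 758 n367 (.cons 717 n1395 .nil)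
noncomputable def n1397 : Strat := .move 882 n1359 (.cons 717 n1361 (.cons 799 n1367 (.cons 758 n1371 (.cons 923 n1394 (.cons 719 n1396 .nil)))))
noncomputable def n1398 : Strat := .win 801 6 677
noncomputable def n1399 : Strat := .win 717 7 676
noncomputable def n1400 : Strat := .win 635 7 635
noncomputable def n1401 : Strat := .move 676 n1399 (.cons 717 n1400 .nil)
noncomputable def n1402 : Strat := .move 677 n1398 (.cons 801 n1401 .nil)
noncomputable def n1403 : Strat := .move 842 n1026 (.cons 883 n1402 .nil)
noncomputable def n1404 : Strat := .win 882 3 718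
noncomputable def n1405 : Strat := .win 677 6 677
noncomputable def n1406 : Strat := .move 801 n784 (.cons 679 n1405 .nil)
noncomputable def n1407 : Strat := .win 722 4 718
noncomputable def n1408 : Strat := .win 758 4 717
noncomputable def n1409 : Strat := .move 721 n1407 (.cons 722 n1408 .nil)
noncomputable def n1410 : Strat := .move 720 n1406 (.cons 677 n1409 .nil)
noncomputable def n1411 : Strat := .move 760 n1404 (.cons 882 n1410 .nil)
noncomputable def n1412 : Strat := .move 842 n1026 (.cons 883 n1411 .nil)
noncomputable def n1413 : Strat := .move 719 n371 (.cons 678 n1412 .nil)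
noncomputable def n1414 : Strat := .move 718 n1355 (.cons 719 n1403 (.cons 717 n1413 .nil))
noncomputable def n1415 : Strat := .move 677 n1335 (.cons 799 n1401 .nil)
noncomputable def n1416 : Strat := .win 882 7 717
noncomputable def n1417 : Strat := .win 721 4 717
noncomputable def n1418 : Strat := .win 757 4 716
noncomputable def n1419 : Strat := .move 720 n1417 (.cons 721 n1418 .nil)
noncomputable def n1420 : Strat := .move 719 n371 (.cons 678 n1419 .nil)
noncomputable def n1421 : Strat := .move 758 n1416 (.cons 882 n1420 .nil)
noncomputable def n1422 : Strat := .move 717 n375 (.cons 676 n1421 .nil)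
noncomputable def n1423 : Strat := .move 718 n1415 (.cons 677 n1422 (.cons 676 n1339 .nil))
noncomputable def n1424 : Strat := .win 842 6 718
noncomputable def n1425 : Strat := .move 883 n1424 (.cons 842 n1022 .nil)
noncomputable def n1426 : Strat := .move 882 n372 (.cons 760 n1425 .nil)
noncomputable def n1427 : Strat := .move 719 n371 (.cons 678 n1426 .nil)
noncomputable def n1428 : Strat := .move 842 n1026 (.cons 883 n1398 .nil)
noncomputable def n1429 : Strat := .move 677 n1335 (.cons 799 n1428 .nil)
noncomputable def n1430 : Strat := .move 718 n1339 (.cons 677 n1427 (.cons 719 n1429 .nil))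
noncomputable def n1431 : Strat := .move 799 n885 (.cons 677 n1345 .nil)
noncomputable def n1432 : Strat := .move 677 n1335 (.cons 799 n1398 .nil)
noncomputable def n1433 : Strat := .move 842 n1026 (.cons 883 n1432 .nil)
noncomputable def n1434 : Strat := .move 882 n376 (.cons 758 n1425 .nil)
noncomputable def n1435 : Strat := .move 717 n375 (.cons 676 n1434 .nil)
noncomputable def n1436 : Strat := .move 718 n1431 (.cons 843 n1433 (.cons 677 n1435 (.cons 842 n1415 .nil)))
noncomputable def n1437 : Strat := .move 717 n375 (.cons 676 n1339 .nil)
noncomputable def n1438 : Strat := .win 761 0 716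
noncomputable def n1439 : Strat := .win 715 0 715
noncomputable def n1440 : Strat := .move 760 n1438 (.cons 761 n1439 .nil)
noncomputable def n1441 : Strat := .win 720 4 716
noncomputable def n1442 : Strat := .win 756 4 715
noncomputable def n1443 : Strat := .move 757 n1441 (.cons 720 n1442 .nil)
noncomputable def n1444 : Strat := .win 799 7 675
noncomputable def n1445 : Strat := .win 674 2 674
noncomputable def n1446 : Strat := .move 675 n1444 (.cons 799 n1445 .nil)
noncomputable def n1447 : Strat := .move 758 n1443 (.cons 756 n1419 (.cons 720 n1446 .nil))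
noncomputable def n1448 : Strat := .move 716 n1440 (.cons 715 n1447 .nil)
noncomputable def n1449 : Strat := .move 719 n371 (.cons 678 n1448 .nil)
noncomputable def n1450 : Strat := .move 717 n375 (.cons 676 n1449 .nil)
noncomputable def n1451 : Strat := .move 677 n1398 (.cons 801 n1338 .nil)
noncomputable def n1452 : Strat := .move 842 n1026 (.cons 883 n1451 .nil)
noncomputable def n1453 : Strat := .move 718 n1437 (.cons 717 n1339 (.cons 719 n1415 (.cons 677 n1450 (.cons 799 n1452 .nil))))
noncomputable def n1454 : Strat := .move 759 n1356 (.cons 718 n1397 (.cons 799 n1414 (.cons 760 n1423 (.cons 717 n1430 (.cons 719 n1436 (.cons 882 n1453 .nil))))))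
noncomputable def n1455 : Strat := .move 882 n283 (.cons 922 n1288 .nil)
noncomputable def n1456 : Strat := .move 881 n97 (.cons 718 n1455 .nil)
noncomputable def n1457 : Strat := .move 718 n370 (.cons 881 n1413 .nil)
noncomputable def n1458 : Strat := .move 718 n370 (.cons 881 n1403 .nil)
noncomputable def n1459 : Strat := .move 719 n371 (.cons 678 n1353 .nil)
noncomputable def n1460 : Strat := .move 717 n375 (.cons 676 n1459 .nil)
noncomputable def n1461 : Strat := .move 718 n370 (.cons 881 n1460 .nil)
noncomputable def n1462 : Strat := .move 881 n283 (.cons 922 n1288 .nil)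
noncomputable def n1463 : Strat := .move 923 n402 (.cons 965 n1291 .nil)
noncomputable def n1464 : Strat := .move 924 n1368 (.cons 883 n1463 .nil)
noncomputable def n1465 : Strat := .move 881 n283 (.cons 922 n1464 .nil)
noncomputable def n1466 : Strat := .win 921 4 879
noncomputable def n1467 : Strat := .move 920 n128 (.cons 919 n1466 .nil)
noncomputable def n1468 : Strat := .move 879 n1298 (.cons 878 n1467 .nil)
noncomputable def n1469 : Strat := .win 842 4 839
noncomputable def n1470 : Strat := .win 844 5 840
noncomputable def n1471 : Strat := .move 884 n1470 (.cons 844 n1289 .nil)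
noncomputable def n1472 : Strat := .move 843 n1469 (.cons 842 n1471 .nil)
noncomputable def n1473 : Strat := .move 880 n1299 (.cons 878 n1301 (.cons 842 n1468 (.cons 879 n1472 .nil)))
noncomputable def n1474 : Strat := .move 883 n1022 (.cons 924 n1473 .nil)
noncomputable def n1475 : Strat := .move 881 n283 (.cons 922 n1474 .nil)
noncomputable def n1476 : Strat := .move 882 n1462 (.cons 881 n1367 (.cons 757 n1465 (.cons 719 n1475 .nil)))
noncomputable def n1477 : Strat := .move 759 n1456 (.cons 881 n1414 (.cons 717 n1457 (.cons 719 n1458 (.cons 801 n1461 (.cons 718 n1476 .nil)))))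
noncomputable def n1478 : Strat := .move 718 n370 (.cons 881 n885 .nil)
noncomputable def n1479 : Strat := .move 718 n885 (.cons 677 n1345 .nil)
noncomputable def n1480 : Strat := .move 881 n97 (.cons 718 n96 .nil)
noncomputable def n1481 : Strat := .move 797 n1310 (.cons 796 n674 .nil)
noncomputable def n1482 : Strat := .win 842 0 798
noncomputable def n1483 : Strat := .move 802 n753 (.cons 844 n1362 .nil)
noncomputable def n1484 : Strat := .move 843 n1482 (.cons 842 n1483 .nil)
noncomputable def n1485 : Strat := .win 758 7 716
noncomputable def n1486 : Strat := .move 716 n476 (.cons 675 n1485 .nil)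
noncomputable def n1487 : Strat := .move 757 n475 (.cons 756 n1486 .nil)
noncomputable def n1488 : Strat := .move 801 n1484 (.cons 843 n1487 .nil)
noncomputable def n1489 : Strat := .move 797 n1310 (.cons 796 n884 .nil)
noncomputable def n1490 : Strat := .move 798 n1481 (.cons 796 n1324 (.cons 797 n1488 (.cons 842 n1489 .nil)))
noncomputable def n1491 : Strat := .move 881 n96 (.cons 922 n1490 .nil)
noncomputable def n1492 : Strat := .move 759 n1478 (.cons 881 n1479 (.cons 677 n1480 (.cons 718 n1491 .nil)))
noncomputable def n1493 : Strat := .win 879 2 879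
noncomputable def n1494 : Strat := .win 925 2 880
noncomputable def n1495 : Strat := .move 924 n1493 (.cons 879 n1494 .nil)
noncomputable def n1496 : Strat := .move 880 n690 (.cons 758 n1495 .nil)
noncomputable def n1497 : Strat := .move 921 n606 (.cons 962 n1496 .nil)
noncomputable def n1498 : Strat := .move 923 n928 (.cons 964 n1497 .nil)
noncomputable def n1499 : Strat := .move 922 n99 (.cons 963 n1498 .nil)
noncomputable def n1500 : Strat := .move 756 n1277 (.cons 801 n1276 .nil)
noncomputable def n1501 : Strat := .move 757 n103 (.cons 716 n1500 .nil)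
noncomputable def n1502 : Strat := .move 759 n97 (.cons 718 n1501 .nil)
noncomputable def n1503 : Strat := .move 716 n923 (.cons 757 n922 .nil)
noncomputable def n1504 : Strat := .move 717 n755 (.cons 676 n1503 .nil)
noncomputable def n1505 : Strat := .win 759 1 717
noncomputable def n1506 : Strat := .move 717 n755 (.cons 676 n921 .nil)
noncomputable def n1507 : Strat := .move 718 n1505 (.cons 759 n1506 .nil)
noncomputable def n1508 : Strat := .move 758 n1502 (.cons 759 n1504 (.cons 716 n1507 .nil))
noncomputable def n1509 : Strat := .move 881 n977 (.cons 759 n1499 (.cons 922 n1508 .nil))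
noncomputable def n1510 : Strat := .win 801 2 756
noncomputable def n1511 : Strat := .win 879 3 715
noncomputable def n1512 : Strat := .move 838 n1511 (.cons 879 n245 .nil)
noncomputable def n1513 : Strat := .move 716 n476 (.cons 675 n1512 .nil)
noncomputable def n1514 : Strat := .move 757 n1510 (.cons 801 n1513 .nil)
noncomputable def n1515 : Strat := .move 756 n246 (.cons 755 n1514 .nil)
noncomputable def n1516 : Strat := .move 797 n1310 (.cons 796 n1515 .nil)
noncomputable def n1517 : Strat := .win 758 2 757
noncomputable def n1518 : Strat := .move 757 n1517 (.cons 758 n475 .nil)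
noncomputable def n1519 : Strat := .move 802 n1362 (.cons 803 n1518 .nil)
noncomputable def n1520 : Strat := .win 762 5 758
noncomputable def n1521 : Strat := .win 760 5 757
noncomputable def n1522 : Strat := .move 761 n1520 (.cons 762 n1521 .nil)
noncomputable def n1523 : Strat := .move 802 n1362 (.cons 803 n1522 .nil)
noncomputable def n1524 : Strat := .move 716 n1485 (.cons 758 n476 .nil)
noncomputable def n1525 : Strat := .move 881 n498 (.cons 922 n1524 .nil)
noncomputable def n1526 : Strat := .move 757 n475 (.cons 756 n1525 .nil)
noncomputable def n1527 : Strat := .move 801 n1519 (.cons 756 n1523 (.cons 802 n1526 .nil))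
noncomputable def n1528 : Strat := .move 842 n56 (.cons 843 n1527 .nil)
noncomputable def n1529 : Strat := .move 798 n1324 (.cons 842 n1516 (.cons 797 n1528 .nil))
noncomputable def n1530 : Strat := .move 759 n884 (.cons 760 n1480 .nil)
noncomputable def n1531 : Strat := .move 797 n1310 (.cons 796 n1530 .nil)
noncomputable def n1532 : Strat := .move 842 n434 (.cons 843 n1523 .nil)
noncomputable def n1533 : Strat := .move 757 n475 (.cons 756 n1522 .nil)
noncomputable def n1534 : Strat := .move 802 n1362 (.cons 803 n1533 .nil)
noncomputable def n1535 : Strat := .move 759 n885 (.cons 677 n370 .nil)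
noncomputable def n1536 : Strat := .move 759 n1026 (.cons 883 n885 .nil)
noncomputable def n1537 : Strat := .move 759 n1026 (.cons 883 n370 .nil)
noncomputable def n1538 : Strat := .move 719 n783 (.cons 677 n436 .nil)
noncomputable def n1539 : Strat := .move 718 n1535 (.cons 881 n1536 (.cons 677 n1537 (.cons 759 n1538 .nil)))
noncomputable def n1540 : Strat := .move 760 n435 (.cons 761 n1539 .nil)
noncomputable def n1541 : Strat := .move 842 n434 (.cons 843 n1540 .nil)
noncomputable def n1542 : Strat := .move 802 n1362 (.cons 803 n753 .nil)
noncomputable def n1543 : Strat := .move 843 n1482 (.cons 842 n1542 .nil)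
noncomputable def n1544 : Strat := .move 801 n1532 (.cons 842 n1534 (.cons 762 n1541 (.cons 760 n1543 .nil)))
noncomputable def n1545 : Strat := .move 798 n1481 (.cons 842 n1531 (.cons 796 n1324 (.cons 797 n1544 .nil)))
noncomputable def n1546 : Strat := .move 801 n1519 (.cons 758 n1523 (.cons 802 n1540 .nil))
noncomputable def n1547 : Strat := .move 842 n56 (.cons 843 n1546 .nil)
noncomputable def n1548 : Strat := .move 759 n884 (.cons 760 n1478 .nil)
noncomputable def n1549 : Strat := .move 797 n1310 (.cons 796 n1548 .nil)
noncomputable def n1550 : Strat := .move 798 n1481 (.cons 797 n1547 (.cons 842 n1549 .nil))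
noncomputable def n1551 : Strat := .move 843 n86 (.cons 798 n726 .nil)
noncomputable def n1552 : Strat := .move 759 n370 (.cons 881 n885 .nil)
noncomputable def n1553 : Strat := .move 759 n370 (.cons 881 n1026 .nil)
noncomputable def n1554 : Strat := .move 760 n435 (.cons 761 n1538 .nil)
noncomputable def n1555 : Strat := .move 717 n921 (.cons 677 n755 .nil)
noncomputable def n1556 : Strat := .move 802 n754 (.cons 757 n1362 .nil)
noncomputable def n1557 : Strat := .move 758 n1555 (.cons 676 n1556 .nil)
noncomputable def n1558 : Strat := .move 801 n1523 (.cons 802 n1554 (.cons 760 n1557 .nil))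
noncomputable def n1559 : Strat := .move 718 n1552 (.cons 677 n1553 (.cons 759 n1558 .nil))
noncomputable def n1560 : Strat := .move 798 n1323 (.cons 797 n1559 .nil)
noncomputable def n1561 : Strat := .move 843 n726 (.cons 844 n978 .nil)
noncomputable def n1562 : Strat := .move 842 n1551 (.cons 844 n1344 (.cons 843 n1560 (.cons 798 n1561 .nil)))
noncomputable def n1563 : Strat := .move 922 n99 (.cons 963 n1325 .nil)
noncomputable def n1564 : Strat := .move 717 n755 (.cons 676 n924 .nil)
noncomputable def n1565 : Strat := .move 759 n97 (.cons 718 n1564 .nil)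
noncomputable def n1566 : Strat := .move 798 n674 (.cons 842 n1310 .nil)
noncomputable def n1567 : Strat := .win 760 4 756
noncomputable def n1568 : Strat := .move 798 n1567 (.cons 760 n674 .nil)
noncomputable def n1569 : Strat := .move 798 n1567 (.cons 760 n1310 .nil)
noncomputable def n1570 : Strat := .win 796 4 755
noncomputable def n1571 : Strat := .move 756 n1570 (.cons 796 n1276 .nil)
noncomputable def n1572 : Strat := .move 797 n1566 (.cons 796 n1568 (.cons 842 n1569 (.cons 798 n1571 .nil)))
noncomputable def n1573 : Strat := .move 757 n103 (.cons 716 n1572 .nil)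
noncomputable def n1574 : Strat := .move 759 n97 (.cons 718 n1573 .nil)
noncomputable def n1575 : Strat := .move 880 n939 (.cons 921 n924 .nil)
noncomputable def n1576 : Strat := .move 717 n755 (.cons 676 n1575 .nil)
noncomputable def n1577 : Strat := .move 758 n1565 (.cons 675 n1574 (.cons 759 n1576 (.cons 716 n1507 .nil)))
noncomputable def n1578 : Strat := .move 881 n101 (.cons 759 n1563 (.cons 963 n977 (.cons 922 n1577 .nil)))
noncomputable def n1579 : Strat := .move 798 n1482 (.cons 842 n1518 .nil)
noncomputable def n1580 : Strat := .move 843 n753 (.cons 844 n1579 .nil)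
noncomputable def n1581 : Strat := .move 802 n1362 (.cons 803 n1580 .nil)
noncomputable def n1582 : Strat := .move 798 n1311 (.cons 796 n1522 .nil)
noncomputable def n1583 : Strat := .move 717 n755 (.cons 676 n1582 .nil)
noncomputable def n1584 : Strat := .move 758 n754 (.cons 757 n1583 .nil)
noncomputable def n1585 : Strat := .win 926 6 761
noncomputable def n1586 : Strat := .win 842 0 840
noncomputable def n1587 : Strat := .move 885 n1585 (.cons 926 n1586 .nil)
noncomputable def n1588 : Strat := .move 760 n1105 (.cons 719 n68 .nil)
noncomputable def n1589 : Strat := .move 884 n1587 (.cons 842 n1588 .nil)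
noncomputable def n1590 : Strat := .move 761 n1520 (.cons 762 n1589 .nil)
noncomputable def n1591 : Strat := .move 843 n753 (.cons 844 n1590 .nil)
noncomputable def n1592 : Strat := .move 798 n1521 (.cons 760 n1518 .nil)
noncomputable def n1593 : Strat := .move 761 n1520 (.cons 762 n1592 .nil)
noncomputable def n1594 : Strat := .move 802 n1580 (.cons 843 n1584 (.cons 798 n1591 (.cons 842 n1593 .nil)))
noncomputable def n1595 : Strat := .move 802 n1362 (.cons 803 n1591 .nil)
noncomputable def n1596 : Strat := .move 802 n1362 (.cons 803 n1593 .nil)
noncomputable def n1597 : Strat := .move 798 n1323 (.cons 797 n434 .nil)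
noncomputable def n1598 : Strat := .move 924 n139 (.cons 759 n138 .nil)
noncomputable def n1599 : Strat := .win 884 6 760
noncomputable def n1600 : Strat := .move 760 n1599 (.cons 884 n435 .nil)
noncomputable def n1601 : Strat := .move 924 n153 (.cons 966 n138 .nil)
noncomputable def n1602 : Strat := .move 925 n1600 (.cons 761 n1601 .nil)
noncomputable def n1603 : Strat := .move 798 n1323 (.cons 797 n1602 .nil)
noncomputable def n1604 : Strat := .win 759 6 718
noncomputable def n1605 : Strat := .move 798 n435 (.cons 761 n1323 .nil)
noncomputable def n1606 : Strat := .win 798 5 757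
noncomputable def n1607 : Strat := .move 761 n178 (.cons 720 n1606 .nil)
noncomputable def n1608 : Strat := .move 760 n1605 (.cons 797 n1607 (.cons 761 n1538 .nil))
noncomputable def n1609 : Strat := .move 718 n1604 (.cons 759 n1608 .nil)
noncomputable def n1610 : Strat := .move 883 n424 (.cons 718 n1598 (.cons 759 n1603 (.cons 924 n1609 .nil)))
noncomputable def n1611 : Strat := .win 883 6 760
noncomputable def n1612 : Strat := .win 966 7 801
noncomputable def n1613 : Strat := .move 925 n1611 (.cons 883 n1612 .nil)
noncomputable def n1614 : Strat := .move 760 n67 (.cons 719 n1613 .nil)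
noncomputable def n1615 : Strat := .move 884 n66 (.cons 885 n1614 .nil)
noncomputable def n1616 : Strat := .move 843 n726 (.cons 844 n1615 .nil)
noncomputable def n1617 : Strat := .move 842 n1597 (.cons 843 n1610 (.cons 798 n1616 .nil))
noncomputable def n1618 : Strat := .move 801 n1581 (.cons 803 n1594 (.cons 798 n1595 (.cons 842 n1596 (.cons 802 n1617 .nil))))
noncomputable def n1619 : Strat := .move 718 n1026 (.cons 883 n885 .nil)
noncomputable def n1620 : Strat := .move 881 n96 (.cons 922 n97 .nil)
noncomputable def n1621 : Strat := .move 802 n1520 (.cons 762 n1362 .nil)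
noncomputable def n1622 : Strat := .move 761 n1521 (.cons 760 n1621 .nil)
noncomputable def n1623 : Strat := .move 759 n886 (.cons 881 n1619 (.cons 677 n1620 (.cons 718 n1622 .nil)))
noncomputable def n1624 : Strat := .move 842 n434 (.cons 843 n1623 .nil)
noncomputable def n1625 : Strat := .move 761 n1521 (.cons 760 n1520 .nil)
noncomputable def n1626 : Strat := .move 802 n1362 (.cons 803 n1625 .nil)
noncomputable def n1627 : Strat := .move 801 n1624 (.cons 718 n1532 (.cons 762 n1541 (.cons 842 n1626 (.cons 761 n1543 .nil))))
noncomputable def n1628 : Strat := .move 798 n1481 (.cons 796 n1324 (.cons 842 n1549 (.cons 797 n1627 .nil)))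
noncomputable def n1629 : Strat := .move 799 n1492 (.cons 798 n1509 (.cons 759 n1529 (.cons 758 n1545 (.cons 922 n1550 (.cons 756 n1562 (.cons 801 n1578 (.cons 881 n1618 (.cons 757 n1628 .nil))))))))
noncomputable def n1630 : Strat := .move 718 n370 (.cons 881 n1339 .nil)
noncomputable def n1631 : Strat := .win 715 2 715
noncomputable def n1632 : Strat := .win 799 7 716
noncomputable def n1633 : Strat := .move 716 n1631 (.cons 715 n1632 .nil)
noncomputable def n1634 : Strat := .move 757 n1380 (.cons 756 n1633 .nil)
noncomputable def n1635 : Strat := .move 760 n285 (.cons 719 n1634 .nil)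
noncomputable def n1636 : Strat := .move 758 n367 (.cons 717 n1635 .nil)
noncomputable def n1637 : Strat := .move 881 n283 (.cons 922 n1636 .nil)
noncomputable def n1638 : Strat := .move 761 n1372 (.cons 762 n1373 .nil)
noncomputable def n1639 : Strat := .move 760 n285 (.cons 719 n1638 .nil)
noncomputable def n1640 : Strat := .move 799 n93 (.cons 923 n1639 .nil)
noncomputable def n1641 : Strat := .move 758 n367 (.cons 717 n1640 .nil)
noncomputable def n1642 : Strat := .move 881 n283 (.cons 922 n1641 .nil)
noncomputable def n1643 : Strat := .move 922 n364 (.cons 881 n363 .nil)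
noncomputable def n1644 : Strat := .move 923 n366 (.cons 799 n1643 .nil)
noncomputable def n1645 : Strat := .move 758 n367 (.cons 717 n1644 .nil)
noncomputable def n1646 : Strat := .move 923 n363 (.cons 963 n1369 .nil)
noncomputable def n1647 : Strat := .move 922 n364 (.cons 881 n1646 .nil)
noncomputable def n1648 : Strat := .move 882 n1359 (.cons 923 n1637 (.cons 801 n1642 (.cons 719 n1645 (.cons 758 n1647 .nil))))
noncomputable def n1649 : Strat := .move 881 n97 (.cons 718 n1274 .nil)
noncomputable def n1650 : Strat := .move 718 n375 (.cons 676 n373 .nil)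
noncomputable def n1651 : Strat := .move 717 n376 (.cons 758 n1650 .nil)
noncomputable def n1652 : Strat := .move 882 n1359 (.cons 758 n1371 (.cons 760 n1396 (.cons 923 n1651 .nil)))
noncomputable def n1653 : Strat := .move 759 n1630 (.cons 718 n1648 (.cons 719 n1649 (.cons 881 n1652 .nil)))
noncomputable def n1654 : Strat := .move 758 n927 (.cons 882 n1320 .nil)
noncomputable def n1655 : Strat := .move 923 n928 (.cons 964 n1654 .nil)
noncomputable def n1656 : Strat := .move 799 n1655 (.cons 923 n1325 .nil)
noncomputable def n1657 : Strat := .move 922 n99 (.cons 963 n1656 .nil)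
noncomputable def n1658 : Strat := .move 882 n283 (.cons 922 n1641 .nil)
noncomputable def n1659 : Strat := .move 759 n97 (.cons 718 n1658 .nil)
noncomputable def n1660 : Strat := .move 758 n94 (.cons 717 n93 .nil)
noncomputable def n1661 : Strat := .move 924 n402 (.cons 965 n1368 .nil)
noncomputable def n1662 : Strat := .move 923 n391 (.cons 964 n1661 .nil)
noncomputable def n1663 : Strat := .move 761 n1373 (.cons 798 n1372 .nil)
noncomputable def n1664 : Strat := .move 760 n285 (.cons 719 n1663 .nil)
noncomputable def n1665 : Strat := .move 758 n94 (.cons 717 n1664 .nil)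
noncomputable def n1666 : Strat := .move 799 n1660 (.cons 758 n1662 (.cons 923 n1665 .nil))
noncomputable def n1667 : Strat := .move 882 n1666 (.cons 883 n1641 (.cons 799 n1474 .nil))
noncomputable def n1668 : Strat := .move 759 n97 (.cons 718 n1667 .nil)
noncomputable def n1669 : Strat := .move 881 n1275 (.cons 759 n1657 (.cons 882 n1319 (.cons 963 n1659 (.cons 922 n1668 .nil))))
noncomputable def n1670 : Strat := .move 759 n283 (.cons 922 n1279 .nil)
noncomputable def n1671 : Strat := .move 880 n939 (.cons 921 n1299 .nil)
noncomputable def n1672 : Strat := .move 881 n1670 (.cons 759 n1671 .nil)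
noncomputable def n1673 : Strat := .move 758 n94 (.cons 717 n1672 .nil)
noncomputable def n1674 : Strat := .move 881 n355 (.cons 759 n1312 .nil)
noncomputable def n1675 : Strat := .move 922 n363 (.cons 963 n1674 .nil)
noncomputable def n1676 : Strat := .move 923 n391 (.cons 964 n1675 .nil)
noncomputable def n1677 : Strat := .move 799 n1003 (.cons 964 n385 (.cons 923 n1673 (.cons 758 n1676 .nil)))
noncomputable def n1678 : Strat := .move 881 n283 (.cons 922 n1306 .nil)
noncomputable def n1679 : Strat := .move 759 n1678 (.cons 881 n1394 (.cons 717 n1475 .nil))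
noncomputable def n1680 : Strat := .move 759 n1359 (.cons 717 n1361 (.cons 799 n1367 (.cons 758 n1371 (.cons 923 n1394 (.cons 719 n1396 .nil)))))
noncomputable def n1681 : Strat := .move 799 n391 (.cons 964 n1675 .nil)
noncomputable def n1682 : Strat := .move 963 n396 (.cons 922 n395 .nil)
noncomputable def n1683 : Strat := .move 964 n394 (.cons 799 n1682 .nil)
noncomputable def n1684 : Strat := .win 879 0 879
noncomputable def n1685 : Strat := .move 880 n1494 (.cons 925 n1684 .nil)
noncomputable def n1686 : Strat := .move 924 n402 (.cons 965 n1685 .nil)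
noncomputable def n1687 : Strat := .move 881 n355 (.cons 759 n1686 .nil)
noncomputable def n1688 : Strat := .move 922 n363 (.cons 963 n1687 .nil)
noncomputable def n1689 : Strat := .win 760 3 759
noncomputable def n1690 : Strat := .win 842 3 800
noncomputable def n1691 : Strat := .move 801 n1689 (.cons 760 n1690 .nil)
noncomputable def n1692 : Strat := .move 964 n394 (.cons 799 n1691 .nil)
noncomputable def n1693 : Strat := .move 923 n1681 (.cons 759 n1683 (.cons 799 n1688 (.cons 922 n1692 .nil)))
noncomputable def n1694 : Strat := .move 801 n1690 (.cons 842 n1689 .nil)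
noncomputable def n1695 : Strat := .move 964 n1292 (.cons 1005 n1694 .nil)
noncomputable def n1696 : Strat := .move 881 n355 (.cons 759 n1695 .nil)
noncomputable def n1697 : Strat := .move 922 n363 (.cons 963 n1696 .nil)
noncomputable def n1698 : Strat := .move 965 n812 (.cons 924 n811 .nil)
noncomputable def n1699 : Strat := .move 964 n1690 (.cons 842 n1698 .nil)
noncomputable def n1700 : Strat := .move 801 n1689 (.cons 760 n1699 .nil)
noncomputable def n1701 : Strat := .move 923 n1688 (.cons 925 n1697 (.cons 922 n1700 .nil))
noncomputable def n1702 : Strat := .move 842 n434 (.cons 843 n1323 .nil)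
noncomputable def n1703 : Strat := .win 881 7 757
noncomputable def n1704 : Strat := .move 757 n475 (.cons 756 n1703 .nil)
noncomputable def n1705 : Strat := .move 798 n1311 (.cons 796 n1702 (.cons 842 n1704 .nil))
noncomputable def n1706 : Strat := .move 801 n1689 (.cons 760 n1705 .nil)
noncomputable def n1707 : Strat := .move 922 n363 (.cons 963 n1706 .nil)
noncomputable def n1708 : Strat := .move 799 n392 (.cons 758 n1707 .nil)
noncomputable def n1709 : Strat := .move 964 n1690 (.cons 842 n1682 .nil)
noncomputable def n1710 : Strat := .move 801 n1689 (.cons 760 n1709 .nil)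
noncomputable def n1711 : Strat := .move 923 n533 (.cons 964 n1708 (.cons 758 n1683 (.cons 799 n1710 .nil)))
noncomputable def n1712 : Strat := .win 799 6 799
noncomputable def n1713 : Strat := .move 964 n1712 (.cons 799 n1292 .nil)
noncomputable def n1714 : Strat := .move 881 n355 (.cons 759 n1713 .nil)
noncomputable def n1715 : Strat := .move 922 n363 (.cons 963 n1714 .nil)
noncomputable def n1716 : Strat := .move 923 n533 (.cons 758 n1715 (.cons 799 n1688 .nil))
noncomputable def n1717 : Strat := .move 882 n1677 (.cons 923 n1679 (.cons 881 n1680 (.cons 758 n1693 (.cons 799 n1701 (.cons 759 n1711 (.cons 801 n1716 .nil))))))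
noncomputable def n1718 : Strat := .move 799 n885 (.cons 677 n1342 .nil)
noncomputable def n1719 : Strat := .move 717 n375 (.cons 676 n1718 .nil)
noncomputable def n1720 : Strat := .move 718 n370 (.cons 881 n1719 .nil)
noncomputable def n1721 : Strat := .move 716 n1438 (.cons 761 n1439 .nil)
noncomputable def n1722 : Strat := .move 717 n375 (.cons 676 n1721 .nil)
noncomputable def n1723 : Strat := .move 760 n1404 (.cons 882 n1722 .nil)
noncomputable def n1724 : Strat := .move 719 n371 (.cons 678 n1723 .nil)
noncomputable def n1725 : Strat := .move 718 n1719 (.cons 842 n1339 (.cons 677 n1724 .nil))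
noncomputable def n1726 : Strat := .move 881 n283 (.cons 922 n1296 .nil)
noncomputable def n1727 : Strat := .move 923 n1290 (.cons 801 n1293 .nil)
noncomputable def n1728 : Strat := .move 760 n285 (.cons 719 n1727 .nil)
noncomputable def n1729 : Strat := .move 881 n283 (.cons 922 n1728 .nil)
noncomputable def n1730 : Strat := .move 923 n402 (.cons 965 n1293 .nil)
noncomputable def n1731 : Strat := .move 924 n1368 (.cons 883 n1730 .nil)
noncomputable def n1732 : Strat := .move 881 n283 (.cons 922 n1731 .nil)
noncomputable def n1733 : Strat := .move 882 n1726 (.cons 881 n1371 (.cons 883 n1729 (.cons 801 n1732 (.cons 923 n1475 .nil))))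
noncomputable def n1734 : Strat := .move 759 n1720 (.cons 881 n1725 (.cons 677 n1649 (.cons 718 n1733 .nil)))
noncomputable def n1735 : Strat := .move 882 n283 (.cons 922 n1306 .nil)
noncomputable def n1736 : Strat := .move 759 n97 (.cons 718 n1735 .nil)
noncomputable def n1737 : Strat := .move 882 n283 (.cons 922 n1636 .nil)
noncomputable def n1738 : Strat := .move 759 n97 (.cons 718 n1737 .nil)
noncomputable def n1739 : Strat := .move 882 n1306 (.cons 842 n1636 (.cons 717 n1474 .nil))
noncomputable def n1740 : Strat := .move 759 n97 (.cons 718 n1739 .nil)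
noncomputable def n1741 : Strat := .move 759 n1079 (.cons 882 n1317 .nil)
noncomputable def n1742 : Strat := .move 922 n99 (.cons 963 n1741 .nil)
noncomputable def n1743 : Strat := .move 717 n493 (.cons 882 n755 .nil)
noncomputable def n1744 : Strat := .move 758 n1224 (.cons 880 n1743 .nil)
noncomputable def n1745 : Strat := .move 921 n606 (.cons 962 n1744 .nil)
noncomputable def n1746 : Strat := .move 799 n1322 (.cons 798 n1745 (.cons 758 n1325 .nil))
noncomputable def n1747 : Strat := .move 922 n99 (.cons 963 n1746 .nil)
noncomputable def n1748 : Strat := .move 881 n1736 (.cons 842 n1738 (.cons 922 n1740 (.cons 718 n1742 (.cons 799 n1275 (.cons 882 n1319 (.cons 759 n1747 .nil))))))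
noncomputable def n1749 : Strat := .move 759 n97 (.cons 718 n1079 .nil)
noncomputable def n1750 : Strat := .move 922 n99 (.cons 963 n1749 .nil)
noncomputable def n1751 : Strat := .move 923 n1309 (.cons 758 n391 .nil)
noncomputable def n1752 : Strat := .move 923 n391 (.cons 964 n1291 .nil)
noncomputable def n1753 : Strat := .win 797 5 756
noncomputable def n1754 : Strat := .win 758 4 757
noncomputable def n1755 : Strat := .move 761 n1754 (.cons 758 n1372 .nil)
noncomputable def n1756 : Strat := .move 798 n1753 (.cons 797 n1755 .nil)
noncomputable def n1757 : Strat := .move 760 n285 (.cons 719 n1756 .nil)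
noncomputable def n1758 : Strat := .move 799 n1751 (.cons 758 n1752 (.cons 923 n1757 .nil))
noncomputable def n1759 : Strat := .move 882 n1758 (.cons 923 n1474 .nil)
noncomputable def n1760 : Strat := .move 759 n97 (.cons 718 n1759 .nil)
noncomputable def n1761 : Strat := .move 799 n1314 (.cons 758 n1325 (.cons 757 n1331 .nil))
noncomputable def n1762 : Strat := .move 922 n99 (.cons 963 n1761 .nil)
noncomputable def n1763 : Strat := .move 799 n100 (.cons 759 n1325 .nil)
noncomputable def n1764 : Strat := .move 922 n99 (.cons 963 n1763 .nil)
noncomputable def n1765 : Strat := .move 881 n1750 (.cons 922 n1760 (.cons 718 n1316 (.cons 759 n1762 (.cons 882 n1764 .nil))))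
noncomputable def n1766 : Strat := .move 922 n1079 (.cons 882 n1317 .nil)
noncomputable def n1767 : Strat := .move 759 n97 (.cons 718 n1766 .nil)
noncomputable def n1768 : Strat := .move 882 n1281 (.cons 799 n1288 (.cons 923 n1636 (.cons 758 n1728 (.cons 801 n1641 .nil))))
noncomputable def n1769 : Strat := .move 759 n97 (.cons 718 n1768 .nil)
noncomputable def n1770 : Strat := .move 799 n1655 (.cons 882 n1325 .nil)
noncomputable def n1771 : Strat := .move 922 n99 (.cons 963 n1770 .nil)
noncomputable def n1772 : Strat := .move 881 n1750 (.cons 718 n1742 (.cons 963 n1767 (.cons 882 n1764 (.cons 922 n1769 (.cons 759 n1771 .nil)))))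
noncomputable def n1773 : Strat := .move 882 n283 (.cons 922 n1281 .nil)
noncomputable def n1774 : Strat := .move 759 n97 (.cons 718 n1773 .nil)
noncomputable def n1775 : Strat := .move 799 n1314 (.cons 882 n1325 (.cons 842 n1655 .nil))
noncomputable def n1776 : Strat := .move 922 n99 (.cons 963 n1775 .nil)
noncomputable def n1777 : Strat := .move 799 n93 (.cons 923 n1671 .nil)
noncomputable def n1778 : Strat := .move 758 n367 (.cons 717 n1777 .nil)
noncomputable def n1779 : Strat := .move 799 n1309 (.cons 758 n391 .nil)
noncomputable def n1780 : Strat := .move 964 n394 (.cons 799 n1292 .nil)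
noncomputable def n1781 : Strat := .move 923 n1779 (.cons 758 n1780 (.cons 799 n1369 .nil))
noncomputable def n1782 : Strat := .move 882 n1281 (.cons 756 n1778 (.cons 717 n1781 (.cons 923 n1306 (.cons 799 n1474 .nil))))
noncomputable def n1783 : Strat := .move 759 n97 (.cons 718 n1782 .nil)
noncomputable def n1784 : Strat := .move 881 n1750 (.cons 882 n1764 (.cons 963 n1774 (.cons 759 n1776 (.cons 922 n1783 .nil))))
noncomputable def n1785 : Strat := .move 758 n755 (.cons 676 n493 .nil)
noncomputable def n1786 : Strat := .win 881 7 716
noncomputable def n1787 : Strat := .win 798 2 756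
noncomputable def n1788 : Strat := .win 802 2 757
noncomputable def n1789 : Strat := .move 801 n1787 (.cons 798 n1788 .nil)
noncomputable def n1790 : Strat := .move 756 n1276 (.cons 755 n1789 .nil)
noncomputable def n1791 : Strat := .move 757 n1786 (.cons 881 n1790 .nil)
noncomputable def n1792 : Strat := .move 716 n922 (.cons 675 n1791 .nil)
noncomputable def n1793 : Strat := .move 758 n755 (.cons 676 n1792 .nil)
noncomputable def n1794 : Strat := .move 758 n493 (.cons 882 n1792 .nil)
noncomputable def n1795 : Strat := .move 719 n437 (.cons 882 n436 .nil)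
noncomputable def n1796 : Strat := .move 760 n435 (.cons 761 n1795 .nil)
noncomputable def n1797 : Strat := .move 842 n434 (.cons 843 n1796 .nil)
noncomputable def n1798 : Strat := .win 842 1 718
noncomputable def n1799 : Strat := .move 719 n1798 (.cons 842 n436 .nil)
noncomputable def n1800 : Strat := .move 882 n1282 (.cons 923 n1799 .nil)
noncomputable def n1801 : Strat := .move 760 n435 (.cons 761 n1800 .nil)
noncomputable def n1802 : Strat := .move 801 n1797 (.cons 882 n1484 (.cons 843 n1801 (.cons 842 n1523 .nil)))
noncomputable def n1803 : Strat := .win 757 2 756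
noncomputable def n1804 : Strat := .move 756 n1803 (.cons 757 n246 .nil)
noncomputable def n1805 : Strat := .move 797 n1310 (.cons 796 n1804 .nil)
noncomputable def n1806 : Strat := .move 801 n1805 (.cons 797 n1523 .nil)
noncomputable def n1807 : Strat := .move 798 n1324 (.cons 797 n1802 (.cons 843 n1481 (.cons 842 n1806 .nil)))
noncomputable def n1808 : Strat := .move 717 n1785 (.cons 882 n1793 (.cons 676 n1794 (.cons 758 n1807 .nil)))
noncomputable def n1809 : Strat := .move 879 n825 (.cons 716 n202 .nil)
noncomputable def n1810 : Strat := .move 757 n1510 (.cons 801 n1809 .nil)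
noncomputable def n1811 : Strat := .move 756 n246 (.cons 755 n1810 .nil)
noncomputable def n1812 : Strat := .move 838 n245 (.cons 837 n1811 .nil)
noncomputable def n1813 : Strat := .move 797 n1310 (.cons 796 n1812 .nil)
noncomputable def n1814 : Strat := .move 882 n147 (.cons 719 n1282 .nil)
noncomputable def n1815 : Strat := .move 760 n435 (.cons 761 n1814 .nil)
noncomputable def n1816 : Strat := .move 842 n434 (.cons 843 n1815 .nil)
noncomputable def n1817 : Strat := .move 757 n475 (.cons 756 n1523 .nil)
noncomputable def n1818 : Strat := .move 842 n434 (.cons 843 n1817 .nil)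
noncomputable def n1819 : Strat := .move 801 n1797 (.cons 678 n1816 (.cons 719 n1818 (.cons 842 n1626 (.cons 760 n1543 .nil))))
noncomputable def n1820 : Strat := .move 798 n1324 (.cons 842 n1813 (.cons 797 n1819 .nil))
noncomputable def n1821 : Strat := .move 719 n1442 (.cons 756 n1441 .nil)
noncomputable def n1822 : Strat := .move 757 n1786 (.cons 881 n1821 .nil)
noncomputable def n1823 : Strat := .move 716 n922 (.cons 675 n1822 .nil)
noncomputable def n1824 : Strat := .move 718 n921 (.cons 677 n1823 .nil)
noncomputable def n1825 : Strat := .move 717 n755 (.cons 676 n1824 .nil)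
noncomputable def n1826 : Strat := .move 882 n93 (.cons 923 n1671 .nil)
noncomputable def n1827 : Strat := .move 880 n939 (.cons 921 n1301 .nil)
noncomputable def n1828 : Strat := .move 882 n93 (.cons 923 n1827 .nil)
noncomputable def n1829 : Strat := .move 921 n606 (.cons 962 n1224 .nil)
noncomputable def n1830 : Strat := .move 922 n99 (.cons 963 n1829 .nil)
noncomputable def n1831 : Strat := .move 757 n103 (.cons 716 n1830 .nil)
noncomputable def n1832 : Strat := .move 882 n93 (.cons 923 n1831 .nil)
noncomputable def n1833 : Strat := .move 922 n99 (.cons 963 n1320 .nil)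
noncomputable def n1834 : Strat := .move 922 n99 (.cons 963 n928 .nil)
noncomputable def n1835 : Strat := .move 923 n927 (.cons 882 n1834 .nil)
noncomputable def n1836 : Strat := .move 881 n1826 (.cons 878 n1828 (.cons 879 n1832 (.cons 882 n1833 (.cons 880 n1835 .nil))))
noncomputable def n1837 : Strat := .move 758 n1340 (.cons 882 n1825 (.cons 717 n1836 .nil))
noncomputable def n1838 : Strat := .move 717 n755 (.cons 676 n1792 .nil)
noncomputable def n1839 : Strat := .move 756 n1787 (.cons 798 n1276 .nil)
noncomputable def n1840 : Strat := .move 801 n1788 (.cons 802 n1839 .nil)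
noncomputable def n1841 : Strat := .move 757 n103 (.cons 716 n1840 .nil)
noncomputable def n1842 : Strat := .move 881 n1830 (.cons 922 n1841 .nil)
noncomputable def n1843 : Strat := .move 882 n384 (.cons 923 n1842 .nil)
noncomputable def n1844 : Strat := .move 758 n1340 (.cons 882 n1838 (.cons 717 n1843 .nil))
noncomputable def n1845 : Strat := .move 923 n391 (.cons 964 n1707 .nil)
noncomputable def n1846 : Strat := .move 757 n475 (.cons 756 n1788 .nil)
noncomputable def n1847 : Strat := .move 760 n147 (.cons 719 n435 .nil)
noncomputable def n1848 : Strat := .move 801 n1556 (.cons 803 n1846 (.cons 757 n1847 .nil))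
noncomputable def n1849 : Strat := .move 842 n1323 (.cons 797 n1848 .nil)
noncomputable def n1850 : Strat := .move 797 n246 (.cons 755 n1310 .nil)
noncomputable def n1851 : Strat := .move 756 n1803 (.cons 757 n1850 .nil)
noncomputable def n1852 : Strat := .move 801 n1556 (.cons 803 n1846 (.cons 757 n1523 (.cons 802 n1851 .nil)))
noncomputable def n1853 : Strat := .move 842 n56 (.cons 843 n1848 .nil)
noncomputable def n1854 : Strat := .move 798 n1324 (.cons 843 n1849 (.cons 842 n1852 (.cons 797 n1853 .nil)))
noncomputable def n1855 : Strat := .move 758 n94 (.cons 717 n1854 .nil)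
noncomputable def n1856 : Strat := .move 882 n1003 (.cons 964 n385 (.cons 758 n1845 (.cons 923 n1855 .nil)))
noncomputable def n1857 : Strat := .move 757 n103 (.cons 716 n102 .nil)
noncomputable def n1858 : Strat := .move 758 n1743 (.cons 676 n95 (.cons 882 n1857 .nil))
noncomputable def n1859 : Strat := .move 881 n73 (.cons 880 n1858 .nil)
noncomputable def n1860 : Strat := .move 802 n64 (.cons 803 n1859 .nil)
noncomputable def n1861 : Strat := .move 843 n726 (.cons 844 n1860 .nil)
noncomputable def n1862 : Strat := .move 922 n1221 (.cons 757 n99 .nil)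
noncomputable def n1863 : Strat := .move 757 n103 (.cons 716 n498 .nil)
noncomputable def n1864 : Strat := .move 880 n1300 (.cons 879 n939 .nil)
noncomputable def n1865 : Strat := .move 881 n1862 (.cons 963 n1863 (.cons 757 n1864 .nil))
noncomputable def n1866 : Strat := .move 882 n94 (.cons 717 n1865 .nil)
noncomputable def n1867 : Strat := .move 717 n922 (.cons 675 n755 .nil)
noncomputable def n1868 : Strat := .move 716 n923 (.cons 757 n1867 .nil)
noncomputable def n1869 : Strat := .move 881 n1862 (.cons 963 n1863 (.cons 757 n1830 (.cons 922 n1868 .nil)))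
noncomputable def n1870 : Strat := .move 882 n384 (.cons 923 n1865 .nil)
noncomputable def n1871 : Strat := .move 758 n1340 (.cons 923 n1866 (.cons 882 n1869 (.cons 717 n1870 .nil)))
noncomputable def n1872 : Strat := .move 798 n1323 (.cons 797 n1871 .nil)
noncomputable def n1873 : Strat := .move 842 n1551 (.cons 844 n1344 (.cons 798 n1861 (.cons 843 n1872 .nil)))
noncomputable def n1874 : Strat := .win 679 1 678
noncomputable def n1875 : Strat := .move 720 n1108 (.cons 883 n1874 .nil)
noncomputable def n1876 : Strat := .move 761 n1520 (.cons 762 n1875 .nil)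
noncomputable def n1877 : Strat := .move 842 n727 (.cons 798 n1876 .nil)
noncomputable def n1878 : Strat := .move 843 n753 (.cons 844 n1877 .nil)
noncomputable def n1879 : Strat := .move 802 n1362 (.cons 803 n1878 .nil)
noncomputable def n1880 : Strat := .win 884 7 719
noncomputable def n1881 : Strat := .move 843 n1880 (.cons 884 n753 .nil)
noncomputable def n1882 : Strat := .move 719 n436 (.cons 678 n1881 .nil)
noncomputable def n1883 : Strat := .move 760 n1606 (.cons 798 n1882 .nil)
noncomputable def n1884 : Strat := .move 761 n1520 (.cons 762 n1883 .nil)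
noncomputable def n1885 : Strat := .move 802 n1362 (.cons 803 n1884 .nil)
noncomputable def n1886 : Strat := .move 760 n1606 (.cons 798 n1800 .nil)
noncomputable def n1887 : Strat := .move 761 n1520 (.cons 762 n1886 .nil)
noncomputable def n1888 : Strat := .move 842 n727 (.cons 798 n70 .nil)
noncomputable def n1889 : Strat := .move 843 n753 (.cons 844 n1888 .nil)
noncomputable def n1890 : Strat := .move 802 n1878 (.cons 843 n1887 (.cons 761 n1889 (.cons 842 n1884 (.cons 798 n1591 .nil))))
noncomputable def n1891 : Strat := .move 802 n1362 (.cons 803 n1889 .nil)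
noncomputable def n1892 : Strat := .move 798 n1521 (.cons 760 n1311 .nil)
noncomputable def n1893 : Strat := .move 761 n1520 (.cons 762 n1892 .nil)
noncomputable def n1894 : Strat := .move 802 n1362 (.cons 803 n1893 .nil)
noncomputable def n1895 : Strat := .move 843 n727 (.cons 798 n726 .nil)
noncomputable def n1896 : Strat := .move 923 n392 (.cons 758 n417 .nil)
noncomputable def n1897 : Strat := .move 923 n417 (.cons 964 n1689 .nil)
noncomputable def n1898 : Strat := .move 760 n147 (.cons 719 n1605 .nil)
noncomputable def n1899 : Strat := .move 882 n1896 (.cons 758 n1897 (.cons 923 n1898 .nil))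
noncomputable def n1900 : Strat := .move 842 n1895 (.cons 844 n1597 (.cons 798 n1616 (.cons 843 n1899 .nil)))
noncomputable def n1901 : Strat := .move 801 n1879 (.cons 842 n1885 (.cons 803 n1890 (.cons 798 n1595 (.cons 761 n1891 (.cons 844 n1894 (.cons 802 n1900 .nil))))))
noncomputable def n1902 : Strat := .move 799 n1808 (.cons 758 n1820 (.cons 798 n1837 (.cons 842 n1844 (.cons 882 n1529 (.cons 716 n1856 (.cons 756 n1873 (.cons 757 n1901 .nil)))))))
noncomputable def n1903 : Strat := .move 800 n1334 (.cons 881 n1454 (.cons 799 n1477 (.cons 882 n1629 (.cons 842 n1653 (.cons 801 n1669 (.cons 718 n1717 (.cons 758 n1734 (.cons 923 n1748 (.cons 717 n1765 (.cons 883 n1772 (.cons 719 n1784 (.cons 759 n1902 .nil))))))))))))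
noncomputable def n1904 : Strat := .win 884 2 839
noncomputable def n1905 : Strat := .move 839 n416 (.cons 838 n1904 .nil)
noncomputable def n1906 : Strat := .move 883 n1022 (.cons 924 n1905 .nil)
noncomputable def n1907 : Strat := .move 882 n1281 (.cons 923 n1906 .nil)
noncomputable def n1908 : Strat := .move 759 n97 (.cons 718 n1907 .nil)
noncomputable def n1909 : Strat := .win 839 4 798
noncomputable def n1910 : Strat := .move 802 n1909 (.cons 839 n1362 .nil)
noncomputable def n1911 : Strat := .move 801 n1689 (.cons 760 n1910 .nil)
noncomputable def n1912 : Strat := .move 882 n1309 (.cons 758 n1911 .nil)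
noncomputable def n1913 : Strat := .move 923 n928 (.cons 964 n1912 .nil)
noncomputable def n1914 : Strat := .move 799 n100 (.cons 759 n1913 .nil)
noncomputable def n1915 : Strat := .move 922 n99 (.cons 963 n1914 .nil)
noncomputable def n1916 : Strat := .win 798 7 757
noncomputable def n1917 : Strat := .move 758 n103 (.cons 716 n1320 .nil)
noncomputable def n1918 : Strat := .move 757 n1916 (.cons 798 n1917 .nil)
noncomputable def n1919 : Strat := .move 799 n100 (.cons 759 n1918 .nil)
noncomputable def n1920 : Strat := .move 922 n99 (.cons 963 n1919 .nil)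
noncomputable def n1921 : Strat := .win 802 4 798
noncomputable def n1922 : Strat := .move 839 n1921 (.cons 802 n575 .nil)
noncomputable def n1923 : Strat := .win 882 3 759
noncomputable def n1924 : Strat := .move 760 n1923 (.cons 882 n435 .nil)
noncomputable def n1925 : Strat := .move 801 n1910 (.cons 803 n1922 (.cons 839 n1924 .nil))
noncomputable def n1926 : Strat := .move 923 n928 (.cons 964 n1925 .nil)
noncomputable def n1927 : Strat := .move 798 n1221 (.cons 757 n1926 .nil)
noncomputable def n1928 : Strat := .move 799 n1913 (.cons 882 n1918 (.cons 758 n1927 .nil))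
noncomputable def n1929 : Strat := .move 922 n99 (.cons 963 n1928 .nil)
noncomputable def n1930 : Strat := .move 881 n1750 (.cons 922 n1908 (.cons 718 n1915 (.cons 882 n1920 (.cons 759 n1929 .nil))))
noncomputable def n1931 : Strat := .move 882 n384 (.cons 923 n1664 .nil)
noncomputable def n1932 : Strat := .move 715 n1347 (.cons 760 n1346 .nil)
noncomputable def n1933 : Strat := .move 716 n922 (.cons 675 n1932 .nil)
noncomputable def n1934 : Strat := .move 718 n885 (.cons 677 n1933 .nil)
noncomputable def n1935 : Strat := .move 717 n755 (.cons 676 n1934 .nil)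
noncomputable def n1936 : Strat := .move 758 n756 (.cons 717 n1931 (.cons 882 n1935 .nil))
noncomputable def n1937 : Strat := .win 716 0 716
noncomputable def n1938 : Strat := .move 717 n1937 (.cons 716 n375 .nil)
noncomputable def n1939 : Strat := .move 761 n1372 (.cons 762 n1938 .nil)
noncomputable def n1940 : Strat := .move 760 n1404 (.cons 882 n1939 .nil)
noncomputable def n1941 : Strat := .move 719 n371 (.cons 678 n1940 .nil)
noncomputable def n1942 : Strat := .move 718 n885 (.cons 677 n1941 .nil)
noncomputable def n1943 : Strat := .move 758 n493 (.cons 882 n1933 .nil)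
noncomputable def n1944 : Strat := .move 717 n375 (.cons 676 n1943 .nil)
noncomputable def n1945 : Strat := .win 758 7 675
noncomputable def n1946 : Strat := .move 675 n1445 (.cons 674 n1945 .nil)
noncomputable def n1947 : Strat := .move 716 n1440 (.cons 715 n1946 .nil)
noncomputable def n1948 : Strat := .move 719 n371 (.cons 678 n1947 .nil)
noncomputable def n1949 : Strat := .move 717 n375 (.cons 676 n1948 .nil)
noncomputable def n1950 : Strat := .move 882 n372 (.cons 760 n654 .nil)
noncomputable def n1951 : Strat := .move 719 n371 (.cons 678 n1950 .nil)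
noncomputable def n1952 : Strat := .move 758 n493 (.cons 882 n1420 .nil)
noncomputable def n1953 : Strat := .move 717 n375 (.cons 676 n1952 .nil)
noncomputable def n1954 : Strat := .move 718 n1944 (.cons 758 n1941 (.cons 882 n1949 (.cons 717 n1951 (.cons 760 n1953 .nil))))
noncomputable def n1955 : Strat := .move 718 n885 (.cons 677 n1953 .nil)
noncomputable def n1956 : Strat := .move 718 n885 (.cons 677 n1949 .nil)
noncomputable def n1957 : Strat := .move 923 n391 (.cons 964 n1290 .nil)
noncomputable def n1958 : Strat := .move 760 n285 (.cons 719 n1957 .nil)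
noncomputable def n1959 : Strat := .move 882 n385 (.cons 717 n1003 (.cons 923 n1665 (.cons 758 n1958 .nil)))
noncomputable def n1960 : Strat := .move 923 n391 (.cons 964 n1369 .nil)
noncomputable def n1961 : Strat := .win 758 6 717
noncomputable def n1962 : Strat := .move 718 n885 (.cons 677 n375 .nil)
noncomputable def n1963 : Strat := .move 717 n1961 (.cons 758 n1962 .nil)
noncomputable def n1964 : Strat := .move 882 n385 (.cons 717 n1003 (.cons 758 n1960 (.cons 923 n1963 .nil)))
noncomputable def n1965 : Strat := .move 718 n885 (.cons 677 n1951 .nil)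
noncomputable def n1966 : Strat := .move 759 n1936 (.cons 758 n1942 (.cons 677 n1954 (.cons 761 n1955 (.cons 882 n1956 (.cons 718 n1959 (.cons 719 n1964 (.cons 717 n1965 .nil)))))))
noncomputable def n1967 : Strat := .win 839 4 797
noncomputable def n1968 : Strat := .move 801 n1967 (.cons 839 n1804 .nil)
noncomputable def n1969 : Strat := .move 838 n245 (.cons 837 n1968 .nil)
noncomputable def n1970 : Strat := .move 797 n1310 (.cons 796 n1969 .nil)
noncomputable def n1971 : Strat := .win 759 5 756
noncomputable def n1972 : Strat := .move 760 n435 (.cons 761 n1971 .nil)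
noncomputable def n1973 : Strat := .move 801 n1803 (.cons 757 n1972 .nil)
noncomputable def n1974 : Strat := .move 756 n246 (.cons 755 n1973 .nil)
noncomputable def n1975 : Strat := .move 797 n1310 (.cons 796 n1974 .nil)
noncomputable def n1976 : Strat := .win 919 1 755
noncomputable def n1977 : Strat := .win 839 4 837
noncomputable def n1978 : Strat := .move 878 n1976 (.cons 919 n1977 .nil)
noncomputable def n1979 : Strat := .move 757 n825 (.cons 716 n202 .nil)
noncomputable def n1980 : Strat := .move 879 n1978 (.cons 839 n1979 .nil)
noncomputable def n1981 : Strat := .move 756 n246 (.cons 755 n1980 .nil)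
noncomputable def n1982 : Strat := .move 838 n245 (.cons 837 n1981 .nil)
noncomputable def n1983 : Strat := .move 797 n1310 (.cons 796 n1982 .nil)
noncomputable def n1984 : Strat := .move 801 n1910 (.cons 803 n1804 .nil)
noncomputable def n1985 : Strat := .move 718 n885 (.cons 677 n1984 .nil)
noncomputable def n1986 : Strat := .move 759 n884 (.cons 760 n1985 .nil)
noncomputable def n1987 : Strat := .move 801 n1967 (.cons 839 n1972 .nil)
noncomputable def n1988 : Strat := .move 838 n245 (.cons 837 n1987 .nil)
noncomputable def n1989 : Strat := .move 797 n1969 (.cons 838 n1986 (.cons 801 n1982 (.cons 839 n1974 (.cons 755 n1988 .nil))))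
noncomputable def n1990 : Strat := .move 801 n575 (.cons 838 n1921 .nil)
noncomputable def n1991 : Strat := .win 880 1 756
noncomputable def n1992 : Strat := .move 920 n1991 (.cons 880 n130 .nil)
noncomputable def n1993 : Strat := .move 757 n203 (.cons 716 n1992 .nil)
noncomputable def n1994 : Strat := .move 879 n19 (.cons 878 n1993 .nil)
noncomputable def n1995 : Strat := .move 838 n383 (.cons 837 n1994 .nil)
noncomputable def n1996 : Strat := .win 879 1 756
noncomputable def n1997 : Strat := .move 757 n1996 (.cons 879 n475 .nil)
noncomputable def n1998 : Strat := .move 921 n165 (.cons 961 n31 .nil)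
noncomputable def n1999 : Strat := .move 920 n1997 (.cons 756 n1998 .nil)
noncomputable def n2000 : Strat := .move 801 n1921 (.cons 802 n1999 .nil)
noncomputable def n2001 : Strat := .win 758 1 716
noncomputable def n2002 : Strat := .move 801 n475 (.cons 756 n1921 .nil)
noncomputable def n2003 : Strat := .move 756 n35 (.cons 715 n1510 .nil)
noncomputable def n2004 : Strat := .move 757 n2002 (.cons 802 n2003 (.cons 756 n496 .nil))
noncomputable def n2005 : Strat := .move 717 n2001 (.cons 758 n2004 .nil)
noncomputable def n2006 : Strat := .move 880 n57 (.cons 717 n1195 (.cons 758 n2000 (.cons 921 n2005 .nil)))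
noncomputable def n2007 : Strat := .move 839 n1990 (.cons 801 n1995 (.cons 838 n2006 .nil))
noncomputable def n2008 : Strat := .move 715 n248 (.cons 880 n247 .nil)
noncomputable def n2009 : Strat := .move 756 n246 (.cons 755 n2008 .nil)
noncomputable def n2010 : Strat := .move 839 n995 (.cons 801 n2009 .nil)
noncomputable def n2011 : Strat := .move 838 n245 (.cons 837 n2010 .nil)
noncomputable def n2012 : Strat := .move 797 n1310 (.cons 796 n2011 .nil)
noncomputable def n2013 : Strat := .move 797 n1310 (.cons 796 n1988 .nil)
noncomputable def n2014 : Strat := .move 798 n1970 (.cons 839 n1975 (.cons 801 n1983 (.cons 796 n1989 (.cons 797 n2007 (.cons 757 n2012 (.cons 756 n2013 .nil))))))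
noncomputable def n2015 : Strat := .move 802 n1362 (.cons 803 n1909 .nil)
noncomputable def n2016 : Strat := .move 758 n754 (.cons 757 n1340 .nil)
noncomputable def n2017 : Strat := .move 802 n1362 (.cons 803 n2016 .nil)
noncomputable def n2018 : Strat := .move 839 n423 (.cons 838 n1921 .nil)
noncomputable def n2019 : Strat := .move 756 n246 (.cons 755 n1803 .nil)
noncomputable def n2020 : Strat := .move 797 n1310 (.cons 796 n2019 .nil)
noncomputable def n2021 : Strat := .move 839 n575 (.cons 838 n2020 .nil)
noncomputable def n2022 : Strat := .move 758 n490 (.cons 880 n493 .nil)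
noncomputable def n2023 : Strat := .move 717 n495 (.cons 676 n2022 (.cons 882 n492 (.cons 758 n496 .nil)))
noncomputable def n2024 : Strat := .move 757 n475 (.cons 756 n2023 .nil)
noncomputable def n2025 : Strat := .move 839 n575 (.cons 838 n2024 .nil)
noncomputable def n2026 : Strat := .move 760 n435 (.cons 761 n2019 .nil)
noncomputable def n2027 : Strat := .move 797 n1310 (.cons 796 n2026 .nil)
noncomputable def n2028 : Strat := .move 797 n1310 (.cons 796 n245 .nil)
noncomputable def n2029 : Strat := .move 838 n1967 (.cons 839 n2028 .nil)
noncomputable def n2030 : Strat := .move 798 n2021 (.cons 755 n2025 (.cons 839 n2027 (.cons 756 n2029 .nil)))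
noncomputable def n2031 : Strat := .move 801 n2015 (.cons 839 n2017 (.cons 803 n2018 (.cons 802 n2030 .nil)))
noncomputable def n2032 : Strat := .win 759 3 718
noncomputable def n2033 : Strat := .move 719 n2032 (.cons 759 n436 .nil)
noncomputable def n2034 : Strat := .move 882 n1282 (.cons 923 n2033 .nil)
noncomputable def n2035 : Strat := .move 760 n435 (.cons 761 n2034 .nil)
noncomputable def n2036 : Strat := .move 798 n2020 (.cons 797 n2035 .nil)
noncomputable def n2037 : Strat := .move 839 n423 (.cons 838 n2036 .nil)
noncomputable def n2038 : Strat := .move 839 n1921 (.cons 802 n2036 .nil)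
noncomputable def n2039 : Strat := .move 882 n2032 (.cons 759 n1282 .nil)
noncomputable def n2040 : Strat := .move 719 n436 (.cons 678 n2039 .nil)
noncomputable def n2041 : Strat := .move 760 n1606 (.cons 798 n2040 .nil)
noncomputable def n2042 : Strat := .move 761 n1520 (.cons 762 n2041 .nil)
noncomputable def n2043 : Strat := .move 802 n1362 (.cons 803 n2042 .nil)
noncomputable def n2044 : Strat := .move 801 n2018 (.cons 802 n2037 (.cons 838 n2038 (.cons 839 n2043 .nil)))
noncomputable def n2045 : Strat := .move 801 n1689 (.cons 760 n2018 .nil)
noncomputable def n2046 : Strat := .move 923 n391 (.cons 964 n2045 .nil)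
noncomputable def n2047 : Strat := .win 801 5 757
noncomputable def n2048 : Strat := .move 761 n2047 (.cons 801 n1372 .nil)
noncomputable def n2049 : Strat := .move 798 n1753 (.cons 797 n2048 .nil)
noncomputable def n2050 : Strat := .move 760 n285 (.cons 719 n2049 .nil)
noncomputable def n2051 : Strat := .move 759 n1962 (.cons 677 n1650 (.cons 718 n2050 .nil))
noncomputable def n2052 : Strat := .move 717 n1961 (.cons 758 n2051 .nil)
noncomputable def n2053 : Strat := .move 882 n1003 (.cons 758 n2046 (.cons 964 n385 (.cons 923 n2052 .nil)))
noncomputable def n2054 : Strat := .move 718 n885 (.cons 677 n373 .nil)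
noncomputable def n2055 : Strat := .move 758 n94 (.cons 717 n2054 .nil)
noncomputable def n2056 : Strat := .move 883 n1022 (.cons 924 n373 .nil)
noncomputable def n2057 : Strat := .move 718 n885 (.cons 677 n2056 .nil)
noncomputable def n2058 : Strat := .win 803 2 758
noncomputable def n2059 : Strat := .move 801 n1909 (.cons 839 n2058 .nil)
noncomputable def n2060 : Strat := .move 801 n1363 (.cons 757 n1909 .nil)
noncomputable def n2061 : Strat := .move 801 n1363 (.cons 757 n2058 .nil)
noncomputable def n2062 : Strat := .move 761 n1381 (.cons 803 n1372 .nil)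
noncomputable def n2063 : Strat := .move 802 n2059 (.cons 803 n2060 (.cons 839 n2061 (.cons 801 n2062 .nil)))
noncomputable def n2064 : Strat := .move 760 n285 (.cons 719 n2063 .nil)
noncomputable def n2065 : Strat := .move 758 n94 (.cons 717 n2064 .nil)
noncomputable def n2066 : Strat := .move 759 n2055 (.cons 758 n2057 (.cons 719 n1963 (.cons 718 n2065 .nil)))
noncomputable def n2067 : Strat := .move 882 n1003 (.cons 758 n2046 (.cons 964 n385 (.cons 923 n2066 .nil)))
noncomputable def n2068 : Strat := .win 921 5 880
noncomputable def n2069 : Strat := .move 922 n2068 (.cons 921 n363 .nil)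
noncomputable def n2070 : Strat := .move 884 n1289 (.cons 885 n2069 .nil)
noncomputable def n2071 : Strat := .move 883 n799 (.cons 759 n2070 .nil)
noncomputable def n2072 : Strat := .move 924 n402 (.cons 965 n2071 .nil)
noncomputable def n2073 : Strat := .move 923 n391 (.cons 964 n2072 .nil)
noncomputable def n2074 : Strat := .move 923 n392 (.cons 758 n2072 .nil)
noncomputable def n2075 : Strat := .move 719 n372 (.cons 760 n371 .nil)
noncomputable def n2076 : Strat := .move 718 n885 (.cons 677 n2075 .nil)
noncomputable def n2077 : Strat := .move 759 n1665 (.cons 758 n2076 (.cons 719 n1963 .nil))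
noncomputable def n2078 : Strat := .move 882 n1003 (.cons 758 n2073 (.cons 964 n2074 (.cons 923 n2077 .nil)))
noncomputable def n2079 : Strat := .move 838 n116 (.cons 801 n383 .nil)
noncomputable def n2080 : Strat := .move 716 n476 (.cons 675 n218 .nil)
noncomputable def n2081 : Strat := .move 757 n475 (.cons 756 n2080 .nil)
noncomputable def n2082 : Strat := .move 718 n375 (.cons 676 n885 .nil)
noncomputable def n2083 : Strat := .move 797 n884 (.cons 760 n1310 .nil)
noncomputable def n2084 : Strat := .move 759 n2082 (.cons 677 n2083 .nil)
noncomputable def n2085 : Strat := .move 798 n2020 (.cons 797 n2081 (.cons 757 n2084 .nil))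
noncomputable def n2086 : Strat := .move 717 n1785 (.cons 676 n494 (.cons 758 n2085 .nil))
noncomputable def n2087 : Strat := .move 801 n1921 (.cons 802 n2086 .nil)
noncomputable def n2088 : Strat := .move 838 n383 (.cons 837 n386 .nil)
noncomputable def n2089 : Strat := .move 839 n2079 (.cons 838 n2087 (.cons 801 n2088 .nil))
noncomputable def n2090 : Strat := .move 802 n1362 (.cons 803 n757 .nil)
noncomputable def n2091 : Strat := .move 717 n493 (.cons 882 n491 .nil)
noncomputable def n2092 : Strat := .move 882 n384 (.cons 923 n94 .nil)
noncomputable def n2093 : Strat := .move 717 n490 (.cons 880 n491 .nil)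
noncomputable def n2094 : Strat := .move 758 n2091 (.cons 676 n2092 (.cons 882 n2093 (.cons 717 n1851 .nil)))
noncomputable def n2095 : Strat := .move 839 n575 (.cons 838 n2094 .nil)
noncomputable def n2096 : Strat := .move 798 n2095 (.cons 717 n2021 (.cons 755 n2025 (.cons 839 n1805 (.cons 756 n2029 .nil))))
noncomputable def n2097 : Strat := .move 801 n2015 (.cons 803 n2018 (.cons 839 n2090 (.cons 802 n2096 .nil)))
noncomputable def n2098 : Strat := .move 799 n1966 (.cons 882 n2014 (.cons 759 n2031 (.cons 758 n2044 (.cons 757 n2053 (.cons 798 n2067 (.cons 801 n2078 (.cons 761 n2089 (.cons 760 n2097 .nil))))))))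
noncomputable def n2099 : Strat := .move 839 n1904 (.cons 884 n416 .nil)
noncomputable def n2100 : Strat := .move 883 n1022 (.cons 924 n2099 .nil)
noncomputable def n2101 : Strat := .move 758 n367 (.cons 717 n2100 .nil)
noncomputable def n2102 : Strat := .move 882 n283 (.cons 922 n2101 .nil)
noncomputable def n2103 : Strat := .move 881 n97 (.cons 718 n2102 .nil)
noncomputable def n2104 : Strat := .move 881 n283 (.cons 922 n2101 .nil)
noncomputable def n2105 : Strat := .move 758 n367 (.cons 717 n1285 .nil)
noncomputable def n2106 : Strat := .move 801 n1282 (.cons 923 n2105 .nil)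
noncomputable def n2107 : Strat := .move 760 n285 (.cons 719 n2106 .nil)
noncomputable def n2108 : Strat := .move 881 n283 (.cons 922 n2107 .nil)
noncomputable def n2109 : Strat := .move 883 n1022 (.cons 924 n2107 .nil)
noncomputable def n2110 : Strat := .move 881 n283 (.cons 922 n1906 .nil)
noncomputable def n2111 : Strat := .move 882 n2104 (.cons 924 n2108 (.cons 881 n2109 (.cons 758 n2110 .nil)))
noncomputable def n2112 : Strat := .move 758 n1418 (.cons 757 n1417 .nil)
noncomputable def n2113 : Strat := .win 762 0 717
noncomputable def n2114 : Strat := .win 760 0 716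
noncomputable def n2115 : Strat := .move 761 n2113 (.cons 762 n2114 .nil)
noncomputable def n2116 : Strat := .win 758 4 716
noncomputable def n2117 : Strat := .move 757 n2116 (.cons 758 n1442 .nil)
noncomputable def n2118 : Strat := .move 716 n1440 (.cons 715 n2115 (.cons 761 n2117 .nil))
noncomputable def n2119 : Strat := .win 763 0 718
noncomputable def n2120 : Strat := .win 761 0 717
noncomputable def n2121 : Strat := .move 762 n2119 (.cons 763 n2120 .nil)
noncomputable def n2122 : Strat := .move 721 n1408 (.cons 758 n2121 .nil)
noncomputable def n2123 : Strat := .win 681 5 677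
noncomputable def n2124 : Strat := .win 679 5 676
noncomputable def n2125 : Strat := .move 680 n2123 (.cons 681 n2124 .nil)
noncomputable def n2126 : Strat := .move 721 n2121 (.cons 761 n2125 .nil)
noncomputable def n2127 : Strat := .move 720 n2112 (.cons 721 n2118 (.cons 757 n2122 (.cons 758 n2126 .nil)))
noncomputable def n2128 : Strat := .move 717 n375 (.cons 676 n2127 .nil)
noncomputable def n2129 : Strat := .move 719 n371 (.cons 678 n2128 .nil)
noncomputable def n2130 : Strat := .move 718 n370 (.cons 881 n2129 .nil)
noncomputable def n2131 : Strat := .move 718 n371 (.cons 678 n1354 .nil)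
noncomputable def n2132 : Strat := .move 720 n1418 (.cons 757 n1417 .nil)
noncomputable def n2133 : Strat := .move 758 n1416 (.cons 882 n2132 .nil)
noncomputable def n2134 : Strat := .move 717 n375 (.cons 676 n2133 .nil)
noncomputable def n2135 : Strat := .move 718 n371 (.cons 678 n2134 .nil)
noncomputable def n2136 : Strat := .win 637 1 636
noncomputable def n2137 : Strat := .win 801 1 677
noncomputable def n2138 : Strat := .move 678 n2136 (.cons 637 n2137 .nil)
noncomputable def n2139 : Strat := .move 760 n1404 (.cons 882 n2138 .nil)
noncomputable def n2140 : Strat := .move 718 n371 (.cons 678 n2128 .nil)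
noncomputable def n2141 : Strat := .win 720 5 716
noncomputable def n2142 : Strat := .move 757 n2141 (.cons 720 n1380 .nil)
noncomputable def n2143 : Strat := .win 757 5 716
noncomputable def n2144 : Strat := .win 718 4 717
noncomputable def n2145 : Strat := .move 721 n2144 (.cons 718 n1407 .nil)
noncomputable def n2146 : Strat := .move 720 n2143 (.cons 757 n2145 .nil)
noncomputable def n2147 : Strat := .win 716 2 716
noncomputable def n2148 : Strat := .win 635 6 635
noncomputable def n2149 : Strat := .win 718 7 676
noncomputable def n2150 : Strat := .move 676 n2148 (.cons 635 n2149 .nil)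
noncomputable def n2151 : Strat := .move 717 n2147 (.cons 716 n2150 .nil)
noncomputable def n2152 : Strat := .win 801 4 759
noncomputable def n2153 : Strat := .win 718 2 718
noncomputable def n2154 : Strat := .move 763 n2152 (.cons 801 n2153 .nil)
noncomputable def n2155 : Strat := .move 762 n1378 (.cons 802 n2154 .nil)
noncomputable def n2156 : Strat := .move 761 n2151 (.cons 717 n2155 (.cons 718 n1391 .nil))
noncomputable def n2157 : Strat := .win 761 2 716
noncomputable def n2158 : Strat := .move 716 n2157 (.cons 761 n1631 .nil)
noncomputable def n2159 : Strat := .move 717 n2158 (.cons 715 n2150 .nil)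
noncomputable def n2160 : Strat := .move 757 n1380 (.cons 756 n2159 .nil)
noncomputable def n2161 : Strat := .move 758 n2142 (.cons 756 n2146 (.cons 757 n2156 (.cons 720 n2160 .nil)))
noncomputable def n2162 : Strat := .move 760 n1404 (.cons 882 n2161 .nil)
noncomputable def n2163 : Strat := .move 719 n2131 (.cons 760 n2135 (.cons 718 n2139 (.cons 882 n2140 (.cons 678 n2162 .nil))))
noncomputable def n2164 : Strat := .move 759 n2103 (.cons 718 n2111 (.cons 882 n2130 (.cons 717 n1649 (.cons 881 n2163 .nil))))
noncomputable def n2165 : Strat := .move 801 n423 (.cons 838 n1921 .nil)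
noncomputable def n2166 : Strat := .move 922 n928 (.cons 964 n99 .nil)
noncomputable def n2167 : Strat := .move 923 n927 (.cons 882 n2166 .nil)
noncomputable def n2168 : Strat := .move 756 n1276 (.cons 755 n1787 .nil)
noncomputable def n2169 : Strat := .move 757 n103 (.cons 716 n2168 .nil)
noncomputable def n2170 : Strat := .move 881 n2167 (.cons 923 n2169 .nil)
noncomputable def n2171 : Strat := .move 717 n755 (.cons 676 n490 .nil)
noncomputable def n2172 : Strat := .move 758 n756 (.cons 676 n1340 (.cons 717 n2170 (.cons 882 n2171 .nil)))
noncomputable def n2173 : Strat := .move 801 n1921 (.cons 802 n2172 .nil)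
noncomputable def n2174 : Strat := .move 839 n2079 (.cons 801 n2088 (.cons 837 n2165 (.cons 838 n2173 .nil)))
noncomputable def n2175 : Strat := .move 884 n1105 (.cons 719 n68 .nil)
noncomputable def n2176 : Strat := .move 760 n1606 (.cons 798 n2175 .nil)
noncomputable def n2177 : Strat := .move 761 n1520 (.cons 762 n2176 .nil)
noncomputable def n2178 : Strat := .move 843 n753 (.cons 844 n2177 .nil)
noncomputable def n2179 : Strat := .move 802 n1362 (.cons 803 n2178 .nil)
noncomputable def n2180 : Strat := .move 716 n217 (.cons 881 n476 .nil)
noncomputable def n2181 : Strat := .move 757 n475 (.cons 756 n2180 .nil)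
noncomputable def n2182 : Strat := .move 839 n575 (.cons 838 n2181 .nil)
noncomputable def n2183 : Strat := .move 798 n2182 (.cons 839 n1805 (.cons 756 n2029 .nil))
noncomputable def n2184 : Strat := .move 801 n2018 (.cons 839 n2179 (.cons 802 n2183 .nil))
noncomputable def n2185 : Strat := .move 839 n490 (.cons 880 n2165 .nil)
noncomputable def n2186 : Strat := .move 717 n755 (.cons 676 n2185 .nil)
noncomputable def n2187 : Strat := .move 882 n93 (.cons 923 n1830 .nil)
noncomputable def n2188 : Strat := .move 757 n103 (.cons 716 n1829 .nil)
noncomputable def n2189 : Strat := .move 922 n99 (.cons 963 n2188 .nil)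
noncomputable def n2190 : Strat := .move 839 n126 (.cons 837 n116 .nil)
noncomputable def n2191 : Strat := .move 839 n118 (.cons 883 n126 .nil)
noncomputable def n2192 : Strat := .move 839 n118 (.cons 883 n116 .nil)
noncomputable def n2193 : Strat := .win 837 2 837
noncomputable def n2194 : Strat := .move 879 n2193 (.cons 837 n1298 .nil)
noncomputable def n2195 : Strat := .move 838 n2190 (.cons 801 n2191 (.cons 837 n2192 (.cons 839 n2194 .nil)))
noncomputable def n2196 : Strat := .move 880 n939 (.cons 921 n2195 .nil)
noncomputable def n2197 : Strat := .move 882 n93 (.cons 923 n2196 .nil)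
noncomputable def n2198 : Strat := .move 881 n2187 (.cons 882 n2189 (.cons 962 n2197 (.cons 880 n1835 .nil)))
noncomputable def n2199 : Strat := .move 758 n756 (.cons 882 n2186 (.cons 676 n1340 (.cons 717 n2198 .nil)))
noncomputable def n2200 : Strat := .move 757 n1916 (.cons 798 n103 .nil)
noncomputable def n2201 : Strat := .move 922 n99 (.cons 963 n2200 .nil)
noncomputable def n2202 : Strat := .move 881 n1830 (.cons 922 n2196 (.cons 880 n2201 .nil))
noncomputable def n2203 : Strat := .move 882 n384 (.cons 923 n2202 .nil)
noncomputable def n2204 : Strat := .move 839 n490 (.cons 880 n2079 .nil)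
noncomputable def n2205 : Strat := .move 717 n755 (.cons 676 n2204 .nil)
noncomputable def n2206 : Strat := .move 758 n756 (.cons 717 n2203 (.cons 882 n2205 .nil))
noncomputable def n2207 : Strat := .move 839 n116 (.cons 801 n383 .nil)
noncomputable def n2208 : Strat := .move 839 n116 (.cons 801 n118 .nil)
noncomputable def n2209 : Strat := .move 879 n1298 (.cons 878 n2193 .nil)
noncomputable def n2210 : Strat := .move 880 n939 (.cons 921 n2209 .nil)
noncomputable def n2211 : Strat := .move 797 n245 (.cons 837 n1310 .nil)
noncomputable def n2212 : Strat := .move 798 n2211 (.cons 796 n1862 .nil)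
noncomputable def n2213 : Strat := .move 881 n1830 (.cons 922 n2210 (.cons 880 n2212 .nil))
noncomputable def n2214 : Strat := .move 838 n2207 (.cons 837 n2208 (.cons 839 n2213 .nil))
noncomputable def n2215 : Strat := .move 758 n94 (.cons 717 n2214 .nil)
noncomputable def n2216 : Strat := .move 882 n1003 (.cons 964 n385 (.cons 923 n2215 (.cons 758 n2046 .nil)))
noncomputable def n2217 : Strat := .move 758 n927 (.cons 882 n1829 .nil)
noncomputable def n2218 : Strat := .move 923 n928 (.cons 964 n2217 .nil)
noncomputable def n2219 : Strat := .move 922 n99 (.cons 963 n2218 .nil)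
noncomputable def n2220 : Strat := .move 758 n1743 (.cons 676 n1829 .nil)
noncomputable def n2221 : Strat := .move 797 n1310 (.cons 796 n2220 .nil)
noncomputable def n2222 : Strat := .move 798 n1221 (.cons 757 n2221 .nil)
noncomputable def n2223 : Strat := .win 966 0 921
noncomputable def n2224 : Strat := .win 882 6 800
noncomputable def n2225 : Strat := .move 965 n2223 (.cons 966 n2224 .nil)
noncomputable def n2226 : Strat := .move 880 n1493 (.cons 879 n1494 .nil)
noncomputable def n2227 : Strat := .move 924 n2225 (.cons 882 n2226 .nil)
noncomputable def n2228 : Strat := .move 921 n606 (.cons 962 n2227 .nil)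
noncomputable def n2229 : Strat := .move 923 n928 (.cons 964 n2228 .nil)
noncomputable def n2230 : Strat := .move 758 n927 (.cons 882 n2200 .nil)
noncomputable def n2231 : Strat := .move 923 n928 (.cons 964 n2230 .nil)
noncomputable def n2232 : Strat := .move 758 n1224 (.cons 880 n2200 .nil)
noncomputable def n2233 : Strat := .move 921 n606 (.cons 962 n2232 .nil)
noncomputable def n2234 : Strat := .move 922 n2218 (.cons 923 n2222 (.cons 758 n2229 (.cons 921 n2231 (.cons 882 n2233 .nil))))
noncomputable def n2235 : Strat := .move 922 n99 (.cons 963 n2229 .nil)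
noncomputable def n2236 : Strat := .move 922 n99 (.cons 963 n2233 .nil)
noncomputable def n2237 : Strat := .move 922 n99 (.cons 963 n2231 .nil)
noncomputable def n2238 : Strat := .win 839 2 839
noncomputable def n2239 : Strat := .move 884 n2238 (.cons 839 n1289 .nil)
noncomputable def n2240 : Strat := .win 924 0 880
noncomputable def n2241 : Strat := .move 880 n2240 (.cons 924 n939 .nil)
noncomputable def n2242 : Strat := .win 926 0 881
noncomputable def n2243 : Strat := .move 884 n2242 (.cons 926 n1289 .nil)
noncomputable def n2244 : Strat := .move 925 n2241 (.cons 921 n2243 .nil)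
noncomputable def n2245 : Strat := .move 758 n94 (.cons 717 n2244 .nil)
noncomputable def n2246 : Strat := .win 839 0 838
noncomputable def n2247 : Strat := .move 758 n939 (.cons 921 n94 .nil)
noncomputable def n2248 : Strat := .move 921 n689 (.cons 920 n690 .nil)
noncomputable def n2249 : Strat := .move 880 n2247 (.cons 717 n2248 (.cons 921 n2194 .nil))
noncomputable def n2250 : Strat := .move 838 n2246 (.cons 839 n2249 .nil)
noncomputable def n2251 : Strat := .move 883 n1905 (.cons 838 n2239 (.cons 839 n2245 (.cons 884 n2250 .nil)))
noncomputable def n2252 : Strat := .win 883 0 880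
noncomputable def n2253 : Strat := .win 926 2 881
noncomputable def n2254 : Strat := .move 925 n2252 (.cons 883 n2253 .nil)
noncomputable def n2255 : Strat := .move 880 n1684 (.cons 879 n2254 .nil)
noncomputable def n2256 : Strat := .move 924 n402 (.cons 965 n2255 .nil)
noncomputable def n2257 : Strat := .move 923 n391 (.cons 964 n2256 .nil)
noncomputable def n2258 : Strat := .move 882 n1660 (.cons 923 n2251 (.cons 758 n2257 .nil))
noncomputable def n2259 : Strat := .move 881 n2219 (.cons 963 n2234 (.cons 758 n2235 (.cons 882 n2236 (.cons 921 n2237 (.cons 922 n2258 .nil)))))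
noncomputable def n2260 : Strat := .move 801 n1921 (.cons 802 n423 .nil)
noncomputable def n2261 : Strat := .move 922 n606 (.cons 962 n99 .nil)
noncomputable def n2262 : Strat := .move 921 n1224 (.cons 880 n2261 .nil)
noncomputable def n2263 : Strat := .move 839 n2260 (.cons 838 n2262 .nil)
noncomputable def n2264 : Strat := .move 882 n93 (.cons 923 n2263 .nil)
noncomputable def n2265 : Strat := .move 881 n2264 (.cons 838 n2187 (.cons 962 n2197 (.cons 882 n1833 (.cons 921 n1835 .nil))))
noncomputable def n2266 : Strat := .move 758 n756 (.cons 676 n1340 (.cons 882 n2205 (.cons 717 n2265 .nil)))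
noncomputable def n2267 : Strat := .move 799 n2174 (.cons 758 n2184 (.cons 839 n1844 (.cons 798 n2199 (.cons 802 n2206 (.cons 716 n2216 (.cons 881 n2031 (.cons 801 n2259 (.cons 757 n2266 .nil))))))))
noncomputable def n2268 : Strat := .move 882 n1641 (.cons 717 n1906 .nil)
noncomputable def n2269 : Strat := .move 759 n97 (.cons 718 n2268 .nil)
noncomputable def n2270 : Strat := .move 759 n97 (.cons 718 n1317 .nil)
noncomputable def n2271 : Strat := .move 922 n99 (.cons 963 n2270 .nil)
noncomputable def n2272 : Strat := .move 799 n100 (.cons 759 n1655 .nil)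
noncomputable def n2273 : Strat := .move 922 n99 (.cons 963 n2272 .nil)
noncomputable def n2274 : Strat := .move 799 n2218 (.cons 923 n2222 (.cons 758 n2229 (.cons 921 n2231 (.cons 882 n2233 .nil))))
noncomputable def n2275 : Strat := .move 922 n99 (.cons 963 n2274 .nil)
noncomputable def n2276 : Strat := .move 881 n1750 (.cons 922 n2269 (.cons 882 n2271 (.cons 718 n2273 (.cons 759 n2275 .nil))))
noncomputable def n2277 : Strat := .move 881 n97 (.cons 718 n1907 .nil)
noncomputable def n2278 : Strat := .move 882 n1906 (.cons 839 n1636 .nil)
noncomputable def n2279 : Strat := .move 881 n97 (.cons 718 n2278 .nil)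
noncomputable def n2280 : Strat := .move 799 n93 (.cons 923 n2100 .nil)
noncomputable def n2281 : Strat := .move 758 n367 (.cons 717 n2280 .nil)
noncomputable def n2282 : Strat := .move 882 n1641 (.cons 719 n2281 (.cons 758 n1906 .nil))
noncomputable def n2283 : Strat := .move 881 n97 (.cons 718 n2282 .nil)
noncomputable def n2284 : Strat := .move 881 n1281 (.cons 923 n1906 .nil)
noncomputable def n2285 : Strat := .move 881 n1906 (.cons 839 n1636 .nil)
noncomputable def n2286 : Strat := .move 923 n1290 (.cons 801 n366 .nil)
noncomputable def n2287 : Strat := .move 760 n285 (.cons 719 n2286 .nil)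
noncomputable def n2288 : Strat := .move 758 n367 (.cons 717 n2287 .nil)
noncomputable def n2289 : Strat := .move 881 n1641 (.cons 717 n1906 .nil)
noncomputable def n2290 : Strat := .win 881 2 839
noncomputable def n2291 : Strat := .move 884 n1289 (.cons 885 n2290 .nil)
noncomputable def n2292 : Strat := .move 839 n416 (.cons 838 n2291 .nil)
noncomputable def n2293 : Strat := .move 883 n1022 (.cons 924 n2292 .nil)
noncomputable def n2294 : Strat := .move 882 n2284 (.cons 923 n2285 (.cons 881 n2288 (.cons 801 n2289 (.cons 758 n2293 .nil))))
noncomputable def n2295 : Strat := .move 758 n1743 (.cons 717 n1931 (.cons 882 n1935 .nil))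
noncomputable def n2296 : Strat := .move 718 n885 (.cons 677 n1420 .nil)
noncomputable def n2297 : Strat := .move 717 n755 (.cons 676 n2296 .nil)
noncomputable def n2298 : Strat := .move 758 n1743 (.cons 717 n1931 (.cons 882 n2297 .nil))
noncomputable def n2299 : Strat := .move 802 n2058 (.cons 803 n1909 .nil)
noncomputable def n2300 : Strat := .move 757 n1284 (.cons 756 n1788 .nil)
noncomputable def n2301 : Strat := .move 801 n2299 (.cons 803 n2300 (.cons 802 n1931 .nil))
noncomputable def n2302 : Strat := .move 839 n490 (.cons 880 n2260 .nil)
noncomputable def n2303 : Strat := .move 717 n755 (.cons 676 n2302 .nil)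
noncomputable def n2304 : Strat := .move 758 n1743 (.cons 717 n2301 (.cons 882 n2303 .nil))
noncomputable def n2305 : Strat := .move 718 n885 (.cons 677 n1351 .nil)
noncomputable def n2306 : Strat := .move 799 n2295 (.cons 714 n2298 (.cons 758 n1942 (.cons 882 n1956 (.cons 677 n2304 (.cons 760 n1955 (.cons 719 n2305 (.cons 717 n1965 .nil)))))))
noncomputable def n2307 : Strat := .move 882 n367 (.cons 717 n2100 .nil)
noncomputable def n2308 : Strat := .move 881 n97 (.cons 718 n2307 .nil)
noncomputable def n2309 : Strat := .move 881 n2100 (.cons 883 n1287 .nil)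
noncomputable def n2310 : Strat := .move 882 n367 (.cons 717 n2309 .nil)
noncomputable def n2311 : Strat := .move 717 n375 (.cons 676 n1416 .nil)
noncomputable def n2312 : Strat := .move 718 n370 (.cons 881 n2311 .nil)
noncomputable def n2313 : Strat := .move 676 n2149 (.cons 718 n2148 .nil)
noncomputable def n2314 : Strat := .move 717 n1416 (.cons 882 n2313 .nil)
noncomputable def n2315 : Strat := .move 717 n375 (.cons 676 n2132 .nil)
noncomputable def n2316 : Strat := .move 719 n371 (.cons 678 n2315 .nil)
noncomputable def n2317 : Strat := .move 718 n370 (.cons 881 n2316 .nil)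
noncomputable def n2318 : Strat := .move 882 n2100 (.cons 883 n1287 .nil)
noncomputable def n2319 : Strat := .move 881 n97 (.cons 718 n2318 .nil)
noncomputable def n2320 : Strat := .move 758 n2308 (.cons 718 n2310 (.cons 839 n2312 (.cons 881 n2314 (.cons 882 n2317 (.cons 717 n2319 .nil)))))
noncomputable def n2321 : Strat := .move 759 n2277 (.cons 923 n2279 (.cons 756 n2283 (.cons 718 n2294 (.cons 882 n1630 (.cons 881 n2306 (.cons 799 n2320 .nil))))))
noncomputable def n2322 : Strat := .move 718 n370 (.cons 881 n1415 .nil)
noncomputable def n2323 : Strat := .move 883 n1022 (.cons 924 n2239 .nil)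
noncomputable def n2324 : Strat := .move 799 n2323 (.cons 885 n1752 .nil)
noncomputable def n2325 : Strat := .move 881 n283 (.cons 922 n2324 .nil)
noncomputable def n2326 : Strat := .win 799 4 798
noncomputable def n2327 : Strat := .move 802 n2326 (.cons 799 n1362 .nil)
noncomputable def n2328 : Strat := .move 839 n423 (.cons 838 n2327 .nil)
noncomputable def n2329 : Strat := .move 801 n1282 (.cons 923 n2328 .nil)
noncomputable def n2330 : Strat := .move 760 n285 (.cons 719 n2329 .nil)
noncomputable def n2331 : Strat := .move 881 n283 (.cons 922 n2330 .nil)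
noncomputable def n2332 : Strat := .move 839 n416 (.cons 838 n2327 .nil)
noncomputable def n2333 : Strat := .move 801 n1282 (.cons 923 n2332 .nil)
noncomputable def n2334 : Strat := .move 760 n285 (.cons 719 n2333 .nil)
noncomputable def n2335 : Strat := .move 883 n1022 (.cons 924 n2334 .nil)
noncomputable def n2336 : Strat := .move 882 n2325 (.cons 924 n2331 (.cons 839 n1647 (.cons 881 n2335 (.cons 923 n2110 .nil))))
noncomputable def n2337 : Strat := .move 760 n1404 (.cons 882 n1721 .nil)
noncomputable def n2338 : Strat := .move 717 n375 (.cons 676 n2337 .nil)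
noncomputable def n2339 : Strat := .move 719 n371 (.cons 678 n2338 .nil)
noncomputable def n2340 : Strat := .move 718 n1339 (.cons 719 n1415 (.cons 799 n2339 .nil))
noncomputable def n2341 : Strat := .move 759 n1630 (.cons 719 n2322 (.cons 677 n1649 (.cons 718 n2336 (.cons 881 n2340 .nil))))
noncomputable def n2342 : Strat := .move 799 n1909 (.cons 839 n757 .nil)
noncomputable def n2343 : Strat := .move 802 n1362 (.cons 803 n2342 .nil)
noncomputable def n2344 : Strat := .move 760 n1971 (.cons 759 n435 .nil)
noncomputable def n2345 : Strat := .move 797 n1310 (.cons 796 n2344 .nil)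
noncomputable def n2346 : Strat := .move 798 n2181 (.cons 881 n2020 (.cons 757 n2345 .nil))
noncomputable def n2347 : Strat := .move 799 n1921 (.cons 802 n2346 .nil)
noncomputable def n2348 : Strat := .move 839 n423 (.cons 838 n2347 .nil)
noncomputable def n2349 : Strat := .move 802 n1362 (.cons 803 n2326 .nil)
noncomputable def n2350 : Strat := .move 839 n423 (.cons 838 n2349 .nil)
noncomputable def n2351 : Strat := .move 922 n1079 (.cons 882 n99 .nil)
noncomputable def n2352 : Strat := .move 881 n97 (.cons 718 n2351 .nil)
noncomputable def n2353 : Strat := .move 678 n1337 (.cons 637 n1336 .nil)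
noncomputable def n2354 : Strat := .move 676 n1400 (.cons 635 n1399 .nil)
noncomputable def n2355 : Strat := .move 677 n2353 (.cons 719 n2354 .nil)
noncomputable def n2356 : Strat := .move 718 n370 (.cons 881 n2355 .nil)
noncomputable def n2357 : Strat := .win 760 0 757
noncomputable def n2358 : Strat := .move 757 n2357 (.cons 760 n1284 .nil)
noncomputable def n2359 : Strat := .move 717 n1416 (.cons 882 n2150 .nil)
noncomputable def n2360 : Strat := .move 758 n2358 (.cons 756 n2359 .nil)
noncomputable def n2361 : Strat := .move 758 n367 (.cons 717 n2358 .nil)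
noncomputable def n2362 : Strat := .move 883 n1904 (.cons 884 n1022 .nil)
noncomputable def n2363 : Strat := .move 881 n283 (.cons 922 n2362 .nil)
noncomputable def n2364 : Strat := .move 882 n2361 (.cons 758 n2363 .nil)
noncomputable def n2365 : Strat := .move 759 n2352 (.cons 922 n2356 (.cons 881 n2360 (.cons 718 n2364 .nil)))
noncomputable def n2366 : Strat := .move 839 n423 (.cons 838 n2365 .nil)
noncomputable def n2367 : Strat := .move 802 n1362 (.cons 803 n2366 .nil)
noncomputable def n2368 : Strat := .move 798 n1521 (.cons 760 n2020 .nil)
noncomputable def n2369 : Strat := .move 761 n1520 (.cons 762 n2368 .nil)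
noncomputable def n2370 : Strat := .move 799 n757 (.cons 758 n2369 (.cons 757 n1884 .nil))
noncomputable def n2371 : Strat := .move 802 n1362 (.cons 803 n2370 .nil)
noncomputable def n2372 : Strat := .move 882 n283 (.cons 922 n2362 .nil)
noncomputable def n2373 : Strat := .move 881 n97 (.cons 718 n2372 .nil)
noncomputable def n2374 : Strat := .win 799 6 676
noncomputable def n2375 : Strat := .move 676 n2374 (.cons 799 n2148 .nil)
noncomputable def n2376 : Strat := .move 717 n1416 (.cons 882 n2375 .nil)
noncomputable def n2377 : Strat := .win 798 6 716
noncomputable def n2378 : Strat := .move 716 n1632 (.cons 799 n2377 .nil)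
noncomputable def n2379 : Strat := .move 757 n1284 (.cons 756 n2378 .nil)
noncomputable def n2380 : Strat := .move 882 n367 (.cons 717 n2362 .nil)
noncomputable def n2381 : Strat := .move 758 n2376 (.cons 717 n2379 (.cons 799 n2380 .nil))
noncomputable def n2382 : Strat := .move 881 n97 (.cons 718 n2381 .nil)
noncomputable def n2383 : Strat := .move 677 n1335 (.cons 799 n2353 .nil)
noncomputable def n2384 : Strat := .move 718 n370 (.cons 881 n2383 .nil)
noncomputable def n2385 : Strat := .move 799 n490 (.cons 880 n885 .nil)
noncomputable def n2386 : Strat := .move 758 n1416 (.cons 882 n2385 .nil)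
noncomputable def n2387 : Strat := .move 717 n375 (.cons 676 n2386 .nil)
noncomputable def n2388 : Strat := .move 717 n376 (.cons 758 n375 .nil)
noncomputable def n2389 : Strat := .move 882 n372 (.cons 760 n2388 .nil)
noncomputable def n2390 : Strat := .move 719 n371 (.cons 678 n2389 .nil)
noncomputable def n2391 : Strat := .move 718 n2383 (.cons 637 n2387 (.cons 677 n2390 .nil))
noncomputable def n2392 : Strat := .move 881 n2372 (.cons 922 n2381 (.cons 884 n1274 (.cons 882 n1318 .nil)))
noncomputable def n2393 : Strat := .move 759 n2373 (.cons 922 n2382 (.cons 882 n2384 (.cons 881 n2391 (.cons 718 n2392 .nil))))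
noncomputable def n2394 : Strat := .move 839 n423 (.cons 838 n2393 .nil)
noncomputable def n2395 : Strat := .move 801 n2343 (.cons 803 n2348 (.cons 757 n2350 (.cons 799 n2367 (.cons 839 n2371 (.cons 802 n2394 .nil)))))
noncomputable def n2396 : Strat := .move 758 n93 (.cons 923 n1279 .nil)
noncomputable def n2397 : Strat := .move 882 n2396 (.cons 758 n2100 .nil)
noncomputable def n2398 : Strat := .move 759 n97 (.cons 718 n2397 .nil)
noncomputable def n2399 : Strat := .move 922 n99 (.cons 963 n1913 .nil)
noncomputable def n2400 : Strat := .move 799 n101 (.cons 963 n977 (.cons 922 n2398 (.cons 759 n2399 .nil)))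
noncomputable def n2401 : Strat := .move 758 n103 (.cons 716 n1829 .nil)
noncomputable def n2402 : Strat := .move 757 n1916 (.cons 798 n2401 .nil)
noncomputable def n2403 : Strat := .move 799 n100 (.cons 759 n2402 .nil)
noncomputable def n2404 : Strat := .move 922 n99 (.cons 963 n2403 .nil)
noncomputable def n2405 : Strat := .move 799 n2396 (.cons 758 n2100 .nil)
noncomputable def n2406 : Strat := .move 923 n1779 (.cons 799 n1357 .nil)
noncomputable def n2407 : Strat := .move 882 n2405 (.cons 923 n1906 (.cons 883 n2406 .nil))
noncomputable def n2408 : Strat := .move 759 n97 (.cons 718 n2407 .nil)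
noncomputable def n2409 : Strat := .move 799 n1913 (.cons 882 n2402 (.cons 758 n1927 .nil))
noncomputable def n2410 : Strat := .move 922 n99 (.cons 963 n2409 .nil)
noncomputable def n2411 : Strat := .move 881 n2400 (.cons 718 n1915 (.cons 923 n1750 (.cons 882 n2404 (.cons 922 n2408 (.cons 759 n2410 .nil)))))
noncomputable def n2412 : Strat := .move 718 n1415 (.cons 717 n1339 (.cons 677 n1422 .nil))
noncomputable def n2413 : Strat := .move 881 n283 (.cons 922 n1281 .nil)
noncomputable def n2414 : Strat := .move 882 n2413 (.cons 717 n2110 (.cons 881 n1396 .nil))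
noncomputable def n2415 : Strat := .move 759 n2322 (.cons 717 n1630 (.cons 677 n1649 (.cons 881 n2412 (.cons 718 n2414 .nil))))
noncomputable def n2416 : Strat := .move 799 n885 (.cons 677 n1349 .nil)
noncomputable def n2417 : Strat := .move 758 n1416 (.cons 882 n2416 .nil)
noncomputable def n2418 : Strat := .move 717 n375 (.cons 676 n2417 .nil)
noncomputable def n2419 : Strat := .move 718 n370 (.cons 881 n2418 .nil)
noncomputable def n2420 : Strat := .move 718 n2418 (.cons 882 n1339 (.cons 799 n1355 .nil))
noncomputable def n2421 : Strat := .move 882 n2413 (.cons 755 n1642 (.cons 881 n2288 (.cons 758 n2331 (.cons 923 n1637 (.cons 799 n2108 .nil)))))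
noncomputable def n2422 : Strat := .move 759 n2419 (.cons 882 n1630 (.cons 677 n1649 (.cons 881 n2420 (.cons 718 n2421 .nil))))
noncomputable def n2423 : Strat := .win 799 6 758
noncomputable def n2424 : Strat := .move 923 n2423 (.cons 799 n1291 .nil)
noncomputable def n2425 : Strat := .move 758 n367 (.cons 717 n2424 .nil)
noncomputable def n2426 : Strat := .move 881 n283 (.cons 922 n2425 .nil)
noncomputable def n2427 : Strat := .move 881 n2425 (.cons 923 n1906 .nil)
noncomputable def n2428 : Strat := .move 882 n2426 (.cons 922 n2427 (.cons 923 n2110 (.cons 881 n1359 .nil)))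
noncomputable def n2429 : Strat := .move 882 n372 (.cons 760 n377 .nil)
noncomputable def n2430 : Strat := .move 719 n371 (.cons 678 n2429 .nil)
noncomputable def n2431 : Strat := .move 718 n370 (.cons 881 n2430 .nil)
noncomputable def n2432 : Strat := .move 799 n384 (.cons 923 n1639 .nil)
noncomputable def n2433 : Strat := .move 758 n367 (.cons 717 n2432 .nil)
noncomputable def n2434 : Strat := .move 882 n2433 (.cons 758 n2335 (.cons 799 n2109 (.cons 719 n1396 (.cons 923 n1651 .nil))))
noncomputable def n2435 : Strat := .move 759 n1630 (.cons 718 n2428 (.cons 799 n2431 (.cons 719 n1649 (.cons 881 n2434 .nil))))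
noncomputable def n2436 : Strat := .move 718 n1339 (.cons 799 n2129 (.cons 719 n1415 .nil))
noncomputable def n2437 : Strat := .move 758 n1349 (.cons 716 n2302 .nil)
noncomputable def n2438 : Strat := .move 717 n375 (.cons 676 n2437 .nil)
noncomputable def n2439 : Strat := .move 799 n885 (.cons 677 n2438 .nil)
noncomputable def n2440 : Strat := .move 718 n370 (.cons 881 n2439 .nil)
noncomputable def n2441 : Strat := .move 838 n116 (.cons 801 n197 .nil)
noncomputable def n2442 : Strat := .move 801 n423 (.cons 838 n2349 .nil)
noncomputable def n2443 : Strat := .move 837 n193 (.cons 877 n949 .nil)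
noncomputable def n2444 : Strat := .move 878 n192 (.cons 879 n2443 .nil)
noncomputable def n2445 : Strat := .move 838 n116 (.cons 801 n2444 .nil)
noncomputable def n2446 : Strat := .move 799 n246 (.cons 755 n884 .nil)
noncomputable def n2447 : Strat := .move 756 n2446 (.cons 760 n249 .nil)
noncomputable def n2448 : Strat := .move 798 n332 (.cons 879 n2447 .nil)
noncomputable def n2449 : Strat := .move 797 n51 (.cons 796 n2448 .nil)
noncomputable def n2450 : Strat := .move 838 n197 (.cons 799 n2444 (.cons 878 n281 (.cons 837 n2449 .nil)))
noncomputable def n2451 : Strat := .move 801 n1284 (.cons 756 n1788 .nil)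
noncomputable def n2452 : Strat := .move 758 n2451 (.cons 802 n1278 (.cons 756 n2171 .nil))
noncomputable def n2453 : Strat := .move 881 n26 (.cons 716 n96 .nil)
noncomputable def n2454 : Strat := .move 798 n2453 (.cons 922 n2002 .nil)
noncomputable def n2455 : Strat := .move 716 n1485 (.cons 758 n2377 .nil)
noncomputable def n2456 : Strat := .move 881 n96 (.cons 922 n2455 .nil)
noncomputable def n2457 : Strat := .move 799 n2452 (.cons 755 n2454 (.cons 801 n2456 .nil))
noncomputable def n2458 : Strat := .win 880 3 716
noncomputable def n2459 : Strat := .move 716 n218 (.cons 676 n217 .nil)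
noncomputable def n2460 : Strat := .move 798 n2458 (.cons 880 n2459 .nil)
noncomputable def n2461 : Strat := .move 802 n2357 (.cons 760 n2058 .nil)
noncomputable def n2462 : Strat := .move 801 n1284 (.cons 756 n2461 .nil)
noncomputable def n2463 : Strat := .move 717 n2460 (.cons 798 n2462 .nil)
noncomputable def n2464 : Strat := .win 713 2 713
noncomputable def n2465 : Strat := .win 715 2 714
noncomputable def n2466 : Strat := .move 714 n2464 (.cons 713 n2465 .nil)
noncomputable def n2467 : Strat := .win 795 4 754
noncomputable def n2468 : Strat := .win 797 4 755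
noncomputable def n2469 : Strat := .move 796 n2467 (.cons 795 n2468 .nil)
noncomputable def n2470 : Strat := .move 755 n2466 (.cons 715 n2469 .nil)
noncomputable def n2471 : Strat := .move 756 n1277 (.cons 801 n2470 .nil)
noncomputable def n2472 : Strat := .move 760 n1385 (.cons 797 n1631 .nil)
noncomputable def n2473 : Strat := .move 716 n217 (.cons 881 n2472 .nil)
noncomputable def n2474 : Strat := .win 795 0 795
noncomputable def n2475 : Strat := .win 756 4 755
noncomputable def n2476 : Strat := .move 796 n2474 (.cons 795 n2475 .nil)
noncomputable def n2477 : Strat := .move 797 n1567 (.cons 760 n2476 .nil)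
noncomputable def n2478 : Strat := .move 717 n218 (.cons 676 n2458 .nil)
noncomputable def n2479 : Strat := .move 716 n217 (.cons 881 n2478 .nil)
noncomputable def n2480 : Strat := .move 798 n2473 (.cons 716 n2477 (.cons 797 n2479 .nil))
noncomputable def n2481 : Strat := .move 719 n436 (.cons 678 n2141 .nil)
noncomputable def n2482 : Strat := .move 801 n1283 (.cons 802 n2481 .nil)
noncomputable def n2483 : Strat := .move 798 n1385 (.cons 797 n217 .nil)
noncomputable def n2484 : Strat := .move 716 n1631 (.cons 715 n2483 .nil)
noncomputable def n2485 : Strat := .move 760 n2482 (.cons 801 n2484 .nil)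
noncomputable def n2486 : Strat := .move 758 n2463 (.cons 676 n2462 (.cons 760 n2471 (.cons 801 n2480 (.cons 756 n2485 .nil))))
noncomputable def n2487 : Strat := .win 799 2 757
noncomputable def n2488 : Strat := .move 802 n2487 (.cons 799 n2058 .nil)
noncomputable def n2489 : Strat := .move 801 n1284 (.cons 756 n2488 .nil)
noncomputable def n2490 : Strat := .move 799 n2451 (.cons 802 n1278 (.cons 756 n2171 .nil))
noncomputable def n2491 : Strat := .move 799 n1276 (.cons 755 n2171 .nil)
noncomputable def n2492 : Strat := .move 756 n1277 (.cons 801 n2491 .nil)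
noncomputable def n2493 : Strat := .move 797 n1310 (.cons 796 n1567 .nil)
noncomputable def n2494 : Strat := .move 799 n1219 (.cons 880 n2493 .nil)
noncomputable def n2495 : Strat := .win 799 1 675
noncomputable def n2496 : Strat := .win 635 1 634
noncomputable def n2497 : Strat := .move 676 n2495 (.cons 799 n2496 .nil)
noncomputable def n2498 : Strat := .move 717 n2458 (.cons 880 n2497 .nil)
noncomputable def n2499 : Strat := .move 798 n2494 (.cons 799 n2477 (.cons 760 n2498 .nil))
noncomputable def n2500 : Strat := .win 761 4 757
noncomputable def n2501 : Strat := .move 798 n2500 (.cons 761 n1385 .nil)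
noncomputable def n2502 : Strat := .move 799 n2171 (.cons 880 n2501 .nil)
noncomputable def n2503 : Strat := .move 760 n2482 (.cons 801 n2502 .nil)
noncomputable def n2504 : Strat := .move 758 n2489 (.cons 803 n2490 (.cons 802 n2492 (.cons 801 n2499 (.cons 799 n2462 (.cons 756 n2503 .nil)))))
noncomputable def n2505 : Strat := .move 922 n1317 (.cons 799 n99 .nil)
noncomputable def n2506 : Strat := .move 881 n26 (.cons 716 n2505 .nil)
noncomputable def n2507 : Strat := .move 799 n2453 (.cons 922 n2083 .nil)
noncomputable def n2508 : Strat := .move 799 n476 (.cons 675 n2083 .nil)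
noncomputable def n2509 : Strat := .move 716 n217 (.cons 881 n2508 .nil)
noncomputable def n2510 : Strat := .move 797 n1567 (.cons 760 n1310 .nil)
noncomputable def n2511 : Strat := .move 799 n2510 (.cons 796 n1219 .nil)
noncomputable def n2512 : Strat := .win 716 3 675
noncomputable def n2513 : Strat := .move 676 n2496 (.cons 635 n2512 .nil)
noncomputable def n2514 : Strat := .move 717 n2458 (.cons 880 n2513 .nil)
noncomputable def n2515 : Strat := .win 799 0 796
noncomputable def n2516 : Strat := .move 796 n2515 (.cons 799 n2474 .nil)
noncomputable def n2517 : Strat := .move 797 n1567 (.cons 760 n2516 .nil)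
noncomputable def n2518 : Strat := .move 758 n2511 (.cons 799 n2514 (.cons 880 n2517 .nil))
noncomputable def n2519 : Strat := .win 880 6 757
noncomputable def n2520 : Strat := .move 922 n2519 (.cons 880 n99 .nil)
noncomputable def n2521 : Strat := .move 881 n26 (.cons 716 n2520 .nil)
noncomputable def n2522 : Strat := .move 879 n1298 (.cons 878 n1192 .nil)
noncomputable def n2523 : Strat := .move 881 n25 (.cons 922 n2522 .nil)
noncomputable def n2524 : Strat := .move 799 n2083 (.cons 796 n30 .nil)
noncomputable def n2525 : Strat := .move 880 n2523 (.cons 881 n2524 .nil)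
noncomputable def n2526 : Strat := .move 798 n2506 (.cons 963 n2507 (.cons 922 n2509 (.cons 881 n2518 (.cons 799 n2521 (.cons 716 n2525 .nil)))))
noncomputable def n2527 : Strat := .win 799 0 755
noncomputable def n2528 : Strat := .move 755 n2527 (.cons 799 n2466 .nil)
noncomputable def n2529 : Strat := .move 756 n1277 (.cons 801 n2528 .nil)
noncomputable def n2530 : Strat := .move 798 n2477 (.cons 797 n2506 .nil)
noncomputable def n2531 : Strat := .move 716 n1631 (.cons 715 n217 .nil)
noncomputable def n2532 : Strat := .move 798 n1385 (.cons 797 n2531 .nil)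
noncomputable def n2533 : Strat := .move 760 n2482 (.cons 801 n2532 .nil)
noncomputable def n2534 : Strat := .move 758 n2489 (.cons 803 n2529 (.cons 801 n2530 (.cons 756 n2533 .nil)))
noncomputable def n2535 : Strat := .move 799 n2453 (.cons 922 n2002 .nil)
noncomputable def n2536 : Strat := .move 799 n2002 (.cons 802 n2083 .nil)
noncomputable def n2537 : Strat := .move 715 n223 (.cons 756 n222 .nil)
noncomputable def n2538 : Strat := .move 716 n217 (.cons 881 n2537 .nil)
noncomputable def n2539 : Strat := .move 920 n165 (.cons 961 n1996 .nil)
noncomputable def n2540 : Strat := .win 797 7 756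
noncomputable def n2541 : Strat := .move 756 n2540 (.cons 797 n35 .nil)
noncomputable def n2542 : Strat := .move 921 n2539 (.cons 879 n2541 .nil)
noncomputable def n2543 : Strat := .move 880 n27 (.cons 716 n2523 (.cons 922 n2538 (.cons 881 n2542 .nil)))
noncomputable def n2544 : Strat := .move 798 n2506 (.cons 963 n2535 (.cons 881 n2536 (.cons 799 n2543 .nil)))
noncomputable def n2545 : Strat := .move 881 n103 (.cons 716 n96 .nil)
noncomputable def n2546 : Strat := .move 799 n2171 (.cons 880 n2545 .nil)
noncomputable def n2547 : Strat := .move 678 n2137 (.cons 801 n2136 .nil)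
noncomputable def n2548 : Strat := .move 719 n2141 (.cons 720 n2547 .nil)
noncomputable def n2549 : Strat := .win 717 2 716
noncomputable def n2550 : Strat := .move 716 n2549 (.cons 717 n1631 .nil)
noncomputable def n2551 : Strat := .win 721 5 717
noncomputable def n2552 : Strat := .win 719 5 716
noncomputable def n2553 : Strat := .move 720 n2551 (.cons 721 n2552 .nil)
noncomputable def n2554 : Strat := .move 761 n2550 (.cons 715 n2553 .nil)
noncomputable def n2555 : Strat := .move 760 n1380 (.cons 756 n2482 (.cons 802 n2548 (.cons 801 n2554 .nil)))
noncomputable def n2556 : Strat := .move 758 n2489 (.cons 803 n2490 (.cons 801 n2546 (.cons 799 n2555 .nil)))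
noncomputable def n2557 : Strat := .move 757 n2457 (.cons 799 n2486 (.cons 716 n2504 (.cons 756 n2526 (.cons 717 n2534 (.cons 758 n2544 (.cons 798 n2556 .nil))))))
noncomputable def n2558 : Strat := .move 839 n2441 (.cons 837 n2442 (.cons 799 n2445 (.cons 801 n2450 (.cons 838 n2557 .nil))))
noncomputable def n2559 : Strat := .move 759 n1630 (.cons 881 n2436 (.cons 799 n2130 (.cons 678 n2440 (.cons 718 n2558 .nil))))
noncomputable def n2560 : Strat := .move 800 n1930 (.cons 881 n2098 (.cons 799 n2164 (.cons 759 n2267 (.cons 801 n2276 (.cons 839 n1653 (.cons 922 n2321 (.cons 758 n2341 (.cons 923 n2395 (.cons 717 n2411 (.cons 760 n2415 (.cons 924 n2422 (.cons 716 n2435 (.cons 882 n2559 .nil)))))))))))))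
noncomputable def n2561 : Strat := .move 841 n114 (.cons 843 n294 (.cons 718 n354 (.cons 796 n484 (.cons 884 n553 (.cons 756 n574 (.cons 879 n622 (.cons 882 n650 (.cons 757 n688 (.cons 797 n774 (.cons 798 n821 (.cons 881 n862 (.cons 758 n872 (.cons 880 n915 (.cons 802 n1059 (.cons 883 n1076 (.cons 799 n1132 (.cons 800 n1137 (.cons 838 n1147 (.cons 801 n1273 (.cons 839 n1903 (.cons 842 n2560 .nil)))))))))))))))))))))

end Vale.Agent.Snaky.R4_3
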