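import Vale.Agent.Snaky.Assemble

namespace Vale.Agent.Snaky.R4_4

open Vale.Agent.Snaky

noncomputable def n0 : Strat := .win 675 7 675
noncomputable def n1 : Strat := .win 757 7 716
noncomputable def n2 : Strat := .win 677 3 676
noncomputable def n3 : Strat := .win 759 3 717
noncomputable def n4 : Strat := .move 718 n2 (.cons 677 n3 .nil)
noncomputable def n5 : Strat := .move 881 n1 (.cons 757 n4 .nil)
noncomputable def n6 : Strat := .move 716 n0 (.cons 675 n5 .nil)
noncomputable def n7 : Strat := .win 880 1 716
noncomputable def n8 : Strat := .win 798 1 675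
noncomputable def n9 : Strat := .win 882 6 717
noncomputable def n10 : Strat := .win 800 6 676
noncomputable def n11 : Strat := .move 841 n9 (.cons 882 n10 .nil)
noncomputable def n12 : Strat := .move 676 n8 (.cons 798 n11 .nil)
noncomputable def n13 : Strat := .move 839 n7 (.cons 880 n12 .nil)
noncomputable def n14 : Strat := .move 717 n6 (.cons 881 n13 .nil)
noncomputable def n15 : Strat := .win 716 7 716
noncomputable def n16 : Strat := .win 798 7 757
noncomputable def n17 : Strat := .win 882 6 758
noncomputable def n18 : Strat := .win 964 6 799
noncomputable def n19 : Strat := .move 923 n17 (.cons 882 n18 .nil)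
noncomputable def n20 : Strat := .move 922 n16 (.cons 798 n19 .nil)
noncomputable def n21 : Strat := .move 757 n15 (.cons 716 n20 .nil)
noncomputable def n22 : Strat := .win 718 3 717
noncomputable def n23 : Strat := .win 800 3 758
noncomputable def n24 : Strat := .move 759 n22 (.cons 718 n23 .nil)
noncomputable def n25 : Strat := .move 922 n16 (.cons 798 n24 .nil)
noncomputable def n26 : Strat := .move 757 n15 (.cons 716 n25 .nil)
noncomputable def n27 : Strat := .win 921 1 757
noncomputable def n28 : Strat := .win 923 6 758
noncomputable def n29 : Strat := .win 839 1 716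
noncomputable def n30 : Strat := .win 841 6 717
noncomputable def n31 : Strat := .move 717 n29 (.cons 839 n30 .nil)
noncomputable def n32 : Strat := .move 882 n28 (.cons 923 n31 .nil)
noncomputable def n33 : Strat := .move 880 n27 (.cons 921 n32 .nil)
noncomputable def n34 : Strat := .move 881 n21 (.cons 882 n26 (.cons 922 n33 .nil))
noncomputable def n35 : Strat := .win 880 1 757
noncomputable def n36 : Strat := .win 962 1 798
noncomputable def n37 : Strat := .move 921 n35 (.cons 880 n36 .nil)
noncomputable def n38 : Strat := .move 922 n23 (.cons 800 n37 .nil)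
noncomputable def n39 : Strat := .move 759 n22 (.cons 718 n38 .nil)
noncomputable def n40 : Strat := .win 801 0 756
noncomputable def n41 : Strat := .win 755 0 755
noncomputable def n42 : Strat := .move 800 n40 (.cons 801 n41 .nil)
noncomputable def n43 : Strat := .win 760 4 756
noncomputable def n44 : Strat := .win 796 4 755
noncomputable def n45 : Strat := .move 797 n43 (.cons 760 n44 .nil)
noncomputable def n46 : Strat := .win 761 4 757
noncomputable def n47 : Strat := .win 797 4 756
noncomputable def n48 : Strat := .move 760 n46 (.cons 761 n47 .nil)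
noncomputable def n49 : Strat := .win 839 7 715
noncomputable def n50 : Strat := .win 714 2 714
noncomputable def n51 : Strat := .move 715 n49 (.cons 839 n50 .nil)
noncomputable def n52 : Strat := .move 798 n45 (.cons 796 n48 (.cons 760 n51 .nil))
noncomputable def n53 : Strat := .move 756 n42 (.cons 755 n52 .nil)
noncomputable def n54 : Strat := .move 880 n27 (.cons 921 n53 .nil)
noncomputable def n55 : Strat := .move 759 n22 (.cons 718 n54 .nil)
noncomputable def n56 : Strat := .move 757 n15 (.cons 716 n55 .nil)
noncomputable def n57 : Strat := .move 881 n26 (.cons 757 n39 (.cons 759 n21 (.cons 922 n56 .nil)))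
noncomputable def n58 : Strat := .win 716 7 675
noncomputable def n59 : Strat := .win 634 7 634
noncomputable def n60 : Strat := .move 675 n58 (.cons 716 n59 .nil)
noncomputable def n61 : Strat := .move 676 n10 (.cons 800 n60 .nil)
noncomputable def n62 : Strat := .move 841 n9 (.cons 882 n61 .nil)
noncomputable def n63 : Strat := .win 718 3 676
noncomputable def n64 : Strat := .win 636 3 635
noncomputable def n65 : Strat := .move 677 n63 (.cons 718 n64 .nil)
noncomputable def n66 : Strat := .move 676 n8 (.cons 798 n65 .nil)
noncomputable def n67 : Strat := .move 839 n7 (.cons 880 n66 .nil)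
noncomputable def n68 : Strat := .win 760 0 715
noncomputable def n69 : Strat := .win 714 0 714
noncomputable def n70 : Strat := .move 759 n68 (.cons 760 n69 .nil)
noncomputable def n71 : Strat := .win 719 4 715
noncomputable def n72 : Strat := .win 755 4 714
noncomputable def n73 : Strat := .move 756 n71 (.cons 719 n72 .nil)
noncomputable def n74 : Strat := .win 720 4 716
noncomputable def n75 : Strat := .win 756 4 715
noncomputable def n76 : Strat := .move 719 n74 (.cons 720 n75 .nil)
noncomputable def n77 : Strat := .win 798 7 674
noncomputable def n78 : Strat := .win 673 2 673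
noncomputable def n79 : Strat := .move 674 n77 (.cons 798 n78 .nil)
noncomputable def n80 : Strat := .move 757 n73 (.cons 755 n76 (.cons 719 n79 .nil))
noncomputable def n81 : Strat := .move 715 n70 (.cons 714 n80 .nil)
noncomputable def n82 : Strat := .move 839 n7 (.cons 880 n81 .nil)
noncomputable def n83 : Strat := .move 718 n2 (.cons 677 n82 .nil)
noncomputable def n84 : Strat := .move 716 n0 (.cons 675 n83 .nil)
noncomputable def n85 : Strat := .move 717 n13 (.cons 839 n62 (.cons 841 n67 (.cons 676 n84 .nil)))
noncomputable def n86 : Strat := .move 839 n7 (.cons 880 n8 .nil)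
noncomputable def n87 : Strat := .move 676 n10 (.cons 800 n86 .nil)
noncomputable def n88 : Strat := .move 841 n9 (.cons 882 n87 .nil)
noncomputable def n89 : Strat := .move 882 n30 (.cons 841 n28 .nil)
noncomputable def n90 : Strat := .move 881 n3 (.cons 759 n89 .nil)
noncomputable def n91 : Strat := .move 718 n2 (.cons 677 n90 .nil)
noncomputable def n92 : Strat := .move 880 n29 (.cons 839 n27 .nil)
noncomputable def n93 : Strat := .move 881 n3 (.cons 759 n92 .nil)
noncomputable def n94 : Strat := .move 718 n2 (.cons 677 n93 .nil)
noncomputable def n95 : Strat := .move 717 n88 (.cons 798 n91 (.cons 841 n94 .nil))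
noncomputable def n96 : Strat := .move 881 n1 (.cons 757 n89 .nil)
noncomputable def n97 : Strat := .move 716 n0 (.cons 675 n96 .nil)
noncomputable def n98 : Strat := .move 676 n8 (.cons 798 n60 .nil)
noncomputable def n99 : Strat := .move 839 n7 (.cons 880 n98 .nil)
noncomputable def n100 : Strat := .move 717 n13 (.cons 839 n97 (.cons 882 n99 .nil))
noncomputable def n101 : Strat := .move 757 n15 (.cons 716 n16 .nil)
noncomputable def n102 : Strat := .move 922 n23 (.cons 800 n101 .nil)
noncomputable def n103 : Strat := .move 759 n22 (.cons 718 n102 .nil)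
noncomputable def n104 : Strat := .move 716 n0 (.cons 675 n1 .nil)
noncomputable def n105 : Strat := .move 717 n30 (.cons 841 n104 .nil)
noncomputable def n106 : Strat := .move 882 n28 (.cons 923 n105 .nil)
noncomputable def n107 : Strat := .move 922 n23 (.cons 800 n19 .nil)
noncomputable def n108 : Strat := .move 759 n22 (.cons 718 n107 .nil)
noncomputable def n109 : Strat := .move 881 n103 (.cons 759 n106 (.cons 716 n108 .nil))
noncomputable def n110 : Strat := .win 881 7 716
noncomputable def n111 : Strat := .win 755 5 714
noncomputable def n112 : Strat := .move 756 n71 (.cons 719 n111 .nil)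
noncomputable def n113 : Strat := .move 757 n110 (.cons 881 n112 .nil)
noncomputable def n114 : Strat := .move 718 n2 (.cons 677 n113 .nil)
noncomputable def n115 : Strat := .move 716 n0 (.cons 675 n114 .nil)
noncomputable def n116 : Strat := .move 717 n115 (.cons 718 n99 (.cons 716 n67 .nil))
noncomputable def n117 : Strat := .move 881 n3 (.cons 759 n104 .nil)
noncomputable def n118 : Strat := .move 718 n2 (.cons 677 n117 .nil)
noncomputable def n119 : Strat := .move 717 n118 (.cons 757 n91 (.cons 718 n62 .nil))
noncomputable def n120 : Strat := .move 758 n14 (.cons 677 n34 (.cons 717 n57 (.cons 881 n85 (.cons 757 n95 (.cons 759 n100 (.cons 839 n109 (.cons 882 n116 (.cons 798 n119 .nil))))))))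
noncomputable def n121 : Strat := .win 717 6 717
noncomputable def n122 : Strat := .win 843 4 839
noncomputable def n123 : Strat := .win 879 5 838
noncomputable def n124 : Strat := .move 842 n122 (.cons 843 n123 .nil)
noncomputable def n125 : Strat := .move 841 n121 (.cons 717 n124 .nil)
noncomputable def n126 : Strat := .move 882 n28 (.cons 923 n125 .nil)
noncomputable def n127 : Strat := .move 880 n27 (.cons 921 n126 .nil)
noncomputable def n128 : Strat := .move 758 n26 (.cons 716 n127 .nil)
noncomputable def n129 : Strat := .win 759 3 758
noncomputable def n130 : Strat := .win 841 3 799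
noncomputable def n131 : Strat := .win 757 7 757
noncomputable def n132 : Strat := .win 839 7 798
noncomputable def n133 : Strat := .move 798 n131 (.cons 757 n132 .nil)
noncomputable def n134 : Strat := .move 963 n130 (.cons 841 n133 .nil)
noncomputable def n135 : Strat := .move 800 n129 (.cons 759 n134 .nil)
noncomputable def n136 : Strat := .win 923 6 799
noncomputable def n137 : Strat := .win 1005 6 840
noncomputable def n138 : Strat := .move 964 n136 (.cons 923 n137 .nil)
noncomputable def n139 : Strat := .move 963 n132 (.cons 839 n138 .nil)
noncomputable def n140 : Strat := .move 798 n131 (.cons 757 n139 .nil)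
noncomputable def n141 : Strat := .move 963 n130 (.cons 841 n138 .nil)
noncomputable def n142 : Strat := .move 800 n129 (.cons 759 n141 .nil)
noncomputable def n143 : Strat := .move 758 n17 (.cons 882 n24 .nil)
noncomputable def n144 : Strat := .move 923 n18 (.cons 964 n143 .nil)
noncomputable def n145 : Strat := .move 922 n135 (.cons 841 n140 (.cons 798 n142 (.cons 963 n144 .nil)))
noncomputable def n146 : Strat := .move 800 n129 (.cons 759 n130 .nil)
noncomputable def n147 : Strat := .move 963 n132 (.cons 839 n146 .nil)
noncomputable def n148 : Strat := .move 798 n131 (.cons 757 n147 .nil)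
noncomputable def n149 : Strat := .move 758 n35 (.cons 880 n24 .nil)
noncomputable def n150 : Strat := .move 921 n36 (.cons 962 n149 .nil)
noncomputable def n151 : Strat := .win 921 1 798
noncomputable def n152 : Strat := .win 1003 1 839
noncomputable def n153 : Strat := .move 962 n151 (.cons 921 n152 .nil)
noncomputable def n154 : Strat := .move 963 n132 (.cons 839 n153 .nil)
noncomputable def n155 : Strat := .move 798 n131 (.cons 757 n154 .nil)
noncomputable def n156 : Strat := .move 922 n148 (.cons 798 n150 (.cons 759 n155 .nil))
noncomputable def n157 : Strat := .move 963 n130 (.cons 841 n153 .nil)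
noncomputable def n158 : Strat := .move 800 n129 (.cons 759 n157 .nil)
noncomputable def n159 : Strat := .win 842 0 797
noncomputable def n160 : Strat := .win 796 0 796
noncomputable def n161 : Strat := .move 841 n159 (.cons 842 n160 .nil)
noncomputable def n162 : Strat := .win 801 4 797
noncomputable def n163 : Strat := .win 837 4 796
noncomputable def n164 : Strat := .move 838 n162 (.cons 801 n163 .nil)
noncomputable def n165 : Strat := .win 802 4 798
noncomputable def n166 : Strat := .win 838 4 797
noncomputable def n167 : Strat := .move 801 n165 (.cons 802 n166 .nil)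
noncomputable def n168 : Strat := .win 880 7 756
noncomputable def n169 : Strat := .win 755 2 755
noncomputable def n170 : Strat := .move 756 n168 (.cons 880 n169 .nil)
noncomputable def n171 : Strat := .move 839 n164 (.cons 837 n167 (.cons 801 n170 .nil))
noncomputable def n172 : Strat := .move 797 n161 (.cons 796 n171 .nil)
noncomputable def n173 : Strat := .move 921 n36 (.cons 962 n172 .nil)
noncomputable def n174 : Strat := .move 800 n129 (.cons 759 n173 .nil)
noncomputable def n175 : Strat := .move 798 n131 (.cons 757 n174 .nil)
noncomputable def n176 : Strat := .move 922 n148 (.cons 839 n158 (.cons 963 n175 (.cons 841 n155 .nil)))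
noncomputable def n177 : Strat := .win 758 1 757
noncomputable def n178 : Strat := .win 878 0 878
noncomputable def n179 : Strat := .win 924 2 879
noncomputable def n180 : Strat := .move 879 n178 (.cons 878 n179 .nil)
noncomputable def n181 : Strat := .move 880 n177 (.cons 758 n180 .nil)
noncomputable def n182 : Strat := .move 923 n18 (.cons 964 n181 .nil)
noncomputable def n183 : Strat := .move 921 n36 (.cons 962 n182 .nil)
noncomputable def n184 : Strat := .win 963 7 798
noncomputable def n185 : Strat := .win 756 7 756
noncomputable def n186 : Strat := .win 795 0 795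
noncomputable def n187 : Strat := .win 841 0 796
noncomputable def n188 : Strat := .move 796 n186 (.cons 795 n187 .nil)
noncomputable def n189 : Strat := .move 797 n185 (.cons 756 n188 .nil)
noncomputable def n190 : Strat := .move 880 n177 (.cons 758 n189 .nil)
noncomputable def n191 : Strat := .move 921 n36 (.cons 962 n190 .nil)
noncomputable def n192 : Strat := .move 839 n184 (.cons 963 n191 .nil)
noncomputable def n193 : Strat := .move 798 n131 (.cons 757 n192 .nil)
noncomputable def n194 : Strat := .move 922 n183 (.cons 964 n193 (.cons 880 n140 .nil))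
noncomputable def n195 : Strat := .move 880 n27 (.cons 921 n29 .nil)
noncomputable def n196 : Strat := .move 717 n30 (.cons 841 n195 .nil)
noncomputable def n197 : Strat := .move 882 n28 (.cons 923 n196 .nil)
noncomputable def n198 : Strat := .move 718 n3 (.cons 759 n2 .nil)
noncomputable def n199 : Strat := .move 717 n30 (.cons 841 n198 .nil)
noncomputable def n200 : Strat := .move 882 n28 (.cons 923 n199 .nil)
noncomputable def n201 : Strat := .move 758 n197 (.cons 841 n39 (.cons 921 n200 .nil))
noncomputable def n202 : Strat := .move 882 n28 (.cons 923 n30 .nil)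
noncomputable def n203 : Strat := .move 717 n29 (.cons 839 n202 .nil)
noncomputable def n204 : Strat := .move 880 n27 (.cons 921 n203 .nil)
noncomputable def n205 : Strat := .move 758 n204 (.cons 717 n56 (.cons 839 n200 .nil))
noncomputable def n206 : Strat := .move 922 n16 (.cons 798 n37 .nil)
noncomputable def n207 : Strat := .move 757 n15 (.cons 716 n206 .nil)
noncomputable def n208 : Strat := .move 717 n29 (.cons 839 n198 .nil)
noncomputable def n209 : Strat := .move 880 n27 (.cons 921 n208 .nil)
noncomputable def n210 : Strat := .move 758 n26 (.cons 759 n207 (.cons 798 n39 (.cons 922 n209 .nil)))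
noncomputable def n211 : Strat := .move 881 n128 (.cons 880 n145 (.cons 882 n156 (.cons 758 n176 (.cons 759 n194 (.cons 798 n201 (.cons 922 n205 (.cons 841 n210 .nil)))))))
noncomputable def n212 : Strat := .win 837 5 796
noncomputable def n213 : Strat := .move 838 n162 (.cons 801 n212 .nil)
noncomputable def n214 : Strat := .move 839 n184 (.cons 963 n213 .nil)
noncomputable def n215 : Strat := .move 800 n129 (.cons 759 n214 .nil)
noncomputable def n216 : Strat := .move 798 n131 (.cons 757 n215 .nil)
noncomputable def n217 : Strat := .move 758 n35 (.cons 880 n101 .nil)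
noncomputable def n218 : Strat := .move 921 n36 (.cons 962 n217 .nil)
noncomputable def n219 : Strat := .move 922 n216 (.cons 801 n150 (.cons 800 n218 .nil))
noncomputable def n220 : Strat := .move 922 n23 (.cons 800 n16 .nil)
noncomputable def n221 : Strat := .move 757 n15 (.cons 716 n220 .nil)
noncomputable def n222 : Strat := .move 759 n22 (.cons 718 n221 .nil)
noncomputable def n223 : Strat := .move 758 n209 (.cons 880 n222 (.cons 759 n204 .nil))
noncomputable def n224 : Strat := .move 716 n1 (.cons 757 n0 .nil)
noncomputable def n225 : Strat := .move 717 n30 (.cons 841 n224 .nil)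
noncomputable def n226 : Strat := .move 882 n28 (.cons 923 n225 .nil)
noncomputable def n227 : Strat := .move 758 n209 (.cons 718 n33 (.cons 921 n226 (.cons 717 n56 .nil)))
noncomputable def n228 : Strat := .win 922 7 757
noncomputable def n229 : Strat := .win 839 1 675
noncomputable def n230 : Strat := .win 635 1 634
noncomputable def n231 : Strat := .move 676 n229 (.cons 839 n230 .nil)
noncomputable def n232 : Strat := .move 717 n30 (.cons 841 n231 .nil)
noncomputable def n233 : Strat := .move 882 n28 (.cons 923 n232 .nil)
noncomputable def n234 : Strat := .move 798 n228 (.cons 922 n233 .nil)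
noncomputable def n235 : Strat := .move 757 n15 (.cons 716 n234 .nil)
noncomputable def n236 : Strat := .move 717 n29 (.cons 839 n224 .nil)
noncomputable def n237 : Strat := .move 880 n27 (.cons 921 n236 .nil)
noncomputable def n238 : Strat := .win 842 5 838
noncomputable def n239 : Strat := .win 878 5 837
noncomputable def n240 : Strat := .move 879 n238 (.cons 842 n239 .nil)
noncomputable def n241 : Strat := .move 880 n27 (.cons 921 n240 .nil)
noncomputable def n242 : Strat := .move 841 n121 (.cons 717 n241 .nil)
noncomputable def n243 : Strat := .move 882 n28 (.cons 923 n242 .nil)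
noncomputable def n244 : Strat := .move 757 n15 (.cons 716 n243 .nil)
noncomputable def n245 : Strat := .win 919 4 878
noncomputable def n246 : Strat := .win 839 1 756
noncomputable def n247 : Strat := .move 920 n245 (.cons 919 n246 .nil)
noncomputable def n248 : Strat := .move 841 n238 (.cons 842 n239 .nil)
noncomputable def n249 : Strat := .move 879 n247 (.cons 839 n248 .nil)
noncomputable def n250 : Strat := .move 882 n28 (.cons 923 n249 .nil)
noncomputable def n251 : Strat := .move 880 n27 (.cons 921 n250 .nil)
noncomputable def n252 : Strat := .move 798 n228 (.cons 922 n251 .nil)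
noncomputable def n253 : Strat := .move 757 n15 (.cons 716 n252 .nil)
noncomputable def n254 : Strat := .move 758 n204 (.cons 880 n235 (.cons 923 n237 (.cons 839 n244 (.cons 717 n253 .nil))))
noncomputable def n255 : Strat := .win 922 3 758
noncomputable def n256 : Strat := .win 756 0 756
noncomputable def n257 : Strat := .win 802 2 757
noncomputable def n258 : Strat := .move 801 n256 (.cons 756 n257 .nil)
noncomputable def n259 : Strat := .move 757 n15 (.cons 716 n258 .nil)
noncomputable def n260 : Strat := .move 800 n255 (.cons 922 n259 .nil)
noncomputable def n261 : Strat := .move 759 n22 (.cons 718 n260 .nil)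
noncomputable def n262 : Strat := .win 719 3 718
noncomputable def n263 : Strat := .win 762 4 758
noncomputable def n264 : Strat := .win 798 4 757
noncomputable def n265 : Strat := .move 761 n263 (.cons 762 n264 .nil)
noncomputable def n266 : Strat := .move 760 n262 (.cons 719 n265 .nil)
noncomputable def n267 : Strat := .move 841 n121 (.cons 717 n266 .nil)
noncomputable def n268 : Strat := .move 882 n28 (.cons 923 n267 .nil)
noncomputable def n269 : Strat := .move 800 n255 (.cons 922 n268 .nil)
noncomputable def n270 : Strat := .move 759 n22 (.cons 718 n269 .nil)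
noncomputable def n271 : Strat := .move 798 n47 (.cons 797 n46 .nil)
noncomputable def n272 : Strat := .win 800 3 718
noncomputable def n273 : Strat := .win 720 5 716
noncomputable def n274 : Strat := .move 719 n272 (.cons 800 n273 .nil)
noncomputable def n275 : Strat := .move 760 n271 (.cons 761 n274 .nil)
noncomputable def n276 : Strat := .move 841 n121 (.cons 717 n275 .nil)
noncomputable def n277 : Strat := .move 882 n28 (.cons 923 n276 .nil)
noncomputable def n278 : Strat := .move 757 n15 (.cons 716 n277 .nil)
noncomputable def n279 : Strat := .move 759 n22 (.cons 718 n278 .nil)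
noncomputable def n280 : Strat := .move 758 n261 (.cons 759 n235 (.cons 716 n270 (.cons 922 n279 .nil)))
noncomputable def n281 : Strat := .move 963 n130 (.cons 841 n132 .nil)
noncomputable def n282 : Strat := .move 800 n129 (.cons 759 n281 .nil)
noncomputable def n283 : Strat := .move 798 n131 (.cons 757 n282 .nil)
noncomputable def n284 : Strat := .move 756 n169 (.cons 755 n168 .nil)
noncomputable def n285 : Strat := .move 800 n167 (.cons 838 n284 .nil)
noncomputable def n286 : Strat := .move 797 n188 (.cons 841 n285 .nil)
noncomputable def n287 : Strat := .move 921 n36 (.cons 962 n286 .nil)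
noncomputable def n288 : Strat := .move 839 n184 (.cons 963 n287 .nil)
noncomputable def n289 : Strat := .move 798 n131 (.cons 757 n288 .nil)
noncomputable def n290 : Strat := .move 800 n129 (.cons 759 n213 .nil)
noncomputable def n291 : Strat := .move 839 n184 (.cons 963 n290 .nil)
noncomputable def n292 : Strat := .move 798 n131 (.cons 757 n291 .nil)
noncomputable def n293 : Strat := .move 922 n283 (.cons 757 n158 (.cons 963 n175 (.cons 759 n289 (.cons 841 n292 (.cons 800 n155 .nil)))))
noncomputable def n294 : Strat := .win 841 6 676
noncomputable def n295 : Strat := .win 635 6 635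
noncomputable def n296 : Strat := .move 676 n294 (.cons 841 n295 .nil)
noncomputable def n297 : Strat := .move 717 n29 (.cons 839 n296 .nil)
noncomputable def n298 : Strat := .move 880 n27 (.cons 921 n297 .nil)
noncomputable def n299 : Strat := .move 800 n255 (.cons 922 n298 .nil)
noncomputable def n300 : Strat := .move 759 n22 (.cons 718 n299 .nil)
noncomputable def n301 : Strat := .win 925 0 880
noncomputable def n302 : Strat := .win 841 6 759
noncomputable def n303 : Strat := .move 924 n301 (.cons 925 n302 .nil)
noncomputable def n304 : Strat := .win 838 2 838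
noncomputable def n305 : Strat := .win 884 2 839
noncomputable def n306 : Strat := .move 839 n304 (.cons 838 n305 .nil)
noncomputable def n307 : Strat := .move 883 n303 (.cons 841 n306 .nil)
noncomputable def n308 : Strat := .move 880 n27 (.cons 921 n307 .nil)
noncomputable def n309 : Strat := .move 882 n28 (.cons 923 n308 .nil)
noncomputable def n310 : Strat := .move 800 n255 (.cons 922 n309 .nil)
noncomputable def n311 : Strat := .move 759 n22 (.cons 718 n310 .nil)
noncomputable def n312 : Strat := .move 758 n204 (.cons 882 n300 (.cons 839 n270 (.cons 717 n311 (.cons 841 n209 .nil))))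
noncomputable def n313 : Strat := .move 756 n40 (.cons 801 n41 .nil)
noncomputable def n314 : Strat := .move 757 n15 (.cons 716 n313 .nil)
noncomputable def n315 : Strat := .move 841 n121 (.cons 717 n314 .nil)
noncomputable def n316 : Strat := .move 882 n28 (.cons 923 n315 .nil)
noncomputable def n317 : Strat := .move 800 n255 (.cons 922 n316 .nil)
noncomputable def n318 : Strat := .move 759 n22 (.cons 718 n317 .nil)
noncomputable def n319 : Strat := .move 758 n209 (.cons 759 n204 (.cons 921 n318 (.cons 717 n261 .nil)))
noncomputable def n320 : Strat := .move 800 n255 (.cons 922 n258 .nil)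
noncomputable def n321 : Strat := .move 757 n15 (.cons 716 n320 .nil)
noncomputable def n322 : Strat := .move 759 n22 (.cons 718 n321 .nil)
noncomputable def n323 : Strat := .move 758 n322 (.cons 759 n244 (.cons 757 n270 .nil))
noncomputable def n324 : Strat := .move 881 n219 (.cons 801 n223 (.cons 922 n227 (.cons 759 n254 (.cons 880 n280 (.cons 758 n293 (.cons 757 n312 (.cons 798 n319 (.cons 839 n323 .nil))))))))
noncomputable def n325 : Strat := .move 758 n35 (.cons 880 n19 .nil)
noncomputable def n326 : Strat := .move 921 n36 (.cons 962 n325 .nil)
noncomputable def n327 : Strat := .move 922 n135 (.cons 841 n326 .nil)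
noncomputable def n328 : Strat := .move 759 n22 (.cons 718 n220 .nil)
noncomputable def n329 : Strat := .move 757 n15 (.cons 716 n328 .nil)
noncomputable def n330 : Strat := .move 758 n204 (.cons 841 n329 .nil)
noncomputable def n331 : Strat := .win 883 2 838
noncomputable def n332 : Strat := .win 837 0 837
noncomputable def n333 : Strat := .move 838 n331 (.cons 883 n332 .nil)
noncomputable def n334 : Strat := .move 883 n305 (.cons 884 n304 .nil)
noncomputable def n335 : Strat := .win 798 1 756
noncomputable def n336 : Strat := .move 920 n335 (.cons 798 n245 .nil)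
noncomputable def n337 : Strat := .move 839 n333 (.cons 837 n334 (.cons 883 n336 .nil))
noncomputable def n338 : Strat := .move 879 n248 (.cons 878 n337 .nil)
noncomputable def n339 : Strat := .move 757 n15 (.cons 716 n338 .nil)
noncomputable def n340 : Strat := .move 882 n28 (.cons 923 n339 .nil)
noncomputable def n341 : Strat := .move 880 n27 (.cons 921 n340 .nil)
noncomputable def n342 : Strat := .move 758 n204 (.cons 841 n237 (.cons 880 n226 (.cons 717 n341 .nil)))
noncomputable def n343 : Strat := .move 839 n166 (.cons 838 n165 .nil)
noncomputable def n344 : Strat := .win 843 0 798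
noncomputable def n345 : Strat := .win 841 0 797
noncomputable def n346 : Strat := .move 842 n344 (.cons 843 n345 .nil)
noncomputable def n347 : Strat := .win 839 4 797
noncomputable def n348 : Strat := .move 838 n347 (.cons 839 n163 .nil)
noncomputable def n349 : Strat := .move 797 n346 (.cons 841 n348 .nil)
noncomputable def n350 : Strat := .win 839 4 798
noncomputable def n351 : Strat := .win 844 0 799
noncomputable def n352 : Strat := .win 842 0 798
noncomputable def n353 : Strat := .move 843 n351 (.cons 844 n352 .nil)
noncomputable def n354 : Strat := .move 802 n350 (.cons 839 n353 .nil)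
noncomputable def n355 : Strat := .win 762 5 758
noncomputable def n356 : Strat := .win 760 5 757
noncomputable def n357 : Strat := .move 761 n355 (.cons 762 n356 .nil)
noncomputable def n358 : Strat := .move 802 n353 (.cons 842 n357 .nil)
noncomputable def n359 : Strat := .move 801 n343 (.cons 802 n349 (.cons 838 n354 (.cons 839 n358 .nil)))
noncomputable def n360 : Strat := .move 921 n36 (.cons 962 n359 .nil)
noncomputable def n361 : Strat := .move 798 n131 (.cons 757 n360 .nil)
noncomputable def n362 : Strat := .move 800 n129 (.cons 759 n361 .nil)
noncomputable def n363 : Strat := .move 922 n135 (.cons 841 n155 (.cons 798 n158 (.cons 963 n362 .nil)))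
noncomputable def n364 : Strat := .move 758 n197 (.cons 839 n200 (.cons 882 n39 .nil))
noncomputable def n365 : Strat := .move 758 n17 (.cons 882 n101 .nil)
noncomputable def n366 : Strat := .move 923 n18 (.cons 964 n365 .nil)
noncomputable def n367 : Strat := .move 922 n326 (.cons 758 n155 (.cons 962 n366 .nil))
noncomputable def n368 : Strat := .move 801 n257 (.cons 802 n256 .nil)
noncomputable def n369 : Strat := .move 800 n255 (.cons 922 n368 .nil)
noncomputable def n370 : Strat := .move 759 n22 (.cons 718 n369 .nil)
noncomputable def n371 : Strat := .move 757 n15 (.cons 716 n370 .nil)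
noncomputable def n372 : Strat := .move 758 n371 (.cons 756 n226 (.cons 757 n200 .nil))
noncomputable def n373 : Strat := .move 881 n327 (.cons 963 n330 (.cons 922 n342 (.cons 758 n363 (.cons 798 n364 (.cons 841 n367 (.cons 921 n372 .nil))))))
noncomputable def n374 : Strat := .move 881 n3 (.cons 759 n1 .nil)
noncomputable def n375 : Strat := .move 718 n2 (.cons 677 n374 .nil)
noncomputable def n376 : Strat := .move 716 n0 (.cons 675 n375 .nil)
noncomputable def n377 : Strat := .move 717 n376 (.cons 759 n13 .nil)
noncomputable def n378 : Strat := .move 798 n46 (.cons 761 n47 .nil)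
noncomputable def n379 : Strat := .win 803 0 758
noncomputable def n380 : Strat := .win 801 0 757
noncomputable def n381 : Strat := .move 802 n379 (.cons 803 n380 .nil)
noncomputable def n382 : Strat := .move 761 n264 (.cons 798 n381 .nil)
noncomputable def n383 : Strat := .win 802 0 757
noncomputable def n384 : Strat := .move 801 n256 (.cons 756 n383 .nil)
noncomputable def n385 : Strat := .win 841 3 718
noncomputable def n386 : Strat := .move 719 n385 (.cons 841 n273 .nil)
noncomputable def n387 : Strat := .move 800 n313 (.cons 755 n384 (.cons 801 n386 .nil))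
noncomputable def n388 : Strat := .move 760 n378 (.cons 797 n382 (.cons 761 n387 .nil))
noncomputable def n389 : Strat := .move 882 n28 (.cons 923 n388 .nil)
noncomputable def n390 : Strat := .move 759 n22 (.cons 718 n389 .nil)
noncomputable def n391 : Strat := .move 757 n15 (.cons 716 n390 .nil)
noncomputable def n392 : Strat := .move 881 n329 (.cons 922 n391 (.cons 757 n311 (.cons 759 n253 .nil)))
noncomputable def n393 : Strat := .win 796 5 755
noncomputable def n394 : Strat := .move 797 n43 (.cons 760 n393 .nil)
noncomputable def n395 : Strat := .move 798 n228 (.cons 922 n394 .nil)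
noncomputable def n396 : Strat := .move 759 n22 (.cons 718 n395 .nil)
noncomputable def n397 : Strat := .move 757 n15 (.cons 716 n396 .nil)
noncomputable def n398 : Strat := .win 717 1 716
noncomputable def n399 : Strat := .move 882 n28 (.cons 923 n333 .nil)
noncomputable def n400 : Strat := .move 839 n398 (.cons 717 n399 .nil)
noncomputable def n401 : Strat := .move 880 n27 (.cons 921 n400 .nil)
noncomputable def n402 : Strat := .move 759 n22 (.cons 718 n401 .nil)
noncomputable def n403 : Strat := .win 715 7 715
noncomputable def n404 : Strat := .win 754 0 754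
noncomputable def n405 : Strat := .win 800 0 755
noncomputable def n406 : Strat := .move 755 n404 (.cons 754 n405 .nil)
noncomputable def n407 : Strat := .move 756 n403 (.cons 715 n406 .nil)
noncomputable def n408 : Strat := .move 839 n398 (.cons 717 n407 .nil)
noncomputable def n409 : Strat := .move 880 n27 (.cons 921 n408 .nil)
noncomputable def n410 : Strat := .move 798 n228 (.cons 922 n409 .nil)
noncomputable def n411 : Strat := .move 757 n15 (.cons 716 n410 .nil)
noncomputable def n412 : Strat := .move 881 n397 (.cons 757 n402 (.cons 759 n411 .nil))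
noncomputable def n413 : Strat := .win 881 3 717
noncomputable def n414 : Strat := .win 761 2 716
noncomputable def n415 : Strat := .win 715 0 715
noncomputable def n416 : Strat := .move 760 n414 (.cons 761 n415 .nil)
noncomputable def n417 : Strat := .move 759 n413 (.cons 881 n416 .nil)
noncomputable def n418 : Strat := .move 718 n2 (.cons 677 n417 .nil)
noncomputable def n419 : Strat := .move 716 n0 (.cons 675 n418 .nil)
noncomputable def n420 : Strat := .win 676 6 676
noncomputable def n421 : Strat := .win 678 3 677
noncomputable def n422 : Strat := .win 721 4 717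
noncomputable def n423 : Strat := .win 757 4 716
noncomputable def n424 : Strat := .move 720 n422 (.cons 721 n423 .nil)
noncomputable def n425 : Strat := .move 719 n421 (.cons 678 n424 .nil)
noncomputable def n426 : Strat := .move 800 n420 (.cons 676 n425 .nil)
noncomputable def n427 : Strat := .move 841 n9 (.cons 882 n426 .nil)
noncomputable def n428 : Strat := .move 759 n413 (.cons 881 n427 .nil)
noncomputable def n429 : Strat := .move 718 n2 (.cons 677 n428 .nil)
noncomputable def n430 : Strat := .move 717 n419 (.cons 675 n429 (.cons 881 n62 .nil))
noncomputable def n431 : Strat := .move 757 n74 (.cons 720 n75 .nil)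
noncomputable def n432 : Strat := .win 762 0 717
noncomputable def n433 : Strat := .win 760 0 716
noncomputable def n434 : Strat := .move 761 n432 (.cons 762 n433 .nil)
noncomputable def n435 : Strat := .move 720 n423 (.cons 757 n434 .nil)
noncomputable def n436 : Strat := .move 715 n68 (.cons 760 n69 .nil)
noncomputable def n437 : Strat := .win 761 0 716
noncomputable def n438 : Strat := .move 760 n415 (.cons 715 n437 .nil)
noncomputable def n439 : Strat := .win 800 3 677
noncomputable def n440 : Strat := .win 679 5 675
noncomputable def n441 : Strat := .move 678 n439 (.cons 800 n440 .nil)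
noncomputable def n442 : Strat := .move 759 n436 (.cons 714 n438 (.cons 760 n441 .nil))
noncomputable def n443 : Strat := .move 719 n431 (.cons 756 n435 (.cons 720 n442 .nil))
noncomputable def n444 : Strat := .move 841 n9 (.cons 882 n443 .nil)
noncomputable def n445 : Strat := .move 718 n2 (.cons 677 n444 .nil)
noncomputable def n446 : Strat := .move 716 n0 (.cons 675 n445 .nil)
noncomputable def n447 : Strat := .move 717 n62 (.cons 841 n67 (.cons 676 n446 .nil))
noncomputable def n448 : Strat := .move 717 n13 (.cons 882 n99 (.cons 880 n62 (.cons 676 n97 .nil)))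
noncomputable def n449 : Strat := .move 676 n10 (.cons 800 n65 .nil)
noncomputable def n450 : Strat := .move 841 n9 (.cons 882 n449 .nil)
noncomputable def n451 : Strat := .move 717 n88 (.cons 841 n94 (.cons 880 n450 .nil))
noncomputable def n452 : Strat := .move 759 n22 (.cons 718 n394 .nil)
noncomputable def n453 : Strat := .move 798 n228 (.cons 922 n452 .nil)
noncomputable def n454 : Strat := .move 757 n15 (.cons 716 n453 .nil)
noncomputable def n455 : Strat := .win 798 7 715
noncomputable def n456 : Strat := .move 715 n455 (.cons 798 n50 .nil)
noncomputable def n457 : Strat := .move 756 n42 (.cons 755 n456 .nil)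
noncomputable def n458 : Strat := .move 839 n398 (.cons 717 n457 .nil)
noncomputable def n459 : Strat := .move 880 n27 (.cons 921 n458 .nil)
noncomputable def n460 : Strat := .move 759 n22 (.cons 718 n459 .nil)
noncomputable def n461 : Strat := .move 757 n15 (.cons 716 n460 .nil)
noncomputable def n462 : Strat := .move 881 n454 (.cons 757 n300 (.cons 718 n411 (.cons 922 n461 .nil)))
noncomputable def n463 : Strat := .win 676 1 675
noncomputable def n464 : Strat := .win 842 2 797
noncomputable def n465 : Strat := .move 797 n464 (.cons 842 n160 .nil)
noncomputable def n466 : Strat := .move 841 n9 (.cons 882 n465 .nil)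
noncomputable def n467 : Strat := .move 798 n463 (.cons 676 n466 .nil)
noncomputable def n468 : Strat := .move 839 n7 (.cons 880 n467 .nil)
noncomputable def n469 : Strat := .move 718 n2 (.cons 677 n468 .nil)
noncomputable def n470 : Strat := .move 716 n0 (.cons 675 n469 .nil)
noncomputable def n471 : Strat := .move 717 n376 (.cons 677 n97 (.cons 716 n94 (.cons 881 n470 .nil)))
noncomputable def n472 : Strat := .move 758 n377 (.cons 717 n392 (.cons 841 n412 (.cons 880 n430 (.cons 881 n447 (.cons 759 n448 (.cons 716 n451 (.cons 882 n462 (.cons 800 n471 .nil))))))))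
noncomputable def n473 : Strat := .move 717 n0 (.cons 675 n418 .nil)
noncomputable def n474 : Strat := .win 634 6 634
noncomputable def n475 : Strat := .win 798 6 675
noncomputable def n476 : Strat := .move 675 n474 (.cons 634 n475 .nil)
noncomputable def n477 : Strat := .move 757 n110 (.cons 881 n476 .nil)
noncomputable def n478 : Strat := .move 839 n8 (.cons 798 n7 .nil)
noncomputable def n479 : Strat := .move 676 n10 (.cons 800 n478 .nil)
noncomputable def n480 : Strat := .move 841 n9 (.cons 882 n479 .nil)
noncomputable def n481 : Strat := .move 718 n2 (.cons 677 n480 .nil)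
noncomputable def n482 : Strat := .move 717 n0 (.cons 675 n481 .nil)
noncomputable def n483 : Strat := .win 838 0 838
noncomputable def n484 : Strat := .move 839 n483 (.cons 838 n305 .nil)
noncomputable def n485 : Strat := .win 924 6 759
noncomputable def n486 : Strat := .win 922 1 758
noncomputable def n487 : Strat := .move 800 n485 (.cons 924 n486 .nil)
noncomputable def n488 : Strat := .move 883 n484 (.cons 884 n487 .nil)
noncomputable def n489 : Strat := .move 841 n121 (.cons 717 n488 .nil)
noncomputable def n490 : Strat := .move 882 n28 (.cons 923 n489 .nil)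
noncomputable def n491 : Strat := .move 759 n22 (.cons 718 n490 .nil)
noncomputable def n492 : Strat := .move 881 n1 (.cons 757 n491 .nil)
noncomputable def n493 : Strat := .move 716 n473 (.cons 717 n477 (.cons 881 n482 (.cons 675 n492 .nil)))
noncomputable def n494 : Strat := .move 716 n0 (.cons 675 n481 .nil)
noncomputable def n495 : Strat := .win 757 7 674
noncomputable def n496 : Strat := .move 674 n495 (.cons 757 n78 .nil)
noncomputable def n497 : Strat := .move 715 n70 (.cons 714 n496 .nil)
noncomputable def n498 : Strat := .move 798 n463 (.cons 676 n497 .nil)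
noncomputable def n499 : Strat := .move 839 n7 (.cons 880 n498 .nil)
noncomputable def n500 : Strat := .move 718 n2 (.cons 677 n499 .nil)
noncomputable def n501 : Strat := .move 716 n0 (.cons 675 n500 .nil)
noncomputable def n502 : Strat := .move 676 n8 (.cons 798 n10 .nil)
noncomputable def n503 : Strat := .move 839 n7 (.cons 880 n502 .nil)
noncomputable def n504 : Strat := .move 841 n9 (.cons 882 n503 .nil)
noncomputable def n505 : Strat := .move 717 n494 (.cons 841 n501 (.cons 839 n62 (.cons 675 n504 (.cons 676 n446 .nil))))
noncomputable def n506 : Strat := .move 756 n111 (.cons 755 n71 .nil)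
noncomputable def n507 : Strat := .move 757 n110 (.cons 881 n506 .nil)
noncomputable def n508 : Strat := .move 716 n0 (.cons 675 n507 .nil)
noncomputable def n509 : Strat := .move 718 n2 (.cons 677 n508 .nil)
noncomputable def n510 : Strat := .move 717 n509 (.cons 716 n88 .nil)
noncomputable def n511 : Strat := .move 718 n2 (.cons 677 n112 .nil)
noncomputable def n512 : Strat := .move 757 n110 (.cons 881 n511 .nil)
noncomputable def n513 : Strat := .move 716 n0 (.cons 675 n512 .nil)
noncomputable def n514 : Strat := .win 674 7 674
noncomputable def n515 : Strat := .win 713 0 713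
noncomputable def n516 : Strat := .win 759 0 714
noncomputable def n517 : Strat := .move 714 n515 (.cons 713 n516 .nil)
noncomputable def n518 : Strat := .move 715 n514 (.cons 674 n517 .nil)
noncomputable def n519 : Strat := .move 798 n463 (.cons 676 n518 .nil)
noncomputable def n520 : Strat := .move 839 n7 (.cons 880 n519 .nil)
noncomputable def n521 : Strat := .move 757 n110 (.cons 881 n520 .nil)
noncomputable def n522 : Strat := .move 716 n0 (.cons 675 n521 .nil)
noncomputable def n523 : Strat := .win 800 6 635
noncomputable def n524 : Strat := .win 594 6 594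
noncomputable def n525 : Strat := .move 635 n523 (.cons 800 n524 .nil)
noncomputable def n526 : Strat := .move 676 n8 (.cons 798 n525 .nil)
noncomputable def n527 : Strat := .move 839 n7 (.cons 880 n526 .nil)
noncomputable def n528 : Strat := .move 759 n413 (.cons 881 n527 .nil)
noncomputable def n529 : Strat := .move 718 n2 (.cons 677 n528 .nil)
noncomputable def n530 : Strat := .move 717 n513 (.cons 677 n522 (.cons 881 n501 (.cons 716 n529 .nil)))
noncomputable def n531 : Strat := .move 881 n28 (.cons 923 n104 .nil)
noncomputable def n532 : Strat := .move 882 n30 (.cons 841 n531 .nil)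
noncomputable def n533 : Strat := .move 717 n532 (.cons 716 n469 (.cons 841 n115 .nil))
noncomputable def n534 : Strat := .move 717 n30 (.cons 841 n4 .nil)
noncomputable def n535 : Strat := .move 882 n28 (.cons 923 n534 .nil)
noncomputable def n536 : Strat := .move 881 n535 (.cons 882 n261 (.cons 759 n106 .nil))
noncomputable def n537 : Strat := .win 884 0 839
noncomputable def n538 : Strat := .win 800 6 718
noncomputable def n539 : Strat := .move 883 n537 (.cons 884 n538 .nil)
noncomputable def n540 : Strat := .win 797 2 797
noncomputable def n541 : Strat := .win 843 2 798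
noncomputable def n542 : Strat := .move 798 n540 (.cons 797 n541 .nil)
noncomputable def n543 : Strat := .move 842 n539 (.cons 800 n542 .nil)
noncomputable def n544 : Strat := .move 839 n7 (.cons 880 n543 .nil)
noncomputable def n545 : Strat := .move 841 n9 (.cons 882 n544 .nil)
noncomputable def n546 : Strat := .move 759 n413 (.cons 881 n545 .nil)
noncomputable def n547 : Strat := .move 718 n2 (.cons 677 n546 .nil)
noncomputable def n548 : Strat := .move 717 n88 (.cons 841 n529 (.cons 800 n469 (.cons 676 n547 (.cons 880 n450 .nil))))
noncomputable def n549 : Strat := .win 878 4 837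
noncomputable def n550 : Strat := .win 798 1 715
noncomputable def n551 : Strat := .move 879 n549 (.cons 878 n550 .nil)
noncomputable def n552 : Strat := .win 801 5 797
noncomputable def n553 : Strat := .move 800 n552 (.cons 801 n212 .nil)
noncomputable def n554 : Strat := .move 838 n551 (.cons 798 n553 .nil)
noncomputable def n555 : Strat := .move 841 n9 (.cons 882 n554 .nil)
noncomputable def n556 : Strat := .move 839 n7 (.cons 880 n555 .nil)
noncomputable def n557 : Strat := .move 757 n110 (.cons 881 n556 .nil)
noncomputable def n558 : Strat := .move 716 n0 (.cons 675 n557 .nil)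
noncomputable def n559 : Strat := .move 717 n88 (.cons 798 n62 (.cons 882 n522 (.cons 676 n558 .nil)))
noncomputable def n560 : Strat := .move 716 n110 (.cons 881 n476 .nil)
noncomputable def n561 : Strat := .win 759 0 756
noncomputable def n562 : Strat := .move 756 n41 (.cons 755 n561 .nil)
noncomputable def n563 : Strat := .move 801 n257 (.cons 802 n562 .nil)
noncomputable def n564 : Strat := .win 677 1 676
noncomputable def n565 : Strat := .win 719 5 715
noncomputable def n566 : Strat := .move 718 n564 (.cons 677 n565 .nil)
noncomputable def n567 : Strat := .win 798 4 756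
noncomputable def n568 : Strat := .win 716 2 715
noncomputable def n569 : Strat := .move 715 n568 (.cons 716 n50 .nil)
noncomputable def n570 : Strat := .move 760 n567 (.cons 798 n569 .nil)
noncomputable def n571 : Strat := .move 797 n44 (.cons 796 n570 .nil)
noncomputable def n572 : Strat := .move 759 n566 (.cons 677 n571 .nil)
noncomputable def n573 : Strat := .move 756 n41 (.cons 755 n572 .nil)
noncomputable def n574 : Strat := .win 761 5 757
noncomputable def n575 : Strat := .win 759 4 756
noncomputable def n576 : Strat := .move 797 n575 (.cons 759 n161 .nil)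
noncomputable def n577 : Strat := .move 760 n574 (.cons 761 n576 .nil)
noncomputable def n578 : Strat := .move 797 n163 (.cons 837 n161 .nil)
noncomputable def n579 : Strat := .move 838 n347 (.cons 839 n578 .nil)
noncomputable def n580 : Strat := .win 715 2 715
noncomputable def n581 : Strat := .win 675 6 675
noncomputable def n582 : Strat := .move 716 n580 (.cons 715 n581 .nil)
noncomputable def n583 : Strat := .move 759 n47 (.cons 797 n582 .nil)
noncomputable def n584 : Strat := .move 760 n574 (.cons 761 n583 .nil)
noncomputable def n585 : Strat := .win 759 2 715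
noncomputable def n586 : Strat := .move 760 n585 (.cons 759 n574 .nil)
noncomputable def n587 : Strat := .move 839 n514 (.cons 674 n166 .nil)
noncomputable def n588 : Strat := .move 715 n586 (.cons 761 n587 .nil)
noncomputable def n589 : Strat := .move 716 n581 (.cons 675 n588 .nil)
noncomputable def n590 : Strat := .move 798 n577 (.cons 759 n579 (.cons 796 n584 (.cons 797 n589 .nil)))
noncomputable def n591 : Strat := .move 801 n257 (.cons 802 n590 .nil)
noncomputable def n592 : Strat := .win 756 2 756
noncomputable def n593 : Strat := .move 798 n592 (.cons 756 n579 .nil)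
noncomputable def n594 : Strat := .move 801 n257 (.cons 802 n593 .nil)
noncomputable def n595 : Strat := .move 800 n563 (.cons 801 n573 (.cons 756 n591 (.cons 759 n594 .nil)))
noncomputable def n596 : Strat := .move 881 n15 (.cons 716 n370 .nil)
noncomputable def n597 : Strat := .move 718 n413 (.cons 881 n564 .nil)
noncomputable def n598 : Strat := .move 800 n368 (.cons 801 n597 .nil)
noncomputable def n599 : Strat := .move 881 n22 (.cons 718 n395 .nil)
noncomputable def n600 : Strat := .move 756 n41 (.cons 755 n40 .nil)
noncomputable def n601 : Strat := .move 756 n41 (.cons 755 n566 .nil)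
noncomputable def n602 : Strat := .win 841 1 677
noncomputable def n603 : Strat := .win 637 1 636
noncomputable def n604 : Strat := .move 678 n602 (.cons 841 n603 .nil)
noncomputable def n605 : Strat := .move 719 n273 (.cons 720 n604 .nil)
noncomputable def n606 : Strat := .move 760 n378 (.cons 797 n265 (.cons 761 n605 .nil))
noncomputable def n607 : Strat := .move 801 n257 (.cons 802 n606 .nil)
noncomputable def n608 : Strat := .move 800 n368 (.cons 802 n600 (.cons 801 n601 (.cons 756 n607 .nil)))
noncomputable def n609 : Strat := .win 839 6 674
noncomputable def n610 : Strat := .win 633 6 633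
noncomputable def n611 : Strat := .move 674 n609 (.cons 839 n610 .nil)
noncomputable def n612 : Strat := .move 715 n50 (.cons 714 n611 .nil)
noncomputable def n613 : Strat := .move 756 n42 (.cons 755 n612 .nil)
noncomputable def n614 : Strat := .move 797 n393 (.cons 796 n613 .nil)
noncomputable def n615 : Strat := .move 760 n47 (.cons 797 n46 .nil)
noncomputable def n616 : Strat := .move 881 n255 (.cons 922 n28 .nil)
noncomputable def n617 : Strat := .move 882 n616 (.cons 923 n386 .nil)
noncomputable def n618 : Strat := .move 800 n313 (.cons 755 n384 (.cons 801 n617 .nil))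
noncomputable def n619 : Strat := .move 760 n46 (.cons 761 n618 .nil)
noncomputable def n620 : Strat := .move 798 n394 (.cons 760 n614 (.cons 796 n615 (.cons 797 n619 .nil)))
noncomputable def n621 : Strat := .move 759 n598 (.cons 800 n599 (.cons 881 n608 (.cons 718 n620 .nil)))
noncomputable def n622 : Strat := .move 757 n560 (.cons 881 n595 (.cons 798 n596 (.cons 716 n621 .nil)))
noncomputable def n623 : Strat := .move 758 n493 (.cons 881 n505 (.cons 759 n510 (.cons 841 n530 (.cons 800 n533 (.cons 798 n536 (.cons 716 n548 (.cons 718 n559 (.cons 717 n622 .nil))))))))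
noncomputable def n624 : Strat := .move 758 n26 (.cons 757 n39 (.cons 759 n21 (.cons 922 n56 .nil)))
noncomputable def n625 : Strat := .move 839 n305 (.cons 884 n304 .nil)
noncomputable def n626 : Strat := .win 839 2 839
noncomputable def n627 : Strat := .win 926 0 881
noncomputable def n628 : Strat := .win 924 0 880
noncomputable def n629 : Strat := .move 925 n627 (.cons 926 n628 .nil)
noncomputable def n630 : Strat := .move 884 n626 (.cons 839 n629 .nil)
noncomputable def n631 : Strat := .win 843 5 839
noncomputable def n632 : Strat := .win 885 2 840
noncomputable def n633 : Strat := .move 841 n632 (.cons 885 n123 .nil)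
noncomputable def n634 : Strat := .move 884 n629 (.cons 924 n633 .nil)
noncomputable def n635 : Strat := .move 842 n631 (.cons 843 n634 .nil)
noncomputable def n636 : Strat := .win 839 2 838
noncomputable def n637 : Strat := .win 837 2 837
noncomputable def n638 : Strat := .move 879 n637 (.cons 837 n248 .nil)
noncomputable def n639 : Strat := .move 838 n636 (.cons 839 n638 .nil)
noncomputable def n640 : Strat := .move 883 n625 (.cons 838 n630 (.cons 839 n635 (.cons 884 n639 .nil)))
noncomputable def n641 : Strat := .move 880 n27 (.cons 921 n640 .nil)
noncomputable def n642 : Strat := .move 882 n28 (.cons 923 n641 .nil)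
noncomputable def n643 : Strat := .move 758 n108 (.cons 759 n642 (.cons 882 n39 .nil))
noncomputable def n644 : Strat := .move 758 n329 (.cons 922 n391 (.cons 757 n311 (.cons 759 n253 .nil)))
noncomputable def n645 : Strat := .move 842 n123 (.cons 879 n122 .nil)
noncomputable def n646 : Strat := .win 800 6 759
noncomputable def n647 : Strat := .move 924 n646 (.cons 800 n301 .nil)
noncomputable def n648 : Strat := .move 841 n240 (.cons 878 n645 (.cons 842 n647 .nil))
noncomputable def n649 : Strat := .move 883 n306 (.cons 884 n648 .nil)
noncomputable def n650 : Strat := .move 759 n22 (.cons 718 n649 .nil)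
noncomputable def n651 : Strat := .move 880 n27 (.cons 921 n650 .nil)
noncomputable def n652 : Strat := .move 882 n28 (.cons 923 n651 .nil)
noncomputable def n653 : Strat := .move 758 n56 (.cons 798 n652 (.cons 759 n341 (.cons 921 n391 .nil)))
noncomputable def n654 : Strat := .move 922 n183 (.cons 924 n148 .nil)
noncomputable def n655 : Strat := .move 922 n148 (.cons 839 n158 (.cons 963 n175 (.cons 759 n140 .nil)))
noncomputable def n656 : Strat := .win 758 6 758
noncomputable def n657 : Strat := .win 884 4 880
noncomputable def n658 : Strat := .win 920 5 879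
noncomputable def n659 : Strat := .move 921 n657 (.cons 884 n658 .nil)
noncomputable def n660 : Strat := .win 921 4 880
noncomputable def n661 : Strat := .move 884 n626 (.cons 839 n660 .nil)
noncomputable def n662 : Strat := .win 924 0 879
noncomputable def n663 : Strat := .move 879 n662 (.cons 924 n178 .nil)
noncomputable def n664 : Strat := .win 879 0 879
noncomputable def n665 : Strat := .move 924 n664 (.cons 879 n301 .nil)
noncomputable def n666 : Strat := .win 921 4 879
noncomputable def n667 : Strat := .move 879 n245 (.cons 919 n178 .nil)
noncomputable def n668 : Strat := .move 920 n666 (.cons 921 n667 .nil)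
noncomputable def n669 : Strat := .win 757 6 757
noncomputable def n670 : Strat := .move 798 n184 (.cons 963 n669 .nil)
noncomputable def n671 : Strat := .move 839 n304 (.cons 838 n670 .nil)
noncomputable def n672 : Strat := .move 880 n663 (.cons 878 n665 (.cons 924 n668 (.cons 879 n671 .nil)))
noncomputable def n673 : Strat := .win 885 4 881
noncomputable def n674 : Strat := .move 884 n626 (.cons 839 n673 .nil)
noncomputable def n675 : Strat := .move 883 n659 (.cons 920 n661 (.cons 884 n672 (.cons 921 n674 .nil)))
noncomputable def n676 : Strat := .move 882 n656 (.cons 758 n675 .nil)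
noncomputable def n677 : Strat := .move 923 n18 (.cons 964 n676 .nil)
noncomputable def n678 : Strat := .win 963 6 798
noncomputable def n679 : Strat := .move 839 n678 (.cons 963 n189 .nil)
noncomputable def n680 : Strat := .move 798 n131 (.cons 757 n679 .nil)
noncomputable def n681 : Strat := .move 880 n177 (.cons 758 n680 .nil)
noncomputable def n682 : Strat := .move 921 n36 (.cons 962 n681 .nil)
noncomputable def n683 : Strat := .move 922 n183 (.cons 962 n677 (.cons 964 n682 (.cons 758 n140 .nil)))
noncomputable def n684 : Strat := .move 882 n28 (.cons 923 n103 .nil)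
noncomputable def n685 : Strat := .move 758 n684 (.cons 759 n21 (.cons 798 n108 (.cons 882 n329 (.cons 922 n391 .nil))))
noncomputable def n686 : Strat := .win 839 7 756
noncomputable def n687 : Strat := .move 756 n169 (.cons 755 n686 .nil)
noncomputable def n688 : Strat := .move 797 n161 (.cons 796 n687 .nil)
noncomputable def n689 : Strat := .move 800 n129 (.cons 759 n688 .nil)
noncomputable def n690 : Strat := .move 798 n131 (.cons 757 n689 .nil)
noncomputable def n691 : Strat := .move 880 n177 (.cons 758 n690 .nil)
noncomputable def n692 : Strat := .move 921 n36 (.cons 962 n691 .nil)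
noncomputable def n693 : Strat := .move 922 n148 (.cons 757 n158 (.cons 759 n155 (.cons 963 n692 .nil)))
noncomputable def n694 : Strat := .move 881 n624 (.cons 798 n643 (.cons 962 n644 (.cons 922 n653 (.cons 718 n654 (.cons 758 n655 (.cons 800 n683 (.cons 880 n685 (.cons 923 n693 .nil))))))))
noncomputable def n695 : Strat := .move 922 n183 (.cons 923 n155 (.cons 921 n140 .nil))
noncomputable def n696 : Strat := .win 883 5 879
noncomputable def n697 : Strat := .win 919 5 878
noncomputable def n698 : Strat := .move 882 n696 (.cons 883 n697 .nil)
noncomputable def n699 : Strat := .win 880 2 879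
noncomputable def n700 : Strat := .win 878 2 878
noncomputable def n701 : Strat := .move 879 n699 (.cons 880 n700 .nil)
noncomputable def n702 : Strat := .win 925 2 880
noncomputable def n703 : Strat := .win 879 2 879
noncomputable def n704 : Strat := .move 880 n702 (.cons 925 n703 .nil)
noncomputable def n705 : Strat := .win 884 5 880
noncomputable def n706 : Strat := .win 882 5 879
noncomputable def n707 : Strat := .move 883 n705 (.cons 884 n706 .nil)
noncomputable def n708 : Strat := .move 924 n701 (.cons 878 n704 (.cons 880 n707 .nil))
noncomputable def n709 : Strat := .win 882 5 878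
noncomputable def n710 : Strat := .win 877 2 877
noncomputable def n711 : Strat := .win 879 2 878
noncomputable def n712 : Strat := .move 878 n710 (.cons 877 n711 .nil)
noncomputable def n713 : Strat := .move 919 n709 (.cons 882 n712 .nil)
noncomputable def n714 : Strat := .win 959 4 918
noncomputable def n715 : Strat := .win 961 4 919
noncomputable def n716 : Strat := .move 960 n714 (.cons 959 n715 .nil)
noncomputable def n717 : Strat := .move 919 n712 (.cons 879 n716 .nil)
noncomputable def n718 : Strat := .move 920 n698 (.cons 919 n708 (.cons 883 n713 (.cons 882 n717 .nil)))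
noncomputable def n719 : Strat := .move 923 n18 (.cons 964 n718 .nil)
noncomputable def n720 : Strat := .move 921 n36 (.cons 962 n719 .nil)
noncomputable def n721 : Strat := .move 800 n157 (.cons 841 n720 (.cons 921 n141 .nil))
noncomputable def n722 : Strat := .move 879 n179 (.cons 924 n178 .nil)
noncomputable def n723 : Strat := .move 924 n702 (.cons 925 n703 .nil)
noncomputable def n724 : Strat := .win 839 1 797
noncomputable def n725 : Strat := .win 960 4 919
noncomputable def n726 : Strat := .move 961 n724 (.cons 839 n725 .nil)
noncomputable def n727 : Strat := .move 880 n722 (.cons 878 n723 (.cons 924 n726 .nil))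
noncomputable def n728 : Strat := .move 920 n698 (.cons 919 n727 .nil)
noncomputable def n729 : Strat := .move 798 n131 (.cons 757 n728 .nil)
noncomputable def n730 : Strat := .move 923 n18 (.cons 964 n729 .nil)
noncomputable def n731 : Strat := .move 921 n36 (.cons 962 n730 .nil)
noncomputable def n732 : Strat := .move 922 n140 (.cons 798 n721 (.cons 964 n289 (.cons 963 n731 .nil)))
noncomputable def n733 : Strat := .move 920 n696 (.cons 883 n697 .nil)
noncomputable def n734 : Strat := .move 921 n36 (.cons 962 n733 .nil)
noncomputable def n735 : Strat := .move 882 n656 (.cons 758 n734 .nil)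
noncomputable def n736 : Strat := .move 923 n18 (.cons 964 n735 .nil)
noncomputable def n737 : Strat := .move 798 n131 (.cons 757 n736 .nil)
noncomputable def n738 : Strat := .move 800 n134 (.cons 798 n141 (.cons 963 n737 .nil))
noncomputable def n739 : Strat := .move 883 n657 (.cons 884 n658 .nil)
noncomputable def n740 : Strat := .move 921 n36 (.cons 962 n739 .nil)
noncomputable def n741 : Strat := .move 882 n656 (.cons 758 n740 .nil)
noncomputable def n742 : Strat := .move 923 n18 (.cons 964 n741 .nil)
noncomputable def n743 : Strat := .move 922 n738 (.cons 798 n742 (.cons 923 n155 (.cons 962 n140 .nil)))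
noncomputable def n744 : Strat := .move 880 n27 (.cons 921 n31 .nil)
noncomputable def n745 : Strat := .move 882 n28 (.cons 923 n744 .nil)
noncomputable def n746 : Strat := .move 758 n745 (.cons 882 n237 (.cons 880 n226 (.cons 717 n642 .nil)))
noncomputable def n747 : Strat := .move 839 n7 (.cons 880 n463 .nil)
noncomputable def n748 : Strat := .move 882 n30 (.cons 841 n231 .nil)
noncomputable def n749 : Strat := .move 676 n10 (.cons 800 n230 .nil)
noncomputable def n750 : Strat := .move 841 n9 (.cons 882 n749 .nil)
noncomputable def n751 : Strat := .move 842 n540 (.cons 797 n541 .nil)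
noncomputable def n752 : Strat := .move 841 n9 (.cons 882 n751 .nil)
noncomputable def n753 : Strat := .move 839 n7 (.cons 880 n752 .nil)
noncomputable def n754 : Strat := .move 717 n747 (.cons 880 n748 (.cons 839 n750 (.cons 676 n753 .nil)))
noncomputable def n755 : Strat := .move 798 n228 (.cons 922 n754 .nil)
noncomputable def n756 : Strat := .move 757 n15 (.cons 716 n755 .nil)
noncomputable def n757 : Strat := .move 801 n257 (.cons 802 n592 .nil)
noncomputable def n758 : Strat := .win 801 2 756
noncomputable def n759 : Strat := .move 756 n41 (.cons 755 n758 .nil)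
noncomputable def n760 : Strat := .win 756 0 755
noncomputable def n761 : Strat := .move 797 n159 (.cons 842 n160 .nil)
noncomputable def n762 : Strat := .win 797 0 797
noncomputable def n763 : Strat := .move 842 n762 (.cons 797 n541 .nil)
noncomputable def n764 : Strat := .move 717 n420 (.cons 676 n9 .nil)
noncomputable def n765 : Strat := .move 841 n761 (.cons 796 n763 (.cons 842 n764 .nil))
noncomputable def n766 : Strat := .move 755 n760 (.cons 756 n765 .nil)
noncomputable def n767 : Strat := .move 842 n762 (.cons 797 n344 .nil)
noncomputable def n768 : Strat := .move 841 n761 (.cons 796 n767 (.cons 842 n764 .nil))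
noncomputable def n769 : Strat := .move 801 n257 (.cons 802 n768 .nil)
noncomputable def n770 : Strat := .move 800 n757 (.cons 802 n759 (.cons 801 n766 (.cons 756 n769 .nil)))
noncomputable def n771 : Strat := .move 798 n228 (.cons 922 n770 .nil)
noncomputable def n772 : Strat := .move 757 n15 (.cons 716 n771 .nil)
noncomputable def n773 : Strat := .move 677 n64 (.cons 636 n63 .nil)
noncomputable def n774 : Strat := .move 676 n10 (.cons 800 n773 .nil)
noncomputable def n775 : Strat := .move 841 n9 (.cons 882 n774 .nil)
noncomputable def n776 : Strat := .move 717 n29 (.cons 839 n775 .nil)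
noncomputable def n777 : Strat := .move 880 n27 (.cons 921 n776 .nil)
noncomputable def n778 : Strat := .move 758 n237 (.cons 921 n756 (.cons 839 n207 (.cons 880 n772 (.cons 757 n777 .nil))))
noncomputable def n779 : Strat := .move 675 n59 (.cons 634 n58 .nil)
noncomputable def n780 : Strat := .move 676 n773 (.cons 718 n779 .nil)
noncomputable def n781 : Strat := .move 922 n36 (.cons 962 n780 .nil)
noncomputable def n782 : Strat := .move 921 n35 (.cons 880 n781 .nil)
noncomputable def n783 : Strat := .move 717 n30 (.cons 841 n782 .nil)
noncomputable def n784 : Strat := .move 882 n28 (.cons 923 n783 .nil)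
noncomputable def n785 : Strat := .move 880 n27 (.cons 921 n124 .nil)
noncomputable def n786 : Strat := .move 841 n121 (.cons 717 n785 .nil)
noncomputable def n787 : Strat := .move 882 n28 (.cons 923 n786 .nil)
noncomputable def n788 : Strat := .move 758 n106 (.cons 923 n207 (.cons 757 n784 (.cons 716 n787 .nil)))
noncomputable def n789 : Strat := .win 800 1 799
noncomputable def n790 : Strat := .win 1004 3 840
noncomputable def n791 : Strat := .move 841 n789 (.cons 800 n790 .nil)
noncomputable def n792 : Strat := .win 1045 3 881
noncomputable def n793 : Strat := .win 841 3 840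
noncomputable def n794 : Strat := .move 1004 n792 (.cons 1045 n793 .nil)
noncomputable def n795 : Strat := .move 798 n132 (.cons 839 n794 .nil)
noncomputable def n796 : Strat := .win 798 7 798
noncomputable def n797 : Strat := .win 880 7 839
noncomputable def n798 : Strat := .move 1004 n797 (.cons 880 n792 .nil)
noncomputable def n799 : Strat := .move 839 n796 (.cons 798 n798 .nil)
noncomputable def n800 : Strat := .win 883 0 838
noncomputable def n801 : Strat := .move 838 n800 (.cons 883 n332 .nil)
noncomputable def n802 : Strat := .move 839 n796 (.cons 798 n801 .nil)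
noncomputable def n803 : Strat := .move 841 n789 (.cons 800 n802 .nil)
noncomputable def n804 : Strat := .move 963 n791 (.cons 800 n795 (.cons 841 n799 (.cons 1004 n803 .nil)))
noncomputable def n805 : Strat := .move 882 n656 (.cons 758 n804 .nil)
noncomputable def n806 : Strat := .move 923 n18 (.cons 964 n805 .nil)
noncomputable def n807 : Strat := .win 798 6 798
noncomputable def n808 : Strat := .win 1004 7 839
noncomputable def n809 : Strat := .move 839 n807 (.cons 798 n808 .nil)
noncomputable def n810 : Strat := .win 800 3 799
noncomputable def n811 : Strat := .win 882 3 840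
noncomputable def n812 : Strat := .win 1045 7 880
noncomputable def n813 : Strat := .move 1004 n811 (.cons 882 n812 .nil)
noncomputable def n814 : Strat := .move 841 n810 (.cons 800 n813 .nil)
noncomputable def n815 : Strat := .win 879 4 838
noncomputable def n816 : Strat := .move 842 n815 (.cons 879 n122 .nil)
noncomputable def n817 : Strat := .move 841 n810 (.cons 800 n816 .nil)
noncomputable def n818 : Strat := .move 839 n807 (.cons 798 n817 .nil)
noncomputable def n819 : Strat := .move 963 n809 (.cons 839 n814 (.cons 1004 n818 .nil))
noncomputable def n820 : Strat := .move 880 n177 (.cons 758 n819 .nil)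
noncomputable def n821 : Strat := .move 921 n36 (.cons 962 n820 .nil)
noncomputable def n822 : Strat := .move 841 n811 (.cons 882 n810 .nil)
noncomputable def n823 : Strat := .move 1004 n797 (.cons 880 n822 .nil)
noncomputable def n824 : Strat := .move 839 n796 (.cons 798 n823 .nil)
noncomputable def n825 : Strat := .move 963 n137 (.cons 1005 n824 .nil)
noncomputable def n826 : Strat := .move 964 n136 (.cons 923 n825 .nil)
noncomputable def n827 : Strat := .move 921 n36 (.cons 962 n826 .nil)
noncomputable def n828 : Strat := .move 922 n183 (.cons 921 n806 (.cons 923 n821 (.cons 880 n742 (.cons 758 n827 .nil))))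
noncomputable def n829 : Strat := .win 882 0 837
noncomputable def n830 : Strat := .win 836 5 795
noncomputable def n831 : Strat := .move 837 n829 (.cons 882 n830 .nil)
noncomputable def n832 : Strat := .move 800 n162 (.cons 801 n212 .nil)
noncomputable def n833 : Strat := .win 800 4 797
noncomputable def n834 : Strat := .win 802 5 798
noncomputable def n835 : Strat := .move 842 n834 (.cons 802 n541 .nil)
noncomputable def n836 : Strat := .move 801 n833 (.cons 800 n835 .nil)
noncomputable def n837 : Strat := .move 758 n121 (.cons 717 n28 .nil)
noncomputable def n838 : Strat := .move 882 n800 (.cons 883 n837 .nil)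
noncomputable def n839 : Strat := .move 841 n751 (.cons 843 n465 (.cons 797 n836 (.cons 842 n838 .nil)))
noncomputable def n840 : Strat := .move 838 n831 (.cons 836 n832 (.cons 837 n839 .nil))
noncomputable def n841 : Strat := .move 839 n184 (.cons 963 n840 .nil)
noncomputable def n842 : Strat := .move 798 n131 (.cons 757 n841 .nil)
noncomputable def n843 : Strat := .win 1044 1 880
noncomputable def n844 : Strat := .win 962 1 839
noncomputable def n845 : Strat := .move 1003 n843 (.cons 1044 n844 .nil)
noncomputable def n846 : Strat := .move 1004 n811 (.cons 882 n845 .nil)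
noncomputable def n847 : Strat := .move 841 n810 (.cons 800 n846 .nil)
noncomputable def n848 : Strat := .move 963 n132 (.cons 839 n847 .nil)
noncomputable def n849 : Strat := .move 798 n131 (.cons 757 n848 .nil)
noncomputable def n850 : Strat := .move 963 n137 (.cons 1005 n847 .nil)
noncomputable def n851 : Strat := .move 964 n136 (.cons 923 n850 .nil)
noncomputable def n852 : Strat := .move 922 n140 (.cons 757 n806 (.cons 964 n842 (.cons 963 n366 (.cons 923 n849 (.cons 798 n851 .nil)))))
noncomputable def n853 : Strat := .move 881 n695 (.cons 758 n732 (.cons 880 n743 (.cons 798 n746 (.cons 923 n778 (.cons 839 n788 (.cons 757 n828 (.cons 921 n852 .nil)))))))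
noncomputable def n854 : Strat := .win 881 6 758
noncomputable def n855 : Strat := .win 800 7 758
noncomputable def n856 : Strat := .move 923 n854 (.cons 881 n855 .nil)
noncomputable def n857 : Strat := .move 841 n121 (.cons 717 n856 .nil)
noncomputable def n858 : Strat := .move 717 n30 (.cons 841 n67 .nil)
noncomputable def n859 : Strat := .move 838 n332 (.cons 837 n331 .nil)
noncomputable def n860 : Strat := .move 839 n398 (.cons 717 n859 .nil)
noncomputable def n861 : Strat := .move 880 n27 (.cons 921 n860 .nil)
noncomputable def n862 : Strat := .move 881 n28 (.cons 923 n861 .nil)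
noncomputable def n863 : Strat := .move 883 n304 (.cons 838 n305 .nil)
noncomputable def n864 : Strat := .move 839 n863 (.cons 884 n333 (.cons 838 n336 .nil))
noncomputable def n865 : Strat := .move 879 n248 (.cons 878 n864 .nil)
noncomputable def n866 : Strat := .move 757 n15 (.cons 716 n865 .nil)
noncomputable def n867 : Strat := .move 880 n27 (.cons 921 n866 .nil)
noncomputable def n868 : Strat := .move 881 n28 (.cons 923 n867 .nil)
noncomputable def n869 : Strat := .move 882 n857 (.cons 881 n858 (.cons 841 n862 (.cons 717 n868 .nil)))
noncomputable def n870 : Strat := .move 881 n56 (.cons 798 n652 (.cons 759 n341 (.cons 921 n391 .nil)))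
noncomputable def n871 : Strat := .move 717 n29 (.cons 839 n4 .nil)
noncomputable def n872 : Strat := .move 880 n27 (.cons 921 n871 .nil)
noncomputable def n873 : Strat := .move 881 n535 (.cons 882 n872 (.cons 677 n745 (.cons 717 n652 .nil)))
noncomputable def n874 : Strat := .move 882 n30 (.cons 841 n67 .nil)
noncomputable def n875 : Strat := .move 717 n874 (.cons 839 n62 (.cons 841 n67 (.cons 676 n84 .nil)))
noncomputable def n876 : Strat := .move 760 n415 (.cons 715 n414 .nil)
noncomputable def n877 : Strat := .move 759 n413 (.cons 881 n876 .nil)
noncomputable def n878 : Strat := .move 716 n0 (.cons 675 n877 .nil)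
noncomputable def n879 : Strat := .move 718 n2 (.cons 677 n878 .nil)
noncomputable def n880 : Strat := .move 717 n879 (.cons 881 n62 (.cons 675 n429 .nil))
noncomputable def n881 : Strat := .move 717 n115 (.cons 881 n67 (.cons 677 n522 .nil))
noncomputable def n882 : Strat := .move 717 n13 (.cons 676 n558 (.cons 880 n62 (.cons 882 n99 .nil)))
noncomputable def n883 : Strat := .move 758 n869 (.cons 717 n870 (.cons 798 n873 (.cons 881 n875 (.cons 839 n880 (.cons 841 n881 (.cons 718 n882 .nil))))))
noncomputable def n884 : Strat := .move 717 n13 (.cons 882 n99 (.cons 676 n97 .nil))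
noncomputable def n885 : Strat := .move 716 n0 (.cons 675 n13 .nil)
noncomputable def n886 : Strat := .move 841 n9 (.cons 882 n502 .nil)
noncomputable def n887 : Strat := .move 839 n7 (.cons 880 n886 .nil)
noncomputable def n888 : Strat := .move 842 n541 (.cons 843 n540 .nil)
noncomputable def n889 : Strat := .win 757 1 715
noncomputable def n890 : Strat := .move 879 n889 (.cons 757 n549 .nil)
noncomputable def n891 : Strat := .move 798 n465 (.cons 796 n888 (.cons 842 n890 .nil))
noncomputable def n892 : Strat := .move 838 n553 (.cons 837 n891 .nil)
noncomputable def n893 : Strat := .move 716 n0 (.cons 675 n892 .nil)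
noncomputable def n894 : Strat := .move 841 n9 (.cons 882 n893 .nil)
noncomputable def n895 : Strat := .move 839 n7 (.cons 880 n894 .nil)
noncomputable def n896 : Strat := .move 717 n885 (.cons 841 n99 (.cons 839 n62 (.cons 716 n887 (.cons 676 n895 .nil))))
noncomputable def n897 : Strat := .move 881 n21 (.cons 757 n787 (.cons 882 n207 .nil))
noncomputable def n898 : Strat := .move 798 n541 (.cons 843 n540 .nil)
noncomputable def n899 : Strat := .win 798 2 798
noncomputable def n900 : Strat := .win 885 0 840
noncomputable def n901 : Strat := .win 883 0 839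
noncomputable def n902 : Strat := .move 884 n900 (.cons 885 n901 .nil)
noncomputable def n903 : Strat := .move 843 n899 (.cons 798 n902 .nil)
noncomputable def n904 : Strat := .win 844 2 799
noncomputable def n905 : Strat := .win 838 5 797
noncomputable def n906 : Strat := .move 800 n904 (.cons 844 n905 .nil)
noncomputable def n907 : Strat := .move 843 n902 (.cons 883 n906 .nil)
noncomputable def n908 : Strat := .move 801 n834 (.cons 802 n907 .nil)
noncomputable def n909 : Strat := .win 798 2 797
noncomputable def n910 : Strat := .win 796 2 796
noncomputable def n911 : Strat := .move 838 n910 (.cons 796 n553 .nil)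
noncomputable def n912 : Strat := .move 797 n909 (.cons 798 n911 .nil)
noncomputable def n913 : Strat := .move 842 n898 (.cons 797 n903 (.cons 798 n908 (.cons 843 n912 .nil)))
noncomputable def n914 : Strat := .move 839 n7 (.cons 880 n913 .nil)
noncomputable def n915 : Strat := .move 841 n9 (.cons 882 n914 .nil)
noncomputable def n916 : Strat := .move 717 n504 (.cons 676 n915 (.cons 841 n99 (.cons 839 n62 .nil)))
noncomputable def n917 : Strat := .move 881 n1 (.cons 757 n92 .nil)
noncomputable def n918 : Strat := .move 716 n0 (.cons 675 n917 .nil)
noncomputable def n919 : Strat := .win 595 3 594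
noncomputable def n920 : Strat := .win 677 3 635
noncomputable def n921 : Strat := .move 636 n919 (.cons 595 n920 .nil)
noncomputable def n922 : Strat := .win 593 7 593
noncomputable def n923 : Strat := .win 675 7 634
noncomputable def n924 : Strat := .move 634 n922 (.cons 593 n923 .nil)
noncomputable def n925 : Strat := .move 635 n921 (.cons 677 n924 .nil)
noncomputable def n926 : Strat := .move 881 n27 (.cons 921 n925 .nil)
noncomputable def n927 : Strat := .move 880 n29 (.cons 839 n926 .nil)
noncomputable def n928 : Strat := .move 676 n10 (.cons 800 n927 .nil)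
noncomputable def n929 : Strat := .move 841 n9 (.cons 882 n928 .nil)
noncomputable def n930 : Strat := .move 801 n165 (.cons 802 n905 .nil)
noncomputable def n931 : Strat := .move 839 n7 (.cons 880 n930 .nil)
noncomputable def n932 : Strat := .move 800 n420 (.cons 676 n931 .nil)
noncomputable def n933 : Strat := .move 841 n9 (.cons 882 n932 .nil)
noncomputable def n934 : Strat := .move 717 n62 (.cons 841 n918 (.cons 716 n929 (.cons 675 n933 .nil)))
noncomputable def n935 : Strat := .move 882 n28 (.cons 923 n860 .nil)
noncomputable def n936 : Strat := .move 880 n27 (.cons 921 n935 .nil)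
noncomputable def n937 : Strat := .win 759 1 758
noncomputable def n938 : Strat := .win 963 3 799
noncomputable def n939 : Strat := .move 800 n937 (.cons 759 n938 .nil)
noncomputable def n940 : Strat := .move 963 n790 (.cons 1004 n810 .nil)
noncomputable def n941 : Strat := .move 757 n16 (.cons 798 n940 .nil)
noncomputable def n942 : Strat := .move 963 n132 (.cons 839 n790 .nil)
noncomputable def n943 : Strat := .move 798 n131 (.cons 757 n942 .nil)
noncomputable def n944 : Strat := .move 798 n131 (.cons 757 n761 .nil)
noncomputable def n945 : Strat := .move 800 n937 (.cons 759 n944 .nil)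
noncomputable def n946 : Strat := .move 922 n939 (.cons 759 n941 (.cons 800 n943 (.cons 963 n945 .nil)))
noncomputable def n947 : Strat := .move 841 n121 (.cons 717 n946 .nil)
noncomputable def n948 : Strat := .move 882 n28 (.cons 923 n947 .nil)
noncomputable def n949 : Strat := .move 800 n130 (.cons 841 n129 .nil)
noncomputable def n950 : Strat := .move 963 n132 (.cons 839 n949 .nil)
noncomputable def n951 : Strat := .move 798 n131 (.cons 757 n950 .nil)
noncomputable def n952 : Strat := .move 922 n18 (.cons 964 n951 .nil)
noncomputable def n953 : Strat := .move 923 n17 (.cons 882 n952 .nil)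
noncomputable def n954 : Strat := .move 880 n27 (.cons 921 n953 .nil)
noncomputable def n955 : Strat := .move 798 n669 (.cons 757 n184 .nil)
noncomputable def n956 : Strat := .move 963 n808 (.cons 1004 n796 .nil)
noncomputable def n957 : Strat := .move 759 n23 (.cons 800 n956 .nil)
noncomputable def n958 : Strat := .move 963 n130 (.cons 841 n808 .nil)
noncomputable def n959 : Strat := .move 800 n129 (.cons 759 n958 .nil)
noncomputable def n960 : Strat := .move 801 n166 (.cons 838 n165 .nil)
noncomputable def n961 : Strat := .move 800 n129 (.cons 759 n960 .nil)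
noncomputable def n962 : Strat := .move 798 n669 (.cons 757 n961 .nil)
noncomputable def n963 : Strat := .move 922 n955 (.cons 757 n957 (.cons 798 n959 (.cons 963 n962 .nil)))
noncomputable def n964 : Strat := .move 839 n398 (.cons 717 n963 .nil)
noncomputable def n965 : Strat := .move 880 n27 (.cons 921 n964 .nil)
noncomputable def n966 : Strat := .move 881 n936 (.cons 880 n948 (.cons 717 n954 (.cons 882 n965 (.cons 839 n787 .nil))))
noncomputable def n967 : Strat := .move 962 n152 (.cons 1003 n151 .nil)
noncomputable def n968 : Strat := .move 963 n130 (.cons 841 n967 .nil)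
noncomputable def n969 : Strat := .move 800 n129 (.cons 759 n968 .nil)
noncomputable def n970 : Strat := .move 922 n16 (.cons 798 n969 .nil)
noncomputable def n971 : Strat := .move 757 n15 (.cons 716 n970 .nil)
noncomputable def n972 : Strat := .move 922 n18 (.cons 964 n969 .nil)
noncomputable def n973 : Strat := .move 923 n17 (.cons 882 n972 .nil)
noncomputable def n974 : Strat := .move 881 n21 (.cons 882 n971 (.cons 716 n948 (.cons 922 n106 (.cons 757 n973 .nil))))
noncomputable def n975 : Strat := .move 760 n414 (.cons 761 n580 .nil)
noncomputable def n976 : Strat := .win 760 2 715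
noncomputable def n977 : Strat := .move 715 n69 (.cons 714 n976 .nil)
noncomputable def n978 : Strat := .win 715 0 714
noncomputable def n979 : Strat := .move 676 n295 (.cons 635 n294 .nil)
noncomputable def n980 : Strat := .move 800 n313 (.cons 755 n258 (.cons 801 n979 .nil))
noncomputable def n981 : Strat := .move 714 n978 (.cons 715 n980 .nil)
noncomputable def n982 : Strat := .move 800 n313 (.cons 755 n384 (.cons 801 n979 .nil))
noncomputable def n983 : Strat := .move 760 n414 (.cons 761 n982 .nil)
noncomputable def n984 : Strat := .move 759 n975 (.cons 761 n977 (.cons 760 n981 (.cons 715 n983 .nil)))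
noncomputable def n985 : Strat := .move 757 n110 (.cons 881 n984 .nil)
noncomputable def n986 : Strat := .move 716 n0 (.cons 675 n985 .nil)
noncomputable def n987 : Strat := .win 759 6 635
noncomputable def n988 : Strat := .move 635 n987 (.cons 759 n921 .nil)
noncomputable def n989 : Strat := .move 800 n294 (.cons 841 n988 .nil)
noncomputable def n990 : Strat := .move 676 n8 (.cons 798 n989 .nil)
noncomputable def n991 : Strat := .move 839 n7 (.cons 880 n990 .nil)
noncomputable def n992 : Strat := .move 717 n99 (.cons 839 n986 (.cons 716 n991 (.cons 676 n918 .nil)))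
noncomputable def n993 : Strat := .move 882 n28 (.cons 923 n861 .nil)
noncomputable def n994 : Strat := .move 881 n993 (.cons 880 n21 (.cons 882 n207 .nil))
noncomputable def n995 : Strat := .move 920 n246 (.cons 839 n245 .nil)
noncomputable def n996 : Strat := .move 879 n248 (.cons 878 n995 .nil)
noncomputable def n997 : Strat := .move 798 n228 (.cons 922 n996 .nil)
noncomputable def n998 : Strat := .move 757 n15 (.cons 716 n997 .nil)
noncomputable def n999 : Strat := .move 880 n27 (.cons 921 n998 .nil)
noncomputable def n1000 : Strat := .move 882 n28 (.cons 923 n999 .nil)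
noncomputable def n1001 : Strat := .move 838 n636 (.cons 839 n637 .nil)
noncomputable def n1002 : Strat := .win 841 5 838
noncomputable def n1003 : Strat := .move 842 n631 (.cons 843 n1002 .nil)
noncomputable def n1004 : Strat := .move 883 n306 (.cons 884 n1001 (.cons 838 n1003 .nil))
noncomputable def n1005 : Strat := .win 841 5 837
noncomputable def n1006 : Strat := .win 836 2 836
noncomputable def n1007 : Strat := .win 838 2 837
noncomputable def n1008 : Strat := .move 837 n1006 (.cons 836 n1007 .nil)
noncomputable def n1009 : Strat := .move 878 n1005 (.cons 841 n1008 .nil)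
noncomputable def n1010 : Strat := .win 918 4 877
noncomputable def n1011 : Strat := .win 920 4 878
noncomputable def n1012 : Strat := .move 919 n1010 (.cons 918 n1011 .nil)
noncomputable def n1013 : Strat := .move 878 n1008 (.cons 838 n1012 .nil)
noncomputable def n1014 : Strat := .move 879 n248 (.cons 878 n1004 (.cons 842 n1009 (.cons 841 n1013 .nil)))
noncomputable def n1015 : Strat := .move 880 n27 (.cons 921 n1014 .nil)
noncomputable def n1016 : Strat := .move 882 n28 (.cons 923 n1015 .nil)
noncomputable def n1017 : Strat := .move 757 n15 (.cons 716 n1016 .nil)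
noncomputable def n1018 : Strat := .move 839 n808 (.cons 1004 n796 .nil)
noncomputable def n1019 : Strat := .move 963 n949 (.cons 759 n1018 .nil)
noncomputable def n1020 : Strat := .move 879 n178 (.cons 878 n1019 .nil)
noncomputable def n1021 : Strat := .move 922 n18 (.cons 964 n1020 .nil)
noncomputable def n1022 : Strat := .move 923 n17 (.cons 882 n1021 .nil)
noncomputable def n1023 : Strat := .move 880 n27 (.cons 921 n1022 .nil)
noncomputable def n1024 : Strat := .move 881 n1000 (.cons 882 n207 (.cons 921 n21 (.cons 922 n341 (.cons 716 n954 (.cons 798 n1017 (.cons 757 n1023 .nil))))))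
noncomputable def n1025 : Strat := .move 758 n884 (.cons 881 n896 (.cons 839 n897 (.cons 757 n916 (.cons 798 n934 (.cons 716 n966 (.cons 880 n974 (.cons 882 n992 (.cons 841 n994 (.cons 717 n1024 .nil)))))))))
noncomputable def n1026 : Strat := .move 922 n158 (.cons 921 n148 (.cons 800 n326 .nil))
noncomputable def n1027 : Strat := .move 758 n35 (.cons 880 n17 .nil)
noncomputable def n1028 : Strat := .move 923 n18 (.cons 964 n1027 .nil)
noncomputable def n1029 : Strat := .move 921 n36 (.cons 962 n1028 .nil)
noncomputable def n1030 : Strat := .win 841 1 799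
noncomputable def n1031 : Strat := .move 963 n1030 (.cons 841 n799 .nil)
noncomputable def n1032 : Strat := .move 800 n129 (.cons 759 n1031 .nil)
noncomputable def n1033 : Strat := .move 882 n656 (.cons 758 n1032 .nil)
noncomputable def n1034 : Strat := .move 923 n18 (.cons 964 n1033 .nil)
noncomputable def n1035 : Strat := .move 922 n1029 (.cons 758 n158 (.cons 921 n1034 .nil))
noncomputable def n1036 : Strat := .move 922 n140 (.cons 757 n158 (.cons 963 n731 .nil))
noncomputable def n1037 : Strat := .move 922 n140 (.cons 1005 n283 (.cons 963 n144 .nil))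
noncomputable def n1038 : Strat := .move 922 n155 (.cons 798 n150 (.cons 921 n148 .nil))
noncomputable def n1039 : Strat := .move 758 n197 (.cons 839 n200 (.cons 882 n209 (.cons 717 n39 .nil)))
noncomputable def n1040 : Strat := .move 758 n207 (.cons 962 n329 (.cons 757 n209 .nil))
noncomputable def n1041 : Strat := .move 841 n790 (.cons 1004 n789 .nil)
noncomputable def n1042 : Strat := .move 963 n132 (.cons 839 n1041 .nil)
noncomputable def n1043 : Strat := .move 798 n131 (.cons 757 n1042 .nil)
noncomputable def n1044 : Strat := .move 882 n656 (.cons 758 n1043 .nil)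
noncomputable def n1045 : Strat := .move 923 n18 (.cons 964 n1044 .nil)
noncomputable def n1046 : Strat := .move 922 n183 (.cons 923 n155 (.cons 962 n1045 .nil))
noncomputable def n1047 : Strat := .move 758 n108 (.cons 922 n226 (.cons 923 n222 .nil))
noncomputable def n1048 : Strat := .move 797 n393 (.cons 796 n43 .nil)
noncomputable def n1049 : Strat := .move 798 n228 (.cons 922 n1048 .nil)
noncomputable def n1050 : Strat := .move 757 n15 (.cons 716 n1049 .nil)
noncomputable def n1051 : Strat := .move 759 n22 (.cons 718 n1050 .nil)
noncomputable def n1052 : Strat := .move 758 n204 (.cons 717 n1051 .nil)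
noncomputable def n1053 : Strat := .move 880 n27 (.cons 921 n649 .nil)
noncomputable def n1054 : Strat := .move 882 n28 (.cons 923 n1053 .nil)
noncomputable def n1055 : Strat := .move 759 n22 (.cons 718 n1054 .nil)
noncomputable def n1056 : Strat := .move 758 n204 (.cons 882 n209 (.cons 839 n226 (.cons 717 n1055 .nil)))
noncomputable def n1057 : Strat := .move 881 n1026 (.cons 757 n1035 (.cons 964 n223 (.cons 758 n1036 (.cons 880 n1037 (.cons 882 n1038 (.cons 798 n1039 (.cons 841 n1040 (.cons 759 n1046 (.cons 839 n1047 (.cons 800 n1052 (.cons 922 n1056 .nil)))))))))))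
noncomputable def n1058 : Strat := .move 922 n326 (.cons 964 n218 (.cons 880 n140 .nil))
noncomputable def n1059 : Strat := .move 758 n39 (.cons 759 n237 (.cons 880 n108 .nil))
noncomputable def n1060 : Strat := .move 922 n140 (.cons 798 n144 (.cons 923 n155 .nil))
noncomputable def n1061 : Strat := .move 758 n397 (.cons 757 n402 (.cons 759 n411 .nil))
noncomputable def n1062 : Strat := .win 800 0 756
noncomputable def n1063 : Strat := .move 801 n383 (.cons 802 n1062 .nil)
noncomputable def n1064 : Strat := .move 797 n567 (.cons 798 n44 .nil)
noncomputable def n1065 : Strat := .move 760 n1063 (.cons 800 n1064 .nil)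
noncomputable def n1066 : Strat := .win 713 2 713
noncomputable def n1067 : Strat := .win 715 2 714
noncomputable def n1068 : Strat := .move 714 n1066 (.cons 713 n1067 .nil)
noncomputable def n1069 : Strat := .move 755 n405 (.cons 800 n1068 .nil)
noncomputable def n1070 : Strat := .win 795 4 754
noncomputable def n1071 : Strat := .win 797 4 755
noncomputable def n1072 : Strat := .move 796 n1070 (.cons 795 n1071 .nil)
noncomputable def n1073 : Strat := .move 755 n1068 (.cons 715 n1072 .nil)
noncomputable def n1074 : Strat := .move 756 n42 (.cons 755 n1065 (.cons 801 n1069 (.cons 800 n1073 .nil)))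
noncomputable def n1075 : Strat := .move 759 n22 (.cons 718 n1074 .nil)
noncomputable def n1076 : Strat := .move 757 n15 (.cons 716 n1075 .nil)
noncomputable def n1077 : Strat := .move 882 n28 (.cons 923 n1076 .nil)
noncomputable def n1078 : Strat := .move 758 n993 (.cons 880 n1077 (.cons 923 n237 .nil))
noncomputable def n1079 : Strat := .move 800 n129 (.cons 759 n720 .nil)
noncomputable def n1080 : Strat := .move 922 n155 (.cons 798 n1079 (.cons 921 n140 .nil))
noncomputable def n1081 : Strat := .move 922 n155 (.cons 798 n150 (.cons 921 n140 .nil))
noncomputable def n1082 : Strat := .move 882 n28 (.cons 923 n859 .nil)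
noncomputable def n1083 : Strat := .move 839 n398 (.cons 717 n1082 .nil)
noncomputable def n1084 : Strat := .move 880 n27 (.cons 921 n1083 .nil)
noncomputable def n1085 : Strat := .move 758 n209 (.cons 839 n39 (.cons 718 n1084 (.cons 880 n108 .nil)))
noncomputable def n1086 : Strat := .move 800 n41 (.cons 755 n40 .nil)
noncomputable def n1087 : Strat := .move 755 n1070 (.cons 795 n1068 .nil)
noncomputable def n1088 : Strat := .move 796 n1071 (.cons 797 n1087 .nil)
noncomputable def n1089 : Strat := .move 760 n383 (.cons 802 n1064 .nil)
noncomputable def n1090 : Strat := .move 801 n1062 (.cons 800 n1089 .nil)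
noncomputable def n1091 : Strat := .move 756 n1086 (.cons 801 n1069 (.cons 800 n1088 (.cons 755 n1090 .nil)))
noncomputable def n1092 : Strat := .move 759 n22 (.cons 718 n1091 .nil)
noncomputable def n1093 : Strat := .move 757 n15 (.cons 716 n1092 .nil)
noncomputable def n1094 : Strat := .move 758 n329 (.cons 757 n39 (.cons 759 n21 (.cons 922 n1093 .nil)))
noncomputable def n1095 : Strat := .move 922 n218 (.cons 880 n155 (.cons 798 n150 (.cons 962 n292 .nil)))
noncomputable def n1096 : Strat := .move 922 n140 (.cons 839 n366 (.cons 798 n144 (.cons 964 n292 .nil)))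
noncomputable def n1097 : Strat := .move 881 n1058 (.cons 798 n1059 (.cons 880 n1060 (.cons 962 n1061 (.cons 922 n1078 (.cons 758 n1080 (.cons 882 n1081 (.cons 757 n1085 (.cons 839 n1094 (.cons 923 n1095 (.cons 921 n1096 .nil))))))))))
noncomputable def n1098 : Strat := .move 881 n209 (.cons 839 n39 (.cons 718 n1084 (.cons 880 n108 .nil)))
noncomputable def n1099 : Strat := .move 841 n239 (.cons 878 n238 .nil)
noncomputable def n1100 : Strat := .win 877 5 836
noncomputable def n1101 : Strat := .move 839 n1100 (.cons 877 n331 .nil)
noncomputable def n1102 : Strat := .move 878 n1012 (.cons 920 n1101 .nil)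
noncomputable def n1103 : Strat := .move 838 n637 (.cons 837 n1102 .nil)
noncomputable def n1104 : Strat := .move 883 n631 (.cons 843 n1001 .nil)
noncomputable def n1105 : Strat := .move 842 n1002 (.cons 841 n1104 .nil)
noncomputable def n1106 : Strat := .move 879 n1099 (.cons 842 n1009 (.cons 841 n1103 (.cons 878 n1105 .nil)))
noncomputable def n1107 : Strat := .move 882 n28 (.cons 923 n1106 .nil)
noncomputable def n1108 : Strat := .move 880 n27 (.cons 921 n1107 .nil)
noncomputable def n1109 : Strat := .move 881 n39 (.cons 718 n1023 (.cons 800 n1108 (.cons 880 n108 .nil)))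
noncomputable def n1110 : Strat := .move 800 n420 (.cons 676 n761 .nil)
noncomputable def n1111 : Strat := .move 841 n9 (.cons 882 n1110 .nil)
noncomputable def n1112 : Strat := .move 759 n413 (.cons 881 n436 .nil)
noncomputable def n1113 : Strat := .move 718 n2 (.cons 677 n1112 .nil)
noncomputable def n1114 : Strat := .move 798 n1111 (.cons 882 n1113 .nil)
noncomputable def n1115 : Strat := .move 716 n0 (.cons 675 n1114 .nil)
noncomputable def n1116 : Strat := .move 921 n36 (.cons 962 n35 .nil)
noncomputable def n1117 : Strat := .move 923 n18 (.cons 964 n17 .nil)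
noncomputable def n1118 : Strat := .move 922 n1116 (.cons 880 n1117 .nil)
noncomputable def n1119 : Strat := .move 676 n59 (.cons 634 n1118 .nil)
noncomputable def n1120 : Strat := .move 675 n58 (.cons 716 n1119 .nil)
noncomputable def n1121 : Strat := .move 881 n3 (.cons 759 n1120 .nil)
noncomputable def n1122 : Strat := .move 718 n2 (.cons 677 n1121 .nil)
noncomputable def n1123 : Strat := .move 716 n0 (.cons 675 n876 .nil)
noncomputable def n1124 : Strat := .move 759 n413 (.cons 881 n1123 .nil)
noncomputable def n1125 : Strat := .move 718 n2 (.cons 677 n1124 .nil)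
noncomputable def n1126 : Strat := .move 717 n1115 (.cons 718 n62 (.cons 676 n91 (.cons 841 n1122 (.cons 882 n1125 .nil))))
noncomputable def n1127 : Strat := .move 717 n67 (.cons 718 n99 (.cons 839 n91 .nil))
noncomputable def n1128 : Strat := .move 716 n0 (.cons 675 n436 .nil)
noncomputable def n1129 : Strat := .move 759 n413 (.cons 881 n1128 .nil)
noncomputable def n1130 : Strat := .move 718 n2 (.cons 677 n1129 .nil)
noncomputable def n1131 : Strat := .move 841 n9 (.cons 882 n1130 .nil)
noncomputable def n1132 : Strat := .move 839 n886 (.cons 841 n66 (.cons 676 n1131 .nil))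
noncomputable def n1133 : Strat := .move 717 n1132 (.cons 841 n1125 (.cons 718 n62 (.cons 716 n450 .nil)))
noncomputable def n1134 : Strat := .move 717 n67 (.cons 839 n1125 (.cons 677 n99 .nil))
noncomputable def n1135 : Strat := .move 758 n95 (.cons 718 n916 (.cons 841 n1098 (.cons 717 n1109 (.cons 839 n1126 (.cons 800 n1127 (.cons 880 n1133 (.cons 882 n1134 .nil)))))))
noncomputable def n1136 : Strat := .move 800 n263 (.cons 762 n256 .nil)
noncomputable def n1137 : Strat := .win 721 5 717
noncomputable def n1138 : Strat := .win 719 5 716
noncomputable def n1139 : Strat := .move 720 n1137 (.cons 721 n1138 .nil)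
noncomputable def n1140 : Strat := .move 761 n1136 (.cons 756 n1139 .nil)
noncomputable def n1141 : Strat := .move 801 n383 (.cons 802 n1140 .nil)
noncomputable def n1142 : Strat := .move 756 n44 (.cons 796 n42 .nil)
noncomputable def n1143 : Strat := .move 797 n567 (.cons 798 n1142 .nil)
noncomputable def n1144 : Strat := .move 760 n378 (.cons 797 n382 (.cons 798 n1141 (.cons 761 n1143 .nil)))
noncomputable def n1145 : Strat := .move 757 n15 (.cons 716 n1144 .nil)
noncomputable def n1146 : Strat := .move 759 n22 (.cons 718 n1145 .nil)
noncomputable def n1147 : Strat := .move 881 n222 (.cons 718 n207 (.cons 798 n39 (.cons 922 n1146 .nil)))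
noncomputable def n1148 : Strat := .move 718 n2 (.cons 677 n76 .nil)
noncomputable def n1149 : Strat := .move 757 n110 (.cons 881 n1148 .nil)
noncomputable def n1150 : Strat := .move 716 n0 (.cons 675 n1149 .nil)
noncomputable def n1151 : Strat := .move 839 n66 (.cons 718 n98 (.cons 676 n1150 .nil))
noncomputable def n1152 : Strat := .move 798 n229 (.cons 839 n230 .nil)
noncomputable def n1153 : Strat := .win 798 1 634
noncomputable def n1154 : Strat := .win 594 1 593
noncomputable def n1155 : Strat := .move 635 n1153 (.cons 798 n1154 .nil)
noncomputable def n1156 : Strat := .move 841 n10 (.cons 800 n1155 .nil)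
noncomputable def n1157 : Strat := .move 635 n987 (.cons 759 n1154 .nil)
noncomputable def n1158 : Strat := .move 800 n294 (.cons 841 n1157 .nil)
noncomputable def n1159 : Strat := .move 801 n592 (.cons 756 n257 .nil)
noncomputable def n1160 : Strat := .move 800 n294 (.cons 841 n1159 .nil)
noncomputable def n1161 : Strat := .move 798 n229 (.cons 839 n1160 .nil)
noncomputable def n1162 : Strat := .move 676 n1152 (.cons 839 n1156 (.cons 798 n1158 (.cons 635 n1161 .nil)))
noncomputable def n1163 : Strat := .move 757 n110 (.cons 881 n1162 .nil)
noncomputable def n1164 : Strat := .move 716 n0 (.cons 675 n1163 .nil)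
noncomputable def n1165 : Strat := .move 718 n2 (.cons 677 n81 .nil)
noncomputable def n1166 : Strat := .move 716 n0 (.cons 675 n1165 .nil)
noncomputable def n1167 : Strat := .win 759 0 715
noncomputable def n1168 : Strat := .move 760 n437 (.cons 761 n1167 .nil)
noncomputable def n1169 : Strat := .move 757 n75 (.cons 756 n74 .nil)
noncomputable def n1170 : Strat := .move 719 n1168 (.cons 759 n1169 .nil)
noncomputable def n1171 : Strat := .win 672 2 672
noncomputable def n1172 : Strat := .win 674 2 673
noncomputable def n1173 : Strat := .move 673 n1171 (.cons 672 n1172 .nil)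
noncomputable def n1174 : Strat := .move 714 n516 (.cons 759 n1173 .nil)
noncomputable def n1175 : Strat := .win 754 4 713
noncomputable def n1176 : Strat := .win 756 4 714
noncomputable def n1177 : Strat := .move 755 n1175 (.cons 754 n1176 .nil)
noncomputable def n1178 : Strat := .move 714 n1173 (.cons 674 n1177 .nil)
noncomputable def n1179 : Strat := .move 715 n70 (.cons 714 n1170 (.cons 760 n1174 (.cons 759 n1178 .nil)))
noncomputable def n1180 : Strat := .move 716 n0 (.cons 675 n1179 .nil)
noncomputable def n1181 : Strat := .move 718 n2 (.cons 677 n1180 .nil)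
noncomputable def n1182 : Strat := .move 839 n66 (.cons 676 n1166 (.cons 798 n1181 (.cons 718 n98 .nil)))
noncomputable def n1183 : Strat := .move 800 n294 (.cons 841 n295 .nil)
noncomputable def n1184 : Strat := .move 839 n8 (.cons 798 n525 .nil)
noncomputable def n1185 : Strat := .win 757 1 634
noncomputable def n1186 : Strat := .move 635 n1185 (.cons 757 n524 .nil)
noncomputable def n1187 : Strat := .move 798 n229 (.cons 839 n1186 .nil)
noncomputable def n1188 : Strat := .win 760 5 756
noncomputable def n1189 : Strat := .move 797 n1188 (.cons 760 n393 .nil)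
noncomputable def n1190 : Strat := .move 798 n229 (.cons 839 n1189 .nil)
noncomputable def n1191 : Strat := .move 800 n294 (.cons 841 n1190 .nil)
noncomputable def n1192 : Strat := .move 676 n1183 (.cons 841 n1184 (.cons 800 n1187 (.cons 635 n1191 .nil)))
noncomputable def n1193 : Strat := .move 759 n413 (.cons 881 n1192 .nil)
noncomputable def n1194 : Strat := .move 718 n2 (.cons 677 n1193 .nil)
noncomputable def n1195 : Strat := .move 717 n1151 (.cons 718 n1164 (.cons 881 n1182 (.cons 716 n1194 (.cons 757 n1125 .nil))))
noncomputable def n1196 : Strat := .move 964 n137 (.cons 1005 n136 .nil)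
noncomputable def n1197 : Strat := .move 963 n967 (.cons 921 n1196 .nil)
noncomputable def n1198 : Strat := .move 717 n0 (.cons 675 n1197 .nil)
noncomputable def n1199 : Strat := .move 716 n1 (.cons 757 n1198 .nil)
noncomputable def n1200 : Strat := .move 922 n23 (.cons 800 n1199 .nil)
noncomputable def n1201 : Strat := .move 759 n22 (.cons 718 n1200 .nil)
noncomputable def n1202 : Strat := .move 881 n39 (.cons 759 n237 (.cons 880 n1201 (.cons 921 n261 .nil)))
noncomputable def n1203 : Strat := .move 839 n7 (.cons 880 n1166 .nil)
noncomputable def n1204 : Strat := .move 839 n7 (.cons 880 n1181 .nil)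
noncomputable def n1205 : Strat := .win 757 4 715
noncomputable def n1206 : Strat := .move 756 n1205 (.cons 757 n72 .nil)
noncomputable def n1207 : Strat := .move 719 n1168 (.cons 759 n1206 .nil)
noncomputable def n1208 : Strat := .move 715 n70 (.cons 714 n1207 (.cons 760 n1174 (.cons 759 n1178 .nil)))
noncomputable def n1209 : Strat := .move 718 n2 (.cons 677 n1208 .nil)
noncomputable def n1210 : Strat := .move 716 n0 (.cons 675 n1209 .nil)
noncomputable def n1211 : Strat := .move 841 n61 (.cons 716 n449 (.cons 800 n1210 .nil))
noncomputable def n1212 : Strat := .move 717 n501 (.cons 718 n99 (.cons 675 n67 (.cons 676 n1203 (.cons 880 n1182 (.cons 798 n1204 (.cons 839 n1211 .nil))))))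
noncomputable def n1213 : Strat := .move 963 n132 (.cons 839 n967 .nil)
noncomputable def n1214 : Strat := .move 798 n131 (.cons 757 n1213 .nil)
noncomputable def n1215 : Strat := .move 922 n23 (.cons 800 n1214 .nil)
noncomputable def n1216 : Strat := .move 759 n22 (.cons 718 n1215 .nil)
noncomputable def n1217 : Strat := .win 757 2 757
noncomputable def n1218 : Strat := .win 803 2 758
noncomputable def n1219 : Strat := .move 802 n1217 (.cons 757 n1218 .nil)
noncomputable def n1220 : Strat := .move 757 n256 (.cons 756 n257 .nil)
noncomputable def n1221 : Strat := .win 797 5 756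
noncomputable def n1222 : Strat := .move 760 n1221 (.cons 797 n46 .nil)
noncomputable def n1223 : Strat := .win 757 0 756
noncomputable def n1224 : Strat := .move 797 n169 (.cons 755 n393 .nil)
noncomputable def n1225 : Strat := .move 756 n1223 (.cons 757 n1224 .nil)
noncomputable def n1226 : Strat := .move 717 n463 (.cons 676 n7 .nil)
noncomputable def n1227 : Strat := .move 839 n166 (.cons 838 n1226 .nil)
noncomputable def n1228 : Strat := .move 798 n1189 (.cons 796 n1222 (.cons 760 n1225 (.cons 797 n1227 .nil)))
noncomputable def n1229 : Strat := .move 802 n1218 (.cons 803 n350 .nil)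
noncomputable def n1230 : Strat := .move 801 n1219 (.cons 803 n1220 (.cons 802 n1228 (.cons 757 n1229 .nil)))
noncomputable def n1231 : Strat := .move 800 n255 (.cons 922 n1230 .nil)
noncomputable def n1232 : Strat := .move 759 n22 (.cons 718 n1231 .nil)
noncomputable def n1233 : Strat := .move 963 n132 (.cons 839 n1196 .nil)
noncomputable def n1234 : Strat := .move 798 n131 (.cons 757 n1233 .nil)
noncomputable def n1235 : Strat := .move 922 n36 (.cons 962 n1234 .nil)
noncomputable def n1236 : Strat := .move 921 n35 (.cons 880 n1235 .nil)
noncomputable def n1237 : Strat := .move 881 n39 (.cons 718 n965 (.cons 922 n872 (.cons 880 n1216 (.cons 921 n1232 (.cons 759 n1236 .nil)))))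
noncomputable def n1238 : Strat := .move 758 n116 (.cons 757 n1134 (.cons 718 n992 (.cons 839 n1147 (.cons 880 n1195 (.cons 798 n1202 (.cons 881 n1212 (.cons 716 n1237 .nil)))))))
noncomputable def n1239 : Strat := .move 758 n397 (.cons 798 n209 (.cons 759 n237 .nil))
noncomputable def n1240 : Strat := .move 758 n209 (.cons 880 n261 (.cons 759 n237 .nil))
noncomputable def n1241 : Strat := .move 798 n131 (.cons 757 n763 .nil)
noncomputable def n1242 : Strat := .move 841 n938 (.cons 963 n1241 .nil)
noncomputable def n1243 : Strat := .move 800 n129 (.cons 759 n1242 .nil)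
noncomputable def n1244 : Strat := .move 922 n158 (.cons 841 n150 (.cons 800 n218 (.cons 962 n1243 .nil)))
noncomputable def n1245 : Strat := .move 798 n131 (.cons 757 n281 .nil)
noncomputable def n1246 : Strat := .move 800 n129 (.cons 759 n1245 .nil)
noncomputable def n1247 : Strat := .move 839 n165 (.cons 802 n166 .nil)
noncomputable def n1248 : Strat := .win 803 4 799
noncomputable def n1249 : Strat := .move 841 n1248 (.cons 803 n762 .nil)
noncomputable def n1250 : Strat := .move 802 n1249 (.cons 797 n357 .nil)
noncomputable def n1251 : Strat := .move 842 n344 (.cons 843 n1250 .nil)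
noncomputable def n1252 : Strat := .move 801 n1247 (.cons 838 n354 (.cons 839 n1251 (.cons 802 n579 .nil)))
noncomputable def n1253 : Strat := .move 798 n131 (.cons 757 n1252 .nil)
noncomputable def n1254 : Strat := .move 800 n129 (.cons 759 n1253 .nil)
noncomputable def n1255 : Strat := .move 922 n1246 (.cons 759 n155 (.cons 963 n1254 (.cons 798 n158 .nil)))
noncomputable def n1256 : Strat := .move 1004 n797 (.cons 880 n845 .nil)
noncomputable def n1257 : Strat := .move 839 n796 (.cons 798 n1256 .nil)
noncomputable def n1258 : Strat := .move 963 n130 (.cons 841 n1257 .nil)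
noncomputable def n1259 : Strat := .move 800 n129 (.cons 759 n1258 .nil)
noncomputable def n1260 : Strat := .move 843 n899 (.cons 798 n904 .nil)
noncomputable def n1261 : Strat := .move 798 n762 (.cons 797 n541 .nil)
noncomputable def n1262 : Strat := .move 838 n552 (.cons 801 n212 .nil)
noncomputable def n1263 : Strat := .move 801 n905 (.cons 838 n165 .nil)
noncomputable def n1264 : Strat := .win 798 0 797
noncomputable def n1265 : Strat := .move 838 n910 (.cons 796 n212 .nil)
noncomputable def n1266 : Strat := .move 797 n1264 (.cons 798 n1265 .nil)
noncomputable def n1267 : Strat := .move 758 n398 (.cons 717 n27 .nil)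
noncomputable def n1268 : Strat := .move 880 n815 (.cons 879 n1267 .nil)
noncomputable def n1269 : Strat := .move 839 n1262 (.cons 837 n1263 (.cons 801 n1266 (.cons 838 n1268 .nil)))
noncomputable def n1270 : Strat := .win 880 4 839
noncomputable def n1271 : Strat := .move 843 n904 (.cons 844 n1270 .nil)
noncomputable def n1272 : Strat := .move 842 n1260 (.cons 844 n1261 (.cons 843 n1269 (.cons 798 n1271 .nil)))
noncomputable def n1273 : Strat := .move 841 n938 (.cons 963 n1272 .nil)
noncomputable def n1274 : Strat := .move 800 n129 (.cons 759 n1273 .nil)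
noncomputable def n1275 : Strat := .win 1046 6 881
noncomputable def n1276 : Strat := .win 964 6 840
noncomputable def n1277 : Strat := .move 1005 n1275 (.cons 1046 n1276 .nil)
noncomputable def n1278 : Strat := .move 1004 n797 (.cons 880 n1277 .nil)
noncomputable def n1279 : Strat := .move 839 n796 (.cons 798 n1278 .nil)
noncomputable def n1280 : Strat := .move 963 n152 (.cons 1003 n1279 .nil)
noncomputable def n1281 : Strat := .move 962 n151 (.cons 921 n1280 .nil)
noncomputable def n1282 : Strat := .move 922 n158 (.cons 921 n1259 (.cons 759 n821 (.cons 962 n1274 (.cons 963 n150 (.cons 800 n1281 .nil)))))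
noncomputable def n1283 : Strat := .move 841 n9 (.cons 882 n420 .nil)
noncomputable def n1284 : Strat := .move 880 n29 (.cons 839 n296 .nil)
noncomputable def n1285 : Strat := .move 676 n8 (.cons 798 n295 .nil)
noncomputable def n1286 : Strat := .move 839 n7 (.cons 880 n1285 .nil)
noncomputable def n1287 : Strat := .move 839 n7 (.cons 880 n1262 .nil)
noncomputable def n1288 : Strat := .move 841 n9 (.cons 882 n1287 .nil)
noncomputable def n1289 : Strat := .move 717 n1283 (.cons 882 n1284 (.cons 841 n1286 (.cons 676 n1288 .nil)))
noncomputable def n1290 : Strat := .move 800 n255 (.cons 922 n1289 .nil)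
noncomputable def n1291 : Strat := .move 759 n22 (.cons 718 n1290 .nil)
noncomputable def n1292 : Strat := .move 759 n22 (.cons 718 n53 .nil)
noncomputable def n1293 : Strat := .move 757 n15 (.cons 716 n1292 .nil)
noncomputable def n1294 : Strat := .move 760 n1063 (.cons 800 n271 .nil)
noncomputable def n1295 : Strat := .move 756 n42 (.cons 755 n1294 (.cons 801 n1069 (.cons 800 n1073 .nil)))
noncomputable def n1296 : Strat := .move 757 n15 (.cons 716 n1295 .nil)
noncomputable def n1297 : Strat := .move 759 n22 (.cons 718 n1296 .nil)
noncomputable def n1298 : Strat := .move 880 n208 (.cons 717 n1293 (.cons 759 n236 (.cons 839 n1297 .nil)))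
noncomputable def n1299 : Strat := .move 758 n397 (.cons 757 n1291 (.cons 759 n756 (.cons 798 n261 (.cons 922 n1298 .nil))))
noncomputable def n1300 : Strat := .move 880 n27 (.cons 921 n1297 .nil)
noncomputable def n1301 : Strat := .move 841 n10 (.cons 800 n9 .nil)
noncomputable def n1302 : Strat := .move 676 n1152 (.cons 635 n1301 .nil)
noncomputable def n1303 : Strat := .move 756 n111 (.cons 755 n1302 .nil)
noncomputable def n1304 : Strat := .move 717 n2 (.cons 677 n1303 .nil)
noncomputable def n1305 : Strat := .move 718 n3 (.cons 759 n1304 .nil)
noncomputable def n1306 : Strat := .move 757 n15 (.cons 716 n1305 .nil)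
noncomputable def n1307 : Strat := .move 758 n209 (.cons 759 n237 (.cons 717 n56 (.cons 921 n1298 (.cons 839 n1300 (.cons 880 n1306 .nil)))))
noncomputable def n1308 : Strat := .move 881 n1239 (.cons 798 n1240 (.cons 839 n1244 (.cons 880 n1255 (.cons 757 n1282 (.cons 759 n778 (.cons 921 n1299 (.cons 922 n1307 .nil)))))))
noncomputable def n1309 : Strat := .move 758 n33 (.cons 921 n535 (.cons 882 n39 .nil))
noncomputable def n1310 : Strat := .move 758 n535 (.cons 882 n872 (.cons 677 n745 (.cons 717 n652 .nil)))
noncomputable def n1311 : Strat := .move 758 n39 (.cons 759 n237 (.cons 880 n1201 (.cons 921 n261 .nil)))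
noncomputable def n1312 : Strat := .move 758 n200 (.cons 882 n1201 (.cons 759 n226 (.cons 717 n108 (.cons 923 n261 .nil))))
noncomputable def n1313 : Strat := .move 758 n535 (.cons 882 n261 (.cons 759 n106 .nil))
noncomputable def n1314 : Strat := .win 880 2 880
noncomputable def n1315 : Strat := .win 967 0 922
noncomputable def n1316 : Strat := .win 965 0 921
noncomputable def n1317 : Strat := .move 966 n1315 (.cons 967 n1316 .nil)
noncomputable def n1318 : Strat := .move 925 n1314 (.cons 880 n1317 .nil)
noncomputable def n1319 : Strat := .move 883 n658 (.cons 920 n657 .nil)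
noncomputable def n1320 : Strat := .win 841 6 800
noncomputable def n1321 : Strat := .win 966 0 921
noncomputable def n1322 : Strat := .move 965 n1320 (.cons 841 n1321 .nil)
noncomputable def n1323 : Strat := .move 882 n733 (.cons 919 n1319 (.cons 883 n1322 .nil))
noncomputable def n1324 : Strat := .move 924 n704 (.cons 879 n1318 (.cons 925 n1323 .nil))
noncomputable def n1325 : Strat := .move 800 n129 (.cons 759 n1324 .nil)
noncomputable def n1326 : Strat := .move 923 n18 (.cons 964 n1325 .nil)
noncomputable def n1327 : Strat := .move 921 n36 (.cons 962 n1326 .nil)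
noncomputable def n1328 : Strat := .move 882 n697 (.cons 919 n696 .nil)
noncomputable def n1329 : Strat := .move 919 n710 (.cons 877 n716 .nil)
noncomputable def n1330 : Strat := .move 878 n711 (.cons 879 n1329 .nil)
noncomputable def n1331 : Strat := .move 924 n705 (.cons 884 n701 .nil)
noncomputable def n1332 : Strat := .move 883 n706 (.cons 882 n1331 .nil)
noncomputable def n1333 : Strat := .move 920 n1328 (.cons 883 n713 (.cons 882 n1330 (.cons 919 n1332 .nil)))
noncomputable def n1334 : Strat := .move 923 n18 (.cons 964 n1333 .nil)
noncomputable def n1335 : Strat := .move 921 n36 (.cons 962 n1334 .nil)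
noncomputable def n1336 : Strat := .move 922 n158 (.cons 921 n142 (.cons 759 n721 (.cons 963 n1327 (.cons 841 n1079 (.cons 800 n1335 .nil)))))
noncomputable def n1337 : Strat := .move 881 n1309 (.cons 922 n1310 (.cons 882 n1311 (.cons 880 n1312 (.cons 923 n1240 (.cons 921 n1313 (.cons 759 n746 (.cons 717 n643 (.cons 758 n1336 .nil))))))))
noncomputable def n1338 : Strat := .move 922 n135 (.cons 800 n366 (.cons 798 n142 .nil))
noncomputable def n1339 : Strat := .move 842 n344 (.cons 843 n762 .nil)
noncomputable def n1340 : Strat := .win 882 3 759
noncomputable def n1341 : Strat := .move 760 n1340 (.cons 882 n574 .nil)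
noncomputable def n1342 : Strat := .move 841 n761 (.cons 796 n1339 (.cons 842 n1341 .nil))
noncomputable def n1343 : Strat := .move 801 n343 (.cons 802 n1342 .nil)
noncomputable def n1344 : Strat := .move 923 n18 (.cons 964 n1343 .nil)
noncomputable def n1345 : Strat := .move 798 n131 (.cons 757 n1344 .nil)
noncomputable def n1346 : Strat := .move 800 n129 (.cons 759 n1345 .nil)
noncomputable def n1347 : Strat := .move 922 n135 (.cons 963 n1346 (.cons 839 n142 (.cons 800 n140 .nil)))
noncomputable def n1348 : Strat := .move 758 n21 (.cons 798 n226 (.cons 757 n200 (.cons 923 n454 .nil)))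
noncomputable def n1349 : Strat := .move 922 n142 (.cons 963 n742 (.cons 923 n158 .nil))
noncomputable def n1350 : Strat := .move 757 n15 (.cons 716 n368 .nil)
noncomputable def n1351 : Strat := .move 759 n22 (.cons 718 n1350 .nil)
noncomputable def n1352 : Strat := .move 759 n22 (.cons 718 n268 .nil)
noncomputable def n1353 : Strat := .move 757 n15 (.cons 716 n563 .nil)
noncomputable def n1354 : Strat := .win 798 2 756
noncomputable def n1355 : Strat := .move 756 n41 (.cons 755 n1354 .nil)
noncomputable def n1356 : Strat := .move 801 n257 (.cons 802 n1355 .nil)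
noncomputable def n1357 : Strat := .move 757 n15 (.cons 716 n1356 .nil)
noncomputable def n1358 : Strat := .move 800 n1351 (.cons 802 n1352 (.cons 718 n1353 (.cons 759 n1357 .nil)))
noncomputable def n1359 : Strat := .move 758 n1358 (.cons 759 n226 (.cons 757 n200 (.cons 923 n1306 (.cons 717 n391 (.cons 841 n1077 (.cons 882 n1093 .nil))))))
noncomputable def n1360 : Strat := .move 881 n1338 (.cons 758 n1347 (.cons 800 n1348 (.cons 798 n1312 (.cons 759 n743 (.cons 757 n1349 (.cons 923 n1255 (.cons 841 n1060 (.cons 922 n1359 .nil))))))))
noncomputable def n1361 : Strat := .move 758 n204 (.cons 880 n21 (.cons 923 n237 .nil))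
noncomputable def n1362 : Strat := .win 926 2 881
noncomputable def n1363 : Strat := .move 882 n1362 (.cons 926 n658 .nil)
noncomputable def n1364 : Strat := .move 925 n1317 (.cons 965 n1363 .nil)
noncomputable def n1365 : Strat := .move 883 n705 (.cons 884 n1364 .nil)
noncomputable def n1366 : Strat := .move 920 n700 (.cons 878 n698 .nil)
noncomputable def n1367 : Strat := .move 879 n699 (.cons 880 n1366 .nil)
noncomputable def n1368 : Strat := .move 924 n704 (.cons 879 n1318 (.cons 880 n1365 (.cons 925 n1367 .nil)))
noncomputable def n1369 : Strat := .move 921 n36 (.cons 962 n1368 .nil)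
noncomputable def n1370 : Strat := .move 923 n18 (.cons 964 n1369 .nil)
noncomputable def n1371 : Strat := .move 922 n140 (.cons 964 n155 (.cons 839 n1370 .nil))
noncomputable def n1372 : Strat := .move 758 n237 (.cons 880 n454 (.cons 757 n209 .nil))
noncomputable def n1373 : Strat := .move 758 n33 (.cons 880 n200 (.cons 923 n209 (.cons 717 n1108 .nil)))
noncomputable def n1374 : Strat := .move 881 n1361 (.cons 758 n1371 (.cons 880 n1348 (.cons 923 n1372 (.cons 757 n1373 .nil))))
noncomputable def n1375 : Strat := .move 758 n103 (.cons 759 n106 (.cons 716 n108 .nil))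
noncomputable def n1376 : Strat := .move 922 n158 (.cons 800 n1370 (.cons 962 n1243 .nil))
noncomputable def n1377 : Strat := .move 758 n200 (.cons 882 n1146 (.cons 759 n226 .nil))
noncomputable def n1378 : Strat := .move 758 n108 (.cons 759 n226 (.cons 882 n39 .nil))
noncomputable def n1379 : Strat := .move 921 n36 (.cons 962 n1027 .nil)
noncomputable def n1380 : Strat := .move 923 n18 (.cons 964 n1379 .nil)
noncomputable def n1381 : Strat := .win 963 1 799
noncomputable def n1382 : Strat := .win 965 6 800
noncomputable def n1383 : Strat := .move 880 n664 (.cons 879 n702 .nil)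
noncomputable def n1384 : Strat := .move 924 n1382 (.cons 965 n1383 .nil)
noncomputable def n1385 : Strat := .move 841 n1381 (.cons 963 n1384 .nil)
noncomputable def n1386 : Strat := .move 800 n129 (.cons 759 n1385 .nil)
noncomputable def n1387 : Strat := .move 882 n656 (.cons 758 n1386 .nil)
noncomputable def n1388 : Strat := .move 923 n18 (.cons 964 n1387 .nil)
noncomputable def n1389 : Strat := .move 922 n1380 (.cons 964 n150 (.cons 758 n158 (.cons 962 n1388 .nil)))
noncomputable def n1390 : Strat := .move 881 n1375 (.cons 758 n1376 (.cons 922 n1377 (.cons 759 n788 (.cons 923 n1244 (.cons 841 n1094 (.cons 798 n1378 (.cons 757 n1389 .nil)))))))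
noncomputable def n1391 : Strat := .move 717 n88 (.cons 880 n450 (.cons 882 n67 (.cons 676 n94 .nil)))
noncomputable def n1392 : Strat := .move 718 n2 (.cons 677 n88 .nil)
noncomputable def n1393 : Strat := .win 759 6 718
noncomputable def n1394 : Strat := .move 883 n1393 (.cons 759 n537 .nil)
noncomputable def n1395 : Strat := .move 800 n1262 (.cons 837 n1263 (.cons 801 n1394 .nil))
noncomputable def n1396 : Strat := .move 842 n898 (.cons 797 n903 (.cons 843 n1395 .nil))
noncomputable def n1397 : Strat := .move 718 n2 (.cons 677 n1396 .nil)
noncomputable def n1398 : Strat := .move 841 n9 (.cons 882 n1397 .nil)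
noncomputable def n1399 : Strat := .move 839 n7 (.cons 880 n1398 .nil)
noncomputable def n1400 : Strat := .move 717 n1392 (.cons 839 n450 (.cons 841 n67 (.cons 718 n887 (.cons 676 n1399 .nil))))
noncomputable def n1401 : Strat := .move 881 n39 (.cons 718 n1084 (.cons 880 n108 .nil))
noncomputable def n1402 : Strat := .move 881 n108 (.cons 759 n787 (.cons 882 n39 .nil))
noncomputable def n1403 : Strat := .move 718 n2 (.cons 677 n887 .nil)
noncomputable def n1404 : Strat := .move 800 n212 (.cons 837 n552 .nil)
noncomputable def n1405 : Strat := .win 800 5 796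
noncomputable def n1406 : Strat := .win 795 2 795
noncomputable def n1407 : Strat := .win 797 2 796
noncomputable def n1408 : Strat := .move 796 n1406 (.cons 795 n1407 .nil)
noncomputable def n1409 : Strat := .move 837 n1405 (.cons 800 n1408 .nil)
noncomputable def n1410 : Strat := .win 877 4 836
noncomputable def n1411 : Strat := .win 879 4 837
noncomputable def n1412 : Strat := .move 878 n1410 (.cons 877 n1411 .nil)
noncomputable def n1413 : Strat := .move 798 n830 (.cons 836 n464 .nil)
noncomputable def n1414 : Strat := .move 837 n1412 (.cons 879 n1413 .nil)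
noncomputable def n1415 : Strat := .move 797 n910 (.cons 796 n1414 .nil)
noncomputable def n1416 : Strat := .win 800 5 797
noncomputable def n1417 : Strat := .move 797 n909 (.cons 798 n910 .nil)
noncomputable def n1418 : Strat := .move 842 n834 (.cons 802 n1417 .nil)
noncomputable def n1419 : Strat := .move 801 n1416 (.cons 800 n1418 .nil)
noncomputable def n1420 : Strat := .move 838 n1404 (.cons 801 n1409 (.cons 800 n1415 (.cons 837 n1419 .nil)))
noncomputable def n1421 : Strat := .move 841 n9 (.cons 882 n1420 .nil)
noncomputable def n1422 : Strat := .move 839 n7 (.cons 880 n1421 .nil)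
noncomputable def n1423 : Strat := .move 717 n1403 (.cons 839 n450 (.cons 841 n67 (.cons 676 n1422 .nil)))
noncomputable def n1424 : Strat := .move 635 n1185 (.cons 757 n921 .nil)
noncomputable def n1425 : Strat := .move 798 n229 (.cons 839 n1424 .nil)
noncomputable def n1426 : Strat := .move 676 n10 (.cons 800 n1425 .nil)
noncomputable def n1427 : Strat := .move 841 n9 (.cons 882 n1426 .nil)
noncomputable def n1428 : Strat := .move 756 n111 (.cons 755 n565 .nil)
noncomputable def n1429 : Strat := .win 756 5 715
noncomputable def n1430 : Strat := .move 719 n74 (.cons 720 n1429 .nil)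
noncomputable def n1431 : Strat := .win 719 4 716
noncomputable def n1432 : Strat := .move 676 n230 (.cons 635 n229 .nil)
noncomputable def n1433 : Strat := .move 798 n1432 (.cons 839 n615 .nil)
noncomputable def n1434 : Strat := .move 720 n1431 (.cons 719 n1433 .nil)
noncomputable def n1435 : Strat := .move 756 n111 (.cons 755 n1433 .nil)
noncomputable def n1436 : Strat := .move 757 n1428 (.cons 755 n1430 (.cons 756 n1434 (.cons 719 n1435 .nil)))
noncomputable def n1437 : Strat := .move 759 n413 (.cons 881 n1436 .nil)
noncomputable def n1438 : Strat := .move 718 n2 (.cons 677 n1437 .nil)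
noncomputable def n1439 : Strat := .move 635 n1185 (.cons 757 n924 .nil)
noncomputable def n1440 : Strat := .move 798 n229 (.cons 839 n1439 .nil)
noncomputable def n1441 : Strat := .move 676 n10 (.cons 800 n1440 .nil)
noncomputable def n1442 : Strat := .move 841 n9 (.cons 882 n1441 .nil)
noncomputable def n1443 : Strat := .move 717 n450 (.cons 718 n1427 (.cons 882 n1194 (.cons 800 n91 (.cons 841 n1438 (.cons 677 n1442 .nil)))))
noncomputable def n1444 : Strat := .move 881 n28 (.cons 923 n925 .nil)
noncomputable def n1445 : Strat := .move 882 n30 (.cons 841 n1444 .nil)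
noncomputable def n1446 : Strat := .move 676 n8 (.cons 798 n1445 .nil)
noncomputable def n1447 : Strat := .move 839 n7 (.cons 880 n1446 .nil)
noncomputable def n1448 : Strat := .move 797 n160 (.cons 796 n464 .nil)
noncomputable def n1449 : Strat := .move 841 n9 (.cons 882 n1448 .nil)
noncomputable def n1450 : Strat := .move 798 n463 (.cons 676 n1449 .nil)
noncomputable def n1451 : Strat := .move 839 n7 (.cons 880 n1450 .nil)
noncomputable def n1452 : Strat := .move 717 n94 (.cons 718 n1447 (.cons 880 n91 (.cons 881 n67 (.cons 677 n1451 .nil))))
noncomputable def n1453 : Strat := .move 883 n625 (.cons 838 n630 (.cons 884 n648 .nil))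
noncomputable def n1454 : Strat := .move 759 n22 (.cons 718 n1453 .nil)
noncomputable def n1455 : Strat := .move 882 n28 (.cons 923 n1454 .nil)
noncomputable def n1456 : Strat := .move 880 n27 (.cons 921 n1455 .nil)
noncomputable def n1457 : Strat := .move 883 n1001 (.cons 837 n625 (.cons 839 n1003 .nil))
noncomputable def n1458 : Strat := .move 879 n248 (.cons 878 n1457 (.cons 842 n1009 (.cons 841 n1013 .nil)))
noncomputable def n1459 : Strat := .move 882 n28 (.cons 923 n1458 .nil)
noncomputable def n1460 : Strat := .move 880 n27 (.cons 921 n1459 .nil)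
noncomputable def n1461 : Strat := .move 718 n3 (.cons 759 n1460 .nil)
noncomputable def n1462 : Strat := .move 841 n790 (.cons 1004 n810 .nil)
noncomputable def n1463 : Strat := .move 798 n132 (.cons 839 n131 .nil)
noncomputable def n1464 : Strat := .move 963 n1462 (.cons 800 n1463 .nil)
noncomputable def n1465 : Strat := .move 883 n657 (.cons 884 n1464 .nil)
noncomputable def n1466 : Strat := .move 922 n36 (.cons 962 n1465 .nil)
noncomputable def n1467 : Strat := .move 921 n35 (.cons 880 n1466 .nil)
noncomputable def n1468 : Strat := .move 882 n28 (.cons 923 n1467 .nil)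
noncomputable def n1469 : Strat := .move 881 n39 (.cons 880 n108 (.cons 922 n1456 (.cons 718 n954 (.cons 800 n1461 (.cons 759 n1468 .nil)))))
noncomputable def n1470 : Strat := .move 758 n1391 (.cons 881 n1400 (.cons 841 n1401 (.cons 839 n1402 (.cons 759 n1423 (.cons 718 n966 (.cons 880 n1443 (.cons 882 n1237 (.cons 800 n1452 (.cons 717 n1469 .nil)))))))))
noncomputable def n1471 : Strat := .win 800 0 797
noncomputable def n1472 : Strat := .move 842 n541 (.cons 843 n1471 .nil)
noncomputable def n1473 : Strat := .move 797 n160 (.cons 796 n1472 .nil)
noncomputable def n1474 : Strat := .win 678 1 677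
noncomputable def n1475 : Strat := .win 882 1 718
noncomputable def n1476 : Strat := .move 719 n1474 (.cons 678 n1475 .nil)
noncomputable def n1477 : Strat := .move 760 n574 (.cons 761 n1476 .nil)
noncomputable def n1478 : Strat := .move 800 n166 (.cons 838 n1477 .nil)
noncomputable def n1479 : Strat := .move 801 n834 (.cons 802 n1478 .nil)
noncomputable def n1480 : Strat := .win 921 3 757
noncomputable def n1481 : Strat := .move 758 n398 (.cons 717 n1480 .nil)
noncomputable def n1482 : Strat := .move 880 n815 (.cons 879 n1481 .nil)
noncomputable def n1483 : Strat := .move 839 n1479 (.cons 838 n1482 .nil)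
noncomputable def n1484 : Strat := .move 842 n541 (.cons 843 n1483 .nil)
noncomputable def n1485 : Strat := .win 880 6 715
noncomputable def n1486 : Strat := .win 674 6 674
noncomputable def n1487 : Strat := .move 715 n1485 (.cons 880 n1486 .nil)
noncomputable def n1488 : Strat := .move 756 n169 (.cons 755 n1487 .nil)
noncomputable def n1489 : Strat := .move 839 n162 (.cons 801 n1488 .nil)
noncomputable def n1490 : Strat := .move 838 n163 (.cons 837 n1489 .nil)
noncomputable def n1491 : Strat := .win 759 5 756
noncomputable def n1492 : Strat := .win 757 2 756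
noncomputable def n1493 : Strat := .move 756 n1492 (.cons 757 n169 .nil)
noncomputable def n1494 : Strat := .move 801 n574 (.cons 761 n1493 .nil)
noncomputable def n1495 : Strat := .move 760 n1491 (.cons 759 n1494 .nil)
noncomputable def n1496 : Strat := .win 758 7 758
noncomputable def n1497 : Strat := .win 964 7 799
noncomputable def n1498 : Strat := .move 923 n1496 (.cons 758 n1497 .nil)
noncomputable def n1499 : Strat := .win 923 7 758
noncomputable def n1500 : Strat := .move 758 n1499 (.cons 923 n121 .nil)
noncomputable def n1501 : Strat := .win 839 0 838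
noncomputable def n1502 : Strat := .move 883 n485 (.cons 924 n1501 .nil)
noncomputable def n1503 : Strat := .move 882 n1498 (.cons 964 n1500 (.cons 758 n1502 .nil))
noncomputable def n1504 : Strat := .move 759 n1188 (.cons 760 n1503 .nil)
noncomputable def n1505 : Strat := .move 838 n163 (.cons 837 n1504 .nil)
noncomputable def n1506 : Strat := .move 800 n1490 (.cons 839 n1495 (.cons 801 n1505 .nil))
noncomputable def n1507 : Strat := .move 797 n160 (.cons 796 n1506 .nil)
noncomputable def n1508 : Strat := .win 839 2 797
noncomputable def n1509 : Strat := .move 842 n541 (.cons 843 n1508 .nil)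
noncomputable def n1510 : Strat := .move 797 n160 (.cons 796 n1509 .nil)
noncomputable def n1511 : Strat := .move 841 n1473 (.cons 797 n1484 (.cons 842 n1507 (.cons 800 n1510 .nil)))
noncomputable def n1512 : Strat := .win 839 0 795
noncomputable def n1513 : Strat := .win 755 2 754
noncomputable def n1514 : Strat := .win 753 2 753
noncomputable def n1515 : Strat := .move 754 n1513 (.cons 755 n1514 .nil)
noncomputable def n1516 : Strat := .move 795 n1512 (.cons 839 n1515 .nil)
noncomputable def n1517 : Strat := .win 837 4 795
noncomputable def n1518 : Strat := .win 835 4 794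
noncomputable def n1519 : Strat := .move 836 n1517 (.cons 837 n1518 .nil)
noncomputable def n1520 : Strat := .move 795 n1512 (.cons 839 n1519 .nil)
noncomputable def n1521 : Strat := .win 754 2 754
noncomputable def n1522 : Strat := .win 836 4 795
noncomputable def n1523 : Strat := .win 756 2 755
noncomputable def n1524 : Strat := .win 838 4 796
noncomputable def n1525 : Strat := .move 800 n1523 (.cons 756 n1524 .nil)
noncomputable def n1526 : Strat := .move 837 n1522 (.cons 836 n1525 .nil)
noncomputable def n1527 : Strat := .move 755 n1521 (.cons 754 n1526 .nil)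
noncomputable def n1528 : Strat := .move 796 n1516 (.cons 755 n1520 (.cons 839 n1527 .nil))
noncomputable def n1529 : Strat := .win 759 5 755
noncomputable def n1530 : Strat := .win 757 5 754
noncomputable def n1531 : Strat := .move 795 n1530 (.cons 757 n1515 .nil)
noncomputable def n1532 : Strat := .move 758 n1529 (.cons 759 n1531 .nil)
noncomputable def n1533 : Strat := .win 715 3 714
noncomputable def n1534 : Strat := .win 919 3 755
noncomputable def n1535 : Strat := .move 756 n1533 (.cons 715 n1534 .nil)
noncomputable def n1536 : Strat := .win 879 6 714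
noncomputable def n1537 : Strat := .win 673 6 673
noncomputable def n1538 : Strat := .move 714 n1536 (.cons 879 n1537 .nil)
noncomputable def n1539 : Strat := .win 920 6 755
noncomputable def n1540 : Strat := .win 714 6 714
noncomputable def n1541 : Strat := .move 879 n1539 (.cons 920 n1540 .nil)
noncomputable def n1542 : Strat := .win 839 4 836
noncomputable def n1543 : Strat := .win 918 1 754
noncomputable def n1544 : Strat := .move 877 n1542 (.cons 839 n1543 .nil)
noncomputable def n1545 : Strat := .move 838 n1538 (.cons 673 n1541 (.cons 879 n1544 .nil))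
noncomputable def n1546 : Strat := .move 878 n1535 (.cons 919 n1545 .nil)
noncomputable def n1547 : Strat := .move 755 n1521 (.cons 754 n1546 .nil)
noncomputable def n1548 : Strat := .move 837 n1522 (.cons 836 n1547 .nil)
noncomputable def n1549 : Strat := .move 796 n1516 (.cons 839 n1532 (.cons 755 n1520 (.cons 795 n1548 .nil)))
noncomputable def n1550 : Strat := .win 795 5 754
noncomputable def n1551 : Strat := .move 837 n1524 (.cons 838 n1522 .nil)
noncomputable def n1552 : Strat := .move 800 n1551 (.cons 836 n757 .nil)
noncomputable def n1553 : Strat := .move 716 n581 (.cons 675 n1552 .nil)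
noncomputable def n1554 : Strat := .move 757 n1550 (.cons 795 n1553 .nil)
noncomputable def n1555 : Strat := .move 758 n1529 (.cons 759 n1554 .nil)
noncomputable def n1556 : Strat := .move 796 n1527 (.cons 755 n1555 (.cons 800 n1532 .nil))
noncomputable def n1557 : Strat := .move 795 n1512 (.cons 839 n1530 .nil)
noncomputable def n1558 : Strat := .move 758 n1529 (.cons 759 n1557 .nil)
noncomputable def n1559 : Strat := .win 800 2 755
noncomputable def n1560 : Strat := .win 878 3 714
noncomputable def n1561 : Strat := .win 674 1 673
noncomputable def n1562 : Strat := .move 715 n1560 (.cons 878 n1561 .nil)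
noncomputable def n1563 : Strat := .move 837 n1522 (.cons 836 n1562 .nil)
noncomputable def n1564 : Strat := .move 756 n1559 (.cons 800 n1563 .nil)
noncomputable def n1565 : Strat := .move 755 n1521 (.cons 754 n1564 .nil)
noncomputable def n1566 : Strat := .move 796 n1516 (.cons 754 n1558 (.cons 795 n1565 .nil))
noncomputable def n1567 : Strat := .win 800 4 796
noncomputable def n1568 : Strat := .move 755 n1521 (.cons 754 n1538 .nil)
noncomputable def n1569 : Strat := .move 838 n1567 (.cons 800 n1568 .nil)
noncomputable def n1570 : Strat := .move 837 n1522 (.cons 836 n1569 .nil)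
noncomputable def n1571 : Strat := .move 796 n1520 (.cons 835 n1516 (.cons 795 n1570 .nil))
noncomputable def n1572 : Strat := .win 758 5 755
noncomputable def n1573 : Strat := .move 759 n1572 (.cons 758 n1188 .nil)
noncomputable def n1574 : Strat := .move 800 n1523 (.cons 756 n1573 .nil)
noncomputable def n1575 : Strat := .move 755 n1521 (.cons 754 n1574 .nil)
noncomputable def n1576 : Strat := .move 796 n1516 (.cons 754 n1558 (.cons 795 n1575 .nil))
noncomputable def n1577 : Strat := .move 758 n1529 (.cons 759 n1530 .nil)
noncomputable def n1578 : Strat := .move 795 n1512 (.cons 839 n1577 .nil)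
noncomputable def n1579 : Strat := .move 800 n1524 (.cons 838 n1573 .nil)
noncomputable def n1580 : Strat := .move 837 n1522 (.cons 836 n1579 .nil)
noncomputable def n1581 : Strat := .move 796 n1520 (.cons 839 n1555 (.cons 837 n1578 (.cons 795 n1580 .nil)))
noncomputable def n1582 : Strat := .move 756 n169 (.cons 755 n1492 .nil)
noncomputable def n1583 : Strat := .move 801 n347 (.cons 839 n1582 .nil)
noncomputable def n1584 : Strat := .move 838 n163 (.cons 837 n1583 .nil)
noncomputable def n1585 : Strat := .move 760 n1491 (.cons 759 n574 .nil)
noncomputable def n1586 : Strat := .move 801 n347 (.cons 839 n1585 .nil)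
noncomputable def n1587 : Strat := .move 838 n163 (.cons 837 n1586 .nil)
noncomputable def n1588 : Strat := .move 718 n565 (.cons 719 n564 .nil)
noncomputable def n1589 : Strat := .move 757 n40 (.cons 801 n1588 .nil)
noncomputable def n1590 : Strat := .move 756 n169 (.cons 755 n1589 .nil)
noncomputable def n1591 : Strat := .move 758 n393 (.cons 796 n1590 .nil)
noncomputable def n1592 : Strat := .move 759 n1188 (.cons 760 n1591 .nil)
noncomputable def n1593 : Strat := .move 796 n1572 (.cons 758 n1521 .nil)
noncomputable def n1594 : Strat := .move 755 n1523 (.cons 756 n1593 .nil)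
noncomputable def n1595 : Strat := .move 838 n163 (.cons 837 n1594 .nil)
noncomputable def n1596 : Strat := .move 759 n1188 (.cons 760 n1595 .nil)
noncomputable def n1597 : Strat := .move 800 n1584 (.cons 757 n1587 (.cons 838 n1592 (.cons 801 n1596 .nil)))
noncomputable def n1598 : Strat := .move 800 n163 (.cons 837 n1583 .nil)
noncomputable def n1599 : Strat := .win 716 3 715
noncomputable def n1600 : Strat := .win 920 3 756
noncomputable def n1601 : Strat := .move 879 n1599 (.cons 716 n1600 .nil)
noncomputable def n1602 : Strat := .move 757 n758 (.cons 801 n1601 .nil)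
noncomputable def n1603 : Strat := .move 756 n169 (.cons 755 n1602 .nil)
noncomputable def n1604 : Strat := .move 839 n1485 (.cons 880 n1486 .nil)
noncomputable def n1605 : Strat := .move 757 n1599 (.cons 716 n1600 .nil)
noncomputable def n1606 : Strat := .win 757 3 715
noncomputable def n1607 : Strat := .win 675 3 674
noncomputable def n1608 : Strat := .move 716 n1606 (.cons 757 n1607 .nil)
noncomputable def n1609 : Strat := .win 921 6 756
noncomputable def n1610 : Strat := .win 839 6 715
noncomputable def n1611 : Strat := .move 880 n1609 (.cons 921 n1610 .nil)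
noncomputable def n1612 : Strat := .move 879 n1605 (.cons 920 n1608 (.cons 716 n1611 .nil))
noncomputable def n1613 : Strat := .win 634 3 633
noncomputable def n1614 : Strat := .win 716 3 674
noncomputable def n1615 : Strat := .move 675 n1613 (.cons 634 n1614 .nil)
noncomputable def n1616 : Strat := .move 674 n609 (.cons 839 n1615 .nil)
noncomputable def n1617 : Strat := .win 632 7 632
noncomputable def n1618 : Strat := .win 714 7 673
noncomputable def n1619 : Strat := .move 673 n1617 (.cons 632 n1618 .nil)
noncomputable def n1620 : Strat := .move 674 n1615 (.cons 716 n1619 .nil)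
noncomputable def n1621 : Strat := .move 715 n1604 (.cons 674 n1612 (.cons 880 n1616 (.cons 839 n1620 .nil)))
noncomputable def n1622 : Strat := .move 756 n169 (.cons 755 n1621 .nil)
noncomputable def n1623 : Strat := .move 800 n1583 (.cons 756 n1586 (.cons 839 n1603 (.cons 801 n1622 .nil)))
noncomputable def n1624 : Strat := .move 800 n163 (.cons 837 n1603 .nil)
noncomputable def n1625 : Strat := .move 800 n163 (.cons 837 n1586 .nil)
noncomputable def n1626 : Strat := .win 835 5 794
noncomputable def n1627 : Strat := .win 839 5 795
noncomputable def n1628 : Strat := .move 836 n1626 (.cons 835 n1627 .nil)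
noncomputable def n1629 : Strat := .move 837 n1567 (.cons 800 n1628 .nil)
noncomputable def n1630 : Strat := .win 675 1 674
noncomputable def n1631 : Strat := .win 839 1 715
noncomputable def n1632 : Strat := .move 716 n1630 (.cons 675 n1631 .nil)
noncomputable def n1633 : Strat := .move 757 n1600 (.cons 920 n1632 .nil)
noncomputable def n1634 : Strat := .win 714 7 714
noncomputable def n1635 : Strat := .move 755 n404 (.cons 754 n1634 .nil)
noncomputable def n1636 : Strat := .win 837 1 714
noncomputable def n1637 : Strat := .win 919 1 755
noncomputable def n1638 : Strat := .move 878 n1636 (.cons 837 n1637 .nil)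
noncomputable def n1639 : Strat := .move 715 n1638 (.cons 919 n611 .nil)
noncomputable def n1640 : Strat := .move 756 n1635 (.cons 714 n1639 .nil)
noncomputable def n1641 : Strat := .move 757 n1600 (.cons 920 n1640 .nil)
noncomputable def n1642 : Strat := .win 756 3 715
noncomputable def n1643 : Strat := .move 716 n1630 (.cons 675 n1642 .nil)
noncomputable def n1644 : Strat := .move 757 n1600 (.cons 920 n1643 .nil)
noncomputable def n1645 : Strat := .move 757 n1599 (.cons 716 n1635 .nil)
noncomputable def n1646 : Strat := .move 757 n1635 (.cons 714 n1639 .nil)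
noncomputable def n1647 : Strat := .move 715 n1607 (.cons 675 n1638 .nil)
noncomputable def n1648 : Strat := .move 716 n1606 (.cons 757 n1647 .nil)
noncomputable def n1649 : Strat := .move 715 n1610 (.cons 839 n1638 .nil)
noncomputable def n1650 : Strat := .move 880 n1609 (.cons 921 n1649 .nil)
noncomputable def n1651 : Strat := .move 756 n1645 (.cons 716 n1646 (.cons 754 n1648 (.cons 757 n1650 .nil)))
noncomputable def n1652 : Strat := .win 715 6 715
noncomputable def n1653 : Strat := .move 878 n1100 (.cons 877 n1637 .nil)
noncomputable def n1654 : Strat := .move 839 n1652 (.cons 715 n1653 .nil)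
noncomputable def n1655 : Strat := .move 880 n1609 (.cons 921 n1654 .nil)
noncomputable def n1656 : Strat := .win 673 7 673
noncomputable def n1657 : Strat := .win 755 7 714
noncomputable def n1658 : Strat := .move 714 n1656 (.cons 673 n1657 .nil)
noncomputable def n1659 : Strat := .move 715 n1636 (.cons 837 n1658 .nil)
noncomputable def n1660 : Strat := .move 878 n1637 (.cons 919 n1659 .nil)
noncomputable def n1661 : Strat := .move 715 n1610 (.cons 839 n1658 .nil)
noncomputable def n1662 : Strat := .move 880 n1609 (.cons 921 n1661 .nil)
noncomputable def n1663 : Strat := .win 880 6 756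
noncomputable def n1664 : Strat := .win 962 6 797
noncomputable def n1665 : Strat := .win 960 1 796
noncomputable def n1666 : Strat := .win 878 1 755
noncomputable def n1667 : Strat := .move 919 n1665 (.cons 960 n1666 .nil)
noncomputable def n1668 : Strat := .move 920 n1664 (.cons 962 n1667 .nil)
noncomputable def n1669 : Strat := .move 921 n1663 (.cons 880 n1668 .nil)
noncomputable def n1670 : Strat := .move 756 n1655 (.cons 880 n1660 (.cons 878 n1662 (.cons 715 n1669 .nil)))
noncomputable def n1671 : Strat := .move 879 n1633 (.cons 716 n1641 (.cons 839 n1644 (.cons 920 n1651 (.cons 757 n1670 .nil))))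
noncomputable def n1672 : Strat := .move 838 n1598 (.cons 837 n1623 (.cons 839 n1624 (.cons 756 n1625 (.cons 801 n1629 (.cons 800 n1671 .nil)))))
noncomputable def n1673 : Strat := .move 797 n1528 (.cons 800 n1549 (.cons 839 n1556 (.cons 838 n1566 (.cons 756 n1571 (.cons 837 n1576 (.cons 755 n1581 (.cons 795 n1597 (.cons 796 n1672 .nil))))))))
noncomputable def n1674 : Strat := .move 800 n159 (.cons 842 n1495 .nil)
noncomputable def n1675 : Strat := .move 841 n160 (.cons 796 n1674 .nil)
noncomputable def n1676 : Strat := .move 796 n187 (.cons 841 n1532 .nil)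
noncomputable def n1677 : Strat := .move 796 n187 (.cons 841 n1555 .nil)
noncomputable def n1678 : Strat := .move 756 n1559 (.cons 800 n1562 .nil)
noncomputable def n1679 : Strat := .move 837 n1522 (.cons 836 n1678 .nil)
noncomputable def n1680 : Strat := .move 755 n1521 (.cons 754 n1679 .nil)
noncomputable def n1681 : Strat := .move 796 n187 (.cons 841 n1680 .nil)
noncomputable def n1682 : Strat := .move 841 n159 (.cons 842 n1495 .nil)
noncomputable def n1683 : Strat := .win 879 3 715
noncomputable def n1684 : Strat := .move 838 n1683 (.cons 879 n163 .nil)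
noncomputable def n1685 : Strat := .move 716 n581 (.cons 675 n1684 .nil)
noncomputable def n1686 : Strat := .move 757 n758 (.cons 801 n1685 .nil)
noncomputable def n1687 : Strat := .move 756 n169 (.cons 755 n1686 .nil)
noncomputable def n1688 : Strat := .win 758 2 757
noncomputable def n1689 : Strat := .move 802 n1688 (.cons 758 n1248 .nil)
noncomputable def n1690 : Strat := .move 757 n592 (.cons 756 n1689 .nil)
noncomputable def n1691 : Strat := .move 801 n574 (.cons 761 n1690 .nil)
noncomputable def n1692 : Strat := .move 760 n1491 (.cons 759 n1691 .nil)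
noncomputable def n1693 : Strat := .move 841 n159 (.cons 842 n1692 .nil)
noncomputable def n1694 : Strat := .move 923 n1497 (.cons 964 n1496 .nil)
noncomputable def n1695 : Strat := .win 758 6 717
noncomputable def n1696 : Strat := .win 676 7 676
noncomputable def n1697 : Strat := .move 718 n1696 (.cons 676 n564 .nil)
noncomputable def n1698 : Strat := .move 717 n1695 (.cons 758 n1697 .nil)
noncomputable def n1699 : Strat := .win 883 6 759
noncomputable def n1700 : Strat := .move 924 n1382 (.cons 965 n1699 .nil)
noncomputable def n1701 : Strat := .move 923 n1497 (.cons 964 n1700 .nil)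
noncomputable def n1702 : Strat := .move 882 n1500 (.cons 717 n1694 (.cons 923 n1698 (.cons 758 n1701 .nil)))
noncomputable def n1703 : Strat := .move 759 n1188 (.cons 760 n1702 .nil)
noncomputable def n1704 : Strat := .move 841 n159 (.cons 842 n1703 .nil)
noncomputable def n1705 : Strat := .move 800 n1682 (.cons 841 n1687 (.cons 755 n1693 (.cons 756 n1704 .nil)))
noncomputable def n1706 : Strat := .move 797 n1675 (.cons 841 n1556 (.cons 800 n1676 (.cons 755 n1677 (.cons 759 n1681 (.cons 796 n1705 .nil)))))
noncomputable def n1707 : Strat := .move 796 n187 (.cons 841 n1516 .nil)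
noncomputable def n1708 : Strat := .move 841 n159 (.cons 842 n1490 .nil)
noncomputable def n1709 : Strat := .move 801 n344 (.cons 843 n1585 .nil)
noncomputable def n1710 : Strat := .move 842 n345 (.cons 841 n1709 .nil)
noncomputable def n1711 : Strat := .win 839 4 837
noncomputable def n1712 : Strat := .move 878 n1637 (.cons 919 n1711 .nil)
noncomputable def n1713 : Strat := .move 879 n1712 (.cons 839 n1605 .nil)
noncomputable def n1714 : Strat := .move 756 n169 (.cons 755 n1713 .nil)
noncomputable def n1715 : Strat := .move 838 n163 (.cons 837 n1714 .nil)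
noncomputable def n1716 : Strat := .move 841 n159 (.cons 842 n1715 .nil)
noncomputable def n1717 : Strat := .move 800 n1584 (.cons 757 n1708 (.cons 838 n1710 (.cons 801 n1716 .nil)))
noncomputable def n1718 : Strat := .move 841 n160 (.cons 796 n1472 .nil)
noncomputable def n1719 : Strat := .move 801 n1492 (.cons 757 n1585 .nil)
noncomputable def n1720 : Strat := .move 756 n169 (.cons 755 n1719 .nil)
noncomputable def n1721 : Strat := .move 755 n1521 (.cons 754 n1523 .nil)
noncomputable def n1722 : Strat := .move 796 n1522 (.cons 836 n1721 .nil)
noncomputable def n1723 : Strat := .move 837 n1524 (.cons 838 n1722 .nil)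
noncomputable def n1724 : Strat := .move 800 n1584 (.cons 838 n1720 (.cons 756 n1587 (.cons 801 n1723 .nil)))
noncomputable def n1725 : Strat := .move 797 n1707 (.cons 796 n1717 (.cons 755 n1718 (.cons 841 n1724 .nil)))
noncomputable def n1726 : Strat := .win 882 0 838
noncomputable def n1727 : Strat := .move 883 n1726 (.cons 882 n537 .nil)
noncomputable def n1728 : Strat := .move 838 n833 (.cons 800 n1727 .nil)
noncomputable def n1729 : Strat := .move 801 n834 (.cons 802 n1728 .nil)
noncomputable def n1730 : Strat := .move 758 n1480 (.cons 921 n398 .nil)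
noncomputable def n1731 : Strat := .move 880 n815 (.cons 879 n1730 .nil)
noncomputable def n1732 : Strat := .move 800 n166 (.cons 838 n1731 .nil)
noncomputable def n1733 : Strat := .move 801 n834 (.cons 802 n1732 .nil)
noncomputable def n1734 : Strat := .move 839 n1729 (.cons 882 n1733 (.cons 838 n1482 .nil))
noncomputable def n1735 : Strat := .move 842 n541 (.cons 843 n1734 .nil)
noncomputable def n1736 : Strat := .move 882 n800 (.cons 883 n1498 .nil)
noncomputable def n1737 : Strat := .move 839 n162 (.cons 801 n1736 .nil)
noncomputable def n1738 : Strat := .move 838 n163 (.cons 837 n1737 .nil)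
noncomputable def n1739 : Strat := .move 882 n1498 (.cons 964 n1500 (.cons 758 n1701 (.cons 923 n1698 .nil)))
noncomputable def n1740 : Strat := .move 759 n1188 (.cons 760 n1739 .nil)
noncomputable def n1741 : Strat := .move 800 n1490 (.cons 715 n1738 (.cons 839 n1740 .nil))
noncomputable def n1742 : Strat := .move 797 n160 (.cons 796 n1741 .nil)
noncomputable def n1743 : Strat := .move 841 n1473 (.cons 797 n1735 (.cons 800 n1510 (.cons 842 n1742 .nil)))
noncomputable def n1744 : Strat := .move 797 n159 (.cons 842 n1488 .nil)
noncomputable def n1745 : Strat := .move 882 n800 (.cons 883 n1500 .nil)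
noncomputable def n1746 : Strat := .move 841 n1744 (.cons 797 n1745 .nil)
noncomputable def n1747 : Strat := .move 838 n212 (.cons 837 n1746 .nil)
noncomputable def n1748 : Strat := .move 719 n1475 (.cons 882 n1474 .nil)
noncomputable def n1749 : Strat := .move 760 n574 (.cons 761 n1748 .nil)
noncomputable def n1750 : Strat := .move 841 n762 (.cons 797 n1749 .nil)
noncomputable def n1751 : Strat := .move 842 n344 (.cons 843 n1750 .nil)
noncomputable def n1752 : Strat := .move 801 n165 (.cons 802 n1751 .nil)
noncomputable def n1753 : Strat := .move 839 n960 (.cons 801 n1747 (.cons 838 n1752 .nil))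
noncomputable def n1754 : Strat := .move 797 n159 (.cons 842 n1505 .nil)
noncomputable def n1755 : Strat := .move 839 n483 (.cons 838 n537 .nil)
noncomputable def n1756 : Strat := .win 718 6 718
noncomputable def n1757 : Strat := .move 759 n485 (.cons 924 n1756 .nil)
noncomputable def n1758 : Strat := .move 883 n1755 (.cons 884 n1757 .nil)
noncomputable def n1759 : Strat := .move 882 n1499 (.cons 923 n1758 .nil)
noncomputable def n1760 : Strat := .move 839 n7 (.cons 880 n537 .nil)
noncomputable def n1761 : Strat := .move 718 n2 (.cons 677 n1393 .nil)
noncomputable def n1762 : Strat := .move 883 n1760 (.cons 884 n1761 .nil)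
noncomputable def n1763 : Strat := .move 717 n420 (.cons 676 n1762 .nil)
noncomputable def n1764 : Strat := .move 758 n764 (.cons 717 n1759 (.cons 882 n1763 .nil))
noncomputable def n1765 : Strat := .move 842 n541 (.cons 843 n1764 .nil)
noncomputable def n1766 : Strat := .move 797 n159 (.cons 842 n1715 .nil)
noncomputable def n1767 : Strat := .move 842 n541 (.cons 843 n762 .nil)
noncomputable def n1768 : Strat := .move 758 n121 (.cons 717 n1499 .nil)
noncomputable def n1769 : Strat := .move 760 n262 (.cons 719 n1221 .nil)
noncomputable def n1770 : Strat := .move 759 n1699 (.cons 883 n1769 .nil)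
noncomputable def n1771 : Strat := .move 924 n1382 (.cons 965 n1770 .nil)
noncomputable def n1772 : Strat := .move 923 n1497 (.cons 964 n1771 .nil)
noncomputable def n1773 : Strat := .move 759 n1769 (.cons 797 n1697 .nil)
noncomputable def n1774 : Strat := .move 717 n1695 (.cons 758 n1773 .nil)
noncomputable def n1775 : Strat := .move 882 n1768 (.cons 717 n1498 (.cons 758 n1772 (.cons 923 n1774 .nil)))
noncomputable def n1776 : Strat := .move 841 n1754 (.cons 797 n1765 (.cons 758 n1766 (.cons 839 n1767 (.cons 842 n1775 .nil))))
noncomputable def n1777 : Strat := .win 718 7 718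
noncomputable def n1778 : Strat := .win 924 7 759
noncomputable def n1779 : Strat := .move 883 n1777 (.cons 718 n1778 .nil)
noncomputable def n1780 : Strat := .move 759 n1221 (.cons 797 n1779 .nil)
noncomputable def n1781 : Strat := .move 760 n574 (.cons 761 n1780 .nil)
noncomputable def n1782 : Strat := .move 842 n344 (.cons 843 n1781 .nil)
noncomputable def n1783 : Strat := .win 923 3 759
noncomputable def n1784 : Strat := .win 719 1 718
noncomputable def n1785 : Strat := .move 882 n1783 (.cons 923 n1784 .nil)
noncomputable def n1786 : Strat := .move 760 n574 (.cons 761 n1785 .nil)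
noncomputable def n1787 : Strat := .move 757 n1688 (.cons 758 n592 .nil)
noncomputable def n1788 : Strat := .move 802 n1248 (.cons 803 n1787 .nil)
noncomputable def n1789 : Strat := .move 841 n1749 (.cons 678 n1786 (.cons 760 n1788 .nil))
noncomputable def n1790 : Strat := .move 842 n344 (.cons 843 n1789 .nil)
noncomputable def n1791 : Strat := .move 841 n762 (.cons 797 n1788 .nil)
noncomputable def n1792 : Strat := .move 842 n344 (.cons 843 n1791 .nil)
noncomputable def n1793 : Strat := .move 761 n356 (.cons 760 n355 .nil)
noncomputable def n1794 : Strat := .move 802 n1688 (.cons 758 n1793 .nil)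
noncomputable def n1795 : Strat := .move 757 n592 (.cons 756 n1794 .nil)
noncomputable def n1796 : Strat := .move 801 n1782 (.cons 797 n1790 (.cons 760 n1792 (.cons 842 n1795 .nil)))
noncomputable def n1797 : Strat := .win 962 3 798
noncomputable def n1798 : Strat := .win 758 3 757
noncomputable def n1799 : Strat := .move 921 n1797 (.cons 962 n1798 .nil)
noncomputable def n1800 : Strat := .win 920 1 756
noncomputable def n1801 : Strat := .win 841 4 838
noncomputable def n1802 : Strat := .move 879 n1800 (.cons 920 n1801 .nil)
noncomputable def n1803 : Strat := .move 880 n1730 (.cons 717 n1799 (.cons 921 n1802 .nil))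
noncomputable def n1804 : Strat := .move 757 n592 (.cons 756 n1803 .nil)
noncomputable def n1805 : Strat := .move 842 n344 (.cons 843 n1804 .nil)
noncomputable def n1806 : Strat := .move 839 n166 (.cons 838 n1805 .nil)
noncomputable def n1807 : Strat := .move 801 n343 (.cons 802 n1806 (.cons 839 n1790 .nil))
noncomputable def n1808 : Strat := .move 841 n1490 (.cons 839 n1495 (.cons 801 n1505 .nil))
noncomputable def n1809 : Strat := .win 921 7 756
noncomputable def n1810 : Strat := .move 880 n1809 (.cons 921 n1652 .nil)
noncomputable def n1811 : Strat := .win 716 1 715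
noncomputable def n1812 : Strat := .move 757 n1811 (.cons 716 n1600 .nil)
noncomputable def n1813 : Strat := .win 841 4 837
noncomputable def n1814 : Strat := .move 878 n1813 (.cons 841 n1637 .nil)
noncomputable def n1815 : Strat := .move 879 n1812 (.cons 920 n1814 .nil)
noncomputable def n1816 : Strat := .move 839 n1487 (.cons 674 n1810 (.cons 880 n1815 .nil))
noncomputable def n1817 : Strat := .move 756 n169 (.cons 755 n1816 .nil)
noncomputable def n1818 : Strat := .move 838 n163 (.cons 837 n1817 .nil)
noncomputable def n1819 : Strat := .move 756 n1487 (.cons 674 n1810 (.cons 880 n1815 .nil))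
noncomputable def n1820 : Strat := .move 839 n162 (.cons 801 n1819 .nil)
noncomputable def n1821 : Strat := .move 838 n163 (.cons 837 n1820 .nil)
noncomputable def n1822 : Strat := .move 797 n1808 (.cons 838 n1720 (.cons 801 n1818 (.cons 755 n1821 (.cons 757 n1490 (.cons 756 n1587 .nil)))))
noncomputable def n1823 : Strat := .move 797 n1584 (.cons 757 n1708 (.cons 838 n1710 (.cons 801 n1716 .nil)))
noncomputable def n1824 : Strat := .move 841 n159 (.cons 842 n1687 .nil)
noncomputable def n1825 : Strat := .move 802 n1248 (.cons 803 n350 .nil)
noncomputable def n1826 : Strat := .move 801 n1492 (.cons 757 n1825 .nil)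
noncomputable def n1827 : Strat := .move 756 n169 (.cons 755 n1826 .nil)
noncomputable def n1828 : Strat := .move 841 n159 (.cons 842 n1827 .nil)
noncomputable def n1829 : Strat := .move 879 n549 (.cons 878 n1812 .nil)
noncomputable def n1830 : Strat := .move 839 n162 (.cons 801 n1829 .nil)
noncomputable def n1831 : Strat := .move 838 n163 (.cons 837 n1830 .nil)
noncomputable def n1832 : Strat := .move 841 n159 (.cons 842 n1831 .nil)
noncomputable def n1833 : Strat := .move 801 n1492 (.cons 757 n347 .nil)
noncomputable def n1834 : Strat := .move 756 n169 (.cons 755 n1833 .nil)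
noncomputable def n1835 : Strat := .move 838 n163 (.cons 837 n1834 .nil)
noncomputable def n1836 : Strat := .move 797 n1708 (.cons 839 n1824 (.cons 838 n1828 (.cons 756 n1832 (.cons 801 n1716 (.cons 841 n1835 .nil)))))
noncomputable def n1837 : Strat := .move 802 n350 (.cons 839 n1793 .nil)
noncomputable def n1838 : Strat := .move 760 n574 (.cons 761 n1491 .nil)
noncomputable def n1839 : Strat := .move 797 n169 (.cons 755 n1838 .nil)
noncomputable def n1840 : Strat := .move 756 n1492 (.cons 757 n1839 .nil)
noncomputable def n1841 : Strat := .move 839 n166 (.cons 838 n1840 .nil)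
noncomputable def n1842 : Strat := .move 801 n343 (.cons 838 n1837 (.cons 839 n1795 (.cons 802 n1841 .nil)))
noncomputable def n1843 : Strat := .move 843 n352 (.cons 842 n351 .nil)
noncomputable def n1844 : Strat := .move 802 n350 (.cons 839 n1843 .nil)
noncomputable def n1845 : Strat := .move 841 n762 (.cons 797 n1748 .nil)
noncomputable def n1846 : Strat := .move 760 n574 (.cons 761 n1845 .nil)
noncomputable def n1847 : Strat := .move 842 n344 (.cons 843 n1846 .nil)
noncomputable def n1848 : Strat := .move 801 n343 (.cons 838 n1844 (.cons 839 n1847 .nil))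
noncomputable def n1849 : Strat := .move 800 n1753 (.cons 801 n1776 (.cons 839 n1796 (.cons 797 n1807 (.cons 842 n1822 (.cons 758 n1823 (.cons 760 n1836 (.cons 841 n1842 (.cons 756 n1848 .nil))))))))
noncomputable def n1850 : Strat := .move 797 n160 (.cons 796 n1471 .nil)
noncomputable def n1851 : Strat := .move 842 n541 (.cons 843 n1850 .nil)
noncomputable def n1852 : Strat := .win 923 1 759
noncomputable def n1853 : Strat := .move 882 n1852 (.cons 923 n1784 .nil)
noncomputable def n1854 : Strat := .win 720 3 719
noncomputable def n1855 : Strat := .win 800 5 757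
noncomputable def n1856 : Strat := .move 761 n1854 (.cons 720 n1855 .nil)
noncomputable def n1857 : Strat := .move 760 n1853 (.cons 719 n1856 .nil)
noncomputable def n1858 : Strat := .move 883 n537 (.cons 884 n1857 .nil)
noncomputable def n1859 : Strat := .move 801 n834 (.cons 802 n1858 .nil)
noncomputable def n1860 : Strat := .move 839 n1482 (.cons 758 n1859 .nil)
noncomputable def n1861 : Strat := .move 842 n541 (.cons 843 n1860 .nil)
noncomputable def n1862 : Strat := .move 842 n1471 (.cons 800 n1508 .nil)
noncomputable def n1863 : Strat := .move 797 n160 (.cons 796 n1862 .nil)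
noncomputable def n1864 : Strat := .move 797 n160 (.cons 796 n1508 .nil)
noncomputable def n1865 : Strat := .move 842 n541 (.cons 843 n1864 .nil)
noncomputable def n1866 : Strat := .move 801 n1493 (.cons 755 n1825 .nil)
noncomputable def n1867 : Strat := .move 718 n564 (.cons 677 n1866 .nil)
noncomputable def n1868 : Strat := .move 759 n1188 (.cons 760 n1867 .nil)
noncomputable def n1869 : Strat := .move 801 n574 (.cons 761 n1825 .nil)
noncomputable def n1870 : Strat := .move 760 n1491 (.cons 759 n1869 .nil)
noncomputable def n1871 : Strat := .move 800 n1868 (.cons 760 n1827 (.cons 755 n1870 (.cons 801 n1740 .nil)))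
noncomputable def n1872 : Strat := .move 797 n160 (.cons 796 n1871 .nil)
noncomputable def n1873 : Strat := .move 841 n1851 (.cons 797 n1861 (.cons 843 n1863 (.cons 800 n1865 (.cons 842 n1872 .nil))))
noncomputable def n1874 : Strat := .move 800 n159 (.cons 842 n1505 .nil)
noncomputable def n1875 : Strat := .move 797 n160 (.cons 796 n1874 .nil)
noncomputable def n1876 : Strat := .move 838 n212 (.cons 837 n1727 .nil)
noncomputable def n1877 : Strat := .move 800 n1731 (.cons 921 n1876 .nil)
noncomputable def n1878 : Strat := .move 880 n815 (.cons 879 n1480 .nil)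
noncomputable def n1879 : Strat := .win 880 4 838
noncomputable def n1880 : Strat := .move 838 n549 (.cons 878 n1727 .nil)
noncomputable def n1881 : Strat := .move 879 n1879 (.cons 880 n1880 .nil)
noncomputable def n1882 : Strat := .move 837 n1405 (.cons 800 n830 .nil)
noncomputable def n1883 : Strat := .move 838 n1726 (.cons 882 n1882 .nil)
noncomputable def n1884 : Strat := .move 883 n537 (.cons 884 n1883 .nil)
noncomputable def n1885 : Strat := .move 758 n1878 (.cons 921 n1881 (.cons 880 n1884 .nil))
noncomputable def n1886 : Strat := .move 882 n485 (.cons 924 n483 .nil)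
noncomputable def n1887 : Strat := .move 759 n1756 (.cons 718 n1886 .nil)
noncomputable def n1888 : Strat := .move 883 n537 (.cons 884 n1887 .nil)
noncomputable def n1889 : Strat := .win 882 6 759
noncomputable def n1890 : Strat := .win 965 7 800
noncomputable def n1891 : Strat := .move 924 n1889 (.cons 882 n1890 .nil)
noncomputable def n1892 : Strat := .move 759 n1756 (.cons 718 n1891 .nil)
noncomputable def n1893 : Strat := .move 883 n537 (.cons 884 n1892 .nil)
noncomputable def n1894 : Strat := .move 879 n549 (.cons 878 n1879 .nil)
noncomputable def n1895 : Strat := .move 838 n212 (.cons 837 n1894 .nil)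
noncomputable def n1896 : Strat := .move 800 n1876 (.cons 837 n1888 (.cons 838 n1893 (.cons 884 n1895 .nil)))
noncomputable def n1897 : Strat := .move 839 n1877 (.cons 717 n1885 (.cons 884 n1482 (.cons 758 n1896 (.cons 880 n1884 .nil))))
noncomputable def n1898 : Strat := .move 842 n541 (.cons 843 n1897 .nil)
noncomputable def n1899 : Strat := .move 800 n1505 (.cons 758 n1715 (.cons 839 n1740 .nil))
noncomputable def n1900 : Strat := .move 797 n160 (.cons 796 n1899 .nil)
noncomputable def n1901 : Strat := .move 841 n1875 (.cons 797 n1898 (.cons 839 n1473 (.cons 800 n1510 (.cons 842 n1900 .nil))))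
noncomputable def n1902 : Strat := .move 838 n833 (.cons 800 n1894 .nil)
noncomputable def n1903 : Strat := .move 801 n834 (.cons 802 n1902 .nil)
noncomputable def n1904 : Strat := .move 839 n1729 (.cons 882 n1903 (.cons 801 n1482 .nil))
noncomputable def n1905 : Strat := .move 842 n541 (.cons 843 n1904 .nil)
noncomputable def n1906 : Strat := .move 800 n159 (.cons 842 n1831 .nil)
noncomputable def n1907 : Strat := .move 797 n160 (.cons 796 n1906 .nil)
noncomputable def n1908 : Strat := .move 800 n1831 (.cons 839 n1703 .nil)
noncomputable def n1909 : Strat := .move 797 n160 (.cons 796 n1908 .nil)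
noncomputable def n1910 : Strat := .move 841 n1851 (.cons 797 n1905 (.cons 800 n1510 (.cons 843 n1907 (.cons 842 n1909 .nil))))
noncomputable def n1911 : Strat := .move 797 n1471 (.cons 800 n1508 .nil)
noncomputable def n1912 : Strat := .move 842 n541 (.cons 843 n1911 .nil)
noncomputable def n1913 : Strat := .move 800 n1490 (.cons 838 n1827 (.cons 756 n1831 (.cons 839 n1687 (.cons 801 n1715 .nil))))
noncomputable def n1914 : Strat := .move 797 n160 (.cons 796 n1913 .nil)
noncomputable def n1915 : Strat := .move 839 n1482 (.cons 717 n1729 .nil)
noncomputable def n1916 : Strat := .move 842 n541 (.cons 843 n1915 .nil)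
noncomputable def n1917 : Strat := .move 841 n1473 (.cons 843 n1863 (.cons 796 n1912 (.cons 800 n1510 (.cons 842 n1914 (.cons 797 n1916 .nil)))))
noncomputable def n1918 : Strat := .move 800 n1524 (.cons 838 n1721 .nil)
noncomputable def n1919 : Strat := .move 837 n1522 (.cons 836 n1918 .nil)
noncomputable def n1920 : Strat := .move 796 n1516 (.cons 755 n1520 (.cons 795 n1919 .nil))
noncomputable def n1921 : Strat := .move 801 n347 (.cons 839 n1493 .nil)
noncomputable def n1922 : Strat := .move 838 n163 (.cons 837 n1921 .nil)
noncomputable def n1923 : Strat := .move 841 n159 (.cons 842 n1922 .nil)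
noncomputable def n1924 : Strat := .move 841 n159 (.cons 842 n1868 .nil)
noncomputable def n1925 : Strat := .move 801 n347 (.cons 839 n1838 .nil)
noncomputable def n1926 : Strat := .move 838 n163 (.cons 837 n1925 .nil)
noncomputable def n1927 : Strat := .move 841 n159 (.cons 842 n1926 .nil)
noncomputable def n1928 : Strat := .move 882 n1500 (.cons 717 n1694 (.cons 923 n1502 .nil))
noncomputable def n1929 : Strat := .move 759 n1188 (.cons 760 n1928 .nil)
noncomputable def n1930 : Strat := .move 838 n163 (.cons 837 n1929 .nil)
noncomputable def n1931 : Strat := .move 841 n159 (.cons 842 n1930 .nil)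
noncomputable def n1932 : Strat := .move 800 n1923 (.cons 838 n1924 (.cons 755 n1927 (.cons 801 n1931 (.cons 839 n1682 (.cons 841 n1584 .nil)))))
noncomputable def n1933 : Strat := .move 797 n1707 (.cons 841 n1920 (.cons 754 n1718 (.cons 796 n1932 .nil)))
noncomputable def n1934 : Strat := .move 921 n1798 (.cons 758 n1797 .nil)
noncomputable def n1935 : Strat := .move 841 n160 (.cons 796 n464 .nil)
noncomputable def n1936 : Strat := .move 797 n185 (.cons 756 n1935 .nil)
noncomputable def n1937 : Strat := .move 921 n1797 (.cons 962 n1936 .nil)
noncomputable def n1938 : Strat := .move 921 n1798 (.cons 758 n1936 .nil)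
noncomputable def n1939 : Strat := .win 758 1 716
noncomputable def n1940 : Strat := .win 676 3 675
noncomputable def n1941 : Strat := .move 716 n581 (.cons 675 n1940 .nil)
noncomputable def n1942 : Strat := .win 838 1 715
noncomputable def n1943 : Strat := .move 716 n1942 (.cons 838 n581 .nil)
noncomputable def n1944 : Strat := .move 879 n1800 (.cons 920 n1943 .nil)
noncomputable def n1945 : Strat := .win 842 4 838
noncomputable def n1946 : Strat := .win 838 4 837
noncomputable def n1947 : Strat := .move 878 n1946 (.cons 838 n1100 .nil)
noncomputable def n1948 : Strat := .move 841 n1945 (.cons 842 n1947 .nil)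
noncomputable def n1949 : Strat := .move 879 n1800 (.cons 920 n1948 .nil)
noncomputable def n1950 : Strat := .move 757 n1941 (.cons 676 n1944 (.cons 716 n1949 .nil))
noncomputable def n1951 : Strat := .move 717 n1939 (.cons 758 n1950 .nil)
noncomputable def n1952 : Strat := .move 880 n1934 (.cons 758 n1937 (.cons 962 n1938 (.cons 921 n1951 .nil)))
noncomputable def n1953 : Strat := .move 879 n1942 (.cons 838 n1800 .nil)
noncomputable def n1954 : Strat := .move 716 n581 (.cons 675 n1953 .nil)
noncomputable def n1955 : Strat := .move 841 n549 (.cons 878 n1945 .nil)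
noncomputable def n1956 : Strat := .move 838 n1811 (.cons 716 n1955 .nil)
noncomputable def n1957 : Strat := .move 879 n1800 (.cons 920 n1956 .nil)
noncomputable def n1958 : Strat := .win 756 7 715
noncomputable def n1959 : Strat := .move 715 n514 (.cons 674 n1958 .nil)
noncomputable def n1960 : Strat := .move 716 n581 (.cons 675 n1959 .nil)
noncomputable def n1961 : Strat := .move 757 n1954 (.cons 675 n1957 (.cons 716 n1949 (.cons 920 n1960 .nil)))
noncomputable def n1962 : Strat := .move 758 n398 (.cons 717 n1961 .nil)
noncomputable def n1963 : Strat := .move 758 n1480 (.cons 921 n1961 .nil)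
noncomputable def n1964 : Strat := .win 961 1 797
noncomputable def n1965 : Strat := .win 757 1 756
noncomputable def n1966 : Strat := .win 923 2 878
noncomputable def n1967 : Strat := .move 922 n1966 (.cons 923 n678 .nil)
noncomputable def n1968 : Strat := .move 878 n1100 (.cons 877 n1967 .nil)
noncomputable def n1969 : Strat := .move 879 n1965 (.cons 757 n1968 .nil)
noncomputable def n1970 : Strat := .move 920 n1964 (.cons 961 n1969 .nil)
noncomputable def n1971 : Strat := .move 921 n1797 (.cons 962 n1970 .nil)
noncomputable def n1972 : Strat := .move 880 n1481 (.cons 921 n1962 (.cons 717 n1963 (.cons 758 n1971 .nil)))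
noncomputable def n1973 : Strat := .move 760 n1852 (.cons 923 n1784 .nil)
noncomputable def n1974 : Strat := .move 882 n483 (.cons 838 n1973 .nil)
noncomputable def n1975 : Strat := .move 883 n537 (.cons 884 n1974 .nil)
noncomputable def n1976 : Strat := .move 801 n834 (.cons 802 n1975 .nil)
noncomputable def n1977 : Strat := .move 842 n541 (.cons 843 n1976 .nil)
noncomputable def n1978 : Strat := .move 921 n1797 (.cons 962 n185 .nil)
noncomputable def n1979 : Strat := .move 878 n1100 (.cons 877 n1946 .nil)
noncomputable def n1980 : Strat := .move 879 n1800 (.cons 920 n1979 .nil)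
noncomputable def n1981 : Strat := .move 757 n1954 (.cons 716 n1980 (.cons 920 n1960 .nil))
noncomputable def n1982 : Strat := .move 920 n1964 (.cons 961 n1965 .nil)
noncomputable def n1983 : Strat := .move 879 n1982 (.cons 757 n1979 .nil)
noncomputable def n1984 : Strat := .move 921 n1797 (.cons 962 n1983 .nil)
noncomputable def n1985 : Strat := .move 880 n1978 (.cons 921 n1981 (.cons 756 n1984 .nil))
noncomputable def n1986 : Strat := .move 797 n160 (.cons 796 n1985 .nil)
noncomputable def n1987 : Strat := .move 841 n888 (.cons 797 n1977 (.cons 843 n1448 (.cons 842 n1986 .nil)))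
noncomputable def n1988 : Strat := .move 801 n834 (.cons 802 n1973 .nil)
noncomputable def n1989 : Strat := .move 882 n483 (.cons 838 n1988 .nil)
noncomputable def n1990 : Strat := .move 883 n537 (.cons 884 n1989 .nil)
noncomputable def n1991 : Strat := .move 842 n541 (.cons 843 n1990 .nil)
noncomputable def n1992 : Strat := .win 797 0 796
noncomputable def n1993 : Strat := .move 837 n830 (.cons 836 n1406 .nil)
noncomputable def n1994 : Strat := .win 880 1 756
noncomputable def n1995 : Strat := .win 961 3 797
noncomputable def n1996 : Strat := .move 920 n1994 (.cons 880 n1995 .nil)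
noncomputable def n1997 : Strat := .move 757 n1811 (.cons 716 n1996 .nil)
noncomputable def n1998 : Strat := .move 879 n549 (.cons 878 n1997 .nil)
noncomputable def n1999 : Strat := .move 838 n1993 (.cons 836 n1998 .nil)
noncomputable def n2000 : Strat := .move 796 n1992 (.cons 797 n1999 .nil)
noncomputable def n2001 : Strat := .move 841 n888 (.cons 843 n1448 (.cons 797 n1991 (.cons 842 n2000 .nil)))
noncomputable def n2002 : Strat := .move 797 n185 (.cons 756 n160 .nil)
noncomputable def n2003 : Strat := .move 922 n678 (.cons 963 n2002 .nil)
noncomputable def n2004 : Strat := .move 797 n160 (.cons 796 n185 .nil)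
noncomputable def n2005 : Strat := .move 879 n1965 (.cons 757 n1947 .nil)
noncomputable def n2006 : Strat := .move 920 n1964 (.cons 961 n2005 .nil)
noncomputable def n2007 : Strat := .move 841 n2003 (.cons 963 n2004 (.cons 797 n2006 .nil))
noncomputable def n2008 : Strat := .move 921 n1797 (.cons 962 n2007 .nil)
noncomputable def n2009 : Strat := .move 797 n186 (.cons 795 n187 .nil)
noncomputable def n2010 : Strat := .win 759 4 755
noncomputable def n2011 : Strat := .move 797 n2010 (.cons 759 n186 .nil)
noncomputable def n2012 : Strat := .move 797 n2010 (.cons 759 n187 .nil)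
noncomputable def n2013 : Strat := .move 755 n1070 (.cons 795 n404 .nil)
noncomputable def n2014 : Strat := .move 796 n2009 (.cons 841 n2011 (.cons 795 n2012 (.cons 797 n2013 .nil)))
noncomputable def n2015 : Strat := .move 756 n403 (.cons 715 n2014 .nil)
noncomputable def n2016 : Strat := .move 757 n1954 (.cons 920 n1960 (.cons 716 n2015 .nil))
noncomputable def n2017 : Strat := .move 758 n398 (.cons 717 n2016 .nil)
noncomputable def n2018 : Strat := .move 880 n1934 (.cons 962 n1481 (.cons 758 n2008 (.cons 921 n2017 .nil)))
noncomputable def n2019 : Strat := .move 842 n541 (.cons 843 n1482 .nil)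
noncomputable def n2020 : Strat := .move 920 n1965 (.cons 757 n1995 .nil)
noncomputable def n2021 : Strat := .move 880 n1730 (.cons 717 n1799 (.cons 921 n2020 .nil))
noncomputable def n2022 : Strat := .move 879 n549 (.cons 878 n2021 .nil)
noncomputable def n2023 : Strat := .move 838 n1993 (.cons 836 n2022 .nil)
noncomputable def n2024 : Strat := .move 796 n1992 (.cons 797 n2023 .nil)
noncomputable def n2025 : Strat := .move 841 n1448 (.cons 797 n2019 (.cons 842 n2024 .nil))
noncomputable def n2026 : Strat := .move 796 n1529 (.cons 759 n186 .nil)
noncomputable def n2027 : Strat := .move 841 n464 (.cons 842 n160 .nil)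
noncomputable def n2028 : Strat := .move 716 n514 (.cons 674 n581 .nil)
noncomputable def n2029 : Strat := .move 715 n1958 (.cons 756 n2028 .nil)
noncomputable def n2030 : Strat := .move 797 n188 (.cons 841 n2026 (.cons 795 n2027 (.cons 796 n2029 .nil)))
noncomputable def n2031 : Strat := .move 758 n398 (.cons 717 n2030 .nil)
noncomputable def n2032 : Strat := .move 879 n1800 (.cons 920 n1959 .nil)
noncomputable def n2033 : Strat := .move 716 n581 (.cons 675 n2032 .nil)
noncomputable def n2034 : Strat := .move 758 n398 (.cons 717 n2015 .nil)
noncomputable def n2035 : Strat := .move 717 n1939 (.cons 758 n1941 .nil)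
noncomputable def n2036 : Strat := .move 757 n2031 (.cons 758 n2033 (.cons 716 n2034 (.cons 756 n2035 .nil)))
noncomputable def n2037 : Strat := .move 880 n1934 (.cons 758 n1937 (.cons 962 n1481 (.cons 921 n2036 .nil)))
noncomputable def n2038 : Strat := .win 757 3 756
noncomputable def n2039 : Strat := .move 920 n2038 (.cons 757 n1995 .nil)
noncomputable def n2040 : Strat := .move 879 n549 (.cons 878 n2039 .nil)
noncomputable def n2041 : Strat := .move 797 n160 (.cons 796 n2040 .nil)
noncomputable def n2042 : Strat := .move 878 n1411 (.cons 879 n1410 .nil)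
noncomputable def n2043 : Strat := .move 837 n830 (.cons 836 n2042 .nil)
noncomputable def n2044 : Strat := .move 796 n1992 (.cons 797 n1993 .nil)
noncomputable def n2045 : Strat := .move 838 n2041 (.cons 797 n2043 (.cons 879 n2044 .nil))
noncomputable def n2046 : Strat := .move 841 n1448 (.cons 797 n1991 (.cons 842 n2045 .nil))
noncomputable def n2047 : Strat := .move 879 n1800 (.cons 920 n1942 .nil)
noncomputable def n2048 : Strat := .move 880 n1939 (.cons 758 n2047 .nil)
noncomputable def n2049 : Strat := .move 717 n1940 (.cons 676 n2048 .nil)
noncomputable def n2050 : Strat := .move 716 n581 (.cons 675 n2049 .nil)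
noncomputable def n2051 : Strat := .move 756 n72 (.cons 755 n71 .nil)
noncomputable def n2052 : Strat := .win 678 5 674
noncomputable def n2053 : Strat := .win 758 3 676
noncomputable def n2054 : Strat := .move 677 n2052 (.cons 678 n2053 .nil)
noncomputable def n2055 : Strat := .move 718 n2051 (.cons 719 n2054 .nil)
noncomputable def n2056 : Strat := .move 715 n514 (.cons 674 n2055 .nil)
noncomputable def n2057 : Strat := .move 717 n1940 (.cons 676 n2056 .nil)
noncomputable def n2058 : Strat := .move 716 n581 (.cons 675 n2057 .nil)
noncomputable def n2059 : Strat := .move 880 n1958 (.cons 756 n2047 .nil)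
noncomputable def n2060 : Strat := .move 715 n514 (.cons 674 n2059 .nil)
noncomputable def n2061 : Strat := .move 716 n581 (.cons 675 n2060 .nil)
noncomputable def n2062 : Strat := .win 797 7 756
noncomputable def n2063 : Strat := .move 756 n403 (.cons 715 n2062 .nil)
noncomputable def n2064 : Strat := .move 921 n1797 (.cons 962 n2063 .nil)
noncomputable def n2065 : Strat := .move 716 n514 (.cons 674 n1942 .nil)
noncomputable def n2066 : Strat := .move 715 n1958 (.cons 756 n2065 .nil)
noncomputable def n2067 : Strat := .move 879 n1800 (.cons 920 n2066 .nil)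
noncomputable def n2068 : Strat := .move 758 n398 (.cons 717 n2067 .nil)
noncomputable def n2069 : Strat := .move 880 n1481 (.cons 717 n1934 (.cons 758 n2064 (.cons 921 n2068 .nil)))
noncomputable def n2070 : Strat := .move 880 n398 (.cons 717 n1480 .nil)
noncomputable def n2071 : Strat := .win 759 5 715
noncomputable def n2072 : Strat := .move 719 n2071 (.cons 759 n74 .nil)
noncomputable def n2073 : Strat := .move 756 n111 (.cons 755 n2072 .nil)
noncomputable def n2074 : Strat := .move 718 n2 (.cons 677 n2073 .nil)
noncomputable def n2075 : Strat := .move 717 n463 (.cons 676 n2074 .nil)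
noncomputable def n2076 : Strat := .win 718 5 715
noncomputable def n2077 : Strat := .move 756 n2076 (.cons 718 n403 .nil)
noncomputable def n2078 : Strat := .move 760 n273 (.cons 720 n46 .nil)
noncomputable def n2079 : Strat := .move 719 n2077 (.cons 715 n2078 .nil)
noncomputable def n2080 : Strat := .move 880 n1480 (.cons 921 n2079 .nil)
noncomputable def n2081 : Strat := .win 797 5 755
noncomputable def n2082 : Strat := .move 880 n403 (.cons 715 n1480 .nil)
noncomputable def n2083 : Strat := .win 880 7 715
noncomputable def n2084 : Strat := .move 715 n50 (.cons 714 n2083 .nil)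
noncomputable def n2085 : Strat := .move 756 n2082 (.cons 921 n2084 (.cons 715 n2013 .nil))
noncomputable def n2086 : Strat := .move 796 n2081 (.cons 797 n2085 .nil)
noncomputable def n2087 : Strat := .move 759 n394 (.cons 796 n615 (.cons 797 n2080 (.cons 760 n2086 .nil)))
noncomputable def n2088 : Strat := .move 758 n2070 (.cons 880 n2075 (.cons 717 n2087 .nil))
noncomputable def n2089 : Strat := .move 757 n2050 (.cons 880 n2058 (.cons 758 n2061 (.cons 675 n2069 (.cons 716 n2088 .nil))))
noncomputable def n2090 : Strat := .move 717 n463 (.cons 676 n1449 .nil)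
noncomputable def n2091 : Strat := .move 797 n187 (.cons 841 n186 .nil)
noncomputable def n2092 : Strat := .move 797 n187 (.cons 841 n1529 .nil)
noncomputable def n2093 : Strat := .move 756 n403 (.cons 715 n2013 .nil)
noncomputable def n2094 : Strat := .move 837 n1406 (.cons 795 n830 .nil)
noncomputable def n2095 : Strat := .win 879 1 715
noncomputable def n2096 : Strat := .move 716 n2095 (.cons 879 n581 .nil)
noncomputable def n2097 : Strat := .move 838 n2094 (.cons 836 n2096 .nil)
noncomputable def n2098 : Strat := .move 757 n1960 (.cons 716 n2093 (.cons 756 n2097 .nil))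
noncomputable def n2099 : Strat := .move 796 n2091 (.cons 795 n2092 (.cons 797 n2098 .nil))
noncomputable def n2100 : Strat := .move 880 n1480 (.cons 921 n2099 .nil)
noncomputable def n2101 : Strat := .move 758 n1226 (.cons 880 n2090 (.cons 676 n2070 (.cons 717 n2100 .nil)))
noncomputable def n2102 : Strat := .move 837 n830 (.cons 836 n1412 .nil)
noncomputable def n2103 : Strat := .move 880 n1730 (.cons 717 n1799 (.cons 921 n2102 .nil))
noncomputable def n2104 : Strat := .move 797 n160 (.cons 796 n2103 .nil)
noncomputable def n2105 : Strat := .move 882 n800 (.cons 883 n1412 .nil)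
noncomputable def n2106 : Strat := .move 837 n830 (.cons 836 n2105 .nil)
noncomputable def n2107 : Strat := .move 880 n1797 (.cons 962 n1798 .nil)
noncomputable def n2108 : Strat := .win 756 6 756
noncomputable def n2109 : Strat := .move 880 n2108 (.cons 756 n1797 .nil)
noncomputable def n2110 : Strat := .move 880 n2108 (.cons 756 n1798 .nil)
noncomputable def n2111 : Strat := .move 920 n1664 (.cons 962 n1995 .nil)
noncomputable def n2112 : Strat := .move 921 n2107 (.cons 758 n2109 (.cons 962 n2110 (.cons 880 n2111 .nil)))
noncomputable def n2113 : Strat := .move 879 n549 (.cons 878 n2112 .nil)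
noncomputable def n2114 : Strat := .move 797 n160 (.cons 796 n2113 .nil)
noncomputable def n2115 : Strat := .move 838 n2104 (.cons 797 n2106 (.cons 837 n2114 (.cons 879 n2044 .nil)))
noncomputable def n2116 : Strat := .move 841 n888 (.cons 797 n2019 (.cons 843 n1448 (.cons 842 n2115 .nil)))
noncomputable def n2117 : Strat := .move 796 n187 (.cons 841 n186 .nil)
noncomputable def n2118 : Strat := .move 797 n185 (.cons 756 n2117 .nil)
noncomputable def n2119 : Strat := .move 921 n1797 (.cons 962 n2118 .nil)
noncomputable def n2120 : Strat := .move 717 n1940 (.cons 676 n1959 .nil)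
noncomputable def n2121 : Strat := .move 716 n581 (.cons 675 n2120 .nil)
noncomputable def n2122 : Strat := .move 715 n1958 (.cons 756 n514 .nil)
noncomputable def n2123 : Strat := .move 716 n581 (.cons 675 n2122 .nil)
noncomputable def n2124 : Strat := .move 757 n2031 (.cons 758 n2121 (.cons 674 n2034 (.cons 715 n2035 (.cons 717 n2123 .nil))))
noncomputable def n2125 : Strat := .move 880 n1934 (.cons 758 n2119 (.cons 962 n1481 (.cons 921 n2124 .nil)))
noncomputable def n2126 : Strat := .move 839 n1952 (.cons 797 n1972 (.cons 758 n1987 (.cons 921 n2001 (.cons 842 n2018 (.cons 716 n2025 (.cons 838 n2037 (.cons 880 n2046 (.cons 841 n2089 (.cons 920 n2101 (.cons 757 n2116 (.cons 879 n2125 .nil)))))))))))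
noncomputable def n2127 : Strat := .move 837 n830 (.cons 836 n1405 .nil)
noncomputable def n2128 : Strat := .move 757 n1994 (.cons 880 n1811 .nil)
noncomputable def n2129 : Strat := .move 920 n1995 (.cons 961 n2128 .nil)
noncomputable def n2130 : Strat := .move 879 n1813 (.cons 841 n2129 .nil)
noncomputable def n2131 : Strat := .move 878 n1410 (.cons 877 n2130 .nil)
noncomputable def n2132 : Strat := .move 837 n830 (.cons 836 n2131 .nil)
noncomputable def n2133 : Strat := .move 883 n537 (.cons 884 n1726 .nil)
noncomputable def n2134 : Strat := .move 842 n541 (.cons 843 n2133 .nil)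
noncomputable def n2135 : Strat := .move 879 n1879 (.cons 880 n549 .nil)
noncomputable def n2136 : Strat := .move 842 n541 (.cons 843 n2135 .nil)
noncomputable def n2137 : Strat := .move 841 n1745 (.cons 923 n2134 (.cons 882 n2136 .nil))
noncomputable def n2138 : Strat := .move 800 n162 (.cons 801 n2137 .nil)
noncomputable def n2139 : Strat := .move 838 n832 (.cons 801 n2127 (.cons 800 n2132 (.cons 837 n2138 .nil)))
noncomputable def n2140 : Strat := .move 755 n405 (.cons 800 n404 .nil)
noncomputable def n2141 : Strat := .move 756 n403 (.cons 715 n2140 .nil)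
noncomputable def n2142 : Strat := .move 758 n398 (.cons 717 n2141 .nil)
noncomputable def n2143 : Strat := .move 757 n2142 (.cons 758 n2123 (.cons 715 n2035 .nil))
noncomputable def n2144 : Strat := .move 880 n1481 (.cons 758 n1971 (.cons 921 n2143 .nil))
noncomputable def n2145 : Strat := .move 755 n1539 (.cons 920 n1540 .nil)
noncomputable def n2146 : Strat := .move 796 n1406 (.cons 795 n2145 .nil)
noncomputable def n2147 : Strat := .move 879 n1813 (.cons 841 n2146 .nil)
noncomputable def n2148 : Strat := .move 878 n1410 (.cons 877 n2147 .nil)
noncomputable def n2149 : Strat := .move 837 n830 (.cons 836 n2148 .nil)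
noncomputable def n2150 : Strat := .move 800 n162 (.cons 801 n1736 .nil)
noncomputable def n2151 : Strat := .move 842 n541 (.cons 843 n1727 .nil)
noncomputable def n2152 : Strat := .move 842 n541 (.cons 843 n834 .nil)
noncomputable def n2153 : Strat := .move 801 n833 (.cons 800 n2152 .nil)
noncomputable def n2154 : Strat := .move 841 n2150 (.cons 800 n2151 (.cons 883 n2153 .nil))
noncomputable def n2155 : Strat := .move 838 n832 (.cons 800 n2149 (.cons 837 n2154 .nil))
noncomputable def n2156 : Strat := .move 842 n1879 (.cons 880 n541 .nil)
noncomputable def n2157 : Strat := .move 879 n549 (.cons 878 n2156 .nil)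
noncomputable def n2158 : Strat := .move 880 n1800 (.cons 920 n1945 .nil)
noncomputable def n2159 : Strat := .move 757 n1811 (.cons 716 n2158 .nil)
noncomputable def n2160 : Strat := .move 879 n549 (.cons 878 n2159 .nil)
noncomputable def n2161 : Strat := .move 841 n2151 (.cons 884 n2157 (.cons 843 n2160 (.cons 842 n1998 .nil)))
noncomputable def n2162 : Strat := .move 800 n212 (.cons 837 n2161 .nil)
noncomputable def n2163 : Strat := .move 800 n162 (.cons 801 n2161 .nil)
noncomputable def n2164 : Strat := .move 838 n832 (.cons 801 n2162 (.cons 800 n2132 (.cons 837 n2163 .nil)))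
noncomputable def n2165 : Strat := .move 757 n2141 (.cons 754 n1954 .nil)
noncomputable def n2166 : Strat := .move 880 n1480 (.cons 921 n2165 .nil)
noncomputable def n2167 : Strat := .move 674 n78 (.cons 673 n495 .nil)
noncomputable def n2168 : Strat := .move 715 n70 (.cons 714 n2167 .nil)
noncomputable def n2169 : Strat := .move 718 n2 (.cons 677 n2168 .nil)
noncomputable def n2170 : Strat := .move 716 n0 (.cons 675 n2169 .nil)
noncomputable def n2171 : Strat := .move 717 n463 (.cons 676 n2170 .nil)
noncomputable def n2172 : Strat := .move 758 n1226 (.cons 676 n2070 (.cons 717 n2166 (.cons 880 n2171 .nil)))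
noncomputable def n2173 : Strat := .move 841 n1745 (.cons 882 n2136 .nil)
noncomputable def n2174 : Strat := .move 838 n212 (.cons 837 n2173 .nil)
noncomputable def n2175 : Strat := .win 925 6 760
noncomputable def n2176 : Strat := .win 841 0 839
noncomputable def n2177 : Strat := .move 884 n2175 (.cons 925 n2176 .nil)
noncomputable def n2178 : Strat := .move 759 n1777 (.cons 718 n1778 .nil)
noncomputable def n2179 : Strat := .move 883 n2177 (.cons 841 n2178 .nil)
noncomputable def n2180 : Strat := .move 760 n574 (.cons 761 n2179 .nil)
noncomputable def n2181 : Strat := .move 842 n344 (.cons 843 n2180 .nil)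
noncomputable def n2182 : Strat := .move 801 n165 (.cons 802 n2181 .nil)
noncomputable def n2183 : Strat := .move 800 n960 (.cons 802 n213 (.cons 801 n2174 (.cons 838 n2182 .nil)))
noncomputable def n2184 : Strat := .move 714 n516 (.cons 759 n515 .nil)
noncomputable def n2185 : Strat := .move 715 n514 (.cons 674 n2184 .nil)
noncomputable def n2186 : Strat := .move 758 n7 (.cons 880 n2185 .nil)
noncomputable def n2187 : Strat := .move 717 n1940 (.cons 676 n2186 .nil)
noncomputable def n2188 : Strat := .move 716 n581 (.cons 675 n2187 .nil)
noncomputable def n2189 : Strat := .move 801 n166 (.cons 838 n257 .nil)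
noncomputable def n2190 : Strat := .move 756 n41 (.cons 755 n2082 .nil)
noncomputable def n2191 : Strat := .move 800 n2189 (.cons 801 n2190 .nil)
noncomputable def n2192 : Strat := .move 758 n1226 (.cons 717 n2191 (.cons 880 n2075 .nil))
noncomputable def n2193 : Strat := .move 758 n7 (.cons 880 n1148 .nil)
noncomputable def n2194 : Strat := .move 717 n1940 (.cons 676 n2193 .nil)
noncomputable def n2195 : Strat := .move 716 n581 (.cons 675 n2194 .nil)
noncomputable def n2196 : Strat := .move 880 n1958 (.cons 756 n1730 .nil)
noncomputable def n2197 : Strat := .move 715 n514 (.cons 674 n2196 .nil)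
noncomputable def n2198 : Strat := .move 716 n581 (.cons 675 n2197 .nil)
noncomputable def n2199 : Strat := .win 718 4 714
noncomputable def n2200 : Strat := .move 755 n2199 (.cons 718 n404 .nil)
noncomputable def n2201 : Strat := .move 717 n1940 (.cons 676 n2200 .nil)
noncomputable def n2202 : Strat := .move 756 n2083 (.cons 880 n2201 .nil)
noncomputable def n2203 : Strat := .move 715 n514 (.cons 674 n2202 .nil)
noncomputable def n2204 : Strat := .move 716 n581 (.cons 675 n2203 .nil)
noncomputable def n2205 : Strat := .win 758 0 755
noncomputable def n2206 : Strat := .move 755 n2205 (.cons 758 n404 .nil)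
noncomputable def n2207 : Strat := .move 800 n758 (.cons 801 n2206 .nil)
noncomputable def n2208 : Strat := .move 756 n2083 (.cons 880 n2207 .nil)
noncomputable def n2209 : Strat := .move 715 n514 (.cons 674 n2208 .nil)
noncomputable def n2210 : Strat := .move 716 n581 (.cons 675 n2209 .nil)
noncomputable def n2211 : Strat := .move 757 n2188 (.cons 716 n2192 (.cons 715 n2195 (.cons 880 n2058 (.cons 676 n2198 (.cons 758 n2204 (.cons 717 n2210 .nil))))))
noncomputable def n2212 : Strat := .move 839 n2139 (.cons 838 n2144 (.cons 880 n2155 (.cons 758 n2164 (.cons 800 n1972 (.cons 878 n2172 (.cons 920 n2183 (.cons 879 n2211 .nil)))))))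
noncomputable def n2213 : Strat := .move 798 n1511 (.cons 841 n1673 (.cons 839 n1706 (.cons 758 n1725 (.cons 757 n1743 (.cons 796 n1849 (.cons 838 n1873 (.cons 801 n1901 (.cons 756 n1910 (.cons 760 n1917 (.cons 879 n1933 (.cons 800 n2126 (.cons 797 n2212 .nil))))))))))))
noncomputable def n2214 : Strat := .win 798 4 797
noncomputable def n2215 : Strat := .move 801 n165 (.cons 802 n2214 .nil)
noncomputable def n2216 : Strat := .move 838 n212 (.cons 837 n2215 .nil)
noncomputable def n2217 : Strat := .move 756 n1609 (.cons 921 n1652 .nil)
noncomputable def n2218 : Strat := .move 880 n1945 (.cons 842 n2217 .nil)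
noncomputable def n2219 : Strat := .move 879 n549 (.cons 878 n2218 .nil)
noncomputable def n2220 : Strat := .move 797 n910 (.cons 796 n2219 .nil)
noncomputable def n2221 : Strat := .move 841 n552 (.cons 801 n2220 .nil)
noncomputable def n2222 : Strat := .move 838 n212 (.cons 837 n2221 .nil)
noncomputable def n2223 : Strat := .win 881 6 716
noncomputable def n2224 : Strat := .move 716 n2223 (.cons 881 n581 .nil)
noncomputable def n2225 : Strat := .move 757 n592 (.cons 756 n2224 .nil)
noncomputable def n2226 : Strat := .move 841 n762 (.cons 797 n2225 .nil)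
noncomputable def n2227 : Strat := .move 842 n344 (.cons 843 n2226 .nil)
noncomputable def n2228 : Strat := .move 798 n166 (.cons 838 n2227 .nil)
noncomputable def n2229 : Strat := .move 801 n165 (.cons 802 n2228 .nil)
noncomputable def n2230 : Strat := .win 716 6 716
noncomputable def n2231 : Strat := .move 881 n2230 (.cons 716 n228 .nil)
noncomputable def n2232 : Strat := .move 757 n592 (.cons 756 n2231 .nil)
noncomputable def n2233 : Strat := .move 798 n2227 (.cons 797 n2232 (.cons 756 n1751 .nil))
noncomputable def n2234 : Strat := .move 801 n165 (.cons 802 n2233 .nil)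
noncomputable def n2235 : Strat := .move 715 n1486 (.cons 674 n1485 .nil)
noncomputable def n2236 : Strat := .move 756 n169 (.cons 755 n2235 .nil)
noncomputable def n2237 : Strat := .move 798 n159 (.cons 842 n2236 .nil)
noncomputable def n2238 : Strat := .move 797 n910 (.cons 796 n2237 .nil)
noncomputable def n2239 : Strat := .move 843 n904 (.cons 844 n899 .nil)
noncomputable def n2240 : Strat := .move 842 n2239 (.cons 798 n2135 .nil)
noncomputable def n2241 : Strat := .move 923 n1497 (.cons 964 n2240 .nil)
noncomputable def n2242 : Strat := .move 882 n800 (.cons 883 n2241 .nil)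
noncomputable def n2243 : Strat := .win 881 1 717
noncomputable def n2244 : Strat := .move 718 n2243 (.cons 881 n564 .nil)
noncomputable def n2245 : Strat := .win 718 1 717
noncomputable def n2246 : Strat := .move 881 n2245 (.cons 718 n486 .nil)
noncomputable def n2247 : Strat := .win 798 5 756
noncomputable def n2248 : Strat := .move 760 n262 (.cons 719 n2247 .nil)
noncomputable def n2249 : Strat := .move 759 n2244 (.cons 677 n2246 (.cons 881 n2248 .nil))
noncomputable def n2250 : Strat := .move 882 n800 (.cons 883 n2249 .nil)
noncomputable def n2251 : Strat := .move 797 n910 (.cons 796 n2250 .nil)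
noncomputable def n2252 : Strat := .move 841 n2238 (.cons 798 n2220 (.cons 797 n2242 (.cons 842 n2251 .nil)))
noncomputable def n2253 : Strat := .move 838 n212 (.cons 837 n2252 .nil)
noncomputable def n2254 : Strat := .move 800 n2216 (.cons 798 n2222 (.cons 837 n2229 (.cons 838 n2234 (.cons 801 n2253 .nil))))
noncomputable def n2255 : Strat := .win 798 5 795
noncomputable def n2256 : Strat := .win 878 4 836
noncomputable def n2257 : Strat := .win 876 4 835
noncomputable def n2258 : Strat := .move 877 n2256 (.cons 878 n2257 .nil)
noncomputable def n2259 : Strat := .move 836 n2255 (.cons 798 n2258 .nil)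
noncomputable def n2260 : Strat := .move 841 n1407 (.cons 797 n1411 .nil)
noncomputable def n2261 : Strat := .move 796 n1406 (.cons 795 n2260 .nil)
noncomputable def n2262 : Strat := .move 878 n1410 (.cons 877 n2261 .nil)
noncomputable def n2263 : Strat := .win 796 2 795
noncomputable def n2264 : Strat := .win 794 2 794
noncomputable def n2265 : Strat := .move 795 n2263 (.cons 796 n2264 .nil)
noncomputable def n2266 : Strat := .move 836 n2255 (.cons 798 n2265 .nil)
noncomputable def n2267 : Strat := .move 837 n2259 (.cons 798 n2262 (.cons 878 n2266 .nil))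
noncomputable def n2268 : Strat := .move 842 n909 (.cons 798 n1894 .nil)
noncomputable def n2269 : Strat := .move 797 n910 (.cons 796 n2268 .nil)
noncomputable def n2270 : Strat := .move 842 n1879 (.cons 880 n1727 .nil)
noncomputable def n2271 : Strat := .move 879 n549 (.cons 878 n2270 .nil)
noncomputable def n2272 : Strat := .move 842 n909 (.cons 798 n1727 .nil)
noncomputable def n2273 : Strat := .move 797 n910 (.cons 796 n2272 .nil)
noncomputable def n2274 : Strat := .move 798 n1995 (.cons 961 n2038 .nil)
noncomputable def n2275 : Strat := .win 798 3 797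
noncomputable def n2276 : Strat := .win 1001 1 837
noncomputable def n2277 : Strat := .win 919 1 796
noncomputable def n2278 : Strat := .move 960 n2276 (.cons 1001 n2277 .nil)
noncomputable def n2279 : Strat := .move 961 n2275 (.cons 798 n2278 .nil)
noncomputable def n2280 : Strat := .win 798 3 756
noncomputable def n2281 : Strat := .move 757 n2280 (.cons 798 n1599 .nil)
noncomputable def n2282 : Strat := .move 880 n1609 (.cons 921 n1652 .nil)
noncomputable def n2283 : Strat := .move 756 n2281 (.cons 716 n2282 .nil)
noncomputable def n2284 : Strat := .win 1003 6 838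
noncomputable def n2285 : Strat := .win 921 6 797
noncomputable def n2286 : Strat := .move 962 n2284 (.cons 1003 n2285 .nil)
noncomputable def n2287 : Strat := .move 961 n2278 (.cons 919 n2286 .nil)
noncomputable def n2288 : Strat := .move 920 n2274 (.cons 757 n2279 (.cons 961 n2283 (.cons 798 n2287 .nil)))
noncomputable def n2289 : Strat := .move 879 n549 (.cons 878 n2288 .nil)
noncomputable def n2290 : Strat := .move 797 n910 (.cons 796 n2289 .nil)
noncomputable def n2291 : Strat := .move 841 n2269 (.cons 797 n2271 (.cons 879 n2273 (.cons 842 n2290 .nil)))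
noncomputable def n2292 : Strat := .win 880 0 836
noncomputable def n2293 : Strat := .move 836 n2292 (.cons 880 n2258 .nil)
noncomputable def n2294 : Strat := .move 881 n829 (.cons 882 n2293 .nil)
noncomputable def n2295 : Strat := .win 836 0 836
noncomputable def n2296 : Strat := .win 841 2 796
noncomputable def n2297 : Strat := .move 796 n2296 (.cons 841 n1406 .nil)
noncomputable def n2298 : Strat := .win 879 6 756
noncomputable def n2299 : Strat := .move 756 n2298 (.cons 879 n1652 .nil)
noncomputable def n2300 : Strat := .move 797 n2297 (.cons 795 n2299 .nil)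
noncomputable def n2301 : Strat := .move 921 n1797 (.cons 962 n2300 .nil)
noncomputable def n2302 : Strat := .move 880 n2295 (.cons 836 n2301 .nil)
noncomputable def n2303 : Strat := .move 881 n829 (.cons 882 n2302 .nil)
noncomputable def n2304 : Strat := .move 837 n2262 (.cons 841 n2294 (.cons 878 n2303 .nil))
noncomputable def n2305 : Strat := .move 757 n2230 (.cons 716 n228 .nil)
noncomputable def n2306 : Strat := .move 881 n829 (.cons 882 n2305 .nil)
noncomputable def n2307 : Strat := .move 798 n830 (.cons 836 n2306 .nil)
noncomputable def n2308 : Strat := .move 836 n2255 (.cons 798 n2292 .nil)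
noncomputable def n2309 : Strat := .move 881 n829 (.cons 882 n2308 .nil)
noncomputable def n2310 : Strat := .move 837 n2307 (.cons 922 n2309 (.cons 836 n2148 .nil))
noncomputable def n2311 : Strat := .win 715 1 714
noncomputable def n2312 : Strat := .move 756 n1534 (.cons 919 n2311 .nil)
noncomputable def n2313 : Strat := .move 878 n1410 (.cons 877 n2312 .nil)
noncomputable def n2314 : Strat := .move 797 n2296 (.cons 841 n2313 .nil)
noncomputable def n2315 : Strat := .move 796 n1406 (.cons 795 n2314 .nil)
noncomputable def n2316 : Strat := .move 837 n2266 (.cons 794 n2259 (.cons 836 n2315 .nil))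
noncomputable def n2317 : Strat := .win 881 0 837
noncomputable def n2318 : Strat := .move 882 n2317 (.cons 881 n800 .nil)
noncomputable def n2319 : Strat := .move 841 n1411 (.cons 879 n2318 .nil)
noncomputable def n2320 : Strat := .move 878 n1410 (.cons 877 n2319 .nil)
noncomputable def n2321 : Strat := .move 881 n829 (.cons 882 n2292 .nil)
noncomputable def n2322 : Strat := .move 836 n2255 (.cons 798 n2321 .nil)
noncomputable def n2323 : Strat := .move 837 n2259 (.cons 836 n2320 (.cons 878 n2322 .nil))
noncomputable def n2324 : Strat := .move 841 n1407 (.cons 797 n2318 .nil)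
noncomputable def n2325 : Strat := .move 796 n1406 (.cons 795 n2324 .nil)
noncomputable def n2326 : Strat := .move 837 n2266 (.cons 798 n2303 (.cons 796 n2322 (.cons 836 n2325 .nil)))
noncomputable def n2327 : Strat := .win 960 3 796
noncomputable def n2328 : Strat := .win 756 3 755
noncomputable def n2329 : Strat := .move 919 n2327 (.cons 960 n2328 .nil)
noncomputable def n2330 : Strat := .win 798 2 754
noncomputable def n2331 : Strat := .win 713 7 713
noncomputable def n2332 : Strat := .move 754 n2330 (.cons 798 n2331 .nil)
noncomputable def n2333 : Strat := .move 797 n2312 (.cons 715 n2329 (.cons 919 n2332 .nil))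
noncomputable def n2334 : Strat := .move 755 n1541 (.cons 714 n2333 .nil)
noncomputable def n2335 : Strat := .move 878 n1410 (.cons 877 n2334 .nil)
noncomputable def n2336 : Strat := .move 796 n1406 (.cons 795 n2335 .nil)
noncomputable def n2337 : Strat := .move 837 n2259 (.cons 798 n2294 (.cons 878 n2266 (.cons 836 n2336 .nil)))
noncomputable def n2338 : Strat := .move 838 n2267 (.cons 837 n2291 (.cons 798 n2304 (.cons 797 n2310 (.cons 879 n2316 (.cons 796 n2323 (.cons 878 n2326 (.cons 841 n2337 .nil)))))))
noncomputable def n2339 : Strat := .move 837 n1405 (.cons 800 n2262 .nil)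
noncomputable def n2340 : Strat := .move 800 n552 (.cons 801 n2220 .nil)
noncomputable def n2341 : Strat := .move 881 n486 (.cons 922 n2245 .nil)
noncomputable def n2342 : Strat := .win 760 3 718
noncomputable def n2343 : Strat := .move 719 n421 (.cons 678 n2342 .nil)
noncomputable def n2344 : Strat := .move 718 n564 (.cons 677 n2343 .nil)
noncomputable def n2345 : Strat := .win 881 1 758
noncomputable def n2346 : Strat := .move 923 n1381 (.cons 963 n1497 .nil)
noncomputable def n2347 : Strat := .move 922 n2345 (.cons 881 n2346 .nil)
noncomputable def n2348 : Strat := .move 759 n2244 (.cons 677 n2341 (.cons 881 n2344 (.cons 718 n2347 .nil)))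
noncomputable def n2349 : Strat := .move 882 n800 (.cons 883 n2348 .nil)
noncomputable def n2350 : Strat := .move 800 n2220 (.cons 880 n2349 .nil)
noncomputable def n2351 : Strat := .move 797 n2108 (.cons 756 n910 .nil)
noncomputable def n2352 : Strat := .move 921 n1797 (.cons 962 n2351 .nil)
noncomputable def n2353 : Strat := .move 880 n1945 (.cons 842 n2352 .nil)
noncomputable def n2354 : Strat := .move 879 n549 (.cons 878 n2353 .nil)
noncomputable def n2355 : Strat := .move 800 n552 (.cons 801 n2349 .nil)
noncomputable def n2356 : Strat := .move 841 n2340 (.cons 801 n2350 (.cons 800 n2354 (.cons 879 n2355 .nil)))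
noncomputable def n2357 : Strat := .move 837 n1405 (.cons 800 n2303 .nil)
noncomputable def n2358 : Strat := .win 841 5 797
noncomputable def n2359 : Strat := .move 801 n165 (.cons 802 n2358 .nil)
noncomputable def n2360 : Strat := .move 800 n212 (.cons 837 n2359 .nil)
noncomputable def n2361 : Strat := .move 837 n1405 (.cons 800 n2294 .nil)
noncomputable def n2362 : Strat := .move 838 n2339 (.cons 800 n2304 (.cons 837 n2356 (.cons 878 n2357 (.cons 879 n2360 (.cons 841 n2361 .nil)))))
noncomputable def n2363 : Strat := .move 838 n212 (.cons 837 n2214 .nil)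
noncomputable def n2364 : Strat := .move 801 n165 (.cons 802 n2363 .nil)
noncomputable def n2365 : Strat := .move 842 n1264 (.cons 798 n2133 .nil)
noncomputable def n2366 : Strat := .move 797 n910 (.cons 796 n2365 .nil)
noncomputable def n2367 : Strat := .move 798 n2151 (.cons 884 n2157 (.cons 843 n2160 (.cons 842 n1998 .nil)))
noncomputable def n2368 : Strat := .win 798 2 755
noncomputable def n2369 : Strat := .move 755 n1634 (.cons 714 n2368 .nil)
noncomputable def n2370 : Strat := .move 756 n2282 (.cons 715 n2369 .nil)
noncomputable def n2371 : Strat := .move 879 n549 (.cons 878 n2370 .nil)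
noncomputable def n2372 : Strat := .move 797 n910 (.cons 796 n2371 .nil)
noncomputable def n2373 : Strat := .move 841 n2366 (.cons 797 n2367 (.cons 842 n2372 (.cons 798 n2220 .nil)))
noncomputable def n2374 : Strat := .move 838 n212 (.cons 837 n2373 .nil)
noncomputable def n2375 : Strat := .move 838 n212 (.cons 837 n2359 .nil)
noncomputable def n2376 : Strat := .move 797 n345 (.cons 841 n1582 .nil)
noncomputable def n2377 : Strat := .move 842 n344 (.cons 843 n2376 .nil)
noncomputable def n2378 : Strat := .move 797 n160 (.cons 796 n1582 .nil)
noncomputable def n2379 : Strat := .move 797 n1491 (.cons 759 n160 .nil)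
noncomputable def n2380 : Strat := .move 760 n574 (.cons 761 n2379 .nil)
noncomputable def n2381 : Strat := .move 882 n262 (.cons 719 n1783 .nil)
noncomputable def n2382 : Strat := .move 759 n1221 (.cons 797 n2381 .nil)
noncomputable def n2383 : Strat := .move 760 n574 (.cons 761 n2382 .nil)
noncomputable def n2384 : Strat := .win 759 3 718
noncomputable def n2385 : Strat := .move 719 n2384 (.cons 759 n1474 .nil)
noncomputable def n2386 : Strat := .move 882 n1783 (.cons 923 n2385 .nil)
noncomputable def n2387 : Strat := .move 760 n574 (.cons 761 n2386 .nil)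
noncomputable def n2388 : Strat := .move 841 n2378 (.cons 755 n2380 (.cons 796 n2383 (.cons 797 n2387 .nil)))
noncomputable def n2389 : Strat := .move 798 n2377 (.cons 842 n2388 (.cons 797 n2181 (.cons 841 n1782 .nil)))
noncomputable def n2390 : Strat := .move 801 n165 (.cons 802 n2389 .nil)
noncomputable def n2391 : Strat := .move 800 n2364 (.cons 801 n2374 (.cons 798 n2375 (.cons 838 n2390 .nil)))
noncomputable def n2392 : Strat := .move 798 n166 (.cons 838 n2377 .nil)
noncomputable def n2393 : Strat := .move 801 n165 (.cons 802 n2392 .nil)
noncomputable def n2394 : Strat := .move 797 n345 (.cons 841 n1585 .nil)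
noncomputable def n2395 : Strat := .move 842 n344 (.cons 843 n2394 .nil)
noncomputable def n2396 : Strat := .move 798 n2377 (.cons 797 n2232 (.cons 757 n2395 .nil))
noncomputable def n2397 : Strat := .move 801 n165 (.cons 802 n2396 .nil)
noncomputable def n2398 : Strat := .move 759 n1188 (.cons 760 n2244 .nil)
noncomputable def n2399 : Strat := .move 798 n159 (.cons 842 n2398 .nil)
noncomputable def n2400 : Strat := .move 797 n910 (.cons 796 n2399 .nil)
noncomputable def n2401 : Strat := .move 797 n160 (.cons 796 n159 .nil)
noncomputable def n2402 : Strat := .move 798 n2401 (.cons 796 n763 (.cons 797 n2134 (.cons 842 n2041 .nil)))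
noncomputable def n2403 : Strat := .move 841 n2400 (.cons 798 n2349 (.cons 759 n2402 .nil))
noncomputable def n2404 : Strat := .move 838 n212 (.cons 837 n2403 .nil)
noncomputable def n2405 : Strat := .move 841 n552 (.cons 801 n2349 .nil)
noncomputable def n2406 : Strat := .move 838 n212 (.cons 837 n2405 .nil)
noncomputable def n2407 : Strat := .move 800 n2216 (.cons 837 n2393 (.cons 838 n2397 (.cons 801 n2404 (.cons 798 n2406 .nil))))
noncomputable def n2408 : Strat := .move 838 n162 (.cons 801 n2236 .nil)
noncomputable def n2409 : Strat := .move 800 n2408 (.cons 838 n2398 .nil)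
noncomputable def n2410 : Strat := .move 797 n160 (.cons 796 n2409 .nil)
noncomputable def n2411 : Strat := .move 800 n166 (.cons 838 n2225 .nil)
noncomputable def n2412 : Strat := .move 801 n834 (.cons 802 n2411 .nil)
noncomputable def n2413 : Strat := .move 842 n541 (.cons 843 n2412 .nil)
noncomputable def n2414 : Strat := .move 798 n751 (.cons 843 n1448 (.cons 842 n2410 (.cons 797 n2413 .nil)))
noncomputable def n2415 : Strat := .move 800 n552 (.cons 801 n2251 .nil)
noncomputable def n2416 : Strat := .move 838 n2415 (.cons 800 n2290 (.cons 797 n2355 .nil))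
noncomputable def n2417 : Strat := .win 922 6 757
noncomputable def n2418 : Strat := .move 881 n2417 (.cons 922 n2230 .nil)
noncomputable def n2419 : Strat := .win 800 2 756
noncomputable def n2420 : Strat := .move 756 n403 (.cons 715 n2419 .nil)
noncomputable def n2421 : Strat := .move 757 n2224 (.cons 675 n2418 (.cons 881 n2420 .nil))
noncomputable def n2422 : Strat := .move 880 n815 (.cons 879 n2421 .nil)
noncomputable def n2423 : Strat := .move 801 n834 (.cons 802 n2422 .nil)
noncomputable def n2424 : Strat := .move 798 n540 (.cons 797 n2423 .nil)
noncomputable def n2425 : Strat := .move 759 n1778 (.cons 924 n1756 .nil)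
noncomputable def n2426 : Strat := .move 883 n537 (.cons 884 n2425 .nil)
noncomputable def n2427 : Strat := .win 881 4 839
noncomputable def n2428 : Strat := .move 880 n2427 (.cons 881 n815 .nil)
noncomputable def n2429 : Strat := .move 843 n904 (.cons 844 n2428 .nil)
noncomputable def n2430 : Strat := .move 800 n2426 (.cons 883 n2429 .nil)
noncomputable def n2431 : Strat := .move 801 n834 (.cons 802 n2430 .nil)
noncomputable def n2432 : Strat := .move 842 n542 (.cons 843 n2424 (.cons 798 n2431 .nil))
noncomputable def n2433 : Strat := .move 800 n2238 (.cons 798 n2220 (.cons 797 n2242 (.cons 842 n2251 .nil)))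
noncomputable def n2434 : Strat := .move 842 n1879 (.cons 880 n2239 .nil)
noncomputable def n2435 : Strat := .move 879 n549 (.cons 878 n2434 .nil)
noncomputable def n2436 : Strat := .move 800 n2242 (.cons 882 n2435 (.cons 842 n2349 .nil))
noncomputable def n2437 : Strat := .move 842 n1261 (.cons 797 n1260 (.cons 798 n1894 .nil))
noncomputable def n2438 : Strat := .move 843 n904 (.cons 844 n902 .nil)
noncomputable def n2439 : Strat := .move 842 n1879 (.cons 880 n2438 .nil)
noncomputable def n2440 : Strat := .move 879 n549 (.cons 878 n2439 .nil)
noncomputable def n2441 : Strat := .move 800 n2238 (.cons 842 n2372 (.cons 796 n2437 (.cons 797 n2435 (.cons 798 n2440 (.cons 880 n2400 .nil)))))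
noncomputable def n2442 : Strat := .move 797 n910 (.cons 796 n2217 .nil)
noncomputable def n2443 : Strat := .move 880 n1945 (.cons 842 n2442 .nil)
noncomputable def n2444 : Strat := .move 879 n549 (.cons 878 n2443 .nil)
noncomputable def n2445 : Strat := .move 800 n2238 (.cons 797 n2435 (.cons 798 n2444 (.cons 842 n2372 (.cons 880 n2400 .nil))))
noncomputable def n2446 : Strat := .move 800 n2251 (.cons 882 n2372 (.cons 797 n2349 .nil))
noncomputable def n2447 : Strat := .move 800 n2400 (.cons 798 n2349 (.cons 759 n2402 .nil))
noncomputable def n2448 : Strat := .move 838 n2433 (.cons 797 n2436 (.cons 882 n2441 (.cons 883 n2445 (.cons 842 n2446 (.cons 880 n2447 (.cons 879 n2273 (.cons 798 n2350 .nil)))))))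
noncomputable def n2449 : Strat := .move 800 n552 (.cons 801 n2242 .nil)
noncomputable def n2450 : Strat := .move 800 n552 (.cons 801 n2435 .nil)
noncomputable def n2451 : Strat := .move 838 n2449 (.cons 800 n2271 (.cons 842 n2355 (.cons 882 n2450 .nil)))
noncomputable def n2452 : Strat := .move 757 n1600 (.cons 920 n1811 .nil)
noncomputable def n2453 : Strat := .move 879 n549 (.cons 878 n2452 .nil)
noncomputable def n2454 : Strat := .move 798 n159 (.cons 842 n2453 .nil)
noncomputable def n2455 : Strat := .move 797 n910 (.cons 796 n2454 .nil)
noncomputable def n2456 : Strat := .move 800 n552 (.cons 801 n2455 .nil)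
noncomputable def n2457 : Strat := .move 842 n834 (.cons 802 n1727 .nil)
noncomputable def n2458 : Strat := .move 801 n1416 (.cons 800 n2457 .nil)
noncomputable def n2459 : Strat := .move 800 n552 (.cons 801 n2372 .nil)
noncomputable def n2460 : Strat := .move 838 n2269 (.cons 880 n2456 (.cons 797 n2458 (.cons 842 n2459 .nil)))
noncomputable def n2461 : Strat := .move 838 n2269 (.cons 797 n2271 (.cons 879 n2273 (.cons 842 n2290 .nil)))
noncomputable def n2462 : Strat := .move 800 n905 (.cons 838 n2429 .nil)
noncomputable def n2463 : Strat := .move 801 n834 (.cons 802 n2462 .nil)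
noncomputable def n2464 : Strat := .move 884 n901 (.cons 883 n900 .nil)
noncomputable def n2465 : Strat := .move 843 n2427 (.cons 881 n2464 .nil)
noncomputable def n2466 : Strat := .move 880 n815 (.cons 879 n2465 .nil)
noncomputable def n2467 : Strat := .move 842 n1976 (.cons 883 n2463 (.cons 838 n2431 (.cons 801 n2466 .nil)))
noncomputable def n2468 : Strat := .move 800 n552 (.cons 801 n2400 .nil)
noncomputable def n2469 : Strat := .move 838 n2468 (.cons 801 n2447 (.cons 798 n2355 (.cons 800 n2273 .nil)))
noncomputable def n2470 : Strat := .move 841 n2414 (.cons 842 n2416 (.cons 838 n2432 (.cons 801 n2448 (.cons 797 n2451 (.cons 881 n2460 (.cons 800 n2461 (.cons 798 n2467 (.cons 880 n2469 .nil))))))))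
noncomputable def n2471 : Strat := .move 798 n166 (.cons 838 n2232 .nil)
noncomputable def n2472 : Strat := .move 801 n165 (.cons 802 n2471 .nil)
noncomputable def n2473 : Strat := .move 798 n166 (.cons 838 n2181 .nil)
noncomputable def n2474 : Strat := .move 801 n165 (.cons 802 n2473 .nil)
noncomputable def n2475 : Strat := .move 841 n2242 (.cons 882 n2435 (.cons 842 n2349 .nil))
noncomputable def n2476 : Strat := .move 838 n212 (.cons 837 n2475 .nil)
noncomputable def n2477 : Strat := .move 798 n2232 (.cons 881 n2181 .nil)
noncomputable def n2478 : Strat := .move 801 n165 (.cons 802 n2477 .nil)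
noncomputable def n2479 : Strat := .move 800 n2472 (.cons 881 n2474 (.cons 798 n2375 (.cons 801 n2476 (.cons 838 n2478 .nil))))
noncomputable def n2480 : Strat := .move 841 n552 (.cons 801 n2251 .nil)
noncomputable def n2481 : Strat := .move 838 n212 (.cons 837 n2480 .nil)
noncomputable def n2482 : Strat := .move 841 n2251 (.cons 882 n2372 (.cons 797 n2349 .nil))
noncomputable def n2483 : Strat := .move 838 n212 (.cons 837 n2482 .nil)
noncomputable def n2484 : Strat := .move 838 n2214 (.cons 798 n2358 .nil)
noncomputable def n2485 : Strat := .move 801 n165 (.cons 802 n2484 .nil)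
noncomputable def n2486 : Strat := .move 797 n160 (.cons 796 n1585 .nil)
noncomputable def n2487 : Strat := .move 841 n2225 (.cons 716 n2378 (.cons 757 n2486 .nil))
noncomputable def n2488 : Strat := .win 841 1 717
noncomputable def n2489 : Strat := .move 718 n2488 (.cons 841 n564 .nil)
noncomputable def n2490 : Strat := .move 881 n255 (.cons 922 n2489 .nil)
noncomputable def n2491 : Strat := .move 759 n1221 (.cons 797 n2490 .nil)
noncomputable def n2492 : Strat := .move 760 n574 (.cons 761 n2491 .nil)
noncomputable def n2493 : Strat := .move 798 n2487 (.cons 756 n2492 (.cons 841 n2232 (.cons 881 n2388 .nil)))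
noncomputable def n2494 : Strat := .move 801 n165 (.cons 802 n2493 .nil)
noncomputable def n2495 : Strat := .move 800 n2481 (.cons 801 n2483 (.cons 837 n2485 (.cons 798 n2375 (.cons 841 n2216 (.cons 838 n2494 .nil)))))
noncomputable def n2496 : Strat := .move 838 n212 (.cons 837 n2358 .nil)
noncomputable def n2497 : Strat := .move 801 n165 (.cons 802 n2496 .nil)
noncomputable def n2498 : Strat := .move 801 n2214 (.cons 798 n2358 .nil)
noncomputable def n2499 : Strat := .move 838 n212 (.cons 837 n2498 .nil)
noncomputable def n2500 : Strat := .move 841 n2238 (.cons 842 n2372 (.cons 796 n2437 (.cons 797 n2435 (.cons 798 n2440 (.cons 880 n2400 .nil)))))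
noncomputable def n2501 : Strat := .move 838 n212 (.cons 837 n2500 .nil)
noncomputable def n2502 : Strat := .move 759 n1756 (.cons 718 n1778 .nil)
noncomputable def n2503 : Strat := .move 883 n537 (.cons 884 n2502 .nil)
noncomputable def n2504 : Strat := .move 841 n762 (.cons 797 n2503 .nil)
noncomputable def n2505 : Strat := .move 842 n344 (.cons 843 n2504 .nil)
noncomputable def n2506 : Strat := .move 798 n2377 (.cons 757 n2505 (.cons 843 n2232 .nil))
noncomputable def n2507 : Strat := .move 801 n165 (.cons 802 n2506 .nil)
noncomputable def n2508 : Strat := .move 800 n2364 (.cons 798 n2497 (.cons 802 n2499 (.cons 837 n2485 (.cons 801 n2501 (.cons 838 n2507 .nil)))))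
noncomputable def n2509 : Strat := .move 798 n2377 (.cons 842 n2232 (.cons 757 n2395 .nil))
noncomputable def n2510 : Strat := .move 801 n165 (.cons 802 n2509 .nil)
noncomputable def n2511 : Strat := .move 760 n2247 (.cons 798 n262 .nil)
noncomputable def n2512 : Strat := .move 759 n2244 (.cons 677 n2246 (.cons 881 n2511 .nil))
noncomputable def n2513 : Strat := .move 797 n910 (.cons 796 n2512 .nil)
noncomputable def n2514 : Strat := .move 882 n800 (.cons 883 n2513 .nil)
noncomputable def n2515 : Strat := .move 841 n2238 (.cons 842 n2514 (.cons 798 n2349 .nil))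
noncomputable def n2516 : Strat := .move 838 n212 (.cons 837 n2515 .nil)
noncomputable def n2517 : Strat := .move 800 n2364 (.cons 838 n2510 (.cons 798 n2375 (.cons 802 n2499 (.cons 801 n2516 .nil))))
noncomputable def n2518 : Strat := .move 798 n2232 (.cons 757 n2395 .nil)
noncomputable def n2519 : Strat := .move 801 n165 (.cons 802 n2518 .nil)
noncomputable def n2520 : Strat := .move 841 n2238 (.cons 797 n2435 (.cons 798 n2444 (.cons 842 n2372 (.cons 880 n2400 .nil))))
noncomputable def n2521 : Strat := .move 838 n212 (.cons 837 n2520 .nil)
noncomputable def n2522 : Strat := .move 800 n2216 (.cons 798 n2375 (.cons 802 n2499 (.cons 838 n2519 (.cons 801 n2521 .nil))))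
noncomputable def n2523 : Strat := .win 883 7 718
noncomputable def n2524 : Strat := .move 842 n2523 (.cons 883 n344 .nil)
noncomputable def n2525 : Strat := .move 718 n564 (.cons 677 n2524 .nil)
noncomputable def n2526 : Strat := .move 759 n1221 (.cons 797 n2525 .nil)
noncomputable def n2527 : Strat := .move 760 n574 (.cons 761 n2526 .nil)
noncomputable def n2528 : Strat := .move 798 n1751 (.cons 842 n2492 (.cons 841 n2527 (.cons 760 n2505 (.cons 797 n2181 .nil))))
noncomputable def n2529 : Strat := .move 801 n165 (.cons 802 n2528 .nil)
noncomputable def n2530 : Strat := .move 842 n537 (.cons 884 n2135 .nil)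
noncomputable def n2531 : Strat := .move 883 n1726 (.cons 882 n2530 .nil)
noncomputable def n2532 : Strat := .move 842 n1264 (.cons 798 n2135 .nil)
noncomputable def n2533 : Strat := .move 797 n910 (.cons 796 n2532 .nil)
noncomputable def n2534 : Strat := .move 841 n2366 (.cons 797 n2242 (.cons 842 n2251 (.cons 798 n2531 (.cons 882 n2533 .nil))))
noncomputable def n2535 : Strat := .move 838 n212 (.cons 837 n2534 .nil)
noncomputable def n2536 : Strat := .move 841 n552 (.cons 801 n2531 .nil)
noncomputable def n2537 : Strat := .move 838 n212 (.cons 837 n2536 .nil)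
noncomputable def n2538 : Strat := .move 800 n2216 (.cons 838 n2529 (.cons 801 n2535 (.cons 798 n2537 .nil)))
noncomputable def n2539 : Strat := .win 797 2 755
noncomputable def n2540 : Strat := .move 800 n2539 (.cons 797 n758 .nil)
noncomputable def n2541 : Strat := .move 755 n404 (.cons 754 n2540 .nil)
noncomputable def n2542 : Strat := .move 756 n2083 (.cons 880 n2541 .nil)
noncomputable def n2543 : Strat := .move 715 n514 (.cons 674 n2542 .nil)
noncomputable def n2544 : Strat := .move 716 n581 (.cons 675 n2543 .nil)
noncomputable def n2545 : Strat := .move 878 n1005 (.cons 841 n1100 .nil)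
noncomputable def n2546 : Strat := .move 879 n1800 (.cons 920 n2545 .nil)
noncomputable def n2547 : Strat := .win 879 1 756
noncomputable def n2548 : Strat := .move 920 n1964 (.cons 961 n2547 .nil)
noncomputable def n2549 : Strat := .move 921 n1797 (.cons 962 n2548 .nil)
noncomputable def n2550 : Strat := .move 756 n2062 (.cons 797 n403 .nil)
noncomputable def n2551 : Strat := .move 921 n1797 (.cons 962 n2550 .nil)
noncomputable def n2552 : Strat := .move 880 n2546 (.cons 878 n2549 (.cons 879 n2551 .nil))
noncomputable def n2553 : Strat := .move 881 n228 (.cons 922 n2552 .nil)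
noncomputable def n2554 : Strat := .move 757 n2231 (.cons 881 n2544 (.cons 716 n2553 .nil))
noncomputable def n2555 : Strat := .move 837 n1560 (.cons 878 n1522 .nil)
noncomputable def n2556 : Strat := .move 715 n1486 (.cons 674 n2555 .nil)
noncomputable def n2557 : Strat := .move 756 n1559 (.cons 800 n2556 .nil)
noncomputable def n2558 : Strat := .move 755 n1521 (.cons 754 n2557 .nil)
noncomputable def n2559 : Strat := .move 796 n186 (.cons 795 n2558 .nil)
noncomputable def n2560 : Strat := .move 841 n159 (.cons 842 n2398 .nil)
noncomputable def n2561 : Strat := .move 801 n165 (.cons 802 n1585 .nil)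
noncomputable def n2562 : Strat := .move 801 n165 (.cons 802 n344 .nil)
noncomputable def n2563 : Strat := .move 842 n345 (.cons 841 n2562 .nil)
noncomputable def n2564 : Strat := .move 800 n2560 (.cons 841 n2561 (.cons 760 n2563 .nil))
noncomputable def n2565 : Strat := .move 797 n1935 (.cons 841 n2559 (.cons 796 n2564 .nil))
noncomputable def n2566 : Strat := .move 881 n2417 (.cons 922 n2546 .nil)
noncomputable def n2567 : Strat := .move 920 n2547 (.cons 879 n1964 .nil)
noncomputable def n2568 : Strat := .move 921 n1797 (.cons 962 n2567 .nil)
noncomputable def n2569 : Strat := .win 881 6 757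
noncomputable def n2570 : Strat := .move 921 n1797 (.cons 962 n678 .nil)
noncomputable def n2571 : Strat := .move 922 n2569 (.cons 881 n2570 .nil)
noncomputable def n2572 : Strat := .move 880 n2566 (.cons 881 n2568 (.cons 920 n2571 .nil))
noncomputable def n2573 : Strat := .move 757 n2231 (.cons 881 n2204 (.cons 716 n2572 .nil))
noncomputable def n2574 : Strat := .move 921 n2062 (.cons 797 n1797 .nil)
noncomputable def n2575 : Strat := .move 756 n403 (.cons 715 n2574 .nil)
noncomputable def n2576 : Strat := .move 800 n169 (.cons 755 n758 .nil)
noncomputable def n2577 : Strat := .move 797 n1809 (.cons 921 n2576 .nil)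
noncomputable def n2578 : Strat := .move 756 n403 (.cons 715 n2577 .nil)
noncomputable def n2579 : Strat := .move 755 n2539 (.cons 797 n404 .nil)
noncomputable def n2580 : Strat := .move 800 n758 (.cons 801 n2579 .nil)
noncomputable def n2581 : Strat := .move 756 n403 (.cons 715 n2580 .nil)
noncomputable def n2582 : Strat := .move 880 n2549 (.cons 961 n2575 (.cons 962 n2578 (.cons 921 n2581 .nil)))
noncomputable def n2583 : Strat := .move 881 n228 (.cons 922 n2582 .nil)
noncomputable def n2584 : Strat := .move 881 n2230 (.cons 716 n2582 .nil)
noncomputable def n2585 : Strat := .move 757 n2231 (.cons 716 n2583 (.cons 922 n2584 (.cons 881 n2544 .nil)))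
noncomputable def n2586 : Strat := .move 801 n165 (.cons 802 n1582 .nil)
noncomputable def n2587 : Strat := .move 880 n403 (.cons 715 n1809 .nil)
noncomputable def n2588 : Strat := .move 757 n758 (.cons 801 n2587 .nil)
noncomputable def n2589 : Strat := .move 756 n169 (.cons 755 n2588 .nil)
noncomputable def n2590 : Strat := .win 757 7 715
noncomputable def n2591 : Strat := .move 715 n2590 (.cons 757 n1486 .nil)
noncomputable def n2592 : Strat := .move 880 n1809 (.cons 921 n2591 .nil)
noncomputable def n2593 : Strat := .move 756 n169 (.cons 755 n2592 .nil)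
noncomputable def n2594 : Strat := .move 801 n165 (.cons 802 n1838 .nil)
noncomputable def n2595 : Strat := .move 800 n2586 (.cons 802 n2589 (.cons 801 n2593 (.cons 757 n2594 .nil)))
noncomputable def n2596 : Strat := .move 841 n464 (.cons 842 n2595 .nil)
noncomputable def n2597 : Strat := .move 841 n160 (.cons 796 n2595 .nil)
noncomputable def n2598 : Strat := .move 797 n1935 (.cons 796 n2596 (.cons 842 n2597 (.cons 841 n2559 .nil)))
noncomputable def n2599 : Strat := .move 801 n165 (.cons 802 n1493 .nil)
noncomputable def n2600 : Strat := .move 800 n2398 (.cons 677 n2599 .nil)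
noncomputable def n2601 : Strat := .move 797 n160 (.cons 796 n2600 .nil)
noncomputable def n2602 : Strat := .move 842 n541 (.cons 843 n1859 .nil)
noncomputable def n2603 : Strat := .move 841 n751 (.cons 843 n1448 (.cons 842 n2601 (.cons 797 n2602 .nil)))
noncomputable def n2604 : Strat := .move 922 n131 (.cons 757 n184 .nil)
noncomputable def n2605 : Strat := .move 880 n2546 (.cons 877 n2549 (.cons 879 n2551 .nil))
noncomputable def n2606 : Strat := .move 757 n2230 (.cons 716 n2605 .nil)
noncomputable def n2607 : Strat := .win 880 1 797
noncomputable def n2608 : Strat := .move 961 n725 (.cons 960 n2607 .nil)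
noncomputable def n2609 : Strat := .move 920 n2608 (.cons 880 n698 .nil)
noncomputable def n2610 : Strat := .move 923 n18 (.cons 964 n2609 .nil)
noncomputable def n2611 : Strat := .move 921 n36 (.cons 962 n2610 .nil)
noncomputable def n2612 : Strat := .move 922 n184 (.cons 963 n2611 .nil)
noncomputable def n2613 : Strat := .move 881 n2604 (.cons 963 n2305 (.cons 922 n2606 (.cons 757 n2612 .nil)))
noncomputable def n2614 : Strat := .move 922 n131 (.cons 757 n938 .nil)
noncomputable def n2615 : Strat := .move 797 n1188 (.cons 760 n160 .nil)
noncomputable def n2616 : Strat := .move 759 n2245 (.cons 718 n2615 .nil)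
noncomputable def n2617 : Strat := .move 881 n2614 (.cons 922 n2616 .nil)
noncomputable def n2618 : Strat := .move 842 n541 (.cons 843 n1893 .nil)
noncomputable def n2619 : Strat := .move 841 n763 (.cons 842 n2617 (.cons 797 n2618 .nil))
noncomputable def n2620 : Strat := .move 801 n165 (.cons 802 n2505 .nil)
noncomputable def n2621 : Strat := .move 797 n1491 (.cons 759 n2117 .nil)
noncomputable def n2622 : Strat := .move 760 n574 (.cons 761 n2621 .nil)
noncomputable def n2623 : Strat := .move 801 n165 (.cons 802 n2622 .nil)
noncomputable def n2624 : Strat := .move 801 n165 (.cons 802 n2527 .nil)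
noncomputable def n2625 : Strat := .move 800 n1752 (.cons 801 n2619 (.cons 797 n2182 (.cons 760 n2620 (.cons 843 n2623 (.cons 841 n2624 .nil)))))
noncomputable def n2626 : Strat := .move 798 n2554 (.cons 757 n2565 (.cons 797 n2573 (.cons 841 n2585 (.cons 881 n2598 (.cons 715 n2603 (.cons 755 n2613 (.cons 756 n2625 .nil)))))))
noncomputable def n2627 : Strat := .move 837 n1567 (.cons 800 n830 .nil)
noncomputable def n2628 : Strat := .move 800 n162 (.cons 801 n1488 .nil)
noncomputable def n2629 : Strat := .move 796 n186 (.cons 795 n1568 .nil)
noncomputable def n2630 : Strat := .move 837 n830 (.cons 836 n2629 .nil)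
noncomputable def n2631 : Strat := .move 838 n2627 (.cons 837 n2628 (.cons 800 n2630 .nil))
noncomputable def n2632 : Strat := .win 838 4 836
noncomputable def n2633 : Strat := .move 877 n1543 (.cons 918 n2632 .nil)
noncomputable def n2634 : Strat := .move 878 n2633 (.cons 838 n1535 .nil)
noncomputable def n2635 : Strat := .move 755 n1521 (.cons 754 n2634 .nil)
noncomputable def n2636 : Strat := .move 837 n1522 (.cons 836 n2635 .nil)
noncomputable def n2637 : Strat := .move 796 n186 (.cons 795 n2636 .nil)
noncomputable def n2638 : Strat := .move 796 n186 (.cons 795 n1570 .nil)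
noncomputable def n2639 : Strat := .move 838 n163 (.cons 837 n162 .nil)
noncomputable def n2640 : Strat := .move 796 n186 (.cons 795 n1522 .nil)
noncomputable def n2641 : Strat := .move 837 n1524 (.cons 838 n2640 .nil)
noncomputable def n2642 : Strat := .move 800 n2639 (.cons 838 n2561 (.cons 801 n2641 .nil))
noncomputable def n2643 : Strat := .move 838 n163 (.cons 837 n1488 .nil)
noncomputable def n2644 : Strat := .move 801 n165 (.cons 802 n1492 .nil)
noncomputable def n2645 : Strat := .move 756 n169 (.cons 755 n2644 .nil)
noncomputable def n2646 : Strat := .move 800 n2639 (.cons 801 n2643 (.cons 837 n167 (.cons 838 n2645 .nil)))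
noncomputable def n2647 : Strat := .move 800 n1523 (.cons 756 n960 .nil)
noncomputable def n2648 : Strat := .move 755 n1521 (.cons 754 n2647 .nil)
noncomputable def n2649 : Strat := .move 796 n186 (.cons 795 n2648 .nil)
noncomputable def n2650 : Strat := .move 797 n2631 (.cons 838 n2559 (.cons 800 n2637 (.cons 756 n2638 (.cons 755 n2642 (.cons 796 n2646 (.cons 837 n2649 .nil))))))
noncomputable def n2651 : Strat := .move 838 n212 (.cons 837 n162 .nil)
noncomputable def n2652 : Strat := .move 755 n1523 (.cons 756 n1521 .nil)
noncomputable def n2653 : Strat := .move 796 n186 (.cons 795 n2652 .nil)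
noncomputable def n2654 : Strat := .move 797 n2643 (.cons 838 n2653 (.cons 755 n2641 .nil))
noncomputable def n2655 : Strat := .move 800 n2651 (.cons 838 n2624 (.cons 801 n2654 .nil))
noncomputable def n2656 : Strat := .move 801 n165 (.cons 802 n2232 .nil)
noncomputable def n2657 : Strat := .move 716 n2223 (.cons 881 n1630 .nil)
noncomputable def n2658 : Strat := .move 881 n228 (.cons 922 n2230 .nil)
noncomputable def n2659 : Strat := .move 716 n2095 (.cons 879 n1630 .nil)
noncomputable def n2660 : Strat := .move 796 n1521 (.cons 754 n186 .nil)
noncomputable def n2661 : Strat := .move 755 n1523 (.cons 756 n2660 .nil)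
noncomputable def n2662 : Strat := .move 757 n2657 (.cons 675 n2658 (.cons 881 n2659 (.cons 716 n2661 .nil)))
noncomputable def n2663 : Strat := .move 838 n163 (.cons 837 n2662 .nil)
noncomputable def n2664 : Strat := .move 759 n1188 (.cons 760 n1721 .nil)
noncomputable def n2665 : Strat := .move 796 n186 (.cons 795 n2664 .nil)
noncomputable def n2666 : Strat := .move 757 n2223 (.cons 881 n1630 .nil)
noncomputable def n2667 : Strat := .move 757 n2095 (.cons 879 n2223 .nil)
noncomputable def n2668 : Strat := .move 757 n2095 (.cons 879 n1630 .nil)
noncomputable def n2669 : Strat := .move 715 n1607 (.cons 675 n1486 .nil)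
noncomputable def n2670 : Strat := .move 716 n2666 (.cons 675 n2667 (.cons 881 n2668 (.cons 757 n2669 .nil)))
noncomputable def n2671 : Strat := .move 756 n169 (.cons 755 n2670 .nil)
noncomputable def n2672 : Strat := .move 838 n163 (.cons 837 n2671 .nil)
noncomputable def n2673 : Strat := .move 797 n2663 (.cons 838 n2665 (.cons 796 n2672 (.cons 756 n2641 .nil)))
noncomputable def n2674 : Strat := .move 800 n167 (.cons 838 n2656 (.cons 802 n2651 (.cons 801 n2673 .nil)))
noncomputable def n2675 : Strat := .move 716 n581 (.cons 675 n2223 .nil)
noncomputable def n2676 : Strat := .move 838 n2095 (.cons 879 n212 .nil)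
noncomputable def n2677 : Strat := .move 717 n1940 (.cons 676 n2676 .nil)
noncomputable def n2678 : Strat := .move 838 n212 (.cons 837 n2095 .nil)
noncomputable def n2679 : Strat := .move 756 n2083 (.cons 880 n2579 .nil)
noncomputable def n2680 : Strat := .move 715 n514 (.cons 674 n2679 .nil)
noncomputable def n2681 : Strat := .move 800 n2677 (.cons 676 n2678 (.cons 838 n2680 .nil))
noncomputable def n2682 : Strat := .move 716 n2223 (.cons 881 n2681 .nil)
noncomputable def n2683 : Strat := .move 838 n2295 (.cons 836 n1405 .nil)
noncomputable def n2684 : Strat := .move 838 n829 (.cons 882 n2295 .nil)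
noncomputable def n2685 : Strat := .move 838 n829 (.cons 882 n1405 .nil)
noncomputable def n2686 : Strat := .move 878 n1006 (.cons 836 n1100 .nil)
noncomputable def n2687 : Strat := .move 837 n2683 (.cons 800 n2684 (.cons 836 n2685 (.cons 838 n2686 .nil)))
noncomputable def n2688 : Strat := .move 879 n1800 (.cons 920 n2687 .nil)
noncomputable def n2689 : Strat := .move 880 n2549 (.cons 921 n2688 (.cons 879 n2551 .nil))
noncomputable def n2690 : Strat := .move 881 n228 (.cons 922 n2689 .nil)
noncomputable def n2691 : Strat := .move 716 n581 (.cons 675 n2681 .nil)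
noncomputable def n2692 : Strat := .move 757 n2675 (.cons 675 n2682 (.cons 716 n2690 (.cons 881 n2691 .nil)))
noncomputable def n2693 : Strat := .win 838 5 796
noncomputable def n2694 : Strat := .move 796 n1521 (.cons 754 n1522 .nil)
noncomputable def n2695 : Strat := .move 755 n1523 (.cons 756 n2694 .nil)
noncomputable def n2696 : Strat := .move 759 n1188 (.cons 760 n2695 .nil)
noncomputable def n2697 : Strat := .move 757 n2224 (.cons 675 n2658 (.cons 881 n2587 .nil))
noncomputable def n2698 : Strat := .move 756 n169 (.cons 755 n2697 .nil)
noncomputable def n2699 : Strat := .move 797 n2640 (.cons 795 n2696 (.cons 796 n2698 .nil))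
noncomputable def n2700 : Strat := .move 837 n2693 (.cons 838 n2699 .nil)
noncomputable def n2701 : Strat := .move 800 n2651 (.cons 837 n167 (.cons 838 n2656 (.cons 801 n2700 .nil)))
noncomputable def n2702 : Strat := .move 880 n2590 (.cons 757 n1809 .nil)
noncomputable def n2703 : Strat := .move 715 n1486 (.cons 674 n2702 .nil)
noncomputable def n2704 : Strat := .move 756 n169 (.cons 755 n2703 .nil)
noncomputable def n2705 : Strat := .move 797 n2640 (.cons 795 n2704 .nil)
noncomputable def n2706 : Strat := .move 837 n2693 (.cons 838 n2705 .nil)
noncomputable def n2707 : Strat := .move 800 n2651 (.cons 838 n2656 (.cons 801 n2706 .nil))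
noncomputable def n2708 : Strat := .move 838 n2095 (.cons 879 n1882 .nil)
noncomputable def n2709 : Strat := .move 716 n581 (.cons 675 n2708 .nil)
noncomputable def n2710 : Strat := .move 921 n1964 (.cons 961 n1797 .nil)
noncomputable def n2711 : Strat := .move 920 n2547 (.cons 879 n2710 .nil)
noncomputable def n2712 : Strat := .move 838 n832 (.cons 837 n2711 .nil)
noncomputable def n2713 : Strat := .move 880 n2575 (.cons 797 n2712 (.cons 921 n2688 .nil))
noncomputable def n2714 : Strat := .move 881 n228 (.cons 922 n2713 .nil)
noncomputable def n2715 : Strat := .move 757 n2675 (.cons 881 n2709 (.cons 675 n2231 (.cons 716 n2714 .nil)))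
noncomputable def n2716 : Strat := .move 800 n129 (.cons 759 n2651 .nil)
noncomputable def n2717 : Strat := .move 922 n184 (.cons 963 n2716 .nil)
noncomputable def n2718 : Strat := .move 838 n1405 (.cons 800 n830 .nil)
noncomputable def n2719 : Strat := .move 838 n1405 (.cons 800 n829 .nil)
noncomputable def n2720 : Strat := .move 878 n1100 (.cons 877 n1006 .nil)
noncomputable def n2721 : Strat := .move 879 n1800 (.cons 920 n2720 .nil)
noncomputable def n2722 : Strat := .move 796 n1522 (.cons 836 n186 .nil)
noncomputable def n2723 : Strat := .move 921 n185 (.cons 756 n1797 .nil)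
noncomputable def n2724 : Strat := .move 797 n2722 (.cons 795 n2723 .nil)
noncomputable def n2725 : Strat := .move 880 n2549 (.cons 921 n2721 (.cons 879 n2724 .nil))
noncomputable def n2726 : Strat := .move 837 n2718 (.cons 836 n2719 (.cons 838 n2725 .nil))
noncomputable def n2727 : Strat := .move 757 n2230 (.cons 716 n2726 .nil)
noncomputable def n2728 : Strat := .move 881 n2604 (.cons 963 n2305 (.cons 757 n2717 (.cons 922 n2727 .nil)))
noncomputable def n2729 : Strat := .move 757 n2569 (.cons 881 n2548 .nil)
noncomputable def n2730 : Strat := .move 922 n678 (.cons 963 n2729 .nil)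
noncomputable def n2731 : Strat := .move 921 n1797 (.cons 962 n2730 .nil)
noncomputable def n2732 : Strat := .move 757 n2547 (.cons 879 n2550 .nil)
noncomputable def n2733 : Strat := .move 920 n1964 (.cons 961 n2732 .nil)
noncomputable def n2734 : Strat := .move 921 n1797 (.cons 962 n2733 .nil)
noncomputable def n2735 : Strat := .move 757 n2569 (.cons 881 n2550 .nil)
noncomputable def n2736 : Strat := .move 922 n678 (.cons 963 n2735 .nil)
noncomputable def n2737 : Strat := .move 921 n1797 (.cons 962 n2736 .nil)
noncomputable def n2738 : Strat := .win 965 0 920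
noncomputable def n2739 : Strat := .win 881 6 799
noncomputable def n2740 : Strat := .move 964 n2738 (.cons 965 n2739 .nil)
noncomputable def n2741 : Strat := .move 879 n700 (.cons 878 n179 .nil)
noncomputable def n2742 : Strat := .move 923 n2740 (.cons 881 n2741 .nil)
noncomputable def n2743 : Strat := .move 920 n1964 (.cons 961 n2742 .nil)
noncomputable def n2744 : Strat := .move 922 n678 (.cons 963 n2743 .nil)
noncomputable def n2745 : Strat := .move 921 n1797 (.cons 962 n2744 .nil)
noncomputable def n2746 : Strat := .move 881 n2230 (.cons 716 n2417 .nil)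
noncomputable def n2747 : Strat := .move 716 n581 (.cons 675 n2047 .nil)
noncomputable def n2748 : Strat := .move 921 n2062 (.cons 797 n1964 .nil)
noncomputable def n2749 : Strat := .move 920 n2547 (.cons 879 n2748 .nil)
noncomputable def n2750 : Strat := .move 756 n403 (.cons 715 n2749 .nil)
noncomputable def n2751 : Strat := .move 881 n2417 (.cons 922 n2750 .nil)
noncomputable def n2752 : Strat := .move 757 n2746 (.cons 881 n2747 (.cons 716 n2751 .nil))
noncomputable def n2753 : Strat := .move 757 n2230 (.cons 716 n2417 .nil)
noncomputable def n2754 : Strat := .win 882 0 879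
noncomputable def n2755 : Strat := .move 924 n2754 (.cons 882 n702 .nil)
noncomputable def n2756 : Strat := .move 879 n178 (.cons 878 n2755 .nil)
noncomputable def n2757 : Strat := .move 923 n18 (.cons 964 n2756 .nil)
noncomputable def n2758 : Strat := .move 922 n184 (.cons 963 n2757 .nil)
noncomputable def n2759 : Strat := .win 923 0 879
noncomputable def n2760 : Strat := .move 879 n2759 (.cons 923 n1800 .nil)
noncomputable def n2761 : Strat := .move 883 n301 (.cons 925 n305 .nil)
noncomputable def n2762 : Strat := .move 924 n2760 (.cons 920 n2761 .nil)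
noncomputable def n2763 : Strat := .move 757 n2230 (.cons 716 n2762 .nil)
noncomputable def n2764 : Strat := .win 838 0 837
noncomputable def n2765 : Strat := .move 757 n1800 (.cons 920 n2230 .nil)
noncomputable def n2766 : Strat := .move 920 n245 (.cons 919 n1965 .nil)
noncomputable def n2767 : Strat := .move 879 n2765 (.cons 716 n2766 (.cons 920 n2686 .nil))
noncomputable def n2768 : Strat := .move 837 n2764 (.cons 838 n2767 .nil)
noncomputable def n2769 : Strat := .move 882 n859 (.cons 837 n863 (.cons 838 n2763 (.cons 883 n2768 .nil)))
noncomputable def n2770 : Strat := .move 881 n2753 (.cons 757 n2758 (.cons 922 n2769 .nil))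
noncomputable def n2771 : Strat := .move 880 n2731 (.cons 881 n2734 (.cons 961 n2737 (.cons 757 n2745 (.cons 962 n2752 (.cons 921 n2770 .nil)))))
noncomputable def n2772 : Strat := .move 800 n212 (.cons 837 n162 .nil)
noncomputable def n2773 : Strat := .move 838 n2095 (.cons 879 n2772 .nil)
noncomputable def n2774 : Strat := .move 716 n581 (.cons 675 n2773 .nil)
noncomputable def n2775 : Strat := .move 881 n2417 (.cons 922 n2712 .nil)
noncomputable def n2776 : Strat := .move 756 n403 (.cons 715 n2548 .nil)
noncomputable def n2777 : Strat := .move 921 n1797 (.cons 962 n2776 .nil)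
noncomputable def n2778 : Strat := .move 881 n2417 (.cons 922 n2688 .nil)
noncomputable def n2779 : Strat := .move 880 n2775 (.cons 881 n2777 (.cons 921 n2778 (.cons 879 n2571 .nil)))
noncomputable def n2780 : Strat := .move 757 n2675 (.cons 881 n2774 (.cons 675 n2231 (.cons 716 n2779 .nil)))
noncomputable def n2781 : Strat := .move 922 n678 (.cons 963 n2548 .nil)
noncomputable def n2782 : Strat := .move 921 n1797 (.cons 962 n2781 .nil)
noncomputable def n2783 : Strat := .move 880 n2775 (.cons 881 n2782 (.cons 922 n2568 (.cons 920 n2571 (.cons 962 n2778 .nil))))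
noncomputable def n2784 : Strat := .move 757 n2675 (.cons 881 n2709 (.cons 675 n2231 (.cons 716 n2783 .nil)))
noncomputable def n2785 : Strat := .move 798 n2650 (.cons 757 n2655 (.cons 838 n2585 (.cons 880 n2674 (.cons 801 n2692 (.cons 674 n2701 (.cons 754 n2707 (.cons 755 n2715 (.cons 715 n2728 (.cons 800 n2771 (.cons 797 n2780 (.cons 756 n2784 .nil)))))))))))
noncomputable def n2786 : Strat := .move 839 n2254 (.cons 800 n2338 (.cons 798 n2362 (.cons 881 n2391 (.cons 880 n2407 (.cons 837 n2470 (.cons 797 n2479 (.cons 842 n2495 (.cons 882 n2508 (.cons 879 n2517 (.cons 883 n2522 (.cons 756 n2538 (.cons 838 n2626 (.cons 841 n2785 .nil)))))))))))))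
noncomputable def n2787 : Strat := .move 799 n120 (.cons 673 n211 (.cons 964 n324 (.cons 796 n373 (.cons 962 n472 (.cons 921 n623 (.cons 717 n694 (.cons 759 n853 (.cons 922 n883 (.cons 718 n1025 (.cons 801 n1057 (.cons 841 n1097 (.cons 757 n1135 (.cons 882 n1238 (.cons 923 n1308 (.cons 798 n1337 (.cons 880 n1360 (.cons 800 n1374 (.cons 839 n1390 (.cons 716 n1470 (.cons 881 n2213 (.cons 758 n2786 .nil)))))))))))))))))))))

end Vale.Agent.Snaky.R4_4
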