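import Vale.Agent.Snaky.Assemble

namespace Vale.Agent.Snaky.R5_0

open Vale.Agent.Snaky

noncomputable def n0 : Strat := .win 795 2 795
noncomputable def n1 : Strat := .win 797 2 796
noncomputable def n2 : Strat := .win 877 4 836
noncomputable def n3 : Strat := .win 879 4 837
noncomputable def n4 : Strat := .move 878 n2 (.cons 877 n3 .nil)
noncomputable def n5 : Strat := .move 841 n1 (.cons 797 n4 .nil)
noncomputable def n6 : Strat := .move 796 n0 (.cons 795 n5 .nil)
noncomputable def n7 : Strat := .win 882 0 837
noncomputable def n8 : Strat := .win 880 0 836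
noncomputable def n9 : Strat := .win 800 5 796
noncomputable def n10 : Strat := .win 798 5 795
noncomputable def n11 : Strat := .move 799 n9 (.cons 800 n10 .nil)
noncomputable def n12 : Strat := .move 836 n8 (.cons 880 n11 .nil)
noncomputable def n13 : Strat := .move 881 n7 (.cons 882 n12 .nil)
noncomputable def n14 : Strat := .move 837 n6 (.cons 796 n13 .nil)
noncomputable def n15 : Strat := .win 799 5 796
noncomputable def n16 : Strat := .win 801 5 797
noncomputable def n17 : Strat := .move 800 n15 (.cons 799 n16 .nil)
noncomputable def n18 : Strat := .move 841 n3 (.cons 879 n17 .nil)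
noncomputable def n19 : Strat := .move 878 n2 (.cons 877 n18 .nil)
noncomputable def n20 : Strat := .win 878 4 836
noncomputable def n21 : Strat := .win 876 4 835
noncomputable def n22 : Strat := .move 877 n20 (.cons 878 n21 .nil)
noncomputable def n23 : Strat := .move 836 n8 (.cons 880 n22 .nil)
noncomputable def n24 : Strat := .move 881 n7 (.cons 882 n23 .nil)
noncomputable def n25 : Strat := .move 837 n13 (.cons 881 n19 (.cons 799 n24 .nil))
noncomputable def n26 : Strat := .move 881 n7 (.cons 882 n8 .nil)
noncomputable def n27 : Strat := .move 836 n10 (.cons 798 n26 .nil)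
noncomputable def n28 : Strat := .move 799 n9 (.cons 800 n27 .nil)
noncomputable def n29 : Strat := .win 881 0 837
noncomputable def n30 : Strat := .win 883 0 838
noncomputable def n31 : Strat := .move 882 n29 (.cons 881 n30 .nil)
noncomputable def n32 : Strat := .move 841 n1 (.cons 797 n31 .nil)
noncomputable def n33 : Strat := .move 796 n0 (.cons 795 n32 .nil)
noncomputable def n34 : Strat := .win 796 2 795
noncomputable def n35 : Strat := .win 794 2 794
noncomputable def n36 : Strat := .move 795 n34 (.cons 796 n35 .nil)
noncomputable def n37 : Strat := .move 836 n10 (.cons 798 n36 .nil)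
noncomputable def n38 : Strat := .move 799 n9 (.cons 800 n37 .nil)
noncomputable def n39 : Strat := .move 837 n28 (.cons 799 n33 (.cons 881 n38 .nil))
noncomputable def n40 : Strat := .win 878 4 837
noncomputable def n41 : Strat := .win 880 4 838
noncomputable def n42 : Strat := .win 796 2 796
noncomputable def n43 : Strat := .win 798 2 797
noncomputable def n44 : Strat := .move 797 n42 (.cons 796 n43 .nil)
noncomputable def n45 : Strat := .move 842 n41 (.cons 880 n44 .nil)
noncomputable def n46 : Strat := .move 879 n40 (.cons 878 n45 .nil)
noncomputable def n47 : Strat := .win 882 0 838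
noncomputable def n48 : Strat := .win 884 0 839
noncomputable def n49 : Strat := .move 883 n47 (.cons 882 n48 .nil)
noncomputable def n50 : Strat := .move 842 n41 (.cons 880 n49 .nil)
noncomputable def n51 : Strat := .move 879 n40 (.cons 878 n50 .nil)
noncomputable def n52 : Strat := .move 796 n0 (.cons 795 n1 .nil)
noncomputable def n53 : Strat := .move 837 n29 (.cons 881 n52 .nil)
noncomputable def n54 : Strat := .move 882 n30 (.cons 883 n53 .nil)
noncomputable def n55 : Strat := .move 841 n46 (.cons 798 n51 (.cons 879 n54 .nil))
noncomputable def n56 : Strat := .move 879 n40 (.cons 878 n41 .nil)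
noncomputable def n57 : Strat := .move 842 n43 (.cons 798 n56 .nil)
noncomputable def n58 : Strat := .move 797 n42 (.cons 796 n57 .nil)
noncomputable def n59 : Strat := .win 800 5 797
noncomputable def n60 : Strat := .win 802 5 798
noncomputable def n61 : Strat := .move 801 n59 (.cons 800 n60 .nil)
noncomputable def n62 : Strat := .move 842 n43 (.cons 798 n61 .nil)
noncomputable def n63 : Strat := .move 797 n42 (.cons 796 n62 .nil)
noncomputable def n64 : Strat := .move 837 n15 (.cons 799 n4 .nil)
noncomputable def n65 : Strat := .move 800 n16 (.cons 801 n64 .nil)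
noncomputable def n66 : Strat := .move 841 n58 (.cons 880 n63 (.cons 797 n65 .nil))
noncomputable def n67 : Strat := .move 841 n3 (.cons 879 n52 .nil)
noncomputable def n68 : Strat := .move 878 n2 (.cons 877 n67 .nil)
noncomputable def n69 : Strat := .move 836 n8 (.cons 880 n36 .nil)
noncomputable def n70 : Strat := .move 881 n7 (.cons 882 n69 .nil)
noncomputable def n71 : Strat := .move 841 n3 (.cons 879 n31 .nil)
noncomputable def n72 : Strat := .move 878 n2 (.cons 877 n71 .nil)
noncomputable def n73 : Strat := .move 837 n68 (.cons 878 n70 (.cons 795 n72 .nil))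
noncomputable def n74 : Strat := .move 836 n10 (.cons 798 n22 .nil)
noncomputable def n75 : Strat := .move 799 n9 (.cons 800 n74 .nil)
noncomputable def n76 : Strat := .move 841 n1 (.cons 797 n17 .nil)
noncomputable def n77 : Strat := .move 796 n0 (.cons 795 n76 .nil)
noncomputable def n78 : Strat := .move 837 n6 (.cons 796 n75 (.cons 877 n77 .nil))
noncomputable def n79 : Strat := .win 920 6 755
noncomputable def n80 : Strat := .win 714 6 714
noncomputable def n81 : Strat := .move 879 n79 (.cons 920 n80 .nil)
noncomputable def n82 : Strat := .win 919 3 755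
noncomputable def n83 : Strat := .win 715 1 714
noncomputable def n84 : Strat := .move 756 n82 (.cons 919 n83 .nil)
noncomputable def n85 : Strat := .win 960 3 796
noncomputable def n86 : Strat := .win 756 3 755
noncomputable def n87 : Strat := .move 919 n85 (.cons 960 n86 .nil)
noncomputable def n88 : Strat := .win 798 2 754
noncomputable def n89 : Strat := .win 713 7 713
noncomputable def n90 : Strat := .move 754 n88 (.cons 798 n89 .nil)
noncomputable def n91 : Strat := .move 797 n84 (.cons 715 n87 (.cons 919 n90 .nil))
noncomputable def n92 : Strat := .move 755 n81 (.cons 714 n91 .nil)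
noncomputable def n93 : Strat := .move 799 n9 (.cons 800 n92 .nil)
noncomputable def n94 : Strat := .move 878 n2 (.cons 877 n93 .nil)
noncomputable def n95 : Strat := .move 796 n0 (.cons 795 n94 .nil)
noncomputable def n96 : Strat := .move 837 n28 (.cons 799 n70 (.cons 881 n75 (.cons 836 n95 .nil)))
noncomputable def n97 : Strat := .move 842 n41 (.cons 880 n61 .nil)
noncomputable def n98 : Strat := .move 879 n40 (.cons 878 n97 .nil)
noncomputable def n99 : Strat := .move 842 n43 (.cons 798 n49 .nil)
noncomputable def n100 : Strat := .move 797 n42 (.cons 796 n99 .nil)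
noncomputable def n101 : Strat := .win 921 6 756
noncomputable def n102 : Strat := .win 715 6 715
noncomputable def n103 : Strat := .move 880 n101 (.cons 921 n102 .nil)
noncomputable def n104 : Strat := .win 920 3 756
noncomputable def n105 : Strat := .win 716 1 715
noncomputable def n106 : Strat := .move 757 n104 (.cons 920 n105 .nil)
noncomputable def n107 : Strat := .win 961 3 797
noncomputable def n108 : Strat := .win 757 3 756
noncomputable def n109 : Strat := .move 920 n107 (.cons 961 n108 .nil)
noncomputable def n110 : Strat := .win 799 2 755
noncomputable def n111 : Strat := .win 714 7 714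
noncomputable def n112 : Strat := .move 755 n110 (.cons 799 n111 .nil)
noncomputable def n113 : Strat := .move 798 n106 (.cons 716 n109 (.cons 920 n112 .nil))
noncomputable def n114 : Strat := .move 756 n103 (.cons 715 n113 .nil)
noncomputable def n115 : Strat := .move 800 n16 (.cons 801 n114 .nil)
noncomputable def n116 : Strat := .move 879 n40 (.cons 878 n115 .nil)
noncomputable def n117 : Strat := .move 797 n42 (.cons 796 n116 .nil)
noncomputable def n118 : Strat := .move 841 n58 (.cons 797 n98 (.cons 879 n100 (.cons 842 n117 .nil)))
noncomputable def n119 : Strat := .move 838 n14 (.cons 797 n25 (.cons 879 n39 (.cons 799 n55 (.cons 881 n66 (.cons 798 n73 (.cons 880 n78 (.cons 841 n96 (.cons 837 n118 .nil))))))))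
noncomputable def n120 : Strat := .move 838 n59 (.cons 800 n49 .nil)
noncomputable def n121 : Strat := .move 801 n60 (.cons 802 n120 .nil)
noncomputable def n122 : Strat := .win 797 2 797
noncomputable def n123 : Strat := .win 799 2 798
noncomputable def n124 : Strat := .win 801 5 798
noncomputable def n125 : Strat := .win 803 5 799
noncomputable def n126 : Strat := .move 802 n124 (.cons 801 n125 .nil)
noncomputable def n127 : Strat := .move 843 n123 (.cons 799 n126 .nil)
noncomputable def n128 : Strat := .move 798 n122 (.cons 797 n127 .nil)
noncomputable def n129 : Strat := .win 879 4 838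
noncomputable def n130 : Strat := .win 881 4 839
noncomputable def n131 : Strat := .move 798 n122 (.cons 797 n123 .nil)
noncomputable def n132 : Strat := .move 843 n130 (.cons 881 n131 .nil)
noncomputable def n133 : Strat := .move 880 n129 (.cons 879 n132 .nil)
noncomputable def n134 : Strat := .move 842 n121 (.cons 882 n128 (.cons 801 n133 .nil))
noncomputable def n135 : Strat := .move 882 n30 (.cons 883 n29 .nil)
noncomputable def n136 : Strat := .move 837 n15 (.cons 799 n135 .nil)
noncomputable def n137 : Strat := .move 800 n16 (.cons 801 n136 .nil)
noncomputable def n138 : Strat := .move 838 n46 (.cons 880 n137 .nil)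
noncomputable def n139 : Strat := .move 796 n1 (.cons 797 n0 .nil)
noncomputable def n140 : Strat := .move 837 n29 (.cons 881 n139 .nil)
noncomputable def n141 : Strat := .move 882 n30 (.cons 883 n140 .nil)
noncomputable def n142 : Strat := .move 878 n3 (.cons 879 n2 .nil)
noncomputable def n143 : Strat := .move 837 n15 (.cons 799 n142 .nil)
noncomputable def n144 : Strat := .move 800 n16 (.cons 801 n143 .nil)
noncomputable def n145 : Strat := .win 964 7 799
noncomputable def n146 : Strat := .win 758 7 758
noncomputable def n147 : Strat := .move 799 n145 (.cons 964 n146 .nil)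
noncomputable def n148 : Strat := .win 799 7 799
noncomputable def n149 : Strat := .win 1004 1 840
noncomputable def n150 : Strat := .win 922 1 799
noncomputable def n151 : Strat := .move 963 n149 (.cons 1004 n150 .nil)
noncomputable def n152 : Strat := .move 964 n148 (.cons 799 n151 .nil)
noncomputable def n153 : Strat := .win 922 1 758
noncomputable def n154 : Strat := .win 718 1 717
noncomputable def n155 : Strat := .move 759 n153 (.cons 922 n154 .nil)
noncomputable def n156 : Strat := .win 759 1 758
noncomputable def n157 : Strat := .win 963 1 799
noncomputable def n158 : Strat := .move 922 n156 (.cons 759 n157 .nil)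
noncomputable def n159 : Strat := .win 880 0 879
noncomputable def n160 : Strat := .win 965 6 800
noncomputable def n161 : Strat := .move 924 n159 (.cons 880 n160 .nil)
noncomputable def n162 : Strat := .move 881 n155 (.cons 718 n158 (.cons 922 n161 .nil))
noncomputable def n163 : Strat := .move 923 n147 (.cons 758 n152 (.cons 964 n162 .nil))
noncomputable def n164 : Strat := .move 879 n40 (.cons 878 n163 .nil)
noncomputable def n165 : Strat := .move 882 n30 (.cons 883 n164 .nil)
noncomputable def n166 : Strat := .move 800 n16 (.cons 801 n165 .nil)
noncomputable def n167 : Strat := .move 838 n137 (.cons 799 n141 (.cons 882 n144 (.cons 837 n166 .nil)))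
noncomputable def n168 : Strat := .move 843 n130 (.cons 881 n126 .nil)
noncomputable def n169 : Strat := .move 880 n129 (.cons 879 n168 .nil)
noncomputable def n170 : Strat := .move 843 n123 (.cons 799 n130 .nil)
noncomputable def n171 : Strat := .move 798 n122 (.cons 797 n170 .nil)
noncomputable def n172 : Strat := .move 880 n129 (.cons 879 n171 .nil)
noncomputable def n173 : Strat := .win 883 0 839
noncomputable def n174 : Strat := .win 885 0 840
noncomputable def n175 : Strat := .move 884 n173 (.cons 883 n174 .nil)
noncomputable def n176 : Strat := .move 843 n123 (.cons 799 n175 .nil)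
noncomputable def n177 : Strat := .move 798 n122 (.cons 797 n176 .nil)
noncomputable def n178 : Strat := .win 965 7 800
noncomputable def n179 : Strat := .win 759 7 759
noncomputable def n180 : Strat := .move 800 n178 (.cons 965 n179 .nil)
noncomputable def n181 : Strat := .win 800 7 800
noncomputable def n182 : Strat := .win 1005 1 841
noncomputable def n183 : Strat := .win 923 1 800
noncomputable def n184 : Strat := .move 964 n182 (.cons 1005 n183 .nil)
noncomputable def n185 : Strat := .move 965 n181 (.cons 800 n184 .nil)
noncomputable def n186 : Strat := .win 923 1 759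
noncomputable def n187 : Strat := .win 719 1 718
noncomputable def n188 : Strat := .move 760 n186 (.cons 923 n187 .nil)
noncomputable def n189 : Strat := .win 760 1 759
noncomputable def n190 : Strat := .win 964 1 800
noncomputable def n191 : Strat := .move 923 n189 (.cons 760 n190 .nil)
noncomputable def n192 : Strat := .win 881 0 880
noncomputable def n193 : Strat := .win 966 6 801
noncomputable def n194 : Strat := .move 925 n192 (.cons 881 n193 .nil)
noncomputable def n195 : Strat := .move 882 n188 (.cons 719 n191 (.cons 923 n194 .nil))
noncomputable def n196 : Strat := .move 924 n180 (.cons 759 n185 (.cons 965 n195 .nil))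
noncomputable def n197 : Strat := .move 880 n129 (.cons 879 n196 .nil)
noncomputable def n198 : Strat := .move 883 n48 (.cons 884 n197 .nil)
noncomputable def n199 : Strat := .move 801 n60 (.cons 802 n198 .nil)
noncomputable def n200 : Strat := .move 842 n169 (.cons 803 n172 (.cons 880 n177 (.cons 843 n199 .nil)))
noncomputable def n201 : Strat := .move 843 n130 (.cons 881 n175 .nil)
noncomputable def n202 : Strat := .move 880 n129 (.cons 879 n201 .nil)
noncomputable def n203 : Strat := .move 838 n47 (.cons 882 n44 .nil)
noncomputable def n204 : Strat := .move 883 n48 (.cons 884 n203 .nil)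
noncomputable def n205 : Strat := .move 842 n202 (.cons 880 n204 (.cons 883 n133 .nil))
noncomputable def n206 : Strat := .move 838 n59 (.cons 800 n56 .nil)
noncomputable def n207 : Strat := .move 801 n60 (.cons 802 n206 .nil)
noncomputable def n208 : Strat := .move 880 n129 (.cons 879 n130 .nil)
noncomputable def n209 : Strat := .move 843 n123 (.cons 799 n208 .nil)
noncomputable def n210 : Strat := .move 798 n122 (.cons 797 n209 .nil)
noncomputable def n211 : Strat := .move 842 n128 (.cons 798 n207 (.cons 801 n210 .nil))
noncomputable def n212 : Strat := .move 837 n15 (.cons 799 n139 .nil)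
noncomputable def n213 : Strat := .move 800 n16 (.cons 801 n212 .nil)
noncomputable def n214 : Strat := .move 838 n137 (.cons 799 n141 (.cons 882 n213 (.cons 837 n63 .nil)))
noncomputable def n215 : Strat := .move 842 n121 (.cons 882 n207 (.cons 801 n177 .nil))
noncomputable def n216 : Strat := .move 838 n47 (.cons 882 n59 .nil)
noncomputable def n217 : Strat := .move 883 n48 (.cons 884 n216 .nil)
noncomputable def n218 : Strat := .move 801 n60 (.cons 802 n217 .nil)
noncomputable def n219 : Strat := .move 842 n218 (.cons 800 n202 (.cons 883 n169 .nil))
noncomputable def n220 : Strat := .move 841 n134 (.cons 803 n138 (.cons 842 n167 (.cons 838 n200 (.cons 800 n205 (.cons 882 n211 (.cons 880 n214 (.cons 881 n215 (.cons 797 n219 .nil))))))))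
noncomputable def n221 : Strat := .move 842 n133 (.cons 881 n121 .nil)
noncomputable def n222 : Strat := .move 837 n29 (.cons 881 n15 .nil)
noncomputable def n223 : Strat := .move 882 n30 (.cons 883 n222 .nil)
noncomputable def n224 : Strat := .move 800 n16 (.cons 801 n223 .nil)
noncomputable def n225 : Strat := .win 837 5 796
noncomputable def n226 : Strat := .win 798 2 755
noncomputable def n227 : Strat := .move 755 n111 (.cons 714 n226 .nil)
noncomputable def n228 : Strat := .move 756 n103 (.cons 715 n227 .nil)
noncomputable def n229 : Strat := .move 879 n40 (.cons 878 n228 .nil)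
noncomputable def n230 : Strat := .move 797 n42 (.cons 796 n229 .nil)
noncomputable def n231 : Strat := .move 799 n225 (.cons 837 n230 .nil)
noncomputable def n232 : Strat := .move 800 n16 (.cons 801 n231 .nil)
noncomputable def n233 : Strat := .win 837 0 837
noncomputable def n234 : Strat := .win 963 3 799
noncomputable def n235 : Strat := .move 922 n156 (.cons 759 n234 .nil)
noncomputable def n236 : Strat := .move 800 n16 (.cons 801 n235 .nil)
noncomputable def n237 : Strat := .move 881 n233 (.cons 837 n236 .nil)
noncomputable def n238 : Strat := .move 882 n30 (.cons 883 n237 .nil)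
noncomputable def n239 : Strat := .win 960 1 796
noncomputable def n240 : Strat := .win 880 4 878
noncomputable def n241 : Strat := .move 919 n239 (.cons 960 n240 .nil)
noncomputable def n242 : Strat := .move 798 n108 (.cons 757 n107 .nil)
noncomputable def n243 : Strat := .move 920 n241 (.cons 880 n242 .nil)
noncomputable def n244 : Strat := .move 797 n42 (.cons 796 n243 .nil)
noncomputable def n245 : Strat := .move 879 n40 (.cons 878 n244 .nil)
noncomputable def n246 : Strat := .move 881 n233 (.cons 837 n245 .nil)
noncomputable def n247 : Strat := .move 882 n30 (.cons 883 n246 .nil)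
noncomputable def n248 : Strat := .move 838 n224 (.cons 882 n232 (.cons 799 n238 (.cons 800 n247 (.cons 837 n166 .nil))))
noncomputable def n249 : Strat := .move 842 n133 (.cons 880 n177 (.cons 798 n169 (.cons 843 n199 .nil)))
noncomputable def n250 : Strat := .win 717 6 717
noncomputable def n251 : Strat := .win 923 7 758
noncomputable def n252 : Strat := .move 758 n250 (.cons 717 n251 .nil)
noncomputable def n253 : Strat := .move 799 n225 (.cons 837 n252 .nil)
noncomputable def n254 : Strat := .move 882 n30 (.cons 883 n253 .nil)
noncomputable def n255 : Strat := .move 800 n16 (.cons 801 n254 .nil)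
noncomputable def n256 : Strat := .move 837 n29 (.cons 881 n142 .nil)
noncomputable def n257 : Strat := .move 882 n30 (.cons 883 n256 .nil)
noncomputable def n258 : Strat := .win 842 2 797
noncomputable def n259 : Strat := .move 879 n40 (.cons 878 n106 .nil)
noncomputable def n260 : Strat := .move 798 n258 (.cons 842 n259 .nil)
noncomputable def n261 : Strat := .move 797 n42 (.cons 796 n260 .nil)
noncomputable def n262 : Strat := .move 882 n30 (.cons 883 n261 .nil)
noncomputable def n263 : Strat := .move 800 n16 (.cons 801 n262 .nil)
noncomputable def n264 : Strat := .win 842 0 797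
noncomputable def n265 : Strat := .win 760 5 756
noncomputable def n266 : Strat := .win 677 1 676
noncomputable def n267 : Strat := .win 881 1 717
noncomputable def n268 : Strat := .move 718 n266 (.cons 677 n267 .nil)
noncomputable def n269 : Strat := .move 759 n265 (.cons 760 n268 .nil)
noncomputable def n270 : Strat := .move 798 n264 (.cons 842 n269 .nil)
noncomputable def n271 : Strat := .move 797 n42 (.cons 796 n270 .nil)
noncomputable def n272 : Strat := .move 799 n225 (.cons 837 n271 .nil)
noncomputable def n273 : Strat := .move 800 n16 (.cons 801 n272 .nil)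
noncomputable def n274 : Strat := .move 838 n255 (.cons 717 n224 (.cons 801 n257 (.cons 837 n263 (.cons 882 n273 .nil))))
noncomputable def n275 : Strat := .move 842 n121 (.cons 801 n204 (.cons 883 n207 (.cons 838 n128 .nil)))
noncomputable def n276 : Strat := .move 842 n133 (.cons 881 n204 (.cons 797 n202 .nil))
noncomputable def n277 : Strat := .move 881 n233 (.cons 837 n235 .nil)
noncomputable def n278 : Strat := .move 800 n16 (.cons 801 n277 .nil)
noncomputable def n279 : Strat := .move 882 n30 (.cons 883 n278 .nil)
noncomputable def n280 : Strat := .move 800 n16 (.cons 801 n222 .nil)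
noncomputable def n281 : Strat := .move 882 n30 (.cons 883 n280 .nil)
noncomputable def n282 : Strat := .win 842 4 838
noncomputable def n283 : Strat := .move 756 n101 (.cons 921 n102 .nil)
noncomputable def n284 : Strat := .move 797 n42 (.cons 796 n283 .nil)
noncomputable def n285 : Strat := .move 880 n282 (.cons 842 n284 .nil)
noncomputable def n286 : Strat := .move 879 n40 (.cons 878 n285 .nil)
noncomputable def n287 : Strat := .move 881 n233 (.cons 837 n286 .nil)
noncomputable def n288 : Strat := .move 882 n30 (.cons 883 n287 .nil)
noncomputable def n289 : Strat := .move 838 n279 (.cons 963 n281 (.cons 882 n98 (.cons 801 n288 .nil)))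
noncomputable def n290 : Strat := .win 838 5 797
noncomputable def n291 : Strat := .win 843 0 798
noncomputable def n292 : Strat := .win 756 2 756
noncomputable def n293 : Strat := .win 675 6 675
noncomputable def n294 : Strat := .win 881 6 716
noncomputable def n295 : Strat := .move 716 n293 (.cons 675 n294 .nil)
noncomputable def n296 : Strat := .move 757 n292 (.cons 756 n295 .nil)
noncomputable def n297 : Strat := .move 799 n291 (.cons 843 n296 .nil)
noncomputable def n298 : Strat := .move 798 n122 (.cons 797 n297 .nil)
noncomputable def n299 : Strat := .move 800 n290 (.cons 838 n298 .nil)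
noncomputable def n300 : Strat := .move 801 n60 (.cons 802 n299 .nil)
noncomputable def n301 : Strat := .move 842 n172 (.cons 881 n207 (.cons 880 n300 .nil))
noncomputable def n302 : Strat := .move 882 n30 (.cons 883 n252 .nil)
noncomputable def n303 : Strat := .move 799 n225 (.cons 837 n302 .nil)
noncomputable def n304 : Strat := .move 800 n16 (.cons 801 n303 .nil)
noncomputable def n305 : Strat := .win 844 4 840
noncomputable def n306 : Strat := .win 880 4 839
noncomputable def n307 : Strat := .move 843 n305 (.cons 844 n306 .nil)
noncomputable def n308 : Strat := .move 842 n43 (.cons 798 n307 .nil)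
noncomputable def n309 : Strat := .move 797 n42 (.cons 796 n308 .nil)
noncomputable def n310 : Strat := .move 881 n233 (.cons 837 n309 .nil)
noncomputable def n311 : Strat := .move 882 n30 (.cons 883 n310 .nil)
noncomputable def n312 : Strat := .win 755 2 755
noncomputable def n313 : Strat := .win 674 6 674
noncomputable def n314 : Strat := .win 880 6 715
noncomputable def n315 : Strat := .move 715 n313 (.cons 674 n314 .nil)
noncomputable def n316 : Strat := .move 756 n312 (.cons 755 n315 .nil)
noncomputable def n317 : Strat := .move 798 n264 (.cons 842 n316 .nil)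
noncomputable def n318 : Strat := .move 797 n42 (.cons 796 n317 .nil)
noncomputable def n319 : Strat := .move 799 n225 (.cons 837 n318 .nil)
noncomputable def n320 : Strat := .move 800 n16 (.cons 801 n319 .nil)
noncomputable def n321 : Strat := .move 881 n153 (.cons 922 n154 .nil)
noncomputable def n322 : Strat := .win 799 5 756
noncomputable def n323 : Strat := .win 719 3 718
noncomputable def n324 : Strat := .move 760 n322 (.cons 799 n323 .nil)
noncomputable def n325 : Strat := .move 759 n321 (.cons 718 n324 .nil)
noncomputable def n326 : Strat := .move 798 n258 (.cons 842 n325 .nil)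
noncomputable def n327 : Strat := .move 797 n42 (.cons 796 n326 .nil)
noncomputable def n328 : Strat := .move 882 n30 (.cons 883 n327 .nil)
noncomputable def n329 : Strat := .move 800 n16 (.cons 801 n328 .nil)
noncomputable def n330 : Strat := .move 838 n304 (.cons 717 n224 (.cons 800 n311 (.cons 882 n320 (.cons 837 n329 .nil))))
noncomputable def n331 : Strat := .win 838 0 838
noncomputable def n332 : Strat := .win 964 3 800
noncomputable def n333 : Strat := .move 923 n332 (.cons 964 n189 .nil)
noncomputable def n334 : Strat := .move 882 n331 (.cons 838 n333 .nil)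
noncomputable def n335 : Strat := .move 883 n48 (.cons 884 n334 .nil)
noncomputable def n336 : Strat := .move 801 n60 (.cons 802 n335 .nil)
noncomputable def n337 : Strat := .move 842 n336 (.cons 801 n202 (.cons 883 n169 .nil))
noncomputable def n338 : Strat := .move 841 n221 (.cons 842 n248 (.cons 838 n249 (.cons 880 n274 (.cons 881 n275 (.cons 801 n276 (.cons 798 n289 (.cons 883 n301 (.cons 879 n330 (.cons 797 n337 .nil)))))))))
noncomputable def n339 : Strat := .move 838 n47 (.cons 882 n61 .nil)
noncomputable def n340 : Strat := .move 883 n48 (.cons 884 n339 .nil)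
noncomputable def n341 : Strat := .move 842 n210 (.cons 799 n340 .nil)
noncomputable def n342 : Strat := .move 923 n146 (.cons 758 n145 .nil)
noncomputable def n343 : Strat := .move 758 n251 (.cons 923 n250 .nil)
noncomputable def n344 : Strat := .win 798 5 756
noncomputable def n345 : Strat := .move 760 n344 (.cons 798 n323 .nil)
noncomputable def n346 : Strat := .move 799 n342 (.cons 964 n343 (.cons 758 n345 .nil))
noncomputable def n347 : Strat := .move 759 n321 (.cons 718 n346 .nil)
noncomputable def n348 : Strat := .move 797 n42 (.cons 796 n347 .nil)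
noncomputable def n349 : Strat := .move 800 n16 (.cons 801 n348 .nil)
noncomputable def n350 : Strat := .move 882 n30 (.cons 883 n349 .nil)
noncomputable def n351 : Strat := .move 838 n281 (.cons 800 n247 (.cons 881 n304 (.cons 882 n232 (.cons 837 n350 .nil))))
noncomputable def n352 : Strat := .move 882 n186 (.cons 923 n187 .nil)
noncomputable def n353 : Strat := .move 924 n179 (.cons 759 n178 .nil)
noncomputable def n354 : Strat := .win 924 7 759
noncomputable def n355 : Strat := .win 718 6 718
noncomputable def n356 : Strat := .move 759 n354 (.cons 924 n355 .nil)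
noncomputable def n357 : Strat := .win 799 5 757
noncomputable def n358 : Strat := .win 720 3 719
noncomputable def n359 : Strat := .move 761 n357 (.cons 799 n358 .nil)
noncomputable def n360 : Strat := .move 800 n353 (.cons 965 n356 (.cons 759 n359 .nil))
noncomputable def n361 : Strat := .move 760 n352 (.cons 719 n360 .nil)
noncomputable def n362 : Strat := .move 798 n122 (.cons 797 n361 .nil)
noncomputable def n363 : Strat := .move 801 n60 (.cons 802 n362 .nil)
noncomputable def n364 : Strat := .move 883 n48 (.cons 884 n363 .nil)
noncomputable def n365 : Strat := .move 842 n210 (.cons 798 n169 (.cons 880 n177 (.cons 843 n364 .nil)))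
noncomputable def n366 : Strat := .move 800 n16 (.cons 801 n286 .nil)
noncomputable def n367 : Strat := .move 882 n30 (.cons 883 n366 .nil)
noncomputable def n368 : Strat := .move 838 n279 (.cons 963 n281 (.cons 883 n213 (.cons 837 n367 (.cons 800 n288 .nil))))
noncomputable def n369 : Strat := .move 842 n340 (.cons 883 n207 (.cons 801 n204 (.cons 838 n202 .nil)))
noncomputable def n370 : Strat := .move 842 n210 (.cons 799 n207 (.cons 879 n128 .nil))
noncomputable def n371 : Strat := .move 838 n255 (.cons 717 n224 (.cons 800 n100 (.cons 883 n273 .nil)))
noncomputable def n372 : Strat := .move 880 n129 (.cons 879 n170 .nil)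
noncomputable def n373 : Strat := .move 798 n122 (.cons 797 n372 .nil)
noncomputable def n374 : Strat := .win 843 4 839
noncomputable def n375 : Strat := .win 920 4 879
noncomputable def n376 : Strat := .win 758 1 757
noncomputable def n377 : Strat := .win 962 3 798
noncomputable def n378 : Strat := .move 799 n376 (.cons 758 n377 .nil)
noncomputable def n379 : Strat := .move 921 n375 (.cons 920 n378 .nil)
noncomputable def n380 : Strat := .move 881 n374 (.cons 843 n379 .nil)
noncomputable def n381 : Strat := .move 880 n129 (.cons 879 n380 .nil)
noncomputable def n382 : Strat := .move 882 n331 (.cons 838 n381 .nil)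
noncomputable def n383 : Strat := .move 883 n48 (.cons 884 n382 .nil)
noncomputable def n384 : Strat := .move 842 n373 (.cons 799 n204 (.cons 798 n383 .nil))
noncomputable def n385 : Strat := .win 844 2 799
noncomputable def n386 : Strat := .win 798 2 798
noncomputable def n387 : Strat := .move 843 n385 (.cons 844 n386 .nil)
noncomputable def n388 : Strat := .move 842 n41 (.cons 880 n387 .nil)
noncomputable def n389 : Strat := .move 879 n40 (.cons 878 n388 .nil)
noncomputable def n390 : Strat := .move 799 n225 (.cons 837 n389 .nil)
noncomputable def n391 : Strat := .move 800 n16 (.cons 801 n390 .nil)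
noncomputable def n392 : Strat := .win 919 4 878
noncomputable def n393 : Strat := .win 757 1 756
noncomputable def n394 : Strat := .move 798 n393 (.cons 757 n107 .nil)
noncomputable def n395 : Strat := .move 920 n392 (.cons 919 n394 .nil)
noncomputable def n396 : Strat := .move 880 n282 (.cons 842 n395 .nil)
noncomputable def n397 : Strat := .move 879 n40 (.cons 878 n396 .nil)
noncomputable def n398 : Strat := .move 881 n233 (.cons 837 n397 .nil)
noncomputable def n399 : Strat := .move 882 n30 (.cons 883 n398 .nil)
noncomputable def n400 : Strat := .move 799 n146 (.cons 758 n145 .nil)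
noncomputable def n401 : Strat := .win 881 0 879
noncomputable def n402 : Strat := .move 924 n401 (.cons 881 n160 .nil)
noncomputable def n403 : Strat := .move 923 n400 (.cons 964 n402 .nil)
noncomputable def n404 : Strat := .move 880 n282 (.cons 842 n403 .nil)
noncomputable def n405 : Strat := .move 879 n40 (.cons 878 n404 .nil)
noncomputable def n406 : Strat := .move 800 n16 (.cons 801 n405 .nil)
noncomputable def n407 : Strat := .move 882 n30 (.cons 883 n406 .nil)
noncomputable def n408 : Strat := .move 838 n238 (.cons 963 n281 (.cons 882 n391 (.cons 800 n399 (.cons 837 n407 .nil))))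
noncomputable def n409 : Strat := .move 838 n59 (.cons 800 n44 .nil)
noncomputable def n410 : Strat := .move 801 n60 (.cons 802 n409 .nil)
noncomputable def n411 : Strat := .move 842 n410 (.cons 801 n177 (.cons 798 n218 .nil))
noncomputable def n412 : Strat := .move 841 n341 (.cons 842 n351 (.cons 838 n365 (.cons 798 n368 (.cons 799 n369 (.cons 883 n370 (.cons 880 n371 (.cons 801 n384 (.cons 797 n408 (.cons 881 n411 .nil)))))))))
noncomputable def n413 : Strat := .win 836 0 836
noncomputable def n414 : Strat := .move 921 n376 (.cons 758 n377 .nil)
noncomputable def n415 : Strat := .move 799 n9 (.cons 800 n414 .nil)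
noncomputable def n416 : Strat := .move 880 n413 (.cons 836 n415 .nil)
noncomputable def n417 : Strat := .move 881 n7 (.cons 882 n416 .nil)
noncomputable def n418 : Strat := .move 837 n6 (.cons 795 n417 .nil)
noncomputable def n419 : Strat := .move 842 n43 (.cons 798 n41 .nil)
noncomputable def n420 : Strat := .move 879 n40 (.cons 878 n419 .nil)
noncomputable def n421 : Strat := .move 797 n42 (.cons 796 n420 .nil)
noncomputable def n422 : Strat := .move 841 n238 (.cons 837 n421 .nil)
noncomputable def n423 : Strat := .win 841 4 837
noncomputable def n424 : Strat := .win 961 7 796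
noncomputable def n425 : Strat := .win 755 6 755
noncomputable def n426 : Strat := .move 920 n424 (.cons 961 n425 .nil)
noncomputable def n427 : Strat := .move 879 n423 (.cons 841 n426 .nil)
noncomputable def n428 : Strat := .move 878 n2 (.cons 877 n427 .nil)
noncomputable def n429 : Strat := .move 796 n0 (.cons 795 n428 .nil)
noncomputable def n430 : Strat := .win 918 4 877
noncomputable def n431 : Strat := .win 756 1 755
noncomputable def n432 : Strat := .move 797 n431 (.cons 756 n85 .nil)
noncomputable def n433 : Strat := .move 919 n430 (.cons 918 n432 .nil)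
noncomputable def n434 : Strat := .move 880 n413 (.cons 836 n433 .nil)
noncomputable def n435 : Strat := .move 881 n7 (.cons 882 n434 .nil)
noncomputable def n436 : Strat := .move 879 n423 (.cons 841 n435 .nil)
noncomputable def n437 : Strat := .move 878 n2 (.cons 877 n436 .nil)
noncomputable def n438 : Strat := .move 837 n429 (.cons 795 n437 (.cons 841 n70 .nil))
noncomputable def n439 : Strat := .move 760 n323 (.cons 719 n322 .nil)
noncomputable def n440 : Strat := .move 759 n321 (.cons 718 n439 .nil)
noncomputable def n441 : Strat := .move 882 n30 (.cons 883 n440 .nil)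
noncomputable def n442 : Strat := .move 800 n16 (.cons 801 n441 .nil)
noncomputable def n443 : Strat := .move 798 n258 (.cons 842 n442 .nil)
noncomputable def n444 : Strat := .move 797 n42 (.cons 796 n443 .nil)
noncomputable def n445 : Strat := .move 798 n107 (.cons 961 n108 .nil)
noncomputable def n446 : Strat := .win 798 3 797
noncomputable def n447 : Strat := .win 1001 1 837
noncomputable def n448 : Strat := .win 919 1 796
noncomputable def n449 : Strat := .move 960 n447 (.cons 1001 n448 .nil)
noncomputable def n450 : Strat := .move 961 n446 (.cons 798 n449 .nil)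
noncomputable def n451 : Strat := .win 756 6 756
noncomputable def n452 : Strat := .win 962 6 797
noncomputable def n453 : Strat := .move 921 n451 (.cons 756 n452 .nil)
noncomputable def n454 : Strat := .win 881 4 878
noncomputable def n455 : Strat := .move 919 n454 (.cons 881 n239 .nil)
noncomputable def n456 : Strat := .move 880 n283 (.cons 715 n453 (.cons 921 n455 .nil))
noncomputable def n457 : Strat := .move 920 n445 (.cons 757 n450 (.cons 961 n456 .nil))
noncomputable def n458 : Strat := .move 882 n30 (.cons 883 n457 .nil)
noncomputable def n459 : Strat := .move 879 n40 (.cons 878 n458 .nil)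
noncomputable def n460 : Strat := .move 797 n42 (.cons 796 n459 .nil)
noncomputable def n461 : Strat := .move 924 n160 (.cons 965 n401 .nil)
noncomputable def n462 : Strat := .move 923 n461 (.cons 881 n400 .nil)
noncomputable def n463 : Strat := .move 800 n16 (.cons 801 n462 .nil)
noncomputable def n464 : Strat := .move 882 n30 (.cons 883 n463 .nil)
noncomputable def n465 : Strat := .move 880 n282 (.cons 842 n464 .nil)
noncomputable def n466 : Strat := .move 879 n40 (.cons 878 n465 .nil)
noncomputable def n467 : Strat := .move 841 n421 (.cons 879 n444 (.cons 842 n460 (.cons 797 n466 .nil)))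
noncomputable def n468 : Strat := .win 836 5 795
noncomputable def n469 : Strat := .win 922 7 757
noncomputable def n470 : Strat := .win 716 6 716
noncomputable def n471 : Strat := .move 757 n469 (.cons 922 n470 .nil)
noncomputable def n472 : Strat := .move 881 n7 (.cons 882 n471 .nil)
noncomputable def n473 : Strat := .move 798 n468 (.cons 836 n472 .nil)
noncomputable def n474 : Strat := .move 799 n9 (.cons 800 n473 .nil)
noncomputable def n475 : Strat := .move 878 n2 (.cons 877 n474 .nil)
noncomputable def n476 : Strat := .move 796 n0 (.cons 795 n475 .nil)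
noncomputable def n477 : Strat := .move 797 n85 (.cons 960 n86 .nil)
noncomputable def n478 : Strat := .win 797 3 796
noncomputable def n479 : Strat := .win 1000 1 836
noncomputable def n480 : Strat := .win 918 1 795
noncomputable def n481 : Strat := .move 959 n479 (.cons 1000 n480 .nil)
noncomputable def n482 : Strat := .move 960 n478 (.cons 797 n481 .nil)
noncomputable def n483 : Strat := .move 755 n79 (.cons 920 n80 .nil)
noncomputable def n484 : Strat := .win 961 6 796
noncomputable def n485 : Strat := .move 920 n425 (.cons 755 n484 .nil)
noncomputable def n486 : Strat := .win 880 4 877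
noncomputable def n487 : Strat := .win 959 1 795
noncomputable def n488 : Strat := .move 918 n486 (.cons 880 n487 .nil)
noncomputable def n489 : Strat := .move 879 n483 (.cons 714 n485 (.cons 920 n488 .nil))
noncomputable def n490 : Strat := .move 919 n477 (.cons 756 n482 (.cons 960 n489 .nil))
noncomputable def n491 : Strat := .move 881 n7 (.cons 882 n490 .nil)
noncomputable def n492 : Strat := .move 878 n2 (.cons 877 n491 .nil)
noncomputable def n493 : Strat := .move 796 n0 (.cons 795 n492 .nil)
noncomputable def n494 : Strat := .move 837 n70 (.cons 880 n476 (.cons 881 n75 (.cons 836 n493 .nil)))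
noncomputable def n495 : Strat := .win 841 2 796
noncomputable def n496 : Strat := .move 756 n83 (.cons 715 n82 .nil)
noncomputable def n497 : Strat := .move 878 n2 (.cons 877 n496 .nil)
noncomputable def n498 : Strat := .move 797 n495 (.cons 841 n497 .nil)
noncomputable def n499 : Strat := .move 796 n0 (.cons 795 n498 .nil)
noncomputable def n500 : Strat := .move 837 n28 (.cons 799 n499 .nil)
noncomputable def n501 : Strat := .move 757 n105 (.cons 716 n104 .nil)
noncomputable def n502 : Strat := .move 798 n258 (.cons 842 n501 .nil)
noncomputable def n503 : Strat := .move 879 n40 (.cons 878 n502 .nil)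
noncomputable def n504 : Strat := .move 797 n42 (.cons 796 n503 .nil)
noncomputable def n505 : Strat := .win 837 4 796
noncomputable def n506 : Strat := .move 799 n505 (.cons 837 n316 .nil)
noncomputable def n507 : Strat := .move 800 n16 (.cons 801 n506 .nil)
noncomputable def n508 : Strat := .move 798 n258 (.cons 842 n507 .nil)
noncomputable def n509 : Strat := .move 797 n42 (.cons 796 n508 .nil)
noncomputable def n510 : Strat := .move 882 n30 (.cons 883 n343 .nil)
noncomputable def n511 : Strat := .move 799 n225 (.cons 837 n510 .nil)
noncomputable def n512 : Strat := .move 800 n16 (.cons 801 n511 .nil)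
noncomputable def n513 : Strat := .move 879 n40 (.cons 878 n512 .nil)
noncomputable def n514 : Strat := .move 797 n42 (.cons 796 n513 .nil)
noncomputable def n515 : Strat := .move 841 n504 (.cons 879 n509 (.cons 842 n514 (.cons 796 n51 .nil)))
noncomputable def n516 : Strat := .move 837 n6 (.cons 841 n476 (.cons 877 n33 (.cons 796 n19 .nil)))
noncomputable def n517 : Strat := .move 837 n13 (.cons 880 n19 (.cons 799 n437 .nil))
noncomputable def n518 : Strat := .win 836 4 795
noncomputable def n519 : Strat := .win 754 2 754
noncomputable def n520 : Strat := .win 673 6 673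
noncomputable def n521 : Strat := .win 879 6 714
noncomputable def n522 : Strat := .move 714 n520 (.cons 673 n521 .nil)
noncomputable def n523 : Strat := .move 755 n519 (.cons 754 n522 .nil)
noncomputable def n524 : Strat := .move 798 n518 (.cons 836 n523 .nil)
noncomputable def n525 : Strat := .move 799 n9 (.cons 800 n524 .nil)
noncomputable def n526 : Strat := .move 797 n495 (.cons 841 n525 .nil)
noncomputable def n527 : Strat := .move 796 n0 (.cons 795 n526 .nil)
noncomputable def n528 : Strat := .move 837 n13 (.cons 798 n70 (.cons 881 n527 (.cons 836 n33 .nil)))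
noncomputable def n529 : Strat := .move 797 n495 (.cons 841 n496 .nil)
noncomputable def n530 : Strat := .move 878 n2 (.cons 877 n529 .nil)
noncomputable def n531 : Strat := .move 796 n0 (.cons 795 n530 .nil)
noncomputable def n532 : Strat := .move 837 n531 (.cons 877 n527 (.cons 841 n75 .nil))
noncomputable def n533 : Strat := .move 920 n425 (.cons 755 n424 .nil)
noncomputable def n534 : Strat := .move 796 n0 (.cons 795 n533 .nil)
noncomputable def n535 : Strat := .move 879 n423 (.cons 841 n534 .nil)
noncomputable def n536 : Strat := .move 878 n2 (.cons 877 n535 .nil)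
noncomputable def n537 : Strat := .move 837 n24 (.cons 878 n13 (.cons 836 n72 (.cons 881 n536 .nil)))
noncomputable def n538 : Strat := .move 838 n418 (.cons 877 n422 (.cons 800 n438 (.cons 837 n467 (.cons 841 n494 (.cons 879 n500 (.cons 881 n515 (.cons 880 n516 (.cons 796 n517 (.cons 878 n528 (.cons 882 n532 (.cons 797 n537 .nil)))))))))))
noncomputable def n539 : Strat := .move 757 n470 (.cons 716 n469 .nil)
noncomputable def n540 : Strat := .move 881 n7 (.cons 882 n539 .nil)
noncomputable def n541 : Strat := .move 798 n468 (.cons 836 n540 .nil)
noncomputable def n542 : Strat := .move 799 n9 (.cons 800 n541 .nil)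
noncomputable def n543 : Strat := .move 837 n68 (.cons 877 n542 .nil)
noncomputable def n544 : Strat := .move 797 n42 (.cons 796 n419 .nil)
noncomputable def n545 : Strat := .move 879 n40 (.cons 878 n544 .nil)
noncomputable def n546 : Strat := .move 841 n304 (.cons 837 n545 .nil)
noncomputable def n547 : Strat := .move 796 n0 (.cons 795 n529 .nil)
noncomputable def n548 : Strat := .move 878 n2 (.cons 877 n547 .nil)
noncomputable def n549 : Strat := .move 837 n548 (.cons 877 n527 (.cons 841 n75 .nil))
noncomputable def n550 : Strat := .move 920 n108 (.cons 757 n107 .nil)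
noncomputable def n551 : Strat := .move 798 n550 (.cons 961 n106 (.cons 757 n112 .nil))
noncomputable def n552 : Strat := .move 756 n103 (.cons 715 n551 .nil)
noncomputable def n553 : Strat := .move 800 n16 (.cons 801 n552 .nil)
noncomputable def n554 : Strat := .move 797 n42 (.cons 796 n553 .nil)
noncomputable def n555 : Strat := .move 879 n40 (.cons 878 n554 .nil)
noncomputable def n556 : Strat := .move 841 n545 (.cons 797 n466 (.cons 842 n555 (.cons 879 n444 .nil)))
noncomputable def n557 : Strat := .win 921 1 757
noncomputable def n558 : Strat := .win 717 1 716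
noncomputable def n559 : Strat := .move 758 n557 (.cons 921 n558 .nil)
noncomputable def n560 : Strat := .move 799 n9 (.cons 800 n559 .nil)
noncomputable def n561 : Strat := .move 880 n413 (.cons 836 n560 .nil)
noncomputable def n562 : Strat := .move 881 n7 (.cons 882 n561 .nil)
noncomputable def n563 : Strat := .move 796 n0 (.cons 795 n562 .nil)
noncomputable def n564 : Strat := .move 878 n2 (.cons 877 n563 .nil)
noncomputable def n565 : Strat := .move 919 n86 (.cons 756 n85 .nil)
noncomputable def n566 : Strat := .move 797 n565 (.cons 960 n84 (.cons 756 n90 .nil))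
noncomputable def n567 : Strat := .move 755 n81 (.cons 714 n566 .nil)
noncomputable def n568 : Strat := .move 799 n9 (.cons 800 n567 .nil)
noncomputable def n569 : Strat := .move 796 n0 (.cons 795 n568 .nil)
noncomputable def n570 : Strat := .move 878 n2 (.cons 877 n569 .nil)
noncomputable def n571 : Strat := .move 837 n75 (.cons 798 n564 (.cons 799 n70 (.cons 836 n570 .nil)))
noncomputable def n572 : Strat := .move 837 n13 (.cons 881 n536 .nil)
noncomputable def n573 : Strat := .win 962 7 797
noncomputable def n574 : Strat := .move 921 n451 (.cons 756 n573 .nil)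
noncomputable def n575 : Strat := .move 880 n282 (.cons 842 n574 .nil)
noncomputable def n576 : Strat := .move 797 n42 (.cons 796 n575 .nil)
noncomputable def n577 : Strat := .move 879 n40 (.cons 878 n576 .nil)
noncomputable def n578 : Strat := .move 800 n16 (.cons 801 n155 .nil)
noncomputable def n579 : Strat := .move 881 n233 (.cons 837 n578 .nil)
noncomputable def n580 : Strat := .move 882 n30 (.cons 883 n579 .nil)
noncomputable def n581 : Strat := .move 880 n282 (.cons 842 n580 .nil)
noncomputable def n582 : Strat := .move 879 n40 (.cons 878 n581 .nil)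
noncomputable def n583 : Strat := .move 797 n42 (.cons 796 n580 .nil)
noncomputable def n584 : Strat := .move 879 n40 (.cons 878 n583 .nil)
noncomputable def n585 : Strat := .move 841 n577 (.cons 797 n582 (.cons 842 n584 (.cons 878 n63 .nil)))
noncomputable def n586 : Strat := .move 837 n68 (.cons 841 n564 (.cons 795 n19 (.cons 878 n33 .nil)))
noncomputable def n587 : Strat := .move 837 n28 (.cons 798 n33 (.cons 881 n527 .nil))
noncomputable def n588 : Strat := .move 837 n28 (.cons 880 n75 (.cons 799 n437 (.cons 836 n19 .nil)))
noncomputable def n589 : Strat := .move 879 n423 (.cons 841 n533 .nil)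
noncomputable def n590 : Strat := .move 796 n0 (.cons 795 n589 .nil)
noncomputable def n591 : Strat := .move 878 n2 (.cons 877 n590 .nil)
noncomputable def n592 : Strat := .move 837 n591 (.cons 795 n437 (.cons 841 n70 .nil))
noncomputable def n593 : Strat := .move 837 n38 (.cons 796 n28 (.cons 836 n77 (.cons 799 n499 .nil)))
noncomputable def n594 : Strat := .move 838 n543 (.cons 795 n546 (.cons 882 n549 (.cons 837 n556 (.cons 841 n571 (.cons 797 n572 (.cons 799 n585 (.cons 798 n586 (.cons 878 n587 (.cons 796 n588 (.cons 800 n592 (.cons 879 n593 .nil)))))))))))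
noncomputable def n595 : Strat := .move 837 n29 (.cons 881 n4 .nil)
noncomputable def n596 : Strat := .move 882 n30 (.cons 883 n595 .nil)
noncomputable def n597 : Strat := .move 841 n421 (.cons 880 n54 (.cons 797 n596 .nil))
noncomputable def n598 : Strat := .win 797 2 754
noncomputable def n599 : Strat := .move 754 n598 (.cons 797 n89 .nil)
noncomputable def n600 : Strat := .move 755 n81 (.cons 714 n599 .nil)
noncomputable def n601 : Strat := .move 798 n468 (.cons 836 n600 .nil)
noncomputable def n602 : Strat := .move 799 n9 (.cons 800 n601 .nil)
noncomputable def n603 : Strat := .move 878 n2 (.cons 877 n602 .nil)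
noncomputable def n604 : Strat := .move 796 n0 (.cons 795 n603 .nil)
noncomputable def n605 : Strat := .win 880 0 835
noncomputable def n606 : Strat := .win 834 0 834
noncomputable def n607 : Strat := .move 835 n605 (.cons 880 n606 .nil)
noncomputable def n608 : Strat := .move 836 n10 (.cons 798 n607 .nil)
noncomputable def n609 : Strat := .move 799 n9 (.cons 800 n608 .nil)
noncomputable def n610 : Strat := .move 879 n423 (.cons 841 n609 .nil)
noncomputable def n611 : Strat := .move 878 n2 (.cons 877 n610 .nil)
noncomputable def n612 : Strat := .move 837 n499 (.cons 841 n604 (.cons 796 n611 (.cons 878 n527 .nil)))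
noncomputable def n613 : Strat := .move 797 n42 (.cons 796 n574 .nil)
noncomputable def n614 : Strat := .move 880 n282 (.cons 842 n613 .nil)
noncomputable def n615 : Strat := .move 879 n40 (.cons 878 n614 .nil)
noncomputable def n616 : Strat := .win 924 0 879
noncomputable def n617 : Strat := .win 758 6 758
noncomputable def n618 : Strat := .move 799 n617 (.cons 758 n145 .nil)
noncomputable def n619 : Strat := .move 923 n616 (.cons 924 n618 .nil)
noncomputable def n620 : Strat := .move 881 n395 (.cons 920 n619 .nil)
noncomputable def n621 : Strat := .move 882 n30 (.cons 883 n620 .nil)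
noncomputable def n622 : Strat := .move 880 n282 (.cons 842 n621 .nil)
noncomputable def n623 : Strat := .move 879 n40 (.cons 878 n622 .nil)
noncomputable def n624 : Strat := .move 841 n421 (.cons 798 n615 (.cons 797 n623 (.cons 878 n100 (.cons 842 n460 .nil))))
noncomputable def n625 : Strat := .move 837 n70 (.cons 881 n604 (.cons 836 n493 (.cons 796 n13 .nil)))
noncomputable def n626 : Strat := .win 964 6 799
noncomputable def n627 : Strat := .win 880 0 878
noncomputable def n628 : Strat := .move 923 n626 (.cons 964 n627 .nil)
noncomputable def n629 : Strat := .win 757 7 757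
noncomputable def n630 : Strat := .win 963 7 798
noncomputable def n631 : Strat := .move 798 n629 (.cons 757 n630 .nil)
noncomputable def n632 : Strat := .move 922 n628 (.cons 880 n631 .nil)
noncomputable def n633 : Strat := .move 799 n9 (.cons 800 n632 .nil)
noncomputable def n634 : Strat := .move 881 n7 (.cons 882 n633 .nil)
noncomputable def n635 : Strat := .move 879 n423 (.cons 841 n634 .nil)
noncomputable def n636 : Strat := .move 878 n2 (.cons 877 n635 .nil)
noncomputable def n637 : Strat := .move 837 n13 (.cons 881 n611 (.cons 799 n437 (.cons 836 n636 (.cons 880 n475 .nil))))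
noncomputable def n638 : Strat := .move 837 n24 (.cons 878 n13 (.cons 836 n536 .nil))
noncomputable def n639 : Strat := .win 759 5 755
noncomputable def n640 : Strat := .win 676 1 675
noncomputable def n641 : Strat := .win 880 1 716
noncomputable def n642 : Strat := .move 717 n640 (.cons 676 n641 .nil)
noncomputable def n643 : Strat := .move 758 n639 (.cons 759 n642 .nil)
noncomputable def n644 : Strat := .move 798 n518 (.cons 836 n643 .nil)
noncomputable def n645 : Strat := .move 799 n9 (.cons 800 n644 .nil)
noncomputable def n646 : Strat := .move 797 n495 (.cons 841 n645 .nil)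
noncomputable def n647 : Strat := .move 796 n0 (.cons 795 n646 .nil)
noncomputable def n648 : Strat := .move 837 n70 (.cons 796 n13 (.cons 882 n647 (.cons 880 n499 .nil)))
noncomputable def n649 : Strat := .move 837 n531 (.cons 796 n475 (.cons 878 n527 .nil))
noncomputable def n650 : Strat := .move 879 n423 (.cons 841 n562 .nil)
noncomputable def n651 : Strat := .move 878 n2 (.cons 877 n650 .nil)
noncomputable def n652 : Strat := .move 837 n591 (.cons 795 n651 (.cons 878 n70 .nil))
noncomputable def n653 : Strat := .move 880 n557 (.cons 921 n558 .nil)
noncomputable def n654 : Strat := .win 718 3 717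
noncomputable def n655 : Strat := .win 798 5 755
noncomputable def n656 : Strat := .move 759 n654 (.cons 718 n655 .nil)
noncomputable def n657 : Strat := .move 758 n653 (.cons 717 n656 .nil)
noncomputable def n658 : Strat := .move 881 n7 (.cons 882 n657 .nil)
noncomputable def n659 : Strat := .move 799 n9 (.cons 800 n658 .nil)
noncomputable def n660 : Strat := .move 797 n495 (.cons 841 n659 .nil)
noncomputable def n661 : Strat := .move 796 n0 (.cons 795 n660 .nil)
noncomputable def n662 : Strat := .move 837 n13 (.cons 881 n527 (.cons 798 n70 (.cons 836 n661 .nil)))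
noncomputable def n663 : Strat := .move 838 n597 (.cons 881 n612 (.cons 837 n624 (.cons 841 n625 (.cons 796 n637 (.cons 797 n638 (.cons 879 n648 (.cons 880 n649 (.cons 798 n652 (.cons 878 n662 .nil)))))))))
noncomputable def n664 : Strat := .move 837 n15 (.cons 799 n52 .nil)
noncomputable def n665 : Strat := .move 800 n16 (.cons 801 n664 .nil)
noncomputable def n666 : Strat := .move 841 n545 (.cons 798 n65 (.cons 879 n665 .nil))
noncomputable def n667 : Strat := .move 797 n86 (.cons 756 n85 .nil)
noncomputable def n668 : Strat := .win 879 4 877
noncomputable def n669 : Strat := .move 918 n668 (.cons 879 n487 .nil)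
noncomputable def n670 : Strat := .move 919 n667 (.cons 960 n669 .nil)
noncomputable def n671 : Strat := .move 880 n413 (.cons 836 n670 .nil)
noncomputable def n672 : Strat := .move 881 n7 (.cons 882 n671 .nil)
noncomputable def n673 : Strat := .move 796 n0 (.cons 795 n672 .nil)
noncomputable def n674 : Strat := .move 878 n2 (.cons 877 n673 .nil)
noncomputable def n675 : Strat := .win 798 5 794
noncomputable def n676 : Strat := .win 834 5 793
noncomputable def n677 : Strat := .move 835 n675 (.cons 798 n676 .nil)
noncomputable def n678 : Strat := .move 836 n8 (.cons 880 n677 .nil)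
noncomputable def n679 : Strat := .move 881 n7 (.cons 882 n678 .nil)
noncomputable def n680 : Strat := .move 797 n495 (.cons 841 n679 .nil)
noncomputable def n681 : Strat := .move 796 n0 (.cons 795 n680 .nil)
noncomputable def n682 : Strat := .move 837 n536 (.cons 841 n674 (.cons 878 n681 (.cons 796 n437 .nil)))
noncomputable def n683 : Strat := .move 879 n40 (.cons 878 n501 .nil)
noncomputable def n684 : Strat := .move 798 n258 (.cons 842 n683 .nil)
noncomputable def n685 : Strat := .move 797 n42 (.cons 796 n684 .nil)
noncomputable def n686 : Strat := .move 799 n316 (.cons 756 n269 .nil)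
noncomputable def n687 : Strat := .move 800 n16 (.cons 801 n686 .nil)
noncomputable def n688 : Strat := .move 798 n258 (.cons 842 n687 .nil)
noncomputable def n689 : Strat := .move 797 n42 (.cons 796 n688 .nil)
noncomputable def n690 : Strat := .move 841 n545 (.cons 880 n685 (.cons 879 n689 (.cons 796 n98 (.cons 842 n555 .nil))))
noncomputable def n691 : Strat := .move 837 n75 (.cons 799 n674 (.cons 836 n570 (.cons 878 n28 .nil)))
noncomputable def n692 : Strat := .move 837 n28 (.cons 799 n681 (.cons 881 n527 (.cons 836 n661 (.cons 798 n563 .nil))))
noncomputable def n693 : Strat := .move 837 n38 (.cons 796 n28 (.cons 836 n499 .nil))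
noncomputable def n694 : Strat := .move 796 n0 (.cons 795 n483 .nil)
noncomputable def n695 : Strat := .move 880 n413 (.cons 836 n694 .nil)
noncomputable def n696 : Strat := .move 881 n7 (.cons 882 n695 .nil)
noncomputable def n697 : Strat := .move 879 n423 (.cons 841 n696 .nil)
noncomputable def n698 : Strat := .move 878 n2 (.cons 877 n697 .nil)
noncomputable def n699 : Strat := .move 837 n75 (.cons 878 n28 (.cons 800 n698 (.cons 836 n536 .nil)))
noncomputable def n700 : Strat := .move 837 n591 (.cons 878 n563 (.cons 796 n651 .nil))
noncomputable def n701 : Strat := .move 837 n531 (.cons 877 n527 (.cons 796 n75 .nil))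
noncomputable def n702 : Strat := .move 837 n28 (.cons 799 n437 (.cons 880 n75 (.cons 836 n636 .nil)))
noncomputable def n703 : Strat := .move 838 n666 (.cons 799 n682 (.cons 837 n690 (.cons 841 n691 (.cons 878 n692 (.cons 879 n693 (.cons 797 n699 (.cons 798 n700 (.cons 880 n701 (.cons 796 n702 .nil)))))))))
noncomputable def n704 : Strat := .move 837 n75 (.cons 876 n38 (.cons 798 n536 .nil))
noncomputable def n705 : Strat := .move 837 n24 (.cons 881 n536 (.cons 878 n70 .nil))
noncomputable def n706 : Strat := .move 841 n238 (.cons 963 n281 (.cons 882 n391 (.cons 800 n399 (.cons 837 n407 .nil))))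
noncomputable def n707 : Strat := .move 881 n154 (.cons 718 n153 .nil)
noncomputable def n708 : Strat := .win 758 7 717
noncomputable def n709 : Strat := .win 676 7 676
noncomputable def n710 : Strat := .win 678 3 677
noncomputable def n711 : Strat := .win 760 3 718
noncomputable def n712 : Strat := .move 719 n710 (.cons 678 n711 .nil)
noncomputable def n713 : Strat := .move 718 n709 (.cons 676 n712 .nil)
noncomputable def n714 : Strat := .move 717 n708 (.cons 758 n713 .nil)
noncomputable def n715 : Strat := .win 881 1 758
noncomputable def n716 : Strat := .win 799 7 758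
noncomputable def n717 : Strat := .win 717 7 717
noncomputable def n718 : Strat := .move 758 n716 (.cons 799 n717 .nil)
noncomputable def n719 : Strat := .move 923 n157 (.cons 963 n718 .nil)
noncomputable def n720 : Strat := .move 922 n715 (.cons 881 n719 .nil)
noncomputable def n721 : Strat := .move 759 n707 (.cons 881 n714 (.cons 718 n720 .nil))
noncomputable def n722 : Strat := .move 882 n30 (.cons 883 n721 .nil)
noncomputable def n723 : Strat := .move 800 n16 (.cons 801 n722 .nil)
noncomputable def n724 : Strat := .move 841 n98 (.cons 801 n623 (.cons 880 n723 .nil))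
noncomputable def n725 : Strat := .move 836 n8 (.cons 880 n10 .nil)
noncomputable def n726 : Strat := .move 799 n9 (.cons 800 n725 .nil)
noncomputable def n727 : Strat := .move 881 n7 (.cons 882 n726 .nil)
noncomputable def n728 : Strat := .move 798 n630 (.cons 963 n629 .nil)
noncomputable def n729 : Strat := .win 921 1 798
noncomputable def n730 : Strat := .win 1003 1 839
noncomputable def n731 : Strat := .win 1005 6 840
noncomputable def n732 : Strat := .win 923 6 799
noncomputable def n733 : Strat := .move 964 n731 (.cons 1005 n732 .nil)
noncomputable def n734 : Strat := .move 963 n730 (.cons 1003 n733 .nil)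
noncomputable def n735 : Strat := .move 962 n729 (.cons 921 n734 .nil)
noncomputable def n736 : Strat := .win 798 7 757
noncomputable def n737 : Strat := .win 716 7 716
noncomputable def n738 : Strat := .move 758 n737 (.cons 716 n653 .nil)
noncomputable def n739 : Strat := .move 757 n736 (.cons 798 n738 .nil)
noncomputable def n740 : Strat := .move 922 n728 (.cons 798 n735 (.cons 963 n739 .nil))
noncomputable def n741 : Strat := .move 799 n9 (.cons 800 n740 .nil)
noncomputable def n742 : Strat := .move 881 n7 (.cons 882 n741 .nil)
noncomputable def n743 : Strat := .move 837 n727 (.cons 800 n70 (.cons 836 n742 (.cons 881 n38 .nil)))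
noncomputable def n744 : Strat := .move 838 n25 (.cons 882 n704 (.cons 800 n705 (.cons 877 n706 (.cons 837 n724 (.cons 878 n743 .nil)))))
noncomputable def n745 : Strat := .move 837 n70 (.cons 794 n24 (.cons 880 n499 .nil))
noncomputable def n746 : Strat := .move 837 n38 (.cons 799 n499 (.cons 796 n75 .nil))
noncomputable def n747 : Strat := .move 841 n304 (.cons 717 n224 (.cons 800 n311 (.cons 882 n320 (.cons 837 n329 .nil))))
noncomputable def n748 : Strat := .win 1006 6 841
noncomputable def n749 : Strat := .win 924 6 800
noncomputable def n750 : Strat := .move 965 n748 (.cons 1006 n749 .nil)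
noncomputable def n751 : Strat := .move 964 n149 (.cons 1004 n750 .nil)
noncomputable def n752 : Strat := .move 963 n150 (.cons 922 n751 .nil)
noncomputable def n753 : Strat := .move 759 n717 (.cons 717 n321 .nil)
noncomputable def n754 : Strat := .move 758 n716 (.cons 799 n753 .nil)
noncomputable def n755 : Strat := .move 923 n147 (.cons 799 n752 (.cons 964 n754 .nil))
noncomputable def n756 : Strat := .move 800 n16 (.cons 801 n755 .nil)
noncomputable def n757 : Strat := .move 882 n30 (.cons 883 n756 .nil)
noncomputable def n758 : Strat := .move 841 n100 (.cons 883 n689 (.cons 798 n757 .nil))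
noncomputable def n759 : Strat := .move 881 n7 (.cons 882 n725 .nil)
noncomputable def n760 : Strat := .move 799 n9 (.cons 800 n759 .nil)
noncomputable def n761 : Strat := .move 880 n558 (.cons 717 n557 .nil)
noncomputable def n762 : Strat := .win 757 7 716
noncomputable def n763 : Strat := .win 675 7 675
noncomputable def n764 : Strat := .win 677 3 676
noncomputable def n765 : Strat := .win 759 3 717
noncomputable def n766 : Strat := .move 718 n764 (.cons 677 n765 .nil)
noncomputable def n767 : Strat := .move 717 n763 (.cons 675 n766 .nil)
noncomputable def n768 : Strat := .move 716 n762 (.cons 757 n767 .nil)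
noncomputable def n769 : Strat := .win 880 1 757
noncomputable def n770 : Strat := .win 962 1 798
noncomputable def n771 : Strat := .move 757 n736 (.cons 798 n737 .nil)
noncomputable def n772 : Strat := .move 922 n770 (.cons 962 n771 .nil)
noncomputable def n773 : Strat := .move 921 n769 (.cons 880 n772 .nil)
noncomputable def n774 : Strat := .move 758 n761 (.cons 880 n768 (.cons 717 n773 .nil))
noncomputable def n775 : Strat := .move 881 n7 (.cons 882 n774 .nil)
noncomputable def n776 : Strat := .move 799 n9 (.cons 800 n775 .nil)
noncomputable def n777 : Strat := .move 837 n760 (.cons 882 n75 (.cons 836 n776 (.cons 799 n24 .nil)))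
noncomputable def n778 : Strat := .move 838 n39 (.cons 800 n745 (.cons 882 n746 (.cons 795 n747 (.cons 837 n758 (.cons 796 n777 .nil)))))
noncomputable def n779 : Strat := .move 841 n1 (.cons 797 n3 .nil)
noncomputable def n780 : Strat := .move 878 n2 (.cons 877 n779 .nil)
noncomputable def n781 : Strat := .move 796 n0 (.cons 795 n780 .nil)
noncomputable def n782 : Strat := .move 837 n781 (.cons 796 n24 (.cons 878 n70 .nil))
noncomputable def n783 : Strat := .move 841 n46 (.cons 842 n460 (.cons 798 n51 (.cons 879 n100 .nil)))
noncomputable def n784 : Strat := .win 797 3 755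
noncomputable def n785 : Strat := .win 715 3 714
noncomputable def n786 : Strat := .move 756 n784 (.cons 797 n785 .nil)
noncomputable def n787 : Strat := .move 755 n786 (.cons 715 n81 .nil)
noncomputable def n788 : Strat := .win 1002 6 837
noncomputable def n789 : Strat := .win 920 6 796
noncomputable def n790 : Strat := .move 961 n788 (.cons 1002 n789 .nil)
noncomputable def n791 : Strat := .move 960 n481 (.cons 918 n790 .nil)
noncomputable def n792 : Strat := .move 919 n667 (.cons 960 n787 (.cons 756 n482 (.cons 797 n791 .nil)))
noncomputable def n793 : Strat := .move 796 n0 (.cons 795 n792 .nil)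
noncomputable def n794 : Strat := .move 878 n2 (.cons 877 n793 .nil)
noncomputable def n795 : Strat := .move 799 n74 (.cons 798 n794 (.cons 878 n37 .nil))
noncomputable def n796 : Strat := .move 837 n70 (.cons 796 n24 (.cons 882 n795 (.cons 836 n493 .nil)))
noncomputable def n797 : Strat := .move 884 n174 (.cons 885 n173 .nil)
noncomputable def n798 : Strat := .move 802 n125 (.cons 803 n124 .nil)
noncomputable def n799 : Strat := .move 843 n797 (.cons 883 n798 .nil)
noncomputable def n800 : Strat := .move 837 n2 (.cons 877 n799 .nil)
noncomputable def n801 : Strat := .move 878 n3 (.cons 879 n800 .nil)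
noncomputable def n802 : Strat := .move 842 n43 (.cons 798 n801 .nil)
noncomputable def n803 : Strat := .move 797 n42 (.cons 796 n802 .nil)
noncomputable def n804 : Strat := .move 841 n100 (.cons 797 n596 (.cons 882 n803 (.cons 883 n685 .nil)))
noncomputable def n805 : Strat := .move 880 n102 (.cons 715 n101 .nil)
noncomputable def n806 : Strat := .win 757 3 715
noncomputable def n807 : Strat := .win 675 3 674
noncomputable def n808 : Strat := .win 673 7 673
noncomputable def n809 : Strat := .win 755 7 714
noncomputable def n810 : Strat := .move 714 n808 (.cons 673 n809 .nil)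
noncomputable def n811 : Strat := .move 715 n807 (.cons 675 n810 .nil)
noncomputable def n812 : Strat := .move 716 n806 (.cons 757 n811 .nil)
noncomputable def n813 : Strat := .win 880 6 756
noncomputable def n814 : Strat := .win 798 3 756
noncomputable def n815 : Strat := .win 716 3 715
noncomputable def n816 : Strat := .move 757 n814 (.cons 798 n815 .nil)
noncomputable def n817 : Strat := .move 920 n452 (.cons 962 n816 .nil)
noncomputable def n818 : Strat := .move 921 n813 (.cons 880 n817 .nil)
noncomputable def n819 : Strat := .move 756 n805 (.cons 880 n812 (.cons 715 n818 .nil))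
noncomputable def n820 : Strat := .move 879 n40 (.cons 878 n819 .nil)
noncomputable def n821 : Strat := .move 797 n42 (.cons 796 n820 .nil)
noncomputable def n822 : Strat := .move 841 n421 (.cons 880 n100 (.cons 797 n51 (.cons 842 n821 .nil)))
noncomputable def n823 : Strat := .win 923 0 878
noncomputable def n824 : Strat := .win 757 6 757
noncomputable def n825 : Strat := .move 798 n824 (.cons 757 n630 .nil)
noncomputable def n826 : Strat := .move 922 n823 (.cons 923 n825 .nil)
noncomputable def n827 : Strat := .move 880 n433 (.cons 919 n826 .nil)
noncomputable def n828 : Strat := .move 881 n7 (.cons 882 n827 .nil)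
noncomputable def n829 : Strat := .move 879 n423 (.cons 841 n828 .nil)
noncomputable def n830 : Strat := .move 878 n2 (.cons 877 n829 .nil)
noncomputable def n831 : Strat := .win 919 1 755
noncomputable def n832 : Strat := .move 756 n83 (.cons 715 n831 .nil)
noncomputable def n833 : Strat := .move 919 n85 (.cons 960 n431 .nil)
noncomputable def n834 : Strat := .win 835 5 794
noncomputable def n835 : Strat := .win 799 5 795
noncomputable def n836 : Strat := .move 836 n834 (.cons 835 n835 .nil)
noncomputable def n837 : Strat := .move 798 n550 (.cons 961 n106 (.cons 757 n836 .nil))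
noncomputable def n838 : Strat := .move 919 n85 (.cons 960 n837 .nil)
noncomputable def n839 : Strat := .move 756 n83 (.cons 715 n837 .nil)
noncomputable def n840 : Strat := .move 797 n832 (.cons 715 n833 (.cons 756 n838 (.cons 919 n839 .nil)))
noncomputable def n841 : Strat := .move 879 n423 (.cons 841 n840 .nil)
noncomputable def n842 : Strat := .move 878 n2 (.cons 877 n841 .nil)
noncomputable def n843 : Strat := .win 797 5 794
noncomputable def n844 : Strat := .win 793 2 793
noncomputable def n845 : Strat := .win 795 2 794
noncomputable def n846 : Strat := .move 794 n844 (.cons 793 n845 .nil)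
noncomputable def n847 : Strat := .move 835 n843 (.cons 797 n846 .nil)
noncomputable def n848 : Strat := .move 798 n835 (.cons 799 n847 .nil)
noncomputable def n849 : Strat := .move 836 n8 (.cons 880 n848 .nil)
noncomputable def n850 : Strat := .move 881 n7 (.cons 882 n849 .nil)
noncomputable def n851 : Strat := .move 837 n24 (.cons 836 n830 (.cons 880 n72 (.cons 881 n842 (.cons 878 n850 .nil))))
noncomputable def n852 : Strat := .win 881 0 836
noncomputable def n853 : Strat := .win 835 0 835
noncomputable def n854 : Strat := .move 880 n852 (.cons 881 n853 .nil)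
noncomputable def n855 : Strat := .move 799 n10 (.cons 798 n607 .nil)
noncomputable def n856 : Strat := .move 835 n843 (.cons 797 n606 .nil)
noncomputable def n857 : Strat := .move 798 n835 (.cons 799 n856 .nil)
noncomputable def n858 : Strat := .win 920 1 756
noncomputable def n859 : Strat := .move 757 n858 (.cons 920 n105 .nil)
noncomputable def n860 : Strat := .move 798 n835 (.cons 799 n859 .nil)
noncomputable def n861 : Strat := .move 880 n852 (.cons 881 n860 .nil)
noncomputable def n862 : Strat := .move 836 n854 (.cons 881 n855 (.cons 880 n857 (.cons 835 n861 .nil)))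
noncomputable def n863 : Strat := .move 879 n423 (.cons 841 n862 .nil)
noncomputable def n864 : Strat := .move 878 n2 (.cons 877 n863 .nil)
noncomputable def n865 : Strat := .win 799 4 795
noncomputable def n866 : Strat := .move 798 n865 (.cons 799 n834 .nil)
noncomputable def n867 : Strat := .move 881 n8 (.cons 880 n677 .nil)
noncomputable def n868 : Strat := .win 879 0 835
noncomputable def n869 : Strat := .move 835 n868 (.cons 879 n676 .nil)
noncomputable def n870 : Strat := .move 880 n852 (.cons 881 n869 .nil)
noncomputable def n871 : Strat := .win 756 7 756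
noncomputable def n872 : Strat := .move 921 n871 (.cons 756 n573 .nil)
noncomputable def n873 : Strat := .move 880 n852 (.cons 881 n872 .nil)
noncomputable def n874 : Strat := .move 798 n865 (.cons 799 n873 .nil)
noncomputable def n875 : Strat := .move 836 n866 (.cons 799 n867 (.cons 798 n870 (.cons 835 n874 .nil)))
noncomputable def n876 : Strat := .move 797 n495 (.cons 841 n875 .nil)
noncomputable def n877 : Strat := .move 796 n0 (.cons 795 n876 .nil)
noncomputable def n878 : Strat := .move 837 n531 (.cons 796 n864 (.cons 878 n877 (.cons 797 n536 (.cons 841 n795 .nil))))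
noncomputable def n879 : Strat := .move 843 n130 (.cons 881 n797 .nil)
noncomputable def n880 : Strat := .move 880 n129 (.cons 879 n879 .nil)
noncomputable def n881 : Strat := .move 842 n43 (.cons 798 n880 .nil)
noncomputable def n882 : Strat := .move 797 n42 (.cons 796 n881 .nil)
noncomputable def n883 : Strat := .move 880 n129 (.cons 879 n374 .nil)
noncomputable def n884 : Strat := .win 922 6 757
noncomputable def n885 : Strat := .move 757 n884 (.cons 922 n470 .nil)
noncomputable def n886 : Strat := .move 798 n122 (.cons 797 n885 .nil)
noncomputable def n887 : Strat := .move 880 n129 (.cons 879 n886 .nil)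
noncomputable def n888 : Strat := .move 843 n123 (.cons 799 n305 .nil)
noncomputable def n889 : Strat := .move 798 n122 (.cons 797 n888 .nil)
noncomputable def n890 : Strat := .move 842 n883 (.cons 843 n887 (.cons 880 n889 .nil))
noncomputable def n891 : Strat := .move 881 n233 (.cons 837 n890 .nil)
noncomputable def n892 : Strat := .move 882 n30 (.cons 883 n891 .nil)
noncomputable def n893 : Strat := .win 675 1 674
noncomputable def n894 : Strat := .win 879 1 715
noncomputable def n895 : Strat := .move 716 n893 (.cons 675 n894 .nil)
noncomputable def n896 : Strat := .win 921 7 756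
noncomputable def n897 : Strat := .move 756 n896 (.cons 921 n102 .nil)
noncomputable def n898 : Strat := .win 879 1 756
noncomputable def n899 : Strat := .win 961 1 797
noncomputable def n900 : Strat := .move 921 n899 (.cons 961 n573 .nil)
noncomputable def n901 : Strat := .move 920 n898 (.cons 879 n900 .nil)
noncomputable def n902 : Strat := .move 837 n413 (.cons 836 n7 .nil)
noncomputable def n903 : Strat := .move 881 n884 (.cons 922 n902 .nil)
noncomputable def n904 : Strat := .move 880 n872 (.cons 962 n897 (.cons 756 n901 (.cons 921 n903 .nil)))
noncomputable def n905 : Strat := .move 716 n893 (.cons 675 n294 .nil)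
noncomputable def n906 : Strat := .move 757 n895 (.cons 716 n904 (.cons 879 n905 .nil))
noncomputable def n907 : Strat := .move 798 n258 (.cons 842 n906 .nil)
noncomputable def n908 : Strat := .move 797 n42 (.cons 796 n907 .nil)
noncomputable def n909 : Strat := .move 843 n130 (.cons 881 n798 .nil)
noncomputable def n910 : Strat := .move 880 n129 (.cons 879 n909 .nil)
noncomputable def n911 : Strat := .move 842 n48 (.cons 884 n910 .nil)
noncomputable def n912 : Strat := .move 883 n47 (.cons 882 n911 .nil)
noncomputable def n913 : Strat := .move 841 n100 (.cons 882 n882 (.cons 796 n892 (.cons 883 n908 (.cons 842 n54 (.cons 797 n912 .nil)))))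
noncomputable def n914 : Strat := .move 838 n782 (.cons 837 n783 (.cons 841 n796 (.cons 879 n745 (.cons 797 n705 (.cons 880 n804 (.cons 881 n822 (.cons 796 n851 (.cons 882 n878 (.cons 878 n913 .nil)))))))))
noncomputable def n915 : Strat := .move 796 n0 (.cons 795 n779 .nil)
noncomputable def n916 : Strat := .move 878 n2 (.cons 877 n915 .nil)
noncomputable def n917 : Strat := .move 837 n916 (.cons 878 n38 (.cons 796 n75 .nil))
noncomputable def n918 : Strat := .move 841 n58 (.cons 842 n555 (.cons 880 n63 (.cons 797 n98 .nil)))
noncomputable def n919 : Strat := .win 714 1 713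
noncomputable def n920 : Strat := .move 880 n868 (.cons 879 n852 .nil)
noncomputable def n921 : Strat := .move 797 n675 (.cons 798 n676 .nil)
noncomputable def n922 : Strat := .move 835 n920 (.cons 881 n921 .nil)
noncomputable def n923 : Strat := .move 755 n919 (.cons 714 n922 .nil)
noncomputable def n924 : Strat := .move 836 n21 (.cons 876 n923 .nil)
noncomputable def n925 : Strat := .move 877 n20 (.cons 878 n924 .nil)
noncomputable def n926 : Strat := .move 796 n0 (.cons 795 n925 .nil)
noncomputable def n927 : Strat := .move 799 n9 (.cons 800 n794 .nil)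
noncomputable def n928 : Strat := .move 837 n75 (.cons 878 n38 (.cons 800 n795 (.cons 836 n570 (.cons 799 n926 (.cons 798 n927 .nil)))))
noncomputable def n929 : Strat := .move 837 n0 (.cons 795 n799 .nil)
noncomputable def n930 : Strat := .move 796 n1 (.cons 797 n929 .nil)
noncomputable def n931 : Strat := .move 842 n41 (.cons 880 n930 .nil)
noncomputable def n932 : Strat := .move 879 n40 (.cons 878 n931 .nil)
noncomputable def n933 : Strat := .move 841 n98 (.cons 879 n665 (.cons 800 n932 (.cons 801 n615 .nil)))
noncomputable def n934 : Strat := .win 921 6 797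
noncomputable def n935 : Strat := .win 1003 6 838
noncomputable def n936 : Strat := .move 961 n935 (.cons 1003 n449 .nil)
noncomputable def n937 : Strat := .move 962 n934 (.cons 921 n936 .nil)
noncomputable def n938 : Strat := .move 756 n815 (.cons 716 n103 .nil)
noncomputable def n939 : Strat := .move 757 n814 (.cons 798 n938 .nil)
noncomputable def n940 : Strat := .move 920 n445 (.cons 798 n937 (.cons 961 n939 .nil))
noncomputable def n941 : Strat := .move 797 n42 (.cons 796 n940 .nil)
noncomputable def n942 : Strat := .move 879 n40 (.cons 878 n941 .nil)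
noncomputable def n943 : Strat := .move 841 n545 (.cons 798 n98 (.cons 879 n63 (.cons 842 n942 .nil)))
noncomputable def n944 : Strat := .move 798 n523 (.cons 755 n643 .nil)
noncomputable def n945 : Strat := .move 799 n9 (.cons 800 n944 .nil)
noncomputable def n946 : Strat := .move 797 n495 (.cons 841 n945 .nil)
noncomputable def n947 : Strat := .move 796 n0 (.cons 795 n946 .nil)
noncomputable def n948 : Strat := .win 755 7 755
noncomputable def n949 : Strat := .move 920 n424 (.cons 961 n948 .nil)
noncomputable def n950 : Strat := .win 920 7 755
noncomputable def n951 : Strat := .move 755 n80 (.cons 714 n950 .nil)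
noncomputable def n952 : Strat := .move 836 n853 (.cons 835 n852 .nil)
noncomputable def n953 : Strat := .move 880 n952 (.cons 881 n283 .nil)
noncomputable def n954 : Strat := .move 755 n80 (.cons 714 n953 .nil)
noncomputable def n955 : Strat := .move 920 n424 (.cons 961 n953 .nil)
noncomputable def n956 : Strat := .move 879 n949 (.cons 961 n951 (.cons 920 n954 (.cons 755 n955 .nil)))
noncomputable def n957 : Strat := .move 797 n495 (.cons 841 n956 .nil)
noncomputable def n958 : Strat := .move 796 n0 (.cons 795 n957 .nil)
noncomputable def n959 : Strat := .move 835 n868 (.cons 879 n846 .nil)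
noncomputable def n960 : Strat := .move 880 n852 (.cons 881 n959 .nil)
noncomputable def n961 : Strat := .move 836 n10 (.cons 798 n960 .nil)
noncomputable def n962 : Strat := .move 799 n9 (.cons 800 n961 .nil)
noncomputable def n963 : Strat := .win 875 4 834
noncomputable def n964 : Strat := .win 877 4 835
noncomputable def n965 : Strat := .move 876 n963 (.cons 875 n964 .nil)
noncomputable def n966 : Strat := .move 835 n868 (.cons 879 n965 .nil)
noncomputable def n967 : Strat := .move 880 n852 (.cons 881 n966 .nil)
noncomputable def n968 : Strat := .move 836 n10 (.cons 798 n967 .nil)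
noncomputable def n969 : Strat := .move 799 n9 (.cons 800 n968 .nil)
noncomputable def n970 : Strat := .move 837 n38 (.cons 836 n947 (.cons 798 n77 (.cons 799 n958 (.cons 796 n962 (.cons 795 n969 .nil)))))
noncomputable def n971 : Strat := .move 843 n123 (.cons 799 n797 .nil)
noncomputable def n972 : Strat := .move 798 n122 (.cons 797 n971 .nil)
noncomputable def n973 : Strat := .move 842 n41 (.cons 880 n972 .nil)
noncomputable def n974 : Strat := .move 879 n40 (.cons 878 n973 .nil)
noncomputable def n975 : Strat := .win 797 0 797
noncomputable def n976 : Strat := .win 843 2 798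
noncomputable def n977 : Strat := .move 798 n975 (.cons 797 n976 .nil)
noncomputable def n978 : Strat := .win 758 3 757
noncomputable def n979 : Strat := .move 921 n978 (.cons 758 n377 .nil)
noncomputable def n980 : Strat := .move 880 n129 (.cons 879 n979 .nil)
noncomputable def n981 : Strat := .move 798 n975 (.cons 797 n980 .nil)
noncomputable def n982 : Strat := .move 843 n130 (.cons 881 n385 .nil)
noncomputable def n983 : Strat := .move 880 n129 (.cons 879 n982 .nil)
noncomputable def n984 : Strat := .move 842 n977 (.cons 843 n981 (.cons 798 n983 .nil))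
noncomputable def n985 : Strat := .move 799 n225 (.cons 837 n984 .nil)
noncomputable def n986 : Strat := .move 800 n16 (.cons 801 n985 .nil)
noncomputable def n987 : Strat := .move 842 n60 (.cons 802 n972 .nil)
noncomputable def n988 : Strat := .move 801 n59 (.cons 800 n987 .nil)
noncomputable def n989 : Strat := .move 841 n98 (.cons 800 n974 (.cons 878 n986 (.cons 842 n65 (.cons 879 n988 .nil))))
noncomputable def n990 : Strat := .move 838 n917 (.cons 837 n918 (.cons 841 n928 (.cons 797 n704 (.cons 879 n746 (.cons 798 n933 (.cons 799 n943 (.cons 878 n970 (.cons 800 n878 (.cons 796 n989 .nil)))))))))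
noncomputable def n991 : Strat := .move 837 n15 (.cons 799 n31 .nil)
noncomputable def n992 : Strat := .move 800 n16 (.cons 801 n991 .nil)
noncomputable def n993 : Strat := .move 841 n992 (.cons 837 n117 (.cons 800 n54 .nil))
noncomputable def n994 : Strat := .move 841 n137 (.cons 799 n141 (.cons 882 n144 (.cons 837 n166 .nil)))
noncomputable def n995 : Strat := .move 841 n224 (.cons 882 n232 (.cons 799 n238 (.cons 800 n247 (.cons 837 n166 .nil))))
noncomputable def n996 : Strat := .move 923 n145 (.cons 964 n146 .nil)
noncomputable def n997 : Strat := .move 799 n343 (.cons 717 n996 (.cons 923 n345 .nil))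
noncomputable def n998 : Strat := .move 759 n321 (.cons 718 n997 .nil)
noncomputable def n999 : Strat := .move 797 n42 (.cons 796 n998 .nil)
noncomputable def n1000 : Strat := .move 882 n30 (.cons 883 n999 .nil)
noncomputable def n1001 : Strat := .move 800 n16 (.cons 801 n1000 .nil)
noncomputable def n1002 : Strat := .move 841 n117 (.cons 800 n460 (.cons 715 n166 (.cons 878 n1001 .nil)))
noncomputable def n1003 : Strat := .move 878 n83 (.cons 715 n82 .nil)
noncomputable def n1004 : Strat := .move 920 n948 (.cons 755 n424 .nil)
noncomputable def n1005 : Strat := .move 755 n950 (.cons 920 n80 .nil)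
noncomputable def n1006 : Strat := .win 878 1 755
noncomputable def n1007 : Strat := .move 920 n239 (.cons 960 n424 .nil)
noncomputable def n1008 : Strat := .move 919 n1006 (.cons 878 n1007 .nil)
noncomputable def n1009 : Strat := .move 881 n413 (.cons 836 n7 .nil)
noncomputable def n1010 : Strat := .move 880 n101 (.cons 921 n1009 .nil)
noncomputable def n1011 : Strat := .move 879 n1004 (.cons 961 n1005 (.cons 755 n1008 (.cons 920 n1010 .nil)))
noncomputable def n1012 : Strat := .win 879 6 756
noncomputable def n1013 : Strat := .move 921 n1012 (.cons 879 n573 .nil)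
noncomputable def n1014 : Strat := .move 880 n1009 (.cons 882 n1013 .nil)
noncomputable def n1015 : Strat := .move 878 n83 (.cons 715 n1014 .nil)
noncomputable def n1016 : Strat := .win 674 1 673
noncomputable def n1017 : Strat := .move 715 n1016 (.cons 674 n314 .nil)
noncomputable def n1018 : Strat := .move 756 n1003 (.cons 715 n1011 (.cons 919 n1015 (.cons 878 n1017 .nil)))
noncomputable def n1019 : Strat := .move 797 n495 (.cons 841 n1018 .nil)
noncomputable def n1020 : Strat := .move 796 n0 (.cons 795 n1019 .nil)
noncomputable def n1021 : Strat := .move 837 n591 (.cons 796 n437 (.cons 879 n499 (.cons 877 n1020 (.cons 841 n70 .nil))))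
noncomputable def n1022 : Strat := .move 796 n425 (.cons 755 n424 .nil)
noncomputable def n1023 : Strat := .move 756 n831 (.cons 919 n83 .nil)
noncomputable def n1024 : Strat := .move 919 n431 (.cons 756 n239 .nil)
noncomputable def n1025 : Strat := .win 796 6 755
noncomputable def n1026 : Strat := .move 756 n111 (.cons 714 n83 .nil)
noncomputable def n1027 : Strat := .move 755 n1025 (.cons 796 n1026 .nil)
noncomputable def n1028 : Strat := .win 800 4 796
noncomputable def n1029 : Strat := .move 799 n468 (.cons 836 n1028 .nil)
noncomputable def n1030 : Strat := .move 798 n108 (.cons 757 n1029 .nil)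
noncomputable def n1031 : Strat := .move 797 n1023 (.cons 715 n1024 (.cons 919 n1027 (.cons 756 n1030 .nil)))
noncomputable def n1032 : Strat := .move 799 n468 (.cons 836 n9 .nil)
noncomputable def n1033 : Strat := .win 880 1 756
noncomputable def n1034 : Strat := .move 757 n1033 (.cons 880 n105 .nil)
noncomputable def n1035 : Strat := .move 798 n1032 (.cons 800 n1034 .nil)
noncomputable def n1036 : Strat := .move 796 n424 (.cons 961 n1035 .nil)
noncomputable def n1037 : Strat := .win 1002 7 837
noncomputable def n1038 : Strat := .move 961 n446 (.cons 798 n1037 .nil)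
noncomputable def n1039 : Strat := .move 920 n1022 (.cons 961 n1031 (.cons 755 n1036 (.cons 796 n1038 .nil)))
noncomputable def n1040 : Strat := .move 879 n423 (.cons 841 n1039 .nil)
noncomputable def n1041 : Strat := .move 878 n2 (.cons 877 n1040 .nil)
noncomputable def n1042 : Strat := .move 837 n531 (.cons 878 n527 (.cons 797 n536 (.cons 795 n1041 (.cons 841 n75 .nil))))
noncomputable def n1043 : Strat := .move 837 n13 (.cons 799 n437 (.cons 882 n75 (.cons 836 n636 .nil)))
noncomputable def n1044 : Strat := .move 837 n28 (.cons 881 n527 (.cons 800 n70 (.cons 836 n661 .nil)))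
noncomputable def n1045 : Strat := .win 841 0 796
noncomputable def n1046 : Strat := .move 797 n1045 (.cons 841 n523 .nil)
noncomputable def n1047 : Strat := .move 798 n468 (.cons 836 n1046 .nil)
noncomputable def n1048 : Strat := .move 799 n9 (.cons 800 n1047 .nil)
noncomputable def n1049 : Strat := .move 796 n0 (.cons 795 n1048 .nil)
noncomputable def n1050 : Strat := .move 837 n781 (.cons 841 n75 (.cons 878 n1049 .nil))
noncomputable def n1051 : Strat := .move 838 n993 (.cons 715 n994 (.cons 795 n995 (.cons 837 n1002 (.cons 799 n1021 (.cons 881 n1042 (.cons 797 n572 (.cons 879 n500 (.cons 841 n96 (.cons 796 n1043 (.cons 878 n1044 (.cons 880 n1050 .nil)))))))))))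
noncomputable def n1052 : Strat := .move 838 n58 (.cons 797 n98 (.cons 879 n100 (.cons 842 n117 .nil)))
noncomputable def n1053 : Strat := .move 838 n117 (.cons 800 n460 (.cons 715 n166 (.cons 878 n1001 .nil)))
noncomputable def n1054 : Strat := .move 838 n46 (.cons 842 n460 (.cons 798 n51 (.cons 879 n100 .nil)))
noncomputable def n1055 : Strat := .move 838 n58 (.cons 842 n555 (.cons 880 n63 (.cons 797 n98 .nil)))
noncomputable def n1056 : Strat := .move 838 n98 (.cons 801 n623 (.cons 880 n723 .nil))
noncomputable def n1057 : Strat := .move 838 n100 (.cons 883 n689 (.cons 798 n757 .nil))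
noncomputable def n1058 : Strat := .move 838 n98 (.cons 879 n757 (.cons 800 n51 .nil))
noncomputable def n1059 : Strat := .move 838 n100 (.cons 797 n723 (.cons 882 n63 .nil))
noncomputable def n1060 : Strat := .move 881 n884 (.cons 922 n470 .nil)
noncomputable def n1061 : Strat := .win 921 3 757
noncomputable def n1062 : Strat := .move 758 n1061 (.cons 921 n558 .nil)
noncomputable def n1063 : Strat := .move 921 n377 (.cons 962 n978 .nil)
noncomputable def n1064 : Strat := .win 800 2 756
noncomputable def n1065 : Strat := .win 715 7 715
noncomputable def n1066 : Strat := .move 756 n1064 (.cons 800 n1065 .nil)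
noncomputable def n1067 : Strat := .move 799 n1062 (.cons 717 n1063 (.cons 921 n1066 .nil))
noncomputable def n1068 : Strat := .move 757 n1060 (.cons 716 n1067 .nil)
noncomputable def n1069 : Strat := .move 801 n60 (.cons 802 n1068 .nil)
noncomputable def n1070 : Strat := .move 880 n129 (.cons 879 n1069 .nil)
noncomputable def n1071 : Strat := .move 798 n122 (.cons 797 n1070 .nil)
noncomputable def n1072 : Strat := .move 842 n210 (.cons 798 n169 (.cons 880 n177 (.cons 843 n1071 .nil)))
noncomputable def n1073 : Strat := .move 841 n1052 (.cons 842 n1053 (.cons 800 n1054 (.cons 882 n1055 (.cons 797 n1056 (.cons 879 n1057 (.cons 798 n1058 (.cons 880 n1059 (.cons 838 n1072 .nil))))))))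
noncomputable def n1074 : Strat := .move 842 n169 (.cons 843 n218 (.cons 801 n133 .nil))
noncomputable def n1075 : Strat := .move 838 n51 (.cons 878 n238 (.cons 882 n98 .nil))
noncomputable def n1076 : Strat := .move 838 n98 (.cons 802 n51 (.cons 878 n304 .nil))
noncomputable def n1077 : Strat := .move 797 n451 (.cons 756 n573 .nil)
noncomputable def n1078 : Strat := .move 920 n393 (.cons 757 n899 .nil)
noncomputable def n1079 : Strat := .win 797 6 756
noncomputable def n1080 : Strat := .move 757 n1065 (.cons 715 n105 .nil)
noncomputable def n1081 : Strat := .move 756 n1079 (.cons 797 n1080 .nil)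
noncomputable def n1082 : Strat := .win 801 4 797
noncomputable def n1083 : Strat := .move 800 n225 (.cons 837 n1082 .nil)
noncomputable def n1084 : Strat := .move 799 n978 (.cons 758 n1083 .nil)
noncomputable def n1085 : Strat := .move 798 n859 (.cons 716 n1078 (.cons 920 n1081 (.cons 757 n1084 .nil)))
noncomputable def n1086 : Strat := .win 799 3 798
noncomputable def n1087 : Strat := .win 1003 7 838
noncomputable def n1088 : Strat := .move 962 n1086 (.cons 799 n1087 .nil)
noncomputable def n1089 : Strat := .move 921 n1077 (.cons 962 n1085 (.cons 797 n1088 .nil))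
noncomputable def n1090 : Strat := .move 880 n282 (.cons 842 n1089 .nil)
noncomputable def n1091 : Strat := .move 879 n40 (.cons 878 n1090 .nil)
noncomputable def n1092 : Strat := .move 881 n233 (.cons 837 n395 .nil)
noncomputable def n1093 : Strat := .move 882 n30 (.cons 883 n1092 .nil)
noncomputable def n1094 : Strat := .move 880 n282 (.cons 842 n1093 .nil)
noncomputable def n1095 : Strat := .move 879 n40 (.cons 878 n1094 .nil)
noncomputable def n1096 : Strat := .move 838 n304 (.cons 882 n1091 (.cons 801 n1095 (.cons 837 n466 .nil)))
noncomputable def n1097 : Strat := .move 922 n157 (.cons 963 n156 .nil)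
noncomputable def n1098 : Strat := .move 881 n155 (.cons 718 n1097 (.cons 922 n161 .nil))
noncomputable def n1099 : Strat := .move 923 n400 (.cons 964 n1098 .nil)
noncomputable def n1100 : Strat := .move 879 n40 (.cons 878 n1099 .nil)
noncomputable def n1101 : Strat := .move 800 n16 (.cons 801 n1100 .nil)
noncomputable def n1102 : Strat := .move 882 n30 (.cons 883 n1101 .nil)
noncomputable def n1103 : Strat := .move 880 n395 (.cons 920 n619 .nil)
noncomputable def n1104 : Strat := .move 879 n40 (.cons 878 n1103 .nil)
noncomputable def n1105 : Strat := .move 881 n233 (.cons 837 n1104 .nil)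
noncomputable def n1106 : Strat := .move 882 n30 (.cons 883 n1105 .nil)
noncomputable def n1107 : Strat := .move 838 n224 (.cons 882 n65 (.cons 837 n1102 (.cons 799 n238 (.cons 800 n1106 .nil))))
noncomputable def n1108 : Strat := .move 842 n169 (.cons 802 n172 (.cons 843 n199 (.cons 879 n177 .nil)))
noncomputable def n1109 : Strat := .move 923 n189 (.cons 760 n332 .nil)
noncomputable def n1110 : Strat := .move 801 n60 (.cons 802 n1109 .nil)
noncomputable def n1111 : Strat := .move 882 n331 (.cons 838 n1110 .nil)
noncomputable def n1112 : Strat := .move 883 n48 (.cons 884 n1111 .nil)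
noncomputable def n1113 : Strat := .move 842 n202 (.cons 883 n133 (.cons 843 n1112 .nil))
noncomputable def n1114 : Strat := .win 881 4 879
noncomputable def n1115 : Strat := .move 920 n899 (.cons 961 n1114 .nil)
noncomputable def n1116 : Strat := .move 799 n978 (.cons 758 n377 .nil)
noncomputable def n1117 : Strat := .move 921 n1115 (.cons 881 n1116 .nil)
noncomputable def n1118 : Strat := .move 798 n122 (.cons 797 n1117 .nil)
noncomputable def n1119 : Strat := .move 880 n129 (.cons 879 n1118 .nil)
noncomputable def n1120 : Strat := .move 882 n331 (.cons 838 n1119 .nil)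
noncomputable def n1121 : Strat := .move 883 n48 (.cons 884 n1120 .nil)
noncomputable def n1122 : Strat := .move 880 n129 (.cons 879 n1062 .nil)
noncomputable def n1123 : Strat := .move 799 n976 (.cons 843 n1122 .nil)
noncomputable def n1124 : Strat := .move 798 n122 (.cons 797 n1123 .nil)
noncomputable def n1125 : Strat := .move 883 n48 (.cons 884 n1124 .nil)
noncomputable def n1126 : Strat := .win 881 6 758
noncomputable def n1127 : Strat := .move 923 n1126 (.cons 881 n145 .nil)
noncomputable def n1128 : Strat := .move 758 n250 (.cons 717 n1127 .nil)
noncomputable def n1129 : Strat := .move 799 n976 (.cons 843 n1128 .nil)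
noncomputable def n1130 : Strat := .move 798 n122 (.cons 797 n1129 .nil)
noncomputable def n1131 : Strat := .move 882 n331 (.cons 838 n1130 .nil)
noncomputable def n1132 : Strat := .move 883 n48 (.cons 884 n1131 .nil)
noncomputable def n1133 : Strat := .move 842 n133 (.cons 843 n1121 (.cons 797 n202 (.cons 881 n1125 (.cons 880 n1132 .nil))))
noncomputable def n1134 : Strat := .move 759 n355 (.cons 718 n354 .nil)
noncomputable def n1135 : Strat := .move 800 n290 (.cons 838 n1134 .nil)
noncomputable def n1136 : Strat := .move 883 n48 (.cons 884 n1135 .nil)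
noncomputable def n1137 : Strat := .move 801 n60 (.cons 802 n1136 .nil)
noncomputable def n1138 : Strat := .move 842 n1137 (.cons 838 n177 (.cons 884 n300 .nil))
noncomputable def n1139 : Strat := .win 799 2 756
noncomputable def n1140 : Strat := .move 756 n1065 (.cons 715 n1139 .nil)
noncomputable def n1141 : Strat := .move 757 n1060 (.cons 716 n1140 .nil)
noncomputable def n1142 : Strat := .move 880 n129 (.cons 879 n1141 .nil)
noncomputable def n1143 : Strat := .move 798 n122 (.cons 797 n1142 .nil)
noncomputable def n1144 : Strat := .move 800 n290 (.cons 838 n1143 .nil)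
noncomputable def n1145 : Strat := .move 801 n60 (.cons 802 n1144 .nil)
noncomputable def n1146 : Strat := .win 838 4 797
noncomputable def n1147 : Strat := .win 761 5 757
noncomputable def n1148 : Strat := .win 678 1 677
noncomputable def n1149 : Strat := .win 882 1 718
noncomputable def n1150 : Strat := .move 719 n1148 (.cons 678 n1149 .nil)
noncomputable def n1151 : Strat := .move 760 n1147 (.cons 761 n1150 .nil)
noncomputable def n1152 : Strat := .move 800 n1146 (.cons 838 n1151 .nil)
noncomputable def n1153 : Strat := .move 799 n976 (.cons 843 n1152 .nil)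
noncomputable def n1154 : Strat := .move 798 n122 (.cons 797 n1153 .nil)
noncomputable def n1155 : Strat := .move 801 n60 (.cons 802 n1154 .nil)
noncomputable def n1156 : Strat := .move 842 n133 (.cons 843 n1145 (.cons 880 n300 (.cons 798 n169 (.cons 881 n1155 .nil))))
noncomputable def n1157 : Strat := .move 841 n1074 (.cons 799 n1075 (.cons 881 n1076 (.cons 884 n1096 (.cons 842 n1107 (.cons 838 n1108 (.cons 800 n1113 (.cons 801 n1133 (.cons 879 n1138 (.cons 883 n1156 .nil)))))))))
noncomputable def n1158 : Strat := .move 801 n60 (.cons 802 n216 .nil)
noncomputable def n1159 : Strat := .move 883 n48 (.cons 884 n1158 .nil)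
noncomputable def n1160 : Strat := .move 842 n177 (.cons 843 n1159 (.cons 883 n210 .nil))
noncomputable def n1161 : Strat := .move 838 n63 (.cons 796 n304 (.cons 800 n100 .nil))
noncomputable def n1162 : Strat := .move 838 n100 (.cons 884 n63 (.cons 796 n238 .nil))
noncomputable def n1163 : Strat := .move 879 n105 (.cons 716 n104 .nil)
noncomputable def n1164 : Strat := .move 882 n233 (.cons 837 n30 .nil)
noncomputable def n1165 : Strat := .move 881 n884 (.cons 922 n1164 .nil)
noncomputable def n1166 : Strat := .move 880 n872 (.cons 962 n897 (.cons 756 n901 (.cons 921 n1165 .nil)))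
noncomputable def n1167 : Strat := .move 757 n1163 (.cons 716 n1166 (.cons 879 n905 .nil))
noncomputable def n1168 : Strat := .move 798 n258 (.cons 842 n1167 .nil)
noncomputable def n1169 : Strat := .move 797 n42 (.cons 796 n1168 .nil)
noncomputable def n1170 : Strat := .move 838 n238 (.cons 800 n1169 (.cons 883 n509 (.cons 837 n444 .nil)))
noncomputable def n1171 : Strat := .move 798 n316 (.cons 756 n269 .nil)
noncomputable def n1172 : Strat := .move 797 n42 (.cons 796 n1171 .nil)
noncomputable def n1173 : Strat := .move 799 n225 (.cons 837 n1172 .nil)
noncomputable def n1174 : Strat := .move 800 n16 (.cons 801 n1173 .nil)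
noncomputable def n1175 : Strat := .move 838 n281 (.cons 800 n54 (.cons 837 n1001 (.cons 881 n304 (.cons 882 n1174 .nil))))
noncomputable def n1176 : Strat := .move 842 n177 (.cons 884 n373 (.cons 843 n364 (.cons 797 n169 .nil)))
noncomputable def n1177 : Strat := .move 883 n48 (.cons 884 n1134 .nil)
noncomputable def n1178 : Strat := .move 800 n290 (.cons 838 n1177 .nil)
noncomputable def n1179 : Strat := .move 801 n60 (.cons 802 n1178 .nil)
noncomputable def n1180 : Strat := .move 842 n128 (.cons 801 n210 (.cons 843 n1179 .nil))
noncomputable def n1181 : Strat := .move 881 n374 (.cons 843 n886 .nil)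
noncomputable def n1182 : Strat := .move 880 n129 (.cons 879 n1181 .nil)
noncomputable def n1183 : Strat := .move 801 n60 (.cons 802 n1182 .nil)
noncomputable def n1184 : Strat := .win 882 1 758
noncomputable def n1185 : Strat := .move 922 n1184 (.cons 882 n234 .nil)
noncomputable def n1186 : Strat := .move 759 n154 (.cons 718 n1185 .nil)
noncomputable def n1187 : Strat := .move 881 n374 (.cons 843 n1186 .nil)
noncomputable def n1188 : Strat := .move 880 n129 (.cons 879 n1187 .nil)
noncomputable def n1189 : Strat := .move 800 n290 (.cons 838 n1188 .nil)
noncomputable def n1190 : Strat := .move 801 n60 (.cons 802 n1189 .nil)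
noncomputable def n1191 : Strat := .move 842 n210 (.cons 843 n1145 (.cons 879 n128 (.cons 799 n1183 (.cons 798 n1190 .nil))))
noncomputable def n1192 : Strat := .move 882 n331 (.cons 838 n1109 .nil)
noncomputable def n1193 : Strat := .move 801 n60 (.cons 802 n1192 .nil)
noncomputable def n1194 : Strat := .move 883 n48 (.cons 884 n1193 .nil)
noncomputable def n1195 : Strat := .move 842 n1194 (.cons 838 n169 (.cons 802 n383 .nil))
noncomputable def n1196 : Strat := .move 882 n331 (.cons 838 n886 .nil)
noncomputable def n1197 : Strat := .move 881 n374 (.cons 843 n1196 .nil)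
noncomputable def n1198 : Strat := .move 880 n129 (.cons 879 n1197 .nil)
noncomputable def n1199 : Strat := .move 883 n48 (.cons 884 n1198 .nil)
noncomputable def n1200 : Strat := .move 842 n210 (.cons 843 n1121 (.cons 798 n383 (.cons 880 n177 (.cons 799 n1199 .nil))))
noncomputable def n1201 : Strat := .move 841 n1160 (.cons 881 n1161 (.cons 799 n1162 (.cons 802 n1170 (.cons 842 n1175 (.cons 838 n1176 (.cons 882 n1180 (.cons 883 n1191 (.cons 797 n1195 (.cons 801 n1200 .nil)))))))))
noncomputable def n1202 : Strat := .move 841 n100 (.cons 884 n63 (.cons 796 n238 .nil))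
noncomputable def n1203 : Strat := .move 841 n51 (.cons 878 n238 (.cons 882 n98 .nil))
noncomputable def n1204 : Strat := .move 879 n80 (.cons 714 n79 .nil)
noncomputable def n1205 : Strat := .win 756 3 714
noncomputable def n1206 : Strat := .win 674 3 673
noncomputable def n1207 : Strat := .win 672 7 672
noncomputable def n1208 : Strat := .win 754 7 713
noncomputable def n1209 : Strat := .move 713 n1207 (.cons 672 n1208 .nil)
noncomputable def n1210 : Strat := .move 714 n1206 (.cons 674 n1209 .nil)
noncomputable def n1211 : Strat := .move 715 n1205 (.cons 756 n1210 .nil)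
noncomputable def n1212 : Strat := .win 879 6 755
noncomputable def n1213 : Strat := .move 919 n484 (.cons 961 n786 .nil)
noncomputable def n1214 : Strat := .move 920 n1212 (.cons 879 n1213 .nil)
noncomputable def n1215 : Strat := .move 755 n1204 (.cons 879 n1211 (.cons 714 n1214 .nil))
noncomputable def n1216 : Strat := .move 878 n2 (.cons 877 n1215 .nil)
noncomputable def n1217 : Strat := .move 796 n0 (.cons 795 n1216 .nil)
noncomputable def n1218 : Strat := .move 837 n70 (.cons 796 n24 (.cons 880 n1217 .nil))
noncomputable def n1219 : Strat := .move 838 n55 (.cons 878 n1202 (.cons 796 n1203 (.cons 882 n943 (.cons 842 n1021 (.cons 841 n1218 .nil)))))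
noncomputable def n1220 : Strat := .move 841 n98 (.cons 802 n51 (.cons 878 n304 .nil))
noncomputable def n1221 : Strat := .move 841 n63 (.cons 796 n304 (.cons 800 n100 .nil))
noncomputable def n1222 : Strat := .move 960 n788 (.cons 1002 n481 .nil)
noncomputable def n1223 : Strat := .move 961 n789 (.cons 920 n1222 .nil)
noncomputable def n1224 : Strat := .move 755 n785 (.cons 715 n81 .nil)
noncomputable def n1225 : Strat := .move 756 n784 (.cons 797 n1224 .nil)
noncomputable def n1226 : Strat := .move 919 n477 (.cons 797 n1223 (.cons 960 n1225 .nil))
noncomputable def n1227 : Strat := .move 796 n0 (.cons 795 n1226 .nil)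
noncomputable def n1228 : Strat := .move 878 n2 (.cons 877 n1227 .nil)
noncomputable def n1229 : Strat := .move 837 n75 (.cons 878 n38 (.cons 798 n1228 .nil))
noncomputable def n1230 : Strat := .move 838 n66 (.cons 796 n1220 (.cons 878 n1221 (.cons 800 n822 (.cons 842 n1042 (.cons 841 n1229 .nil)))))
noncomputable def n1231 : Strat := .move 841 n98 (.cons 879 n757 (.cons 800 n51 .nil))
noncomputable def n1232 : Strat := .move 837 n70 (.cons 882 n77 (.cons 795 n417 .nil))
noncomputable def n1233 : Strat := .move 837 n70 (.cons 881 n1228 (.cons 795 n417 .nil))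
noncomputable def n1234 : Strat := .move 715 n1206 (.cons 674 n1205 .nil)
noncomputable def n1235 : Strat := .move 714 n521 (.cons 879 n1234 .nil)
noncomputable def n1236 : Strat := .move 755 n1204 (.cons 920 n1235 (.cons 879 n1211 (.cons 714 n1214 .nil)))
noncomputable def n1237 : Strat := .move 878 n2 (.cons 877 n1236 .nil)
noncomputable def n1238 : Strat := .move 796 n0 (.cons 795 n1237 .nil)
noncomputable def n1239 : Strat := .move 837 n781 (.cons 796 n19 (.cons 878 n33 (.cons 841 n1238 .nil)))
noncomputable def n1240 : Strat := .move 838 n73 (.cons 837 n1231 (.cons 878 n1232 (.cons 882 n933 (.cons 841 n1233 (.cons 880 n1239 .nil)))))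
noncomputable def n1241 : Strat := .move 841 n100 (.cons 797 n723 (.cons 882 n63 .nil))
noncomputable def n1242 : Strat := .move 837 n75 (.cons 800 n72 (.cons 877 n542 .nil))
noncomputable def n1243 : Strat := .move 837 n75 (.cons 799 n1217 (.cons 877 n542 .nil))
noncomputable def n1244 : Strat := .move 838 n78 (.cons 837 n1241 (.cons 796 n1242 (.cons 800 n804 (.cons 841 n1243 (.cons 798 n1239 .nil)))))
noncomputable def n1245 : Strat := .win 880 6 757
noncomputable def n1246 : Strat := .move 922 n630 (.cons 963 n1245 .nil)
noncomputable def n1247 : Strat := .move 757 n470 (.cons 716 n1246 .nil)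
noncomputable def n1248 : Strat := .win 717 3 716
noncomputable def n1249 : Strat := .win 800 0 755
noncomputable def n1250 : Strat := .win 754 0 754
noncomputable def n1251 : Strat := .move 755 n1249 (.cons 800 n1250 .nil)
noncomputable def n1252 : Strat := .move 756 n1065 (.cons 715 n1251 .nil)
noncomputable def n1253 : Strat := .move 799 n557 (.cons 921 n1252 .nil)
noncomputable def n1254 : Strat := .move 758 n1248 (.cons 717 n1253 .nil)
noncomputable def n1255 : Strat := .move 880 n884 (.cons 922 n1254 .nil)
noncomputable def n1256 : Strat := .move 757 n470 (.cons 716 n1255 .nil)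
noncomputable def n1257 : Strat := .win 759 3 758
noncomputable def n1258 : Strat := .win 802 4 798
noncomputable def n1259 : Strat := .move 801 n1258 (.cons 802 n1146 .nil)
noncomputable def n1260 : Strat := .move 800 n1257 (.cons 759 n1259 .nil)
noncomputable def n1261 : Strat := .move 880 n376 (.cons 758 n1260 .nil)
noncomputable def n1262 : Strat := .move 921 n770 (.cons 962 n1261 .nil)
noncomputable def n1263 : Strat := .move 921 n770 (.cons 962 n1260 .nil)
noncomputable def n1264 : Strat := .move 838 n1082 (.cons 801 n225 .nil)
noncomputable def n1265 : Strat := .move 800 n1257 (.cons 759 n1264 .nil)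
noncomputable def n1266 : Strat := .win 883 4 879
noncomputable def n1267 : Strat := .win 919 5 878
noncomputable def n1268 : Strat := .move 882 n1266 (.cons 883 n1267 .nil)
noncomputable def n1269 : Strat := .move 920 n899 (.cons 961 n1268 .nil)
noncomputable def n1270 : Strat := .move 880 n376 (.cons 758 n1269 .nil)
noncomputable def n1271 : Strat := .move 921 n770 (.cons 962 n1270 .nil)
noncomputable def n1272 : Strat := .move 799 n1262 (.cons 880 n1263 (.cons 962 n1265 (.cons 800 n1271 .nil)))
noncomputable def n1273 : Strat := .move 922 n630 (.cons 963 n1272 .nil)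
noncomputable def n1274 : Strat := .win 797 7 756
noncomputable def n1275 : Strat := .move 756 n1274 (.cons 797 n1065 .nil)
noncomputable def n1276 : Strat := .move 921 n899 (.cons 961 n1275 .nil)
noncomputable def n1277 : Strat := .move 920 n898 (.cons 879 n1276 .nil)
noncomputable def n1278 : Strat := .win 838 2 838
noncomputable def n1279 : Strat := .win 884 2 839
noncomputable def n1280 : Strat := .move 883 n1278 (.cons 838 n1279 .nil)
noncomputable def n1281 : Strat := .win 883 2 838
noncomputable def n1282 : Strat := .move 838 n1281 (.cons 883 n233 .nil)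
noncomputable def n1283 : Strat := .win 799 6 758
noncomputable def n1284 : Strat := .move 923 n616 (.cons 924 n1283 .nil)
noncomputable def n1285 : Strat := .move 882 n1280 (.cons 884 n1282 (.cons 838 n1284 .nil))
noncomputable def n1286 : Strat := .move 879 n858 (.cons 920 n1285 .nil)
noncomputable def n1287 : Strat := .move 758 n1248 (.cons 717 n1286 .nil)
noncomputable def n1288 : Strat := .move 880 n1254 (.cons 799 n1277 (.cons 921 n1287 .nil))
noncomputable def n1289 : Strat := .move 757 n470 (.cons 716 n1288 .nil)
noncomputable def n1290 : Strat := .win 799 7 757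
noncomputable def n1291 : Strat := .move 922 n630 (.cons 963 n1290 .nil)
noncomputable def n1292 : Strat := .move 757 n470 (.cons 716 n1291 .nil)
noncomputable def n1293 : Strat := .move 881 n1247 (.cons 963 n1256 (.cons 757 n1273 (.cons 922 n1289 (.cons 880 n1292 .nil))))
noncomputable def n1294 : Strat := .win 799 6 675
noncomputable def n1295 : Strat := .win 715 7 674
noncomputable def n1296 : Strat := .win 633 7 633
noncomputable def n1297 : Strat := .move 674 n1295 (.cons 715 n1296 .nil)
noncomputable def n1298 : Strat := .move 675 n1294 (.cons 799 n1297 .nil)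
noncomputable def n1299 : Strat := .win 676 3 675
noncomputable def n1300 : Strat := .win 674 7 674
noncomputable def n1301 : Strat := .win 759 0 714
noncomputable def n1302 : Strat := .win 713 0 713
noncomputable def n1303 : Strat := .move 714 n1301 (.cons 759 n1302 .nil)
noncomputable def n1304 : Strat := .move 715 n1300 (.cons 674 n1303 .nil)
noncomputable def n1305 : Strat := .move 758 n641 (.cons 880 n1304 .nil)
noncomputable def n1306 : Strat := .move 717 n1299 (.cons 676 n1305 .nil)
noncomputable def n1307 : Strat := .move 800 n1082 (.cons 801 n225 .nil)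
noncomputable def n1308 : Strat := .move 838 n894 (.cons 879 n1307 .nil)
noncomputable def n1309 : Strat := .move 799 n1306 (.cons 758 n1308 .nil)
noncomputable def n1310 : Strat := .win 758 3 716
noncomputable def n1311 : Strat := .win 756 7 715
noncomputable def n1312 : Strat := .move 880 n1310 (.cons 758 n1311 .nil)
noncomputable def n1313 : Strat := .move 717 n1299 (.cons 676 n1312 .nil)
noncomputable def n1314 : Strat := .move 715 n1300 (.cons 674 n1313 .nil)
noncomputable def n1315 : Strat := .win 720 4 716
noncomputable def n1316 : Strat := .win 756 4 715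
noncomputable def n1317 : Strat := .move 719 n1315 (.cons 720 n1316 .nil)
noncomputable def n1318 : Strat := .move 718 n764 (.cons 677 n1317 .nil)
noncomputable def n1319 : Strat := .move 758 n641 (.cons 880 n1318 .nil)
noncomputable def n1320 : Strat := .move 717 n1299 (.cons 676 n1319 .nil)
noncomputable def n1321 : Strat := .move 799 n293 (.cons 675 n1320 .nil)
noncomputable def n1322 : Strat := .move 716 n1298 (.cons 675 n1309 (.cons 799 n1314 (.cons 674 n1321 .nil)))
noncomputable def n1323 : Strat := .win 797 1 674
noncomputable def n1324 : Strat := .move 675 n1323 (.cons 797 n1297 .nil)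
noncomputable def n1325 : Strat := .move 838 n894 (.cons 879 n1324 .nil)
noncomputable def n1326 : Strat := .win 717 3 675
noncomputable def n1327 : Strat := .win 635 3 634
noncomputable def n1328 : Strat := .move 676 n1326 (.cons 717 n1327 .nil)
noncomputable def n1329 : Strat := .move 675 n1294 (.cons 799 n1328 .nil)
noncomputable def n1330 : Strat := .win 755 4 714
noncomputable def n1331 : Strat := .win 719 4 715
noncomputable def n1332 : Strat := .move 756 n1330 (.cons 755 n1331 .nil)
noncomputable def n1333 : Strat := .win 760 0 715
noncomputable def n1334 : Strat := .win 714 0 714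
noncomputable def n1335 : Strat := .move 759 n1333 (.cons 760 n1334 .nil)
noncomputable def n1336 : Strat := .win 799 3 676
noncomputable def n1337 : Strat := .win 678 5 674
noncomputable def n1338 : Strat := .move 677 n1336 (.cons 799 n1337 .nil)
noncomputable def n1339 : Strat := .move 758 n1303 (.cons 713 n1335 (.cons 759 n1338 .nil))
noncomputable def n1340 : Strat := .move 718 n1332 (.cons 719 n1339 .nil)
noncomputable def n1341 : Strat := .move 715 n1300 (.cons 674 n1340 .nil)
noncomputable def n1342 : Strat := .move 717 n1299 (.cons 676 n1341 .nil)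
noncomputable def n1343 : Strat := .move 716 n1298 (.cons 799 n1325 (.cons 674 n1329 (.cons 675 n1342 .nil)))
noncomputable def n1344 : Strat := .move 675 n1323 (.cons 797 n1328 .nil)
noncomputable def n1345 : Strat := .move 838 n894 (.cons 879 n1344 .nil)
noncomputable def n1346 : Strat := .win 880 7 715
noncomputable def n1347 : Strat := .win 712 0 712
noncomputable def n1348 : Strat := .win 758 0 713
noncomputable def n1349 : Strat := .move 713 n1347 (.cons 712 n1348 .nil)
noncomputable def n1350 : Strat := .move 797 n808 (.cons 673 n893 .nil)
noncomputable def n1351 : Strat := .move 714 n1349 (.cons 758 n1350 .nil)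
noncomputable def n1352 : Strat := .move 838 n894 (.cons 879 n1351 .nil)
noncomputable def n1353 : Strat := .move 756 n1346 (.cons 880 n1352 .nil)
noncomputable def n1354 : Strat := .move 715 n1300 (.cons 674 n1353 .nil)
noncomputable def n1355 : Strat := .move 716 n1314 (.cons 715 n1345 (.cons 676 n1354 .nil))
noncomputable def n1356 : Strat := .move 675 n1294 (.cons 799 n1323 .nil)
noncomputable def n1357 : Strat := .move 838 n894 (.cons 879 n1356 .nil)
noncomputable def n1358 : Strat := .move 718 n1331 (.cons 719 n1330 .nil)
noncomputable def n1359 : Strat := .move 717 n1299 (.cons 676 n1358 .nil)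
noncomputable def n1360 : Strat := .move 756 n1346 (.cons 880 n1359 .nil)
noncomputable def n1361 : Strat := .move 715 n1300 (.cons 674 n1360 .nil)
noncomputable def n1362 : Strat := .move 716 n1298 (.cons 674 n1357 (.cons 675 n1361 .nil))
noncomputable def n1363 : Strat := .win 799 3 757
noncomputable def n1364 : Strat := .move 756 n1065 (.cons 715 n1274 .nil)
noncomputable def n1365 : Strat := .move 921 n1363 (.cons 799 n1364 .nil)
noncomputable def n1366 : Strat := .move 758 n1248 (.cons 717 n1365 .nil)
noncomputable def n1367 : Strat := .move 920 n898 (.cons 879 n899 .nil)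
noncomputable def n1368 : Strat := .move 921 n1274 (.cons 797 n1367 .nil)
noncomputable def n1369 : Strat := .move 756 n1065 (.cons 715 n1368 .nil)
noncomputable def n1370 : Strat := .move 921 n1363 (.cons 799 n1367 .nil)
noncomputable def n1371 : Strat := .move 758 n1248 (.cons 717 n1370 .nil)
noncomputable def n1372 : Strat := .move 715 n1300 (.cons 674 n1311 .nil)
noncomputable def n1373 : Strat := .move 716 n1299 (.cons 676 n1372 .nil)
noncomputable def n1374 : Strat := .move 717 n1310 (.cons 758 n1373 .nil)
noncomputable def n1375 : Strat := .move 880 n1366 (.cons 758 n1369 (.cons 756 n1371 (.cons 921 n1374 .nil)))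
noncomputable def n1376 : Strat := .win 880 3 716
noncomputable def n1377 : Strat := .move 758 n1376 (.cons 880 n1304 .nil)
noncomputable def n1378 : Strat := .move 717 n1299 (.cons 676 n1377 .nil)
noncomputable def n1379 : Strat := .move 716 n1329 (.cons 676 n1298 (.cons 675 n1378 .nil))
noncomputable def n1380 : Strat := .win 838 1 715
noncomputable def n1381 : Strat := .move 879 n1380 (.cons 838 n858 .nil)
noncomputable def n1382 : Strat := .move 880 n1311 (.cons 756 n1381 .nil)
noncomputable def n1383 : Strat := .move 715 n1300 (.cons 674 n1382 .nil)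
noncomputable def n1384 : Strat := .move 716 n1298 (.cons 674 n1357 (.cons 675 n1383 .nil))
noncomputable def n1385 : Strat := .move 838 n894 (.cons 879 n1323 .nil)
noncomputable def n1386 : Strat := .move 675 n1294 (.cons 799 n1385 .nil)
noncomputable def n1387 : Strat := .move 880 n1310 (.cons 758 n1381 .nil)
noncomputable def n1388 : Strat := .move 717 n1299 (.cons 676 n1387 .nil)
noncomputable def n1389 : Strat := .move 716 n1329 (.cons 799 n1345 (.cons 717 n1386 (.cons 675 n1388 .nil)))
noncomputable def n1390 : Strat := .win 963 6 798
noncomputable def n1391 : Strat := .move 920 n899 (.cons 961 n898 .nil)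
noncomputable def n1392 : Strat := .move 922 n1390 (.cons 963 n1391 .nil)
noncomputable def n1393 : Strat := .move 921 n1363 (.cons 799 n1392 .nil)
noncomputable def n1394 : Strat := .move 758 n1248 (.cons 717 n1393 .nil)
noncomputable def n1395 : Strat := .move 799 n1249 (.cons 800 n1250 .nil)
noncomputable def n1396 : Strat := .win 801 0 756
noncomputable def n1397 : Strat := .win 799 0 755
noncomputable def n1398 : Strat := .move 800 n1396 (.cons 801 n1397 .nil)
noncomputable def n1399 : Strat := .win 796 4 755
noncomputable def n1400 : Strat := .win 760 4 756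
noncomputable def n1401 : Strat := .move 797 n1399 (.cons 796 n1400 .nil)
noncomputable def n1402 : Strat := .move 759 n1398 (.cons 799 n1401 .nil)
noncomputable def n1403 : Strat := .win 799 0 754
noncomputable def n1404 : Strat := .win 712 2 712
noncomputable def n1405 : Strat := .win 714 2 713
noncomputable def n1406 : Strat := .move 713 n1404 (.cons 712 n1405 .nil)
noncomputable def n1407 : Strat := .move 754 n1403 (.cons 799 n1406 .nil)
noncomputable def n1408 : Strat := .win 794 4 753
noncomputable def n1409 : Strat := .win 796 4 754
noncomputable def n1410 : Strat := .move 795 n1408 (.cons 794 n1409 .nil)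
noncomputable def n1411 : Strat := .move 754 n1406 (.cons 714 n1410 .nil)
noncomputable def n1412 : Strat := .move 755 n1395 (.cons 754 n1402 (.cons 800 n1407 (.cons 799 n1411 .nil)))
noncomputable def n1413 : Strat := .move 756 n1065 (.cons 715 n1412 .nil)
noncomputable def n1414 : Strat := .move 758 n1248 (.cons 717 n1413 .nil)
noncomputable def n1415 : Strat := .move 880 n1394 (.cons 758 n1369 (.cons 921 n1414 .nil))
noncomputable def n1416 : Strat := .move 757 n1322 (.cons 880 n1343 (.cons 799 n1355 (.cons 758 n1362 (.cons 838 n1375 (.cons 756 n1379 (.cons 717 n1384 (.cons 715 n1389 (.cons 716 n1415 .nil))))))))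
noncomputable def n1417 : Strat := .move 880 n884 (.cons 922 n1277 .nil)
noncomputable def n1418 : Strat := .move 881 n470 (.cons 716 n1417 .nil)
noncomputable def n1419 : Strat := .move 881 n884 (.cons 922 n1277 .nil)
noncomputable def n1420 : Strat := .win 759 4 755
noncomputable def n1421 : Strat := .win 795 0 795
noncomputable def n1422 : Strat := .move 796 n1420 (.cons 759 n1421 .nil)
noncomputable def n1423 : Strat := .move 758 n1248 (.cons 717 n1422 .nil)
noncomputable def n1424 : Strat := .move 797 n896 (.cons 921 n1423 .nil)
noncomputable def n1425 : Strat := .move 756 n1065 (.cons 715 n1424 .nil)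
noncomputable def n1426 : Strat := .move 883 n1279 (.cons 884 n1278 .nil)
noncomputable def n1427 : Strat := .win 838 0 837
noncomputable def n1428 : Strat := .win 836 2 836
noncomputable def n1429 : Strat := .win 877 5 836
noncomputable def n1430 : Strat := .move 878 n1428 (.cons 836 n1429 .nil)
noncomputable def n1431 : Strat := .move 837 n1427 (.cons 838 n1430 .nil)
noncomputable def n1432 : Strat := .win 925 0 880
noncomputable def n1433 : Strat := .win 923 0 879
noncomputable def n1434 : Strat := .move 924 n1432 (.cons 925 n1433 .nil)
noncomputable def n1435 : Strat := .move 883 n1279 (.cons 884 n1434 .nil)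
noncomputable def n1436 : Strat := .move 882 n1282 (.cons 837 n1426 (.cons 883 n1431 (.cons 838 n1435 .nil)))
noncomputable def n1437 : Strat := .move 879 n858 (.cons 920 n1436 .nil)
noncomputable def n1438 : Strat := .move 881 n884 (.cons 922 n1437 .nil)
noncomputable def n1439 : Strat := .move 880 n1419 (.cons 881 n1425 (.cons 797 n1438 .nil))
noncomputable def n1440 : Strat := .move 716 n294 (.cons 881 n1345 .nil)
noncomputable def n1441 : Strat := .move 756 n1346 (.cons 880 n1358 .nil)
noncomputable def n1442 : Strat := .move 717 n1299 (.cons 676 n1441 .nil)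
noncomputable def n1443 : Strat := .move 715 n1300 (.cons 674 n1442 .nil)
noncomputable def n1444 : Strat := .move 716 n294 (.cons 881 n1443 .nil)
noncomputable def n1445 : Strat := .move 757 n1418 (.cons 716 n1439 (.cons 881 n1355 (.cons 715 n1440 (.cons 879 n1444 .nil))))
noncomputable def n1446 : Strat := .move 716 n294 (.cons 881 n1298 .nil)
noncomputable def n1447 : Strat := .move 881 n884 (.cons 922 n1254 .nil)
noncomputable def n1448 : Strat := .win 881 6 757
noncomputable def n1449 : Strat := .move 921 n1390 (.cons 963 n1367 .nil)
noncomputable def n1450 : Strat := .move 922 n1448 (.cons 881 n1449 .nil)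
noncomputable def n1451 : Strat := .win 719 5 715
noncomputable def n1452 : Strat := .win 799 3 717
noncomputable def n1453 : Strat := .move 718 n1451 (.cons 719 n1452 .nil)
noncomputable def n1454 : Strat := .move 759 n1401 (.cons 760 n1453 .nil)
noncomputable def n1455 : Strat := .move 756 n1065 (.cons 715 n1454 .nil)
noncomputable def n1456 : Strat := .move 758 n1248 (.cons 717 n1455 .nil)
noncomputable def n1457 : Strat := .move 881 n884 (.cons 922 n1456 .nil)
noncomputable def n1458 : Strat := .move 880 n1366 (.cons 797 n1447 (.cons 758 n1450 (.cons 921 n1457 .nil)))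
noncomputable def n1459 : Strat := .move 881 n470 (.cons 716 n1246 .nil)
noncomputable def n1460 : Strat := .move 757 n1446 (.cons 716 n1458 (.cons 715 n1459 (.cons 881 n1375 .nil)))
noncomputable def n1461 : Strat := .move 799 n629 (.cons 757 n1262 .nil)
noncomputable def n1462 : Strat := .move 922 n630 (.cons 963 n1461 .nil)
noncomputable def n1463 : Strat := .move 799 n629 (.cons 757 n1265 .nil)
noncomputable def n1464 : Strat := .move 922 n630 (.cons 963 n1463 .nil)
noncomputable def n1465 : Strat := .win 882 5 878
noncomputable def n1466 : Strat := .win 918 5 877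
noncomputable def n1467 : Strat := .move 919 n1465 (.cons 882 n1466 .nil)
noncomputable def n1468 : Strat := .move 920 n899 (.cons 961 n1467 .nil)
noncomputable def n1469 : Strat := .win 1003 3 839
noncomputable def n1470 : Strat := .win 838 7 797
noncomputable def n1471 : Strat := .move 797 n1470 (.cons 838 n871 .nil)
noncomputable def n1472 : Strat := .move 962 n1469 (.cons 1003 n1471 .nil)
noncomputable def n1473 : Strat := .move 921 n1468 (.cons 920 n1472 .nil)
noncomputable def n1474 : Strat := .move 880 n824 (.cons 757 n1473 .nil)
noncomputable def n1475 : Strat := .move 922 n630 (.cons 963 n1474 .nil)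
noncomputable def n1476 : Strat := .move 922 n629 (.cons 757 n1262 .nil)
noncomputable def n1477 : Strat := .move 922 n629 (.cons 757 n1265 .nil)
noncomputable def n1478 : Strat := .move 758 n558 (.cons 717 n557 .nil)
noncomputable def n1479 : Strat := .move 758 n558 (.cons 717 n1252 .nil)
noncomputable def n1480 : Strat := .move 757 n884 (.cons 922 n1479 .nil)
noncomputable def n1481 : Strat := .move 921 n770 (.cons 962 n1468 .nil)
noncomputable def n1482 : Strat := .move 922 n824 (.cons 757 n1481 .nil)
noncomputable def n1483 : Strat := .move 880 n414 (.cons 962 n1478 (.cons 921 n1480 (.cons 758 n1482 .nil)))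
noncomputable def n1484 : Strat := .move 718 n765 (.cons 759 n764 .nil)
noncomputable def n1485 : Strat := .move 717 n640 (.cons 676 n1484 .nil)
noncomputable def n1486 : Strat := .win 923 6 758
noncomputable def n1487 : Strat := .move 882 n1486 (.cons 923 n1280 .nil)
noncomputable def n1488 : Strat := .move 880 n557 (.cons 921 n1487 .nil)
noncomputable def n1489 : Strat := .move 758 n761 (.cons 880 n1485 (.cons 717 n1488 .nil))
noncomputable def n1490 : Strat := .move 799 n1476 (.cons 758 n1477 (.cons 759 n1483 (.cons 922 n1489 .nil)))
noncomputable def n1491 : Strat := .win 800 3 758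
noncomputable def n1492 : Strat := .move 759 n654 (.cons 718 n1491 .nil)
noncomputable def n1493 : Strat := .move 758 n769 (.cons 880 n1492 .nil)
noncomputable def n1494 : Strat := .move 921 n770 (.cons 962 n1493 .nil)
noncomputable def n1495 : Strat := .move 799 n629 (.cons 757 n1494 .nil)
noncomputable def n1496 : Strat := .move 922 n630 (.cons 963 n1495 .nil)
noncomputable def n1497 : Strat := .move 799 n1262 (.cons 758 n1265 (.cons 800 n1271 .nil))
noncomputable def n1498 : Strat := .move 922 n630 (.cons 963 n1497 .nil)
noncomputable def n1499 : Strat := .move 757 n1254 (.cons 799 n1277 (.cons 921 n1287 .nil))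
noncomputable def n1500 : Strat := .move 837 n7 (.cons 882 n413 .nil)
noncomputable def n1501 : Strat := .win 797 7 797
noncomputable def n1502 : Strat := .move 962 n1501 (.cons 797 n1469 .nil)
noncomputable def n1503 : Strat := .move 797 n573 (.cons 962 n871 .nil)
noncomputable def n1504 : Strat := .move 879 n392 (.cons 919 n393 .nil)
noncomputable def n1505 : Strat := .move 920 n899 (.cons 961 n1504 .nil)
noncomputable def n1506 : Strat := .move 921 n1502 (.cons 1003 n1503 (.cons 797 n1505 .nil))
noncomputable def n1507 : Strat := .move 882 n1281 (.cons 883 n1506 .nil)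
noncomputable def n1508 : Strat := .win 879 3 797
noncomputable def n1509 : Strat := .win 921 1 797
noncomputable def n1510 : Strat := .move 961 n1508 (.cons 879 n1509 .nil)
noncomputable def n1511 : Strat := .move 879 n107 (.cons 961 n393 .nil)
noncomputable def n1512 : Strat := .move 921 n573 (.cons 962 n899 .nil)
noncomputable def n1513 : Strat := .move 879 n948 (.cons 755 n393 .nil)
noncomputable def n1514 : Strat := .move 920 n1510 (.cons 921 n1511 (.cons 879 n1512 (.cons 961 n1513 .nil)))
noncomputable def n1515 : Strat := .move 796 n1421 (.cons 795 n1514 .nil)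
noncomputable def n1516 : Strat := .move 920 n107 (.cons 961 n393 .nil)
noncomputable def n1517 : Strat := .move 878 n831 (.cons 919 n1429 .nil)
noncomputable def n1518 : Strat := .move 879 n1516 (.cons 757 n1517 .nil)
noncomputable def n1519 : Strat := .move 756 n102 (.cons 715 n1518 .nil)
noncomputable def n1520 : Strat := .move 797 n897 (.cons 715 n872 (.cons 756 n1515 (.cons 921 n1519 .nil)))
noncomputable def n1521 : Strat := .move 838 n1500 (.cons 837 n1507 (.cons 882 n1520 .nil))
noncomputable def n1522 : Strat := .move 962 n1086 (.cons 799 n1469 .nil)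
noncomputable def n1523 : Strat := .move 882 n1266 (.cons 883 n1504 .nil)
noncomputable def n1524 : Strat := .move 920 n899 (.cons 961 n1523 .nil)
noncomputable def n1525 : Strat := .move 921 n378 (.cons 758 n1522 (.cons 799 n1524 .nil))
noncomputable def n1526 : Strat := .move 797 n871 (.cons 756 n1470 .nil)
noncomputable def n1527 : Strat := .move 962 n1469 (.cons 1003 n1526 .nil)
noncomputable def n1528 : Strat := .win 879 4 878
noncomputable def n1529 : Strat := .move 919 n1528 (.cons 879 n1466 .nil)
noncomputable def n1530 : Strat := .move 882 n1266 (.cons 883 n1529 .nil)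
noncomputable def n1531 : Strat := .move 920 n899 (.cons 961 n1530 .nil)
noncomputable def n1532 : Strat := .move 799 n376 (.cons 758 n1531 .nil)
noncomputable def n1533 : Strat := .move 921 n378 (.cons 758 n1522 (.cons 799 n1527 (.cons 962 n1532 .nil)))
noncomputable def n1534 : Strat := .move 962 n1469 (.cons 1003 n1086 .nil)
noncomputable def n1535 : Strat := .move 921 n1274 (.cons 797 n1534 .nil)
noncomputable def n1536 : Strat := .move 756 n1065 (.cons 715 n1535 .nil)
noncomputable def n1537 : Strat := .win 761 4 757
noncomputable def n1538 : Strat := .win 797 4 756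
noncomputable def n1539 : Strat := .move 760 n1537 (.cons 761 n1538 .nil)
noncomputable def n1540 : Strat := .move 759 n654 (.cons 718 n1539 .nil)
noncomputable def n1541 : Strat := .move 799 n557 (.cons 921 n1540 .nil)
noncomputable def n1542 : Strat := .move 758 n1248 (.cons 717 n1541 .nil)
noncomputable def n1543 : Strat := .move 757 n1254 (.cons 758 n1536 (.cons 799 n1425 (.cons 921 n1456 (.cons 756 n1542 .nil))))
noncomputable def n1544 : Strat := .move 838 n233 (.cons 837 n1281 .nil)
noncomputable def n1545 : Strat := .move 920 n392 (.cons 919 n393 .nil)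
noncomputable def n1546 : Strat := .move 879 n1433 (.cons 923 n1545 .nil)
noncomputable def n1547 : Strat := .move 924 n1432 (.cons 925 n1546 .nil)
noncomputable def n1548 : Strat := .move 883 n1279 (.cons 884 n1547 .nil)
noncomputable def n1549 : Strat := .move 879 n1545 (.cons 757 n1430 .nil)
noncomputable def n1550 : Strat := .move 837 n1427 (.cons 838 n1549 .nil)
noncomputable def n1551 : Strat := .move 882 n1544 (.cons 837 n1426 (.cons 838 n1548 (.cons 883 n1550 .nil)))
noncomputable def n1552 : Strat := .move 880 n1499 (.cons 799 n1521 (.cons 797 n1525 (.cons 757 n1533 (.cons 920 n1543 (.cons 921 n1551 .nil)))))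
noncomputable def n1553 : Strat := .move 881 n1462 (.cons 880 n1464 (.cons 799 n1475 (.cons 963 n1490 (.cons 838 n1496 (.cons 757 n1498 (.cons 922 n1552 .nil))))))
noncomputable def n1554 : Strat := .move 881 n470 (.cons 716 n1288 .nil)
noncomputable def n1555 : Strat := .move 880 n1310 (.cons 758 n1372 .nil)
noncomputable def n1556 : Strat := .move 717 n1299 (.cons 676 n1555 .nil)
noncomputable def n1557 : Strat := .move 716 n1298 (.cons 715 n1329 (.cons 675 n1556 .nil))
noncomputable def n1558 : Strat := .move 716 n294 (.cons 881 n1314 .nil)
noncomputable def n1559 : Strat := .move 716 n294 (.cons 881 n1329 .nil)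
noncomputable def n1560 : Strat := .move 881 n1254 (.cons 799 n1277 (.cons 921 n1287 .nil))
noncomputable def n1561 : Strat := .win 881 3 717
noncomputable def n1562 : Strat := .win 800 1 676
noncomputable def n1563 : Strat := .win 636 1 635
noncomputable def n1564 : Strat := .move 677 n1562 (.cons 800 n1563 .nil)
noncomputable def n1565 : Strat := .move 718 n1561 (.cons 881 n1564 .nil)
noncomputable def n1566 : Strat := .move 759 n1539 (.cons 797 n1565 .nil)
noncomputable def n1567 : Strat := .move 799 n1061 (.cons 921 n1566 .nil)
noncomputable def n1568 : Strat := .move 758 n1248 (.cons 717 n1567 .nil)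
noncomputable def n1569 : Strat := .move 799 n1061 (.cons 921 n1252 .nil)
noncomputable def n1570 : Strat := .move 758 n1248 (.cons 717 n1569 .nil)
noncomputable def n1571 : Strat := .win 801 2 756
noncomputable def n1572 : Strat := .win 755 0 755
noncomputable def n1573 : Strat := .move 800 n1571 (.cons 801 n1572 .nil)
noncomputable def n1574 : Strat := .move 718 n1561 (.cons 881 n1451 .nil)
noncomputable def n1575 : Strat := .move 759 n1401 (.cons 760 n1574 .nil)
noncomputable def n1576 : Strat := .move 799 n1251 (.cons 754 n1573 (.cons 800 n1575 .nil))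
noncomputable def n1577 : Strat := .move 756 n1065 (.cons 715 n1576 .nil)
noncomputable def n1578 : Strat := .move 758 n1248 (.cons 717 n1577 .nil)
noncomputable def n1579 : Strat := .move 880 n1560 (.cons 758 n1369 (.cons 756 n1568 (.cons 797 n1570 (.cons 921 n1578 .nil))))
noncomputable def n1580 : Strat := .move 757 n1554 (.cons 881 n1557 (.cons 799 n1558 (.cons 758 n1446 (.cons 715 n1559 (.cons 716 n1579 .nil)))))
noncomputable def n1581 : Strat := .move 716 n294 (.cons 881 n1361 .nil)
noncomputable def n1582 : Strat := .move 921 n1534 (.cons 799 n1275 .nil)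
noncomputable def n1583 : Strat := .move 878 n1429 (.cons 877 n1582 .nil)
noncomputable def n1584 : Strat := .move 879 n858 (.cons 920 n1583 .nil)
noncomputable def n1585 : Strat := .move 880 n884 (.cons 922 n1584 .nil)
noncomputable def n1586 : Strat := .move 921 n899 (.cons 961 n1534 .nil)
noncomputable def n1587 : Strat := .move 920 n898 (.cons 879 n1586 .nil)
noncomputable def n1588 : Strat := .move 921 n1274 (.cons 797 n1391 .nil)
noncomputable def n1589 : Strat := .move 756 n1065 (.cons 715 n1588 .nil)
noncomputable def n1590 : Strat := .move 882 n1280 (.cons 884 n1282 (.cons 838 n1435 (.cons 883 n1431 .nil)))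
noncomputable def n1591 : Strat := .move 879 n858 (.cons 920 n1590 .nil)
noncomputable def n1592 : Strat := .move 880 n1584 (.cons 879 n1536 (.cons 715 n1587 (.cons 1003 n1589 (.cons 921 n1591 .nil))))
noncomputable def n1593 : Strat := .move 881 n1585 (.cons 880 n1291 (.cons 799 n1246 (.cons 922 n1592 .nil)))
noncomputable def n1594 : Strat := .move 757 n1446 (.cons 881 n1362 (.cons 799 n1581 (.cons 674 n1459 (.cons 716 n1593 .nil))))
noncomputable def n1595 : Strat := .move 715 n1300 (.cons 674 n1312 .nil)
noncomputable def n1596 : Strat := .move 717 n1299 (.cons 676 n1595 .nil)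
noncomputable def n1597 : Strat := .move 716 n1298 (.cons 715 n1329 (.cons 675 n1596 .nil))
noncomputable def n1598 : Strat := .move 881 n884 (.cons 922 n1287 .nil)
noncomputable def n1599 : Strat := .move 880 n1598 (.cons 881 n1414 (.cons 717 n1438 .nil))
noncomputable def n1600 : Strat := .move 757 n1446 (.cons 881 n1597 (.cons 675 n1459 (.cons 716 n1599 .nil)))
noncomputable def n1601 : Strat := .move 921 n378 (.cons 758 n1522 (.cons 799 n1367 .nil))
noncomputable def n1602 : Strat := .move 881 n884 (.cons 922 n1601 .nil)
noncomputable def n1603 : Strat := .move 921 n1274 (.cons 797 n1116 .nil)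
noncomputable def n1604 : Strat := .move 756 n1065 (.cons 715 n1603 .nil)
noncomputable def n1605 : Strat := .move 921 n1275 (.cons 715 n1534 .nil)
noncomputable def n1606 : Strat := .move 878 n1429 (.cons 877 n1605 .nil)
noncomputable def n1607 : Strat := .move 879 n858 (.cons 920 n1606 .nil)
noncomputable def n1608 : Strat := .move 881 n884 (.cons 922 n1607 .nil)
noncomputable def n1609 : Strat := .move 881 n884 (.cons 922 n1589 .nil)
noncomputable def n1610 : Strat := .move 880 n1602 (.cons 881 n1604 (.cons 758 n1608 (.cons 962 n1609 (.cons 921 n1438 .nil))))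
noncomputable def n1611 : Strat := .move 757 n1459 (.cons 881 n1384 (.cons 880 n1446 (.cons 716 n1610 .nil)))
noncomputable def n1612 : Strat := .move 880 n884 (.cons 922 n1542 .nil)
noncomputable def n1613 : Strat := .move 923 n1283 (.cons 799 n616 .nil)
noncomputable def n1614 : Strat := .move 882 n1280 (.cons 884 n1282 (.cons 838 n1613 .nil))
noncomputable def n1615 : Strat := .move 758 n1248 (.cons 717 n1614 .nil)
noncomputable def n1616 : Strat := .move 879 n858 (.cons 920 n1615 .nil)
noncomputable def n1617 : Strat := .move 880 n1542 (.cons 921 n1616 (.cons 799 n1591 .nil))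
noncomputable def n1618 : Strat := .move 881 n1612 (.cons 880 n1291 (.cons 799 n1246 (.cons 922 n1617 .nil)))
noncomputable def n1619 : Strat := .move 757 n1559 (.cons 881 n1379 (.cons 676 n1459 (.cons 716 n1618 .nil)))
noncomputable def n1620 : Strat := .win 837 0 836
noncomputable def n1621 : Strat := .win 799 1 757
noncomputable def n1622 : Strat := .move 758 n1621 (.cons 799 n1248 .nil)
noncomputable def n1623 : Strat := .move 921 n1391 (.cons 879 n1622 .nil)
noncomputable def n1624 : Strat := .move 838 n1620 (.cons 837 n1623 .nil)
noncomputable def n1625 : Strat := .move 799 n377 (.cons 962 n376 .nil)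
noncomputable def n1626 : Strat := .move 921 n1622 (.cons 717 n1625 (.cons 799 n1502 .nil))
noncomputable def n1627 : Strat := .move 838 n1620 (.cons 837 n1626 .nil)
noncomputable def n1628 : Strat := .move 921 n1391 (.cons 879 n1625 .nil)
noncomputable def n1629 : Strat := .move 838 n1620 (.cons 837 n1628 .nil)
noncomputable def n1630 : Strat := .move 921 n1621 (.cons 799 n1391 .nil)
noncomputable def n1631 : Strat := .move 758 n1248 (.cons 717 n1630 .nil)
noncomputable def n1632 : Strat := .move 921 n1391 (.cons 879 n1534 .nil)
noncomputable def n1633 : Strat := .move 838 n1620 (.cons 837 n1632 .nil)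
noncomputable def n1634 : Strat := .move 921 n1391 (.cons 879 n1502 .nil)
noncomputable def n1635 : Strat := .move 838 n1620 (.cons 837 n1634 .nil)
noncomputable def n1636 : Strat := .win 838 0 836
noncomputable def n1637 : Strat := .win 878 2 836
noncomputable def n1638 : Strat := .move 879 n1637 (.cons 878 n858 .nil)
noncomputable def n1639 : Strat := .move 837 n1636 (.cons 838 n1638 .nil)
noncomputable def n1640 : Strat := .move 836 n1624 (.cons 961 n1627 (.cons 717 n1629 (.cons 838 n1631 (.cons 758 n1633 (.cons 799 n1635 (.cons 921 n1639 .nil))))))
noncomputable def n1641 : Strat := .move 881 n884 (.cons 922 n1640 .nil)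
noncomputable def n1642 : Strat := .move 882 n1282 (.cons 837 n1426 (.cons 883 n1284 .nil))
noncomputable def n1643 : Strat := .move 879 n858 (.cons 920 n1642 .nil)
noncomputable def n1644 : Strat := .move 758 n1248 (.cons 717 n1643 .nil)
noncomputable def n1645 : Strat := .move 881 n884 (.cons 922 n1644 .nil)
noncomputable def n1646 : Strat := .move 881 n884 (.cons 922 n1542 .nil)
noncomputable def n1647 : Strat := .move 756 n1274 (.cons 797 n1391 .nil)
noncomputable def n1648 : Strat := .move 921 n378 (.cons 962 n1647 .nil)
noncomputable def n1649 : Strat := .move 881 n884 (.cons 922 n1648 .nil)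
noncomputable def n1650 : Strat := .move 881 n884 (.cons 922 n1587 .nil)
noncomputable def n1651 : Strat := .move 962 n1470 (.cons 838 n1469 .nil)
noncomputable def n1652 : Strat := .move 797 n871 (.cons 756 n1651 .nil)
noncomputable def n1653 : Strat := .move 921 n899 (.cons 961 n1652 .nil)
noncomputable def n1654 : Strat := .move 920 n898 (.cons 879 n1653 .nil)
noncomputable def n1655 : Strat := .move 881 n884 (.cons 922 n1654 .nil)
noncomputable def n1656 : Strat := .move 880 n1641 (.cons 881 n1371 (.cons 921 n1645 (.cons 879 n1646 (.cons 717 n1649 (.cons 758 n1650 (.cons 799 n1655 .nil))))))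
noncomputable def n1657 : Strat := .move 757 n1559 (.cons 881 n1389 (.cons 799 n1440 (.cons 676 n1459 (.cons 716 n1656 .nil))))
noncomputable def n1658 : Strat := .move 757 n1245 (.cons 880 n1290 .nil)
noncomputable def n1659 : Strat := .move 922 n630 (.cons 963 n1658 .nil)
noncomputable def n1660 : Strat := .move 922 n1245 (.cons 880 n1290 .nil)
noncomputable def n1661 : Strat := .move 757 n470 (.cons 716 n1660 .nil)
noncomputable def n1662 : Strat := .win 882 6 758
noncomputable def n1663 : Strat := .move 923 n1662 (.cons 882 n626 .nil)
noncomputable def n1664 : Strat := .move 758 n769 (.cons 880 n1663 .nil)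
noncomputable def n1665 : Strat := .move 921 n770 (.cons 962 n1664 .nil)
noncomputable def n1666 : Strat := .move 799 n1265 (.cons 837 n1494 (.cons 800 n1665 .nil))
noncomputable def n1667 : Strat := .move 922 n630 (.cons 963 n1666 .nil)
noncomputable def n1668 : Strat := .move 880 n1254 (.cons 758 n1536 (.cons 799 n1425 (.cons 921 n1456 (.cons 756 n1542 .nil))))
noncomputable def n1669 : Strat := .move 757 n470 (.cons 716 n1668 .nil)
noncomputable def n1670 : Strat := .move 881 n1247 (.cons 716 n1659 (.cons 963 n1661 (.cons 880 n1292 (.cons 757 n1667 (.cons 922 n1669 .nil)))))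
noncomputable def n1671 : Strat := .move 801 n1146 (.cons 838 n1258 .nil)
noncomputable def n1672 : Strat := .move 881 n470 (.cons 716 n469 .nil)
noncomputable def n1673 : Strat := .move 757 n292 (.cons 756 n1672 .nil)
noncomputable def n1674 : Strat := .move 801 n1258 (.cons 802 n1673 .nil)
noncomputable def n1675 : Strat := .move 801 n1146 (.cons 838 n1673 .nil)
noncomputable def n1676 : Strat := .win 838 5 796
noncomputable def n1677 : Strat := .move 796 n1421 (.cons 795 n518 .nil)
noncomputable def n1678 : Strat := .win 922 3 758
noncomputable def n1679 : Strat := .win 758 3 717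
noncomputable def n1680 : Strat := .move 718 n1679 (.cons 758 n266 .nil)
noncomputable def n1681 : Strat := .move 881 n1678 (.cons 922 n1680 .nil)
noncomputable def n1682 : Strat := .move 759 n265 (.cons 760 n1681 .nil)
noncomputable def n1683 : Strat := .move 797 n1677 (.cons 796 n1682 .nil)
noncomputable def n1684 : Strat := .move 837 n1676 (.cons 838 n1683 .nil)
noncomputable def n1685 : Strat := .move 800 n1671 (.cons 838 n1674 (.cons 802 n1675 (.cons 801 n1684 .nil)))
noncomputable def n1686 : Strat := .win 797 5 756
noncomputable def n1687 : Strat := .move 881 n1679 (.cons 758 n1678 .nil)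
noncomputable def n1688 : Strat := .move 718 n266 (.cons 677 n1687 .nil)
noncomputable def n1689 : Strat := .move 759 n1686 (.cons 797 n1688 .nil)
noncomputable def n1690 : Strat := .move 760 n1147 (.cons 761 n1689 .nil)
noncomputable def n1691 : Strat := .move 801 n1258 (.cons 802 n1690 .nil)
noncomputable def n1692 : Strat := .win 756 2 755
noncomputable def n1693 : Strat := .move 755 n519 (.cons 754 n1692 .nil)
noncomputable def n1694 : Strat := .move 796 n1421 (.cons 795 n1693 .nil)
noncomputable def n1695 : Strat := .win 796 5 755
noncomputable def n1696 : Strat := .move 881 n654 (.cons 718 n1678 .nil)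
noncomputable def n1697 : Strat := .move 758 n1695 (.cons 796 n1696 .nil)
noncomputable def n1698 : Strat := .move 759 n265 (.cons 760 n1697 .nil)
noncomputable def n1699 : Strat := .move 797 n1694 (.cons 795 n1698 (.cons 796 n1682 .nil))
noncomputable def n1700 : Strat := .move 838 n225 (.cons 837 n1699 .nil)
noncomputable def n1701 : Strat := .move 800 n1264 (.cons 838 n1691 (.cons 801 n1700 .nil))
noncomputable def n1702 : Strat := .move 922 n630 (.cons 963 n629 .nil)
noncomputable def n1703 : Strat := .move 759 n1491 (.cons 800 n654 .nil)
noncomputable def n1704 : Strat := .move 758 n1662 (.cons 882 n1703 .nil)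
noncomputable def n1705 : Strat := .move 923 n626 (.cons 964 n1704 .nil)
noncomputable def n1706 : Strat := .move 922 n630 (.cons 963 n1705 .nil)
noncomputable def n1707 : Strat := .move 801 n1258 (.cons 802 n292 .nil)
noncomputable def n1708 : Strat := .move 718 n266 (.cons 677 n1679 .nil)
noncomputable def n1709 : Strat := .move 759 n265 (.cons 760 n1708 .nil)
noncomputable def n1710 : Strat := .move 796 n519 (.cons 754 n1421 .nil)
noncomputable def n1711 : Strat := .move 755 n1692 (.cons 756 n1710 .nil)
noncomputable def n1712 : Strat := .move 797 n1709 (.cons 759 n1711 .nil)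
noncomputable def n1713 : Strat := .move 760 n1147 (.cons 761 n1686 .nil)
noncomputable def n1714 : Strat := .move 759 n1708 (.cons 758 n1713 .nil)
noncomputable def n1715 : Strat := .move 801 n1258 (.cons 802 n1714 .nil)
noncomputable def n1716 : Strat := .move 800 n1707 (.cons 801 n1712 (.cons 756 n1715 .nil))
noncomputable def n1717 : Strat := .move 757 n470 (.cons 716 n1716 .nil)
noncomputable def n1718 : Strat := .move 881 n1702 (.cons 757 n1706 (.cons 963 n539 (.cons 922 n1717 .nil)))
noncomputable def n1719 : Strat := .win 920 5 879
noncomputable def n1720 : Strat := .move 921 n1719 (.cons 920 n770 .nil)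
noncomputable def n1721 : Strat := .move 883 n1279 (.cons 884 n1720 .nil)
noncomputable def n1722 : Strat := .move 882 n617 (.cons 758 n1721 .nil)
noncomputable def n1723 : Strat := .move 923 n626 (.cons 964 n1722 .nil)
noncomputable def n1724 : Strat := .move 922 n630 (.cons 963 n1723 .nil)
noncomputable def n1725 : Strat := .win 757 6 716
noncomputable def n1726 : Strat := .move 717 n640 (.cons 676 n763 .nil)
noncomputable def n1727 : Strat := .win 800 5 756
noncomputable def n1728 : Strat := .move 760 n1727 (.cons 800 n1537 .nil)
noncomputable def n1729 : Strat := .move 797 n1695 (.cons 796 n1728 .nil)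
noncomputable def n1730 : Strat := .move 759 n654 (.cons 718 n1729 .nil)
noncomputable def n1731 : Strat := .move 758 n1726 (.cons 717 n1730 .nil)
noncomputable def n1732 : Strat := .move 716 n1725 (.cons 757 n1731 .nil)
noncomputable def n1733 : Strat := .move 881 n1702 (.cons 757 n1724 (.cons 963 n539 (.cons 922 n1732 .nil)))
noncomputable def n1734 : Strat := .win 758 5 755
noncomputable def n1735 : Strat := .move 796 n1734 (.cons 758 n1421 .nil)
noncomputable def n1736 : Strat := .move 759 n265 (.cons 760 n1735 .nil)
noncomputable def n1737 : Strat := .move 757 n893 (.cons 675 n294 .nil)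
noncomputable def n1738 : Strat := .move 757 n894 (.cons 879 n893 .nil)
noncomputable def n1739 : Strat := .move 757 n894 (.cons 879 n294 .nil)
noncomputable def n1740 : Strat := .move 715 n807 (.cons 675 n313 .nil)
noncomputable def n1741 : Strat := .move 716 n1737 (.cons 881 n1738 (.cons 675 n1739 (.cons 757 n1740 .nil)))
noncomputable def n1742 : Strat := .move 756 n312 (.cons 755 n1741 .nil)
noncomputable def n1743 : Strat := .move 797 n1694 (.cons 754 n1736 (.cons 796 n1742 .nil))
noncomputable def n1744 : Strat := .move 838 n225 (.cons 837 n1743 .nil)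
noncomputable def n1745 : Strat := .move 716 n294 (.cons 881 n293 .nil)
noncomputable def n1746 : Strat := .move 757 n292 (.cons 756 n1745 .nil)
noncomputable def n1747 : Strat := .move 801 n1258 (.cons 802 n1746 .nil)
noncomputable def n1748 : Strat := .move 800 n1671 (.cons 801 n1744 (.cons 838 n1747 .nil))
noncomputable def n1749 : Strat := .move 760 n1538 (.cons 797 n1537 .nil)
noncomputable def n1750 : Strat := .move 759 n654 (.cons 718 n1749 .nil)
noncomputable def n1751 : Strat := .move 757 n470 (.cons 716 n1750 .nil)
noncomputable def n1752 : Strat := .move 716 n763 (.cons 675 n766 .nil)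
noncomputable def n1753 : Strat := .move 717 n640 (.cons 676 n1752 .nil)
noncomputable def n1754 : Strat := .win 757 4 756
noncomputable def n1755 : Strat := .move 760 n1754 (.cons 757 n1537 .nil)
noncomputable def n1756 : Strat := .move 797 n1695 (.cons 796 n1755 .nil)
noncomputable def n1757 : Strat := .move 759 n654 (.cons 718 n1756 .nil)
noncomputable def n1758 : Strat := .move 716 n1725 (.cons 757 n1726 .nil)
noncomputable def n1759 : Strat := .move 758 n1751 (.cons 757 n1753 (.cons 716 n1757 (.cons 759 n1758 .nil)))
noncomputable def n1760 : Strat := .move 881 n539 (.cons 757 n1724 (.cons 922 n1759 .nil))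
noncomputable def n1761 : Strat := .move 922 n630 (.cons 963 n1265 .nil)
noncomputable def n1762 : Strat := .win 802 2 757
noncomputable def n1763 : Strat := .move 801 n1762 (.cons 802 n1146 .nil)
noncomputable def n1764 : Strat := .move 801 n292 (.cons 756 n1762 .nil)
noncomputable def n1765 : Strat := .move 838 n225 (.cons 837 n1082 .nil)
noncomputable def n1766 : Strat := .move 717 n640 (.cons 676 n766 .nil)
noncomputable def n1767 : Strat := .move 800 n1763 (.cons 838 n1764 (.cons 802 n1765 (.cons 801 n1766 .nil)))
noncomputable def n1768 : Strat := .move 757 n470 (.cons 716 n1767 .nil)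
noncomputable def n1769 : Strat := .move 800 n1762 (.cons 802 n1146 .nil)
noncomputable def n1770 : Strat := .win 756 0 756
noncomputable def n1771 : Strat := .move 800 n1770 (.cons 756 n1762 .nil)
noncomputable def n1772 : Strat := .move 800 n1770 (.cons 756 n1146 .nil)
noncomputable def n1773 : Strat := .win 802 0 757
noncomputable def n1774 : Strat := .move 760 n1773 (.cons 802 n1537 .nil)
noncomputable def n1775 : Strat := .move 801 n1769 (.cons 838 n1771 (.cons 802 n1772 (.cons 800 n1774 .nil)))
noncomputable def n1776 : Strat := .move 759 n654 (.cons 718 n1775 .nil)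
noncomputable def n1777 : Strat := .move 757 n470 (.cons 716 n1776 .nil)
noncomputable def n1778 : Strat := .move 758 n1768 (.cons 757 n1485 (.cons 717 n1777 (.cons 718 n1758 .nil)))
noncomputable def n1779 : Strat := .move 881 n1702 (.cons 757 n1761 (.cons 963 n539 (.cons 922 n1778 .nil)))
noncomputable def n1780 : Strat := .move 716 n894 (.cons 879 n893 .nil)
noncomputable def n1781 : Strat := .move 881 n469 (.cons 922 n470 .nil)
noncomputable def n1782 : Strat := .move 757 n905 (.cons 881 n1780 (.cons 675 n1781 (.cons 716 n1711 .nil)))
noncomputable def n1783 : Strat := .move 838 n505 (.cons 837 n1782 .nil)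
noncomputable def n1784 : Strat := .move 755 n1692 (.cons 756 n519 .nil)
noncomputable def n1785 : Strat := .move 796 n1421 (.cons 795 n1784 .nil)
noncomputable def n1786 : Strat := .move 838 n505 (.cons 837 n1742 .nil)
noncomputable def n1787 : Strat := .win 838 4 796
noncomputable def n1788 : Strat := .move 837 n1787 (.cons 838 n1677 .nil)
noncomputable def n1789 : Strat := .move 797 n1783 (.cons 838 n1785 (.cons 796 n1786 (.cons 755 n1788 .nil)))
noncomputable def n1790 : Strat := .move 800 n1671 (.cons 838 n1674 (.cons 802 n1264 (.cons 801 n1789 .nil)))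
noncomputable def n1791 : Strat := .move 800 n1787 (.cons 838 n1784 .nil)
noncomputable def n1792 : Strat := .move 837 n518 (.cons 836 n1791 .nil)
noncomputable def n1793 : Strat := .win 716 6 675
noncomputable def n1794 : Strat := .move 800 n1259 (.cons 838 n1784 .nil)
noncomputable def n1795 : Strat := .move 757 n1793 (.cons 716 n1794 .nil)
noncomputable def n1796 : Strat := .win 716 7 675
noncomputable def n1797 : Strat := .move 717 n1796 (.cons 716 n640 .nil)
noncomputable def n1798 : Strat := .move 758 n639 (.cons 759 n1797 .nil)
noncomputable def n1799 : Strat := .move 675 n1792 (.cons 837 n1795 (.cons 838 n1798 .nil))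
noncomputable def n1800 : Strat := .move 796 n1421 (.cons 795 n1799 .nil)
noncomputable def n1801 : Strat := .win 918 1 754
noncomputable def n1802 : Strat := .win 838 4 836
noncomputable def n1803 : Strat := .move 877 n1801 (.cons 918 n1802 .nil)
noncomputable def n1804 : Strat := .move 756 n785 (.cons 715 n82 .nil)
noncomputable def n1805 : Strat := .move 878 n1803 (.cons 838 n1804 .nil)
noncomputable def n1806 : Strat := .move 755 n519 (.cons 754 n1805 .nil)
noncomputable def n1807 : Strat := .move 837 n518 (.cons 836 n1806 .nil)
noncomputable def n1808 : Strat := .move 796 n1421 (.cons 795 n1807 .nil)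
noncomputable def n1809 : Strat := .move 714 n521 (.cons 879 n520 .nil)
noncomputable def n1810 : Strat := .move 755 n519 (.cons 754 n1809 .nil)
noncomputable def n1811 : Strat := .move 838 n1028 (.cons 800 n1810 .nil)
noncomputable def n1812 : Strat := .move 837 n518 (.cons 836 n1811 .nil)
noncomputable def n1813 : Strat := .move 796 n1421 (.cons 795 n1812 .nil)
noncomputable def n1814 : Strat := .move 759 n265 (.cons 760 n1734 .nil)
noncomputable def n1815 : Strat := .move 800 n1787 (.cons 838 n1814 .nil)
noncomputable def n1816 : Strat := .move 837 n518 (.cons 836 n1815 .nil)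
noncomputable def n1817 : Strat := .move 796 n1421 (.cons 795 n1816 .nil)
noncomputable def n1818 : Strat := .move 838 n1082 (.cons 801 n505 .nil)
noncomputable def n1819 : Strat := .move 759 n1734 (.cons 758 n265 .nil)
noncomputable def n1820 : Strat := .move 800 n1818 (.cons 837 n1671 (.cons 838 n1819 .nil))
noncomputable def n1821 : Strat := .move 796 n1421 (.cons 795 n1820 .nil)
noncomputable def n1822 : Strat := .move 800 n1692 (.cons 756 n1259 .nil)
noncomputable def n1823 : Strat := .move 755 n519 (.cons 754 n1822 .nil)
noncomputable def n1824 : Strat := .move 796 n1421 (.cons 795 n1823 .nil)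
noncomputable def n1825 : Strat := .win 800 2 755
noncomputable def n1826 : Strat := .move 878 n785 (.cons 715 n82 .nil)
noncomputable def n1827 : Strat := .move 756 n1825 (.cons 800 n1826 .nil)
noncomputable def n1828 : Strat := .move 755 n519 (.cons 754 n1827 .nil)
noncomputable def n1829 : Strat := .move 837 n518 (.cons 836 n1828 .nil)
noncomputable def n1830 : Strat := .move 796 n1421 (.cons 795 n1829 .nil)
noncomputable def n1831 : Strat := .move 796 n1734 (.cons 758 n519 .nil)
noncomputable def n1832 : Strat := .move 755 n1692 (.cons 756 n1831 .nil)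
noncomputable def n1833 : Strat := .move 759 n265 (.cons 760 n1832 .nil)
noncomputable def n1834 : Strat := .move 838 n505 (.cons 837 n1833 .nil)
noncomputable def n1835 : Strat := .win 757 2 756
noncomputable def n1836 : Strat := .move 756 n312 (.cons 755 n1835 .nil)
noncomputable def n1837 : Strat := .move 801 n1258 (.cons 802 n1836 .nil)
noncomputable def n1838 : Strat := .move 800 n1818 (.cons 801 n1834 (.cons 837 n1671 (.cons 838 n1837 .nil)))
noncomputable def n1839 : Strat := .move 800 n1082 (.cons 801 n505 .nil)
noncomputable def n1840 : Strat := .win 879 1 755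
noncomputable def n1841 : Strat := .move 919 n1840 (.cons 879 n85 .nil)
noncomputable def n1842 : Strat := .move 756 n83 (.cons 715 n1841 .nil)
noncomputable def n1843 : Strat := .move 878 n2 (.cons 877 n1842 .nil)
noncomputable def n1844 : Strat := .move 837 n468 (.cons 836 n1843 .nil)
noncomputable def n1845 : Strat := .move 756 n1006 (.cons 878 n312 .nil)
noncomputable def n1846 : Strat := .move 920 n239 (.cons 960 n107 .nil)
noncomputable def n1847 : Strat := .move 919 n1845 (.cons 755 n1846 .nil)
noncomputable def n1848 : Strat := .move 800 n1082 (.cons 801 n1847 .nil)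
noncomputable def n1849 : Strat := .win 757 1 715
noncomputable def n1850 : Strat := .move 800 n312 (.cons 755 n1082 .nil)
noncomputable def n1851 : Strat := .move 755 n111 (.cons 714 n1825 .nil)
noncomputable def n1852 : Strat := .move 756 n1850 (.cons 801 n1851 (.cons 755 n1740 .nil))
noncomputable def n1853 : Strat := .move 716 n1849 (.cons 757 n1852 .nil)
noncomputable def n1854 : Strat := .move 879 n501 (.cons 757 n1848 (.cons 920 n1853 .nil))
noncomputable def n1855 : Strat := .move 838 n1839 (.cons 800 n1844 (.cons 837 n1854 .nil))
noncomputable def n1856 : Strat := .move 797 n1800 (.cons 800 n1808 (.cons 756 n1813 (.cons 755 n1817 (.cons 836 n1821 (.cons 837 n1824 (.cons 838 n1830 (.cons 795 n1838 (.cons 796 n1855 .nil))))))))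
noncomputable def n1857 : Strat := .move 799 n1685 (.cons 757 n1701 (.cons 838 n1718 (.cons 801 n1733 (.cons 922 n1748 (.cons 800 n1760 (.cons 797 n1779 (.cons 758 n1790 (.cons 881 n1856 .nil))))))))
noncomputable def n1858 : Strat := .move 880 n558 (.cons 717 n1061 .nil)
noncomputable def n1859 : Strat := .win 715 0 715
noncomputable def n1860 : Strat := .move 716 n1859 (.cons 715 n763 .nil)
noncomputable def n1861 : Strat := .move 760 n1537 (.cons 761 n1860 .nil)
noncomputable def n1862 : Strat := .move 759 n1561 (.cons 881 n1861 .nil)
noncomputable def n1863 : Strat := .move 718 n764 (.cons 677 n1862 .nil)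
noncomputable def n1864 : Strat := .move 717 n640 (.cons 676 n1863 .nil)
noncomputable def n1865 : Strat := .move 882 n1486 (.cons 923 n1282 .nil)
noncomputable def n1866 : Strat := .move 922 n630 (.cons 963 n1703 .nil)
noncomputable def n1867 : Strat := .move 881 n1865 (.cons 882 n1866 .nil)
noncomputable def n1868 : Strat := .move 880 n1061 (.cons 921 n1867 .nil)
noncomputable def n1869 : Strat := .move 758 n1858 (.cons 921 n642 (.cons 880 n1864 (.cons 717 n1868 .nil)))
noncomputable def n1870 : Strat := .win 718 7 718
noncomputable def n1871 : Strat := .move 883 n1870 (.cons 718 n354 .nil)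
noncomputable def n1872 : Strat := .move 759 n1686 (.cons 797 n1871 .nil)
noncomputable def n1873 : Strat := .move 760 n1147 (.cons 761 n1872 .nil)
noncomputable def n1874 : Strat := .move 842 n291 (.cons 843 n1873 .nil)
noncomputable def n1875 : Strat := .move 801 n1258 (.cons 802 n1874 .nil)
noncomputable def n1876 : Strat := .move 715 n314 (.cons 880 n313 .nil)
noncomputable def n1877 : Strat := .move 756 n312 (.cons 755 n1876 .nil)
noncomputable def n1878 : Strat := .move 838 n505 (.cons 837 n1877 .nil)
noncomputable def n1879 : Strat := .move 837 n518 (.cons 836 n1693 .nil)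
noncomputable def n1880 : Strat := .move 796 n1421 (.cons 795 n1879 .nil)
noncomputable def n1881 : Strat := .win 838 6 715
noncomputable def n1882 : Strat := .move 715 n1881 (.cons 838 n313 .nil)
noncomputable def n1883 : Strat := .move 880 n896 (.cons 921 n1882 .nil)
noncomputable def n1884 : Strat := .move 756 n312 (.cons 755 n1883 .nil)
noncomputable def n1885 : Strat := .move 797 n1878 (.cons 838 n1880 (.cons 837 n1884 (.cons 756 n1788 .nil)))
noncomputable def n1886 : Strat := .move 800 n1264 (.cons 838 n1875 (.cons 801 n1885 .nil))
noncomputable def n1887 : Strat := .move 715 n1333 (.cons 760 n1334 .nil)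
noncomputable def n1888 : Strat := .move 716 n763 (.cons 675 n1887 .nil)
noncomputable def n1889 : Strat := .move 759 n1561 (.cons 881 n1888 .nil)
noncomputable def n1890 : Strat := .move 718 n764 (.cons 677 n1889 .nil)
noncomputable def n1891 : Strat := .move 717 n640 (.cons 676 n1890 .nil)
noncomputable def n1892 : Strat := .move 923 n626 (.cons 964 n1662 .nil)
noncomputable def n1893 : Strat := .move 921 n770 (.cons 962 n1892 .nil)
noncomputable def n1894 : Strat := .move 922 n630 (.cons 963 n1893 .nil)
noncomputable def n1895 : Strat := .move 922 n630 (.cons 963 n770 .nil)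
noncomputable def n1896 : Strat := .move 921 n769 (.cons 880 n1895 .nil)
noncomputable def n1897 : Strat := .win 880 2 838
noncomputable def n1898 : Strat := .move 883 n1897 (.cons 880 n1279 .nil)
noncomputable def n1899 : Strat := .move 838 n233 (.cons 837 n1898 .nil)
noncomputable def n1900 : Strat := .move 882 n1486 (.cons 923 n1899 .nil)
noncomputable def n1901 : Strat := .move 881 n1488 (.cons 880 n1894 (.cons 882 n1896 (.cons 921 n1900 .nil)))
noncomputable def n1902 : Strat := .move 758 n1858 (.cons 880 n1891 (.cons 717 n1901 .nil))
noncomputable def n1903 : Strat := .move 922 n630 (.cons 963 n1892 .nil)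
noncomputable def n1904 : Strat := .move 800 n265 (.cons 760 n1678 .nil)
noncomputable def n1905 : Strat := .move 797 n1695 (.cons 796 n1904 .nil)
noncomputable def n1906 : Strat := .move 759 n654 (.cons 718 n1905 .nil)
noncomputable def n1907 : Strat := .move 881 n1866 (.cons 800 n1903 (.cons 963 n1906 (.cons 922 n1730 .nil)))
noncomputable def n1908 : Strat := .move 880 n1061 (.cons 921 n1907 .nil)
noncomputable def n1909 : Strat := .move 758 n1858 (.cons 921 n642 (.cons 880 n1864 (.cons 717 n1908 .nil)))
noncomputable def n1910 : Strat := .move 837 n468 (.cons 836 n9 .nil)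
noncomputable def n1911 : Strat := .move 796 n1421 (.cons 795 n1819 .nil)
noncomputable def n1912 : Strat := .move 797 n1877 (.cons 674 n1694 (.cons 756 n1911 .nil))
noncomputable def n1913 : Strat := .move 800 n1082 (.cons 801 n1912 .nil)
noncomputable def n1914 : Strat := .move 754 n89 (.cons 713 n598 .nil)
noncomputable def n1915 : Strat := .move 755 n81 (.cons 714 n1914 .nil)
noncomputable def n1916 : Strat := .move 878 n2 (.cons 877 n1915 .nil)
noncomputable def n1917 : Strat := .move 796 n0 (.cons 795 n1916 .nil)
noncomputable def n1918 : Strat := .move 837 n468 (.cons 836 n1917 .nil)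
noncomputable def n1919 : Strat := .move 838 n1910 (.cons 836 n1307 (.cons 837 n1913 (.cons 800 n1918 .nil)))
noncomputable def n1920 : Strat := .move 758 n558 (.cons 717 n1061 .nil)
noncomputable def n1921 : Strat := .move 758 n558 (.cons 717 n1867 .nil)
noncomputable def n1922 : Strat := .win 965 0 920
noncomputable def n1923 : Strat := .win 881 6 799
noncomputable def n1924 : Strat := .move 964 n1922 (.cons 965 n1923 .nil)
noncomputable def n1925 : Strat := .win 878 2 878
noncomputable def n1926 : Strat := .win 924 2 879
noncomputable def n1927 : Strat := .move 879 n1925 (.cons 878 n1926 .nil)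
noncomputable def n1928 : Strat := .move 923 n1924 (.cons 881 n1927 .nil)
noncomputable def n1929 : Strat := .move 920 n899 (.cons 961 n1928 .nil)
noncomputable def n1930 : Strat := .move 922 n1390 (.cons 963 n1929 .nil)
noncomputable def n1931 : Strat := .move 921 n377 (.cons 962 n1930 .nil)
noncomputable def n1932 : Strat := .move 880 n979 (.cons 962 n1920 (.cons 921 n1921 (.cons 758 n1931 .nil)))
noncomputable def n1933 : Strat := .move 837 n468 (.cons 836 n1028 .nil)
noncomputable def n1934 : Strat := .move 756 n102 (.cons 715 n1850 .nil)
noncomputable def n1935 : Strat := .move 880 n979 (.cons 921 n1934 .nil)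
noncomputable def n1936 : Strat := .move 838 n1933 (.cons 836 n1839 (.cons 837 n1935 (.cons 800 n1844 .nil)))
noncomputable def n1937 : Strat := .win 878 3 714
noncomputable def n1938 : Strat := .move 837 n1937 (.cons 878 n518 .nil)
noncomputable def n1939 : Strat := .move 715 n313 (.cons 674 n1938 .nil)
noncomputable def n1940 : Strat := .move 756 n1825 (.cons 800 n1939 .nil)
noncomputable def n1941 : Strat := .move 755 n519 (.cons 754 n1940 .nil)
noncomputable def n1942 : Strat := .move 796 n1421 (.cons 795 n1941 .nil)
noncomputable def n1943 : Strat := .move 838 n1028 (.cons 800 n497 .nil)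
noncomputable def n1944 : Strat := .move 837 n518 (.cons 836 n1943 .nil)
noncomputable def n1945 : Strat := .move 796 n1421 (.cons 795 n1944 .nil)
noncomputable def n1946 : Strat := .move 797 n1813 (.cons 796 n1936 (.cons 800 n1808 (.cons 836 n1824 (.cons 838 n1942 (.cons 755 n1945 .nil)))))
noncomputable def n1947 : Strat := .move 799 n1869 (.cons 758 n1886 (.cons 800 n1902 (.cons 838 n1909 (.cons 880 n1701 (.cons 718 n1919 (.cons 760 n1932 (.cons 759 n1946 .nil)))))))
noncomputable def n1948 : Strat := .move 799 n1494 (.cons 921 n1265 (.cons 800 n1665 .nil))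
noncomputable def n1949 : Strat := .move 922 n630 (.cons 963 n1948 .nil)
noncomputable def n1950 : Strat := .move 880 n1254 (.cons 799 n1437 .nil)
noncomputable def n1951 : Strat := .move 757 n470 (.cons 716 n1950 .nil)
noncomputable def n1952 : Strat := .move 881 n1247 (.cons 757 n1949 (.cons 880 n1292 (.cons 963 n1256 (.cons 922 n1951 .nil))))
noncomputable def n1953 : Strat := .move 798 n1293 (.cons 881 n1416 (.cons 799 n1445 (.cons 838 n1460 (.cons 716 n1553 (.cons 922 n1580 (.cons 758 n1594 (.cons 921 n1600 (.cons 717 n1611 (.cons 756 n1619 (.cons 715 n1657 (.cons 920 n1670 (.cons 880 n1857 (.cons 757 n1947 (.cons 797 n1952 .nil))))))))))))))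
noncomputable def n1954 : Strat := .win 881 1 757
noncomputable def n1955 : Strat := .move 921 n377 (.cons 962 n1954 .nil)
noncomputable def n1956 : Strat := .move 758 n558 (.cons 717 n1955 .nil)
noncomputable def n1957 : Strat := .move 796 n1045 (.cons 841 n1421 .nil)
noncomputable def n1958 : Strat := .move 797 n871 (.cons 756 n1957 .nil)
noncomputable def n1959 : Strat := .move 881 n824 (.cons 757 n1958 .nil)
noncomputable def n1960 : Strat := .move 922 n1390 (.cons 963 n1959 .nil)
noncomputable def n1961 : Strat := .win 796 0 796
noncomputable def n1962 : Strat := .move 841 n1961 (.cons 796 n258 .nil)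
noncomputable def n1963 : Strat := .move 797 n871 (.cons 756 n1962 .nil)
noncomputable def n1964 : Strat := .move 881 n824 (.cons 757 n1468 .nil)
noncomputable def n1965 : Strat := .move 922 n1390 (.cons 963 n1964 .nil)
noncomputable def n1966 : Strat := .move 798 n1960 (.cons 922 n1963 (.cons 797 n1965 .nil))
noncomputable def n1967 : Strat := .move 921 n377 (.cons 962 n1966 .nil)
noncomputable def n1968 : Strat := .move 755 n1250 (.cons 754 n1249 .nil)
noncomputable def n1969 : Strat := .move 756 n1065 (.cons 715 n1968 .nil)
noncomputable def n1970 : Strat := .move 798 n884 (.cons 922 n1969 .nil)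
noncomputable def n1971 : Strat := .move 757 n737 (.cons 716 n1970 .nil)
noncomputable def n1972 : Strat := .move 922 n626 (.cons 964 n1703 .nil)
noncomputable def n1973 : Strat := .move 923 n1662 (.cons 882 n1972 .nil)
noncomputable def n1974 : Strat := .win 841 5 837
noncomputable def n1975 : Strat := .move 878 n1974 (.cons 841 n1429 .nil)
noncomputable def n1976 : Strat := .win 878 5 837
noncomputable def n1977 : Strat := .move 841 n1976 (.cons 878 n282 .nil)
noncomputable def n1978 : Strat := .win 798 1 756
noncomputable def n1979 : Strat := .move 920 n392 (.cons 919 n1978 .nil)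
noncomputable def n1980 : Strat := .move 879 n1975 (.cons 877 n1977 (.cons 841 n1979 .nil))
noncomputable def n1981 : Strat := .move 882 n1486 (.cons 923 n1980 .nil)
noncomputable def n1982 : Strat := .move 757 n737 (.cons 716 n1981 .nil)
noncomputable def n1983 : Strat := .move 881 n1971 (.cons 798 n1973 (.cons 922 n1982 .nil))
noncomputable def n1984 : Strat := .move 758 n558 (.cons 717 n1983 .nil)
noncomputable def n1985 : Strat := .win 798 3 757
noncomputable def n1986 : Strat := .move 921 n377 (.cons 962 n1985 .nil)
noncomputable def n1987 : Strat := .move 758 n558 (.cons 717 n1986 .nil)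
noncomputable def n1988 : Strat := .move 880 n1956 (.cons 758 n1967 (.cons 921 n1984 (.cons 881 n1987 .nil)))
noncomputable def n1989 : Strat := .win 797 2 755
noncomputable def n1990 : Strat := .move 800 n1989 (.cons 797 n1571 .nil)
noncomputable def n1991 : Strat := .move 755 n1250 (.cons 754 n1990 .nil)
noncomputable def n1992 : Strat := .move 756 n1346 (.cons 880 n1991 .nil)
noncomputable def n1993 : Strat := .move 715 n1300 (.cons 674 n1992 .nil)
noncomputable def n1994 : Strat := .move 716 n293 (.cons 675 n1993 .nil)
noncomputable def n1995 : Strat := .move 879 n858 (.cons 920 n1975 .nil)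
noncomputable def n1996 : Strat := .move 921 n377 (.cons 962 n1391 .nil)
noncomputable def n1997 : Strat := .move 921 n377 (.cons 962 n1275 .nil)
noncomputable def n1998 : Strat := .move 880 n1995 (.cons 877 n1996 (.cons 879 n1997 .nil))
noncomputable def n1999 : Strat := .move 881 n469 (.cons 922 n1998 .nil)
noncomputable def n2000 : Strat := .move 757 n1672 (.cons 922 n295 (.cons 881 n1994 (.cons 716 n1999 .nil)))
noncomputable def n2001 : Strat := .move 718 n267 (.cons 881 n266 .nil)
noncomputable def n2002 : Strat := .move 759 n265 (.cons 760 n2001 .nil)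
noncomputable def n2003 : Strat := .move 841 n264 (.cons 842 n2002 .nil)
noncomputable def n2004 : Strat := .win 759 5 756
noncomputable def n2005 : Strat := .move 760 n2004 (.cons 759 n1147 .nil)
noncomputable def n2006 : Strat := .move 801 n1258 (.cons 802 n2005 .nil)
noncomputable def n2007 : Strat := .win 841 0 797
noncomputable def n2008 : Strat := .move 801 n1258 (.cons 802 n291 .nil)
noncomputable def n2009 : Strat := .move 842 n2007 (.cons 841 n2008 .nil)
noncomputable def n2010 : Strat := .move 800 n2003 (.cons 841 n2006 (.cons 760 n2009 .nil))
noncomputable def n2011 : Strat := .move 797 n1962 (.cons 841 n1942 (.cons 796 n2010 .nil))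
noncomputable def n2012 : Strat := .win 718 4 714
noncomputable def n2013 : Strat := .move 755 n2012 (.cons 718 n1250 .nil)
noncomputable def n2014 : Strat := .move 717 n1299 (.cons 676 n2013 .nil)
noncomputable def n2015 : Strat := .move 756 n1346 (.cons 880 n2014 .nil)
noncomputable def n2016 : Strat := .move 715 n1300 (.cons 674 n2015 .nil)
noncomputable def n2017 : Strat := .move 716 n293 (.cons 675 n2016 .nil)
noncomputable def n2018 : Strat := .move 881 n884 (.cons 922 n1995 .nil)
noncomputable def n2019 : Strat := .move 879 n858 (.cons 920 n1977 .nil)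
noncomputable def n2020 : Strat := .move 881 n884 (.cons 922 n2019 .nil)
noncomputable def n2021 : Strat := .move 921 n377 (.cons 962 n1392 .nil)
noncomputable def n2022 : Strat := .move 921 n377 (.cons 962 n1390 .nil)
noncomputable def n2023 : Strat := .move 922 n1448 (.cons 881 n2022 .nil)
noncomputable def n2024 : Strat := .win 881 5 837
noncomputable def n2025 : Strat := .move 878 n2024 (.cons 881 n1429 .nil)
noncomputable def n2026 : Strat := .move 841 n282 (.cons 842 n2025 .nil)
noncomputable def n2027 : Strat := .move 879 n858 (.cons 920 n2026 .nil)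
noncomputable def n2028 : Strat := .move 880 n2018 (.cons 877 n2020 (.cons 881 n2021 (.cons 879 n2023 (.cons 922 n2027 .nil))))
noncomputable def n2029 : Strat := .move 757 n1672 (.cons 881 n2017 (.cons 716 n2028 .nil))
noncomputable def n2030 : Strat := .move 800 n312 (.cons 755 n1571 .nil)
noncomputable def n2031 : Strat := .move 797 n896 (.cons 921 n2030 .nil)
noncomputable def n2032 : Strat := .move 756 n1065 (.cons 715 n2031 .nil)
noncomputable def n2033 : Strat := .move 755 n1989 (.cons 797 n1250 .nil)
noncomputable def n2034 : Strat := .move 800 n1571 (.cons 801 n2033 .nil)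
noncomputable def n2035 : Strat := .move 756 n1065 (.cons 715 n2034 .nil)
noncomputable def n2036 : Strat := .move 880 n1996 (.cons 962 n2032 (.cons 921 n2035 .nil))
noncomputable def n2037 : Strat := .move 881 n469 (.cons 922 n2036 .nil)
noncomputable def n2038 : Strat := .move 881 n470 (.cons 716 n2036 .nil)
noncomputable def n2039 : Strat := .move 757 n1672 (.cons 716 n2037 (.cons 922 n2038 (.cons 881 n1994 .nil)))
noncomputable def n2040 : Strat := .move 756 n1835 (.cons 757 n312 .nil)
noncomputable def n2041 : Strat := .move 801 n1258 (.cons 802 n2040 .nil)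
noncomputable def n2042 : Strat := .win 757 7 715
noncomputable def n2043 : Strat := .move 715 n2042 (.cons 757 n313 .nil)
noncomputable def n2044 : Strat := .move 880 n896 (.cons 921 n2043 .nil)
noncomputable def n2045 : Strat := .move 756 n312 (.cons 755 n2044 .nil)
noncomputable def n2046 : Strat := .move 760 n1147 (.cons 761 n2004 .nil)
noncomputable def n2047 : Strat := .move 801 n1258 (.cons 802 n2046 .nil)
noncomputable def n2048 : Strat := .move 800 n2041 (.cons 801 n2045 (.cons 757 n2047 .nil))
noncomputable def n2049 : Strat := .move 841 n258 (.cons 842 n2048 .nil)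
noncomputable def n2050 : Strat := .move 841 n1961 (.cons 796 n2048 .nil)
noncomputable def n2051 : Strat := .move 797 n1962 (.cons 796 n2049 (.cons 842 n2050 (.cons 841 n1942 .nil)))
noncomputable def n2052 : Strat := .move 922 n629 (.cons 757 n630 .nil)
noncomputable def n2053 : Strat := .move 757 n470 (.cons 716 n1998 .nil)
noncomputable def n2054 : Strat := .win 960 4 919
noncomputable def n2055 : Strat := .win 880 1 797
noncomputable def n2056 : Strat := .move 961 n2054 (.cons 960 n2055 .nil)
noncomputable def n2057 : Strat := .win 883 5 879
noncomputable def n2058 : Strat := .move 882 n2057 (.cons 883 n1267 .nil)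
noncomputable def n2059 : Strat := .move 920 n2056 (.cons 880 n2058 .nil)
noncomputable def n2060 : Strat := .move 923 n626 (.cons 964 n2059 .nil)
noncomputable def n2061 : Strat := .move 921 n770 (.cons 962 n2060 .nil)
noncomputable def n2062 : Strat := .move 922 n630 (.cons 963 n2061 .nil)
noncomputable def n2063 : Strat := .move 881 n2052 (.cons 963 n539 (.cons 922 n2053 (.cons 757 n2062 .nil)))
noncomputable def n2064 : Strat := .move 842 n122 (.cons 797 n976 .nil)
noncomputable def n2065 : Strat := .move 797 n1961 (.cons 796 n258 .nil)
noncomputable def n2066 : Strat := .move 922 n234 (.cons 963 n629 .nil)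
noncomputable def n2067 : Strat := .move 801 n1835 (.cons 757 n1258 .nil)
noncomputable def n2068 : Strat := .move 756 n312 (.cons 755 n2067 .nil)
noncomputable def n2069 : Strat := .move 922 n1257 (.cons 759 n234 .nil)
noncomputable def n2070 : Strat := .move 881 n471 (.cons 716 n2066 (.cons 922 n2068 (.cons 757 n2069 .nil)))
noncomputable def n2071 : Strat := .move 800 n2002 (.cons 760 n2070 (.cons 759 n2041 .nil))
noncomputable def n2072 : Strat := .move 797 n1961 (.cons 796 n2071 .nil)
noncomputable def n2073 : Strat := .win 800 5 757
noncomputable def n2074 : Strat := .move 761 n358 (.cons 720 n2073 .nil)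
noncomputable def n2075 : Strat := .move 760 n352 (.cons 719 n2074 .nil)
noncomputable def n2076 : Strat := .move 883 n48 (.cons 884 n2075 .nil)
noncomputable def n2077 : Strat := .move 801 n60 (.cons 802 n2076 .nil)
noncomputable def n2078 : Strat := .move 842 n976 (.cons 843 n2077 .nil)
noncomputable def n2079 : Strat := .move 841 n2064 (.cons 843 n2065 (.cons 842 n2072 (.cons 797 n2078 .nil)))
noncomputable def n2080 : Strat := .move 719 n1149 (.cons 882 n1148 .nil)
noncomputable def n2081 : Strat := .move 760 n1147 (.cons 761 n2080 .nil)
noncomputable def n2082 : Strat := .move 841 n975 (.cons 797 n2081 .nil)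
noncomputable def n2083 : Strat := .move 842 n291 (.cons 843 n2082 .nil)
noncomputable def n2084 : Strat := .move 801 n1258 (.cons 802 n2083 .nil)
noncomputable def n2085 : Strat := .move 842 n975 (.cons 797 n976 .nil)
noncomputable def n2086 : Strat := .move 922 n629 (.cons 757 n234 .nil)
noncomputable def n2087 : Strat := .move 797 n265 (.cons 760 n1961 .nil)
noncomputable def n2088 : Strat := .move 759 n154 (.cons 718 n2087 .nil)
noncomputable def n2089 : Strat := .move 881 n2086 (.cons 922 n2088 .nil)
noncomputable def n2090 : Strat := .win 882 6 759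
noncomputable def n2091 : Strat := .move 924 n2090 (.cons 882 n178 .nil)
noncomputable def n2092 : Strat := .move 759 n355 (.cons 718 n2091 .nil)
noncomputable def n2093 : Strat := .move 883 n48 (.cons 884 n2092 .nil)
noncomputable def n2094 : Strat := .move 842 n976 (.cons 843 n2093 .nil)
noncomputable def n2095 : Strat := .move 841 n2085 (.cons 842 n2089 (.cons 797 n2094 .nil))
noncomputable def n2096 : Strat := .win 925 6 760
noncomputable def n2097 : Strat := .win 841 0 839
noncomputable def n2098 : Strat := .move 884 n2096 (.cons 925 n2097 .nil)
noncomputable def n2099 : Strat := .move 759 n1870 (.cons 718 n354 .nil)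
noncomputable def n2100 : Strat := .move 883 n2098 (.cons 841 n2099 .nil)
noncomputable def n2101 : Strat := .move 760 n1147 (.cons 761 n2100 .nil)
noncomputable def n2102 : Strat := .move 842 n291 (.cons 843 n2101 .nil)
noncomputable def n2103 : Strat := .move 801 n1258 (.cons 802 n2102 .nil)
noncomputable def n2104 : Strat := .move 797 n2004 (.cons 759 n1957 .nil)
noncomputable def n2105 : Strat := .move 760 n1147 (.cons 761 n2104 .nil)
noncomputable def n2106 : Strat := .move 801 n1258 (.cons 802 n2105 .nil)
noncomputable def n2107 : Strat := .move 841 n975 (.cons 797 n1177 .nil)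
noncomputable def n2108 : Strat := .move 842 n291 (.cons 843 n2107 .nil)
noncomputable def n2109 : Strat := .move 801 n1258 (.cons 802 n2108 .nil)
noncomputable def n2110 : Strat := .move 800 n2084 (.cons 801 n2095 (.cons 797 n2103 (.cons 843 n2106 (.cons 841 n1875 (.cons 760 n2109 .nil)))))
noncomputable def n2111 : Strat := .move 798 n2000 (.cons 757 n2011 (.cons 797 n2029 (.cons 841 n2039 (.cons 881 n2051 (.cons 755 n2063 (.cons 715 n2079 (.cons 756 n2110 .nil)))))))
noncomputable def n2112 : Strat := .win 798 1 675
noncomputable def n2113 : Strat := .win 718 3 676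
noncomputable def n2114 : Strat := .win 636 3 635
noncomputable def n2115 : Strat := .move 677 n2113 (.cons 718 n2114 .nil)
noncomputable def n2116 : Strat := .move 676 n2112 (.cons 798 n2115 .nil)
noncomputable def n2117 : Strat := .move 881 n762 (.cons 757 n766 .nil)
noncomputable def n2118 : Strat := .move 716 n763 (.cons 675 n2117 .nil)
noncomputable def n2119 : Strat := .win 634 7 634
noncomputable def n2120 : Strat := .move 675 n1796 (.cons 716 n2119 .nil)
noncomputable def n2121 : Strat := .move 676 n2112 (.cons 798 n2120 .nil)
noncomputable def n2122 : Strat := .move 717 n2116 (.cons 676 n2118 (.cons 718 n2121 .nil))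
noncomputable def n2123 : Strat := .move 921 n770 (.cons 962 n1703 .nil)
noncomputable def n2124 : Strat := .move 922 n736 (.cons 798 n2123 .nil)
noncomputable def n2125 : Strat := .move 757 n737 (.cons 716 n2124 .nil)
noncomputable def n2126 : Strat := .move 922 n736 (.cons 798 n1663 .nil)
noncomputable def n2127 : Strat := .move 757 n737 (.cons 716 n2126 .nil)
noncomputable def n2128 : Strat := .move 798 n1537 (.cons 761 n1538 .nil)
noncomputable def n2129 : Strat := .win 798 4 757
noncomputable def n2130 : Strat := .win 803 0 758
noncomputable def n2131 : Strat := .win 801 0 757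
noncomputable def n2132 : Strat := .move 802 n2130 (.cons 803 n2131 .nil)
noncomputable def n2133 : Strat := .move 761 n2129 (.cons 798 n2132 .nil)
noncomputable def n2134 : Strat := .move 800 n1396 (.cons 801 n1572 .nil)
noncomputable def n2135 : Strat := .win 800 0 756
noncomputable def n2136 : Strat := .move 801 n1773 (.cons 802 n2135 .nil)
noncomputable def n2137 : Strat := .win 798 4 756
noncomputable def n2138 : Strat := .move 797 n2137 (.cons 798 n1399 .nil)
noncomputable def n2139 : Strat := .move 756 n2134 (.cons 755 n2136 (.cons 801 n2138 .nil))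
noncomputable def n2140 : Strat := .win 721 5 717
noncomputable def n2141 : Strat := .win 719 5 716
noncomputable def n2142 : Strat := .move 720 n2140 (.cons 721 n2141 .nil)
noncomputable def n2143 : Strat := .move 761 n2132 (.cons 801 n2142 .nil)
noncomputable def n2144 : Strat := .move 760 n2128 (.cons 797 n2133 (.cons 761 n2139 (.cons 798 n2143 .nil)))
noncomputable def n2145 : Strat := .move 759 n654 (.cons 718 n2144 .nil)
noncomputable def n2146 : Strat := .move 757 n737 (.cons 716 n2145 .nil)
noncomputable def n2147 : Strat := .move 756 n1396 (.cons 801 n1572 .nil)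
noncomputable def n2148 : Strat := .move 757 n737 (.cons 716 n2147 .nil)
noncomputable def n2149 : Strat := .move 800 n1678 (.cons 922 n2148 .nil)
noncomputable def n2150 : Strat := .move 759 n654 (.cons 718 n2149 .nil)
noncomputable def n2151 : Strat := .move 922 n1491 (.cons 800 n1663 .nil)
noncomputable def n2152 : Strat := .move 759 n654 (.cons 718 n2151 .nil)
noncomputable def n2153 : Strat := .move 881 n2125 (.cons 759 n2127 (.cons 922 n2146 (.cons 798 n2150 (.cons 757 n2152 .nil))))
noncomputable def n2154 : Strat := .win 882 6 717
noncomputable def n2155 : Strat := .win 800 6 676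
noncomputable def n2156 : Strat := .move 676 n2155 (.cons 800 n2115 .nil)
noncomputable def n2157 : Strat := .move 841 n2154 (.cons 882 n2156 .nil)
noncomputable def n2158 : Strat := .move 756 n1331 (.cons 719 n1330 .nil)
noncomputable def n2159 : Strat := .win 798 7 674
noncomputable def n2160 : Strat := .win 673 2 673
noncomputable def n2161 : Strat := .move 674 n2159 (.cons 798 n2160 .nil)
noncomputable def n2162 : Strat := .move 757 n2158 (.cons 755 n1317 (.cons 719 n2161 .nil))
noncomputable def n2163 : Strat := .move 715 n1335 (.cons 714 n2162 .nil)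
noncomputable def n2164 : Strat := .move 718 n764 (.cons 677 n2163 .nil)
noncomputable def n2165 : Strat := .move 716 n763 (.cons 675 n2164 .nil)
noncomputable def n2166 : Strat := .move 717 n2116 (.cons 798 n2157 (.cons 636 n2121 (.cons 676 n2165 .nil)))
noncomputable def n2167 : Strat := .move 676 n2112 (.cons 798 n2155 .nil)
noncomputable def n2168 : Strat := .move 841 n2154 (.cons 882 n2167 .nil)
noncomputable def n2169 : Strat := .move 717 n2116 (.cons 676 n1890 (.cons 677 n2168 .nil))
noncomputable def n2170 : Strat := .win 881 7 716
noncomputable def n2171 : Strat := .move 757 n2170 (.cons 881 n1318 .nil)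
noncomputable def n2172 : Strat := .move 716 n763 (.cons 675 n2171 .nil)
noncomputable def n2173 : Strat := .move 717 n2121 (.cons 676 n2172 (.cons 675 n2116 .nil))
noncomputable def n2174 : Strat := .win 841 6 717
noncomputable def n2175 : Strat := .move 882 n2174 (.cons 841 n1486 .nil)
noncomputable def n2176 : Strat := .move 881 n765 (.cons 759 n2175 .nil)
noncomputable def n2177 : Strat := .move 718 n764 (.cons 677 n2176 .nil)
noncomputable def n2178 : Strat := .move 717 n2116 (.cons 636 n2168 (.cons 676 n2177 .nil))
noncomputable def n2179 : Strat := .move 881 n762 (.cons 757 n2175 .nil)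
noncomputable def n2180 : Strat := .move 716 n763 (.cons 675 n2179 .nil)
noncomputable def n2181 : Strat := .move 841 n2154 (.cons 882 n2155 .nil)
noncomputable def n2182 : Strat := .move 676 n2112 (.cons 798 n2181 .nil)
noncomputable def n2183 : Strat := .move 717 n2121 (.cons 676 n2180 (.cons 716 n2182 .nil))
noncomputable def n2184 : Strat := .move 717 n2174 (.cons 841 n766 .nil)
noncomputable def n2185 : Strat := .move 882 n1486 (.cons 923 n2184 .nil)
noncomputable def n2186 : Strat := .move 716 n763 (.cons 675 n762 .nil)
noncomputable def n2187 : Strat := .move 717 n2174 (.cons 841 n2186 .nil)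
noncomputable def n2188 : Strat := .move 882 n1486 (.cons 923 n2187 .nil)
noncomputable def n2189 : Strat := .move 881 n2185 (.cons 717 n2150 (.cons 759 n2188 .nil))
noncomputable def n2190 : Strat := .move 758 n2122 (.cons 717 n2153 (.cons 881 n2166 (.cons 757 n2169 (.cons 759 n2173 (.cons 716 n2178 (.cons 718 n2183 (.cons 798 n2189 .nil)))))))
noncomputable def n2191 : Strat := .move 881 n557 (.cons 921 n1973 .nil)
noncomputable def n2192 : Strat := .move 880 n558 (.cons 717 n2191 .nil)
noncomputable def n2193 : Strat := .move 676 n2155 (.cons 800 n2120 .nil)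
noncomputable def n2194 : Strat := .move 841 n2154 (.cons 882 n2193 .nil)
noncomputable def n2195 : Strat := .move 717 n641 (.cons 880 n2194 .nil)
noncomputable def n2196 : Strat := .move 880 n557 (.cons 921 n1973 .nil)
noncomputable def n2197 : Strat := .win 920 4 878
noncomputable def n2198 : Strat := .move 919 n430 (.cons 918 n2197 .nil)
noncomputable def n2199 : Strat := .move 878 n1429 (.cons 877 n2198 .nil)
noncomputable def n2200 : Strat := .win 841 4 838
noncomputable def n2201 : Strat := .win 843 5 839
noncomputable def n2202 : Strat := .move 883 n2201 (.cons 843 n1279 .nil)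
noncomputable def n2203 : Strat := .move 842 n2200 (.cons 841 n2202 .nil)
noncomputable def n2204 : Strat := .move 879 n1975 (.cons 877 n1977 (.cons 841 n2199 (.cons 878 n2203 .nil)))
noncomputable def n2205 : Strat := .move 882 n1486 (.cons 923 n2204 .nil)
noncomputable def n2206 : Strat := .move 880 n557 (.cons 921 n2205 .nil)
noncomputable def n2207 : Strat := .move 881 n2196 (.cons 880 n2150 (.cons 759 n2206 .nil))
noncomputable def n2208 : Strat := .move 759 n1561 (.cons 881 n1887 .nil)
noncomputable def n2209 : Strat := .move 716 n763 (.cons 675 n2208 .nil)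
noncomputable def n2210 : Strat := .move 718 n764 (.cons 677 n2209 .nil)
noncomputable def n2211 : Strat := .move 717 n641 (.cons 880 n2210 .nil)
noncomputable def n2212 : Strat := .move 758 n2192 (.cons 880 n2189 (.cons 718 n2195 (.cons 717 n2207 (.cons 882 n2211 .nil))))
noncomputable def n2213 : Strat := .move 717 n641 (.cons 880 n2116 .nil)
noncomputable def n2214 : Strat := .move 922 n736 (.cons 798 n1492 .nil)
noncomputable def n2215 : Strat := .move 757 n737 (.cons 716 n2214 .nil)
noncomputable def n2216 : Strat := .move 798 n884 (.cons 922 n1540 .nil)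
noncomputable def n2217 : Strat := .move 757 n737 (.cons 716 n2216 .nil)
noncomputable def n2218 : Strat := .move 880 n557 (.cons 921 n2217 .nil)
noncomputable def n2219 : Strat := .move 922 n770 (.cons 962 n1663 .nil)
noncomputable def n2220 : Strat := .move 921 n769 (.cons 880 n2219 .nil)
noncomputable def n2221 : Strat := .win 714 2 714
noncomputable def n2222 : Strat := .win 798 7 715
noncomputable def n2223 : Strat := .move 715 n2221 (.cons 714 n2222 .nil)
noncomputable def n2224 : Strat := .move 756 n2134 (.cons 755 n2223 .nil)
noncomputable def n2225 : Strat := .move 759 n654 (.cons 718 n2224 .nil)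
noncomputable def n2226 : Strat := .move 757 n737 (.cons 716 n2225 .nil)
noncomputable def n2227 : Strat := .move 880 n557 (.cons 921 n2226 .nil)
noncomputable def n2228 : Strat := .move 881 n2215 (.cons 800 n2218 (.cons 757 n2220 (.cons 922 n2227 .nil)))
noncomputable def n2229 : Strat := .move 880 n558 (.cons 717 n1955 .nil)
noncomputable def n2230 : Strat := .move 881 n2215 (.cons 757 n2152 (.cons 759 n2127 (.cons 922 n768 .nil)))
noncomputable def n2231 : Strat := .move 758 n2213 (.cons 717 n2228 (.cons 718 n2229 (.cons 880 n2230 .nil)))
noncomputable def n2232 : Strat := .move 714 n1302 (.cons 713 n1301 .nil)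
noncomputable def n2233 : Strat := .move 715 n1300 (.cons 674 n2232 .nil)
noncomputable def n2234 : Strat := .move 798 n640 (.cons 676 n2233 .nil)
noncomputable def n2235 : Strat := .move 757 n2170 (.cons 881 n2234 .nil)
noncomputable def n2236 : Strat := .move 716 n763 (.cons 675 n2235 .nil)
noncomputable def n2237 : Strat := .move 717 n2236 (.cons 716 n2116 (.cons 676 n2118 .nil))
noncomputable def n2238 : Strat := .move 880 n558 (.cons 717 n1986 .nil)
noncomputable def n2239 : Strat := .move 798 n469 (.cons 922 n1540 .nil)
noncomputable def n2240 : Strat := .move 757 n737 (.cons 716 n2239 .nil)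
noncomputable def n2241 : Strat := .win 798 6 757
noncomputable def n2242 : Strat := .move 922 n2241 (.cons 798 n1892 .nil)
noncomputable def n2243 : Strat := .move 757 n737 (.cons 716 n2242 .nil)
noncomputable def n2244 : Strat := .move 880 n557 (.cons 921 n2243 .nil)
noncomputable def n2245 : Strat := .move 920 n1978 (.cons 798 n392 .nil)
noncomputable def n2246 : Strat := .move 879 n1975 (.cons 877 n1977 (.cons 841 n2245 .nil))
noncomputable def n2247 : Strat := .move 757 n737 (.cons 716 n2246 .nil)
noncomputable def n2248 : Strat := .move 882 n1486 (.cons 923 n2247 .nil)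
noncomputable def n2249 : Strat := .move 880 n557 (.cons 921 n2248 .nil)
noncomputable def n2250 : Strat := .move 881 n2218 (.cons 921 n2240 (.cons 797 n2244 (.cons 922 n2249 (.cons 798 n2206 .nil))))
noncomputable def n2251 : Strat := .move 758 n2229 (.cons 880 n2237 (.cons 881 n2238 (.cons 717 n2250 .nil)))
noncomputable def n2252 : Strat := .move 758 n557 (.cons 921 n1969 .nil)
noncomputable def n2253 : Strat := .move 880 n2252 (.cons 758 n1995 .nil)
noncomputable def n2254 : Strat := .move 757 n470 (.cons 716 n2253 .nil)
noncomputable def n2255 : Strat := .move 880 n376 (.cons 758 n1958 .nil)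
noncomputable def n2256 : Strat := .move 921 n770 (.cons 962 n2255 .nil)
noncomputable def n2257 : Strat := .move 922 n630 (.cons 963 n2256 .nil)
noncomputable def n2258 : Strat := .move 798 n2052 (.cons 963 n539 (.cons 922 n2254 (.cons 757 n2257 .nil)))
noncomputable def n2259 : Strat := .move 880 n557 (.cons 921 n1982 .nil)
noncomputable def n2260 : Strat := .move 758 n2259 (.cons 841 n2227 (.cons 880 n2146 (.cons 757 n2206 .nil)))
noncomputable def n2261 : Strat := .move 841 n264 (.cons 842 n1961 .nil)
noncomputable def n2262 : Strat := .win 880 7 756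
noncomputable def n2263 : Strat := .move 756 n312 (.cons 755 n2262 .nil)
noncomputable def n2264 : Strat := .move 797 n1957 (.cons 795 n2261 (.cons 841 n2263 .nil))
noncomputable def n2265 : Strat := .move 800 n1257 (.cons 759 n2264 .nil)
noncomputable def n2266 : Strat := .move 921 n770 (.cons 962 n2265 .nil)
noncomputable def n2267 : Strat := .move 798 n629 (.cons 757 n2266 .nil)
noncomputable def n2268 : Strat := .win 798 7 798
noncomputable def n2269 : Strat := .move 962 n729 (.cons 921 n730 .nil)
noncomputable def n2270 : Strat := .move 963 n2268 (.cons 798 n2269 .nil)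
noncomputable def n2271 : Strat := .win 1004 7 839
noncomputable def n2272 : Strat := .win 841 3 799
noncomputable def n2273 : Strat := .move 963 n2271 (.cons 1004 n2272 .nil)
noncomputable def n2274 : Strat := .win 878 0 878
noncomputable def n2275 : Strat := .move 879 n1926 (.cons 924 n2274 .nil)
noncomputable def n2276 : Strat := .move 880 n2273 (.cons 841 n2275 .nil)
noncomputable def n2277 : Strat := .move 800 n1257 (.cons 759 n2276 .nil)
noncomputable def n2278 : Strat := .move 923 n626 (.cons 964 n2277 .nil)
noncomputable def n2279 : Strat := .move 921 n770 (.cons 962 n2278 .nil)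
noncomputable def n2280 : Strat := .move 922 n631 (.cons 963 n2267 (.cons 757 n2270 (.cons 798 n2279 .nil)))
noncomputable def n2281 : Strat := .move 798 n630 (.cons 963 n2256 .nil)
noncomputable def n2282 : Strat := .move 800 n1257 (.cons 759 n2272 .nil)
noncomputable def n2283 : Strat := .move 963 n2268 (.cons 798 n2282 .nil)
noncomputable def n2284 : Strat := .win 798 6 798
noncomputable def n2285 : Strat := .move 963 n2284 (.cons 798 n2271 .nil)
noncomputable def n2286 : Strat := .move 880 n376 (.cons 758 n2285 .nil)
noncomputable def n2287 : Strat := .move 921 n770 (.cons 962 n2286 .nil)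
noncomputable def n2288 : Strat := .move 923 n626 (.cons 964 n2275 .nil)
noncomputable def n2289 : Strat := .move 880 n376 (.cons 758 n2288 .nil)
noncomputable def n2290 : Strat := .move 921 n770 (.cons 962 n2289 .nil)
noncomputable def n2291 : Strat := .move 922 n2281 (.cons 921 n2283 (.cons 841 n2287 (.cons 963 n2290 .nil)))
noncomputable def n2292 : Strat := .move 758 n2215 (.cons 800 n2218 (.cons 757 n2220 (.cons 922 n2227 .nil)))
noncomputable def n2293 : Strat := .move 758 n769 (.cons 880 n1662 .nil)
noncomputable def n2294 : Strat := .move 923 n626 (.cons 964 n2293 .nil)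
noncomputable def n2295 : Strat := .move 921 n770 (.cons 962 n2294 .nil)
noncomputable def n2296 : Strat := .move 922 n631 (.cons 757 n2270 (.cons 798 n2295 .nil))
noncomputable def n2297 : Strat := .move 758 n2125 (.cons 759 n2127 (.cons 922 n2146 (.cons 798 n2150 (.cons 757 n2152 .nil))))
noncomputable def n2298 : Strat := .move 880 n1971 (.cons 798 n1973 (.cons 922 n1982 .nil))
noncomputable def n2299 : Strat := .win 797 6 674
noncomputable def n2300 : Strat := .win 633 6 633
noncomputable def n2301 : Strat := .move 674 n2299 (.cons 797 n2300 .nil)
noncomputable def n2302 : Strat := .move 715 n1346 (.cons 880 n2301 .nil)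
noncomputable def n2303 : Strat := .move 756 n1968 (.cons 800 n2302 .nil)
noncomputable def n2304 : Strat := .move 798 n469 (.cons 922 n2303 .nil)
noncomputable def n2305 : Strat := .move 757 n737 (.cons 716 n2304 .nil)
noncomputable def n2306 : Strat := .move 715 n1346 (.cons 880 n2221 .nil)
noncomputable def n2307 : Strat := .move 756 n2134 (.cons 755 n2306 .nil)
noncomputable def n2308 : Strat := .move 798 n1539 (.cons 797 n2307 .nil)
noncomputable def n2309 : Strat := .move 759 n654 (.cons 718 n2308 .nil)
noncomputable def n2310 : Strat := .move 757 n737 (.cons 716 n2309 .nil)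
noncomputable def n2311 : Strat := .move 758 n2298 (.cons 757 n2152 (.cons 759 n2305 (.cons 922 n2310 (.cons 800 n2240 .nil))))
noncomputable def n2312 : Strat := .move 800 n2272 (.cons 841 n1257 .nil)
noncomputable def n2313 : Strat := .move 963 n2271 (.cons 1004 n2312 .nil)
noncomputable def n2314 : Strat := .move 880 n376 (.cons 758 n2313 .nil)
noncomputable def n2315 : Strat := .move 921 n770 (.cons 962 n2314 .nil)
noncomputable def n2316 : Strat := .move 964 n732 (.cons 923 n731 .nil)
noncomputable def n2317 : Strat := .move 963 n2272 (.cons 841 n2316 .nil)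
noncomputable def n2318 : Strat := .move 800 n1257 (.cons 759 n2317 .nil)
noncomputable def n2319 : Strat := .move 922 n2295 (.cons 923 n2315 (.cons 758 n2279 (.cons 921 n2318 .nil)))
noncomputable def n2320 : Strat := .move 881 n2258 (.cons 922 n2260 (.cons 758 n2280 (.cons 757 n2291 (.cons 841 n2292 (.cons 756 n2296 (.cons 880 n2297 (.cons 921 n2311 (.cons 798 n2319 .nil))))))))
noncomputable def n2321 : Strat := .move 880 n558 (.cons 717 n1983 .nil)
noncomputable def n2322 : Strat := .move 881 n2298 (.cons 757 n2152 (.cons 759 n2305 (.cons 922 n2310 (.cons 800 n2240 .nil))))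
noncomputable def n2323 : Strat := .move 717 n641 (.cons 880 n2121 .nil)
noncomputable def n2324 : Strat := .move 881 n765 (.cons 759 n762 .nil)
noncomputable def n2325 : Strat := .move 716 n763 (.cons 675 n2324 .nil)
noncomputable def n2326 : Strat := .move 718 n764 (.cons 677 n2325 .nil)
noncomputable def n2327 : Strat := .move 717 n641 (.cons 880 n2326 .nil)
noncomputable def n2328 : Strat := .move 758 n2321 (.cons 717 n2322 (.cons 880 n2122 (.cons 757 n2213 (.cons 718 n2323 (.cons 798 n2327 .nil)))))
noncomputable def n2329 : Strat := .move 798 n1390 (.cons 963 n1958 .nil)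
noncomputable def n2330 : Strat := .move 922 n2285 (.cons 1004 n2329 (.cons 963 n2288 .nil))
noncomputable def n2331 : Strat := .move 881 n376 (.cons 758 n2330 .nil)
noncomputable def n2332 : Strat := .move 921 n377 (.cons 962 n2331 .nil)
noncomputable def n2333 : Strat := .move 963 n2271 (.cons 1004 n2268 .nil)
noncomputable def n2334 : Strat := .move 922 n1703 (.cons 718 n2333 .nil)
noncomputable def n2335 : Strat := .move 883 n1279 (.cons 884 n2334 .nil)
noncomputable def n2336 : Strat := .move 882 n1486 (.cons 923 n2335 .nil)
noncomputable def n2337 : Strat := .move 881 n557 (.cons 921 n2336 .nil)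
noncomputable def n2338 : Strat := .move 758 n558 (.cons 717 n2337 .nil)
noncomputable def n2339 : Strat := .move 798 n1866 (.cons 922 n1730 (.cons 718 n1903 .nil))
noncomputable def n2340 : Strat := .move 922 n1491 (.cons 800 n2333 .nil)
noncomputable def n2341 : Strat := .move 759 n654 (.cons 718 n2340 .nil)
noncomputable def n2342 : Strat := .move 881 n2339 (.cons 923 n2341 (.cons 922 n2205 .nil))
noncomputable def n2343 : Strat := .move 758 n558 (.cons 717 n2342 .nil)
noncomputable def n2344 : Strat := .move 798 n1963 (.cons 841 n1930 .nil)
noncomputable def n2345 : Strat := .move 921 n377 (.cons 962 n2344 .nil)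
noncomputable def n2346 : Strat := .move 758 n558 (.cons 717 n1985 .nil)
noncomputable def n2347 : Strat := .move 921 n377 (.cons 962 n2346 .nil)
noncomputable def n2348 : Strat := .move 880 n2332 (.cons 962 n2338 (.cons 963 n1956 (.cons 921 n2343 (.cons 758 n2345 (.cons 881 n2347 .nil)))))
noncomputable def n2349 : Strat := .move 881 n557 (.cons 921 n1982 .nil)
noncomputable def n2350 : Strat := .move 758 n558 (.cons 717 n2349 .nil)
noncomputable def n2351 : Strat := .move 881 n557 (.cons 921 n2226 .nil)
noncomputable def n2352 : Strat := .move 758 n558 (.cons 717 n2351 .nil)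
noncomputable def n2353 : Strat := .move 881 n1982 (.cons 757 n2205 (.cons 882 n2226 .nil))
noncomputable def n2354 : Strat := .move 758 n558 (.cons 717 n2353 .nil)
noncomputable def n2355 : Strat := .move 758 n1954 (.cons 881 n1985 .nil)
noncomputable def n2356 : Strat := .move 921 n377 (.cons 962 n2355 .nil)
noncomputable def n2357 : Strat := .move 796 n1421 (.cons 795 n1045 .nil)
noncomputable def n2358 : Strat := .move 797 n871 (.cons 756 n2357 .nil)
noncomputable def n2359 : Strat := .move 757 n470 (.cons 716 n1391 .nil)
noncomputable def n2360 : Strat := .move 757 n470 (.cons 716 n1364 .nil)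
noncomputable def n2361 : Strat := .move 882 n392 (.cons 919 n1266 .nil)
noncomputable def n2362 : Strat := .move 879 n393 (.cons 757 n2361 .nil)
noncomputable def n2363 : Strat := .move 920 n899 (.cons 961 n2362 .nil)
noncomputable def n2364 : Strat := .move 881 n2359 (.cons 879 n2360 (.cons 716 n2363 (.cons 757 n1531 .nil)))
noncomputable def n2365 : Strat := .move 757 n898 (.cons 879 n1745 .nil)
noncomputable def n2366 : Strat := .move 920 n899 (.cons 961 n2365 .nil)
noncomputable def n2367 : Strat := .move 798 n1963 (.cons 842 n2358 (.cons 841 n2364 (.cons 797 n2366 .nil)))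
noncomputable def n2368 : Strat := .move 921 n377 (.cons 962 n2367 .nil)
noncomputable def n2369 : Strat := .move 880 n2350 (.cons 841 n2352 (.cons 921 n2354 (.cons 717 n2356 (.cons 881 n1987 (.cons 758 n2368 (.cons 798 n1956 .nil))))))
noncomputable def n2370 : Strat := .move 880 n557 (.cons 921 n1971 .nil)
noncomputable def n2371 : Strat := .move 881 n2370 (.cons 880 n2127 (.cons 922 n2249 (.cons 798 n2206 .nil)))
noncomputable def n2372 : Strat := .move 758 n2323 (.cons 880 n2173 (.cons 675 n2229 (.cons 717 n2371 .nil)))
noncomputable def n2373 : Strat := .move 758 n558 (.cons 717 n1954 .nil)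
noncomputable def n2374 : Strat := .move 921 n377 (.cons 962 n2373 .nil)
noncomputable def n2375 : Strat := .move 881 n557 (.cons 921 n1971 .nil)
noncomputable def n2376 : Strat := .move 758 n558 (.cons 717 n2375 .nil)
noncomputable def n2377 : Strat := .move 798 n978 (.cons 758 n1963 .nil)
noncomputable def n2378 : Strat := .move 921 n377 (.cons 962 n2377 .nil)
noncomputable def n2379 : Strat := .move 922 n626 (.cons 964 n2333 .nil)
noncomputable def n2380 : Strat := .move 923 n1662 (.cons 882 n2379 .nil)
noncomputable def n2381 : Strat := .move 963 n2272 (.cons 841 n2271 .nil)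
noncomputable def n2382 : Strat := .move 800 n1257 (.cons 759 n2381 .nil)
noncomputable def n2383 : Strat := .move 922 n626 (.cons 964 n2382 .nil)
noncomputable def n2384 : Strat := .move 923 n1662 (.cons 882 n2383 .nil)
noncomputable def n2385 : Strat := .move 881 n1971 (.cons 757 n2380 (.cons 922 n1982 (.cons 798 n2384 .nil)))
noncomputable def n2386 : Strat := .move 758 n558 (.cons 717 n2385 .nil)
noncomputable def n2387 : Strat := .move 880 n2374 (.cons 962 n2376 (.cons 758 n1967 (.cons 881 n2378 (.cons 921 n2386 .nil))))
noncomputable def n2388 : Strat := .move 921 n1954 (.cons 881 n1985 .nil)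
noncomputable def n2389 : Strat := .move 758 n558 (.cons 717 n2388 .nil)
noncomputable def n2390 : Strat := .move 881 n1971 (.cons 755 n2217 (.cons 757 n2341 (.cons 798 n2150 (.cons 922 n2226 .nil))))
noncomputable def n2391 : Strat := .move 758 n558 (.cons 717 n2390 .nil)
noncomputable def n2392 : Strat := .move 757 n1448 (.cons 881 n1367 .nil)
noncomputable def n2393 : Strat := .move 922 n1390 (.cons 963 n2392 .nil)
noncomputable def n2394 : Strat := .move 798 n1963 (.cons 842 n2393 .nil)
noncomputable def n2395 : Strat := .move 921 n377 (.cons 962 n2394 .nil)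
noncomputable def n2396 : Strat := .move 880 n1956 (.cons 962 n2389 (.cons 717 n2356 (.cons 881 n1987 (.cons 921 n2391 (.cons 758 n2395 .nil)))))
noncomputable def n2397 : Strat := .move 758 n639 (.cons 759 n1858 .nil)
noncomputable def n2398 : Strat := .move 796 n1421 (.cons 795 n2397 .nil)
noncomputable def n2399 : Strat := .move 796 n1045 (.cons 841 n2397 .nil)
noncomputable def n2400 : Strat := .win 841 2 797
noncomputable def n2401 : Strat := .move 800 n2008 (.cons 801 n2045 .nil)
noncomputable def n2402 : Strat := .move 842 n2400 (.cons 841 n2401 .nil)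
noncomputable def n2403 : Strat := .move 797 n2357 (.cons 841 n2398 (.cons 795 n2399 (.cons 796 n2402 .nil)))
noncomputable def n2404 : Strat := .move 796 n1421 (.cons 795 n639 .nil)
noncomputable def n2405 : Strat := .move 759 n1695 (.cons 796 n1755 .nil)
noncomputable def n2406 : Strat := .move 715 n313 (.cons 674 n2042 .nil)
noncomputable def n2407 : Strat := .move 756 n312 (.cons 755 n2406 .nil)
noncomputable def n2408 : Strat := .move 801 n1147 (.cons 761 n1258 .nil)
noncomputable def n2409 : Strat := .move 760 n2004 (.cons 759 n2408 .nil)
noncomputable def n2410 : Strat := .move 800 n2407 (.cons 756 n2409 .nil)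
noncomputable def n2411 : Strat := .move 755 n1825 (.cons 800 n519 .nil)
noncomputable def n2412 : Strat := .move 756 n2411 (.cons 754 n2406 .nil)
noncomputable def n2413 : Strat := .move 796 n1421 (.cons 795 n2412 .nil)
noncomputable def n2414 : Strat := .move 797 n2404 (.cons 795 n2405 (.cons 796 n2410 (.cons 759 n2413 .nil)))
noncomputable def n2415 : Strat := .move 758 n558 (.cons 717 n2414 .nil)
noncomputable def n2416 : Strat := .move 757 n898 (.cons 879 n1275 .nil)
noncomputable def n2417 : Strat := .move 920 n899 (.cons 961 n2416 .nil)
noncomputable def n2418 : Strat := .move 921 n377 (.cons 962 n2417 .nil)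
noncomputable def n2419 : Strat := .move 880 n1063 (.cons 921 n2415 (.cons 758 n2418 .nil))
noncomputable def n2420 : Strat := .move 841 n1961 (.cons 796 n264 .nil)
noncomputable def n2421 : Strat := .move 796 n1421 (.cons 795 n1814 .nil)
noncomputable def n2422 : Strat := .move 841 n264 (.cons 842 n2045 .nil)
noncomputable def n2423 : Strat := .move 797 n2420 (.cons 841 n2421 (.cons 796 n2422 .nil))
noncomputable def n2424 : Strat := .move 716 n293 (.cons 675 n1372 .nil)
noncomputable def n2425 : Strat := .move 843 n2424 (.cons 716 n1996 .nil)
noncomputable def n2426 : Strat := .move 757 n2425 (.cons 716 n1996 (.cons 921 n2424 .nil))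
noncomputable def n2427 : Strat := .win 758 1 716
noncomputable def n2428 : Strat := .move 716 n1299 (.cons 676 n293 .nil)
noncomputable def n2429 : Strat := .move 717 n2427 (.cons 758 n2428 .nil)
noncomputable def n2430 : Strat := .win 758 0 755
noncomputable def n2431 : Strat := .move 755 n2430 (.cons 758 n1250 .nil)
noncomputable def n2432 : Strat := .move 756 n1065 (.cons 715 n2431 .nil)
noncomputable def n2433 : Strat := .move 843 n2429 (.cons 717 n2432 (.cons 758 n2424 .nil))
noncomputable def n2434 : Strat := .move 756 n1572 (.cons 755 n1065 .nil)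
noncomputable def n2435 : Strat := .move 758 n558 (.cons 717 n2434 .nil)
noncomputable def n2436 : Strat := .move 757 n2433 (.cons 758 n2424 (.cons 716 n2435 (.cons 756 n2429 .nil)))
noncomputable def n2437 : Strat := .move 880 n1920 (.cons 758 n2426 (.cons 921 n2436 .nil))
noncomputable def n2438 : Strat := .move 797 n2420 (.cons 841 n2045 .nil)
noncomputable def n2439 : Strat := .move 758 n640 (.cons 676 n641 .nil)
noncomputable def n2440 : Strat := .move 758 n2154 (.cons 882 n640 .nil)
noncomputable def n2441 : Strat := .move 758 n2154 (.cons 882 n641 .nil)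
noncomputable def n2442 : Strat := .move 718 n709 (.cons 676 n266 .nil)
noncomputable def n2443 : Strat := .move 717 n2439 (.cons 880 n2440 (.cons 676 n2441 (.cons 758 n2442 .nil)))
noncomputable def n2444 : Strat := .move 759 n265 (.cons 760 n2443 .nil)
noncomputable def n2445 : Strat := .move 841 n264 (.cons 842 n2444 .nil)
noncomputable def n2446 : Strat := .move 797 n2420 (.cons 842 n2357 (.cons 841 n1880 (.cons 796 n2445 .nil)))
noncomputable def n2447 : Strat := .move 797 n1961 (.cons 796 n264 .nil)
noncomputable def n2448 : Strat := .win 883 6 759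
noncomputable def n2449 : Strat := .move 759 n2448 (.cons 883 n265 .nil)
noncomputable def n2450 : Strat := .move 923 n160 (.cons 965 n145 .nil)
noncomputable def n2451 : Strat := .move 924 n2449 (.cons 760 n2450 .nil)
noncomputable def n2452 : Strat := .move 797 n1961 (.cons 796 n2451 .nil)
noncomputable def n2453 : Strat := .win 758 6 717
noncomputable def n2454 : Strat := .move 760 n323 (.cons 719 n1686 .nil)
noncomputable def n2455 : Strat := .move 759 n2087 (.cons 796 n2454 (.cons 760 n2442 .nil))
noncomputable def n2456 : Strat := .move 717 n2453 (.cons 758 n2455 .nil)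
noncomputable def n2457 : Strat := .move 882 n252 (.cons 717 n342 (.cons 758 n2452 (.cons 923 n2456 .nil)))
noncomputable def n2458 : Strat := .move 841 n2447 (.cons 797 n2094 (.cons 842 n2457 .nil))
noncomputable def n2459 : Strat := .move 800 n2423 (.cons 797 n2437 (.cons 758 n2438 (.cons 757 n2446 (.cons 880 n2458 .nil))))
noncomputable def n2460 : Strat := .win 923 2 878
noncomputable def n2461 : Strat := .move 922 n2460 (.cons 923 n1390 .nil)
noncomputable def n2462 : Strat := .move 878 n1429 (.cons 877 n2461 .nil)
noncomputable def n2463 : Strat := .move 879 n393 (.cons 757 n2462 .nil)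
noncomputable def n2464 : Strat := .move 920 n899 (.cons 961 n2463 .nil)
noncomputable def n2465 : Strat := .move 921 n377 (.cons 962 n2464 .nil)
noncomputable def n2466 : Strat := .move 716 n293 (.cons 675 n1299 .nil)
noncomputable def n2467 : Strat := .move 757 n2466 (.cons 716 n2035 .nil)
noncomputable def n2468 : Strat := .move 717 n2427 (.cons 758 n2467 .nil)
noncomputable def n2469 : Strat := .move 880 n1063 (.cons 758 n2465 (.cons 962 n1920 (.cons 921 n2468 .nil)))
noncomputable def n2470 : Strat := .move 800 n2041 (.cons 801 n2444 .nil)
noncomputable def n2471 : Strat := .move 841 n258 (.cons 842 n2470 .nil)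
noncomputable def n2472 : Strat := .move 758 n639 (.cons 759 n558 .nil)
noncomputable def n2473 : Strat := .move 837 n518 (.cons 836 n2472 .nil)
noncomputable def n2474 : Strat := .move 758 n558 (.cons 717 n639 .nil)
noncomputable def n2475 : Strat := .move 756 n1825 (.cons 800 n2043 .nil)
noncomputable def n2476 : Strat := .move 755 n519 (.cons 754 n2475 .nil)
noncomputable def n2477 : Strat := .move 880 n2473 (.cons 836 n2474 (.cons 758 n2476 .nil))
noncomputable def n2478 : Strat := .move 796 n1421 (.cons 795 n2477 .nil)
noncomputable def n2479 : Strat := .move 797 n2357 (.cons 795 n1962 (.cons 796 n2471 (.cons 841 n2478 .nil)))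
noncomputable def n2480 : Strat := .move 717 n2154 (.cons 882 n640 .nil)
noncomputable def n2481 : Strat := .move 880 n1061 (.cons 921 n558 .nil)
noncomputable def n2482 : Strat := .move 758 n642 (.cons 880 n2480 (.cons 676 n2481 (.cons 717 n2409 .nil)))
noncomputable def n2483 : Strat := .move 841 n264 (.cons 842 n2482 .nil)
noncomputable def n2484 : Strat := .move 800 n2483 (.cons 801 n2445 (.cons 882 n2009 (.cons 841 n2006 .nil)))
noncomputable def n2485 : Strat := .move 797 n2357 (.cons 841 n2398 (.cons 795 n1962 (.cons 796 n2484 .nil)))
noncomputable def n2486 : Strat := .move 921 n377 (.cons 962 n1963 .nil)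
noncomputable def n2487 : Strat := .move 841 n258 (.cons 842 n1961 .nil)
noncomputable def n2488 : Strat := .move 796 n639 (.cons 759 n1421 .nil)
noncomputable def n2489 : Strat := .move 716 n1300 (.cons 674 n293 .nil)
noncomputable def n2490 : Strat := .move 715 n1311 (.cons 756 n2489 .nil)
noncomputable def n2491 : Strat := .move 797 n1957 (.cons 795 n2487 (.cons 841 n2488 (.cons 796 n2490 .nil)))
noncomputable def n2492 : Strat := .move 758 n558 (.cons 717 n2491 .nil)
noncomputable def n2493 : Strat := .move 715 n1311 (.cons 756 n1300 .nil)
noncomputable def n2494 : Strat := .move 716 n293 (.cons 675 n2493 .nil)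
noncomputable def n2495 : Strat := .move 797 n1045 (.cons 841 n1421 .nil)
noncomputable def n2496 : Strat := .move 797 n1420 (.cons 759 n1045 .nil)
noncomputable def n2497 : Strat := .move 797 n1420 (.cons 759 n1421 .nil)
noncomputable def n2498 : Strat := .win 795 4 754
noncomputable def n2499 : Strat := .move 755 n2498 (.cons 795 n1250 .nil)
noncomputable def n2500 : Strat := .move 796 n2495 (.cons 795 n2496 (.cons 841 n2497 (.cons 797 n2499 .nil)))
noncomputable def n2501 : Strat := .move 756 n1065 (.cons 715 n2500 .nil)
noncomputable def n2502 : Strat := .move 758 n558 (.cons 717 n2501 .nil)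
noncomputable def n2503 : Strat := .move 717 n2427 (.cons 758 n2466 .nil)
noncomputable def n2504 : Strat := .move 757 n2492 (.cons 758 n2494 (.cons 716 n2502 (.cons 715 n2503 .nil)))
noncomputable def n2505 : Strat := .move 880 n1063 (.cons 758 n2486 (.cons 962 n1920 (.cons 921 n2504 .nil)))
noncomputable def n2506 : Strat := .move 717 n1299 (.cons 676 n1372 .nil)
noncomputable def n2507 : Strat := .move 716 n293 (.cons 675 n2506 .nil)
noncomputable def n2508 : Strat := .move 800 n1571 (.cons 801 n2431 .nil)
noncomputable def n2509 : Strat := .move 756 n1065 (.cons 715 n2508 .nil)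
noncomputable def n2510 : Strat := .move 757 n1479 (.cons 758 n2507 (.cons 717 n2509 (.cons 756 n2503 .nil)))
noncomputable def n2511 : Strat := .move 880 n1920 (.cons 758 n2465 (.cons 921 n2510 .nil))
noncomputable def n2512 : Strat := .move 797 n2007 (.cons 841 n2040 .nil)
noncomputable def n2513 : Strat := .move 842 n291 (.cons 843 n2512 .nil)
noncomputable def n2514 : Strat := .move 801 n1258 (.cons 802 n2513 .nil)
noncomputable def n2515 : Strat := .move 797 n2004 (.cons 759 n2040 .nil)
noncomputable def n2516 : Strat := .move 760 n1147 (.cons 761 n2515 .nil)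
noncomputable def n2517 : Strat := .move 801 n1258 (.cons 802 n2516 .nil)
noncomputable def n2518 : Strat := .move 800 n2514 (.cons 801 n2458 (.cons 841 n2517 (.cons 797 n2103 .nil)))
noncomputable def n2519 : Strat := .move 798 n2403 (.cons 758 n2051 (.cons 841 n2419 (.cons 801 n2459 (.cons 796 n2469 (.cons 921 n2479 (.cons 757 n2485 (.cons 800 n2505 (.cons 797 n2511 (.cons 880 n2518 .nil)))))))))
noncomputable def n2520 : Strat := .move 799 n1988 (.cons 758 n2111 (.cons 880 n2190 (.cons 798 n2212 (.cons 841 n2231 (.cons 800 n2251 (.cons 717 n2320 (.cons 921 n2328 (.cons 757 n2348 (.cons 922 n2369 (.cons 759 n2372 (.cons 718 n2387 (.cons 923 n2396 (.cons 881 n2519 .nil)))))))))))))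
noncomputable def n2521 : Strat := .move 839 n119 (.cons 715 n220 (.cons 795 n338 (.cons 877 n412 (.cons 802 n538 (.cons 884 n594 (.cons 801 n663 (.cons 883 n703 (.cons 797 n744 (.cons 879 n778 (.cons 800 n914 (.cons 882 n990 (.cons 842 n1051 (.cons 837 n1073 (.cons 796 n1157 (.cons 878 n1201 (.cons 799 n1219 (.cons 881 n1230 (.cons 798 n1240 (.cons 880 n1244 (.cons 841 n1953 (.cons 838 n2520 .nil)))))))))))))))))))))

end Vale.Agent.Snaky.R5_0
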