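import Vale.Agent.Snaky.Assemble

namespace Vale.Agent.Snaky.R5_1

open Vale.Agent.Snaky

noncomputable def n0 : Strat := .win 716 7 716
noncomputable def n1 : Strat := .win 798 7 757
noncomputable def n2 : Strat := .win 718 3 717
noncomputable def n3 : Strat := .win 800 3 758
noncomputable def n4 : Strat := .move 759 n2 (.cons 718 n3 .nil)
noncomputable def n5 : Strat := .move 922 n1 (.cons 798 n4 .nil)
noncomputable def n6 : Strat := .move 757 n0 (.cons 716 n5 .nil)
noncomputable def n7 : Strat := .win 921 1 757
noncomputable def n8 : Strat := .win 839 1 716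
noncomputable def n9 : Strat := .win 923 6 758
noncomputable def n10 : Strat := .win 841 6 717
noncomputable def n11 : Strat := .move 882 n9 (.cons 923 n10 .nil)
noncomputable def n12 : Strat := .move 717 n8 (.cons 839 n11 .nil)
noncomputable def n13 : Strat := .move 880 n7 (.cons 921 n12 .nil)
noncomputable def n14 : Strat := .move 758 n6 (.cons 800 n13 .nil)
noncomputable def n15 : Strat := .win 757 7 716
noncomputable def n16 : Strat := .win 675 7 675
noncomputable def n17 : Strat := .move 716 n15 (.cons 757 n16 .nil)
noncomputable def n18 : Strat := .move 717 n8 (.cons 839 n17 .nil)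
noncomputable def n19 : Strat := .move 880 n7 (.cons 921 n18 .nil)
noncomputable def n20 : Strat := .win 759 3 717
noncomputable def n21 : Strat := .win 677 3 676
noncomputable def n22 : Strat := .move 718 n20 (.cons 759 n21 .nil)
noncomputable def n23 : Strat := .move 717 n8 (.cons 839 n22 .nil)
noncomputable def n24 : Strat := .move 880 n7 (.cons 921 n23 .nil)
noncomputable def n25 : Strat := .move 758 n6 (.cons 922 n19 (.cons 757 n24 .nil))
noncomputable def n26 : Strat := .move 880 n7 (.cons 921 n8 .nil)
noncomputable def n27 : Strat := .move 717 n10 (.cons 841 n26 .nil)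
noncomputable def n28 : Strat := .move 882 n9 (.cons 923 n27 .nil)
noncomputable def n29 : Strat := .win 880 1 757
noncomputable def n30 : Strat := .win 962 1 798
noncomputable def n31 : Strat := .move 921 n29 (.cons 880 n30 .nil)
noncomputable def n32 : Strat := .move 922 n3 (.cons 800 n31 .nil)
noncomputable def n33 : Strat := .move 759 n2 (.cons 718 n32 .nil)
noncomputable def n34 : Strat := .move 717 n10 (.cons 841 n22 .nil)
noncomputable def n35 : Strat := .move 882 n9 (.cons 923 n34 .nil)
noncomputable def n36 : Strat := .move 758 n28 (.cons 882 n33 (.cons 921 n35 .nil))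
noncomputable def n37 : Strat := .move 922 n1 (.cons 798 n31 .nil)
noncomputable def n38 : Strat := .move 757 n0 (.cons 716 n37 .nil)
noncomputable def n39 : Strat := .win 882 6 758
noncomputable def n40 : Strat := .win 964 6 799
noncomputable def n41 : Strat := .move 923 n39 (.cons 882 n40 .nil)
noncomputable def n42 : Strat := .move 922 n1 (.cons 798 n41 .nil)
noncomputable def n43 : Strat := .move 757 n0 (.cons 716 n42 .nil)
noncomputable def n44 : Strat := .move 758 n13 (.cons 717 n38 (.cons 880 n43 .nil))
noncomputable def n45 : Strat := .win 759 3 758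
noncomputable def n46 : Strat := .win 841 3 799
noncomputable def n47 : Strat := .win 757 7 757
noncomputable def n48 : Strat := .win 839 7 798
noncomputable def n49 : Strat := .move 798 n47 (.cons 757 n48 .nil)
noncomputable def n50 : Strat := .move 963 n46 (.cons 841 n49 .nil)
noncomputable def n51 : Strat := .move 800 n45 (.cons 759 n50 .nil)
noncomputable def n52 : Strat := .move 757 n0 (.cons 716 n1 .nil)
noncomputable def n53 : Strat := .move 758 n39 (.cons 882 n52 .nil)
noncomputable def n54 : Strat := .move 923 n40 (.cons 964 n53 .nil)
noncomputable def n55 : Strat := .win 923 6 799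
noncomputable def n56 : Strat := .win 1005 6 840
noncomputable def n57 : Strat := .move 964 n55 (.cons 923 n56 .nil)
noncomputable def n58 : Strat := .move 963 n46 (.cons 841 n57 .nil)
noncomputable def n59 : Strat := .move 800 n45 (.cons 759 n58 .nil)
noncomputable def n60 : Strat := .move 922 n51 (.cons 800 n54 (.cons 798 n59 .nil))
noncomputable def n61 : Strat := .move 922 n3 (.cons 800 n52 .nil)
noncomputable def n62 : Strat := .move 759 n2 (.cons 718 n61 .nil)
noncomputable def n63 : Strat := .move 717 n10 (.cons 841 n17 .nil)
noncomputable def n64 : Strat := .move 882 n9 (.cons 923 n63 .nil)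
noncomputable def n65 : Strat := .move 758 n62 (.cons 922 n35 (.cons 759 n64 .nil))
noncomputable def n66 : Strat := .move 800 n45 (.cons 759 n46 .nil)
noncomputable def n67 : Strat := .move 963 n48 (.cons 839 n66 .nil)
noncomputable def n68 : Strat := .move 798 n47 (.cons 757 n67 .nil)
noncomputable def n69 : Strat := .move 963 n48 (.cons 839 n57 .nil)
noncomputable def n70 : Strat := .move 798 n47 (.cons 757 n69 .nil)
noncomputable def n71 : Strat := .win 842 0 797
noncomputable def n72 : Strat := .win 796 0 796
noncomputable def n73 : Strat := .move 841 n71 (.cons 842 n72 .nil)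
noncomputable def n74 : Strat := .win 801 4 797
noncomputable def n75 : Strat := .win 837 4 796
noncomputable def n76 : Strat := .move 838 n74 (.cons 801 n75 .nil)
noncomputable def n77 : Strat := .win 802 4 798
noncomputable def n78 : Strat := .win 838 4 797
noncomputable def n79 : Strat := .move 801 n77 (.cons 802 n78 .nil)
noncomputable def n80 : Strat := .win 880 7 756
noncomputable def n81 : Strat := .win 755 2 755
noncomputable def n82 : Strat := .move 756 n80 (.cons 880 n81 .nil)
noncomputable def n83 : Strat := .move 839 n76 (.cons 837 n79 (.cons 801 n82 .nil))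
noncomputable def n84 : Strat := .move 797 n73 (.cons 796 n83 .nil)
noncomputable def n85 : Strat := .move 921 n30 (.cons 962 n84 .nil)
noncomputable def n86 : Strat := .move 800 n45 (.cons 759 n85 .nil)
noncomputable def n87 : Strat := .move 798 n47 (.cons 757 n86 .nil)
noncomputable def n88 : Strat := .move 922 n68 (.cons 800 n70 (.cons 839 n59 (.cons 963 n87 .nil)))
noncomputable def n89 : Strat := .win 801 0 756
noncomputable def n90 : Strat := .win 755 0 755
noncomputable def n91 : Strat := .move 800 n89 (.cons 801 n90 .nil)
noncomputable def n92 : Strat := .win 760 4 756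
noncomputable def n93 : Strat := .win 796 4 755
noncomputable def n94 : Strat := .move 797 n92 (.cons 760 n93 .nil)
noncomputable def n95 : Strat := .win 761 4 757
noncomputable def n96 : Strat := .win 797 4 756
noncomputable def n97 : Strat := .move 760 n95 (.cons 761 n96 .nil)
noncomputable def n98 : Strat := .win 839 7 715
noncomputable def n99 : Strat := .win 714 2 714
noncomputable def n100 : Strat := .move 715 n98 (.cons 839 n99 .nil)
noncomputable def n101 : Strat := .move 798 n94 (.cons 796 n97 (.cons 760 n100 .nil))
noncomputable def n102 : Strat := .move 756 n91 (.cons 755 n101 .nil)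
noncomputable def n103 : Strat := .move 880 n7 (.cons 921 n102 .nil)
noncomputable def n104 : Strat := .move 759 n2 (.cons 718 n103 .nil)
noncomputable def n105 : Strat := .move 757 n0 (.cons 716 n104 .nil)
noncomputable def n106 : Strat := .move 758 n13 (.cons 839 n35 (.cons 841 n19 (.cons 717 n105 .nil)))
noncomputable def n107 : Strat := .move 799 n14 (.cons 841 n25 (.cons 798 n36 (.cons 800 n44 (.cons 880 n60 (.cons 839 n65 (.cons 758 n88 (.cons 922 n106 .nil)))))))
noncomputable def n108 : Strat := .win 758 6 758
noncomputable def n109 : Strat := .win 884 4 880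
noncomputable def n110 : Strat := .win 920 5 879
noncomputable def n111 : Strat := .move 883 n109 (.cons 884 n110 .nil)
noncomputable def n112 : Strat := .move 921 n30 (.cons 962 n111 .nil)
noncomputable def n113 : Strat := .move 882 n108 (.cons 758 n112 .nil)
noncomputable def n114 : Strat := .move 923 n40 (.cons 964 n113 .nil)
noncomputable def n115 : Strat := .move 922 n51 (.cons 798 n114 .nil)
noncomputable def n116 : Strat := .win 921 1 798
noncomputable def n117 : Strat := .win 1003 1 839
noncomputable def n118 : Strat := .move 962 n116 (.cons 921 n117 .nil)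
noncomputable def n119 : Strat := .move 963 n46 (.cons 841 n118 .nil)
noncomputable def n120 : Strat := .move 800 n45 (.cons 759 n119 .nil)
noncomputable def n121 : Strat := .move 801 n78 (.cons 838 n77 .nil)
noncomputable def n122 : Strat := .move 839 n121 (.cons 802 n76 (.cons 838 n82 .nil))
noncomputable def n123 : Strat := .move 797 n73 (.cons 796 n122 .nil)
noncomputable def n124 : Strat := .move 921 n30 (.cons 962 n123 .nil)
noncomputable def n125 : Strat := .move 798 n47 (.cons 757 n124 .nil)
noncomputable def n126 : Strat := .move 800 n45 (.cons 759 n125 .nil)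
noncomputable def n127 : Strat := .move 922 n120 (.cons 800 n70 (.cons 963 n126 .nil))
noncomputable def n128 : Strat := .win 717 1 716
noncomputable def n129 : Strat := .win 837 0 837
noncomputable def n130 : Strat := .win 883 2 838
noncomputable def n131 : Strat := .move 838 n129 (.cons 837 n130 .nil)
noncomputable def n132 : Strat := .move 839 n128 (.cons 717 n131 .nil)
noncomputable def n133 : Strat := .move 882 n9 (.cons 923 n132 .nil)
noncomputable def n134 : Strat := .move 880 n7 (.cons 921 n133 .nil)
noncomputable def n135 : Strat := .win 922 6 757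
noncomputable def n136 : Strat := .move 759 n2 (.cons 718 n97 .nil)
noncomputable def n137 : Strat := .move 798 n135 (.cons 922 n136 .nil)
noncomputable def n138 : Strat := .move 757 n0 (.cons 716 n137 .nil)
noncomputable def n139 : Strat := .move 839 n128 (.cons 717 n138 .nil)
noncomputable def n140 : Strat := .move 880 n7 (.cons 921 n139 .nil)
noncomputable def n141 : Strat := .win 922 7 757
noncomputable def n142 : Strat := .move 798 n141 (.cons 922 n136 .nil)
noncomputable def n143 : Strat := .move 757 n0 (.cons 716 n142 .nil)
noncomputable def n144 : Strat := .move 882 n9 (.cons 923 n143 .nil)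
noncomputable def n145 : Strat := .move 880 n7 (.cons 921 n144 .nil)
noncomputable def n146 : Strat := .move 758 n134 (.cons 882 n140 (.cons 921 n35 (.cons 717 n145 .nil)))
noncomputable def n147 : Strat := .move 882 n108 (.cons 758 n111 .nil)
noncomputable def n148 : Strat := .move 923 n40 (.cons 964 n147 .nil)
noncomputable def n149 : Strat := .move 921 n30 (.cons 962 n148 .nil)
noncomputable def n150 : Strat := .move 922 n149 (.cons 758 n120 (.cons 921 n59 .nil))
noncomputable def n151 : Strat := .move 717 n22 (.cons 677 n26 .nil)
noncomputable def n152 : Strat := .move 760 n96 (.cons 797 n95 .nil)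
noncomputable def n153 : Strat := .move 798 n152 (.cons 761 n94 (.cons 797 n100 .nil))
noncomputable def n154 : Strat := .move 756 n91 (.cons 755 n153 .nil)
noncomputable def n155 : Strat := .move 880 n7 (.cons 921 n154 .nil)
noncomputable def n156 : Strat := .move 757 n0 (.cons 716 n155 .nil)
noncomputable def n157 : Strat := .move 759 n2 (.cons 718 n156 .nil)
noncomputable def n158 : Strat := .win 717 6 717
noncomputable def n159 : Strat := .move 798 n96 (.cons 797 n95 .nil)
noncomputable def n160 : Strat := .win 720 5 716
noncomputable def n161 : Strat := .win 800 3 718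
noncomputable def n162 : Strat := .move 719 n160 (.cons 720 n161 .nil)
noncomputable def n163 : Strat := .move 760 n159 (.cons 761 n162 .nil)
noncomputable def n164 : Strat := .move 757 n0 (.cons 716 n163 .nil)
noncomputable def n165 : Strat := .move 759 n2 (.cons 718 n164 .nil)
noncomputable def n166 : Strat := .move 841 n158 (.cons 717 n165 .nil)
noncomputable def n167 : Strat := .move 882 n9 (.cons 923 n166 .nil)
noncomputable def n168 : Strat := .move 717 n8 (.cons 839 n10 .nil)
noncomputable def n169 : Strat := .move 882 n9 (.cons 923 n168 .nil)
noncomputable def n170 : Strat := .move 880 n7 (.cons 921 n169 .nil)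
noncomputable def n171 : Strat := .move 758 n151 (.cons 717 n157 (.cons 880 n167 (.cons 759 n170 .nil)))
noncomputable def n172 : Strat := .move 758 n29 (.cons 880 n41 .nil)
noncomputable def n173 : Strat := .move 921 n30 (.cons 962 n172 .nil)
noncomputable def n174 : Strat := .move 758 n29 (.cons 880 n4 .nil)
noncomputable def n175 : Strat := .move 921 n30 (.cons 962 n174 .nil)
noncomputable def n176 : Strat := .win 963 7 798
noncomputable def n177 : Strat := .move 800 n45 (.cons 759 n79 .nil)
noncomputable def n178 : Strat := .move 839 n176 (.cons 963 n177 .nil)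
noncomputable def n179 : Strat := .move 798 n47 (.cons 757 n178 .nil)
noncomputable def n180 : Strat := .move 923 n40 (.cons 964 n179 .nil)
noncomputable def n181 : Strat := .move 921 n30 (.cons 962 n180 .nil)
noncomputable def n182 : Strat := .move 922 n173 (.cons 923 n175 (.cons 962 n54 (.cons 758 n181 .nil)))
noncomputable def n183 : Strat := .win 758 1 757
noncomputable def n184 : Strat := .win 878 0 878
noncomputable def n185 : Strat := .win 924 2 879
noncomputable def n186 : Strat := .move 879 n184 (.cons 878 n185 .nil)
noncomputable def n187 : Strat := .move 880 n183 (.cons 758 n186 .nil)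
noncomputable def n188 : Strat := .move 923 n40 (.cons 964 n187 .nil)
noncomputable def n189 : Strat := .move 921 n30 (.cons 962 n188 .nil)
noncomputable def n190 : Strat := .move 963 n48 (.cons 839 n118 .nil)
noncomputable def n191 : Strat := .move 798 n47 (.cons 757 n190 .nil)
noncomputable def n192 : Strat := .win 800 1 799
noncomputable def n193 : Strat := .win 1004 3 840
noncomputable def n194 : Strat := .move 841 n192 (.cons 800 n193 .nil)
noncomputable def n195 : Strat := .move 963 n194 (.cons 841 n49 .nil)
noncomputable def n196 : Strat := .move 882 n108 (.cons 758 n195 .nil)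
noncomputable def n197 : Strat := .move 923 n40 (.cons 964 n196 .nil)
noncomputable def n198 : Strat := .move 922 n189 (.cons 923 n191 (.cons 921 n197 .nil))
noncomputable def n199 : Strat := .move 922 n51 (.cons 759 n197 (.cons 757 n59 (.cons 800 n54 .nil)))
noncomputable def n200 : Strat := .move 922 n51 (.cons 759 n191 (.cons 839 n120 (.cons 963 n175 .nil)))
noncomputable def n201 : Strat := .move 799 n115 (.cons 758 n127 (.cons 800 n146 (.cons 757 n150 (.cons 922 n171 (.cons 841 n182 (.cons 759 n198 (.cons 921 n199 (.cons 923 n200 .nil))))))))
noncomputable def n202 : Strat := .win 798 7 798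
noncomputable def n203 : Strat := .win 880 7 839
noncomputable def n204 : Strat := .win 800 3 799
noncomputable def n205 : Strat := .win 882 3 840
noncomputable def n206 : Strat := .move 841 n204 (.cons 800 n205 .nil)
noncomputable def n207 : Strat := .move 1004 n203 (.cons 880 n206 .nil)
noncomputable def n208 : Strat := .move 839 n202 (.cons 798 n207 .nil)
noncomputable def n209 : Strat := .move 799 n55 (.cons 923 n118 .nil)
noncomputable def n210 : Strat := .move 964 n56 (.cons 1005 n209 .nil)
noncomputable def n211 : Strat := .move 963 n208 (.cons 880 n210 .nil)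
noncomputable def n212 : Strat := .move 923 n40 (.cons 964 n39 .nil)
noncomputable def n213 : Strat := .move 758 n29 (.cons 880 n212 .nil)
noncomputable def n214 : Strat := .move 921 n30 (.cons 962 n213 .nil)
noncomputable def n215 : Strat := .move 757 n1 (.cons 798 n0 .nil)
noncomputable def n216 : Strat := .move 758 n29 (.cons 880 n215 .nil)
noncomputable def n217 : Strat := .move 921 n30 (.cons 962 n216 .nil)
noncomputable def n218 : Strat := .move 799 n214 (.cons 921 n70 (.cons 964 n217 .nil))
noncomputable def n219 : Strat := .win 837 5 796
noncomputable def n220 : Strat := .move 838 n74 (.cons 801 n219 .nil)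
noncomputable def n221 : Strat := .move 800 n45 (.cons 759 n220 .nil)
noncomputable def n222 : Strat := .move 839 n176 (.cons 963 n221 .nil)
noncomputable def n223 : Strat := .move 798 n47 (.cons 757 n222 .nil)
noncomputable def n224 : Strat := .win 877 0 877
noncomputable def n225 : Strat := .win 923 0 878
noncomputable def n226 : Strat := .move 878 n224 (.cons 877 n225 .nil)
noncomputable def n227 : Strat := .move 923 n184 (.cons 878 n185 .nil)
noncomputable def n228 : Strat := .win 920 4 879
noncomputable def n229 : Strat := .move 883 n228 (.cons 920 n109 .nil)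
noncomputable def n230 : Strat := .win 883 4 879
noncomputable def n231 : Strat := .win 919 4 878
noncomputable def n232 : Strat := .move 920 n230 (.cons 883 n231 .nil)
noncomputable def n233 : Strat := .win 923 0 879
noncomputable def n234 : Strat := .win 925 0 880
noncomputable def n235 : Strat := .move 883 n234 (.cons 925 n109 .nil)
noncomputable def n236 : Strat := .move 924 n233 (.cons 923 n235 .nil)
noncomputable def n237 : Strat := .win 842 5 838
noncomputable def n238 : Strat := .win 963 3 799
noncomputable def n239 : Strat := .win 759 1 758
noncomputable def n240 : Strat := .move 800 n238 (.cons 963 n239 .nil)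
noncomputable def n241 : Strat := .move 841 n237 (.cons 842 n240 .nil)
noncomputable def n242 : Strat := .move 882 n229 (.cons 884 n232 (.cons 920 n236 (.cons 883 n241 .nil)))
noncomputable def n243 : Strat := .win 841 5 837
noncomputable def n244 : Strat := .move 878 n224 (.cons 877 n243 .nil)
noncomputable def n245 : Strat := .move 879 n226 (.cons 877 n227 (.cons 878 n242 (.cons 923 n244 .nil)))
noncomputable def n246 : Strat := .move 880 n183 (.cons 758 n245 .nil)
noncomputable def n247 : Strat := .move 921 n30 (.cons 962 n246 .nil)
noncomputable def n248 : Strat := .move 799 n223 (.cons 757 n247 (.cons 963 n217 .nil))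
noncomputable def n249 : Strat := .move 758 n39 (.cons 882 n215 .nil)
noncomputable def n250 : Strat := .move 923 n40 (.cons 964 n249 .nil)
noncomputable def n251 : Strat := .move 799 n214 (.cons 964 n217 (.cons 758 n87 (.cons 880 n250 .nil)))
noncomputable def n252 : Strat := .win 964 6 840
noncomputable def n253 : Strat := .win 1046 6 881
noncomputable def n254 : Strat := .move 1005 n252 (.cons 964 n253 .nil)
noncomputable def n255 : Strat := .move 1004 n203 (.cons 880 n254 .nil)
noncomputable def n256 : Strat := .move 839 n202 (.cons 798 n255 .nil)
noncomputable def n257 : Strat := .win 962 1 839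
noncomputable def n258 : Strat := .win 1044 1 880
noncomputable def n259 : Strat := .move 1003 n257 (.cons 962 n258 .nil)
noncomputable def n260 : Strat := .move 1004 n205 (.cons 882 n259 .nil)
noncomputable def n261 : Strat := .move 841 n204 (.cons 800 n260 .nil)
noncomputable def n262 : Strat := .win 883 0 838
noncomputable def n263 : Strat := .move 882 n262 (.cons 883 n129 .nil)
noncomputable def n264 : Strat := .win 842 4 838
noncomputable def n265 : Strat := .win 878 4 837
noncomputable def n266 : Strat := .move 879 n264 (.cons 842 n265 .nil)
noncomputable def n267 : Strat := .win 843 4 839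
noncomputable def n268 : Strat := .win 879 4 838
noncomputable def n269 : Strat := .move 842 n267 (.cons 843 n268 .nil)
noncomputable def n270 : Strat := .win 921 7 797
noncomputable def n271 : Strat := .win 796 2 796
noncomputable def n272 : Strat := .move 797 n270 (.cons 921 n271 .nil)
noncomputable def n273 : Strat := .move 880 n266 (.cons 878 n269 (.cons 842 n272 .nil))
noncomputable def n274 : Strat := .move 838 n263 (.cons 837 n273 .nil)
noncomputable def n275 : Strat := .move 962 n117 (.cons 1003 n274 .nil)
noncomputable def n276 : Strat := .move 841 n204 (.cons 800 n275 .nil)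
noncomputable def n277 : Strat := .move 839 n202 (.cons 798 n276 .nil)
noncomputable def n278 : Strat := .move 963 n208 (.cons 841 n256 (.cons 798 n261 (.cons 1004 n277 .nil)))
noncomputable def n279 : Strat := .move 921 n30 (.cons 962 n29 .nil)
noncomputable def n280 : Strat := .move 758 n39 (.cons 882 n279 .nil)
noncomputable def n281 : Strat := .move 923 n40 (.cons 964 n280 .nil)
noncomputable def n282 : Strat := .move 759 n3 (.cons 800 n2 .nil)
noncomputable def n283 : Strat := .move 758 n29 (.cons 880 n282 .nil)
noncomputable def n284 : Strat := .move 921 n30 (.cons 962 n283 .nil)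
noncomputable def n285 : Strat := .move 797 n71 (.cons 842 n72 .nil)
noncomputable def n286 : Strat := .move 798 n47 (.cons 757 n285 .nil)
noncomputable def n287 : Strat := .move 841 n238 (.cons 963 n286 .nil)
noncomputable def n288 : Strat := .move 800 n45 (.cons 759 n287 .nil)
noncomputable def n289 : Strat := .move 921 n30 (.cons 962 n288 .nil)
noncomputable def n290 : Strat := .move 923 n40 (.cons 964 n289 .nil)
noncomputable def n291 : Strat := .move 799 n281 (.cons 923 n284 (.cons 921 n250 (.cons 758 n290 .nil)))
noncomputable def n292 : Strat := .move 839 n202 (.cons 798 n203 .nil)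
noncomputable def n293 : Strat := .move 1004 n205 (.cons 882 n292 .nil)
noncomputable def n294 : Strat := .move 841 n204 (.cons 800 n293 .nil)
noncomputable def n295 : Strat := .move 1004 n205 (.cons 882 n254 .nil)
noncomputable def n296 : Strat := .move 841 n204 (.cons 800 n295 .nil)
noncomputable def n297 : Strat := .move 799 n55 (.cons 923 n49 .nil)
noncomputable def n298 : Strat := .move 964 n56 (.cons 1005 n297 .nil)
noncomputable def n299 : Strat := .move 963 n294 (.cons 880 n296 (.cons 841 n298 .nil))
noncomputable def n300 : Strat := .move 799 n116 (.cons 921 n66 .nil)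
noncomputable def n301 : Strat := .move 962 n117 (.cons 1003 n300 .nil)
noncomputable def n302 : Strat := .move 963 n210 (.cons 921 n296 (.cons 1005 n301 .nil))
noncomputable def n303 : Strat := .move 799 n116 (.cons 921 n57 .nil)
noncomputable def n304 : Strat := .move 962 n117 (.cons 1003 n303 .nil)
noncomputable def n305 : Strat := .move 799 n116 (.cons 921 n49 .nil)
noncomputable def n306 : Strat := .move 962 n117 (.cons 1003 n305 .nil)
noncomputable def n307 : Strat := .move 963 n304 (.cons 1005 n306 (.cons 962 n256 .nil))
noncomputable def n308 : Strat := .move 922 n211 (.cons 841 n218 (.cons 964 n248 (.cons 963 n251 (.cons 799 n278 (.cons 839 n291 (.cons 921 n299 (.cons 880 n302 (.cons 882 n307 .nil))))))))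
noncomputable def n309 : Strat := .move 799 n214 (.cons 880 n59 (.cons 923 n68 .nil))
noncomputable def n310 : Strat := .move 963 n46 (.cons 841 n48 .nil)
noncomputable def n311 : Strat := .move 798 n47 (.cons 757 n310 .nil)
noncomputable def n312 : Strat := .move 800 n45 (.cons 759 n311 .nil)
noncomputable def n313 : Strat := .move 799 n284 (.cons 800 n214 (.cons 758 n312 .nil))
noncomputable def n314 : Strat := .move 963 n208 (.cons 841 n256 (.cons 1004 n277 (.cons 798 n261 .nil)))
noncomputable def n315 : Strat := .move 758 n39 (.cons 882 n282 .nil)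
noncomputable def n316 : Strat := .move 923 n40 (.cons 964 n315 .nil)
noncomputable def n317 : Strat := .win 925 2 880
noncomputable def n318 : Strat := .win 879 2 879
noncomputable def n319 : Strat := .move 880 n317 (.cons 925 n318 .nil)
noncomputable def n320 : Strat := .win 880 2 880
noncomputable def n321 : Strat := .win 967 0 922
noncomputable def n322 : Strat := .win 965 0 921
noncomputable def n323 : Strat := .move 966 n321 (.cons 967 n322 .nil)
noncomputable def n324 : Strat := .move 925 n320 (.cons 880 n323 .nil)
noncomputable def n325 : Strat := .win 883 5 879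
noncomputable def n326 : Strat := .win 919 5 878
noncomputable def n327 : Strat := .move 920 n325 (.cons 883 n326 .nil)
noncomputable def n328 : Strat := .move 883 n110 (.cons 920 n109 .nil)
noncomputable def n329 : Strat := .win 841 6 800
noncomputable def n330 : Strat := .win 966 0 921
noncomputable def n331 : Strat := .move 965 n329 (.cons 841 n330 .nil)
noncomputable def n332 : Strat := .move 882 n327 (.cons 919 n328 (.cons 883 n331 .nil))
noncomputable def n333 : Strat := .move 924 n319 (.cons 879 n324 (.cons 925 n332 .nil))
noncomputable def n334 : Strat := .move 800 n45 (.cons 759 n333 .nil)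
noncomputable def n335 : Strat := .move 923 n40 (.cons 964 n334 .nil)
noncomputable def n336 : Strat := .move 921 n30 (.cons 962 n335 .nil)
noncomputable def n337 : Strat := .move 799 n214 (.cons 882 n284 (.cons 921 n316 (.cons 758 n336 .nil)))
noncomputable def n338 : Strat := .win 797 0 797
noncomputable def n339 : Strat := .win 843 2 798
noncomputable def n340 : Strat := .move 842 n338 (.cons 797 n339 .nil)
noncomputable def n341 : Strat := .move 798 n47 (.cons 757 n340 .nil)
noncomputable def n342 : Strat := .move 841 n238 (.cons 963 n341 .nil)
noncomputable def n343 : Strat := .move 800 n45 (.cons 759 n342 .nil)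
noncomputable def n344 : Strat := .move 799 n343 (.cons 800 n217 (.cons 798 n284 .nil))
noncomputable def n345 : Strat := .move 799 n55 (.cons 923 n66 .nil)
noncomputable def n346 : Strat := .move 964 n56 (.cons 1005 n345 .nil)
noncomputable def n347 : Strat := .move 963 n294 (.cons 882 n256 (.cons 839 n296 (.cons 1004 n346 .nil)))
noncomputable def n348 : Strat := .move 799 n214 (.cons 758 n191 (.cons 962 n250 .nil))
noncomputable def n349 : Strat := .move 799 n59 (.cons 923 n51 (.cons 800 n250 .nil))
noncomputable def n350 : Strat := .move 922 n309 (.cons 1005 n313 (.cons 799 n314 (.cons 963 n337 (.cons 964 n344 (.cons 921 n347 (.cons 841 n348 (.cons 880 n349 .nil)))))))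
noncomputable def n351 : Strat := .move 800 n45 (.cons 759 n310 .nil)
noncomputable def n352 : Strat := .move 798 n47 (.cons 757 n351 .nil)
noncomputable def n353 : Strat := .move 799 n284 (.cons 758 n352 (.cons 800 n214 .nil))
noncomputable def n354 : Strat := .move 799 n284 (.cons 758 n87 (.cons 962 n250 .nil))
noncomputable def n355 : Strat := .move 839 n176 (.cons 963 n220 .nil)
noncomputable def n356 : Strat := .move 800 n45 (.cons 759 n355 .nil)
noncomputable def n357 : Strat := .move 798 n47 (.cons 757 n356 .nil)
noncomputable def n358 : Strat := .win 756 7 756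
noncomputable def n359 : Strat := .win 795 0 795
noncomputable def n360 : Strat := .win 841 0 796
noncomputable def n361 : Strat := .move 796 n359 (.cons 795 n360 .nil)
noncomputable def n362 : Strat := .move 797 n358 (.cons 756 n361 .nil)
noncomputable def n363 : Strat := .move 880 n183 (.cons 758 n362 .nil)
noncomputable def n364 : Strat := .move 921 n30 (.cons 962 n363 .nil)
noncomputable def n365 : Strat := .move 839 n176 (.cons 963 n364 .nil)
noncomputable def n366 : Strat := .move 798 n47 (.cons 757 n365 .nil)
noncomputable def n367 : Strat := .move 799 n357 (.cons 798 n284 (.cons 759 n366 .nil))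
noncomputable def n368 : Strat := .move 882 n108 (.cons 758 n286 .nil)
noncomputable def n369 : Strat := .move 923 n40 (.cons 964 n368 .nil)
noncomputable def n370 : Strat := .move 841 n238 (.cons 963 n369 .nil)
noncomputable def n371 : Strat := .move 800 n45 (.cons 759 n370 .nil)
noncomputable def n372 : Strat := .move 799 n284 (.cons 800 n214 (.cons 962 n371 (.cons 758 n343 .nil)))
noncomputable def n373 : Strat := .move 799 n217 (.cons 798 n214 (.cons 880 n357 .nil))
noncomputable def n374 : Strat := .win 760 3 759
noncomputable def n375 : Strat := .win 803 4 799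
noncomputable def n376 : Strat := .win 839 4 798
noncomputable def n377 : Strat := .move 802 n375 (.cons 803 n376 .nil)
noncomputable def n378 : Strat := .move 801 n374 (.cons 760 n377 .nil)
noncomputable def n379 : Strat := .move 882 n108 (.cons 758 n378 .nil)
noncomputable def n380 : Strat := .move 923 n40 (.cons 964 n379 .nil)
noncomputable def n381 : Strat := .move 841 n238 (.cons 963 n380 .nil)
noncomputable def n382 : Strat := .move 800 n45 (.cons 759 n381 .nil)
noncomputable def n383 : Strat := .win 882 6 800
noncomputable def n384 : Strat := .move 965 n330 (.cons 966 n383 .nil)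
noncomputable def n385 : Strat := .move 880 n318 (.cons 879 n317 .nil)
noncomputable def n386 : Strat := .move 924 n384 (.cons 882 n385 .nil)
noncomputable def n387 : Strat := .move 921 n30 (.cons 962 n386 .nil)
noncomputable def n388 : Strat := .move 923 n40 (.cons 964 n387 .nil)
noncomputable def n389 : Strat := .move 841 n238 (.cons 963 n388 .nil)
noncomputable def n390 : Strat := .move 800 n45 (.cons 759 n389 .nil)
noncomputable def n391 : Strat := .move 799 n214 (.cons 882 n284 (.cons 880 n382 (.cons 758 n390 .nil)))
noncomputable def n392 : Strat := .win 960 4 919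
noncomputable def n393 : Strat := .win 880 1 797
noncomputable def n394 : Strat := .move 961 n392 (.cons 960 n393 .nil)
noncomputable def n395 : Strat := .move 882 n325 (.cons 883 n326 .nil)
noncomputable def n396 : Strat := .move 920 n394 (.cons 880 n395 .nil)
noncomputable def n397 : Strat := .move 923 n40 (.cons 964 n396 .nil)
noncomputable def n398 : Strat := .move 921 n30 (.cons 962 n397 .nil)
noncomputable def n399 : Strat := .move 839 n176 (.cons 963 n398 .nil)
noncomputable def n400 : Strat := .move 798 n47 (.cons 757 n399 .nil)
noncomputable def n401 : Strat := .win 880 1 716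
noncomputable def n402 : Strat := .win 676 1 675
noncomputable def n403 : Strat := .move 717 n401 (.cons 880 n402 .nil)
noncomputable def n404 : Strat := .move 758 n39 (.cons 882 n403 .nil)
noncomputable def n405 : Strat := .move 923 n40 (.cons 964 n404 .nil)
noncomputable def n406 : Strat := .move 839 n176 (.cons 963 n405 .nil)
noncomputable def n407 : Strat := .move 798 n47 (.cons 757 n406 .nil)
noncomputable def n408 : Strat := .move 921 n30 (.cons 962 n327 .nil)
noncomputable def n409 : Strat := .move 882 n108 (.cons 758 n408 .nil)
noncomputable def n410 : Strat := .move 923 n40 (.cons 964 n409 .nil)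
noncomputable def n411 : Strat := .move 798 n47 (.cons 757 n410 .nil)
noncomputable def n412 : Strat := .move 799 n214 (.cons 923 n366 (.cons 758 n400 (.cons 921 n407 (.cons 880 n411 .nil))))
noncomputable def n413 : Strat := .move 842 n339 (.cons 843 n338 .nil)
noncomputable def n414 : Strat := .move 841 n238 (.cons 963 n413 .nil)
noncomputable def n415 : Strat := .move 800 n45 (.cons 759 n414 .nil)
noncomputable def n416 : Strat := .move 798 n47 (.cons 757 n415 .nil)
noncomputable def n417 : Strat := .move 799 n416 (.cons 963 n250 (.cons 798 n382 .nil))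
noncomputable def n418 : Strat := .move 799 n352 (.cons 798 n390 (.cons 800 n400 (.cons 963 n87 .nil)))
noncomputable def n419 : Strat := .move 1004 n205 (.cons 882 n203 .nil)
noncomputable def n420 : Strat := .move 841 n204 (.cons 800 n419 .nil)
noncomputable def n421 : Strat := .move 839 n202 (.cons 798 n420 .nil)
noncomputable def n422 : Strat := .win 1004 7 839
noncomputable def n423 : Strat := .win 836 0 836
noncomputable def n424 : Strat := .win 882 0 837
noncomputable def n425 : Strat := .move 837 n423 (.cons 836 n424 .nil)
noncomputable def n426 : Strat := .move 797 n271 (.cons 796 n270 .nil)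
noncomputable def n427 : Strat := .move 841 n269 (.cons 879 n426 .nil)
noncomputable def n428 : Strat := .move 838 n425 (.cons 882 n427 .nil)
noncomputable def n429 : Strat := .move 962 n117 (.cons 1003 n428 .nil)
noncomputable def n430 : Strat := .move 880 n422 (.cons 1004 n429 .nil)
noncomputable def n431 : Strat := .move 839 n202 (.cons 798 n430 .nil)
noncomputable def n432 : Strat := .win 878 5 837
noncomputable def n433 : Strat := .move 879 n264 (.cons 842 n432 .nil)
noncomputable def n434 : Strat := .move 841 n204 (.cons 800 n433 .nil)
noncomputable def n435 : Strat := .move 880 n422 (.cons 1004 n434 .nil)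
noncomputable def n436 : Strat := .move 839 n202 (.cons 798 n435 .nil)
noncomputable def n437 : Strat := .move 1004 n203 (.cons 880 n259 .nil)
noncomputable def n438 : Strat := .move 839 n202 (.cons 798 n437 .nil)
noncomputable def n439 : Strat := .move 963 n421 (.cons 798 n261 (.cons 800 n431 (.cons 1004 n277 (.cons 882 n436 (.cons 841 n438 .nil)))))
noncomputable def n440 : Strat := .move 922 n353 (.cons 963 n354 (.cons 882 n367 (.cons 839 n372 (.cons 841 n373 (.cons 798 n391 (.cons 800 n412 (.cons 962 n417 (.cons 758 n418 (.cons 799 n439 .nil)))))))))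
noncomputable def n441 : Strat := .move 799 n51 (.cons 800 n54 (.cons 798 n59 .nil))
noncomputable def n442 : Strat := .win 884 2 839
noncomputable def n443 : Strat := .win 838 0 838
noncomputable def n444 : Strat := .move 883 n442 (.cons 884 n443 .nil)
noncomputable def n445 : Strat := .move 882 n193 (.cons 1004 n444 .nil)
noncomputable def n446 : Strat := .move 841 n204 (.cons 800 n445 .nil)
noncomputable def n447 : Strat := .move 839 n202 (.cons 798 n446 .nil)
noncomputable def n448 : Strat := .win 960 5 919
noncomputable def n449 : Strat := .win 924 5 920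
noncomputable def n450 : Strat := .move 923 n448 (.cons 960 n449 .nil)
noncomputable def n451 : Strat := .win 923 5 919
noncomputable def n452 : Strat := .win 918 2 918
noncomputable def n453 : Strat := .win 920 2 919
noncomputable def n454 : Strat := .move 919 n452 (.cons 918 n453 .nil)
noncomputable def n455 : Strat := .move 960 n451 (.cons 923 n454 .nil)
noncomputable def n456 : Strat := .win 1000 4 959
noncomputable def n457 : Strat := .win 1002 4 960
noncomputable def n458 : Strat := .move 1001 n456 (.cons 1000 n457 .nil)
noncomputable def n459 : Strat := .move 960 n452 (.cons 918 n458 .nil)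
noncomputable def n460 : Strat := .move 919 n453 (.cons 920 n459 .nil)
noncomputable def n461 : Strat := .win 923 5 920
noncomputable def n462 : Strat := .win 925 5 921
noncomputable def n463 : Strat := .win 920 2 920
noncomputable def n464 : Strat := .win 966 2 921
noncomputable def n465 : Strat := .move 921 n463 (.cons 920 n464 .nil)
noncomputable def n466 : Strat := .move 965 n462 (.cons 925 n465 .nil)
noncomputable def n467 : Strat := .move 924 n461 (.cons 923 n466 .nil)
noncomputable def n468 : Strat := .move 961 n450 (.cons 924 n455 (.cons 923 n460 (.cons 960 n467 .nil)))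
noncomputable def n469 : Strat := .move 962 n117 (.cons 1003 n468 .nil)
noncomputable def n470 : Strat := .move 964 n56 (.cons 1005 n469 .nil)
noncomputable def n471 : Strat := .move 963 n447 (.cons 841 n470 .nil)
noncomputable def n472 : Strat := .move 841 n72 (.cons 796 n71 .nil)
noncomputable def n473 : Strat := .win 754 2 754
noncomputable def n474 : Strat := .win 756 2 755
noncomputable def n475 : Strat := .move 755 n473 (.cons 754 n474 .nil)
noncomputable def n476 : Strat := .move 796 n360 (.cons 841 n475 .nil)
noncomputable def n477 : Strat := .win 838 4 796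
noncomputable def n478 : Strat := .win 836 4 795
noncomputable def n479 : Strat := .move 796 n478 (.cons 836 n475 .nil)
noncomputable def n480 : Strat := .move 837 n477 (.cons 838 n479 .nil)
noncomputable def n481 : Strat := .win 841 0 797
noncomputable def n482 : Strat := .win 843 0 798
noncomputable def n483 : Strat := .move 839 n78 (.cons 838 n77 .nil)
noncomputable def n484 : Strat := .move 801 n482 (.cons 843 n483 .nil)
noncomputable def n485 : Strat := .move 842 n481 (.cons 841 n484 .nil)
noncomputable def n486 : Strat := .move 797 n472 (.cons 842 n476 (.cons 841 n480 (.cons 796 n485 .nil)))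
noncomputable def n487 : Strat := .move 798 n47 (.cons 757 n486 .nil)
noncomputable def n488 : Strat := .move 800 n45 (.cons 759 n487 .nil)
noncomputable def n489 : Strat := .move 799 n149 (.cons 923 n488 .nil)
noncomputable def n490 : Strat := .move 799 n116 (.cons 921 n55 .nil)
noncomputable def n491 : Strat := .move 962 n117 (.cons 1003 n490 .nil)
noncomputable def n492 : Strat := .move 964 n56 (.cons 1005 n491 .nil)
noncomputable def n493 : Strat := .win 799 6 799
noncomputable def n494 : Strat := .win 1006 6 841
noncomputable def n495 : Strat := .win 920 0 920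
noncomputable def n496 : Strat := .move 921 n495 (.cons 920 n464 .nil)
noncomputable def n497 : Strat := .move 965 n494 (.cons 1006 n496 .nil)
noncomputable def n498 : Strat := .move 923 n493 (.cons 799 n497 .nil)
noncomputable def n499 : Strat := .move 882 n193 (.cons 1004 n498 .nil)
noncomputable def n500 : Strat := .move 841 n204 (.cons 800 n499 .nil)
noncomputable def n501 : Strat := .move 964 n56 (.cons 1005 n500 .nil)
noncomputable def n502 : Strat := .move 963 n492 (.cons 1005 n301 (.cons 799 n261 (.cons 962 n501 .nil)))
noncomputable def n503 : Strat := .win 839 4 797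
noncomputable def n504 : Strat := .move 838 n503 (.cons 839 n75 .nil)
noncomputable def n505 : Strat := .move 801 n482 (.cons 843 n504 .nil)
noncomputable def n506 : Strat := .move 842 n481 (.cons 841 n505 .nil)
noncomputable def n507 : Strat := .move 797 n472 (.cons 842 n476 (.cons 841 n480 (.cons 796 n506 .nil)))
noncomputable def n508 : Strat := .move 800 n45 (.cons 759 n507 .nil)
noncomputable def n509 : Strat := .move 798 n47 (.cons 757 n508 .nil)
noncomputable def n510 : Strat := .move 799 n352 (.cons 839 n59 (.cons 800 n70 (.cons 963 n509 .nil)))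
noncomputable def n511 : Strat := .move 799 n70 (.cons 1005 n357 (.cons 839 n250 (.cons 798 n316 .nil)))
noncomputable def n512 : Strat := .win 799 1 798
noncomputable def n513 : Strat := .win 919 0 919
noncomputable def n514 : Strat := .win 965 2 920
noncomputable def n515 : Strat := .move 920 n513 (.cons 919 n514 .nil)
noncomputable def n516 : Strat := .move 921 n512 (.cons 799 n515 .nil)
noncomputable def n517 : Strat := .move 964 n56 (.cons 1005 n516 .nil)
noncomputable def n518 : Strat := .move 962 n117 (.cons 1003 n517 .nil)
noncomputable def n519 : Strat := .move 963 n301 (.cons 759 n518 (.cons 921 n261 (.cons 962 n296 .nil)))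
noncomputable def n520 : Strat := .move 718 n21 (.cons 677 n20 .nil)
noncomputable def n521 : Strat := .move 716 n16 (.cons 675 n15 .nil)
noncomputable def n522 : Strat := .move 717 n520 (.cons 759 n521 .nil)
noncomputable def n523 : Strat := .move 963 n117 (.cons 1003 n522 .nil)
noncomputable def n524 : Strat := .move 962 n116 (.cons 921 n523 .nil)
noncomputable def n525 : Strat := .move 758 n39 (.cons 882 n524 .nil)
noncomputable def n526 : Strat := .move 923 n40 (.cons 964 n525 .nil)
noncomputable def n527 : Strat := .move 799 n54 (.cons 964 n191 (.cons 798 n526 (.cons 757 n114 .nil)))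
noncomputable def n528 : Strat := .win 1085 1 921
noncomputable def n529 : Strat := .win 1003 1 880
noncomputable def n530 : Strat := .move 1044 n528 (.cons 1085 n529 .nil)
noncomputable def n531 : Strat := .win 1087 6 922
noncomputable def n532 : Strat := .win 1005 6 881
noncomputable def n533 : Strat := .move 1046 n531 (.cons 1087 n532 .nil)
noncomputable def n534 : Strat := .move 1045 n530 (.cons 1003 n533 .nil)
noncomputable def n535 : Strat := .move 799 n47 (.cons 757 n534 .nil)
noncomputable def n536 : Strat := .move 798 n48 (.cons 839 n535 .nil)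
noncomputable def n537 : Strat := .move 1004 n205 (.cons 882 n536 .nil)
noncomputable def n538 : Strat := .move 841 n204 (.cons 800 n537 .nil)
noncomputable def n539 : Strat := .move 883 n443 (.cons 838 n442 .nil)
noncomputable def n540 : Strat := .move 839 n202 (.cons 798 n539 .nil)
noncomputable def n541 : Strat := .move 882 n193 (.cons 1004 n540 .nil)
noncomputable def n542 : Strat := .move 841 n204 (.cons 800 n541 .nil)
noncomputable def n543 : Strat := .move 963 n261 (.cons 800 n306 (.cons 962 n538 (.cons 1003 n542 .nil)))
noncomputable def n544 : Strat := .move 922 n441 (.cons 799 n471 (.cons 963 n489 (.cons 798 n502 (.cons 882 n510 (.cons 841 n511 (.cons 923 n519 (.cons 800 n527 (.cons 964 n543 .nil))))))))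
noncomputable def n545 : Strat := .move 799 n68 (.cons 800 n70 (.cons 839 n59 (.cons 963 n87 .nil)))
noncomputable def n546 : Strat := .move 879 n185 (.cons 924 n184 .nil)
noncomputable def n547 : Strat := .move 924 n317 (.cons 925 n318 .nil)
noncomputable def n548 : Strat := .win 839 1 797
noncomputable def n549 : Strat := .move 961 n548 (.cons 839 n392 .nil)
noncomputable def n550 : Strat := .move 880 n546 (.cons 878 n547 (.cons 924 n549 .nil))
noncomputable def n551 : Strat := .move 920 n395 (.cons 919 n550 .nil)
noncomputable def n552 : Strat := .move 798 n47 (.cons 757 n551 .nil)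
noncomputable def n553 : Strat := .move 923 n40 (.cons 964 n552 .nil)
noncomputable def n554 : Strat := .move 921 n30 (.cons 962 n553 .nil)
noncomputable def n555 : Strat := .move 799 n70 (.cons 798 n120 (.cons 963 n554 .nil))
noncomputable def n556 : Strat := .move 963 n518 (.cons 965 n294 .nil)
noncomputable def n557 : Strat := .move 839 n77 (.cons 802 n78 .nil)
noncomputable def n558 : Strat := .win 844 0 799
noncomputable def n559 : Strat := .win 842 0 798
noncomputable def n560 : Strat := .move 843 n558 (.cons 844 n559 .nil)
noncomputable def n561 : Strat := .move 802 n376 (.cons 839 n560 .nil)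
noncomputable def n562 : Strat := .move 842 n338 (.cons 797 n482 .nil)
noncomputable def n563 : Strat := .win 882 3 759
noncomputable def n564 : Strat := .win 761 5 757
noncomputable def n565 : Strat := .move 760 n563 (.cons 882 n564 .nil)
noncomputable def n566 : Strat := .move 841 n285 (.cons 796 n562 (.cons 842 n565 .nil))
noncomputable def n567 : Strat := .move 801 n557 (.cons 838 n561 (.cons 802 n566 .nil))
noncomputable def n568 : Strat := .move 923 n40 (.cons 964 n567 .nil)
noncomputable def n569 : Strat := .move 800 n45 (.cons 759 n568 .nil)
noncomputable def n570 : Strat := .move 798 n47 (.cons 757 n569 .nil)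
noncomputable def n571 : Strat := .move 924 n385 (.cons 925 n332 .nil)
noncomputable def n572 : Strat := .move 800 n45 (.cons 759 n571 .nil)
noncomputable def n573 : Strat := .move 921 n30 (.cons 962 n572 .nil)
noncomputable def n574 : Strat := .move 923 n40 (.cons 964 n573 .nil)
noncomputable def n575 : Strat := .move 799 n87 (.cons 759 n554 (.cons 962 n570 (.cons 839 n574 .nil)))
noncomputable def n576 : Strat := .win 925 4 921
noncomputable def n577 : Strat := .win 961 5 920
noncomputable def n578 : Strat := .move 924 n576 (.cons 925 n577 .nil)
noncomputable def n579 : Strat := .move 962 n117 (.cons 1003 n578 .nil)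
noncomputable def n580 : Strat := .move 923 n493 (.cons 799 n579 .nil)
noncomputable def n581 : Strat := .move 964 n56 (.cons 1005 n580 .nil)
noncomputable def n582 : Strat := .move 963 n294 (.cons 839 n296 (.cons 800 n256 (.cons 1004 n581 .nil)))
noncomputable def n583 : Strat := .move 963 n492 (.cons 964 n261 (.cons 1003 n346 .nil))
noncomputable def n584 : Strat := .win 1004 1 840
noncomputable def n585 : Strat := .win 801 3 800
noncomputable def n586 : Strat := .win 844 4 840
noncomputable def n587 : Strat := .win 880 4 839
noncomputable def n588 : Strat := .move 843 n586 (.cons 844 n587 .nil)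
noncomputable def n589 : Strat := .move 842 n585 (.cons 801 n588 .nil)
noncomputable def n590 : Strat := .move 882 n584 (.cons 1004 n589 .nil)
noncomputable def n591 : Strat := .move 841 n204 (.cons 800 n590 .nil)
noncomputable def n592 : Strat := .move 923 n493 (.cons 799 n591 .nil)
noncomputable def n593 : Strat := .move 964 n56 (.cons 1005 n592 .nil)
noncomputable def n594 : Strat := .move 880 n268 (.cons 879 n267 .nil)
noncomputable def n595 : Strat := .win 802 5 798
noncomputable def n596 : Strat := .win 882 3 800
noncomputable def n597 : Strat := .move 801 n595 (.cons 802 n596 .nil)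
noncomputable def n598 : Strat := .move 842 n594 (.cons 843 n597 .nil)
noncomputable def n599 : Strat := .move 839 n202 (.cons 798 n598 .nil)
noncomputable def n600 : Strat := .move 841 n204 (.cons 800 n599 .nil)
noncomputable def n601 : Strat := .move 923 n493 (.cons 799 n600 .nil)
noncomputable def n602 : Strat := .move 964 n56 (.cons 1005 n601 .nil)
noncomputable def n603 : Strat := .move 838 n262 (.cons 883 n129 .nil)
noncomputable def n604 : Strat := .move 839 n202 (.cons 798 n603 .nil)
noncomputable def n605 : Strat := .move 923 n493 (.cons 799 n604 .nil)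
noncomputable def n606 : Strat := .move 882 n193 (.cons 1004 n605 .nil)
noncomputable def n607 : Strat := .move 841 n204 (.cons 800 n606 .nil)
noncomputable def n608 : Strat := .move 964 n56 (.cons 1005 n607 .nil)
noncomputable def n609 : Strat := .move 963 n294 (.cons 882 n256 (.cons 839 n593 (.cons 1004 n602 (.cons 880 n608 .nil))))
noncomputable def n610 : Strat := .move 841 n204 (.cons 800 n269 .nil)
noncomputable def n611 : Strat := .move 921 n512 (.cons 799 n610 .nil)
noncomputable def n612 : Strat := .move 880 n422 (.cons 1004 n611 .nil)
noncomputable def n613 : Strat := .move 839 n202 (.cons 798 n612 .nil)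
noncomputable def n614 : Strat := .move 962 n117 (.cons 1003 n613 .nil)
noncomputable def n615 : Strat := .win 1004 6 839
noncomputable def n616 : Strat := .win 797 7 797
noncomputable def n617 : Strat := .move 838 n616 (.cons 797 n425 .nil)
noncomputable def n618 : Strat := .move 880 n615 (.cons 1004 n617 .nil)
noncomputable def n619 : Strat := .move 839 n202 (.cons 798 n618 .nil)
noncomputable def n620 : Strat := .move 921 n512 (.cons 799 n619 .nil)
noncomputable def n621 : Strat := .move 962 n117 (.cons 1003 n620 .nil)
noncomputable def n622 : Strat := .win 880 7 797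
noncomputable def n623 : Strat := .move 797 n271 (.cons 796 n622 .nil)
noncomputable def n624 : Strat := .move 838 n263 (.cons 837 n623 .nil)
noncomputable def n625 : Strat := .move 841 n204 (.cons 800 n624 .nil)
noncomputable def n626 : Strat := .move 839 n202 (.cons 798 n625 .nil)
noncomputable def n627 : Strat := .move 921 n512 (.cons 799 n626 .nil)
noncomputable def n628 : Strat := .move 962 n117 (.cons 1003 n627 .nil)
noncomputable def n629 : Strat := .move 963 n208 (.cons 880 n261 (.cons 882 n614 (.cons 841 n621 (.cons 1004 n628 .nil))))
noncomputable def n630 : Strat := .move 963 n518 (.cons 964 n621 (.cons 799 n256 .nil))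
noncomputable def n631 : Strat := .move 922 n545 (.cons 1005 n418 (.cons 837 n555 (.cons 757 n556 (.cons 963 n575 (.cons 799 n314 (.cons 921 n582 (.cons 880 n583 (.cons 962 n609 (.cons 964 n629 (.cons 841 n630 .nil))))))))))
noncomputable def n632 : Strat := .move 922 n173 (.cons 758 n87 (.cons 962 n54 .nil))
noncomputable def n633 : Strat := .move 758 n29 (.cons 880 n39 .nil)
noncomputable def n634 : Strat := .move 923 n40 (.cons 964 n633 .nil)
noncomputable def n635 : Strat := .move 921 n30 (.cons 962 n634 .nil)
noncomputable def n636 : Strat := .move 882 n230 (.cons 883 n326 .nil)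
noncomputable def n637 : Strat := .move 923 n546 (.cons 878 n547 (.cons 924 n549 .nil))
noncomputable def n638 : Strat := .move 920 n636 (.cons 919 n637 .nil)
noncomputable def n639 : Strat := .move 798 n47 (.cons 757 n638 .nil)
noncomputable def n640 : Strat := .move 880 n183 (.cons 758 n639 .nil)
noncomputable def n641 : Strat := .move 921 n30 (.cons 962 n640 .nil)
noncomputable def n642 : Strat := .move 923 n40 (.cons 964 n186 .nil)
noncomputable def n643 : Strat := .move 880 n183 (.cons 758 n642 .nil)
noncomputable def n644 : Strat := .move 921 n30 (.cons 962 n643 .nil)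
noncomputable def n645 : Strat := .move 758 n29 (.cons 880 n52 .nil)
noncomputable def n646 : Strat := .move 921 n30 (.cons 962 n645 .nil)
noncomputable def n647 : Strat := .move 922 n635 (.cons 962 n54 (.cons 964 n641 (.cons 758 n554 (.cons 882 n644 (.cons 923 n646 .nil)))))
noncomputable def n648 : Strat := .move 922 n87 (.cons 759 n554 (.cons 962 n570 (.cons 839 n574 .nil)))
noncomputable def n649 : Strat := .win 922 3 758
noncomputable def n650 : Strat := .win 802 2 757
noncomputable def n651 : Strat := .win 756 0 756
noncomputable def n652 : Strat := .move 801 n650 (.cons 802 n651 .nil)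
noncomputable def n653 : Strat := .move 800 n649 (.cons 922 n652 .nil)
noncomputable def n654 : Strat := .move 759 n2 (.cons 718 n653 .nil)
noncomputable def n655 : Strat := .move 757 n0 (.cons 716 n654 .nil)
noncomputable def n656 : Strat := .move 758 n655 (.cons 922 n24 (.cons 759 n13 .nil))
noncomputable def n657 : Strat := .move 758 n13 (.cons 839 n35 (.cons 882 n24 (.cons 717 n105 .nil)))
noncomputable def n658 : Strat := .move 922 n149 (.cons 923 n488 .nil)
noncomputable def n659 : Strat := .win 796 5 755
noncomputable def n660 : Strat := .move 797 n92 (.cons 760 n659 .nil)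
noncomputable def n661 : Strat := .move 798 n141 (.cons 922 n660 .nil)
noncomputable def n662 : Strat := .move 759 n2 (.cons 718 n661 .nil)
noncomputable def n663 : Strat := .move 757 n0 (.cons 716 n662 .nil)
noncomputable def n664 : Strat := .win 715 7 715
noncomputable def n665 : Strat := .win 754 0 754
noncomputable def n666 : Strat := .win 800 0 755
noncomputable def n667 : Strat := .move 755 n665 (.cons 754 n666 .nil)
noncomputable def n668 : Strat := .move 756 n664 (.cons 715 n667 .nil)
noncomputable def n669 : Strat := .move 839 n128 (.cons 717 n668 .nil)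
noncomputable def n670 : Strat := .move 880 n7 (.cons 921 n669 .nil)
noncomputable def n671 : Strat := .move 798 n141 (.cons 922 n670 .nil)
noncomputable def n672 : Strat := .move 757 n0 (.cons 716 n671 .nil)
noncomputable def n673 : Strat := .move 758 n663 (.cons 922 n24 (.cons 759 n672 .nil))
noncomputable def n674 : Strat := .move 717 n11 (.cons 923 n26 .nil)
noncomputable def n675 : Strat := .win 719 3 718
noncomputable def n676 : Strat := .win 762 4 758
noncomputable def n677 : Strat := .win 798 4 757
noncomputable def n678 : Strat := .move 761 n676 (.cons 762 n677 .nil)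
noncomputable def n679 : Strat := .move 760 n675 (.cons 719 n678 .nil)
noncomputable def n680 : Strat := .move 841 n158 (.cons 717 n679 .nil)
noncomputable def n681 : Strat := .move 882 n9 (.cons 923 n680 .nil)
noncomputable def n682 : Strat := .move 800 n649 (.cons 922 n681 .nil)
noncomputable def n683 : Strat := .move 759 n2 (.cons 718 n682 .nil)
noncomputable def n684 : Strat := .win 841 6 759
noncomputable def n685 : Strat := .move 924 n234 (.cons 925 n684 .nil)
noncomputable def n686 : Strat := .win 838 2 838
noncomputable def n687 : Strat := .move 839 n686 (.cons 838 n442 .nil)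
noncomputable def n688 : Strat := .move 883 n685 (.cons 841 n687 .nil)
noncomputable def n689 : Strat := .move 880 n7 (.cons 921 n688 .nil)
noncomputable def n690 : Strat := .move 882 n9 (.cons 923 n689 .nil)
noncomputable def n691 : Strat := .move 800 n649 (.cons 922 n690 .nil)
noncomputable def n692 : Strat := .move 759 n2 (.cons 718 n691 .nil)
noncomputable def n693 : Strat := .move 758 n674 (.cons 880 n683 (.cons 923 n24 (.cons 717 n692 .nil)))
noncomputable def n694 : Strat := .move 922 n3 (.cons 800 n1 .nil)
noncomputable def n695 : Strat := .move 757 n0 (.cons 716 n694 .nil)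
noncomputable def n696 : Strat := .move 759 n2 (.cons 718 n695 .nil)
noncomputable def n697 : Strat := .win 922 1 758
noncomputable def n698 : Strat := .move 800 n697 (.cons 922 n679 .nil)
noncomputable def n699 : Strat := .move 841 n158 (.cons 717 n698 .nil)
noncomputable def n700 : Strat := .move 882 n9 (.cons 923 n699 .nil)
noncomputable def n701 : Strat := .move 759 n2 (.cons 718 n700 .nil)
noncomputable def n702 : Strat := .move 758 n696 (.cons 757 n701 (.cons 922 n35 (.cons 759 n64 .nil)))
noncomputable def n703 : Strat := .move 799 n632 (.cons 759 n647 (.cons 758 n648 (.cons 964 n656 (.cons 922 n657 (.cons 880 n658 (.cons 882 n673 (.cons 757 n693 (.cons 839 n702 .nil))))))))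
noncomputable def n704 : Strat := .move 799 n68 (.cons 963 n217 (.cons 798 n284 .nil))
noncomputable def n705 : Strat := .move 880 n615 (.cons 1004 n610 .nil)
noncomputable def n706 : Strat := .move 839 n202 (.cons 798 n705 .nil)
noncomputable def n707 : Strat := .move 921 n512 (.cons 799 n706 .nil)
noncomputable def n708 : Strat := .move 962 n117 (.cons 1003 n707 .nil)
noncomputable def n709 : Strat := .move 963 n518 (.cons 962 n256 (.cons 1005 n708 .nil))
noncomputable def n710 : Strat := .move 964 n56 (.cons 1005 n490 .nil)
noncomputable def n711 : Strat := .move 962 n117 (.cons 1003 n710 .nil)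
noncomputable def n712 : Strat := .win 921 2 921
noncomputable def n713 : Strat := .win 1008 0 963
noncomputable def n714 : Strat := .win 1006 0 962
noncomputable def n715 : Strat := .move 1007 n713 (.cons 1008 n714 .nil)
noncomputable def n716 : Strat := .move 966 n712 (.cons 921 n715 .nil)
noncomputable def n717 : Strat := .win 924 5 921
noncomputable def n718 : Strat := .win 926 5 922
noncomputable def n719 : Strat := .move 966 n718 (.cons 926 n715 .nil)
noncomputable def n720 : Strat := .move 925 n717 (.cons 924 n719 .nil)
noncomputable def n721 : Strat := .win 921 2 920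
noncomputable def n722 : Strat := .win 919 2 919
noncomputable def n723 : Strat := .move 923 n449 (.cons 924 n448 .nil)
noncomputable def n724 : Strat := .move 961 n722 (.cons 919 n723 .nil)
noncomputable def n725 : Strat := .move 920 n721 (.cons 921 n724 .nil)
noncomputable def n726 : Strat := .move 965 n465 (.cons 920 n716 (.cons 921 n720 (.cons 966 n725 .nil)))
noncomputable def n727 : Strat := .move 964 n56 (.cons 1005 n726 .nil)
noncomputable def n728 : Strat := .move 962 n117 (.cons 1003 n727 .nil)
noncomputable def n729 : Strat := .move 963 n711 (.cons 799 n728 (.cons 962 n346 (.cons 964 n301 .nil)))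
noncomputable def n730 : Strat := .move 963 n438 (.cons 839 n728 (.cons 962 n256 .nil))
noncomputable def n731 : Strat := .win 762 5 758
noncomputable def n732 : Strat := .win 760 5 757
noncomputable def n733 : Strat := .move 761 n731 (.cons 762 n732 .nil)
noncomputable def n734 : Strat := .move 802 n558 (.cons 844 n733 .nil)
noncomputable def n735 : Strat := .move 843 n559 (.cons 842 n734 .nil)
noncomputable def n736 : Strat := .move 797 n75 (.cons 837 n73 .nil)
noncomputable def n737 : Strat := .move 838 n503 (.cons 839 n736 .nil)
noncomputable def n738 : Strat := .move 801 n483 (.cons 838 n561 (.cons 839 n735 (.cons 802 n737 .nil)))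
noncomputable def n739 : Strat := .move 800 n45 (.cons 759 n738 .nil)
noncomputable def n740 : Strat := .move 798 n47 (.cons 757 n739 .nil)
noncomputable def n741 : Strat := .move 799 n217 (.cons 921 n740 (.cons 798 n284 .nil))
noncomputable def n742 : Strat := .move 922 n704 (.cons 880 n510 (.cons 759 n709 (.cons 839 n729 (.cons 799 n730 (.cons 963 n741 .nil)))))
noncomputable def n743 : Strat := .move 963 n256 (.cons 1004 n711 (.cons 964 n208 .nil))
noncomputable def n744 : Strat := .move 920 n514 (.cons 965 n513 .nil)
noncomputable def n745 : Strat := .move 965 n464 (.cons 966 n463 .nil)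
noncomputable def n746 : Strat := .win 880 1 838
noncomputable def n747 : Strat := .win 1001 4 960
noncomputable def n748 : Strat := .move 1002 n746 (.cons 880 n747 .nil)
noncomputable def n749 : Strat := .move 921 n744 (.cons 919 n745 (.cons 965 n748 .nil))
noncomputable def n750 : Strat := .move 961 n723 (.cons 960 n749 .nil)
noncomputable def n751 : Strat := .move 839 n202 (.cons 798 n750 .nil)
noncomputable def n752 : Strat := .move 964 n56 (.cons 1005 n751 .nil)
noncomputable def n753 : Strat := .move 962 n117 (.cons 1003 n752 .nil)
noncomputable def n754 : Strat := .move 963 n256 (.cons 1004 n753 (.cons 798 n261 .nil))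
noncomputable def n755 : Strat := .move 963 n256 (.cons 964 n208 (.cons 798 n593 (.cons 880 n581 .nil)))
noncomputable def n756 : Strat := .move 882 n584 (.cons 1004 n604 .nil)
noncomputable def n757 : Strat := .move 841 n204 (.cons 800 n756 .nil)
noncomputable def n758 : Strat := .move 923 n493 (.cons 799 n757 .nil)
noncomputable def n759 : Strat := .move 964 n56 (.cons 1005 n758 .nil)
noncomputable def n760 : Strat := .move 963 n208 (.cons 882 n256 (.cons 880 n759 (.cons 839 n593 (.cons 1004 n602 .nil))))
noncomputable def n761 : Strat := .win 1086 7 921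
noncomputable def n762 : Strat := .win 880 7 880
noncomputable def n763 : Strat := .move 1045 n761 (.cons 1086 n762 .nil)
noncomputable def n764 : Strat := .move 1004 n205 (.cons 882 n763 .nil)
noncomputable def n765 : Strat := .move 841 n204 (.cons 800 n764 .nil)
noncomputable def n766 : Strat := .move 921 n512 (.cons 799 n765 .nil)
noncomputable def n767 : Strat := .move 962 n117 (.cons 1003 n766 .nil)
noncomputable def n768 : Strat := .move 882 n193 (.cons 1004 n604 .nil)
noncomputable def n769 : Strat := .move 841 n204 (.cons 800 n768 .nil)
noncomputable def n770 : Strat := .move 962 n117 (.cons 1003 n769 .nil)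
noncomputable def n771 : Strat := .move 963 n208 (.cons 841 n621 (.cons 1004 n628 (.cons 839 n767 (.cons 880 n770 (.cons 882 n614 .nil)))))
noncomputable def n772 : Strat := .move 923 n493 (.cons 799 n578 .nil)
noncomputable def n773 : Strat := .move 964 n56 (.cons 1005 n772 .nil)
noncomputable def n774 : Strat := .move 962 n117 (.cons 1003 n773 .nil)
noncomputable def n775 : Strat := .move 963 n774 (.cons 799 n261 (.cons 962 n593 .nil))
noncomputable def n776 : Strat := .move 963 n711 (.cons 962 n602 (.cons 964 n628 (.cons 799 n753 .nil)))
noncomputable def n777 : Strat := .move 799 n635 (.cons 962 n54 (.cons 964 n641 (.cons 758 n554 (.cons 882 n644 (.cons 923 n646 .nil)))))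
noncomputable def n778 : Strat := .move 962 n117 (.cons 1003 n772 .nil)
noncomputable def n779 : Strat := .move 964 n56 (.cons 1005 n778 .nil)
noncomputable def n780 : Strat := .move 963 n779 (.cons 964 n770 (.cons 962 n759 .nil))
noncomputable def n781 : Strat := .move 922 n743 (.cons 799 n754 (.cons 882 n709 (.cons 921 n755 (.cons 962 n760 (.cons 964 n771 (.cons 798 n775 (.cons 1004 n776 (.cons 963 n777 (.cons 880 n780 .nil)))))))))
noncomputable def n782 : Strat := .move 963 n261 (.cons 882 n518 (.cons 962 n294 .nil))
noncomputable def n783 : Strat := .win 924 0 879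
noncomputable def n784 : Strat := .move 879 n184 (.cons 878 n783 .nil)
noncomputable def n785 : Strat := .win 879 0 879
noncomputable def n786 : Strat := .move 924 n317 (.cons 925 n785 .nil)
noncomputable def n787 : Strat := .move 883 n686 (.cons 838 n442 .nil)
noncomputable def n788 : Strat := .move 838 n130 (.cons 883 n129 .nil)
noncomputable def n789 : Strat := .move 963 n422 (.cons 1004 n202 .nil)
noncomputable def n790 : Strat := .move 839 n787 (.cons 884 n788 (.cons 838 n789 .nil))
noncomputable def n791 : Strat := .move 924 n317 (.cons 925 n790 .nil)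
noncomputable def n792 : Strat := .move 879 n184 (.cons 878 n790 .nil)
noncomputable def n793 : Strat := .move 880 n784 (.cons 878 n786 (.cons 879 n791 (.cons 924 n792 .nil)))
noncomputable def n794 : Strat := .move 882 n108 (.cons 758 n793 .nil)
noncomputable def n795 : Strat := .move 923 n40 (.cons 964 n794 .nil)
noncomputable def n796 : Strat := .move 1003 n258 (.cons 1044 n257 .nil)
noncomputable def n797 : Strat := .move 1004 n203 (.cons 880 n796 .nil)
noncomputable def n798 : Strat := .move 839 n202 (.cons 798 n797 .nil)
noncomputable def n799 : Strat := .move 963 n46 (.cons 841 n798 .nil)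
noncomputable def n800 : Strat := .move 800 n45 (.cons 759 n799 .nil)
noncomputable def n801 : Strat := .move 799 n59 (.cons 841 n316 (.cons 800 n795 (.cons 923 n800 .nil)))
noncomputable def n802 : Strat := .move 880 n422 (.cons 1004 n610 .nil)
noncomputable def n803 : Strat := .move 839 n202 (.cons 798 n802 .nil)
noncomputable def n804 : Strat := .move 964 n56 (.cons 1005 n803 .nil)
noncomputable def n805 : Strat := .move 962 n117 (.cons 1003 n804 .nil)
noncomputable def n806 : Strat := .move 963 n518 (.cons 964 n708 (.cons 1003 n346 (.cons 799 n805 .nil)))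
noncomputable def n807 : Strat := .move 963 n294 (.cons 882 n708 (.cons 1004 n628 (.cons 880 n261 (.cons 841 n621 .nil))))
noncomputable def n808 : Strat := .move 799 n635 (.cons 923 n284 (.cons 962 n316 (.cons 758 n336 .nil)))
noncomputable def n809 : Strat := .move 842 n268 (.cons 879 n267 .nil)
noncomputable def n810 : Strat := .move 880 n809 (.cons 843 n266 (.cons 879 n272 .nil))
noncomputable def n811 : Strat := .move 838 n263 (.cons 837 n810 .nil)
noncomputable def n812 : Strat := .move 962 n117 (.cons 1003 n811 .nil)
noncomputable def n813 : Strat := .move 839 n202 (.cons 798 n812 .nil)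
noncomputable def n814 : Strat := .move 841 n204 (.cons 800 n813 .nil)
noncomputable def n815 : Strat := .move 839 n202 (.cons 798 n419 .nil)
noncomputable def n816 : Strat := .move 841 n204 (.cons 800 n815 .nil)
noncomputable def n817 : Strat := .move 963 n261 (.cons 882 n805 (.cons 1004 n814 (.cons 1003 n816 (.cons 800 n256 .nil))))
noncomputable def n818 : Strat := .move 963 n518 (.cons 799 n256 (.cons 964 n621 .nil))
noncomputable def n819 : Strat := .win 1086 3 922
noncomputable def n820 : Strat := .win 882 3 881
noncomputable def n821 : Strat := .move 1045 n819 (.cons 1086 n820 .nil)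
noncomputable def n822 : Strat := .move 1004 n203 (.cons 880 n821 .nil)
noncomputable def n823 : Strat := .move 839 n202 (.cons 798 n822 .nil)
noncomputable def n824 : Strat := .move 923 n493 (.cons 799 n823 .nil)
noncomputable def n825 : Strat := .move 964 n56 (.cons 1005 n824 .nil)
noncomputable def n826 : Strat := .move 963 n294 (.cons 841 n825 (.cons 1004 n602 (.cons 798 n296 (.cons 882 n804 .nil))))
noncomputable def n827 : Strat := .move 963 n779 (.cons 964 n261 (.cons 1003 n759 .nil))
noncomputable def n828 : Strat := .move 922 n782 (.cons 921 n801 (.cons 882 n806 (.cons 964 n807 (.cons 963 n808 (.cons 799 n817 (.cons 800 n818 (.cons 962 n826 (.cons 880 n827 .nil))))))))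
noncomputable def n829 : Strat := .move 758 n13 (.cons 839 n62 .nil)
noncomputable def n830 : Strat := .move 922 n70 (.cons 798 n120 (.cons 963 n554 .nil))
noncomputable def n831 : Strat := .move 758 n24 (.cons 880 n64 (.cons 717 n105 .nil))
noncomputable def n832 : Strat := .move 758 n35 (.cons 882 n33 (.cons 759 n28 .nil))
noncomputable def n833 : Strat := .move 922 n59 (.cons 800 n54 (.cons 923 n51 .nil))
noncomputable def n834 : Strat := .move 758 n19 (.cons 716 n170 (.cons 717 n38 (.cons 880 n43 .nil)))
noncomputable def n835 : Strat := .move 922 n191 (.cons 963 n646 (.cons 962 n352 (.cons 798 n175 .nil)))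
noncomputable def n836 : Strat := .move 922 n3 (.cons 800 n41 .nil)
noncomputable def n837 : Strat := .move 759 n2 (.cons 718 n836 .nil)
noncomputable def n838 : Strat := .move 758 n62 (.cons 798 n837 (.cons 759 n64 .nil))
noncomputable def n839 : Strat := .move 883 n442 (.cons 884 n686 .nil)
noncomputable def n840 : Strat := .move 882 n9 (.cons 923 n839 .nil)
noncomputable def n841 : Strat := .move 839 n128 (.cons 717 n840 .nil)
noncomputable def n842 : Strat := .move 880 n7 (.cons 921 n841 .nil)
noncomputable def n843 : Strat := .move 759 n2 (.cons 718 n842 .nil)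
noncomputable def n844 : Strat := .move 757 n0 (.cons 716 n843 .nil)
noncomputable def n845 : Strat := .move 758 n6 (.cons 800 n38 (.cons 757 n33 (.cons 922 n844 .nil)))
noncomputable def n846 : Strat := .move 799 n829 (.cons 758 n830 (.cons 922 n831 (.cons 798 n832 (.cons 880 n833 (.cons 800 n834 (.cons 882 n835 (.cons 839 n838 (.cons 841 n845 .nil))))))))
noncomputable def n847 : Strat := .move 922 n51 (.cons 841 n173 .nil)
noncomputable def n848 : Strat := .move 758 n13 (.cons 880 n64 (.cons 717 n38 .nil))
noncomputable def n849 : Strat := .move 759 n2 (.cons 718 n694 .nil)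
noncomputable def n850 : Strat := .move 757 n0 (.cons 716 n849 .nil)
noncomputable def n851 : Strat := .move 758 n850 (.cons 798 n24 (.cons 759 n19 .nil))
noncomputable def n852 : Strat := .move 841 n237 (.cons 842 n432 .nil)
noncomputable def n853 : Strat := .win 798 1 756
noncomputable def n854 : Strat := .move 920 n853 (.cons 798 n231 .nil)
noncomputable def n855 : Strat := .move 839 n788 (.cons 837 n839 (.cons 883 n854 .nil))
noncomputable def n856 : Strat := .move 879 n852 (.cons 878 n855 .nil)
noncomputable def n857 : Strat := .move 757 n0 (.cons 716 n856 .nil)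
noncomputable def n858 : Strat := .move 882 n9 (.cons 923 n857 .nil)
noncomputable def n859 : Strat := .move 880 n7 (.cons 921 n858 .nil)
noncomputable def n860 : Strat := .move 758 n13 (.cons 717 n859 (.cons 841 n19 (.cons 880 n64 .nil)))
noncomputable def n861 : Strat := .move 922 n59 (.cons 1005 n312 (.cons 800 n54 .nil))
noncomputable def n862 : Strat := .move 758 n39 (.cons 882 n31 .nil)
noncomputable def n863 : Strat := .move 923 n40 (.cons 964 n862 .nil)
noncomputable def n864 : Strat := .move 922 n863 (.cons 880 n59 (.cons 923 n120 .nil))
noncomputable def n865 : Strat := .move 842 n482 (.cons 843 n481 .nil)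
noncomputable def n866 : Strat := .move 797 n865 (.cons 841 n504 .nil)
noncomputable def n867 : Strat := .move 802 n560 (.cons 842 n733 .nil)
noncomputable def n868 : Strat := .move 801 n483 (.cons 802 n866 (.cons 838 n561 (.cons 839 n867 .nil)))
noncomputable def n869 : Strat := .move 921 n30 (.cons 962 n868 .nil)
noncomputable def n870 : Strat := .move 798 n47 (.cons 757 n869 .nil)
noncomputable def n871 : Strat := .move 800 n45 (.cons 759 n870 .nil)
noncomputable def n872 : Strat := .move 922 n120 (.cons 921 n51 (.cons 841 n191 (.cons 963 n871 .nil)))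
noncomputable def n873 : Strat := .move 799 n847 (.cons 800 n848 (.cons 923 n851 (.cons 922 n860 (.cons 880 n861 (.cons 839 n864 (.cons 758 n872 .nil))))))
noncomputable def n874 : Strat := .move 758 n39 (.cons 882 n4 .nil)
noncomputable def n875 : Strat := .move 923 n40 (.cons 964 n874 .nil)
noncomputable def n876 : Strat := .move 922 n352 (.cons 963 n54 (.cons 798 n875 .nil))
noncomputable def n877 : Strat := .move 798 n95 (.cons 761 n96 .nil)
noncomputable def n878 : Strat := .win 803 0 758
noncomputable def n879 : Strat := .win 801 0 757
noncomputable def n880 : Strat := .move 802 n878 (.cons 803 n879 .nil)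
noncomputable def n881 : Strat := .move 761 n677 (.cons 798 n880 .nil)
noncomputable def n882 : Strat := .move 756 n89 (.cons 801 n90 .nil)
noncomputable def n883 : Strat := .win 802 0 757
noncomputable def n884 : Strat := .move 801 n651 (.cons 756 n883 .nil)
noncomputable def n885 : Strat := .win 841 3 718
noncomputable def n886 : Strat := .move 719 n885 (.cons 841 n160 .nil)
noncomputable def n887 : Strat := .move 800 n882 (.cons 755 n884 (.cons 801 n886 .nil))
noncomputable def n888 : Strat := .move 760 n877 (.cons 797 n881 (.cons 761 n887 .nil))
noncomputable def n889 : Strat := .move 882 n9 (.cons 923 n888 .nil)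
noncomputable def n890 : Strat := .move 759 n2 (.cons 718 n889 .nil)
noncomputable def n891 : Strat := .move 757 n0 (.cons 716 n890 .nil)
noncomputable def n892 : Strat := .move 758 n64 (.cons 717 n891 (.cons 923 n24 .nil))
noncomputable def n893 : Strat := .move 880 n7 (.cons 921 n128 .nil)
noncomputable def n894 : Strat := .move 923 n39 (.cons 882 n403 .nil)
noncomputable def n895 : Strat := .move 717 n10 (.cons 841 n402 .nil)
noncomputable def n896 : Strat := .move 882 n9 (.cons 923 n895 .nil)
noncomputable def n897 : Strat := .move 882 n9 (.cons 923 n787 .nil)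
noncomputable def n898 : Strat := .move 880 n7 (.cons 921 n897 .nil)
noncomputable def n899 : Strat := .move 758 n893 (.cons 921 n894 (.cons 880 n896 (.cons 717 n898 .nil)))
noncomputable def n900 : Strat := .move 839 n176 (.cons 963 n899 .nil)
noncomputable def n901 : Strat := .move 798 n47 (.cons 757 n900 .nil)
noncomputable def n902 : Strat := .move 717 n8 (.cons 839 n520 .nil)
noncomputable def n903 : Strat := .move 880 n7 (.cons 921 n902 .nil)
noncomputable def n904 : Strat := .move 758 n39 (.cons 882 n903 .nil)
noncomputable def n905 : Strat := .move 923 n40 (.cons 964 n904 .nil)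
noncomputable def n906 : Strat := .move 758 n0 (.cons 716 n903 .nil)
noncomputable def n907 : Strat := .move 757 n1 (.cons 798 n906 .nil)
noncomputable def n908 : Strat := .move 922 n54 (.cons 964 n901 (.cons 758 n70 (.cons 798 n905 (.cons 923 n907 .nil))))
noncomputable def n909 : Strat := .move 759 n2 (.cons 718 n698 .nil)
noncomputable def n910 : Strat := .move 841 n158 (.cons 717 n909 .nil)
noncomputable def n911 : Strat := .move 882 n9 (.cons 923 n910 .nil)
noncomputable def n912 : Strat := .move 880 n7 (.cons 921 n168 .nil)
noncomputable def n913 : Strat := .move 882 n9 (.cons 923 n912 .nil)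
noncomputable def n914 : Strat := .win 757 2 757
noncomputable def n915 : Strat := .win 803 2 758
noncomputable def n916 : Strat := .move 802 n914 (.cons 757 n915 .nil)
noncomputable def n917 : Strat := .move 757 n651 (.cons 756 n650 .nil)
noncomputable def n918 : Strat := .win 760 5 756
noncomputable def n919 : Strat := .move 797 n918 (.cons 760 n659 .nil)
noncomputable def n920 : Strat := .win 797 5 756
noncomputable def n921 : Strat := .move 760 n920 (.cons 797 n95 .nil)
noncomputable def n922 : Strat := .win 757 0 756
noncomputable def n923 : Strat := .move 797 n81 (.cons 755 n659 .nil)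
noncomputable def n924 : Strat := .move 756 n922 (.cons 757 n923 .nil)
noncomputable def n925 : Strat := .move 880 n128 (.cons 717 n7 .nil)
noncomputable def n926 : Strat := .move 839 n78 (.cons 838 n925 .nil)
noncomputable def n927 : Strat := .move 798 n919 (.cons 796 n921 (.cons 760 n924 (.cons 797 n926 .nil)))
noncomputable def n928 : Strat := .move 802 n915 (.cons 803 n376 .nil)
noncomputable def n929 : Strat := .move 801 n916 (.cons 803 n917 (.cons 802 n927 (.cons 757 n928 .nil)))
noncomputable def n930 : Strat := .move 800 n649 (.cons 922 n929 .nil)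
noncomputable def n931 : Strat := .move 759 n2 (.cons 718 n930 .nil)
noncomputable def n932 : Strat := .move 758 n911 (.cons 800 n913 (.cons 841 n837 (.cons 882 n931 .nil)))
noncomputable def n933 : Strat := .move 882 n9 (.cons 923 n788 .nil)
noncomputable def n934 : Strat := .move 839 n128 (.cons 717 n933 .nil)
noncomputable def n935 : Strat := .move 880 n7 (.cons 921 n934 .nil)
noncomputable def n936 : Strat := .move 759 n2 (.cons 718 n935 .nil)
noncomputable def n937 : Strat := .win 841 6 676
noncomputable def n938 : Strat := .win 635 6 635
noncomputable def n939 : Strat := .move 676 n937 (.cons 841 n938 .nil)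
noncomputable def n940 : Strat := .move 717 n8 (.cons 839 n939 .nil)
noncomputable def n941 : Strat := .move 880 n7 (.cons 921 n940 .nil)
noncomputable def n942 : Strat := .move 800 n649 (.cons 922 n941 .nil)
noncomputable def n943 : Strat := .move 759 n2 (.cons 718 n942 .nil)
noncomputable def n944 : Strat := .move 758 n28 (.cons 841 n936 (.cons 880 n683 (.cons 717 n692 (.cons 882 n943 .nil))))
noncomputable def n945 : Strat := .win 839 1 675
noncomputable def n946 : Strat := .win 635 1 634
noncomputable def n947 : Strat := .move 676 n945 (.cons 839 n946 .nil)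
noncomputable def n948 : Strat := .move 717 n10 (.cons 841 n947 .nil)
noncomputable def n949 : Strat := .move 882 n9 (.cons 923 n948 .nil)
noncomputable def n950 : Strat := .move 798 n141 (.cons 922 n949 .nil)
noncomputable def n951 : Strat := .move 757 n0 (.cons 716 n950 .nil)
noncomputable def n952 : Strat := .win 839 1 756
noncomputable def n953 : Strat := .move 920 n231 (.cons 919 n952 .nil)
noncomputable def n954 : Strat := .move 879 n953 (.cons 839 n852 .nil)
noncomputable def n955 : Strat := .move 882 n9 (.cons 923 n954 .nil)
noncomputable def n956 : Strat := .move 880 n7 (.cons 921 n955 .nil)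
noncomputable def n957 : Strat := .move 798 n141 (.cons 922 n956 .nil)
noncomputable def n958 : Strat := .move 757 n0 (.cons 716 n957 .nil)
noncomputable def n959 : Strat := .move 758 n28 (.cons 923 n672 (.cons 880 n951 (.cons 717 n958 (.cons 839 n64 .nil))))
noncomputable def n960 : Strat := .move 842 n482 (.cons 843 n338 .nil)
noncomputable def n961 : Strat := .move 760 n564 (.cons 761 n563 .nil)
noncomputable def n962 : Strat := .move 798 n285 (.cons 796 n960 (.cons 842 n961 .nil))
noncomputable def n963 : Strat := .move 801 n377 (.cons 839 n962 .nil)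
noncomputable def n964 : Strat := .move 923 n40 (.cons 964 n963 .nil)
noncomputable def n965 : Strat := .move 841 n238 (.cons 963 n964 .nil)
noncomputable def n966 : Strat := .move 800 n45 (.cons 759 n965 .nil)
noncomputable def n967 : Strat := .move 922 n352 (.cons 800 n70 (.cons 963 n570 (.cons 757 n966 (.cons 798 n59 .nil))))
noncomputable def n968 : Strat := .move 801 n651 (.cons 756 n650 .nil)
noncomputable def n969 : Strat := .move 800 n649 (.cons 922 n968 .nil)
noncomputable def n970 : Strat := .move 757 n0 (.cons 716 n969 .nil)
noncomputable def n971 : Strat := .move 759 n2 (.cons 718 n970 .nil)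
noncomputable def n972 : Strat := .move 758 n35 (.cons 841 n971 (.cons 759 n28 .nil))
noncomputable def n973 : Strat := .move 758 n971 (.cons 759 n64 (.cons 757 n701 .nil))
noncomputable def n974 : Strat := .move 799 n876 (.cons 922 n892 (.cons 800 n908 (.cons 923 n673 (.cons 716 n932 (.cons 757 n944 (.cons 759 n959 (.cons 758 n967 (.cons 798 n972 (.cons 839 n973 .nil)))))))))
noncomputable def n975 : Strat := .move 963 n304 (.cons 1003 n298 (.cons 923 n261 .nil))
noncomputable def n976 : Strat := .move 799 n284 (.cons 800 n214 (.cons 758 n352 .nil))
noncomputable def n977 : Strat := .move 963 n296 (.cons 841 n298 (.cons 964 n294 .nil))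
noncomputable def n978 : Strat := .move 963 n261 (.cons 962 n294 (.cons 1004 n306 .nil))
noncomputable def n979 : Strat := .move 799 n214 (.cons 882 n217 (.cons 921 n250 (.cons 758 n191 .nil)))
noncomputable def n980 : Strat := .win 1045 7 880
noncomputable def n981 : Strat := .win 839 6 839
noncomputable def n982 : Strat := .move 880 n980 (.cons 1045 n981 .nil)
noncomputable def n983 : Strat := .move 1004 n205 (.cons 882 n982 .nil)
noncomputable def n984 : Strat := .move 841 n204 (.cons 800 n983 .nil)
noncomputable def n985 : Strat := .move 921 n512 (.cons 799 n984 .nil)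
noncomputable def n986 : Strat := .move 962 n117 (.cons 1003 n985 .nil)
noncomputable def n987 : Strat := .move 963 n774 (.cons 962 n296 (.cons 1005 n986 .nil))
noncomputable def n988 : Strat := .move 799 n281 (.cons 880 n316 (.cons 923 n120 .nil))
noncomputable def n989 : Strat := .move 799 n214 (.cons 921 n250 (.cons 882 n284 (.cons 758 n554 .nil)))
noncomputable def n990 : Strat := .move 921 n464 (.cons 966 n463 .nil)
noncomputable def n991 : Strat := .move 961 n449 (.cons 924 n448 .nil)
noncomputable def n992 : Strat := .move 924 n577 (.cons 961 n576 .nil)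
noncomputable def n993 : Strat := .win 882 6 841
noncomputable def n994 : Strat := .win 1007 0 962
noncomputable def n995 : Strat := .move 1006 n993 (.cons 882 n994 .nil)
noncomputable def n996 : Strat := .move 923 n991 (.cons 960 n992 (.cons 924 n995 .nil))
noncomputable def n997 : Strat := .move 965 n990 (.cons 920 n716 (.cons 966 n996 .nil))
noncomputable def n998 : Strat := .move 841 n204 (.cons 800 n997 .nil)
noncomputable def n999 : Strat := .move 964 n56 (.cons 1005 n998 .nil)
noncomputable def n1000 : Strat := .move 962 n117 (.cons 1003 n999 .nil)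
noncomputable def n1001 : Strat := .move 963 n261 (.cons 800 n256 (.cons 1004 n1000 .nil))
noncomputable def n1002 : Strat := .move 963 n304 (.cons 1005 n306 (.cons 962 n298 (.cons 799 n805 .nil)))
noncomputable def n1003 : Strat := .move 922 n975 (.cons 1005 n976 (.cons 921 n977 (.cons 923 n978 (.cons 841 n979 (.cons 798 n987 (.cons 839 n988 (.cons 963 n989 (.cons 799 n1001 (.cons 882 n1002 .nil)))))))))
noncomputable def n1004 : Strat := .move 922 n70 (.cons 964 n223 (.cons 798 n875 .nil))
noncomputable def n1005 : Strat := .move 880 n183 (.cons 758 n177 .nil)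
noncomputable def n1006 : Strat := .move 839 n176 (.cons 963 n1005 .nil)
noncomputable def n1007 : Strat := .move 798 n47 (.cons 757 n1006 .nil)
noncomputable def n1008 : Strat := .move 921 n30 (.cons 962 n1007 .nil)
noncomputable def n1009 : Strat := .move 922 n189 (.cons 921 n70 (.cons 923 n1008 .nil))
noncomputable def n1010 : Strat := .move 923 n40 (.cons 964 n112 .nil)
noncomputable def n1011 : Strat := .win 880 2 838
noncomputable def n1012 : Strat := .move 883 n1011 (.cons 880 n442 .nil)
noncomputable def n1013 : Strat := .move 838 n129 (.cons 837 n1012 .nil)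
noncomputable def n1014 : Strat := .move 839 n176 (.cons 963 n1013 .nil)
noncomputable def n1015 : Strat := .move 798 n47 (.cons 757 n1014 .nil)
noncomputable def n1016 : Strat := .move 923 n40 (.cons 964 n1015 .nil)
noncomputable def n1017 : Strat := .win 880 4 879
noncomputable def n1018 : Strat := .move 920 n326 (.cons 919 n1017 .nil)
noncomputable def n1019 : Strat := .move 883 n109 (.cons 884 n1018 .nil)
noncomputable def n1020 : Strat := .move 921 n30 (.cons 962 n1019 .nil)
noncomputable def n1021 : Strat := .move 920 n326 (.cons 919 n325 .nil)
noncomputable def n1022 : Strat := .move 921 n30 (.cons 962 n1021 .nil)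
noncomputable def n1023 : Strat := .move 923 n40 (.cons 964 n1022 .nil)
noncomputable def n1024 : Strat := .move 798 n48 (.cons 839 n47 .nil)
noncomputable def n1025 : Strat := .move 963 n117 (.cons 1003 n1024 .nil)
noncomputable def n1026 : Strat := .move 962 n116 (.cons 921 n1025 .nil)
noncomputable def n1027 : Strat := .move 923 n40 (.cons 964 n1026 .nil)
noncomputable def n1028 : Strat := .move 882 n1010 (.cons 921 n1016 (.cons 923 n1020 (.cons 884 n1023 (.cons 883 n1027 .nil))))
noncomputable def n1029 : Strat := .win 880 2 879
noncomputable def n1030 : Strat := .win 878 2 878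
noncomputable def n1031 : Strat := .move 879 n1029 (.cons 880 n1030 .nil)
noncomputable def n1032 : Strat := .win 884 5 880
noncomputable def n1033 : Strat := .win 882 5 879
noncomputable def n1034 : Strat := .move 883 n1032 (.cons 884 n1033 .nil)
noncomputable def n1035 : Strat := .move 924 n1031 (.cons 878 n319 (.cons 880 n1034 .nil))
noncomputable def n1036 : Strat := .win 882 5 878
noncomputable def n1037 : Strat := .win 877 2 877
noncomputable def n1038 : Strat := .win 879 2 878
noncomputable def n1039 : Strat := .move 878 n1037 (.cons 877 n1038 .nil)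
noncomputable def n1040 : Strat := .move 919 n1036 (.cons 882 n1039 .nil)
noncomputable def n1041 : Strat := .win 959 4 918
noncomputable def n1042 : Strat := .win 961 4 919
noncomputable def n1043 : Strat := .move 960 n1041 (.cons 959 n1042 .nil)
noncomputable def n1044 : Strat := .move 919 n1039 (.cons 879 n1043 .nil)
noncomputable def n1045 : Strat := .move 920 n395 (.cons 919 n1035 (.cons 883 n1040 (.cons 882 n1044 .nil)))
noncomputable def n1046 : Strat := .move 923 n40 (.cons 964 n1045 .nil)
noncomputable def n1047 : Strat := .move 921 n30 (.cons 962 n1046 .nil)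
noncomputable def n1048 : Strat := .move 800 n45 (.cons 759 n1047 .nil)
noncomputable def n1049 : Strat := .move 922 n1028 (.cons 798 n1048 (.cons 920 n191 (.cons 921 n70 .nil)))
noncomputable def n1050 : Strat := .move 717 n17 (.cons 675 n22 .nil)
noncomputable def n1051 : Strat := .move 758 n1050 (.cons 757 n33 (.cons 718 n38 .nil))
noncomputable def n1052 : Strat := .win 721 5 717
noncomputable def n1053 : Strat := .win 719 5 716
noncomputable def n1054 : Strat := .move 720 n1052 (.cons 721 n1053 .nil)
noncomputable def n1055 : Strat := .move 761 n878 (.cons 803 n1054 .nil)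
noncomputable def n1056 : Strat := .move 802 n879 (.cons 801 n1055 .nil)
noncomputable def n1057 : Strat := .win 798 4 756
noncomputable def n1058 : Strat := .move 756 n93 (.cons 796 n91 .nil)
noncomputable def n1059 : Strat := .move 797 n1057 (.cons 798 n1058 .nil)
noncomputable def n1060 : Strat := .move 760 n159 (.cons 797 n881 (.cons 798 n1056 (.cons 761 n1059 .nil)))
noncomputable def n1061 : Strat := .move 759 n2 (.cons 718 n1060 .nil)
noncomputable def n1062 : Strat := .move 757 n0 (.cons 716 n1061 .nil)
noncomputable def n1063 : Strat := .move 758 n19 (.cons 880 n1062 (.cons 757 n24 .nil))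
noncomputable def n1064 : Strat := .move 882 n9 (.cons 923 n131 .nil)
noncomputable def n1065 : Strat := .move 839 n128 (.cons 717 n1064 .nil)
noncomputable def n1066 : Strat := .move 880 n7 (.cons 921 n1065 .nil)
noncomputable def n1067 : Strat := .move 758 n24 (.cons 839 n33 (.cons 718 n1066 (.cons 880 n837 .nil)))
noncomputable def n1068 : Strat := .move 882 n108 (.cons 758 n1013 .nil)
noncomputable def n1069 : Strat := .move 839 n176 (.cons 963 n1068 .nil)
noncomputable def n1070 : Strat := .move 798 n47 (.cons 757 n1069 .nil)
noncomputable def n1071 : Strat := .move 923 n40 (.cons 964 n1070 .nil)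
noncomputable def n1072 : Strat := .win 961 1 797
noncomputable def n1073 : Strat := .move 920 n1072 (.cons 961 n636 .nil)
noncomputable def n1074 : Strat := .move 880 n183 (.cons 758 n1073 .nil)
noncomputable def n1075 : Strat := .move 839 n176 (.cons 963 n1074 .nil)
noncomputable def n1076 : Strat := .move 798 n47 (.cons 757 n1075 .nil)
noncomputable def n1077 : Strat := .move 921 n30 (.cons 962 n1076 .nil)
noncomputable def n1078 : Strat := .move 922 n635 (.cons 921 n1071 (.cons 923 n1077 (.cons 758 n191 .nil)))
noncomputable def n1079 : Strat := .move 799 n25 (.cons 921 n1004 (.cons 718 n1009 (.cons 758 n1049 (.cons 839 n1051 (.cons 922 n1063 (.cons 757 n1067 (.cons 759 n1078 .nil)))))))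
noncomputable def n1080 : Strat := .move 799 n281 (.cons 758 n59 (.cons 923 n120 .nil))
noncomputable def n1081 : Strat := .move 963 n261 (.cons 882 n728 (.cons 962 n296 .nil))
noncomputable def n1082 : Strat := .move 799 n284 (.cons 962 n343 (.cons 759 n217 .nil))
noncomputable def n1083 : Strat := .move 921 n30 (.cons 962 n633 .nil)
noncomputable def n1084 : Strat := .move 923 n40 (.cons 964 n1083 .nil)
noncomputable def n1085 : Strat := .move 882 n326 (.cons 919 n325 .nil)
noncomputable def n1086 : Strat := .move 919 n1037 (.cons 877 n1043 .nil)
noncomputable def n1087 : Strat := .move 878 n1038 (.cons 879 n1086 .nil)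
noncomputable def n1088 : Strat := .move 924 n1032 (.cons 884 n385 .nil)
noncomputable def n1089 : Strat := .move 883 n1033 (.cons 882 n1088 .nil)
noncomputable def n1090 : Strat := .move 920 n1085 (.cons 882 n1087 (.cons 919 n1089 .nil))
noncomputable def n1091 : Strat := .move 921 n30 (.cons 962 n1090 .nil)
noncomputable def n1092 : Strat := .move 923 n40 (.cons 964 n1091 .nil)
noncomputable def n1093 : Strat := .move 799 n1084 (.cons 923 n217 (.cons 880 n250 (.cons 758 n1092 .nil)))
noncomputable def n1094 : Strat := .move 1005 n253 (.cons 1046 n252 .nil)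
noncomputable def n1095 : Strat := .move 1004 n796 (.cons 962 n1094 .nil)
noncomputable def n1096 : Strat := .move 758 n0 (.cons 716 n1095 .nil)
noncomputable def n1097 : Strat := .move 757 n1 (.cons 798 n1096 .nil)
noncomputable def n1098 : Strat := .move 963 n46 (.cons 841 n1097 .nil)
noncomputable def n1099 : Strat := .move 800 n45 (.cons 759 n1098 .nil)
noncomputable def n1100 : Strat := .move 799 n316 (.cons 923 n1099 (.cons 800 n250 (.cons 758 n59 (.cons 964 n343 .nil))))
noncomputable def n1101 : Strat := .move 799 n316 (.cons 923 n343 (.cons 800 n250 .nil))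
noncomputable def n1102 : Strat := .move 922 n1080 (.cons 799 n1081 (.cons 964 n1082 (.cons 800 n1093 (.cons 921 n1100 (.cons 962 n1101 .nil)))))
noncomputable def n1103 : Strat := .move 879 n237 (.cons 842 n432 .nil)
noncomputable def n1104 : Strat := .win 879 5 838
noncomputable def n1105 : Strat := .move 842 n1104 (.cons 879 n267 .nil)
noncomputable def n1106 : Strat := .win 800 6 759
noncomputable def n1107 : Strat := .move 924 n1106 (.cons 800 n234 .nil)
noncomputable def n1108 : Strat := .move 841 n1103 (.cons 878 n1105 (.cons 842 n1107 .nil))
noncomputable def n1109 : Strat := .move 883 n687 (.cons 884 n1108 .nil)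
noncomputable def n1110 : Strat := .move 759 n2 (.cons 718 n1109 .nil)
noncomputable def n1111 : Strat := .move 880 n7 (.cons 921 n1110 .nil)
noncomputable def n1112 : Strat := .move 882 n9 (.cons 923 n1111 .nil)
noncomputable def n1113 : Strat := .move 758 n35 (.cons 882 n24 (.cons 718 n913 (.cons 717 n1112 .nil)))
noncomputable def n1114 : Strat := .move 841 n432 (.cons 878 n237 .nil)
noncomputable def n1115 : Strat := .win 836 2 836
noncomputable def n1116 : Strat := .win 838 2 837
noncomputable def n1117 : Strat := .move 837 n1115 (.cons 836 n1116 .nil)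
noncomputable def n1118 : Strat := .move 878 n243 (.cons 841 n1117 .nil)
noncomputable def n1119 : Strat := .win 918 4 877
noncomputable def n1120 : Strat := .win 920 4 878
noncomputable def n1121 : Strat := .move 919 n1119 (.cons 918 n1120 .nil)
noncomputable def n1122 : Strat := .move 878 n1115 (.cons 836 n1121 .nil)
noncomputable def n1123 : Strat := .move 837 n1116 (.cons 838 n1122 .nil)
noncomputable def n1124 : Strat := .win 841 5 838
noncomputable def n1125 : Strat := .win 843 5 839
noncomputable def n1126 : Strat := .win 839 2 838
noncomputable def n1127 : Strat := .win 837 2 837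
noncomputable def n1128 : Strat := .move 838 n1126 (.cons 839 n1127 .nil)
noncomputable def n1129 : Strat := .move 883 n1125 (.cons 843 n1128 .nil)
noncomputable def n1130 : Strat := .move 842 n1124 (.cons 841 n1129 .nil)
noncomputable def n1131 : Strat := .move 879 n1114 (.cons 842 n1118 (.cons 841 n1123 (.cons 878 n1130 .nil)))
noncomputable def n1132 : Strat := .move 882 n9 (.cons 923 n1131 .nil)
noncomputable def n1133 : Strat := .move 880 n7 (.cons 921 n1132 .nil)
noncomputable def n1134 : Strat := .move 758 n170 (.cons 839 n35 (.cons 882 n24 (.cons 717 n1133 .nil)))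
noncomputable def n1135 : Strat := .move 757 n0 (.cons 716 n968 .nil)
noncomputable def n1136 : Strat := .move 800 n649 (.cons 922 n1135 .nil)
noncomputable def n1137 : Strat := .move 759 n2 (.cons 718 n1136 .nil)
noncomputable def n1138 : Strat := .move 758 n24 (.cons 921 n1137 (.cons 718 n19 .nil))
noncomputable def n1139 : Strat := .move 758 n35 (.cons 923 n1137 (.cons 759 n64 .nil))
noncomputable def n1140 : Strat := .move 883 n1125 (.cons 843 n687 .nil)
noncomputable def n1141 : Strat := .move 842 n1124 (.cons 841 n1140 .nil)
noncomputable def n1142 : Strat := .move 879 n1114 (.cons 842 n1118 (.cons 841 n1123 (.cons 878 n1141 .nil)))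
noncomputable def n1143 : Strat := .move 880 n7 (.cons 921 n1142 .nil)
noncomputable def n1144 : Strat := .move 882 n9 (.cons 923 n1143 .nil)
noncomputable def n1145 : Strat := .move 758 n674 (.cons 921 n64 (.cons 882 n19 (.cons 717 n1144 .nil)))
noncomputable def n1146 : Strat := .move 757 n0 (.cons 716 n882 .nil)
noncomputable def n1147 : Strat := .move 800 n649 (.cons 922 n1146 .nil)
noncomputable def n1148 : Strat := .move 759 n2 (.cons 718 n1147 .nil)
noncomputable def n1149 : Strat := .move 880 n7 (.cons 921 n1148 .nil)
noncomputable def n1150 : Strat := .move 882 n9 (.cons 923 n1149 .nil)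
noncomputable def n1151 : Strat := .move 758 n1150 (.cons 759 n1144 (.cons 882 n33 (.cons 880 n837 .nil)))
noncomputable def n1152 : Strat := .win 963 1 799
noncomputable def n1153 : Strat := .move 841 n1152 (.cons 963 n378 .nil)
noncomputable def n1154 : Strat := .move 800 n45 (.cons 759 n1153 .nil)
noncomputable def n1155 : Strat := .move 923 n40 (.cons 964 n1154 .nil)
noncomputable def n1156 : Strat := .move 882 n1010 (.cons 921 n1155 (.cons 964 n1020 .nil))
noncomputable def n1157 : Strat := .move 800 n119 (.cons 841 n1047 (.cons 921 n58 .nil))
noncomputable def n1158 : Strat := .move 920 n1085 (.cons 883 n1040 (.cons 882 n1087 (.cons 919 n1089 .nil)))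
noncomputable def n1159 : Strat := .move 921 n30 (.cons 962 n1158 .nil)
noncomputable def n1160 : Strat := .move 923 n40 (.cons 964 n1159 .nil)
noncomputable def n1161 : Strat := .move 922 n1156 (.cons 923 n120 (.cons 921 n59 (.cons 759 n1157 (.cons 841 n1048 (.cons 800 n1160 .nil)))))
noncomputable def n1162 : Strat := .move 799 n36 (.cons 922 n1113 (.cons 800 n1134 (.cons 923 n1138 (.cons 921 n1139 (.cons 759 n1145 (.cons 717 n1151 (.cons 758 n1161 .nil)))))))
noncomputable def n1163 : Strat := .move 963 n294 (.cons 1004 n346 (.cons 841 n298 .nil))
noncomputable def n1164 : Strat := .move 799 n250 (.cons 882 n740 (.cons 798 n316 .nil))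
noncomputable def n1165 : Strat := .move 963 n256 (.cons 798 n581 (.cons 1005 n438 .nil))
noncomputable def n1166 : Strat := .move 882 n129 (.cons 837 n262 .nil)
noncomputable def n1167 : Strat := .win 879 4 837
noncomputable def n1168 : Strat := .win 877 4 836
noncomputable def n1169 : Strat := .win 795 2 795
noncomputable def n1170 : Strat := .win 797 2 796
noncomputable def n1171 : Strat := .move 796 n1169 (.cons 795 n1170 .nil)
noncomputable def n1172 : Strat := .move 837 n1168 (.cons 877 n1171 .nil)
noncomputable def n1173 : Strat := .move 878 n1167 (.cons 879 n1172 .nil)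
noncomputable def n1174 : Strat := .win 882 0 838
noncomputable def n1175 : Strat := .win 884 0 839
noncomputable def n1176 : Strat := .move 842 n1175 (.cons 884 n594 .nil)
noncomputable def n1177 : Strat := .move 883 n1174 (.cons 882 n1176 .nil)
noncomputable def n1178 : Strat := .move 838 n1166 (.cons 882 n1173 (.cons 837 n1177 .nil))
noncomputable def n1179 : Strat := .move 839 n202 (.cons 798 n1178 .nil)
noncomputable def n1180 : Strat := .move 841 n204 (.cons 800 n1179 .nil)
noncomputable def n1181 : Strat := .move 963 n816 (.cons 841 n438 (.cons 880 n261 (.cons 1004 n1180 .nil)))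
noncomputable def n1182 : Strat := .move 963 n296 (.cons 841 n581 (.cons 964 n261 .nil))
noncomputable def n1183 : Strat := .move 922 n1163 (.cons 963 n1164 (.cons 800 n1165 (.cons 964 n1181 (.cons 839 n1100 (.cons 798 n1182 .nil)))))
noncomputable def n1184 : Strat := .move 882 n10 (.cons 841 n26 .nil)
noncomputable def n1185 : Strat := .move 717 n17 (.cons 757 n1184 .nil)
noncomputable def n1186 : Strat := .move 758 n1185 (.cons 921 n663 (.cons 757 n24 .nil))
noncomputable def n1187 : Strat := .move 801 n883 (.cons 802 n651 .nil)
noncomputable def n1188 : Strat := .move 800 n882 (.cons 755 n1187 (.cons 801 n886 .nil))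
noncomputable def n1189 : Strat := .move 760 n159 (.cons 761 n1188 .nil)
noncomputable def n1190 : Strat := .move 757 n0 (.cons 716 n1189 .nil)
noncomputable def n1191 : Strat := .move 759 n2 (.cons 718 n1190 .nil)
noncomputable def n1192 : Strat := .win 800 0 756
noncomputable def n1193 : Strat := .move 801 n883 (.cons 802 n1192 .nil)
noncomputable def n1194 : Strat := .move 797 n1057 (.cons 798 n93 .nil)
noncomputable def n1195 : Strat := .move 760 n1193 (.cons 800 n1194 .nil)
noncomputable def n1196 : Strat := .win 713 2 713
noncomputable def n1197 : Strat := .win 715 2 714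
noncomputable def n1198 : Strat := .move 714 n1196 (.cons 713 n1197 .nil)
noncomputable def n1199 : Strat := .move 755 n666 (.cons 800 n1198 .nil)
noncomputable def n1200 : Strat := .win 795 4 754
noncomputable def n1201 : Strat := .win 797 4 755
noncomputable def n1202 : Strat := .move 796 n1200 (.cons 795 n1201 .nil)
noncomputable def n1203 : Strat := .move 755 n1198 (.cons 715 n1202 .nil)
noncomputable def n1204 : Strat := .move 756 n91 (.cons 755 n1195 (.cons 801 n1199 (.cons 800 n1203 .nil)))
noncomputable def n1205 : Strat := .move 759 n2 (.cons 718 n1204 .nil)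
noncomputable def n1206 : Strat := .move 757 n0 (.cons 716 n1205 .nil)
noncomputable def n1207 : Strat := .move 882 n63 (.cons 717 n1191 (.cons 757 n34 (.cons 841 n1206 .nil)))
noncomputable def n1208 : Strat := .move 758 n24 (.cons 921 n1207 (.cons 759 n19 (.cons 717 n105 .nil)))
noncomputable def n1209 : Strat := .move 922 n120 (.cons 800 n217 (.cons 921 n1099 (.cons 962 n343 .nil)))
noncomputable def n1210 : Strat := .move 922 n312 (.cons 963 n488 (.cons 757 n120 (.cons 800 n191 .nil)))
noncomputable def n1211 : Strat := .move 1004 n205 (.cons 882 n796 .nil)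
noncomputable def n1212 : Strat := .move 841 n204 (.cons 800 n1211 .nil)
noncomputable def n1213 : Strat := .move 963 n48 (.cons 839 n1212 .nil)
noncomputable def n1214 : Strat := .move 798 n47 (.cons 757 n1213 .nil)
noncomputable def n1215 : Strat := .win 798 6 798
noncomputable def n1216 : Strat := .move 839 n1215 (.cons 798 n422 .nil)
noncomputable def n1217 : Strat := .win 839 7 839
noncomputable def n1218 : Strat := .move 1004 n980 (.cons 1045 n1217 .nil)
noncomputable def n1219 : Strat := .move 800 n46 (.cons 841 n1218 .nil)
noncomputable def n1220 : Strat := .move 1004 n205 (.cons 882 n980 .nil)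
noncomputable def n1221 : Strat := .move 841 n204 (.cons 800 n1220 .nil)
noncomputable def n1222 : Strat := .move 841 n204 (.cons 800 n809 .nil)
noncomputable def n1223 : Strat := .move 839 n1215 (.cons 798 n1222 .nil)
noncomputable def n1224 : Strat := .move 963 n1216 (.cons 798 n1219 (.cons 839 n1221 (.cons 1004 n1223 .nil)))
noncomputable def n1225 : Strat := .move 880 n183 (.cons 758 n1224 .nil)
noncomputable def n1226 : Strat := .move 921 n30 (.cons 962 n1225 .nil)
noncomputable def n1227 : Strat := .move 883 n109 (.cons 884 n228 .nil)
noncomputable def n1228 : Strat := .move 963 n193 (.cons 1004 n204 .nil)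
noncomputable def n1229 : Strat := .move 841 n1228 (.cons 800 n1103 .nil)
noncomputable def n1230 : Strat := .move 883 n109 (.cons 884 n1229 .nil)
noncomputable def n1231 : Strat := .move 920 n326 (.cons 919 n230 .nil)
noncomputable def n1232 : Strat := .win 920 5 878
noncomputable def n1233 : Strat := .move 919 n1232 (.cons 920 n1229 .nil)
noncomputable def n1234 : Strat := .move 882 n1227 (.cons 920 n1230 (.cons 884 n1231 (.cons 883 n1233 .nil)))
noncomputable def n1235 : Strat := .move 880 n183 (.cons 758 n1234 .nil)
noncomputable def n1236 : Strat := .move 921 n30 (.cons 962 n1235 .nil)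
noncomputable def n1237 : Strat := .move 1004 n205 (.cons 882 n1094 .nil)
noncomputable def n1238 : Strat := .move 841 n204 (.cons 800 n1237 .nil)
noncomputable def n1239 : Strat := .move 963 n48 (.cons 839 n1238 .nil)
noncomputable def n1240 : Strat := .move 798 n47 (.cons 757 n1239 .nil)
noncomputable def n1241 : Strat := .move 922 n191 (.cons 921 n1214 (.cons 757 n1226 (.cons 963 n646 (.cons 798 n1236 (.cons 962 n1240 .nil)))))
noncomputable def n1242 : Strat := .move 839 n401 (.cons 880 n402 .nil)
noncomputable def n1243 : Strat := .move 717 n1242 (.cons 839 n22 .nil)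
noncomputable def n1244 : Strat := .move 798 n141 (.cons 922 n1243 .nil)
noncomputable def n1245 : Strat := .move 757 n0 (.cons 716 n1244 .nil)
noncomputable def n1246 : Strat := .win 882 6 717
noncomputable def n1247 : Strat := .win 676 6 676
noncomputable def n1248 : Strat := .move 841 n1246 (.cons 882 n1247 .nil)
noncomputable def n1249 : Strat := .move 880 n8 (.cons 839 n939 .nil)
noncomputable def n1250 : Strat := .win 798 1 675
noncomputable def n1251 : Strat := .move 676 n1250 (.cons 798 n938 .nil)
noncomputable def n1252 : Strat := .move 839 n401 (.cons 880 n1251 .nil)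
noncomputable def n1253 : Strat := .win 801 5 797
noncomputable def n1254 : Strat := .move 838 n1253 (.cons 801 n219 .nil)
noncomputable def n1255 : Strat := .move 839 n401 (.cons 880 n1254 .nil)
noncomputable def n1256 : Strat := .move 841 n1246 (.cons 882 n1255 .nil)
noncomputable def n1257 : Strat := .move 717 n1248 (.cons 882 n1249 (.cons 841 n1252 (.cons 676 n1256 .nil)))
noncomputable def n1258 : Strat := .move 800 n649 (.cons 922 n1257 .nil)
noncomputable def n1259 : Strat := .move 759 n2 (.cons 718 n1258 .nil)
noncomputable def n1260 : Strat := .move 882 n10 (.cons 841 n947 .nil)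
noncomputable def n1261 : Strat := .win 800 6 676
noncomputable def n1262 : Strat := .move 676 n1261 (.cons 800 n946 .nil)
noncomputable def n1263 : Strat := .move 841 n1246 (.cons 882 n1262 .nil)
noncomputable def n1264 : Strat := .win 797 2 797
noncomputable def n1265 : Strat := .move 842 n1264 (.cons 797 n339 .nil)
noncomputable def n1266 : Strat := .move 841 n1246 (.cons 882 n1265 .nil)
noncomputable def n1267 : Strat := .move 839 n401 (.cons 880 n1266 .nil)
noncomputable def n1268 : Strat := .move 717 n1242 (.cons 880 n1260 (.cons 839 n1263 (.cons 676 n1267 .nil)))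
noncomputable def n1269 : Strat := .move 798 n141 (.cons 922 n1268 .nil)
noncomputable def n1270 : Strat := .move 757 n0 (.cons 716 n1269 .nil)
noncomputable def n1271 : Strat := .move 758 n663 (.cons 760 n1245 (.cons 757 n1259 (.cons 759 n1270 (.cons 798 n1137 (.cons 922 n1207 .nil)))))
noncomputable def n1272 : Strat := .win 798 2 798
noncomputable def n1273 : Strat := .win 844 2 799
noncomputable def n1274 : Strat := .move 843 n1272 (.cons 798 n1273 .nil)
noncomputable def n1275 : Strat := .move 798 n338 (.cons 797 n339 .nil)
noncomputable def n1276 : Strat := .win 838 5 797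
noncomputable def n1277 : Strat := .move 801 n1276 (.cons 838 n77 .nil)
noncomputable def n1278 : Strat := .win 798 0 797
noncomputable def n1279 : Strat := .move 838 n271 (.cons 796 n219 .nil)
noncomputable def n1280 : Strat := .move 797 n1278 (.cons 798 n1279 .nil)
noncomputable def n1281 : Strat := .move 758 n128 (.cons 717 n7 .nil)
noncomputable def n1282 : Strat := .move 880 n268 (.cons 879 n1281 .nil)
noncomputable def n1283 : Strat := .move 839 n1254 (.cons 837 n1277 (.cons 801 n1280 (.cons 838 n1282 .nil)))
noncomputable def n1284 : Strat := .move 843 n1273 (.cons 844 n587 .nil)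
noncomputable def n1285 : Strat := .move 842 n1274 (.cons 844 n1275 (.cons 843 n1283 (.cons 798 n1284 .nil)))
noncomputable def n1286 : Strat := .move 841 n238 (.cons 963 n1285 .nil)
noncomputable def n1287 : Strat := .move 800 n45 (.cons 759 n1286 .nil)
noncomputable def n1288 : Strat := .move 1004 n203 (.cons 880 n1094 .nil)
noncomputable def n1289 : Strat := .move 839 n202 (.cons 798 n1288 .nil)
noncomputable def n1290 : Strat := .move 963 n117 (.cons 1003 n1289 .nil)
noncomputable def n1291 : Strat := .move 962 n116 (.cons 921 n1290 .nil)
noncomputable def n1292 : Strat := .move 922 n120 (.cons 921 n800 (.cons 759 n1226 (.cons 963 n284 (.cons 962 n1287 (.cons 800 n1291 .nil)))))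
noncomputable def n1293 : Strat := .move 799 n1186 (.cons 922 n1208 (.cons 798 n1138 (.cons 839 n1209 (.cons 880 n1210 (.cons 759 n1241 (.cons 921 n1271 (.cons 757 n1292 .nil)))))))
noncomputable def n1294 : Strat := .move 799 n357 (.cons 798 n284 (.cons 800 n217 .nil))
noncomputable def n1295 : Strat := .move 963 n208 (.cons 841 n438 (.cons 798 n261 (.cons 1004 n277 .nil)))
noncomputable def n1296 : Strat := .move 880 n981 (.cons 839 n980 .nil)
noncomputable def n1297 : Strat := .move 841 n205 (.cons 882 n763 .nil)
noncomputable def n1298 : Strat := .win 841 3 840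
noncomputable def n1299 : Strat := .win 923 3 881
noncomputable def n1300 : Strat := .move 1045 n1299 (.cons 923 n761 .nil)
noncomputable def n1301 : Strat := .move 882 n1298 (.cons 841 n1300 .nil)
noncomputable def n1302 : Strat := .move 882 n1298 (.cons 841 n229 .nil)
noncomputable def n1303 : Strat := .move 880 n981 (.cons 839 n1302 .nil)
noncomputable def n1304 : Strat := .move 1004 n1296 (.cons 839 n1297 (.cons 880 n1301 (.cons 1045 n1303 .nil)))
noncomputable def n1305 : Strat := .move 921 n512 (.cons 799 n1304 .nil)
noncomputable def n1306 : Strat := .move 962 n117 (.cons 1003 n1305 .nil)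
noncomputable def n1307 : Strat := .win 921 7 880
noncomputable def n1308 : Strat := .move 1045 n1307 (.cons 921 n530 .nil)
noncomputable def n1309 : Strat := .move 880 n1217 (.cons 839 n1308 .nil)
noncomputable def n1310 : Strat := .move 1004 n205 (.cons 882 n1309 .nil)
noncomputable def n1311 : Strat := .move 841 n204 (.cons 800 n1310 .nil)
noncomputable def n1312 : Strat := .win 839 2 839
noncomputable def n1313 : Strat := .win 885 2 840
noncomputable def n1314 : Strat := .move 884 n1312 (.cons 839 n1313 .nil)
noncomputable def n1315 : Strat := .move 839 n443 (.cons 838 n442 .nil)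
noncomputable def n1316 : Strat := .win 839 0 838
noncomputable def n1317 : Strat := .move 879 n1127 (.cons 837 n432 .nil)
noncomputable def n1318 : Strat := .move 838 n1316 (.cons 839 n1317 .nil)
noncomputable def n1319 : Strat := .move 799 n183 (.cons 758 n30 .nil)
noncomputable def n1320 : Strat := .move 921 n228 (.cons 920 n1319 .nil)
noncomputable def n1321 : Strat := .move 880 n1103 (.cons 878 n1105 (.cons 842 n1318 (.cons 879 n1320 .nil)))
noncomputable def n1322 : Strat := .win 921 4 880
noncomputable def n1323 : Strat := .move 884 n1313 (.cons 885 n1322 .nil)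
noncomputable def n1324 : Strat := .move 883 n1314 (.cons 885 n1315 (.cons 884 n1321 (.cons 839 n1323 .nil)))
noncomputable def n1325 : Strat := .move 882 n193 (.cons 1004 n1324 .nil)
noncomputable def n1326 : Strat := .move 841 n204 (.cons 800 n1325 .nil)
noncomputable def n1327 : Strat := .move 1045 n1307 (.cons 921 n533 .nil)
noncomputable def n1328 : Strat := .move 880 n1217 (.cons 839 n1327 .nil)
noncomputable def n1329 : Strat := .move 1004 n258 (.cons 1044 n1328 .nil)
noncomputable def n1330 : Strat := .move 1003 n257 (.cons 962 n1329 .nil)
noncomputable def n1331 : Strat := .move 963 n261 (.cons 800 n1306 (.cons 1004 n301 (.cons 962 n1311 (.cons 1003 n1326 (.cons 841 n1330 .nil)))))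
noncomputable def n1332 : Strat := .move 717 n10 (.cons 841 n520 .nil)
noncomputable def n1333 : Strat := .move 882 n9 (.cons 923 n1332 .nil)
noncomputable def n1334 : Strat := .move 758 n29 (.cons 880 n1333 .nil)
noncomputable def n1335 : Strat := .move 921 n30 (.cons 962 n1334 .nil)
noncomputable def n1336 : Strat := .move 842 n339 (.cons 843 n1264 .nil)
noncomputable def n1337 : Strat := .win 797 0 796
noncomputable def n1338 : Strat := .move 758 n158 (.cons 717 n9 .nil)
noncomputable def n1339 : Strat := .move 882 n603 (.cons 837 n539 (.cons 883 n1338 .nil))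
noncomputable def n1340 : Strat := .move 796 n1337 (.cons 797 n1339 .nil)
noncomputable def n1341 : Strat := .move 883 n443 (.cons 838 n1175 .nil)
noncomputable def n1342 : Strat := .move 882 n603 (.cons 837 n1341 (.cons 883 n1338 .nil))
noncomputable def n1343 : Strat := .move 842 n339 (.cons 843 n1342 .nil)
noncomputable def n1344 : Strat := .move 841 n1336 (.cons 842 n1340 (.cons 797 n1343 .nil))
noncomputable def n1345 : Strat := .move 839 n176 (.cons 963 n1344 .nil)
noncomputable def n1346 : Strat := .move 798 n47 (.cons 757 n1345 .nil)
noncomputable def n1347 : Strat := .move 799 n217 (.cons 798 n1335 (.cons 962 n901 (.cons 880 n191 (.cons 921 n1346 .nil))))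
noncomputable def n1348 : Strat := .move 882 n9 (.cons 923 n158 .nil)
noncomputable def n1349 : Strat := .move 717 n8 (.cons 839 n1247 .nil)
noncomputable def n1350 : Strat := .move 880 n7 (.cons 921 n1349 .nil)
noncomputable def n1351 : Strat := .move 880 n7 (.cons 921 n1103 .nil)
noncomputable def n1352 : Strat := .move 882 n9 (.cons 923 n1351 .nil)
noncomputable def n1353 : Strat := .move 758 n1348 (.cons 882 n1350 (.cons 717 n1352 .nil))
noncomputable def n1354 : Strat := .move 841 n238 (.cons 963 n1353 .nil)
noncomputable def n1355 : Strat := .move 800 n45 (.cons 759 n1354 .nil)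
noncomputable def n1356 : Strat := .move 800 n45 (.cons 759 n84 .nil)
noncomputable def n1357 : Strat := .move 798 n47 (.cons 757 n1356 .nil)
noncomputable def n1358 : Strat := .move 797 n73 (.cons 796 n865 (.cons 842 n504 .nil))
noncomputable def n1359 : Strat := .move 801 n483 (.cons 802 n1358 (.cons 838 n561 (.cons 839 n867 .nil)))
noncomputable def n1360 : Strat := .move 798 n47 (.cons 757 n1359 .nil)
noncomputable def n1361 : Strat := .move 800 n45 (.cons 759 n1360 .nil)
noncomputable def n1362 : Strat := .move 921 n283 (.cons 759 n640 (.cons 758 n1357 (.cons 880 n1361 .nil)))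
noncomputable def n1363 : Strat := .move 799 n357 (.cons 800 n901 (.cons 798 n1355 (.cons 839 n343 (.cons 963 n1362 .nil))))
noncomputable def n1364 : Strat := .move 921 n30 (.cons 962 n1361 .nil)
noncomputable def n1365 : Strat := .move 882 n10 (.cons 841 n9 .nil)
noncomputable def n1366 : Strat := .move 717 n1242 (.cons 676 n1365 .nil)
noncomputable def n1367 : Strat := .move 797 n659 (.cons 796 n1366 .nil)
noncomputable def n1368 : Strat := .move 758 n2 (.cons 718 n1367 .nil)
noncomputable def n1369 : Strat := .move 759 n3 (.cons 800 n1368 .nil)
noncomputable def n1370 : Strat := .move 798 n47 (.cons 757 n1369 .nil)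
noncomputable def n1371 : Strat := .move 799 n284 (.cons 759 n641 (.cons 758 n87 (.cons 962 n1362 (.cons 880 n1364 (.cons 921 n1370 .nil)))))
noncomputable def n1372 : Strat := .move 922 n1294 (.cons 799 n1295 (.cons 839 n1082 (.cons 880 n543 (.cons 921 n1181 (.cons 798 n1331 (.cons 800 n1347 (.cons 962 n1363 (.cons 963 n1371 .nil))))))))
noncomputable def n1373 : Strat := .move 963 n518 (.cons 962 n256 (.cons 964 n438 .nil))
noncomputable def n1374 : Strat := .move 799 n214 (.cons 923 n217 (.cons 962 n250 (.cons 758 n554 .nil)))
noncomputable def n1375 : Strat := .move 799 n54 (.cons 964 n901 (.cons 758 n70 (.cons 798 n905 (.cons 923 n907 .nil))))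
noncomputable def n1376 : Strat := .win 841 1 840
noncomputable def n1377 : Strat := .win 1045 3 881
noncomputable def n1378 : Strat := .move 882 n1376 (.cons 841 n1377 .nil)
noncomputable def n1379 : Strat := .move 1045 n1307 (.cons 921 n819 .nil)
noncomputable def n1380 : Strat := .move 880 n1217 (.cons 839 n1379 .nil)
noncomputable def n1381 : Strat := .move 879 n783 (.cons 924 n184 .nil)
noncomputable def n1382 : Strat := .move 880 n1217 (.cons 839 n1381 .nil)
noncomputable def n1383 : Strat := .move 882 n1376 (.cons 841 n1382 .nil)
noncomputable def n1384 : Strat := .move 1004 n1378 (.cons 882 n1380 (.cons 1045 n1383 .nil))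
noncomputable def n1385 : Strat := .move 923 n493 (.cons 799 n1384 .nil)
noncomputable def n1386 : Strat := .move 964 n56 (.cons 1005 n1385 .nil)
noncomputable def n1387 : Strat := .move 964 n56 (.cons 1005 n750 .nil)
noncomputable def n1388 : Strat := .move 962 n117 (.cons 1003 n1387 .nil)
noncomputable def n1389 : Strat := .move 920 n721 (.cons 921 n722 .nil)
noncomputable def n1390 : Strat := .move 961 n1389 (.cons 919 n723 .nil)
noncomputable def n1391 : Strat := .move 925 n718 (.cons 926 n717 .nil)
noncomputable def n1392 : Strat := .move 966 n715 (.cons 1006 n1391 .nil)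
noncomputable def n1393 : Strat := .move 965 n465 (.cons 966 n1390 (.cons 920 n716 (.cons 921 n1392 .nil)))
noncomputable def n1394 : Strat := .move 962 n117 (.cons 1003 n1393 .nil)
noncomputable def n1395 : Strat := .move 964 n56 (.cons 1005 n1394 .nil)
noncomputable def n1396 : Strat := .move 839 n255 (.cons 1005 n430 (.cons 1004 n1388 (.cons 880 n1395 .nil)))
noncomputable def n1397 : Strat := .move 963 n518 (.cons 964 n1306 (.cons 962 n1386 (.cons 921 n581 (.cons 799 n1396 .nil))))
noncomputable def n1398 : Strat := .move 839 n202 (.cons 798 n1395 .nil)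
noncomputable def n1399 : Strat := .win 960 0 960
noncomputable def n1400 : Strat := .move 882 n1299 (.cons 923 n1298 .nil)
noncomputable def n1401 : Strat := .move 921 n761 (.cons 1086 n762 .nil)
noncomputable def n1402 : Strat := .move 1045 n1400 (.cons 841 n1401 .nil)
noncomputable def n1403 : Strat := .move 961 n1399 (.cons 960 n1402 .nil)
noncomputable def n1404 : Strat := .move 1004 n253 (.cons 1046 n1403 .nil)
noncomputable def n1405 : Strat := .move 1005 n252 (.cons 964 n1404 .nil)
noncomputable def n1406 : Strat := .move 962 n117 (.cons 1003 n1405 .nil)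
noncomputable def n1407 : Strat := .move 963 n256 (.cons 1005 n431 (.cons 1004 n753 (.cons 798 n1396 (.cons 880 n1398 (.cons 839 n1406 .nil)))))
noncomputable def n1408 : Strat := .move 922 n1373 (.cons 963 n1374 (.cons 921 n1165 (.cons 880 n527 (.cons 839 n1093 (.cons 962 n1375 (.cons 964 n1347 (.cons 798 n1397 (.cons 799 n1407 .nil))))))))
noncomputable def n1409 : Strat := .win 841 0 838
noncomputable def n1410 : Strat := .move 838 n129 (.cons 837 n1409 .nil)
noncomputable def n1411 : Strat := .move 883 n442 (.cons 884 n1410 .nil)
noncomputable def n1412 : Strat := .win 716 6 716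
noncomputable def n1413 : Strat := .move 757 n135 (.cons 922 n1412 .nil)
noncomputable def n1414 : Strat := .move 798 n1264 (.cons 797 n1413 .nil)
noncomputable def n1415 : Strat := .move 841 n268 (.cons 879 n1414 .nil)
noncomputable def n1416 : Strat := .move 842 n1125 (.cons 843 n1415 .nil)
noncomputable def n1417 : Strat := .win 921 4 879
noncomputable def n1418 : Strat := .move 924 n233 (.cons 923 n234 .nil)
noncomputable def n1419 : Strat := .move 879 n231 (.cons 919 n1418 .nil)
noncomputable def n1420 : Strat := .move 920 n1417 (.cons 921 n1419 .nil)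
noncomputable def n1421 : Strat := .win 964 1 800
noncomputable def n1422 : Strat := .win 760 1 759
noncomputable def n1423 : Strat := .move 923 n1421 (.cons 964 n1422 .nil)
noncomputable def n1424 : Strat := .win 761 3 760
noncomputable def n1425 : Strat := .win 841 5 798
noncomputable def n1426 : Strat := .move 802 n1424 (.cons 761 n1425 .nil)
noncomputable def n1427 : Strat := .move 801 n1423 (.cons 760 n1426 .nil)
noncomputable def n1428 : Strat := .move 924 n234 (.cons 925 n1427 .nil)
noncomputable def n1429 : Strat := .move 842 n1125 (.cons 843 n1428 .nil)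
noncomputable def n1430 : Strat := .move 880 n1416 (.cons 841 n1420 (.cons 879 n1429 .nil))
noncomputable def n1431 : Strat := .move 883 n442 (.cons 884 n1430 .nil)
noncomputable def n1432 : Strat := .move 880 n686 (.cons 838 n1420 .nil)
noncomputable def n1433 : Strat := .move 883 n442 (.cons 884 n1432 .nil)
noncomputable def n1434 : Strat := .win 921 6 756
noncomputable def n1435 : Strat := .win 715 6 715
noncomputable def n1436 : Strat := .move 756 n1434 (.cons 921 n1435 .nil)
noncomputable def n1437 : Strat := .move 797 n271 (.cons 796 n1436 .nil)
noncomputable def n1438 : Strat := .move 880 n264 (.cons 842 n1437 .nil)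
noncomputable def n1439 : Strat := .move 879 n265 (.cons 878 n1438 .nil)
noncomputable def n1440 : Strat := .move 922 n239 (.cons 759 n238 .nil)
noncomputable def n1441 : Strat := .move 800 n1253 (.cons 801 n1440 .nil)
noncomputable def n1442 : Strat := .move 841 n1439 (.cons 879 n1441 .nil)
noncomputable def n1443 : Strat := .move 838 n129 (.cons 837 n1442 .nil)
noncomputable def n1444 : Strat := .move 839 n1411 (.cons 838 n1431 (.cons 841 n1433 (.cons 883 n1443 .nil)))
noncomputable def n1445 : Strat := .win 718 1 717
noncomputable def n1446 : Strat := .win 717 7 717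
noncomputable def n1447 : Strat := .win 923 3 759
noncomputable def n1448 : Strat := .move 757 n883 (.cons 802 n651 .nil)
noncomputable def n1449 : Strat := .move 801 n1447 (.cons 923 n1448 .nil)
noncomputable def n1450 : Strat := .move 760 n675 (.cons 719 n1449 .nil)
noncomputable def n1451 : Strat := .move 758 n1446 (.cons 717 n1450 .nil)
noncomputable def n1452 : Strat := .move 759 n1445 (.cons 718 n1451 .nil)
noncomputable def n1453 : Strat := .win 965 6 800
noncomputable def n1454 : Strat := .move 880 n317 (.cons 925 n785 .nil)
noncomputable def n1455 : Strat := .move 924 n1453 (.cons 965 n1454 .nil)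
noncomputable def n1456 : Strat := .win 1005 7 840
noncomputable def n1457 : Strat := .win 842 3 800
noncomputable def n1458 : Strat := .move 801 n1457 (.cons 842 n374 .nil)
noncomputable def n1459 : Strat := .move 964 n1456 (.cons 1005 n1458 .nil)
noncomputable def n1460 : Strat := .move 923 n1455 (.cons 924 n1459 .nil)
noncomputable def n1461 : Strat := .move 922 n238 (.cons 963 n1460 .nil)
noncomputable def n1462 : Strat := .move 800 n1440 (.cons 922 n1452 (.cons 759 n1461 .nil))
noncomputable def n1463 : Strat := .move 880 n267 (.cons 843 n1104 .nil)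
noncomputable def n1464 : Strat := .win 885 0 840
noncomputable def n1465 : Strat := .win 803 5 799
noncomputable def n1466 : Strat := .win 839 5 798
noncomputable def n1467 : Strat := .win 760 7 760
noncomputable def n1468 : Strat := .win 966 7 801
noncomputable def n1469 : Strat := .move 925 n1467 (.cons 760 n1468 .nil)
noncomputable def n1470 : Strat := .move 801 n1466 (.cons 839 n1469 .nil)
noncomputable def n1471 : Strat := .move 802 n1465 (.cons 803 n1470 .nil)
noncomputable def n1472 : Strat := .move 884 n1464 (.cons 885 n1471 .nil)
noncomputable def n1473 : Strat := .move 843 n586 (.cons 844 n1472 .nil)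
noncomputable def n1474 : Strat := .move 880 n268 (.cons 879 n1414 .nil)
noncomputable def n1475 : Strat := .win 757 6 757
noncomputable def n1476 : Strat := .move 922 n1475 (.cons 757 n176 .nil)
noncomputable def n1477 : Strat := .move 798 n1264 (.cons 797 n1476 .nil)
noncomputable def n1478 : Strat := .move 880 n268 (.cons 879 n1477 .nil)
noncomputable def n1479 : Strat := .win 798 2 797
noncomputable def n1480 : Strat := .move 797 n1479 (.cons 798 n271 .nil)
noncomputable def n1481 : Strat := .move 838 n129 (.cons 837 n1480 .nil)
noncomputable def n1482 : Strat := .win 880 4 838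
noncomputable def n1483 : Strat := .move 838 n129 (.cons 837 n265 .nil)
noncomputable def n1484 : Strat := .move 879 n1482 (.cons 880 n1483 .nil)
noncomputable def n1485 : Strat := .move 839 n1474 (.cons 716 n1478 (.cons 880 n1481 (.cons 797 n1484 .nil)))
noncomputable def n1486 : Strat := .move 842 n1463 (.cons 880 n1473 (.cons 843 n1485 .nil))
noncomputable def n1487 : Strat := .move 758 n1446 (.cons 717 n1448 .nil)
noncomputable def n1488 : Strat := .move 801 n1447 (.cons 923 n1487 .nil)
noncomputable def n1489 : Strat := .move 760 n675 (.cons 719 n1488 .nil)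
noncomputable def n1490 : Strat := .move 759 n1445 (.cons 718 n1489 .nil)
noncomputable def n1491 : Strat := .win 926 2 881
noncomputable def n1492 : Strat := .move 925 n320 (.cons 880 n1491 .nil)
noncomputable def n1493 : Strat := .move 924 n1453 (.cons 965 n1492 .nil)
noncomputable def n1494 : Strat := .move 801 n374 (.cons 760 n1493 .nil)
noncomputable def n1495 : Strat := .move 922 n1152 (.cons 963 n1494 .nil)
noncomputable def n1496 : Strat := .move 922 n1152 (.cons 963 n1455 .nil)
noncomputable def n1497 : Strat := .win 922 1 799
noncomputable def n1498 : Strat := .move 964 n1456 (.cons 1005 n584 .nil)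
noncomputable def n1499 : Strat := .move 963 n1497 (.cons 922 n1498 .nil)
noncomputable def n1500 : Strat := .win 924 6 800
noncomputable def n1501 : Strat := .move 965 n1500 (.cons 924 n494 .nil)
noncomputable def n1502 : Strat := .move 964 n1456 (.cons 1005 n1501 .nil)
noncomputable def n1503 : Strat := .move 923 n1495 (.cons 926 n1496 (.cons 965 n1499 (.cons 922 n1502 .nil)))
noncomputable def n1504 : Strat := .move 800 n1440 (.cons 922 n1490 (.cons 759 n1503 .nil))
noncomputable def n1505 : Strat := .win 842 5 798
noncomputable def n1506 : Strat := .move 802 n1505 (.cons 842 n375 .nil)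
noncomputable def n1507 : Strat := .move 839 n1276 (.cons 838 n1506 .nil)
noncomputable def n1508 : Strat := .move 801 n374 (.cons 760 n1507 .nil)
noncomputable def n1509 : Strat := .move 965 n494 (.cons 1006 n1500 .nil)
noncomputable def n1510 : Strat := .move 964 n1456 (.cons 1005 n1509 .nil)
noncomputable def n1511 : Strat := .move 923 n1459 (.cons 964 n1508 (.cons 760 n1510 .nil))
noncomputable def n1512 : Strat := .move 922 n238 (.cons 963 n1511 .nil)
noncomputable def n1513 : Strat := .move 922 n239 (.cons 759 n1511 .nil)
noncomputable def n1514 : Strat := .win 757 0 757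
noncomputable def n1515 : Strat := .move 758 n1514 (.cons 757 n1446 .nil)
noncomputable def n1516 : Strat := .move 802 n375 (.cons 803 n1515 .nil)
noncomputable def n1517 : Strat := .move 801 n1447 (.cons 923 n1516 .nil)
noncomputable def n1518 : Strat := .move 760 n675 (.cons 719 n1517 .nil)
noncomputable def n1519 : Strat := .move 759 n1445 (.cons 718 n1518 .nil)
noncomputable def n1520 : Strat := .move 800 n1440 (.cons 759 n1512 (.cons 963 n1513 (.cons 922 n1519 .nil)))
noncomputable def n1521 : Strat := .move 879 n432 (.cons 878 n237 .nil)
noncomputable def n1522 : Strat := .win 962 6 797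
noncomputable def n1523 : Strat := .win 756 6 756
noncomputable def n1524 : Strat := .move 921 n1522 (.cons 962 n1523 .nil)
noncomputable def n1525 : Strat := .win 755 7 755
noncomputable def n1526 : Strat := .win 839 2 796
noncomputable def n1527 : Strat := .move 796 n1525 (.cons 755 n1526 .nil)
noncomputable def n1528 : Strat := .move 797 n1524 (.cons 756 n1527 .nil)
noncomputable def n1529 : Strat := .move 920 n231 (.cons 919 n1528 .nil)
noncomputable def n1530 : Strat := .move 838 n1127 (.cons 837 n1529 .nil)
noncomputable def n1531 : Strat := .move 879 n237 (.cons 842 n1530 .nil)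
noncomputable def n1532 : Strat := .move 797 n271 (.cons 796 n1479 .nil)
noncomputable def n1533 : Strat := .move 838 n129 (.cons 837 n1532 .nil)
noncomputable def n1534 : Strat := .win 800 5 797
noncomputable def n1535 : Strat := .move 838 n1534 (.cons 800 n129 .nil)
noncomputable def n1536 : Strat := .move 801 n595 (.cons 802 n1535 .nil)
noncomputable def n1537 : Strat := .win 964 3 800
noncomputable def n1538 : Strat := .win 800 3 759
noncomputable def n1539 : Strat := .win 719 1 718
noncomputable def n1540 : Strat := .move 760 n1538 (.cons 800 n1539 .nil)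
noncomputable def n1541 : Strat := .move 923 n1537 (.cons 964 n1540 .nil)
noncomputable def n1542 : Strat := .move 801 n595 (.cons 802 n1541 .nil)
noncomputable def n1543 : Strat := .move 839 n1533 (.cons 796 n1536 (.cons 838 n1542 .nil))
noncomputable def n1544 : Strat := .move 842 n267 (.cons 843 n1543 .nil)
noncomputable def n1545 : Strat := .move 879 n432 (.cons 878 n1530 .nil)
noncomputable def n1546 : Strat := .move 880 n1521 (.cons 878 n1531 (.cons 879 n1544 (.cons 842 n1545 .nil)))
noncomputable def n1547 : Strat := .move 842 n267 (.cons 843 n1104 .nil)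
noncomputable def n1548 : Strat := .move 801 n1534 (.cons 800 n595 .nil)
noncomputable def n1549 : Strat := .move 838 n129 (.cons 837 n1548 .nil)
noncomputable def n1550 : Strat := .move 839 n1414 (.cons 757 n1533 (.cons 798 n1549 .nil))
noncomputable def n1551 : Strat := .move 842 n267 (.cons 843 n1550 .nil)
noncomputable def n1552 : Strat := .move 880 n1521 (.cons 878 n1547 (.cons 879 n1551 (.cons 842 n1545 .nil)))
noncomputable def n1553 : Strat := .move 963 n204 (.cons 800 n193 .nil)
noncomputable def n1554 : Strat := .move 800 n239 (.cons 759 n238 .nil)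
noncomputable def n1555 : Strat := .move 923 n1455 (.cons 925 n1459 .nil)
noncomputable def n1556 : Strat := .move 800 n239 (.cons 759 n1555 .nil)
noncomputable def n1557 : Strat := .win 923 6 841
noncomputable def n1558 : Strat := .move 1006 n994 (.cons 1007 n1557 .nil)
noncomputable def n1559 : Strat := .move 965 n1558 (.cons 923 n465 .nil)
noncomputable def n1560 : Strat := .move 962 n117 (.cons 1003 n1559 .nil)
noncomputable def n1561 : Strat := .move 964 n56 (.cons 1005 n1560 .nil)
noncomputable def n1562 : Strat := .move 963 n193 (.cons 1004 n1561 .nil)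
noncomputable def n1563 : Strat := .move 922 n1553 (.cons 1004 n1554 (.cons 963 n1556 (.cons 800 n1562 .nil)))
noncomputable def n1564 : Strat := .move 838 n129 (.cons 837 n1439 .nil)
noncomputable def n1565 : Strat := .win 960 1 796
noncomputable def n1566 : Strat := .win 880 4 878
noncomputable def n1567 : Strat := .move 919 n1565 (.cons 960 n1566 .nil)
noncomputable def n1568 : Strat := .win 757 3 756
noncomputable def n1569 : Strat := .win 961 3 797
noncomputable def n1570 : Strat := .move 798 n1568 (.cons 757 n1569 .nil)
noncomputable def n1571 : Strat := .move 920 n1567 (.cons 880 n1570 .nil)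
noncomputable def n1572 : Strat := .move 797 n271 (.cons 796 n1571 .nil)
noncomputable def n1573 : Strat := .move 879 n265 (.cons 878 n1572 .nil)
noncomputable def n1574 : Strat := .move 838 n129 (.cons 837 n1573 .nil)
noncomputable def n1575 : Strat := .move 879 n432 (.cons 878 n264 .nil)
noncomputable def n1576 : Strat := .win 757 1 756
noncomputable def n1577 : Strat := .win 921 1 797
noncomputable def n1578 : Strat := .win 1002 3 838
noncomputable def n1579 : Strat := .move 961 n1577 (.cons 921 n1578 .nil)
noncomputable def n1580 : Strat := .move 798 n1576 (.cons 757 n1579 .nil)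
noncomputable def n1581 : Strat := .move 920 n231 (.cons 919 n1580 .nil)
noncomputable def n1582 : Strat := .move 879 n432 (.cons 878 n1581 .nil)
noncomputable def n1583 : Strat := .move 842 n1264 (.cons 797 n267 .nil)
noncomputable def n1584 : Strat := .move 798 n1475 (.cons 757 n1583 .nil)
noncomputable def n1585 : Strat := .move 922 n1553 (.cons 963 n1584 .nil)
noncomputable def n1586 : Strat := .move 880 n1575 (.cons 842 n1582 (.cons 878 n269 (.cons 879 n1585 .nil)))
noncomputable def n1587 : Strat := .move 842 n1479 (.cons 798 n588 .nil)
noncomputable def n1588 : Strat := .move 797 n271 (.cons 796 n1587 .nil)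
noncomputable def n1589 : Strat := .move 838 n129 (.cons 837 n1588 .nil)
noncomputable def n1590 : Strat := .win 842 2 797
noncomputable def n1591 : Strat := .win 920 3 756
noncomputable def n1592 : Strat := .move 879 n1591 (.cons 920 n265 .nil)
noncomputable def n1593 : Strat := .move 757 n1412 (.cons 716 n1592 .nil)
noncomputable def n1594 : Strat := .move 798 n1590 (.cons 842 n1593 .nil)
noncomputable def n1595 : Strat := .move 797 n271 (.cons 796 n1594 .nil)
noncomputable def n1596 : Strat := .move 838 n129 (.cons 837 n1595 .nil)
noncomputable def n1597 : Strat := .move 798 n1576 (.cons 757 n1569 .nil)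
noncomputable def n1598 : Strat := .move 920 n231 (.cons 919 n1597 .nil)
noncomputable def n1599 : Strat := .move 880 n264 (.cons 842 n1598 .nil)
noncomputable def n1600 : Strat := .move 879 n265 (.cons 878 n1599 .nil)
noncomputable def n1601 : Strat := .move 838 n129 (.cons 837 n1600 .nil)
noncomputable def n1602 : Strat := .move 839 n1564 (.cons 842 n1574 (.cons 838 n1586 (.cons 878 n1589 (.cons 880 n1596 (.cons 797 n1601 .nil)))))
noncomputable def n1603 : Strat := .move 841 n1462 (.cons 800 n1486 (.cons 842 n1504 (.cons 880 n1520 (.cons 922 n1546 (.cons 760 n1552 (.cons 802 n1563 (.cons 801 n1602 .nil)))))))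
noncomputable def n1604 : Strat := .move 797 n1522 (.cons 962 n1523 .nil)
noncomputable def n1605 : Strat := .move 921 n230 (.cons 883 n1604 .nil)
noncomputable def n1606 : Strat := .move 920 n231 (.cons 919 n1605 .nil)
noncomputable def n1607 : Strat := .move 838 n1127 (.cons 837 n1606 .nil)
noncomputable def n1608 : Strat := .move 841 n237 (.cons 842 n1607 .nil)
noncomputable def n1609 : Strat := .move 919 n1120 (.cons 920 n1119 .nil)
noncomputable def n1610 : Strat := .move 878 n243 (.cons 841 n1609 .nil)
noncomputable def n1611 : Strat := .win 922 0 878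
noncomputable def n1612 : Strat := .move 878 n1611 (.cons 922 n1609 .nil)
noncomputable def n1613 : Strat := .move 923 n783 (.cons 924 n1612 .nil)
noncomputable def n1614 : Strat := .move 879 n1114 (.cons 878 n1608 (.cons 842 n1610 (.cons 841 n1613 .nil)))
noncomputable def n1615 : Strat := .win 922 4 880
noncomputable def n1616 : Strat := .move 884 n1615 (.cons 922 n1313 .nil)
noncomputable def n1617 : Strat := .win 965 7 800
noncomputable def n1618 : Strat := .win 759 6 759
noncomputable def n1619 : Strat := .move 800 n1617 (.cons 965 n1618 .nil)
noncomputable def n1620 : Strat := .move 841 n1616 (.cons 885 n1619 .nil)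
noncomputable def n1621 : Strat := .move 921 n228 (.cons 920 n1620 .nil)
noncomputable def n1622 : Strat := .move 924 n234 (.cons 925 n1621 .nil)
noncomputable def n1623 : Strat := .move 842 n1125 (.cons 843 n1622 .nil)
noncomputable def n1624 : Strat := .win 1006 7 841
noncomputable def n1625 : Strat := .win 800 7 800
noncomputable def n1626 : Strat := .move 841 n1624 (.cons 1006 n1625 .nil)
noncomputable def n1627 : Strat := .win 964 1 841
noncomputable def n1628 : Strat := .win 1046 1 882
noncomputable def n1629 : Strat := .win 841 7 841
noncomputable def n1630 : Strat := .move 1006 n1628 (.cons 1046 n1629 .nil)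
noncomputable def n1631 : Strat := .move 1005 n1627 (.cons 964 n1630 .nil)
noncomputable def n1632 : Strat := .win 1005 1 841
noncomputable def n1633 : Strat := .win 923 1 800
noncomputable def n1634 : Strat := .move 964 n1632 (.cons 1005 n1633 .nil)
noncomputable def n1635 : Strat := .win 841 7 800
noncomputable def n1636 : Strat := .win 759 7 759
noncomputable def n1637 : Strat := .move 800 n1635 (.cons 841 n1636 .nil)
noncomputable def n1638 : Strat := .move 801 n1423 (.cons 760 n1634 (.cons 964 n1637 .nil))
noncomputable def n1639 : Strat := .move 1005 n1628 (.cons 1046 n1627 .nil)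
noncomputable def n1640 : Strat := .win 1048 6 883
noncomputable def n1641 : Strat := .win 966 6 842
noncomputable def n1642 : Strat := .move 1007 n1640 (.cons 1048 n1641 .nil)
noncomputable def n1643 : Strat := .move 1006 n1639 (.cons 964 n1642 .nil)
noncomputable def n1644 : Strat := .move 965 n1626 (.cons 800 n1631 (.cons 1006 n1638 (.cons 841 n1643 .nil)))
noncomputable def n1645 : Strat := .move 924 n234 (.cons 925 n1644 .nil)
noncomputable def n1646 : Strat := .move 842 n1125 (.cons 843 n1645 .nil)
noncomputable def n1647 : Strat := .win 924 0 880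
noncomputable def n1648 : Strat := .win 926 0 881
noncomputable def n1649 : Strat := .move 925 n1647 (.cons 924 n1648 .nil)
noncomputable def n1650 : Strat := .move 884 n1615 (.cons 922 n1649 .nil)
noncomputable def n1651 : Strat := .move 921 n228 (.cons 920 n1650 .nil)
noncomputable def n1652 : Strat := .win 842 5 839
noncomputable def n1653 : Strat := .win 844 5 840
noncomputable def n1654 : Strat := .move 843 n1652 (.cons 842 n1653 .nil)
noncomputable def n1655 : Strat := .move 884 n1615 (.cons 922 n1654 .nil)
noncomputable def n1656 : Strat := .move 921 n228 (.cons 920 n1655 .nil)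
noncomputable def n1657 : Strat := .move 883 n1623 (.cons 884 n1646 (.cons 842 n1651 (.cons 924 n1656 .nil)))
noncomputable def n1658 : Strat := .win 801 1 800
noncomputable def n1659 : Strat := .move 842 n1658 (.cons 801 n1125 .nil)
noncomputable def n1660 : Strat := .move 964 n1456 (.cons 1005 n1659 .nil)
noncomputable def n1661 : Strat := .move 923 n785 (.cons 879 n1660 .nil)
noncomputable def n1662 : Strat := .move 924 n234 (.cons 925 n1661 .nil)
noncomputable def n1663 : Strat := .move 883 n1651 (.cons 884 n1662 (.cons 924 n1656 .nil))
noncomputable def n1664 : Strat := .move 759 n697 (.cons 922 n1445 .nil)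
noncomputable def n1665 : Strat := .move 922 n1152 (.cons 963 n239 .nil)
noncomputable def n1666 : Strat := .win 801 3 759
noncomputable def n1667 : Strat := .move 760 n675 (.cons 719 n1666 .nil)
noncomputable def n1668 : Strat := .move 759 n1445 (.cons 718 n1667 .nil)
noncomputable def n1669 : Strat := .move 964 n584 (.cons 1004 n1456 .nil)
noncomputable def n1670 : Strat := .move 963 n1497 (.cons 922 n1669 .nil)
noncomputable def n1671 : Strat := .move 800 n1664 (.cons 718 n1665 (.cons 922 n1668 (.cons 759 n1670 .nil)))
noncomputable def n1672 : Strat := .move 923 n783 (.cons 924 n1671 .nil)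
noncomputable def n1673 : Strat := .move 841 n237 (.cons 842 n1672 .nil)
noncomputable def n1674 : Strat := .move 879 n1114 (.cons 842 n1610 (.cons 841 n1613 (.cons 878 n1673 .nil)))
noncomputable def n1675 : Strat := .move 925 n1648 (.cons 926 n1647 .nil)
noncomputable def n1676 : Strat := .move 884 n1313 (.cons 885 n1675 .nil)
noncomputable def n1677 : Strat := .move 883 n1417 (.cons 921 n1676 .nil)
noncomputable def n1678 : Strat := .move 920 n231 (.cons 919 n1677 .nil)
noncomputable def n1679 : Strat := .move 879 n432 (.cons 878 n1678 .nil)
noncomputable def n1680 : Strat := .move 924 n234 (.cons 925 n1619 .nil)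
noncomputable def n1681 : Strat := .move 921 n1615 (.cons 922 n228 .nil)
noncomputable def n1682 : Strat := .move 884 n1313 (.cons 885 n1681 .nil)
noncomputable def n1683 : Strat := .move 883 n1680 (.cons 965 n1676 (.cons 924 n1682 .nil))
noncomputable def n1684 : Strat := .move 842 n267 (.cons 843 n1683 .nil)
noncomputable def n1685 : Strat := .move 841 n1547 (.cons 842 n1679 (.cons 879 n1684 .nil))
noncomputable def n1686 : Strat := .move 878 n243 (.cons 841 n1611 .nil)
noncomputable def n1687 : Strat := .move 923 n783 (.cons 924 n1686 .nil)
noncomputable def n1688 : Strat := .move 838 n1127 (.cons 837 n1604 .nil)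
noncomputable def n1689 : Strat := .move 921 n230 (.cons 883 n1688 .nil)
noncomputable def n1690 : Strat := .move 920 n231 (.cons 919 n1689 .nil)
noncomputable def n1691 : Strat := .move 879 n1610 (.cons 918 n1687 (.cons 841 n1613 (.cons 878 n1690 .nil)))
noncomputable def n1692 : Strat := .move 879 n1124 (.cons 841 n1418 .nil)
noncomputable def n1693 : Strat := .move 842 n1125 (.cons 843 n1692 .nil)
noncomputable def n1694 : Strat := .move 920 n231 (.cons 919 n1417 .nil)
noncomputable def n1695 : Strat := .move 879 n233 (.cons 923 n1694 .nil)
noncomputable def n1696 : Strat := .move 924 n234 (.cons 925 n1695 .nil)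
noncomputable def n1697 : Strat := .move 879 n1124 (.cons 841 n1694 .nil)
noncomputable def n1698 : Strat := .move 842 n1125 (.cons 843 n1697 .nil)
noncomputable def n1699 : Strat := .move 884 n1653 (.cons 844 n1649 .nil)
noncomputable def n1700 : Strat := .move 843 n1652 (.cons 842 n1699 .nil)
noncomputable def n1701 : Strat := .move 883 n1693 (.cons 842 n1696 (.cons 923 n1698 (.cons 879 n1700 .nil)))
noncomputable def n1702 : Strat := .move 879 n432 (.cons 878 n1672 .nil)
noncomputable def n1703 : Strat := .move 759 n1445 (.cons 718 n697 .nil)
noncomputable def n1704 : Strat := .move 964 n585 (.cons 801 n1456 .nil)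
noncomputable def n1705 : Strat := .move 801 n374 (.cons 760 n1537 .nil)
noncomputable def n1706 : Strat := .move 924 n317 (.cons 925 n1453 .nil)
noncomputable def n1707 : Strat := .move 923 n1704 (.cons 1005 n1705 (.cons 801 n1706 .nil))
noncomputable def n1708 : Strat := .move 922 n238 (.cons 963 n1707 .nil)
noncomputable def n1709 : Strat := .win 883 6 759
noncomputable def n1710 : Strat := .move 924 n1453 (.cons 965 n1709 .nil)
noncomputable def n1711 : Strat := .move 923 n1704 (.cons 1005 n1705 (.cons 801 n1710 .nil))
noncomputable def n1712 : Strat := .move 759 n1445 (.cons 718 n1711 .nil)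
noncomputable def n1713 : Strat := .move 800 n1703 (.cons 718 n1440 (.cons 759 n1708 (.cons 922 n1712 .nil)))
noncomputable def n1714 : Strat := .move 842 n267 (.cons 843 n1713 .nil)
noncomputable def n1715 : Strat := .move 841 n1547 (.cons 843 n1521 (.cons 842 n1702 (.cons 879 n1714 .nil)))
noncomputable def n1716 : Strat := .move 841 n432 (.cons 878 n1690 .nil)
noncomputable def n1717 : Strat := .move 841 n237 (.cons 842 n1690 .nil)
noncomputable def n1718 : Strat := .move 879 n1114 (.cons 842 n1716 (.cons 878 n1717 (.cons 841 n1690 .nil)))
noncomputable def n1719 : Strat := .move 880 n1614 (.cons 879 n1657 (.cons 841 n1663 (.cons 883 n1674 (.cons 923 n1685 (.cons 842 n1691 (.cons 922 n1701 (.cons 920 n1715 (.cons 924 n1718 .nil))))))))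
noncomputable def n1720 : Strat := .move 839 n442 (.cons 884 n1432 .nil)
noncomputable def n1721 : Strat := .move 839 n686 (.cons 838 n1420 .nil)
noncomputable def n1722 : Strat := .win 963 6 798
noncomputable def n1723 : Strat := .move 922 n1722 (.cons 963 n1475 .nil)
noncomputable def n1724 : Strat := .win 797 7 756
noncomputable def n1725 : Strat := .move 756 n664 (.cons 715 n1724 .nil)
noncomputable def n1726 : Strat := .move 757 n1412 (.cons 716 n1725 .nil)
noncomputable def n1727 : Strat := .win 922 6 798
noncomputable def n1728 : Strat := .win 1003 3 839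
noncomputable def n1729 : Strat := .move 962 n615 (.cons 1004 n1728 .nil)
noncomputable def n1730 : Strat := .move 963 n1727 (.cons 922 n1729 .nil)
noncomputable def n1731 : Strat := .move 798 n1413 (.cons 716 n1723 (.cons 922 n1726 (.cons 757 n1730 .nil)))
noncomputable def n1732 : Strat := .move 921 n228 (.cons 920 n1731 .nil)
noncomputable def n1733 : Strat := .move 839 n686 (.cons 838 n1732 .nil)
noncomputable def n1734 : Strat := .move 880 n1721 (.cons 879 n1733 (.cons 839 n1662 .nil))
noncomputable def n1735 : Strat := .move 880 n1651 (.cons 884 n1662 (.cons 924 n1656 .nil))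
noncomputable def n1736 : Strat := .move 922 n1475 (.cons 757 n1722 .nil)
noncomputable def n1737 : Strat := .move 798 n1413 (.cons 716 n1736 (.cons 922 n1726 (.cons 757 n1730 .nil)))
noncomputable def n1738 : Strat := .move 921 n228 (.cons 920 n1737 .nil)
noncomputable def n1739 : Strat := .move 880 n686 (.cons 838 n1738 .nil)
noncomputable def n1740 : Strat := .move 839 n442 (.cons 884 n1739 .nil)
noncomputable def n1741 : Strat := .move 838 n129 (.cons 837 n1011 .nil)
noncomputable def n1742 : Strat := .move 839 n442 (.cons 884 n1741 .nil)
noncomputable def n1743 : Strat := .win 923 4 881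
noncomputable def n1744 : Strat := .win 843 5 840
noncomputable def n1745 : Strat := .win 845 5 841
noncomputable def n1746 : Strat := .move 844 n1744 (.cons 843 n1745 .nil)
noncomputable def n1747 : Strat := .move 885 n1743 (.cons 923 n1746 .nil)
noncomputable def n1748 : Strat := .move 922 n1322 (.cons 921 n1747 .nil)
noncomputable def n1749 : Strat := .move 884 n1312 (.cons 839 n1748 .nil)
noncomputable def n1750 : Strat := .move 883 n1720 (.cons 884 n1734 (.cons 839 n1735 (.cons 923 n1740 (.cons 920 n1742 (.cons 880 n1749 .nil)))))
noncomputable def n1751 : Strat := .move 839 n442 (.cons 884 n1410 .nil)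
noncomputable def n1752 : Strat := .move 879 n1124 (.cons 841 n1128 .nil)
noncomputable def n1753 : Strat := .move 842 n1125 (.cons 843 n1752 .nil)
noncomputable def n1754 : Strat := .win 841 4 838
noncomputable def n1755 : Strat := .move 879 n1754 (.cons 841 n1418 .nil)
noncomputable def n1756 : Strat := .move 842 n1125 (.cons 843 n1755 .nil)
noncomputable def n1757 : Strat := .move 879 n432 (.cons 878 n1418 .nil)
noncomputable def n1758 : Strat := .win 923 6 800
noncomputable def n1759 : Strat := .move 965 n1758 (.cons 923 n1624 .nil)
noncomputable def n1760 : Strat := .move 800 n1618 (.cons 759 n1759 .nil)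
noncomputable def n1761 : Strat := .move 924 n234 (.cons 925 n1760 .nil)
noncomputable def n1762 : Strat := .move 879 n432 (.cons 878 n1694 .nil)
noncomputable def n1763 : Strat := .move 841 n1757 (.cons 879 n1761 (.cons 925 n1762 .nil))
noncomputable def n1764 : Strat := .win 923 1 759
noncomputable def n1765 : Strat := .move 760 n1539 (.cons 719 n1764 .nil)
noncomputable def n1766 : Strat := .move 801 n595 (.cons 802 n1765 .nil)
noncomputable def n1767 : Strat := .move 841 n268 (.cons 879 n1766 .nil)
noncomputable def n1768 : Strat := .move 842 n1125 (.cons 843 n1767 .nil)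
noncomputable def n1769 : Strat := .move 841 n268 (.cons 879 n1680 .nil)
noncomputable def n1770 : Strat := .move 842 n1125 (.cons 843 n1769 .nil)
noncomputable def n1771 : Strat := .move 839 n1756 (.cons 842 n1763 (.cons 924 n1768 (.cons 923 n1770 (.cons 879 n1429 (.cons 841 n1696 .nil)))))
noncomputable def n1772 : Strat := .move 839 n686 (.cons 838 n1429 .nil)
noncomputable def n1773 : Strat := .move 924 n234 (.cons 925 n233 .nil)
noncomputable def n1774 : Strat := .move 879 n1124 (.cons 841 n1773 .nil)
noncomputable def n1775 : Strat := .move 842 n1125 (.cons 843 n1774 .nil)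
noncomputable def n1776 : Strat := .move 920 n1417 (.cons 921 n231 .nil)
noncomputable def n1777 : Strat := .move 879 n1127 (.cons 837 n1776 .nil)
noncomputable def n1778 : Strat := .move 838 n1126 (.cons 839 n1777 .nil)
noncomputable def n1779 : Strat := .move 880 n1753 (.cons 838 n1771 (.cons 879 n1772 (.cons 839 n1775 (.cons 842 n1778 .nil))))
noncomputable def n1780 : Strat := .move 880 n1647 (.cons 924 n1652 .nil)
noncomputable def n1781 : Strat := .move 843 n1653 (.cons 844 n1780 .nil)
noncomputable def n1782 : Strat := .move 925 n1648 (.cons 926 n1781 .nil)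
noncomputable def n1783 : Strat := .move 884 n1312 (.cons 839 n1782 .nil)
noncomputable def n1784 : Strat := .move 880 n1693 (.cons 842 n1696 (.cons 923 n1698 (.cons 879 n1700 .nil)))
noncomputable def n1785 : Strat := .move 883 n1751 (.cons 884 n1779 (.cons 841 n1783 (.cons 839 n1784 .nil)))
noncomputable def n1786 : Strat := .move 880 n686 (.cons 838 n1416 .nil)
noncomputable def n1787 : Strat := .move 883 n442 (.cons 884 n1786 .nil)
noncomputable def n1788 : Strat := .move 880 n1416 (.cons 922 n1770 (.cons 841 n1738 .nil))
noncomputable def n1789 : Strat := .move 883 n442 (.cons 884 n1788 .nil)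
noncomputable def n1790 : Strat := .move 883 n442 (.cons 884 n1739 .nil)
noncomputable def n1791 : Strat := .move 842 n1482 (.cons 880 n1480 .nil)
noncomputable def n1792 : Strat := .move 879 n265 (.cons 878 n1791 .nil)
noncomputable def n1793 : Strat := .move 841 n262 (.cons 883 n1792 .nil)
noncomputable def n1794 : Strat := .move 838 n129 (.cons 837 n1793 .nil)
noncomputable def n1795 : Strat := .move 801 n595 (.cons 802 n1534 .nil)
noncomputable def n1796 : Strat := .move 842 n1482 (.cons 880 n1795 .nil)
noncomputable def n1797 : Strat := .move 879 n265 (.cons 878 n1796 .nil)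
noncomputable def n1798 : Strat := .move 841 n1792 (.cons 798 n1797 (.cons 879 n1441 .nil))
noncomputable def n1799 : Strat := .move 838 n129 (.cons 837 n1798 .nil)
noncomputable def n1800 : Strat := .move 839 n1787 (.cons 798 n1411 (.cons 838 n1789 (.cons 841 n1790 (.cons 884 n1794 (.cons 883 n1799 .nil)))))
noncomputable def n1801 : Strat := .move 883 n443 (.cons 838 n1414 .nil)
noncomputable def n1802 : Strat := .move 760 n1764 (.cons 923 n1539 .nil)
noncomputable def n1803 : Strat := .move 801 n595 (.cons 802 n1802 .nil)
noncomputable def n1804 : Strat := .move 883 n443 (.cons 838 n1803 .nil)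
noncomputable def n1805 : Strat := .move 839 n1801 (.cons 883 n1414 (.cons 798 n1804 .nil))
noncomputable def n1806 : Strat := .move 842 n267 (.cons 843 n1805 .nil)
noncomputable def n1807 : Strat := .move 756 n1435 (.cons 715 n1434 .nil)
noncomputable def n1808 : Strat := .move 797 n271 (.cons 796 n1807 .nil)
noncomputable def n1809 : Strat := .move 839 n262 (.cons 883 n1808 .nil)
noncomputable def n1810 : Strat := .move 838 n1127 (.cons 837 n1809 .nil)
noncomputable def n1811 : Strat := .move 879 n432 (.cons 878 n1810 .nil)
noncomputable def n1812 : Strat := .move 841 n1521 (.cons 879 n1806 (.cons 842 n1811 .nil))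
noncomputable def n1813 : Strat := .move 839 n1429 (.cons 842 n1732 .nil)
noncomputable def n1814 : Strat := .move 883 n1772 (.cons 838 n1813 (.cons 841 n1733 (.cons 839 n1646 .nil)))
noncomputable def n1815 : Strat := .move 883 n1721 (.cons 879 n1733 (.cons 839 n1662 .nil))
noncomputable def n1816 : Strat := .move 841 n237 (.cons 842 n1530 .nil)
noncomputable def n1817 : Strat := .move 798 n1569 (.cons 961 n1576 .nil)
noncomputable def n1818 : Strat := .move 920 n231 (.cons 919 n1817 .nil)
noncomputable def n1819 : Strat := .win 877 5 836
noncomputable def n1820 : Strat := .move 923 n1611 (.cons 922 n783 .nil)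
noncomputable def n1821 : Strat := .move 878 n1819 (.cons 877 n1820 .nil)
noncomputable def n1822 : Strat := .move 839 n1818 (.cons 961 n1821 .nil)
noncomputable def n1823 : Strat := .move 838 n1127 (.cons 837 n1822 .nil)
noncomputable def n1824 : Strat := .move 879 n1114 (.cons 878 n1816 (.cons 841 n1823 .nil))
noncomputable def n1825 : Strat := .move 841 n432 (.cons 878 n1810 .nil)
noncomputable def n1826 : Strat := .move 837 n1116 (.cons 838 n1115 .nil)
noncomputable def n1827 : Strat := .move 878 n243 (.cons 841 n1826 .nil)
noncomputable def n1828 : Strat := .move 839 n130 (.cons 883 n1818 .nil)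
noncomputable def n1829 : Strat := .move 838 n1127 (.cons 837 n1828 .nil)
noncomputable def n1830 : Strat := .move 923 n783 (.cons 924 n1611 .nil)
noncomputable def n1831 : Strat := .move 878 n243 (.cons 841 n1830 .nil)
noncomputable def n1832 : Strat := .move 879 n1825 (.cons 883 n1827 (.cons 878 n1829 (.cons 838 n1831 .nil)))
noncomputable def n1833 : Strat := .move 883 n1753 (.cons 838 n1771 (.cons 879 n1772 (.cons 839 n1775 (.cons 842 n1778 .nil))))
noncomputable def n1834 : Strat := .move 839 n130 (.cons 883 n1817 .nil)
noncomputable def n1835 : Strat := .move 920 n231 (.cons 919 n1834 .nil)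
noncomputable def n1836 : Strat := .move 838 n1127 (.cons 837 n1835 .nil)
noncomputable def n1837 : Strat := .move 879 n1114 (.cons 841 n1836 .nil)
noncomputable def n1838 : Strat := .move 883 n1693 (.cons 879 n1646 (.cons 841 n1662 (.cons 842 n1696 (.cons 924 n1698 .nil))))
noncomputable def n1839 : Strat := .move 880 n1812 (.cons 879 n1814 (.cons 841 n1815 (.cons 883 n1824 (.cons 842 n1832 (.cons 922 n1833 (.cons 923 n1837 (.cons 839 n1838 .nil)))))))
noncomputable def n1840 : Strat := .move 839 n442 (.cons 884 n1430 .nil)
noncomputable def n1841 : Strat := .move 880 n1756 (.cons 842 n1763 (.cons 924 n1768 (.cons 923 n1770 (.cons 879 n1429 (.cons 841 n1696 .nil)))))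
noncomputable def n1842 : Strat := .move 839 n442 (.cons 884 n1841 .nil)
noncomputable def n1843 : Strat := .win 880 5 839
noncomputable def n1844 : Strat := .win 720 1 719
noncomputable def n1845 : Strat := .win 924 1 760
noncomputable def n1846 : Strat := .move 761 n1844 (.cons 720 n1845 .nil)
noncomputable def n1847 : Strat := .move 802 n1465 (.cons 803 n1846 .nil)
noncomputable def n1848 : Strat := .move 841 n1464 (.cons 885 n1847 .nil)
noncomputable def n1849 : Strat := .move 842 n1843 (.cons 880 n1848 .nil)
noncomputable def n1850 : Strat := .move 843 n1653 (.cons 844 n1849 .nil)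
noncomputable def n1851 : Strat := .win 841 2 840
noncomputable def n1852 : Strat := .win 925 0 881
noncomputable def n1853 : Strat := .win 927 0 882
noncomputable def n1854 : Strat := .move 926 n1852 (.cons 925 n1853 .nil)
noncomputable def n1855 : Strat := .move 885 n1851 (.cons 841 n1854 .nil)
noncomputable def n1856 : Strat := .move 880 n1652 (.cons 842 n1649 .nil)
noncomputable def n1857 : Strat := .move 843 n1653 (.cons 844 n1856 .nil)
noncomputable def n1858 : Strat := .move 884 n1850 (.cons 803 n1855 (.cons 885 n1857 .nil))
noncomputable def n1859 : Strat := .move 878 n243 (.cons 841 n1819 .nil)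
noncomputable def n1860 : Strat := .move 879 n1418 (.cons 925 n1859 .nil)
noncomputable def n1861 : Strat := .move 962 n1728 (.cons 1003 n1860 .nil)
noncomputable def n1862 : Strat := .move 921 n228 (.cons 920 n1861 .nil)
noncomputable def n1863 : Strat := .move 879 n233 (.cons 923 n1859 .nil)
noncomputable def n1864 : Strat := .move 924 n234 (.cons 925 n1863 .nil)
noncomputable def n1865 : Strat := .move 880 n1862 (.cons 879 n1732 (.cons 1003 n1696 (.cons 921 n1864 .nil)))
noncomputable def n1866 : Strat := .move 839 n442 (.cons 884 n1865 .nil)
noncomputable def n1867 : Strat := .move 884 n1312 (.cons 839 n1855 .nil)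
noncomputable def n1868 : Strat := .move 839 n1416 (.cons 841 n1420 (.cons 879 n1429 .nil))
noncomputable def n1869 : Strat := .move 839 n1862 (.cons 879 n1732 (.cons 1003 n1696 (.cons 921 n1864 .nil)))
noncomputable def n1870 : Strat := .move 878 n1819 (.cons 877 n1121 .nil)
noncomputable def n1871 : Strat := .move 879 n233 (.cons 923 n1870 .nil)
noncomputable def n1872 : Strat := .move 924 n234 (.cons 925 n1871 .nil)
noncomputable def n1873 : Strat := .move 839 n1416 (.cons 842 n1864 (.cons 841 n1872 (.cons 879 n1429 .nil)))
noncomputable def n1874 : Strat := .move 801 n1421 (.cons 964 n1422 .nil)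
noncomputable def n1875 : Strat := .move 842 n1125 (.cons 843 n1874 .nil)
noncomputable def n1876 : Strat := .move 923 n785 (.cons 879 n1875 .nil)
noncomputable def n1877 : Strat := .move 924 n234 (.cons 925 n1876 .nil)
noncomputable def n1878 : Strat := .move 878 n1819 (.cons 877 n243 .nil)
noncomputable def n1879 : Strat := .move 879 n233 (.cons 923 n1878 .nil)
noncomputable def n1880 : Strat := .move 924 n234 (.cons 925 n1879 .nil)
noncomputable def n1881 : Strat := .move 839 n1416 (.cons 841 n1877 (.cons 879 n1429 (.cons 842 n1880 .nil)))
noncomputable def n1882 : Strat := .move 922 n238 (.cons 963 n239 .nil)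
noncomputable def n1883 : Strat := .win 924 6 759
noncomputable def n1884 : Strat := .move 759 n1883 (.cons 924 n1445 .nil)
noncomputable def n1885 : Strat := .move 802 n375 (.cons 803 n1466 .nil)
noncomputable def n1886 : Strat := .move 801 n1765 (.cons 923 n1885 .nil)
noncomputable def n1887 : Strat := .move 800 n1664 (.cons 718 n1882 (.cons 922 n1884 (.cons 759 n1886 .nil)))
noncomputable def n1888 : Strat := .move 841 n1104 (.cons 879 n1887 .nil)
noncomputable def n1889 : Strat := .move 842 n1125 (.cons 843 n1888 .nil)
noncomputable def n1890 : Strat := .move 839 n1416 (.cons 922 n1770 (.cons 841 n1738 .nil))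
noncomputable def n1891 : Strat := .move 879 n1124 (.cons 841 n1776 .nil)
noncomputable def n1892 : Strat := .move 842 n1125 (.cons 843 n1891 .nil)
noncomputable def n1893 : Strat := .move 880 n1868 (.cons 842 n1869 (.cons 921 n1873 (.cons 920 n1881 (.cons 841 n1877 (.cons 879 n1813 (.cons 925 n1889 (.cons 923 n1890 (.cons 924 n1892 .nil))))))))
noncomputable def n1894 : Strat := .move 922 n1322 (.cons 921 n1554 .nil)
noncomputable def n1895 : Strat := .move 841 n1313 (.cons 885 n1894 .nil)
noncomputable def n1896 : Strat := .move 884 n1312 (.cons 839 n1895 .nil)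
noncomputable def n1897 : Strat := .move 883 n1840 (.cons 922 n1842 (.cons 839 n1858 (.cons 842 n1866 (.cons 880 n1867 (.cons 841 n1783 (.cons 884 n1893 (.cons 925 n1896 .nil)))))))
noncomputable def n1898 : Strat := .win 841 4 837
noncomputable def n1899 : Strat := .move 878 n1898 (.cons 841 n1819 .nil)
noncomputable def n1900 : Strat := .move 879 n1899 (.cons 878 n1818 .nil)
noncomputable def n1901 : Strat := .move 880 n130 (.cons 883 n1900 .nil)
noncomputable def n1902 : Strat := .move 838 n129 (.cons 837 n1901 .nil)
noncomputable def n1903 : Strat := .move 880 n686 (.cons 838 n1862 .nil)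
noncomputable def n1904 : Strat := .move 883 n442 (.cons 884 n1903 .nil)
noncomputable def n1905 : Strat := .move 883 n442 (.cons 884 n1409 .nil)
noncomputable def n1906 : Strat := .move 838 n129 (.cons 837 n1905 .nil)
noncomputable def n1907 : Strat := .move 883 n442 (.cons 884 n1741 .nil)
noncomputable def n1908 : Strat := .move 883 n442 (.cons 884 n1865 .nil)
noncomputable def n1909 : Strat := .move 841 n1441 (.cons 922 n1573 .nil)
noncomputable def n1910 : Strat := .move 838 n129 (.cons 837 n1909 .nil)
noncomputable def n1911 : Strat := .move 839 n1902 (.cons 837 n1904 (.cons 920 n1906 (.cons 841 n1907 (.cons 838 n1908 (.cons 883 n1910 .nil)))))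
noncomputable def n1912 : Strat := .move 880 n686 (.cons 838 n1429 .nil)
noncomputable def n1913 : Strat := .move 883 n442 (.cons 884 n1912 .nil)
noncomputable def n1914 : Strat := .move 880 n1429 (.cons 842 n1732 .nil)
noncomputable def n1915 : Strat := .move 883 n442 (.cons 884 n1914 .nil)
noncomputable def n1916 : Strat := .move 883 n1409 (.cons 841 n1011 .nil)
noncomputable def n1917 : Strat := .move 838 n129 (.cons 837 n1916 .nil)
noncomputable def n1918 : Strat := .move 880 n686 (.cons 838 n1732 .nil)
noncomputable def n1919 : Strat := .move 883 n442 (.cons 884 n1918 .nil)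
noncomputable def n1920 : Strat := .move 841 n1441 (.cons 800 n1588 .nil)
noncomputable def n1921 : Strat := .move 838 n129 (.cons 837 n1920 .nil)
noncomputable def n1922 : Strat := .move 839 n1913 (.cons 838 n1915 (.cons 884 n1917 (.cons 841 n1919 (.cons 880 n1411 (.cons 883 n1921 .nil)))))
noncomputable def n1923 : Strat := .move 883 n442 (.cons 884 n1011 .nil)
noncomputable def n1924 : Strat := .move 838 n129 (.cons 837 n1923 .nil)
noncomputable def n1925 : Strat := .move 838 n1409 (.cons 841 n1011 .nil)
noncomputable def n1926 : Strat := .move 883 n442 (.cons 884 n1925 .nil)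
noncomputable def n1927 : Strat := .move 880 n1416 (.cons 842 n1864 (.cons 841 n1872 (.cons 879 n1429 .nil)))
noncomputable def n1928 : Strat := .move 883 n442 (.cons 884 n1927 .nil)
noncomputable def n1929 : Strat := .move 841 n1792 (.cons 798 n1441 .nil)
noncomputable def n1930 : Strat := .move 838 n129 (.cons 837 n1929 .nil)
noncomputable def n1931 : Strat := .move 839 n1906 (.cons 841 n1924 (.cons 837 n1926 (.cons 884 n1917 (.cons 838 n1928 (.cons 883 n1930 .nil)))))
noncomputable def n1932 : Strat := .move 879 n1754 (.cons 841 n1694 .nil)
noncomputable def n1933 : Strat := .move 842 n1125 (.cons 843 n1932 .nil)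
noncomputable def n1934 : Strat := .move 880 n1416 (.cons 841 n1738 (.cons 798 n1933 .nil))
noncomputable def n1935 : Strat := .move 883 n442 (.cons 884 n1934 .nil)
noncomputable def n1936 : Strat := .move 841 n1792 (.cons 879 n1441 .nil)
noncomputable def n1937 : Strat := .move 838 n129 (.cons 837 n1936 .nil)
noncomputable def n1938 : Strat := .move 839 n1906 (.cons 841 n1907 (.cons 884 n1917 (.cons 837 n1926 (.cons 838 n1935 (.cons 883 n1937 .nil)))))
noncomputable def n1939 : Strat := .move 841 n1441 (.cons 800 n1792 .nil)
noncomputable def n1940 : Strat := .move 838 n129 (.cons 837 n1939 .nil)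
noncomputable def n1941 : Strat := .move 880 n1416 (.cons 841 n1877 (.cons 879 n1429 (.cons 842 n1880 .nil)))
noncomputable def n1942 : Strat := .move 883 n442 (.cons 884 n1941 .nil)
noncomputable def n1943 : Strat := .move 839 n1411 (.cons 837 n1926 (.cons 841 n1907 (.cons 884 n1917 (.cons 883 n1940 (.cons 838 n1942 .nil)))))
noncomputable def n1944 : Strat := .move 839 n686 (.cons 838 n1756 .nil)
noncomputable def n1945 : Strat := .move 879 n1418 (.cons 925 n1878 .nil)
noncomputable def n1946 : Strat := .move 962 n1728 (.cons 1003 n1945 .nil)
noncomputable def n1947 : Strat := .move 921 n228 (.cons 920 n1946 .nil)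
noncomputable def n1948 : Strat := .move 839 n686 (.cons 838 n1947 .nil)
noncomputable def n1949 : Strat := .move 839 n686 (.cons 838 n1416 .nil)
noncomputable def n1950 : Strat := .move 880 n1944 (.cons 842 n1948 (.cons 923 n1949 (.cons 839 n1775 (.cons 879 n1733 .nil))))
noncomputable def n1951 : Strat := .move 922 n1322 (.cons 921 n1743 .nil)
noncomputable def n1952 : Strat := .move 885 n1851 (.cons 841 n1951 .nil)
noncomputable def n1953 : Strat := .move 884 n1855 (.cons 925 n1952 (.cons 885 n1857 .nil))
noncomputable def n1954 : Strat := .move 883 n1751 (.cons 884 n1950 (.cons 839 n1953 (.cons 841 n1783 .nil)))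
noncomputable def n1955 : Strat := .move 838 n129 (.cons 837 n262 .nil)
noncomputable def n1956 : Strat := .move 838 n262 (.cons 883 n1441 .nil)
noncomputable def n1957 : Strat := .move 802 n375 (.cons 803 n1505 .nil)
noncomputable def n1958 : Strat := .move 801 n374 (.cons 760 n1957 .nil)
noncomputable def n1959 : Strat := .move 923 n1670 (.cons 963 n1958 .nil)
noncomputable def n1960 : Strat := .move 759 n1445 (.cons 718 n1883 .nil)
noncomputable def n1961 : Strat := .move 800 n1703 (.cons 759 n1959 (.cons 922 n1960 .nil))
noncomputable def n1962 : Strat := .move 883 n442 (.cons 884 n1961 .nil)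
noncomputable def n1963 : Strat := .move 838 n129 (.cons 837 n1441 .nil)
noncomputable def n1964 : Strat := .move 839 n1955 (.cons 837 n1956 (.cons 838 n1962 (.cons 883 n1963 .nil)))
noncomputable def n1965 : Strat := .move 883 n1313 (.cons 885 n1894 .nil)
noncomputable def n1966 : Strat := .win 965 1 801
noncomputable def n1967 : Strat := .win 761 1 760
noncomputable def n1968 : Strat := .move 924 n1966 (.cons 965 n1967 .nil)
noncomputable def n1969 : Strat := .win 762 3 761
noncomputable def n1970 : Strat := .win 842 5 799
noncomputable def n1971 : Strat := .move 803 n1969 (.cons 762 n1970 .nil)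
noncomputable def n1972 : Strat := .move 802 n1968 (.cons 761 n1971 .nil)
noncomputable def n1973 : Strat := .move 925 n1648 (.cons 926 n1972 .nil)
noncomputable def n1974 : Strat := .move 843 n1653 (.cons 844 n1973 .nil)
noncomputable def n1975 : Strat := .move 883 n1313 (.cons 885 n1974 .nil)
noncomputable def n1976 : Strat := .win 885 5 881
noncomputable def n1977 : Strat := .move 925 n1976 (.cons 885 n1491 .nil)
noncomputable def n1978 : Strat := .move 924 n1453 (.cons 965 n1977 .nil)
noncomputable def n1979 : Strat := .move 923 n1459 (.cons 964 n1978 .nil)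
noncomputable def n1980 : Strat := .move 922 n238 (.cons 963 n1979 .nil)
noncomputable def n1981 : Strat := .move 760 n1666 (.cons 801 n675 .nil)
noncomputable def n1982 : Strat := .move 759 n1445 (.cons 718 n1981 .nil)
noncomputable def n1983 : Strat := .move 759 n1445 (.cons 718 n1510 .nil)
noncomputable def n1984 : Strat := .move 923 n1459 (.cons 842 n1982 (.cons 801 n1983 .nil))
noncomputable def n1985 : Strat := .move 800 n1440 (.cons 759 n1980 (.cons 963 n1703 (.cons 922 n1984 .nil)))
noncomputable def n1986 : Strat := .move 883 n1894 (.cons 800 n1974 .nil)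
noncomputable def n1987 : Strat := .move 884 n1965 (.cons 800 n1975 (.cons 883 n1985 (.cons 885 n1986 .nil)))
noncomputable def n1988 : Strat := .win 883 2 839
noncomputable def n1989 : Strat := .move 843 n586 (.cons 844 n1464 .nil)
noncomputable def n1990 : Strat := .move 842 n1989 (.cons 843 n1542 .nil)
noncomputable def n1991 : Strat := .move 884 n1988 (.cons 883 n1990 .nil)
noncomputable def n1992 : Strat := .move 839 n1955 (.cons 883 n1596 (.cons 837 n444 (.cons 838 n1991 .nil)))
noncomputable def n1993 : Strat := .move 883 n1175 (.cons 884 n1803 .nil)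
noncomputable def n1994 : Strat := .move 923 n1422 (.cons 760 n1537 .nil)
noncomputable def n1995 : Strat := .move 801 n595 (.cons 802 n1994 .nil)
noncomputable def n1996 : Strat := .move 883 n1175 (.cons 884 n1995 .nil)
noncomputable def n1997 : Strat := .win 801 5 798
noncomputable def n1998 : Strat := .move 802 n1465 (.cons 803 n1997 .nil)
noncomputable def n1999 : Strat := .move 843 n586 (.cons 844 n1998 .nil)
noncomputable def n2000 : Strat := .move 883 n1175 (.cons 884 n1999 .nil)
noncomputable def n2001 : Strat := .win 883 0 839
noncomputable def n2002 : Strat := .move 884 n2001 (.cons 883 n1989 .nil)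
noncomputable def n2003 : Strat := .win 883 1 759
noncomputable def n2004 : Strat := .move 760 n2003 (.cons 883 n1539 .nil)
noncomputable def n2005 : Strat := .move 923 n1537 (.cons 964 n2004 .nil)
noncomputable def n2006 : Strat := .move 801 n595 (.cons 802 n2005 .nil)
noncomputable def n2007 : Strat := .move 802 n1997 (.cons 801 n1465 .nil)
noncomputable def n2008 : Strat := .move 843 n586 (.cons 844 n2007 .nil)
noncomputable def n2009 : Strat := .move 842 n1993 (.cons 719 n1996 (.cons 760 n2000 (.cons 802 n2002 (.cons 884 n2006 (.cons 883 n2008 .nil)))))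
noncomputable def n2010 : Strat := .move 839 n444 (.cons 883 n1596 (.cons 838 n2009 .nil))
noncomputable def n2011 : Strat := .move 839 n442 (.cons 884 n443 .nil)
noncomputable def n2012 : Strat := .move 883 n1883 (.cons 924 n2011 .nil)
noncomputable def n2013 : Strat := .move 759 n1445 (.cons 718 n2012 .nil)
noncomputable def n2014 : Strat := .move 964 n1457 (.cons 842 n1456 .nil)
noncomputable def n2015 : Strat := .move 801 n374 (.cons 760 n2014 .nil)
noncomputable def n2016 : Strat := .move 883 n1315 (.cons 884 n1510 .nil)
noncomputable def n2017 : Strat := .move 883 n1313 (.cons 885 n1312 .nil)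
noncomputable def n2018 : Strat := .move 883 n1322 (.cons 921 n1313 .nil)
noncomputable def n2019 : Strat := .move 883 n1322 (.cons 921 n1312 .nil)
noncomputable def n2020 : Strat := .move 884 n2017 (.cons 839 n2018 (.cons 885 n2019 (.cons 883 n1977 .nil)))
noncomputable def n2021 : Strat := .move 924 n1453 (.cons 965 n2020 .nil)
noncomputable def n2022 : Strat := .move 923 n2015 (.cons 842 n2016 (.cons 964 n2021 .nil))
noncomputable def n2023 : Strat := .move 922 n238 (.cons 963 n2022 .nil)
noncomputable def n2024 : Strat := .move 800 n1703 (.cons 922 n2013 (.cons 718 n1440 (.cons 759 n2023 .nil)))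
noncomputable def n2025 : Strat := .move 922 n239 (.cons 759 n1152 .nil)
noncomputable def n2026 : Strat := .move 922 n1152 (.cons 963 n1508 .nil)
noncomputable def n2027 : Strat := .move 759 n1445 (.cons 718 n1710 .nil)
noncomputable def n2028 : Strat := .move 800 n2025 (.cons 963 n1703 (.cons 759 n2026 (.cons 922 n2027 .nil)))
noncomputable def n2029 : Strat := .move 924 n1618 (.cons 759 n1453 .nil)
noncomputable def n2030 : Strat := .move 800 n1884 (.cons 718 n2029 (.cons 924 n1668 (.cons 759 n1958 .nil)))
noncomputable def n2031 : Strat := .move 883 n442 (.cons 884 n2030 .nil)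
noncomputable def n2032 : Strat := .move 842 n595 (.cons 802 n1480 .nil)
noncomputable def n2033 : Strat := .move 801 n1534 (.cons 800 n2032 .nil)
noncomputable def n2034 : Strat := .move 838 n129 (.cons 837 n2033 .nil)
noncomputable def n2035 : Strat := .move 839 n1955 (.cons 837 n444 (.cons 838 n2031 (.cons 883 n2034 .nil)))
noncomputable def n2036 : Strat := .move 800 n2025 (.cons 963 n1703 (.cons 922 n1508 .nil))
noncomputable def n2037 : Strat := .move 758 n1446 (.cons 717 n1667 .nil)
noncomputable def n2038 : Strat := .move 759 n1445 (.cons 718 n2037 .nil)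
noncomputable def n2039 : Strat := .move 922 n1152 (.cons 963 n2021 .nil)
noncomputable def n2040 : Strat := .move 800 n2025 (.cons 922 n2038 (.cons 759 n2039 .nil))
noncomputable def n2041 : Strat := .move 963 n192 (.cons 800 n193 .nil)
noncomputable def n2042 : Strat := .move 963 n193 (.cons 1004 n604 .nil)
noncomputable def n2043 : Strat := .move 800 n239 (.cons 759 n1152 .nil)
noncomputable def n2044 : Strat := .move 800 n239 (.cons 759 n1508 .nil)
noncomputable def n2045 : Strat := .move 922 n2041 (.cons 800 n2042 (.cons 1004 n2043 (.cons 963 n2044 .nil)))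
noncomputable def n2046 : Strat := .move 800 n239 (.cons 759 n2021 .nil)
noncomputable def n2047 : Strat := .move 922 n2041 (.cons 800 n2042 (.cons 1004 n2043 (.cons 963 n2046 .nil)))
noncomputable def n2048 : Strat := .move 800 n1152 (.cons 963 n1508 .nil)
noncomputable def n2049 : Strat := .move 842 n1480 (.cons 796 n1795 .nil)
noncomputable def n2050 : Strat := .move 838 n129 (.cons 837 n2049 .nil)
noncomputable def n2051 : Strat := .move 801 n1422 (.cons 760 n595 .nil)
noncomputable def n2052 : Strat := .move 883 n1175 (.cons 884 n2051 .nil)
noncomputable def n2053 : Strat := .move 760 n1539 (.cons 719 n1538 .nil)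
noncomputable def n2054 : Strat := .move 801 n595 (.cons 802 n2053 .nil)
noncomputable def n2055 : Strat := .move 843 n1464 (.cons 885 n586 .nil)
noncomputable def n2056 : Strat := .move 884 n2001 (.cons 883 n2055 .nil)
noncomputable def n2057 : Strat := .move 842 n2052 (.cons 883 n2054 (.cons 802 n2056 .nil))
noncomputable def n2058 : Strat := .move 839 n444 (.cons 884 n1955 (.cons 883 n2050 (.cons 838 n2057 .nil)))
noncomputable def n2059 : Strat := .move 922 n2048 (.cons 800 n2042 (.cons 838 n2041 (.cons 963 n2058 .nil)))
noncomputable def n2060 : Strat := .move 798 n1264 (.cons 797 n1999 .nil)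
noncomputable def n2061 : Strat := .move 842 n2052 (.cons 760 n2056 (.cons 883 n2060 .nil))
noncomputable def n2062 : Strat := .move 842 n1481 (.cons 838 n2060 (.cons 797 n1999 .nil))
noncomputable def n2063 : Strat := .move 839 n444 (.cons 884 n1955 (.cons 838 n2061 (.cons 883 n2062 .nil)))
noncomputable def n2064 : Strat := .win 921 4 920
noncomputable def n2065 : Strat := .move 961 n2064 (.cons 921 n448 .nil)
noncomputable def n2066 : Strat := .move 924 n576 (.cons 925 n2065 .nil)
noncomputable def n2067 : Strat := .move 962 n117 (.cons 1003 n2066 .nil)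
noncomputable def n2068 : Strat := .move 963 n193 (.cons 1004 n2067 .nil)
noncomputable def n2069 : Strat := .move 920 n392 (.cons 960 n326 .nil)
noncomputable def n2070 : Strat := .win 962 4 920
noncomputable def n2071 : Strat := .move 924 n2070 (.cons 962 n1453 .nil)
noncomputable def n2072 : Strat := .move 961 n2069 (.cons 919 n2071 .nil)
noncomputable def n2073 : Strat := .move 800 n239 (.cons 759 n2072 .nil)
noncomputable def n2074 : Strat := .win 883 4 880
noncomputable def n2075 : Strat := .move 800 n1453 (.cons 965 n239 .nil)
noncomputable def n2076 : Strat := .win 800 6 800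
noncomputable def n2077 : Strat := .move 965 n330 (.cons 966 n2076 .nil)
noncomputable def n2078 : Strat := .move 924 n2075 (.cons 759 n2077 (.cons 965 n1977 .nil))
noncomputable def n2079 : Strat := .move 884 n2074 (.cons 883 n2078 .nil)
noncomputable def n2080 : Strat := .move 921 n111 (.cons 884 n1021 (.cons 883 n2073 (.cons 920 n2079 .nil)))
noncomputable def n2081 : Strat := .move 922 n2043 (.cons 800 n2068 (.cons 963 n2080 .nil))
noncomputable def n2082 : Strat := .move 923 n2028 (.cons 922 n2035 (.cons 924 n2036 (.cons 842 n2040 (.cons 718 n2045 (.cons 801 n2047 (.cons 759 n2059 (.cons 800 n2063 (.cons 839 n2081 .nil))))))))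
noncomputable def n2083 : Strat := .move 839 n202 (.cons 798 n444 .nil)
noncomputable def n2084 : Strat := .move 963 n193 (.cons 1004 n2083 .nil)
noncomputable def n2085 : Strat := .move 883 n1312 (.cons 839 n1313 .nil)
noncomputable def n2086 : Strat := .move 842 n2055 (.cons 844 n1704 .nil)
noncomputable def n2087 : Strat := .move 923 n1510 (.cons 964 n1978 (.cons 924 n2086 .nil))
noncomputable def n2088 : Strat := .move 883 n1312 (.cons 839 n1322 .nil)
noncomputable def n2089 : Strat := .move 884 n2085 (.cons 883 n2087 (.cons 885 n2088 .nil))
noncomputable def n2090 : Strat := .move 800 n239 (.cons 759 n2089 .nil)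
noncomputable def n2091 : Strat := .move 922 n1553 (.cons 1004 n1554 (.cons 800 n2084 (.cons 963 n2090 .nil)))
noncomputable def n2092 : Strat := .move 843 n1465 (.cons 803 n586 .nil)
noncomputable def n2093 : Strat := .move 802 n1997 (.cons 801 n2092 .nil)
noncomputable def n2094 : Strat := .move 800 n1664 (.cons 718 n1882 (.cons 922 n1884 (.cons 759 n2093 .nil)))
noncomputable def n2095 : Strat := .move 883 n1175 (.cons 884 n2094 .nil)
noncomputable def n2096 : Strat := .move 800 n697 (.cons 922 n1445 .nil)
noncomputable def n2097 : Strat := .move 800 n1883 (.cons 924 n697 .nil)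
noncomputable def n2098 : Strat := .move 800 n1883 (.cons 924 n1445 .nil)
noncomputable def n2099 : Strat := .win 718 7 718
noncomputable def n2100 : Strat := .move 760 n2099 (.cons 718 n1539 .nil)
noncomputable def n2101 : Strat := .move 759 n2096 (.cons 718 n2097 (.cons 922 n2098 (.cons 800 n2100 .nil)))
noncomputable def n2102 : Strat := .move 801 n595 (.cons 802 n2101 .nil)
noncomputable def n2103 : Strat := .move 883 n1175 (.cons 884 n2102 .nil)
noncomputable def n2104 : Strat := .move 842 n2095 (.cons 843 n2103 (.cons 922 n2000 (.cons 883 n2008 (.cons 801 n2002 .nil))))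
noncomputable def n2105 : Strat := .move 839 n1955 (.cons 883 n1963 (.cons 837 n444 (.cons 838 n2104 .nil)))
noncomputable def n2106 : Strat := .move 922 n1152 (.cons 963 n1510 .nil)
noncomputable def n2107 : Strat := .move 923 n2106 (.cons 964 n2039 (.cons 924 n1499 (.cons 922 n1502 .nil)))
noncomputable def n2108 : Strat := .move 800 n1703 (.cons 922 n2013 (.cons 718 n1440 (.cons 759 n2107 .nil)))
noncomputable def n2109 : Strat := .move 841 n1964 (.cons 839 n1987 (.cons 883 n1520 (.cons 759 n1992 (.cons 800 n2010 (.cons 802 n2024 (.cons 964 n2082 (.cons 760 n2091 (.cons 923 n2105 (.cons 842 n2108 .nil)))))))))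
noncomputable def n2110 : Strat := .move 882 n1444 (.cons 883 n1603 (.cons 839 n1719 (.cons 841 n1750 (.cons 922 n1785 (.cons 923 n1800 (.cons 884 n1839 (.cons 838 n1897 (.cons 842 n1911 (.cons 879 n1922 (.cons 921 n1931 (.cons 924 n1938 (.cons 920 n1943 (.cons 801 n1954 (.cons 880 n2109 .nil))))))))))))))
noncomputable def n2111 : Strat := .win 962 3 798
noncomputable def n2112 : Strat := .move 799 n183 (.cons 758 n2111 .nil)
noncomputable def n2113 : Strat := .move 921 n228 (.cons 920 n2112 .nil)
noncomputable def n2114 : Strat := .move 880 n1768 (.cons 842 n2113 .nil)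
noncomputable def n2115 : Strat := .move 883 n442 (.cons 884 n2114 .nil)
noncomputable def n2116 : Strat := .move 841 n262 (.cons 883 n1439 .nil)
noncomputable def n2117 : Strat := .move 838 n129 (.cons 837 n2116 .nil)
noncomputable def n2118 : Strat := .move 842 n1480 (.cons 796 n588 .nil)
noncomputable def n2119 : Strat := .move 759 n1445 (.cons 718 n2118 .nil)
noncomputable def n2120 : Strat := .move 800 n1253 (.cons 801 n2119 .nil)
noncomputable def n2121 : Strat := .move 841 n1439 (.cons 879 n2120 (.cons 842 n1573 (.cons 880 n2033 (.cons 797 n1600 .nil))))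
noncomputable def n2122 : Strat := .move 838 n129 (.cons 837 n2121 .nil)
noncomputable def n2123 : Strat := .move 882 n1906 (.cons 838 n2115 (.cons 841 n1924 (.cons 884 n2117 (.cons 883 n2122 .nil))))
noncomputable def n2124 : Strat := .win 880 0 836
noncomputable def n2125 : Strat := .win 796 2 795
noncomputable def n2126 : Strat := .win 794 2 794
noncomputable def n2127 : Strat := .move 795 n2125 (.cons 796 n2126 .nil)
noncomputable def n2128 : Strat := .move 836 n2124 (.cons 880 n2127 .nil)
noncomputable def n2129 : Strat := .win 878 4 836
noncomputable def n2130 : Strat := .win 876 4 835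
noncomputable def n2131 : Strat := .move 877 n2129 (.cons 878 n2130 .nil)
noncomputable def n2132 : Strat := .move 836 n2124 (.cons 880 n2131 .nil)
noncomputable def n2133 : Strat := .move 841 n1167 (.cons 879 n1171 .nil)
noncomputable def n2134 : Strat := .move 878 n1168 (.cons 877 n2133 .nil)
noncomputable def n2135 : Strat := .move 837 n2128 (.cons 796 n2132 (.cons 836 n2134 .nil))
noncomputable def n2136 : Strat := .win 799 5 796
noncomputable def n2137 : Strat := .move 837 n2136 (.cons 799 n1171 .nil)
noncomputable def n2138 : Strat := .move 800 n1253 (.cons 801 n2137 .nil)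
noncomputable def n2139 : Strat := .move 878 n1168 (.cons 877 n1167 .nil)
noncomputable def n2140 : Strat := .move 837 n2136 (.cons 799 n2139 .nil)
noncomputable def n2141 : Strat := .move 800 n1253 (.cons 801 n2140 .nil)
noncomputable def n2142 : Strat := .move 841 n2138 (.cons 837 n1595 (.cons 797 n2141 .nil))
noncomputable def n2143 : Strat := .win 800 5 796
noncomputable def n2144 : Strat := .win 798 5 795
noncomputable def n2145 : Strat := .move 836 n2124 (.cons 880 n2144 .nil)
noncomputable def n2146 : Strat := .move 799 n2143 (.cons 800 n2145 .nil)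
noncomputable def n2147 : Strat := .win 841 2 796
noncomputable def n2148 : Strat := .win 919 3 755
noncomputable def n2149 : Strat := .win 715 1 714
noncomputable def n2150 : Strat := .move 756 n2148 (.cons 919 n2149 .nil)
noncomputable def n2151 : Strat := .move 878 n1168 (.cons 877 n2150 .nil)
noncomputable def n2152 : Strat := .move 797 n2147 (.cons 841 n2151 .nil)
noncomputable def n2153 : Strat := .move 796 n1169 (.cons 795 n2152 .nil)
noncomputable def n2154 : Strat := .move 837 n2128 (.cons 794 n2146 (.cons 836 n2153 .nil))
noncomputable def n2155 : Strat := .win 920 6 755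
noncomputable def n2156 : Strat := .win 714 6 714
noncomputable def n2157 : Strat := .move 755 n2155 (.cons 920 n2156 .nil)
noncomputable def n2158 : Strat := .move 796 n1169 (.cons 795 n2157 .nil)
noncomputable def n2159 : Strat := .move 879 n1898 (.cons 841 n2158 .nil)
noncomputable def n2160 : Strat := .move 878 n1168 (.cons 877 n2159 .nil)
noncomputable def n2161 : Strat := .move 837 n2132 (.cons 876 n2128 (.cons 836 n2160 .nil))
noncomputable def n2162 : Strat := .move 880 n267 (.cons 843 n268 .nil)
noncomputable def n2163 : Strat := .move 842 n1278 (.cons 798 n2162 .nil)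
noncomputable def n2164 : Strat := .move 797 n271 (.cons 796 n2163 .nil)
noncomputable def n2165 : Strat := .move 799 n219 (.cons 837 n2164 .nil)
noncomputable def n2166 : Strat := .move 800 n1253 (.cons 801 n2165 .nil)
noncomputable def n2167 : Strat := .move 759 n918 (.cons 760 n1445 .nil)
noncomputable def n2168 : Strat := .move 798 n71 (.cons 842 n2167 .nil)
noncomputable def n2169 : Strat := .move 797 n271 (.cons 796 n2168 .nil)
noncomputable def n2170 : Strat := .move 799 n219 (.cons 837 n2169 .nil)
noncomputable def n2171 : Strat := .move 800 n1253 (.cons 801 n2170 .nil)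
noncomputable def n2172 : Strat := .move 842 n1479 (.cons 798 n594 .nil)
noncomputable def n2173 : Strat := .move 797 n271 (.cons 796 n2172 .nil)
noncomputable def n2174 : Strat := .move 795 n2126 (.cons 794 n2125 .nil)
noncomputable def n2175 : Strat := .move 836 n2124 (.cons 880 n2174 .nil)
noncomputable def n2176 : Strat := .move 837 n2136 (.cons 799 n2175 .nil)
noncomputable def n2177 : Strat := .move 800 n1253 (.cons 801 n2176 .nil)
noncomputable def n2178 : Strat := .move 843 n1272 (.cons 798 n587 .nil)
noncomputable def n2179 : Strat := .move 758 n7 (.cons 921 n128 .nil)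
noncomputable def n2180 : Strat := .move 880 n268 (.cons 879 n2179 .nil)
noncomputable def n2181 : Strat := .move 798 n339 (.cons 843 n338 .nil)
noncomputable def n2182 : Strat := .move 842 n2162 (.cons 879 n2178 (.cons 843 n2180 (.cons 880 n2181 .nil)))
noncomputable def n2183 : Strat := .move 799 n219 (.cons 837 n2182 .nil)
noncomputable def n2184 : Strat := .move 800 n1253 (.cons 801 n2183 .nil)
noncomputable def n2185 : Strat := .move 841 n2166 (.cons 879 n2171 (.cons 799 n2173 (.cons 797 n2177 (.cons 796 n2184 .nil))))
noncomputable def n2186 : Strat := .win 836 5 795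
noncomputable def n2187 : Strat := .move 878 n1167 (.cons 879 n1168 .nil)
noncomputable def n2188 : Strat := .move 841 n2187 (.cons 877 n1336 .nil)
noncomputable def n2189 : Strat := .move 757 n1412 (.cons 716 n2188 .nil)
noncomputable def n2190 : Strat := .move 798 n2186 (.cons 836 n2189 .nil)
noncomputable def n2191 : Strat := .move 799 n2143 (.cons 800 n2190 .nil)
noncomputable def n2192 : Strat := .move 799 n2143 (.cons 800 n2144 .nil)
noncomputable def n2193 : Strat := .move 836 n2124 (.cons 880 n2192 .nil)
noncomputable def n2194 : Strat := .move 800 n2136 (.cons 799 n1253 .nil)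
noncomputable def n2195 : Strat := .move 841 n1167 (.cons 879 n2194 .nil)
noncomputable def n2196 : Strat := .move 878 n1168 (.cons 877 n2195 .nil)
noncomputable def n2197 : Strat := .move 837 n2132 (.cons 880 n2191 (.cons 877 n2193 (.cons 836 n2196 .nil)))
noncomputable def n2198 : Strat := .move 842 n1482 (.cons 880 n1532 .nil)
noncomputable def n2199 : Strat := .move 879 n265 (.cons 878 n2198 .nil)
noncomputable def n2200 : Strat := .move 842 n1479 (.cons 798 n1548 .nil)
noncomputable def n2201 : Strat := .move 797 n271 (.cons 796 n2200 .nil)
noncomputable def n2202 : Strat := .move 842 n1482 (.cons 880 n1548 .nil)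
noncomputable def n2203 : Strat := .move 879 n265 (.cons 878 n2202 .nil)
noncomputable def n2204 : Strat := .move 880 n1434 (.cons 921 n1435 .nil)
noncomputable def n2205 : Strat := .win 798 3 756
noncomputable def n2206 : Strat := .win 716 3 715
noncomputable def n2207 : Strat := .move 757 n2205 (.cons 798 n2206 .nil)
noncomputable def n2208 : Strat := .win 880 6 756
noncomputable def n2209 : Strat := .move 921 n1522 (.cons 962 n2208 .nil)
noncomputable def n2210 : Strat := .move 920 n1570 (.cons 961 n2207 (.cons 757 n2209 .nil))
noncomputable def n2211 : Strat := .win 880 6 715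
noncomputable def n2212 : Strat := .win 675 3 674
noncomputable def n2213 : Strat := .win 757 3 715
noncomputable def n2214 : Strat := .move 716 n2212 (.cons 675 n2213 .nil)
noncomputable def n2215 : Strat := .move 715 n2211 (.cons 880 n2214 .nil)
noncomputable def n2216 : Strat := .win 673 7 673
noncomputable def n2217 : Strat := .win 755 7 714
noncomputable def n2218 : Strat := .move 714 n2216 (.cons 673 n2217 .nil)
noncomputable def n2219 : Strat := .move 715 n2214 (.cons 757 n2218 .nil)
noncomputable def n2220 : Strat := .move 756 n2204 (.cons 715 n2210 (.cons 921 n2215 (.cons 880 n2219 .nil)))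
noncomputable def n2221 : Strat := .move 797 n271 (.cons 796 n2220 .nil)
noncomputable def n2222 : Strat := .move 879 n265 (.cons 878 n2221 .nil)
noncomputable def n2223 : Strat := .move 841 n2199 (.cons 879 n2201 (.cons 797 n2203 (.cons 842 n2222 .nil)))
noncomputable def n2224 : Strat := .move 836 n2144 (.cons 798 n2127 .nil)
noncomputable def n2225 : Strat := .move 799 n2143 (.cons 800 n2224 .nil)
noncomputable def n2226 : Strat := .win 756 3 755
noncomputable def n2227 : Strat := .win 960 3 796
noncomputable def n2228 : Strat := .move 797 n2226 (.cons 756 n2227 .nil)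
noncomputable def n2229 : Strat := .win 961 6 796
noncomputable def n2230 : Strat := .win 755 6 755
noncomputable def n2231 : Strat := .move 920 n2229 (.cons 961 n2230 .nil)
noncomputable def n2232 : Strat := .win 880 4 877
noncomputable def n2233 : Strat := .win 959 1 795
noncomputable def n2234 : Strat := .move 918 n2232 (.cons 880 n2233 .nil)
noncomputable def n2235 : Strat := .move 879 n2157 (.cons 714 n2231 (.cons 920 n2234 .nil))
noncomputable def n2236 : Strat := .move 919 n2228 (.cons 960 n2235 .nil)
noncomputable def n2237 : Strat := .move 796 n1169 (.cons 795 n2236 .nil)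
noncomputable def n2238 : Strat := .move 878 n1168 (.cons 877 n2237 .nil)
noncomputable def n2239 : Strat := .move 837 n2128 (.cons 880 n2225 (.cons 795 n2193 (.cons 836 n2238 .nil)))
noncomputable def n2240 : Strat := .move 838 n2135 (.cons 880 n2142 (.cons 879 n2154 (.cons 797 n2161 (.cons 878 n2185 (.cons 796 n2197 (.cons 837 n2223 (.cons 841 n2239 .nil)))))))
noncomputable def n2241 : Strat := .move 841 n262 (.cons 883 n2033 .nil)
noncomputable def n2242 : Strat := .move 882 n129 (.cons 837 n2241 .nil)
noncomputable def n2243 : Strat := .move 841 n1170 (.cons 797 n1167 .nil)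
noncomputable def n2244 : Strat := .move 878 n1168 (.cons 877 n2243 .nil)
noncomputable def n2245 : Strat := .move 796 n1169 (.cons 795 n2244 .nil)
noncomputable def n2246 : Strat := .move 837 n424 (.cons 882 n2245 .nil)
noncomputable def n2247 : Strat := .move 879 n1898 (.cons 841 n2157 .nil)
noncomputable def n2248 : Strat := .move 796 n1169 (.cons 795 n2247 .nil)
noncomputable def n2249 : Strat := .move 878 n1168 (.cons 877 n2248 .nil)
noncomputable def n2250 : Strat := .move 837 n424 (.cons 882 n2249 .nil)
noncomputable def n2251 : Strat := .move 837 n424 (.cons 882 n2191 .nil)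
noncomputable def n2252 : Strat := .move 837 n424 (.cons 882 n2225 .nil)
noncomputable def n2253 : Strat := .move 882 n262 (.cons 883 n2033 .nil)
noncomputable def n2254 : Strat := .win 964 7 799
noncomputable def n2255 : Strat := .move 799 n2254 (.cons 964 n108 .nil)
noncomputable def n2256 : Strat := .win 799 7 799
noncomputable def n2257 : Strat := .move 964 n1456 (.cons 1005 n2256 .nil)
noncomputable def n2258 : Strat := .win 799 6 758
noncomputable def n2259 : Strat := .move 759 n1446 (.cons 717 n1445 .nil)
noncomputable def n2260 : Strat := .move 758 n2258 (.cons 799 n2259 .nil)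
noncomputable def n2261 : Strat := .move 923 n2255 (.cons 758 n2257 (.cons 964 n2260 (.cons 799 n1510 .nil)))
noncomputable def n2262 : Strat := .move 800 n1253 (.cons 801 n2261 .nil)
noncomputable def n2263 : Strat := .move 882 n262 (.cons 883 n2262 .nil)
noncomputable def n2264 : Strat := .move 841 n2253 (.cons 882 n1595 (.cons 798 n2263 .nil))
noncomputable def n2265 : Strat := .move 838 n2242 (.cons 882 n2142 (.cons 798 n2246 (.cons 797 n2250 (.cons 796 n2251 (.cons 841 n2252 (.cons 837 n2264 .nil))))))
noncomputable def n2266 : Strat := .move 837 n424 (.cons 882 n2128 .nil)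
noncomputable def n2267 : Strat := .move 882 n129 (.cons 837 n1905 .nil)
noncomputable def n2268 : Strat := .move 882 n262 (.cons 883 n1573 .nil)
noncomputable def n2269 : Strat := .move 882 n262 (.cons 883 n1600 .nil)
noncomputable def n2270 : Strat := .move 842 n1175 (.cons 884 n1548 .nil)
noncomputable def n2271 : Strat := .move 883 n1174 (.cons 882 n2270 .nil)
noncomputable def n2272 : Strat := .move 841 n2199 (.cons 842 n2268 (.cons 797 n2269 (.cons 880 n2271 .nil)))
noncomputable def n2273 : Strat := .move 841 n2199 (.cons 879 n2201 (.cons 797 n2203 (.cons 842 n1173 .nil)))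
noncomputable def n2274 : Strat := .move 838 n2266 (.cons 836 n2267 (.cons 837 n2272 (.cons 882 n2273 .nil)))
noncomputable def n2275 : Strat := .move 882 n129 (.cons 837 n2116 .nil)
noncomputable def n2276 : Strat := .move 882 n129 (.cons 837 n1923 .nil)
noncomputable def n2277 : Strat := .move 880 n423 (.cons 836 n2158 .nil)
noncomputable def n2278 : Strat := .move 879 n1898 (.cons 841 n2277 .nil)
noncomputable def n2279 : Strat := .move 878 n1168 (.cons 877 n2278 .nil)
noncomputable def n2280 : Strat := .move 837 n2279 (.cons 878 n2128 (.cons 836 n2134 (.cons 796 n2132 .nil)))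
noncomputable def n2281 : Strat := .move 882 n262 (.cons 883 n1439 .nil)
noncomputable def n2282 : Strat := .move 841 n2281 (.cons 880 n2263 (.cons 882 n2203 .nil))
noncomputable def n2283 : Strat := .move 838 n2275 (.cons 841 n2276 (.cons 882 n2280 (.cons 837 n2282 (.cons 880 n2246 .nil))))
noncomputable def n2284 : Strat := .move 880 n686 (.cons 838 n1768 .nil)
noncomputable def n2285 : Strat := .move 883 n442 (.cons 884 n2284 .nil)
noncomputable def n2286 : Strat := .move 880 n686 (.cons 838 n2113 .nil)
noncomputable def n2287 : Strat := .move 883 n442 (.cons 884 n2286 .nil)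
noncomputable def n2288 : Strat := .move 838 n1439 (.cons 879 n2120 (.cons 842 n1573 (.cons 880 n2033 (.cons 797 n1600 .nil))))
noncomputable def n2289 : Strat := .move 964 n2256 (.cons 799 n1456 .nil)
noncomputable def n2290 : Strat := .win 880 0 879
noncomputable def n2291 : Strat := .move 924 n2290 (.cons 880 n1453 .nil)
noncomputable def n2292 : Strat := .move 923 n2289 (.cons 1005 n2255 (.cons 799 n2291 .nil))
noncomputable def n2293 : Strat := .move 879 n265 (.cons 878 n2292 .nil)
noncomputable def n2294 : Strat := .move 800 n1253 (.cons 801 n2293 .nil)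
noncomputable def n2295 : Strat := .move 923 n2289 (.cons 1005 n2255 (.cons 799 n1510 (.cons 964 n2260 .nil)))
noncomputable def n2296 : Strat := .move 800 n1253 (.cons 801 n2295 .nil)
noncomputable def n2297 : Strat := .move 838 n1573 (.cons 757 n2294 (.cons 880 n2296 .nil))
noncomputable def n2298 : Strat := .move 838 n1439 (.cons 879 n1588 (.cons 797 n1600 (.cons 880 n1595 (.cons 842 n1573 .nil))))
noncomputable def n2299 : Strat := .move 843 n587 (.cons 880 n586 .nil)
noncomputable def n2300 : Strat := .move 800 n374 (.cons 760 n1276 .nil)
noncomputable def n2301 : Strat := .move 923 n1537 (.cons 964 n2300 .nil)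
noncomputable def n2302 : Strat := .move 801 n595 (.cons 802 n2301 .nil)
noncomputable def n2303 : Strat := .move 842 n594 (.cons 879 n2299 (.cons 880 n2302 .nil))
noncomputable def n2304 : Strat := .move 880 n268 (.cons 879 n1542 .nil)
noncomputable def n2305 : Strat := .win 799 2 798
noncomputable def n2306 : Strat := .move 798 n1264 (.cons 797 n2305 .nil)
noncomputable def n2307 : Strat := .move 843 n586 (.cons 844 n2306 .nil)
noncomputable def n2308 : Strat := .move 842 n594 (.cons 843 n2304 (.cons 879 n2299 (.cons 880 n2307 .nil)))
noncomputable def n2309 : Strat := .move 843 n2305 (.cons 799 n586 .nil)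
noncomputable def n2310 : Strat := .move 798 n1264 (.cons 797 n2309 .nil)
noncomputable def n2311 : Strat := .move 842 n595 (.cons 802 n2310 .nil)
noncomputable def n2312 : Strat := .move 801 n1534 (.cons 800 n2311 .nil)
noncomputable def n2313 : Strat := .move 838 n2033 (.cons 801 n1595 (.cons 796 n2312 (.cons 842 n2296 .nil)))
noncomputable def n2314 : Strat := .move 758 n9 (.cons 923 n158 .nil)
noncomputable def n2315 : Strat := .move 923 n108 (.cons 758 n2254 .nil)
noncomputable def n2316 : Strat := .move 838 n1480 (.cons 796 n1795 .nil)
noncomputable def n2317 : Strat := .move 880 n267 (.cons 843 n2316 .nil)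
noncomputable def n2318 : Strat := .move 842 n2317 (.cons 838 n2299 (.cons 843 n2302 .nil))
noncomputable def n2319 : Strat := .win 758 6 717
noncomputable def n2320 : Strat := .move 843 n1272 (.cons 798 n586 .nil)
noncomputable def n2321 : Strat := .move 842 n588 (.cons 880 n2320 (.cons 844 n2178 (.cons 843 n2316 .nil)))
noncomputable def n2322 : Strat := .move 717 n2319 (.cons 758 n2321 .nil)
noncomputable def n2323 : Strat := .move 799 n2314 (.cons 717 n2315 (.cons 758 n2318 (.cons 923 n2322 .nil)))
noncomputable def n2324 : Strat := .move 841 n2288 (.cons 842 n2297 (.cons 801 n2298 (.cons 960 n2303 (.cons 838 n2308 (.cons 880 n2313 (.cons 879 n2323 .nil))))))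
noncomputable def n2325 : Strat := .move 923 n1537 (.cons 964 n1422 .nil)
noncomputable def n2326 : Strat := .move 801 n595 (.cons 802 n2325 .nil)
noncomputable def n2327 : Strat := .move 798 n2305 (.cons 799 n1264 .nil)
noncomputable def n2328 : Strat := .move 843 n586 (.cons 844 n2327 .nil)
noncomputable def n2329 : Strat := .move 842 n1803 (.cons 719 n2326 (.cons 801 n2328 .nil))
noncomputable def n2330 : Strat := .move 841 n443 (.cons 838 n2329 .nil)
noncomputable def n2331 : Strat := .move 883 n442 (.cons 884 n2330 .nil)
noncomputable def n2332 : Strat := .move 882 n2285 (.cons 841 n2287 (.cons 838 n2115 (.cons 883 n2324 (.cons 880 n2331 .nil))))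
noncomputable def n2333 : Strat := .move 882 n262 (.cons 883 n2120 .nil)
noncomputable def n2334 : Strat := .move 842 n595 (.cons 802 n588 .nil)
noncomputable def n2335 : Strat := .move 801 n1534 (.cons 800 n2334 .nil)
noncomputable def n2336 : Strat := .move 882 n262 (.cons 883 n2335 .nil)
noncomputable def n2337 : Strat := .move 882 n262 (.cons 883 n1588 .nil)
noncomputable def n2338 : Strat := .move 841 n2333 (.cons 882 n2201 (.cons 796 n2336 (.cons 801 n2337 (.cons 842 n2263 .nil))))
noncomputable def n2339 : Strat := .move 838 n2266 (.cons 882 n2154 (.cons 795 n2267 (.cons 837 n2338 .nil)))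
noncomputable def n2340 : Strat := .move 837 n2128 (.cons 796 n2132 (.cons 880 n2245 .nil))
noncomputable def n2341 : Strat := .move 841 n262 (.cons 883 n1573 .nil)
noncomputable def n2342 : Strat := .move 841 n1573 (.cons 757 n2294 (.cons 880 n2296 .nil))
noncomputable def n2343 : Strat := .move 882 n2341 (.cons 841 n1923 (.cons 880 n1905 (.cons 883 n2342 .nil)))
noncomputable def n2344 : Strat := .move 838 n2266 (.cons 882 n2340 (.cons 836 n2267 (.cons 837 n2343 .nil)))
noncomputable def n2345 : Strat := .move 880 n1768 (.cons 879 n2113 .nil)
noncomputable def n2346 : Strat := .move 883 n442 (.cons 884 n2345 .nil)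
noncomputable def n2347 : Strat := .move 842 n1480 (.cons 796 n2162 .nil)
noncomputable def n2348 : Strat := .move 759 n1445 (.cons 718 n2347 .nil)
noncomputable def n2349 : Strat := .move 800 n1253 (.cons 801 n2348 .nil)
noncomputable def n2350 : Strat := .move 841 n262 (.cons 883 n2349 .nil)
noncomputable def n2351 : Strat := .move 838 n129 (.cons 837 n2350 .nil)
noncomputable def n2352 : Strat := .move 842 n594 (.cons 879 n2299 (.cons 880 n1548 .nil))
noncomputable def n2353 : Strat := .move 842 n594 (.cons 879 n2299 (.cons 880 n1532 .nil))
noncomputable def n2354 : Strat := .move 842 n1479 (.cons 798 n1795 .nil)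
noncomputable def n2355 : Strat := .move 797 n271 (.cons 796 n2354 .nil)
noncomputable def n2356 : Strat := .move 841 n2352 (.cons 800 n2353 (.cons 879 n2120 (.cons 843 n2355 (.cons 842 n2296 .nil))))
noncomputable def n2357 : Strat := .move 838 n129 (.cons 837 n2356 .nil)
noncomputable def n2358 : Strat := .move 882 n1411 (.cons 838 n2346 (.cons 841 n2287 (.cons 884 n2351 (.cons 883 n2357 .nil))))
noncomputable def n2359 : Strat := .move 837 n424 (.cons 882 n2132 .nil)
noncomputable def n2360 : Strat := .move 841 n2269 (.cons 882 n2203 (.cons 880 n2263 .nil))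
noncomputable def n2361 : Strat := .move 838 n2359 (.cons 882 n2161 (.cons 880 n2250 (.cons 877 n2267 (.cons 837 n2360 .nil))))
noncomputable def n2362 : Strat := .move 882 n262 (.cons 883 n1797 .nil)
noncomputable def n2363 : Strat := .move 924 n1453 (.cons 965 n2290 .nil)
noncomputable def n2364 : Strat := .move 923 n2255 (.cons 758 n2257 (.cons 964 n2363 .nil))
noncomputable def n2365 : Strat := .move 800 n1253 (.cons 801 n2364 .nil)
noncomputable def n2366 : Strat := .move 879 n265 (.cons 878 n2365 .nil)
noncomputable def n2367 : Strat := .move 882 n262 (.cons 883 n2366 .nil)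
noncomputable def n2368 : Strat := .move 882 n262 (.cons 883 n2352 .nil)
noncomputable def n2369 : Strat := .move 882 n262 (.cons 883 n2312 .nil)
noncomputable def n2370 : Strat := .move 841 n2269 (.cons 919 n2362 (.cons 882 n2203 (.cons 842 n2367 (.cons 878 n2368 (.cons 879 n2336 (.cons 880 n2369 .nil))))))
noncomputable def n2371 : Strat := .move 838 n2359 (.cons 882 n2197 (.cons 880 n2251 (.cons 877 n2267 (.cons 837 n2370 .nil))))
noncomputable def n2372 : Strat := .move 841 n1439 (.cons 879 n1588 (.cons 797 n1600 (.cons 880 n1595 (.cons 842 n1573 .nil))))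
noncomputable def n2373 : Strat := .move 838 n129 (.cons 837 n2372 .nil)
noncomputable def n2374 : Strat := .move 880 n2113 (.cons 758 n1756 .nil)
noncomputable def n2375 : Strat := .move 883 n442 (.cons 884 n2374 .nil)
noncomputable def n2376 : Strat := .move 882 n1906 (.cons 884 n1917 (.cons 837 n1926 (.cons 841 n1924 (.cons 883 n2373 (.cons 838 n2375 .nil)))))
noncomputable def n2377 : Strat := .win 799 3 798
noncomputable def n2378 : Strat := .move 962 n2377 (.cons 799 n1728 .nil)
noncomputable def n2379 : Strat := .win 879 1 756
noncomputable def n2380 : Strat := .move 920 n2379 (.cons 879 n1072 .nil)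
noncomputable def n2381 : Strat := .move 757 n1412 (.cons 716 n2380 .nil)
noncomputable def n2382 : Strat := .win 879 4 878
noncomputable def n2383 : Strat := .win 918 5 877
noncomputable def n2384 : Strat := .move 919 n2382 (.cons 879 n2383 .nil)
noncomputable def n2385 : Strat := .move 882 n230 (.cons 883 n2384 .nil)
noncomputable def n2386 : Strat := .move 920 n1072 (.cons 961 n2385 .nil)
noncomputable def n2387 : Strat := .move 798 n2381 (.cons 757 n2386 (.cons 961 n1726 .nil))
noncomputable def n2388 : Strat := .move 799 n183 (.cons 758 n2387 .nil)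
noncomputable def n2389 : Strat := .move 882 n129 (.cons 837 n130 .nil)
noncomputable def n2390 : Strat := .move 838 n616 (.cons 797 n2389 .nil)
noncomputable def n2391 : Strat := .move 962 n1728 (.cons 1003 n2390 .nil)
noncomputable def n2392 : Strat := .move 921 n2378 (.cons 1003 n2112 (.cons 962 n2388 (.cons 799 n2391 .nil)))
noncomputable def n2393 : Strat := .move 799 n2111 (.cons 962 n2387 .nil)
noncomputable def n2394 : Strat := .win 1002 1 838
noncomputable def n2395 : Strat := .win 798 1 797
noncomputable def n2396 : Strat := .win 964 2 919
noncomputable def n2397 : Strat := .move 963 n2396 (.cons 964 n615 .nil)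
noncomputable def n2398 : Strat := .move 919 n2383 (.cons 918 n2397 .nil)
noncomputable def n2399 : Strat := .move 920 n2395 (.cons 798 n2398 .nil)
noncomputable def n2400 : Strat := .move 961 n2394 (.cons 1002 n2399 .nil)
noncomputable def n2401 : Strat := .move 962 n1728 (.cons 1003 n2400 .nil)
noncomputable def n2402 : Strat := .move 921 n2112 (.cons 962 n2388 (.cons 758 n2393 (.cons 799 n2401 .nil)))
noncomputable def n2403 : Strat := .move 883 n442 (.cons 884 n1696 .nil)
noncomputable def n2404 : Strat := .move 962 n1728 (.cons 1003 n616 .nil)
noncomputable def n2405 : Strat := .move 919 n2383 (.cons 918 n2382 .nil)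
noncomputable def n2406 : Strat := .move 920 n1072 (.cons 961 n2405 .nil)
noncomputable def n2407 : Strat := .move 798 n2381 (.cons 757 n2406 (.cons 961 n1726 .nil))
noncomputable def n2408 : Strat := .move 961 n2394 (.cons 1002 n2395 .nil)
noncomputable def n2409 : Strat := .move 920 n2408 (.cons 798 n2405 .nil)
noncomputable def n2410 : Strat := .move 962 n1728 (.cons 1003 n2409 .nil)
noncomputable def n2411 : Strat := .move 921 n2404 (.cons 962 n2407 (.cons 797 n2410 .nil))
noncomputable def n2412 : Strat := .move 838 n129 (.cons 837 n2411 .nil)
noncomputable def n2413 : Strat := .move 882 n839 (.cons 838 n2403 (.cons 884 n131 (.cons 883 n2412 .nil)))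
noncomputable def n2414 : Strat := .win 838 0 837
noncomputable def n2415 : Strat := .move 878 n1819 (.cons 877 n1115 .nil)
noncomputable def n2416 : Strat := .move 799 n2111 (.cons 962 n183 .nil)
noncomputable def n2417 : Strat := .move 962 n1728 (.cons 1003 n2377 .nil)
noncomputable def n2418 : Strat := .move 961 n2395 (.cons 798 n1578 .nil)
noncomputable def n2419 : Strat := .move 921 n2416 (.cons 758 n2417 (.cons 962 n2418 .nil))
noncomputable def n2420 : Strat := .move 920 n231 (.cons 919 n2419 .nil)
noncomputable def n2421 : Strat := .move 879 n2415 (.cons 877 n2420 .nil)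
noncomputable def n2422 : Strat := .move 837 n2414 (.cons 838 n2421 .nil)
noncomputable def n2423 : Strat := .move 883 n442 (.cons 884 n2113 .nil)
noncomputable def n2424 : Strat := .move 882 n131 (.cons 883 n2422 (.cons 837 n839 (.cons 838 n2423 .nil)))
noncomputable def n2425 : Strat := .move 879 n2415 (.cons 877 n1581 .nil)
noncomputable def n2426 : Strat := .move 837 n2414 (.cons 838 n2425 .nil)
noncomputable def n2427 : Strat := .move 882 n131 (.cons 838 n2423 (.cons 883 n2426 .nil))
noncomputable def n2428 : Strat := .move 883 n442 (.cons 884 n1877 .nil)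
noncomputable def n2429 : Strat := .move 879 n2415 (.cons 878 n1581 .nil)
noncomputable def n2430 : Strat := .move 837 n2414 (.cons 838 n2429 .nil)
noncomputable def n2431 : Strat := .move 882 n839 (.cons 838 n2428 (.cons 884 n131 (.cons 883 n2430 .nil)))
noncomputable def n2432 : Strat := .move 838 n423 (.cons 836 n424 .nil)
noncomputable def n2433 : Strat := .win 800 4 796
noncomputable def n2434 : Strat := .move 838 n2433 (.cons 800 n423 .nil)
noncomputable def n2435 : Strat := .move 838 n2433 (.cons 800 n424 .nil)
noncomputable def n2436 : Strat := .move 796 n478 (.cons 836 n359 .nil)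
noncomputable def n2437 : Strat := .move 837 n2432 (.cons 882 n2434 (.cons 836 n2435 (.cons 838 n2436 .nil)))
noncomputable def n2438 : Strat := .move 797 n358 (.cons 756 n2437 .nil)
noncomputable def n2439 : Strat := .move 798 n2381 (.cons 757 n2438 .nil)
noncomputable def n2440 : Strat := .move 799 n183 (.cons 758 n2439 .nil)
noncomputable def n2441 : Strat := .move 837 n424 (.cons 882 n423 .nil)
noncomputable def n2442 : Strat := .move 838 n616 (.cons 797 n2441 .nil)
noncomputable def n2443 : Strat := .move 962 n1728 (.cons 1003 n2442 .nil)
noncomputable def n2444 : Strat := .move 921 n2378 (.cons 1003 n2112 (.cons 962 n2440 (.cons 799 n2443 .nil)))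
noncomputable def n2445 : Strat := .win 798 3 797
noncomputable def n2446 : Strat := .move 961 n2445 (.cons 798 n1578 .nil)
noncomputable def n2447 : Strat := .move 920 n231 (.cons 919 n2446 .nil)
noncomputable def n2448 : Strat := .move 838 n129 (.cons 837 n2447 .nil)
noncomputable def n2449 : Strat := .move 878 n1819 (.cons 877 n1609 .nil)
noncomputable def n2450 : Strat := .move 837 n2414 (.cons 838 n2415 .nil)
noncomputable def n2451 : Strat := .move 879 n2448 (.cons 838 n2449 (.cons 919 n2450 .nil))
noncomputable def n2452 : Strat := .move 882 n131 (.cons 838 n2428 (.cons 883 n2451 .nil))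
noncomputable def n2453 : Strat := .move 799 n183 (.cons 758 n1726 .nil)
noncomputable def n2454 : Strat := .move 756 n1724 (.cons 797 n664 .nil)
noncomputable def n2455 : Strat := .move 757 n1412 (.cons 716 n2454 .nil)
noncomputable def n2456 : Strat := .win 799 1 757
noncomputable def n2457 : Strat := .win 717 3 716
noncomputable def n2458 : Strat := .move 757 n1412 (.cons 716 n2457 .nil)
noncomputable def n2459 : Strat := .move 758 n2456 (.cons 799 n2458 .nil)
noncomputable def n2460 : Strat := .move 799 n183 (.cons 758 n2438 .nil)
noncomputable def n2461 : Strat := .move 798 n2453 (.cons 799 n2455 (.cons 797 n2459 (.cons 757 n2460 .nil)))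
noncomputable def n2462 : Strat := .move 921 n2378 (.cons 799 n2391 (.cons 1003 n2112 (.cons 962 n2461 .nil)))
noncomputable def n2463 : Strat := .move 838 n129 (.cons 837 n1870 .nil)
noncomputable def n2464 : Strat := .move 921 n1728 (.cons 1003 n2377 .nil)
noncomputable def n2465 : Strat := .win 797 6 797
noncomputable def n2466 : Strat := .move 921 n2465 (.cons 797 n1728 .nil)
noncomputable def n2467 : Strat := .move 921 n2465 (.cons 797 n2377 .nil)
noncomputable def n2468 : Strat := .win 1003 6 838
noncomputable def n2469 : Strat := .move 961 n2468 (.cons 1003 n1578 .nil)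
noncomputable def n2470 : Strat := .move 962 n2464 (.cons 799 n2466 (.cons 1003 n2467 (.cons 921 n2469 .nil)))
noncomputable def n2471 : Strat := .move 920 n231 (.cons 919 n2470 .nil)
noncomputable def n2472 : Strat := .move 838 n129 (.cons 837 n2471 .nil)
noncomputable def n2473 : Strat := .move 879 n2463 (.cons 838 n2449 (.cons 878 n2472 (.cons 920 n2450 .nil)))
noncomputable def n2474 : Strat := .move 882 n839 (.cons 838 n2423 (.cons 884 n131 (.cons 883 n2473 .nil)))
noncomputable def n2475 : Strat := .move 755 n666 (.cons 800 n665 .nil)
noncomputable def n2476 : Strat := .move 756 n664 (.cons 715 n2475 .nil)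
noncomputable def n2477 : Strat := .move 799 n7 (.cons 921 n2476 .nil)
noncomputable def n2478 : Strat := .move 758 n2457 (.cons 717 n2477 .nil)
noncomputable def n2479 : Strat := .move 757 n1412 (.cons 716 n2478 .nil)
noncomputable def n2480 : Strat := .move 797 n93 (.cons 796 n92 .nil)
noncomputable def n2481 : Strat := .win 719 5 715
noncomputable def n2482 : Strat := .win 799 3 717
noncomputable def n2483 : Strat := .move 718 n2481 (.cons 719 n2482 .nil)
noncomputable def n2484 : Strat := .move 759 n2480 (.cons 760 n2483 .nil)
noncomputable def n2485 : Strat := .move 756 n664 (.cons 715 n2484 .nil)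
noncomputable def n2486 : Strat := .move 758 n2457 (.cons 717 n2485 .nil)
noncomputable def n2487 : Strat := .move 757 n1412 (.cons 716 n2486 .nil)
noncomputable def n2488 : Strat := .win 921 7 756
noncomputable def n2489 : Strat := .move 759 n93 (.cons 796 n92 .nil)
noncomputable def n2490 : Strat := .move 797 n2488 (.cons 921 n2489 .nil)
noncomputable def n2491 : Strat := .move 756 n664 (.cons 715 n2490 .nil)
noncomputable def n2492 : Strat := .move 758 n2457 (.cons 717 n2491 .nil)
noncomputable def n2493 : Strat := .move 757 n1412 (.cons 716 n2492 .nil)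
noncomputable def n2494 : Strat := .move 757 n664 (.cons 715 n2379 .nil)
noncomputable def n2495 : Strat := .move 756 n1724 (.cons 797 n2494 .nil)
noncomputable def n2496 : Strat := .move 920 n1072 (.cons 961 n2495 .nil)
noncomputable def n2497 : Strat := .move 799 n183 (.cons 758 n2496 .nil)
noncomputable def n2498 : Strat := .win 838 7 797
noncomputable def n2499 : Strat := .move 797 n358 (.cons 756 n2498 .nil)
noncomputable def n2500 : Strat := .move 962 n1728 (.cons 1003 n2499 .nil)
noncomputable def n2501 : Strat := .move 921 n2112 (.cons 962 n2497 (.cons 799 n2500 .nil))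
noncomputable def n2502 : Strat := .win 920 1 756
noncomputable def n2503 : Strat := .move 921 n2417 (.cons 799 n2454 .nil)
noncomputable def n2504 : Strat := .move 878 n1819 (.cons 877 n2503 .nil)
noncomputable def n2505 : Strat := .move 879 n2502 (.cons 920 n2504 .nil)
noncomputable def n2506 : Strat := .move 757 n1412 (.cons 716 n2505 .nil)
noncomputable def n2507 : Strat := .move 921 n183 (.cons 758 n2111 .nil)
noncomputable def n2508 : Strat := .win 800 5 756
noncomputable def n2509 : Strat := .move 760 n2508 (.cons 800 n95 .nil)
noncomputable def n2510 : Strat := .move 797 n659 (.cons 796 n2509 .nil)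
noncomputable def n2511 : Strat := .move 759 n2 (.cons 718 n2510 .nil)
noncomputable def n2512 : Strat := .move 758 n128 (.cons 717 n2511 .nil)
noncomputable def n2513 : Strat := .win 759 5 756
noncomputable def n2514 : Strat := .move 797 n2513 (.cons 759 n358 .nil)
noncomputable def n2515 : Strat := .move 801 n564 (.cons 761 n77 .nil)
noncomputable def n2516 : Strat := .move 760 n2514 (.cons 756 n2515 .nil)
noncomputable def n2517 : Strat := .move 921 n2111 (.cons 962 n2516 .nil)
noncomputable def n2518 : Strat := .win 838 5 796
noncomputable def n2519 : Strat := .move 921 n358 (.cons 756 n2111 .nil)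
noncomputable def n2520 : Strat := .move 756 n81 (.cons 755 n2488 .nil)
noncomputable def n2521 : Strat := .move 797 n2519 (.cons 962 n2520 (.cons 756 n2436 .nil))
noncomputable def n2522 : Strat := .move 837 n2518 (.cons 838 n2521 .nil)
noncomputable def n2523 : Strat := .move 800 n220 (.cons 838 n2517 (.cons 801 n2522 .nil))
noncomputable def n2524 : Strat := .move 799 n2507 (.cons 921 n2512 (.cons 758 n2523 .nil))
noncomputable def n2525 : Strat := .move 920 n1072 (.cons 961 n2379 .nil)
noncomputable def n2526 : Strat := .move 921 n2456 (.cons 799 n2525 .nil)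
noncomputable def n2527 : Strat := .move 758 n2457 (.cons 717 n2526 .nil)
noncomputable def n2528 : Strat := .move 757 n1412 (.cons 716 n2527 .nil)
noncomputable def n2529 : Strat := .move 798 n2479 (.cons 921 n2487 (.cons 799 n2493 (.cons 716 n2501 (.cons 758 n2506 (.cons 757 n2524 (.cons 756 n2528 .nil))))))
noncomputable def n2530 : Strat := .move 880 n2392 (.cons 838 n2402 (.cons 799 n2413 (.cons 757 n2424 (.cons 1003 n2427 (.cons 962 n2431 (.cons 883 n2444 (.cons 921 n2452 (.cons 879 n2462 (.cons 798 n2474 (.cons 882 n2529 .nil))))))))))
noncomputable def n2531 : Strat := .move 841 n264 (.cons 842 n432 .nil)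
noncomputable def n2532 : Strat := .win 882 4 878
noncomputable def n2533 : Strat := .move 798 n1577 (.cons 921 n1576 .nil)
noncomputable def n2534 : Strat := .move 961 n1578 (.cons 1002 n2533 .nil)
noncomputable def n2535 : Strat := .move 920 n2532 (.cons 882 n2534 .nil)
noncomputable def n2536 : Strat := .move 919 n1119 (.cons 918 n2535 .nil)
noncomputable def n2537 : Strat := .move 878 n1819 (.cons 877 n2536 .nil)
noncomputable def n2538 : Strat := .move 923 n783 (.cons 924 n2255 .nil)
noncomputable def n2539 : Strat := .move 883 n442 (.cons 884 n1776 .nil)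
noncomputable def n2540 : Strat := .move 882 n2538 (.cons 923 n2539 .nil)
noncomputable def n2541 : Strat := .move 841 n264 (.cons 842 n2540 .nil)
noncomputable def n2542 : Strat := .move 879 n2531 (.cons 842 n1878 (.cons 841 n2537 (.cons 878 n2541 .nil)))
noncomputable def n2543 : Strat := .move 796 n360 (.cons 841 n359 .nil)
noncomputable def n2544 : Strat := .move 797 n358 (.cons 756 n2543 .nil)
noncomputable def n2545 : Strat := .move 799 n183 (.cons 758 n2544 .nil)
noncomputable def n2546 : Strat := .move 798 n2545 (.cons 799 n2455 (.cons 756 n2459 .nil))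
noncomputable def n2547 : Strat := .move 921 n2112 (.cons 799 n2401 (.cons 962 n2546 .nil))
noncomputable def n2548 : Strat := .move 796 n2229 (.cons 961 n2230 .nil)
noncomputable def n2549 : Strat := .move 837 n1115 (.cons 836 n2548 .nil)
noncomputable def n2550 : Strat := .move 920 n2532 (.cons 882 n2549 .nil)
noncomputable def n2551 : Strat := .move 919 n1119 (.cons 918 n2550 .nil)
noncomputable def n2552 : Strat := .move 878 n1819 (.cons 877 n2551 .nil)
noncomputable def n2553 : Strat := .move 923 n783 (.cons 924 n2289 .nil)
noncomputable def n2554 : Strat := .move 841 n264 (.cons 842 n2553 .nil)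
noncomputable def n2555 : Strat := .move 841 n264 (.cons 842 n2538 .nil)
noncomputable def n2556 : Strat := .move 883 n442 (.cons 884 n1418 .nil)
noncomputable def n2557 : Strat := .move 883 n442 (.cons 884 n1125 .nil)
noncomputable def n2558 : Strat := .move 842 n1754 (.cons 841 n2557 .nil)
noncomputable def n2559 : Strat := .move 882 n2554 (.cons 1005 n2555 (.cons 841 n2556 (.cons 924 n2558 .nil)))
noncomputable def n2560 : Strat := .move 879 n2531 (.cons 841 n2552 (.cons 878 n2559 .nil))
noncomputable def n2561 : Strat := .move 883 n1417 (.cons 921 n442 .nil)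
noncomputable def n2562 : Strat := .move 920 n231 (.cons 919 n2561 .nil)
noncomputable def n2563 : Strat := .move 882 n2556 (.cons 925 n2562 (.cons 883 n1581 .nil))
noncomputable def n2564 : Strat := .move 841 n432 (.cons 878 n2563 .nil)
noncomputable def n2565 : Strat := .move 841 n264 (.cons 842 n2563 .nil)
noncomputable def n2566 : Strat := .move 879 n2531 (.cons 842 n2564 (.cons 841 n2537 (.cons 878 n2565 .nil)))
noncomputable def n2567 : Strat := .move 798 n2544 (.cons 796 n2381 .nil)
noncomputable def n2568 : Strat := .move 921 n2111 (.cons 962 n2567 .nil)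
noncomputable def n2569 : Strat := .win 798 7 715
noncomputable def n2570 : Strat := .move 715 n99 (.cons 714 n2569 .nil)
noncomputable def n2571 : Strat := .move 756 n91 (.cons 755 n2570 .nil)
noncomputable def n2572 : Strat := .move 759 n2 (.cons 718 n2571 .nil)
noncomputable def n2573 : Strat := .move 757 n0 (.cons 716 n2572 .nil)
noncomputable def n2574 : Strat := .move 758 n128 (.cons 717 n2573 .nil)
noncomputable def n2575 : Strat := .move 799 n1281 (.cons 717 n2507 (.cons 758 n2568 (.cons 921 n2574 .nil)))
noncomputable def n2576 : Strat := .move 883 n442 (.cons 884 n1773 .nil)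
noncomputable def n2577 : Strat := .move 882 n2538 (.cons 964 n2576 (.cons 923 n2539 .nil))
noncomputable def n2578 : Strat := .move 879 n432 (.cons 878 n2577 .nil)
noncomputable def n2579 : Strat := .win 966 6 801
noncomputable def n2580 : Strat := .win 882 0 880
noncomputable def n2581 : Strat := .move 925 n2579 (.cons 966 n2580 .nil)
noncomputable def n2582 : Strat := .move 800 n1636 (.cons 759 n1617 .nil)
noncomputable def n2583 : Strat := .move 924 n2581 (.cons 882 n2582 .nil)
noncomputable def n2584 : Strat := .move 801 n595 (.cons 802 n2583 .nil)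
noncomputable def n2585 : Strat := .move 883 n1175 (.cons 884 n2584 .nil)
noncomputable def n2586 : Strat := .move 842 n267 (.cons 843 n2585 .nil)
noncomputable def n2587 : Strat := .move 841 n809 (.cons 842 n2578 (.cons 879 n2586 .nil))
noncomputable def n2588 : Strat := .move 842 n268 (.cons 879 n339 .nil)
noncomputable def n2589 : Strat := .move 797 n72 (.cons 796 n2519 .nil)
noncomputable def n2590 : Strat := .move 841 n2588 (.cons 842 n2589 .nil)
noncomputable def n2591 : Strat := .move 799 n1281 (.cons 717 n2507 (.cons 758 n2590 (.cons 921 n2512 .nil)))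
noncomputable def n2592 : Strat := .win 759 4 755
noncomputable def n2593 : Strat := .move 796 n2592 (.cons 759 n359 .nil)
noncomputable def n2594 : Strat := .move 758 n2457 (.cons 717 n2593 .nil)
noncomputable def n2595 : Strat := .move 797 n2488 (.cons 921 n2594 .nil)
noncomputable def n2596 : Strat := .move 756 n664 (.cons 715 n2595 .nil)
noncomputable def n2597 : Strat := .move 757 n1412 (.cons 716 n2596 .nil)
noncomputable def n2598 : Strat := .move 921 n1724 (.cons 797 n2416 .nil)
noncomputable def n2599 : Strat := .move 756 n664 (.cons 715 n2598 .nil)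
noncomputable def n2600 : Strat := .move 757 n1412 (.cons 716 n2599 .nil)
noncomputable def n2601 : Strat := .win 799 0 796
noncomputable def n2602 : Strat := .move 796 n2601 (.cons 799 n359 .nil)
noncomputable def n2603 : Strat := .move 841 n1590 (.cons 842 n2602 .nil)
noncomputable def n2604 : Strat := .move 797 n2488 (.cons 921 n2603 .nil)
noncomputable def n2605 : Strat := .move 756 n664 (.cons 715 n2604 .nil)
noncomputable def n2606 : Strat := .move 757 n1412 (.cons 716 n2605 .nil)
noncomputable def n2607 : Strat := .move 799 n7 (.cons 921 n136 .nil)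
noncomputable def n2608 : Strat := .move 758 n2457 (.cons 717 n2607 .nil)
noncomputable def n2609 : Strat := .move 757 n1412 (.cons 716 n2608 .nil)
noncomputable def n2610 : Strat := .move 798 n2479 (.cons 757 n2591 (.cons 921 n2487 (.cons 799 n2597 (.cons 717 n2600 (.cons 758 n2606 (.cons 756 n2609 .nil))))))
noncomputable def n2611 : Strat := .move 880 n2542 (.cons 879 n2547 (.cons 921 n2560 (.cons 799 n2566 (.cons 841 n2402 (.cons 919 n2575 (.cons 961 n2587 (.cons 920 n2610 .nil)))))))
noncomputable def n2612 : Strat := .move 839 n2123 (.cons 882 n2240 (.cons 880 n2265 (.cons 799 n2274 (.cons 798 n2283 (.cons 837 n2332 (.cons 879 n2339 (.cons 842 n2344 (.cons 878 n2358 (.cons 797 n2361 (.cons 796 n2371 (.cons 801 n2376 (.cons 841 n2530 (.cons 838 n2611 .nil)))))))))))))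
noncomputable def n2613 : Strat := .move 881 n107 (.cons 675 n201 (.cons 677 n308 (.cons 755 n350 (.cons 1005 n440 (.cons 880 n544 (.cons 758 n631 (.cons 963 n703 (.cons 882 n742 (.cons 759 n781 (.cons 757 n828 (.cons 837 n846 (.cons 796 n873 (.cons 962 n974 (.cons 838 n1003 (.cons 841 n1079 (.cons 839 n1102 (.cons 798 n1162 (.cons 921 n1183 (.cons 923 n1293 (.cons 964 n1372 (.cons 800 n1408 (.cons 799 n2110 (.cons 922 n2612 .nil)))))))))))))))))))))))

end Vale.Agent.Snaky.R5_1
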