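import Vale.Agent.Snaky.Assemble

namespace Vale.Agent.Snaky.R5_2

open Vale.Agent.Snaky

noncomputable def n0 : Strat := .win 797 2 797
noncomputable def n1 : Strat := .win 799 2 798
noncomputable def n2 : Strat := .win 879 4 838
noncomputable def n3 : Strat := .win 881 4 839
noncomputable def n4 : Strat := .move 880 n2 (.cons 879 n3 .nil)
noncomputable def n5 : Strat := .move 843 n1 (.cons 799 n4 .nil)
noncomputable def n6 : Strat := .move 798 n0 (.cons 797 n5 .nil)
noncomputable def n7 : Strat := .win 884 0 839
noncomputable def n8 : Strat := .win 882 0 838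
noncomputable def n9 : Strat := .win 802 5 798
noncomputable def n10 : Strat := .win 800 5 797
noncomputable def n11 : Strat := .move 801 n9 (.cons 802 n10 .nil)
noncomputable def n12 : Strat := .move 838 n8 (.cons 882 n11 .nil)
noncomputable def n13 : Strat := .move 883 n7 (.cons 884 n12 .nil)
noncomputable def n14 : Strat := .move 839 n6 (.cons 799 n13 .nil)
noncomputable def n15 : Strat := .win 843 2 798
noncomputable def n16 : Strat := .win 717 1 716
noncomputable def n17 : Strat := .win 921 3 757
noncomputable def n18 : Strat := .move 758 n16 (.cons 717 n17 .nil)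
noncomputable def n19 : Strat := .move 799 n15 (.cons 843 n18 .nil)
noncomputable def n20 : Strat := .move 880 n2 (.cons 879 n19 .nil)
noncomputable def n21 : Strat := .move 798 n0 (.cons 797 n20 .nil)
noncomputable def n22 : Strat := .win 880 4 838
noncomputable def n23 : Strat := .win 878 4 837
noncomputable def n24 : Strat := .move 879 n22 (.cons 880 n23 .nil)
noncomputable def n25 : Strat := .move 838 n10 (.cons 800 n24 .nil)
noncomputable def n26 : Strat := .move 801 n9 (.cons 802 n25 .nil)
noncomputable def n27 : Strat := .win 798 2 797
noncomputable def n28 : Strat := .win 796 2 796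
noncomputable def n29 : Strat := .move 797 n27 (.cons 798 n28 .nil)
noncomputable def n30 : Strat := .move 838 n10 (.cons 800 n29 .nil)
noncomputable def n31 : Strat := .move 801 n9 (.cons 802 n30 .nil)
noncomputable def n32 : Strat := .move 839 n21 (.cons 921 n26 (.cons 880 n31 .nil))
noncomputable def n33 : Strat := .win 798 2 798
noncomputable def n34 : Strat := .win 800 2 799
noncomputable def n35 : Strat := .win 880 4 839
noncomputable def n36 : Strat := .win 882 4 840
noncomputable def n37 : Strat := .move 881 n35 (.cons 880 n36 .nil)
noncomputable def n38 : Strat := .move 844 n34 (.cons 800 n37 .nil)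
noncomputable def n39 : Strat := .move 799 n33 (.cons 798 n38 .nil)
noncomputable def n40 : Strat := .win 802 5 799
noncomputable def n41 : Strat := .win 804 5 800
noncomputable def n42 : Strat := .move 803 n40 (.cons 802 n41 .nil)
noncomputable def n43 : Strat := .move 844 n34 (.cons 800 n42 .nil)
noncomputable def n44 : Strat := .move 799 n33 (.cons 798 n43 .nil)
noncomputable def n45 : Strat := .move 844 n36 (.cons 882 n42 .nil)
noncomputable def n46 : Strat := .move 881 n35 (.cons 880 n45 .nil)
noncomputable def n47 : Strat := .win 803 5 799
noncomputable def n48 : Strat := .win 923 6 758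
noncomputable def n49 : Strat := .win 717 6 717
noncomputable def n50 : Strat := .move 882 n48 (.cons 923 n49 .nil)
noncomputable def n51 : Strat := .win 922 3 758
noncomputable def n52 : Strat := .win 718 1 717
noncomputable def n53 : Strat := .move 759 n51 (.cons 922 n52 .nil)
noncomputable def n54 : Strat := .win 963 3 799
noncomputable def n55 : Strat := .win 759 3 758
noncomputable def n56 : Strat := .move 922 n54 (.cons 963 n55 .nil)
noncomputable def n57 : Strat := .win 801 2 757
noncomputable def n58 : Strat := .win 716 7 716
noncomputable def n59 : Strat := .move 757 n57 (.cons 801 n58 .nil)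
noncomputable def n60 : Strat := .move 800 n53 (.cons 718 n56 (.cons 922 n59 .nil))
noncomputable def n61 : Strat := .move 758 n50 (.cons 717 n60 .nil)
noncomputable def n62 : Strat := .move 802 n47 (.cons 803 n61 .nil)
noncomputable def n63 : Strat := .move 881 n35 (.cons 880 n62 .nil)
noncomputable def n64 : Strat := .move 799 n33 (.cons 798 n63 .nil)
noncomputable def n65 : Strat := .move 843 n39 (.cons 882 n44 (.cons 799 n46 (.cons 844 n64 .nil)))
noncomputable def n66 : Strat := .move 883 n7 (.cons 884 n8 .nil)
noncomputable def n67 : Strat := .move 838 n10 (.cons 800 n66 .nil)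
noncomputable def n68 : Strat := .move 801 n9 (.cons 802 n67 .nil)
noncomputable def n69 : Strat := .move 838 n8 (.cons 882 n24 .nil)
noncomputable def n70 : Strat := .move 883 n7 (.cons 884 n69 .nil)
noncomputable def n71 : Strat := .win 922 6 757
noncomputable def n72 : Strat := .win 716 6 716
noncomputable def n73 : Strat := .move 881 n71 (.cons 922 n72 .nil)
noncomputable def n74 : Strat := .move 758 n17 (.cons 921 n16 .nil)
noncomputable def n75 : Strat := .win 962 3 798
noncomputable def n76 : Strat := .win 758 3 757
noncomputable def n77 : Strat := .move 921 n75 (.cons 962 n76 .nil)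
noncomputable def n78 : Strat := .win 800 2 756
noncomputable def n79 : Strat := .win 715 7 715
noncomputable def n80 : Strat := .move 756 n78 (.cons 800 n79 .nil)
noncomputable def n81 : Strat := .move 799 n74 (.cons 717 n77 (.cons 921 n80 .nil))
noncomputable def n82 : Strat := .move 757 n73 (.cons 716 n81 .nil)
noncomputable def n83 : Strat := .move 801 n9 (.cons 802 n82 .nil)
noncomputable def n84 : Strat := .move 880 n2 (.cons 879 n83 .nil)
noncomputable def n85 : Strat := .move 798 n0 (.cons 797 n84 .nil)
noncomputable def n86 : Strat := .move 839 n68 (.cons 800 n70 (.cons 882 n31 (.cons 838 n85 .nil)))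
noncomputable def n87 : Strat := .win 801 5 798
noncomputable def n88 : Strat := .move 802 n87 (.cons 801 n47 .nil)
noncomputable def n89 : Strat := .move 843 n3 (.cons 881 n88 .nil)
noncomputable def n90 : Strat := .move 880 n2 (.cons 879 n89 .nil)
noncomputable def n91 : Strat := .move 839 n13 (.cons 883 n90 (.cons 801 n70 .nil))
noncomputable def n92 : Strat := .move 799 n33 (.cons 798 n34 .nil)
noncomputable def n93 : Strat := .move 844 n36 (.cons 882 n92 .nil)
noncomputable def n94 : Strat := .move 881 n35 (.cons 880 n93 .nil)
noncomputable def n95 : Strat := .win 885 0 840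
noncomputable def n96 : Strat := .win 883 0 839
noncomputable def n97 : Strat := .move 798 n0 (.cons 797 n1 .nil)
noncomputable def n98 : Strat := .move 839 n96 (.cons 883 n97 .nil)
noncomputable def n99 : Strat := .move 884 n95 (.cons 885 n98 .nil)
noncomputable def n100 : Strat := .win 884 0 840
noncomputable def n101 : Strat := .win 886 0 841
noncomputable def n102 : Strat := .move 885 n100 (.cons 884 n101 .nil)
noncomputable def n103 : Strat := .move 844 n36 (.cons 882 n102 .nil)
noncomputable def n104 : Strat := .move 881 n35 (.cons 880 n103 .nil)
noncomputable def n105 : Strat := .move 843 n94 (.cons 881 n99 (.cons 798 n104 .nil))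
noncomputable def n106 : Strat := .move 843 n3 (.cons 881 n97 .nil)
noncomputable def n107 : Strat := .move 880 n2 (.cons 879 n106 .nil)
noncomputable def n108 : Strat := .move 838 n8 (.cons 882 n29 .nil)
noncomputable def n109 : Strat := .move 883 n7 (.cons 884 n108 .nil)
noncomputable def n110 : Strat := .move 839 n107 (.cons 843 n70 (.cons 880 n109 .nil))
noncomputable def n111 : Strat := .win 839 5 798
noncomputable def n112 : Strat := .win 719 6 719
noncomputable def n113 : Strat := .win 925 7 760
noncomputable def n114 : Strat := .move 760 n112 (.cons 719 n113 .nil)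
noncomputable def n115 : Strat := .move 801 n111 (.cons 839 n114 .nil)
noncomputable def n116 : Strat := .move 884 n95 (.cons 885 n115 .nil)
noncomputable def n117 : Strat := .move 802 n47 (.cons 803 n116 .nil)
noncomputable def n118 : Strat := .move 844 n34 (.cons 800 n102 .nil)
noncomputable def n119 : Strat := .move 799 n33 (.cons 798 n118 .nil)
noncomputable def n120 : Strat := .move 843 n117 (.cons 925 n119 (.cons 884 n44 .nil))
noncomputable def n121 : Strat := .move 842 n14 (.cons 884 n32 (.cons 839 n65 (.cons 843 n86 (.cons 799 n91 (.cons 801 n105 (.cons 800 n110 (.cons 880 n120 .nil)))))))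
noncomputable def n122 : Strat := .move 885 n101 (.cons 886 n100 .nil)
noncomputable def n123 : Strat := .move 803 n41 (.cons 804 n40 .nil)
noncomputable def n124 : Strat := .move 844 n122 (.cons 884 n123 .nil)
noncomputable def n125 : Strat := .move 838 n28 (.cons 796 n124 .nil)
noncomputable def n126 : Strat := .move 797 n27 (.cons 798 n125 .nil)
noncomputable def n127 : Strat := .move 843 n3 (.cons 881 n126 .nil)
noncomputable def n128 : Strat := .move 880 n2 (.cons 879 n127 .nil)
noncomputable def n129 : Strat := .win 843 4 839
noncomputable def n130 : Strat := .win 757 6 757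
noncomputable def n131 : Strat := .win 963 7 798
noncomputable def n132 : Strat := .move 922 n130 (.cons 757 n131 .nil)
noncomputable def n133 : Strat := .move 798 n0 (.cons 797 n132 .nil)
noncomputable def n134 : Strat := .move 881 n129 (.cons 843 n133 .nil)
noncomputable def n135 : Strat := .move 880 n2 (.cons 879 n134 .nil)
noncomputable def n136 : Strat := .move 839 n90 (.cons 880 n31 (.cons 801 n128 (.cons 802 n135 .nil)))
noncomputable def n137 : Strat := .move 839 n70 (.cons 883 n128 (.cons 884 n135 (.cons 880 n109 .nil)))
noncomputable def n138 : Strat := .move 838 n8 (.cons 882 n10 .nil)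
noncomputable def n139 : Strat := .move 883 n7 (.cons 884 n138 .nil)
noncomputable def n140 : Strat := .move 801 n9 (.cons 802 n139 .nil)
noncomputable def n141 : Strat := .win 719 1 718
noncomputable def n142 : Strat := .win 923 1 759
noncomputable def n143 : Strat := .move 882 n141 (.cons 719 n142 .nil)
noncomputable def n144 : Strat := .win 759 7 718
noncomputable def n145 : Strat := .win 677 7 677
noncomputable def n146 : Strat := .win 679 3 678
noncomputable def n147 : Strat := .win 761 3 719
noncomputable def n148 : Strat := .move 720 n146 (.cons 679 n147 .nil)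
noncomputable def n149 : Strat := .move 719 n145 (.cons 677 n148 .nil)
noncomputable def n150 : Strat := .move 718 n144 (.cons 759 n149 .nil)
noncomputable def n151 : Strat := .win 882 1 759
noncomputable def n152 : Strat := .win 964 1 800
noncomputable def n153 : Strat := .win 800 7 759
noncomputable def n154 : Strat := .win 718 7 718
noncomputable def n155 : Strat := .move 759 n153 (.cons 800 n154 .nil)
noncomputable def n156 : Strat := .move 924 n152 (.cons 964 n155 .nil)
noncomputable def n157 : Strat := .move 923 n151 (.cons 882 n156 .nil)
noncomputable def n158 : Strat := .move 760 n143 (.cons 882 n150 (.cons 719 n157 .nil))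
noncomputable def n159 : Strat := .move 883 n7 (.cons 884 n158 .nil)
noncomputable def n160 : Strat := .move 801 n9 (.cons 802 n159 .nil)
noncomputable def n161 : Strat := .move 839 n140 (.cons 838 n160 (.cons 800 n70 (.cons 883 n26 .nil)))
noncomputable def n162 : Strat := .move 839 n26 (.cons 878 n31 (.cons 801 n135 .nil))
noncomputable def n163 : Strat := .move 839 n70 (.cons 883 n135 (.cons 880 n109 .nil))
noncomputable def n164 : Strat := .move 801 n9 (.cons 802 n138 .nil)
noncomputable def n165 : Strat := .move 883 n7 (.cons 884 n164 .nil)
noncomputable def n166 : Strat := .move 882 n142 (.cons 923 n141 .nil)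
noncomputable def n167 : Strat := .move 923 n152 (.cons 964 n151 .nil)
noncomputable def n168 : Strat := .win 759 7 759
noncomputable def n169 : Strat := .win 965 7 800
noncomputable def n170 : Strat := .move 800 n168 (.cons 759 n169 .nil)
noncomputable def n171 : Strat := .move 924 n167 (.cons 882 n170 .nil)
noncomputable def n172 : Strat := .win 882 1 718
noncomputable def n173 : Strat := .move 719 n172 (.cons 882 n148 .nil)
noncomputable def n174 : Strat := .move 718 n145 (.cons 677 n144 .nil)
noncomputable def n175 : Strat := .move 719 n148 (.cons 761 n174 .nil)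
noncomputable def n176 : Strat := .move 760 n166 (.cons 719 n171 (.cons 923 n173 (.cons 882 n175 .nil)))
noncomputable def n177 : Strat := .move 801 n9 (.cons 802 n176 .nil)
noncomputable def n178 : Strat := .move 883 n7 (.cons 884 n177 .nil)
noncomputable def n179 : Strat := .move 798 n0 (.cons 797 n178 .nil)
noncomputable def n180 : Strat := .move 839 n165 (.cons 883 n31 (.cons 801 n109 (.cons 838 n179 .nil)))
noncomputable def n181 : Strat := .win 839 0 839
noncomputable def n182 : Strat := .win 761 1 760
noncomputable def n183 : Strat := .win 965 3 801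
noncomputable def n184 : Strat := .move 924 n182 (.cons 761 n183 .nil)
noncomputable def n185 : Strat := .move 883 n181 (.cons 839 n184 .nil)
noncomputable def n186 : Strat := .move 802 n47 (.cons 803 n185 .nil)
noncomputable def n187 : Strat := .move 884 n95 (.cons 885 n186 .nil)
noncomputable def n188 : Strat := .move 884 n112 (.cons 719 n113 .nil)
noncomputable def n189 : Strat := .win 761 3 760
noncomputable def n190 : Strat := .move 924 n189 (.cons 761 n183 .nil)
noncomputable def n191 : Strat := .win 924 3 760
noncomputable def n192 : Strat := .win 720 1 719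
noncomputable def n193 : Strat := .move 761 n191 (.cons 924 n192 .nil)
noncomputable def n194 : Strat := .win 884 6 760
noncomputable def n195 : Strat := .win 966 6 801
noncomputable def n196 : Strat := .move 924 n195 (.cons 966 n183 .nil)
noncomputable def n197 : Strat := .move 925 n194 (.cons 884 n196 .nil)
noncomputable def n198 : Strat := .win 844 4 840
noncomputable def n199 : Strat := .move 881 n198 (.cons 844 n35 .nil)
noncomputable def n200 : Strat := .move 882 n142 (.cons 923 n199 .nil)
noncomputable def n201 : Strat := .move 883 n190 (.cons 965 n193 (.cons 761 n197 (.cons 924 n200 .nil)))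
noncomputable def n202 : Strat := .win 678 6 678
noncomputable def n203 : Strat := .move 719 n172 (.cons 882 n202 .nil)
noncomputable def n204 : Strat := .move 760 n188 (.cons 719 n201 (.cons 884 n203 .nil))
noncomputable def n205 : Strat := .move 801 n111 (.cons 839 n204 .nil)
noncomputable def n206 : Strat := .move 802 n47 (.cons 803 n205 .nil)
noncomputable def n207 : Strat := .win 921 4 880
noncomputable def n208 : Strat := .win 759 1 758
noncomputable def n209 : Strat := .move 800 n208 (.cons 759 n54 .nil)
noncomputable def n210 : Strat := .move 922 n207 (.cons 921 n209 .nil)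
noncomputable def n211 : Strat := .move 882 n198 (.cons 844 n210 .nil)
noncomputable def n212 : Strat := .move 881 n35 (.cons 880 n211 .nil)
noncomputable def n213 : Strat := .move 883 n181 (.cons 839 n212 .nil)
noncomputable def n214 : Strat := .move 884 n95 (.cons 885 n213 .nil)
noncomputable def n215 : Strat := .move 843 n187 (.cons 885 n206 (.cons 839 n46 (.cons 803 n214 .nil)))
noncomputable def n216 : Strat := .win 760 7 760
noncomputable def n217 : Strat := .win 966 7 801
noncomputable def n218 : Strat := .move 801 n216 (.cons 760 n217 .nil)
noncomputable def n219 : Strat := .win 924 1 760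
noncomputable def n220 : Strat := .move 761 n219 (.cons 924 n192 .nil)
noncomputable def n221 : Strat := .win 965 1 801
noncomputable def n222 : Strat := .move 924 n221 (.cons 965 n182 .nil)
noncomputable def n223 : Strat := .win 882 0 881
noncomputable def n224 : Strat := .win 967 6 802
noncomputable def n225 : Strat := .move 926 n223 (.cons 882 n224 .nil)
noncomputable def n226 : Strat := .move 883 n220 (.cons 720 n222 (.cons 924 n225 .nil))
noncomputable def n227 : Strat := .move 925 n218 (.cons 966 n226 .nil)
noncomputable def n228 : Strat := .move 802 n47 (.cons 803 n227 .nil)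
noncomputable def n229 : Strat := .move 884 n95 (.cons 885 n228 .nil)
noncomputable def n230 : Strat := .move 883 n219 (.cons 924 n192 .nil)
noncomputable def n231 : Strat := .win 883 1 760
noncomputable def n232 : Strat := .move 924 n221 (.cons 965 n231 .nil)
noncomputable def n233 : Strat := .win 801 7 760
noncomputable def n234 : Strat := .win 719 7 719
noncomputable def n235 : Strat := .move 760 n233 (.cons 801 n234 .nil)
noncomputable def n236 : Strat := .move 925 n232 (.cons 883 n235 .nil)
noncomputable def n237 : Strat := .win 883 1 719
noncomputable def n238 : Strat := .win 680 3 679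
noncomputable def n239 : Strat := .win 762 3 720
noncomputable def n240 : Strat := .move 721 n238 (.cons 680 n239 .nil)
noncomputable def n241 : Strat := .move 720 n237 (.cons 883 n240 .nil)
noncomputable def n242 : Strat := .win 678 7 678
noncomputable def n243 : Strat := .win 760 7 719
noncomputable def n244 : Strat := .move 719 n242 (.cons 678 n243 .nil)
noncomputable def n245 : Strat := .move 720 n240 (.cons 762 n244 .nil)
noncomputable def n246 : Strat := .move 761 n230 (.cons 720 n236 (.cons 924 n241 (.cons 883 n245 .nil)))
noncomputable def n247 : Strat := .move 884 n95 (.cons 885 n246 .nil)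
noncomputable def n248 : Strat := .move 802 n47 (.cons 803 n247 .nil)
noncomputable def n249 : Strat := .move 881 n45 (.cons 802 n103 (.cons 844 n229 (.cons 882 n248 .nil)))
noncomputable def n250 : Strat := .move 881 n35 (.cons 880 n248 .nil)
noncomputable def n251 : Strat := .move 883 n192 (.cons 720 n219 .nil)
noncomputable def n252 : Strat := .move 720 n242 (.cons 678 n240 .nil)
noncomputable def n253 : Strat := .move 719 n243 (.cons 760 n252 .nil)
noncomputable def n254 : Strat := .move 925 n221 (.cons 965 n218 .nil)
noncomputable def n255 : Strat := .move 924 n231 (.cons 883 n254 .nil)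
noncomputable def n256 : Strat := .move 761 n251 (.cons 924 n241 (.cons 883 n253 (.cons 720 n255 .nil)))
noncomputable def n257 : Strat := .move 802 n47 (.cons 803 n256 .nil)
noncomputable def n258 : Strat := .move 884 n95 (.cons 885 n257 .nil)
noncomputable def n259 : Strat := .move 843 n46 (.cons 802 n104 (.cons 880 n249 (.cons 882 n250 (.cons 881 n258 .nil))))
noncomputable def n260 : Strat := .move 842 n91 (.cons 883 n136 (.cons 801 n137 (.cons 881 n161 (.cons 884 n162 (.cons 802 n163 (.cons 880 n180 (.cons 838 n215 (.cons 839 n259 .nil))))))))
noncomputable def n261 : Strat := .move 839 n87 (.cons 801 n4 .nil)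
noncomputable def n262 : Strat := .move 802 n47 (.cons 803 n261 .nil)
noncomputable def n263 : Strat := .move 839 n87 (.cons 801 n97 .nil)
noncomputable def n264 : Strat := .move 802 n47 (.cons 803 n263 .nil)
noncomputable def n265 : Strat := .win 758 6 758
noncomputable def n266 : Strat := .win 964 7 799
noncomputable def n267 : Strat := .move 923 n265 (.cons 758 n266 .nil)
noncomputable def n268 : Strat := .move 799 n33 (.cons 798 n267 .nil)
noncomputable def n269 : Strat := .move 882 n198 (.cons 844 n268 .nil)
noncomputable def n270 : Strat := .move 881 n35 (.cons 880 n269 .nil)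
noncomputable def n271 : Strat := .move 843 n46 (.cons 882 n262 (.cons 881 n264 (.cons 803 n270 .nil)))
noncomputable def n272 : Strat := .move 839 n96 (.cons 883 n87 .nil)
noncomputable def n273 : Strat := .move 802 n47 (.cons 803 n272 .nil)
noncomputable def n274 : Strat := .move 884 n95 (.cons 885 n273 .nil)
noncomputable def n275 : Strat := .move 758 n48 (.cons 923 n49 .nil)
noncomputable def n276 : Strat := .move 799 n33 (.cons 798 n275 .nil)
noncomputable def n277 : Strat := .move 882 n198 (.cons 844 n276 .nil)
noncomputable def n278 : Strat := .move 881 n35 (.cons 880 n277 .nil)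
noncomputable def n279 : Strat := .move 802 n47 (.cons 803 n278 .nil)
noncomputable def n280 : Strat := .move 883 n181 (.cons 839 n278 .nil)
noncomputable def n281 : Strat := .move 884 n95 (.cons 885 n280 .nil)
noncomputable def n282 : Strat := .move 843 n274 (.cons 884 n279 (.cons 802 n281 .nil))
noncomputable def n283 : Strat := .move 881 n72 (.cons 716 n71 .nil)
noncomputable def n284 : Strat := .win 881 6 716
noncomputable def n285 : Strat := .win 676 3 675
noncomputable def n286 : Strat := .win 758 3 716
noncomputable def n287 : Strat := .move 717 n285 (.cons 676 n286 .nil)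
noncomputable def n288 : Strat := .move 716 n284 (.cons 881 n287 .nil)
noncomputable def n289 : Strat := .win 717 3 716
noncomputable def n290 : Strat := .win 675 6 675
noncomputable def n291 : Strat := .move 799 n290 (.cons 675 n17 .nil)
noncomputable def n292 : Strat := .win 674 7 674
noncomputable def n293 : Strat := .win 756 7 715
noncomputable def n294 : Strat := .move 715 n292 (.cons 674 n293 .nil)
noncomputable def n295 : Strat := .move 716 n291 (.cons 921 n294 .nil)
noncomputable def n296 : Strat := .move 758 n289 (.cons 717 n295 .nil)
noncomputable def n297 : Strat := .win 881 6 757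
noncomputable def n298 : Strat := .win 963 6 798
noncomputable def n299 : Strat := .move 799 n76 (.cons 758 n75 .nil)
noncomputable def n300 : Strat := .move 921 n298 (.cons 963 n299 .nil)
noncomputable def n301 : Strat := .move 922 n297 (.cons 881 n300 .nil)
noncomputable def n302 : Strat := .move 757 n283 (.cons 922 n288 (.cons 881 n296 (.cons 716 n301 .nil)))
noncomputable def n303 : Strat := .move 798 n0 (.cons 797 n302 .nil)
noncomputable def n304 : Strat := .move 880 n2 (.cons 879 n303 .nil)
noncomputable def n305 : Strat := .move 839 n70 (.cons 883 n304 (.cons 880 n109 .nil))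
noncomputable def n306 : Strat := .move 843 n1 (.cons 799 n3 .nil)
noncomputable def n307 : Strat := .move 880 n2 (.cons 879 n306 .nil)
noncomputable def n308 : Strat := .move 798 n0 (.cons 797 n307 .nil)
noncomputable def n309 : Strat := .move 716 n285 (.cons 676 n294 .nil)
noncomputable def n310 : Strat := .move 717 n286 (.cons 758 n309 .nil)
noncomputable def n311 : Strat := .win 799 3 757
noncomputable def n312 : Strat := .move 758 n311 (.cons 799 n289 .nil)
noncomputable def n313 : Strat := .move 921 n298 (.cons 963 n312 .nil)
noncomputable def n314 : Strat := .move 922 n297 (.cons 881 n313 .nil)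
noncomputable def n315 : Strat := .move 757 n283 (.cons 922 n288 (.cons 881 n310 (.cons 716 n314 .nil)))
noncomputable def n316 : Strat := .move 880 n2 (.cons 879 n315 .nil)
noncomputable def n317 : Strat := .move 798 n0 (.cons 797 n316 .nil)
noncomputable def n318 : Strat := .move 843 n1 (.cons 799 n88 .nil)
noncomputable def n319 : Strat := .move 798 n0 (.cons 797 n318 .nil)
noncomputable def n320 : Strat := .move 839 n308 (.cons 798 n90 (.cons 843 n317 (.cons 881 n319 .nil)))
noncomputable def n321 : Strat := .move 884 n96 (.cons 883 n95 .nil)
noncomputable def n322 : Strat := .move 843 n1 (.cons 799 n321 .nil)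
noncomputable def n323 : Strat := .move 798 n0 (.cons 797 n322 .nil)
noncomputable def n324 : Strat := .move 839 n323 (.cons 799 n70 (.cons 883 n319 .nil))
noncomputable def n325 : Strat := .win 926 0 881
noncomputable def n326 : Strat := .win 760 6 760
noncomputable def n327 : Strat := .move 801 n326 (.cons 760 n217 .nil)
noncomputable def n328 : Strat := .move 925 n325 (.cons 926 n327 .nil)
noncomputable def n329 : Strat := .move 883 n181 (.cons 839 n328 .nil)
noncomputable def n330 : Strat := .move 882 n198 (.cons 844 n329 .nil)
noncomputable def n331 : Strat := .move 881 n35 (.cons 880 n330 .nil)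
noncomputable def n332 : Strat := .move 884 n95 (.cons 885 n331 .nil)
noncomputable def n333 : Strat := .move 843 n274 (.cons 885 n262 (.cons 839 n46 (.cons 802 n332 .nil)))
noncomputable def n334 : Strat := .win 679 1 678
noncomputable def n335 : Strat := .move 801 n334 (.cons 679 n113 .nil)
noncomputable def n336 : Strat := .move 720 n335 (.cons 925 n240 .nil)
noncomputable def n337 : Strat := .move 760 n234 (.cons 719 n336 .nil)
noncomputable def n338 : Strat := .move 761 n251 (.cons 883 n337 (.cons 720 n255 .nil))
noncomputable def n339 : Strat := .move 802 n47 (.cons 803 n338 .nil)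
noncomputable def n340 : Strat := .move 884 n95 (.cons 885 n339 .nil)
noncomputable def n341 : Strat := .move 843 n46 (.cons 802 n104 (.cons 881 n340 .nil))
noncomputable def n342 : Strat := .win 795 2 795
noncomputable def n343 : Strat := .win 797 2 796
noncomputable def n344 : Strat := .move 796 n342 (.cons 795 n343 .nil)
noncomputable def n345 : Strat := .win 877 4 836
noncomputable def n346 : Strat := .win 879 4 837
noncomputable def n347 : Strat := .move 878 n345 (.cons 877 n346 .nil)
noncomputable def n348 : Strat := .move 837 n344 (.cons 797 n347 .nil)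
noncomputable def n349 : Strat := .move 843 n47 (.cons 803 n348 .nil)
noncomputable def n350 : Strat := .move 802 n87 (.cons 801 n349 .nil)
noncomputable def n351 : Strat := .move 838 n8 (.cons 882 n350 .nil)
noncomputable def n352 : Strat := .move 883 n7 (.cons 884 n351 .nil)
noncomputable def n353 : Strat := .win 838 0 838
noncomputable def n354 : Strat := .win 760 1 759
noncomputable def n355 : Strat := .win 964 3 800
noncomputable def n356 : Strat := .move 923 n354 (.cons 760 n355 .nil)
noncomputable def n357 : Strat := .move 801 n9 (.cons 802 n356 .nil)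
noncomputable def n358 : Strat := .move 882 n353 (.cons 838 n357 .nil)
noncomputable def n359 : Strat := .move 883 n7 (.cons 884 n358 .nil)
noncomputable def n360 : Strat := .move 839 n109 (.cons 798 n352 (.cons 884 n319 (.cons 797 n359 .nil)))
noncomputable def n361 : Strat := .move 842 n110 (.cons 884 n271 (.cons 879 n282 (.cons 843 n305 (.cons 882 n320 (.cons 881 n324 (.cons 798 n333 (.cons 839 n341 (.cons 880 n360 .nil))))))))
noncomputable def n362 : Strat := .move 879 n23 (.cons 878 n22 .nil)
noncomputable def n363 : Strat := .move 842 n27 (.cons 798 n362 .nil)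
noncomputable def n364 : Strat := .move 797 n28 (.cons 796 n363 .nil)
noncomputable def n365 : Strat := .win 801 5 797
noncomputable def n366 : Strat := .win 799 5 796
noncomputable def n367 : Strat := .move 878 n346 (.cons 879 n345 .nil)
noncomputable def n368 : Strat := .move 837 n366 (.cons 799 n367 .nil)
noncomputable def n369 : Strat := .move 800 n365 (.cons 801 n368 .nil)
noncomputable def n370 : Strat := .move 801 n10 (.cons 800 n9 .nil)
noncomputable def n371 : Strat := .move 842 n27 (.cons 798 n370 .nil)
noncomputable def n372 : Strat := .move 797 n28 (.cons 796 n371 .nil)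
noncomputable def n373 : Strat := .move 838 n364 (.cons 797 n369 (.cons 879 n372 .nil))
noncomputable def n374 : Strat := .win 883 0 838
noncomputable def n375 : Strat := .win 837 5 796
noncomputable def n376 : Strat := .win 923 7 758
noncomputable def n377 : Strat := .move 758 n49 (.cons 717 n376 .nil)
noncomputable def n378 : Strat := .move 799 n375 (.cons 837 n377 .nil)
noncomputable def n379 : Strat := .move 800 n365 (.cons 801 n378 .nil)
noncomputable def n380 : Strat := .move 882 n374 (.cons 883 n379 .nil)
noncomputable def n381 : Strat := .win 921 6 756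
noncomputable def n382 : Strat := .win 715 6 715
noncomputable def n383 : Strat := .move 880 n381 (.cons 921 n382 .nil)
noncomputable def n384 : Strat := .win 920 3 756
noncomputable def n385 : Strat := .win 716 1 715
noncomputable def n386 : Strat := .move 757 n384 (.cons 920 n385 .nil)
noncomputable def n387 : Strat := .win 961 3 797
noncomputable def n388 : Strat := .win 757 3 756
noncomputable def n389 : Strat := .move 920 n387 (.cons 961 n388 .nil)
noncomputable def n390 : Strat := .win 799 2 755
noncomputable def n391 : Strat := .win 714 7 714
noncomputable def n392 : Strat := .move 755 n390 (.cons 799 n391 .nil)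
noncomputable def n393 : Strat := .move 798 n386 (.cons 716 n389 (.cons 920 n392 .nil))
noncomputable def n394 : Strat := .move 756 n383 (.cons 715 n393 .nil)
noncomputable def n395 : Strat := .move 800 n365 (.cons 801 n394 .nil)
noncomputable def n396 : Strat := .move 879 n23 (.cons 878 n395 .nil)
noncomputable def n397 : Strat := .move 797 n28 (.cons 796 n396 .nil)
noncomputable def n398 : Strat := .move 880 n382 (.cons 715 n381 .nil)
noncomputable def n399 : Strat := .win 880 6 715
noncomputable def n400 : Strat := .win 675 3 674
noncomputable def n401 : Strat := .win 757 3 715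
noncomputable def n402 : Strat := .move 716 n400 (.cons 675 n401 .nil)
noncomputable def n403 : Strat := .move 715 n399 (.cons 880 n402 .nil)
noncomputable def n404 : Strat := .win 673 7 673
noncomputable def n405 : Strat := .win 755 7 714
noncomputable def n406 : Strat := .move 714 n404 (.cons 673 n405 .nil)
noncomputable def n407 : Strat := .move 715 n400 (.cons 675 n406 .nil)
noncomputable def n408 : Strat := .move 716 n401 (.cons 757 n407 .nil)
noncomputable def n409 : Strat := .win 880 6 756
noncomputable def n410 : Strat := .win 962 6 797
noncomputable def n411 : Strat := .win 798 3 756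
noncomputable def n412 : Strat := .win 716 3 715
noncomputable def n413 : Strat := .move 757 n411 (.cons 798 n412 .nil)
noncomputable def n414 : Strat := .move 920 n410 (.cons 962 n413 .nil)
noncomputable def n415 : Strat := .move 921 n409 (.cons 880 n414 .nil)
noncomputable def n416 : Strat := .move 756 n398 (.cons 921 n403 (.cons 880 n408 (.cons 715 n415 .nil)))
noncomputable def n417 : Strat := .move 879 n23 (.cons 878 n416 .nil)
noncomputable def n418 : Strat := .move 797 n28 (.cons 796 n417 .nil)
noncomputable def n419 : Strat := .move 838 n380 (.cons 837 n397 (.cons 799 n418 .nil))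
noncomputable def n420 : Strat := .move 842 n27 (.cons 798 n22 .nil)
noncomputable def n421 : Strat := .move 879 n23 (.cons 878 n420 .nil)
noncomputable def n422 : Strat := .move 797 n28 (.cons 796 n421 .nil)
noncomputable def n423 : Strat := .move 842 n22 (.cons 880 n370 .nil)
noncomputable def n424 : Strat := .move 879 n23 (.cons 878 n423 .nil)
noncomputable def n425 : Strat := .move 838 n422 (.cons 797 n424 (.cons 842 n418 (.cons 880 n372 .nil)))
noncomputable def n426 : Strat := .move 838 n23 (.cons 878 n124 .nil)
noncomputable def n427 : Strat := .move 879 n22 (.cons 880 n426 .nil)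
noncomputable def n428 : Strat := .move 843 n1 (.cons 799 n427 .nil)
noncomputable def n429 : Strat := .move 798 n0 (.cons 797 n428 .nil)
noncomputable def n430 : Strat := .move 838 n8 (.cons 882 n362 .nil)
noncomputable def n431 : Strat := .move 883 n7 (.cons 884 n430 .nil)
noncomputable def n432 : Strat := .move 880 n2 (.cons 879 n18 .nil)
noncomputable def n433 : Strat := .move 799 n15 (.cons 843 n432 .nil)
noncomputable def n434 : Strat := .move 798 n0 (.cons 797 n433 .nil)
noncomputable def n435 : Strat := .move 842 n323 (.cons 883 n429 (.cons 798 n431 (.cons 884 n434 .nil)))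
noncomputable def n436 : Strat := .move 796 n343 (.cons 797 n342 .nil)
noncomputable def n437 : Strat := .move 837 n366 (.cons 799 n436 .nil)
noncomputable def n438 : Strat := .move 800 n365 (.cons 801 n437 .nil)
noncomputable def n439 : Strat := .move 883 n8 (.cons 882 n7 .nil)
noncomputable def n440 : Strat := .move 842 n27 (.cons 798 n439 .nil)
noncomputable def n441 : Strat := .move 797 n28 (.cons 796 n440 .nil)
noncomputable def n442 : Strat := .move 838 n438 (.cons 837 n372 (.cons 797 n369 (.cons 800 n441 .nil)))
noncomputable def n443 : Strat := .win 924 7 759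
noncomputable def n444 : Strat := .win 718 6 718
noncomputable def n445 : Strat := .move 759 n443 (.cons 924 n444 .nil)
noncomputable def n446 : Strat := .move 924 n169 (.cons 965 n168 .nil)
noncomputable def n447 : Strat := .win 799 5 757
noncomputable def n448 : Strat := .win 720 3 719
noncomputable def n449 : Strat := .move 761 n447 (.cons 799 n448 .nil)
noncomputable def n450 : Strat := .move 800 n445 (.cons 718 n446 (.cons 924 n449 .nil))
noncomputable def n451 : Strat := .move 760 n166 (.cons 719 n450 .nil)
noncomputable def n452 : Strat := .move 798 n0 (.cons 797 n451 .nil)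
noncomputable def n453 : Strat := .move 883 n7 (.cons 884 n452 .nil)
noncomputable def n454 : Strat := .move 801 n9 (.cons 802 n453 .nil)
noncomputable def n455 : Strat := .move 842 n319 (.cons 801 n323 (.cons 843 n454 (.cons 799 n160 .nil)))
noncomputable def n456 : Strat := .move 882 n374 (.cons 883 n378 .nil)
noncomputable def n457 : Strat := .move 800 n365 (.cons 801 n456 .nil)
noncomputable def n458 : Strat := .move 842 n22 (.cons 880 n439 .nil)
noncomputable def n459 : Strat := .move 879 n23 (.cons 878 n458 .nil)
noncomputable def n460 : Strat := .move 838 n369 (.cons 877 n457 (.cons 837 n424 (.cons 800 n459 .nil)))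
noncomputable def n461 : Strat := .move 839 n373 (.cons 842 n419 (.cons 799 n425 (.cons 801 n435 (.cons 880 n442 (.cons 838 n455 (.cons 798 n460 .nil))))))
noncomputable def n462 : Strat := .move 838 n10 (.cons 800 n362 .nil)
noncomputable def n463 : Strat := .move 801 n9 (.cons 802 n462 .nil)
noncomputable def n464 : Strat := .move 842 n6 (.cons 843 n31 (.cons 798 n463 .nil))
noncomputable def n465 : Strat := .move 884 n95 (.cons 885 n96 .nil)
noncomputable def n466 : Strat := .move 802 n47 (.cons 803 n87 .nil)
noncomputable def n467 : Strat := .move 843 n465 (.cons 883 n466 .nil)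
noncomputable def n468 : Strat := .move 837 n342 (.cons 795 n467 .nil)
noncomputable def n469 : Strat := .move 796 n343 (.cons 797 n468 .nil)
noncomputable def n470 : Strat := .move 842 n22 (.cons 880 n469 .nil)
noncomputable def n471 : Strat := .move 879 n23 (.cons 878 n470 .nil)
noncomputable def n472 : Strat := .win 842 4 838
noncomputable def n473 : Strat := .win 756 6 756
noncomputable def n474 : Strat := .win 962 7 797
noncomputable def n475 : Strat := .move 921 n473 (.cons 756 n474 .nil)
noncomputable def n476 : Strat := .move 797 n28 (.cons 796 n475 .nil)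
noncomputable def n477 : Strat := .move 880 n472 (.cons 842 n476 .nil)
noncomputable def n478 : Strat := .move 879 n23 (.cons 878 n477 .nil)
noncomputable def n479 : Strat := .move 838 n424 (.cons 880 n369 (.cons 879 n438 (.cons 800 n471 (.cons 801 n478 .nil))))
noncomputable def n480 : Strat := .move 837 n345 (.cons 877 n467 .nil)
noncomputable def n481 : Strat := .move 878 n346 (.cons 879 n480 .nil)
noncomputable def n482 : Strat := .move 842 n27 (.cons 798 n481 .nil)
noncomputable def n483 : Strat := .move 797 n28 (.cons 796 n482 .nil)
noncomputable def n484 : Strat := .win 842 2 797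
noncomputable def n485 : Strat := .move 757 n385 (.cons 716 n384 .nil)
noncomputable def n486 : Strat := .move 879 n23 (.cons 878 n485 .nil)
noncomputable def n487 : Strat := .move 798 n484 (.cons 842 n486 .nil)
noncomputable def n488 : Strat := .move 797 n28 (.cons 796 n487 .nil)
noncomputable def n489 : Strat := .move 838 n438 (.cons 800 n483 (.cons 797 n369 (.cons 801 n488 .nil)))
noncomputable def n490 : Strat := .move 842 n308 (.cons 798 n90 (.cons 843 n317 (.cons 881 n319 .nil)))
noncomputable def n491 : Strat := .move 843 n3 (.cons 881 n321 .nil)
noncomputable def n492 : Strat := .move 880 n2 (.cons 879 n491 .nil)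
noncomputable def n493 : Strat := .win 838 5 797
noncomputable def n494 : Strat := .move 759 n444 (.cons 718 n443 .nil)
noncomputable def n495 : Strat := .move 883 n7 (.cons 884 n494 .nil)
noncomputable def n496 : Strat := .move 800 n493 (.cons 838 n495 .nil)
noncomputable def n497 : Strat := .move 801 n9 (.cons 802 n496 .nil)
noncomputable def n498 : Strat := .move 842 n90 (.cons 803 n492 (.cons 880 n497 .nil))
noncomputable def n499 : Strat := .move 842 n319 (.cons 798 n497 (.cons 801 n323 .nil))
noncomputable def n500 : Strat := .win 799 3 798
noncomputable def n501 : Strat := .win 1002 1 838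
noncomputable def n502 : Strat := .win 920 1 797
noncomputable def n503 : Strat := .move 961 n501 (.cons 1002 n502 .nil)
noncomputable def n504 : Strat := .move 962 n500 (.cons 799 n503 .nil)
noncomputable def n505 : Strat := .win 1003 3 839
noncomputable def n506 : Strat := .move 881 n505 (.cons 1003 n130 .nil)
noncomputable def n507 : Strat := .move 962 n503 (.cons 920 n506 .nil)
noncomputable def n508 : Strat := .move 922 n298 (.cons 963 n507 .nil)
noncomputable def n509 : Strat := .move 757 n289 (.cons 717 n73 .nil)
noncomputable def n510 : Strat := .move 758 n311 (.cons 799 n509 .nil)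
noncomputable def n511 : Strat := .move 921 n299 (.cons 758 n504 (.cons 799 n508 (.cons 962 n510 .nil)))
noncomputable def n512 : Strat := .move 880 n2 (.cons 879 n511 .nil)
noncomputable def n513 : Strat := .move 798 n0 (.cons 797 n512 .nil)
noncomputable def n514 : Strat := .move 842 n308 (.cons 879 n323 (.cons 798 n492 (.cons 843 n513 .nil)))
noncomputable def n515 : Strat := .move 798 n484 (.cons 842 n485 .nil)
noncomputable def n516 : Strat := .move 879 n23 (.cons 878 n515 .nil)
noncomputable def n517 : Strat := .move 797 n28 (.cons 796 n516 .nil)
noncomputable def n518 : Strat := .move 797 n473 (.cons 756 n474 .nil)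
noncomputable def n519 : Strat := .win 920 1 756
noncomputable def n520 : Strat := .move 757 n519 (.cons 920 n385 .nil)
noncomputable def n521 : Strat := .win 757 1 756
noncomputable def n522 : Strat := .win 961 1 797
noncomputable def n523 : Strat := .move 920 n521 (.cons 757 n522 .nil)
noncomputable def n524 : Strat := .win 797 6 756
noncomputable def n525 : Strat := .move 757 n79 (.cons 715 n385 .nil)
noncomputable def n526 : Strat := .move 756 n524 (.cons 797 n525 .nil)
noncomputable def n527 : Strat := .win 801 4 797
noncomputable def n528 : Strat := .move 800 n375 (.cons 837 n527 .nil)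
noncomputable def n529 : Strat := .move 799 n76 (.cons 758 n528 .nil)
noncomputable def n530 : Strat := .move 798 n520 (.cons 716 n523 (.cons 920 n526 (.cons 757 n529 .nil)))
noncomputable def n531 : Strat := .win 1003 7 838
noncomputable def n532 : Strat := .move 962 n500 (.cons 799 n531 .nil)
noncomputable def n533 : Strat := .move 921 n518 (.cons 962 n530 (.cons 797 n532 .nil))
noncomputable def n534 : Strat := .move 880 n472 (.cons 842 n533 .nil)
noncomputable def n535 : Strat := .move 879 n23 (.cons 878 n534 .nil)
noncomputable def n536 : Strat := .win 837 4 796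
noncomputable def n537 : Strat := .win 755 2 755
noncomputable def n538 : Strat := .win 674 6 674
noncomputable def n539 : Strat := .move 715 n538 (.cons 674 n399 .nil)
noncomputable def n540 : Strat := .move 756 n537 (.cons 755 n539 .nil)
noncomputable def n541 : Strat := .move 799 n536 (.cons 837 n540 .nil)
noncomputable def n542 : Strat := .move 800 n365 (.cons 801 n541 .nil)
noncomputable def n543 : Strat := .move 798 n484 (.cons 842 n542 .nil)
noncomputable def n544 : Strat := .move 797 n28 (.cons 796 n543 .nil)
noncomputable def n545 : Strat := .move 838 n517 (.cons 796 n535 (.cons 878 n544 (.cons 842 n369 .nil)))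
noncomputable def n546 : Strat := .move 879 n23 (.cons 878 n394 .nil)
noncomputable def n547 : Strat := .move 797 n28 (.cons 796 n546 .nil)
noncomputable def n548 : Strat := .move 798 n388 (.cons 757 n387 .nil)
noncomputable def n549 : Strat := .move 921 n410 (.cons 962 n409 .nil)
noncomputable def n550 : Strat := .move 920 n548 (.cons 961 n413 (.cons 757 n549 .nil))
noncomputable def n551 : Strat := .move 715 n402 (.cons 757 n406 .nil)
noncomputable def n552 : Strat := .move 756 n383 (.cons 715 n550 (.cons 921 n403 (.cons 880 n551 .nil)))
noncomputable def n553 : Strat := .move 797 n28 (.cons 796 n552 .nil)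
noncomputable def n554 : Strat := .move 879 n23 (.cons 878 n553 .nil)
noncomputable def n555 : Strat := .move 800 n368 (.cons 837 n547 (.cons 879 n437 (.cons 799 n554 .nil)))
noncomputable def n556 : Strat := .move 800 n365 (.cons 801 n554 .nil)
noncomputable def n557 : Strat := .move 756 n398 (.cons 880 n408 (.cons 715 n415 .nil))
noncomputable def n558 : Strat := .move 879 n23 (.cons 878 n557 .nil)
noncomputable def n559 : Strat := .move 797 n28 (.cons 796 n558 .nil)
noncomputable def n560 : Strat := .move 838 n369 (.cons 879 n438 (.cons 801 n555 (.cons 837 n397 (.cons 799 n556 (.cons 800 n559 .nil)))))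
noncomputable def n561 : Strat := .move 839 n464 (.cons 798 n479 (.cons 880 n489 (.cons 800 n490 (.cons 797 n498 (.cons 879 n499 (.cons 801 n514 (.cons 843 n545 (.cons 842 n560 .nil))))))))
noncomputable def n562 : Strat := .move 839 n6 (.cons 798 n90 (.cons 843 n85 (.cons 881 n319 .nil)))
noncomputable def n563 : Strat := .move 800 n169 (.cons 965 n168 .nil)
noncomputable def n564 : Strat := .win 800 7 800
noncomputable def n565 : Strat := .win 1005 1 841
noncomputable def n566 : Strat := .win 923 1 800
noncomputable def n567 : Strat := .move 964 n565 (.cons 1005 n566 .nil)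
noncomputable def n568 : Strat := .move 965 n564 (.cons 800 n567 .nil)
noncomputable def n569 : Strat := .move 760 n142 (.cons 923 n141 .nil)
noncomputable def n570 : Strat := .move 923 n354 (.cons 760 n152 .nil)
noncomputable def n571 : Strat := .win 881 0 880
noncomputable def n572 : Strat := .move 925 n571 (.cons 881 n195 .nil)
noncomputable def n573 : Strat := .move 882 n569 (.cons 719 n570 (.cons 923 n572 .nil))
noncomputable def n574 : Strat := .move 924 n563 (.cons 759 n568 (.cons 965 n573 .nil))
noncomputable def n575 : Strat := .move 880 n2 (.cons 879 n574 .nil)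
noncomputable def n576 : Strat := .move 883 n7 (.cons 884 n575 .nil)
noncomputable def n577 : Strat := .move 801 n9 (.cons 802 n576 .nil)
noncomputable def n578 : Strat := .move 799 n75 (.cons 962 n76 .nil)
noncomputable def n579 : Strat := .move 757 n71 (.cons 922 n72 .nil)
noncomputable def n580 : Strat := .move 922 n130 (.cons 757 n298 .nil)
noncomputable def n581 : Strat := .win 882 4 879
noncomputable def n582 : Strat := .move 920 n581 (.cons 882 n522 .nil)
noncomputable def n583 : Strat := .move 881 n579 (.cons 716 n580 (.cons 922 n582 .nil))
noncomputable def n584 : Strat := .move 921 n578 (.cons 758 n504 (.cons 962 n583 .nil))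
noncomputable def n585 : Strat := .move 883 n7 (.cons 884 n584 .nil)
noncomputable def n586 : Strat := .move 880 n2 (.cons 879 n585 .nil)
noncomputable def n587 : Strat := .move 798 n0 (.cons 797 n586 .nil)
noncomputable def n588 : Strat := .move 839 n85 (.cons 880 n454 (.cons 797 n577 (.cons 801 n587 .nil)))
noncomputable def n589 : Strat := .move 839 n319 (.cons 801 n323 (.cons 843 n454 (.cons 799 n160 .nil)))
noncomputable def n590 : Strat := .move 843 n39 (.cons 799 n46 (.cons 880 n119 (.cons 844 n64 .nil)))
noncomputable def n591 : Strat := .move 839 n96 (.cons 883 n4 .nil)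
noncomputable def n592 : Strat := .move 884 n95 (.cons 885 n591 .nil)
noncomputable def n593 : Strat := .move 843 n274 (.cons 883 n117 (.cons 884 n46 (.cons 803 n592 .nil)))
noncomputable def n594 : Strat := .move 802 n47 (.cons 803 n184 .nil)
noncomputable def n595 : Strat := .move 883 n181 (.cons 839 n594 .nil)
noncomputable def n596 : Strat := .move 884 n95 (.cons 885 n595 .nil)
noncomputable def n597 : Strat := .move 843 n94 (.cons 799 n104 (.cons 880 n119 (.cons 844 n596 .nil)))
noncomputable def n598 : Strat := .move 843 n94 (.cons 882 n119 (.cons 798 n104 (.cons 844 n99 .nil)))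
noncomputable def n599 : Strat := .move 842 n562 (.cons 799 n215 (.cons 843 n588 (.cons 881 n589 (.cons 839 n590 (.cons 800 n593 (.cons 801 n597 (.cons 802 n598 .nil)))))))
noncomputable def n600 : Strat := .move 842 n68 (.cons 800 n70 (.cons 882 n31 (.cons 838 n85 .nil)))
noncomputable def n601 : Strat := .win 881 4 879
noncomputable def n602 : Strat := .move 920 n522 (.cons 961 n601 .nil)
noncomputable def n603 : Strat := .move 921 n602 (.cons 881 n299 .nil)
noncomputable def n604 : Strat := .move 798 n0 (.cons 797 n603 .nil)
noncomputable def n605 : Strat := .move 880 n2 (.cons 879 n604 .nil)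
noncomputable def n606 : Strat := .move 882 n353 (.cons 838 n605 .nil)
noncomputable def n607 : Strat := .move 883 n7 (.cons 884 n606 .nil)
noncomputable def n608 : Strat := .move 842 n140 (.cons 838 n85 (.cons 801 n607 .nil))
noncomputable def n609 : Strat := .win 881 0 837
noncomputable def n610 : Strat := .move 882 n374 (.cons 883 n609 .nil)
noncomputable def n611 : Strat := .move 837 n366 (.cons 799 n610 .nil)
noncomputable def n612 : Strat := .move 800 n365 (.cons 801 n611 .nil)
noncomputable def n613 : Strat := .move 797 n28 (.cons 796 n420 .nil)
noncomputable def n614 : Strat := .move 879 n23 (.cons 878 n613 .nil)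
noncomputable def n615 : Strat := .move 838 n612 (.cons 799 n614 .nil)
noncomputable def n616 : Strat := .move 842 n140 (.cons 802 n431 (.cons 884 n463 (.cons 838 n577 .nil)))
noncomputable def n617 : Strat := .move 797 n28 (.cons 796 n27 .nil)
noncomputable def n618 : Strat := .move 838 n8 (.cons 882 n617 .nil)
noncomputable def n619 : Strat := .move 883 n7 (.cons 884 n618 .nil)
noncomputable def n620 : Strat := .move 842 n619 (.cons 882 n513 (.cons 798 n431 .nil))
noncomputable def n621 : Strat := .move 837 n609 (.cons 881 n436 .nil)
noncomputable def n622 : Strat := .move 882 n374 (.cons 883 n621 .nil)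
noncomputable def n623 : Strat := .move 838 n612 (.cons 882 n369 (.cons 801 n622 (.cons 837 n397 .nil)))
noncomputable def n624 : Strat := .move 837 n609 (.cons 881 n366 .nil)
noncomputable def n625 : Strat := .move 882 n374 (.cons 883 n624 .nil)
noncomputable def n626 : Strat := .move 800 n365 (.cons 801 n625 .nil)
noncomputable def n627 : Strat := .move 838 n438 (.cons 800 n488 (.cons 796 n626 .nil))
noncomputable def n628 : Strat := .win 922 1 758
noncomputable def n629 : Strat := .move 881 n628 (.cons 922 n52 .nil)
noncomputable def n630 : Strat := .win 719 3 718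
noncomputable def n631 : Strat := .win 799 5 756
noncomputable def n632 : Strat := .move 760 n630 (.cons 719 n631 .nil)
noncomputable def n633 : Strat := .move 759 n629 (.cons 718 n632 .nil)
noncomputable def n634 : Strat := .move 882 n374 (.cons 883 n633 .nil)
noncomputable def n635 : Strat := .move 800 n365 (.cons 801 n634 .nil)
noncomputable def n636 : Strat := .move 798 n484 (.cons 842 n635 .nil)
noncomputable def n637 : Strat := .move 797 n28 (.cons 796 n636 .nil)
noncomputable def n638 : Strat := .move 838 n612 (.cons 799 n622 (.cons 883 n438 (.cons 837 n637 .nil)))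
noncomputable def n639 : Strat := .move 842 n85 (.cons 880 n454 (.cons 797 n577 (.cons 801 n587 .nil)))
noncomputable def n640 : Strat := .move 839 n600 (.cons 882 n545 (.cons 878 n608 (.cons 962 n615 (.cons 797 n616 (.cons 801 n620 (.cons 842 n623 (.cons 880 n627 (.cons 879 n638 (.cons 838 n639 .nil)))))))))
noncomputable def n641 : Strat := .move 884 n95 (.cons 885 n272 .nil)
noncomputable def n642 : Strat := .move 802 n47 (.cons 803 n641 .nil)
noncomputable def n643 : Strat := .move 843 n642 (.cons 801 n104 (.cons 884 n46 .nil))
noncomputable def n644 : Strat := .move 839 n13 (.cons 801 n431 (.cons 882 n26 (.cons 838 n577 .nil)))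
noncomputable def n645 : Strat := .move 884 n95 (.cons 885 n114 .nil)
noncomputable def n646 : Strat := .move 801 n111 (.cons 839 n645 .nil)
noncomputable def n647 : Strat := .move 802 n47 (.cons 803 n646 .nil)
noncomputable def n648 : Strat := .move 843 n46 (.cons 882 n647 (.cons 803 n104 .nil))
noncomputable def n649 : Strat := .move 843 n104 (.cons 884 n46 (.cons 844 n596 .nil))
noncomputable def n650 : Strat := .move 839 n140 (.cons 801 n431 (.cons 883 n26 (.cons 838 n160 .nil)))
noncomputable def n651 : Strat := .move 839 n463 (.cons 801 n492 (.cons 879 n497 .nil))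
noncomputable def n652 : Strat := .win 921 1 757
noncomputable def n653 : Strat := .move 758 n16 (.cons 717 n652 .nil)
noncomputable def n654 : Strat := .win 758 1 757
noncomputable def n655 : Strat := .move 921 n75 (.cons 962 n654 .nil)
noncomputable def n656 : Strat := .win 921 3 798
noncomputable def n657 : Strat := .move 922 n55 (.cons 759 n54 .nil)
noncomputable def n658 : Strat := .move 838 n375 (.cons 837 n365 .nil)
noncomputable def n659 : Strat := .move 800 n657 (.cons 963 n53 (.cons 759 n658 .nil))
noncomputable def n660 : Strat := .move 962 n656 (.cons 921 n659 .nil)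
noncomputable def n661 : Strat := .move 758 n16 (.cons 717 n659 .nil)
noncomputable def n662 : Strat := .move 799 n653 (.cons 717 n655 (.cons 758 n660 (.cons 921 n661 .nil)))
noncomputable def n663 : Strat := .move 881 n129 (.cons 843 n662 .nil)
noncomputable def n664 : Strat := .move 880 n2 (.cons 879 n663 .nil)
noncomputable def n665 : Strat := .move 837 n366 (.cons 799 n344 .nil)
noncomputable def n666 : Strat := .move 800 n365 (.cons 801 n665 .nil)
noncomputable def n667 : Strat := .move 838 n8 (.cons 882 n666 .nil)
noncomputable def n668 : Strat := .move 883 n7 (.cons 884 n667 .nil)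
noncomputable def n669 : Strat := .move 839 n70 (.cons 883 n664 (.cons 880 n668 (.cons 838 n492 .nil)))
noncomputable def n670 : Strat := .win 881 4 840
noncomputable def n671 : Strat := .win 845 4 841
noncomputable def n672 : Strat := .move 882 n670 (.cons 881 n671 .nil)
noncomputable def n673 : Strat := .win 846 4 842
noncomputable def n674 : Strat := .win 882 4 841
noncomputable def n675 : Strat := .move 845 n673 (.cons 846 n674 .nil)
noncomputable def n676 : Strat := .move 799 n34 (.cons 800 n675 .nil)
noncomputable def n677 : Strat := .win 799 2 799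
noncomputable def n678 : Strat := .win 801 2 800
noncomputable def n679 : Strat := .move 845 n678 (.cons 801 n673 .nil)
noncomputable def n680 : Strat := .move 800 n677 (.cons 799 n679 .nil)
noncomputable def n681 : Strat := .win 924 6 759
noncomputable def n682 : Strat := .move 759 n681 (.cons 924 n444 .nil)
noncomputable def n683 : Strat := .move 800 n677 (.cons 799 n682 .nil)
noncomputable def n684 : Strat := .move 882 n670 (.cons 881 n683 .nil)
noncomputable def n685 : Strat := .move 844 n672 (.cons 881 n676 (.cons 882 n680 (.cons 845 n684 .nil)))
noncomputable def n686 : Strat := .move 883 n181 (.cons 839 n685 .nil)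
noncomputable def n687 : Strat := .move 884 n95 (.cons 885 n686 .nil)
noncomputable def n688 : Strat := .win 799 0 799
noncomputable def n689 : Strat := .win 845 2 800
noncomputable def n690 : Strat := .move 800 n688 (.cons 799 n689 .nil)
noncomputable def n691 : Strat := .win 883 4 841
noncomputable def n692 : Strat := .win 846 2 801
noncomputable def n693 : Strat := .move 845 n691 (.cons 883 n692 .nil)
noncomputable def n694 : Strat := .move 882 n670 (.cons 881 n693 .nil)
noncomputable def n695 : Strat := .win 760 3 759
noncomputable def n696 : Strat := .move 923 n695 (.cons 760 n355 .nil)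
noncomputable def n697 : Strat := .move 882 n670 (.cons 881 n696 .nil)
noncomputable def n698 : Strat := .move 800 n688 (.cons 799 n697 .nil)
noncomputable def n699 : Strat := .move 844 n690 (.cons 800 n694 (.cons 845 n698 .nil))
noncomputable def n700 : Strat := .move 801 n111 (.cons 839 n699 .nil)
noncomputable def n701 : Strat := .move 802 n47 (.cons 803 n700 .nil)
noncomputable def n702 : Strat := .move 881 n45 (.cons 882 n248 (.cons 802 n103 .nil))
noncomputable def n703 : Strat := .move 843 n117 (.cons 802 n687 (.cons 884 n701 (.cons 801 n596 (.cons 839 n702 .nil))))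
noncomputable def n704 : Strat := .move 837 n609 (.cons 881 n344 .nil)
noncomputable def n705 : Strat := .move 882 n374 (.cons 883 n704 .nil)
noncomputable def n706 : Strat := .move 838 n10 (.cons 800 n705 .nil)
noncomputable def n707 : Strat := .move 801 n9 (.cons 802 n706 .nil)
noncomputable def n708 : Strat := .win 837 0 837
noncomputable def n709 : Strat := .move 882 n374 (.cons 883 n708 .nil)
noncomputable def n710 : Strat := .move 759 n628 (.cons 922 n52 .nil)
noncomputable def n711 : Strat := .move 800 n365 (.cons 801 n710 .nil)
noncomputable def n712 : Strat := .move 882 n708 (.cons 837 n711 .nil)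
noncomputable def n713 : Strat := .win 836 0 836
noncomputable def n714 : Strat := .move 837 n366 (.cons 799 n713 .nil)
noncomputable def n715 : Strat := .move 800 n365 (.cons 801 n714 .nil)
noncomputable def n716 : Strat := .move 882 n374 (.cons 883 n711 .nil)
noncomputable def n717 : Strat := .move 838 n709 (.cons 883 n712 (.cons 882 n715 (.cons 837 n716 .nil)))
noncomputable def n718 : Strat := .move 881 n129 (.cons 843 n717 .nil)
noncomputable def n719 : Strat := .move 880 n2 (.cons 879 n718 .nil)
noncomputable def n720 : Strat := .move 838 n23 (.cons 878 n705 .nil)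
noncomputable def n721 : Strat := .move 879 n22 (.cons 880 n720 .nil)
noncomputable def n722 : Strat := .move 839 n26 (.cons 880 n707 (.cons 802 n719 (.cons 838 n90 (.cons 801 n721 .nil))))
noncomputable def n723 : Strat := .win 966 3 802
noncomputable def n724 : Strat := .move 800 n678 (.cons 801 n677 .nil)
noncomputable def n725 : Strat := .move 883 n673 (.cons 846 n674 .nil)
noncomputable def n726 : Strat := .move 845 n724 (.cons 799 n725 .nil)
noncomputable def n727 : Strat := .move 925 n723 (.cons 966 n726 .nil)
noncomputable def n728 : Strat := .move 844 n41 (.cons 804 n727 .nil)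
noncomputable def n729 : Strat := .move 803 n40 (.cons 802 n728 .nil)
noncomputable def n730 : Strat := .move 884 n95 (.cons 885 n729 .nil)
noncomputable def n731 : Strat := .move 843 n46 (.cons 802 n104 (.cons 880 n702 (.cons 882 n250 (.cons 881 n730 .nil))))
noncomputable def n732 : Strat := .move 842 n643 (.cons 843 n644 (.cons 883 n648 (.cons 801 n649 (.cons 881 n650 (.cons 882 n651 (.cons 802 n669 (.cons 880 n703 (.cons 884 n722 (.cons 839 n731 .nil)))))))))
noncomputable def n733 : Strat := .move 844 n34 (.cons 800 n36 .nil)
noncomputable def n734 : Strat := .move 881 n35 (.cons 880 n733 .nil)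
noncomputable def n735 : Strat := .move 799 n33 (.cons 798 n734 .nil)
noncomputable def n736 : Strat := .move 882 n49 (.cons 717 n48 .nil)
noncomputable def n737 : Strat := .win 882 6 717
noncomputable def n738 : Strat := .win 677 3 676
noncomputable def n739 : Strat := .win 759 3 717
noncomputable def n740 : Strat := .move 718 n738 (.cons 677 n739 .nil)
noncomputable def n741 : Strat := .move 717 n737 (.cons 882 n740 .nil)
noncomputable def n742 : Strat := .win 675 7 675
noncomputable def n743 : Strat := .win 757 7 716
noncomputable def n744 : Strat := .move 716 n742 (.cons 675 n743 .nil)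
noncomputable def n745 : Strat := .move 717 n738 (.cons 677 n744 .nil)
noncomputable def n746 : Strat := .move 718 n739 (.cons 759 n745 .nil)
noncomputable def n747 : Strat := .win 882 6 758
noncomputable def n748 : Strat := .win 964 6 799
noncomputable def n749 : Strat := .win 800 3 758
noncomputable def n750 : Strat := .win 718 3 717
noncomputable def n751 : Strat := .move 759 n749 (.cons 800 n750 .nil)
noncomputable def n752 : Strat := .move 922 n748 (.cons 964 n751 .nil)
noncomputable def n753 : Strat := .move 923 n747 (.cons 882 n752 .nil)
noncomputable def n754 : Strat := .move 758 n736 (.cons 923 n741 (.cons 882 n746 (.cons 717 n753 .nil)))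
noncomputable def n755 : Strat := .move 881 n35 (.cons 880 n754 .nil)
noncomputable def n756 : Strat := .move 799 n33 (.cons 798 n755 .nil)
noncomputable def n757 : Strat := .move 843 n735 (.cons 844 n756 (.cons 882 n44 (.cons 799 n46 .nil)))
noncomputable def n758 : Strat := .move 839 n619 (.cons 882 n513 (.cons 798 n431 .nil))
noncomputable def n759 : Strat := .move 839 n323 (.cons 883 n429 (.cons 798 n431 (.cons 884 n434 .nil)))
noncomputable def n760 : Strat := .move 843 n119 (.cons 886 n44 (.cons 800 n596 .nil))
noncomputable def n761 : Strat := .move 842 n105 (.cons 799 n137 (.cons 883 n757 (.cons 843 n758 (.cons 881 n759 (.cons 798 n649 (.cons 880 n760 .nil))))))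
noncomputable def n762 : Strat := .move 838 n612 (.cons 882 n438 (.cons 837 n372 (.cons 800 n441 .nil)))
noncomputable def n763 : Strat := .move 758 n376 (.cons 923 n49 .nil)
noncomputable def n764 : Strat := .win 758 7 758
noncomputable def n765 : Strat := .move 923 n266 (.cons 964 n764 .nil)
noncomputable def n766 : Strat := .win 798 5 756
noncomputable def n767 : Strat := .move 760 n766 (.cons 798 n630 .nil)
noncomputable def n768 : Strat := .move 799 n763 (.cons 717 n765 (.cons 923 n767 .nil))
noncomputable def n769 : Strat := .move 759 n629 (.cons 718 n768 .nil)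
noncomputable def n770 : Strat := .move 797 n28 (.cons 796 n769 .nil)
noncomputable def n771 : Strat := .move 882 n374 (.cons 883 n770 .nil)
noncomputable def n772 : Strat := .move 800 n365 (.cons 801 n771 .nil)
noncomputable def n773 : Strat := .move 838 n438 (.cons 837 n772 (.cons 800 n622 (.cons 797 n612 .nil)))
noncomputable def n774 : Strat := .move 837 n609 (.cons 881 n367 .nil)
noncomputable def n775 : Strat := .move 882 n374 (.cons 883 n774 .nil)
noncomputable def n776 : Strat := .move 838 n441 (.cons 842 n622 (.cons 797 n775 (.cons 882 n483 (.cons 883 n488 .nil))))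
noncomputable def n777 : Strat := .move 881 n52 (.cons 718 n628 .nil)
noncomputable def n778 : Strat := .win 881 1 717
noncomputable def n779 : Strat := .win 678 3 677
noncomputable def n780 : Strat := .win 760 3 718
noncomputable def n781 : Strat := .move 719 n779 (.cons 678 n780 .nil)
noncomputable def n782 : Strat := .move 718 n778 (.cons 881 n781 .nil)
noncomputable def n783 : Strat := .win 758 7 717
noncomputable def n784 : Strat := .win 676 7 676
noncomputable def n785 : Strat := .move 718 n784 (.cons 676 n781 .nil)
noncomputable def n786 : Strat := .move 717 n783 (.cons 758 n785 .nil)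
noncomputable def n787 : Strat := .win 881 1 758
noncomputable def n788 : Strat := .win 963 1 799
noncomputable def n789 : Strat := .win 799 7 758
noncomputable def n790 : Strat := .win 717 7 717
noncomputable def n791 : Strat := .move 758 n789 (.cons 799 n790 .nil)
noncomputable def n792 : Strat := .move 923 n788 (.cons 963 n791 .nil)
noncomputable def n793 : Strat := .move 922 n787 (.cons 881 n792 .nil)
noncomputable def n794 : Strat := .move 759 n777 (.cons 922 n782 (.cons 881 n786 (.cons 718 n793 .nil)))
noncomputable def n795 : Strat := .move 882 n374 (.cons 883 n794 .nil)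
noncomputable def n796 : Strat := .move 800 n365 (.cons 801 n795 .nil)
noncomputable def n797 : Strat := .move 838 n626 (.cons 799 n775 (.cons 882 n369 (.cons 837 n796 .nil)))
noncomputable def n798 : Strat := .move 922 n54 (.cons 963 n208 .nil)
noncomputable def n799 : Strat := .move 881 n708 (.cons 837 n798 .nil)
noncomputable def n800 : Strat := .move 882 n374 (.cons 883 n799 .nil)
noncomputable def n801 : Strat := .move 879 n23 (.cons 878 n386 .nil)
noncomputable def n802 : Strat := .move 798 n484 (.cons 842 n801 .nil)
noncomputable def n803 : Strat := .move 797 n28 (.cons 796 n802 .nil)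
noncomputable def n804 : Strat := .move 882 n374 (.cons 883 n803 .nil)
noncomputable def n805 : Strat := .move 800 n611 (.cons 882 n437 (.cons 799 n800 (.cons 837 n804 .nil)))
noncomputable def n806 : Strat := .move 838 n805 (.cons 882 n488 (.cons 920 n622 (.cons 797 n775 .nil)))
noncomputable def n807 : Strat := .move 800 n365 (.cons 801 n624 .nil)
noncomputable def n808 : Strat := .move 800 n365 (.cons 801 n803 .nil)
noncomputable def n809 : Strat := .move 882 n807 (.cons 799 n621 (.cons 837 n808 .nil))
noncomputable def n810 : Strat := .move 838 n809 (.cons 800 n488 (.cons 797 n369 (.cons 879 n438 .nil)))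
noncomputable def n811 : Strat := .move 800 n493 (.cons 838 n494 .nil)
noncomputable def n812 : Strat := .move 883 n7 (.cons 884 n811 .nil)
noncomputable def n813 : Strat := .move 801 n9 (.cons 802 n812 .nil)
noncomputable def n814 : Strat := .win 843 0 798
noncomputable def n815 : Strat := .win 756 2 756
noncomputable def n816 : Strat := .move 716 n290 (.cons 675 n284 .nil)
noncomputable def n817 : Strat := .move 757 n815 (.cons 756 n816 .nil)
noncomputable def n818 : Strat := .move 799 n814 (.cons 843 n817 .nil)
noncomputable def n819 : Strat := .move 798 n0 (.cons 797 n818 .nil)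
noncomputable def n820 : Strat := .move 800 n493 (.cons 838 n819 .nil)
noncomputable def n821 : Strat := .move 801 n9 (.cons 802 n820 .nil)
noncomputable def n822 : Strat := .move 842 n813 (.cons 884 n821 (.cons 802 n619 (.cons 838 n323 .nil)))
noncomputable def n823 : Strat := .move 801 n9 (.cons 802 n495 .nil)
noncomputable def n824 : Strat := .move 801 n9 (.cons 802 n819 .nil)
noncomputable def n825 : Strat := .move 800 n823 (.cons 924 n824 (.cons 801 n323 .nil))
noncomputable def n826 : Strat := .move 798 n322 (.cons 799 n178 (.cons 883 n318 .nil))
noncomputable def n827 : Strat := .move 924 n152 (.cons 964 n170 .nil)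
noncomputable def n828 : Strat := .move 923 n151 (.cons 882 n827 .nil)
noncomputable def n829 : Strat := .move 760 n143 (.cons 882 n150 (.cons 719 n828 .nil))
noncomputable def n830 : Strat := .move 801 n9 (.cons 802 n829 .nil)
noncomputable def n831 : Strat := .move 883 n7 (.cons 884 n830 .nil)
noncomputable def n832 : Strat := .move 842 n825 (.cons 801 n323 (.cons 883 n319 (.cons 797 n826 (.cons 843 n454 (.cons 799 n179 (.cons 798 n831 .nil))))))
noncomputable def n833 : Strat := .move 839 n762 (.cons 842 n773 (.cons 800 n776 (.cons 882 n489 (.cons 798 n797 (.cons 801 n806 (.cons 883 n810 (.cons 837 n822 (.cons 838 n832 .nil))))))))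
noncomputable def n834 : Strat := .move 843 n39 (.cons 800 n262 (.cons 880 n44 .nil))
noncomputable def n835 : Strat := .win 882 0 837
noncomputable def n836 : Strat := .move 837 n835 (.cons 882 n713 .nil)
noncomputable def n837 : Strat := .move 838 n10 (.cons 800 n836 .nil)
noncomputable def n838 : Strat := .move 801 n9 (.cons 802 n837 .nil)
noncomputable def n839 : Strat := .move 881 n129 (.cons 843 n838 .nil)
noncomputable def n840 : Strat := .move 880 n2 (.cons 879 n839 .nil)
noncomputable def n841 : Strat := .win 838 4 797
noncomputable def n842 : Strat := .move 800 n841 (.cons 838 n817 .nil)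
noncomputable def n843 : Strat := .move 801 n9 (.cons 802 n842 .nil)
noncomputable def n844 : Strat := .move 799 n15 (.cons 843 n843 .nil)
noncomputable def n845 : Strat := .move 798 n0 (.cons 797 n844 .nil)
noncomputable def n846 : Strat := .win 799 2 756
noncomputable def n847 : Strat := .move 756 n846 (.cons 799 n79 .nil)
noncomputable def n848 : Strat := .move 757 n73 (.cons 716 n847 .nil)
noncomputable def n849 : Strat := .move 800 n493 (.cons 838 n848 .nil)
noncomputable def n850 : Strat := .move 801 n9 (.cons 802 n849 .nil)
noncomputable def n851 : Strat := .move 880 n2 (.cons 879 n850 .nil)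
noncomputable def n852 : Strat := .move 798 n0 (.cons 797 n851 .nil)
noncomputable def n853 : Strat := .move 839 n434 (.cons 798 n840 (.cons 880 n845 (.cons 843 n852 .nil)))
noncomputable def n854 : Strat := .move 839 n26 (.cons 800 n304 (.cons 880 n31 .nil))
noncomputable def n855 : Strat := .move 843 n262 (.cons 879 n117 (.cons 802 n104 .nil))
noncomputable def n856 : Strat := .move 843 n39 (.cons 844 n64 (.cons 882 n44 (.cons 799 n46 .nil)))
noncomputable def n857 : Strat := .move 923 n355 (.cons 964 n695 .nil)
noncomputable def n858 : Strat := .move 800 n493 (.cons 838 n857 .nil)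
noncomputable def n859 : Strat := .move 801 n9 (.cons 802 n858 .nil)
noncomputable def n860 : Strat := .win 800 3 759
noncomputable def n861 : Strat := .move 760 n141 (.cons 719 n860 .nil)
noncomputable def n862 : Strat := .move 923 n355 (.cons 964 n861 .nil)
noncomputable def n863 : Strat := .move 801 n9 (.cons 802 n862 .nil)
noncomputable def n864 : Strat := .move 880 n17 (.cons 921 n2 .nil)
noncomputable def n865 : Strat := .move 758 n49 (.cons 717 n864 .nil)
noncomputable def n866 : Strat := .move 799 n15 (.cons 843 n865 .nil)
noncomputable def n867 : Strat := .move 798 n0 (.cons 797 n866 .nil)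
noncomputable def n868 : Strat := .move 882 n859 (.cons 838 n863 (.cons 760 n31 (.cons 801 n867 .nil)))
noncomputable def n869 : Strat := .move 839 n868 (.cons 801 n429 (.cons 798 n26 (.cons 802 n434 (.cons 880 n31 .nil))))
noncomputable def n870 : Strat := .move 843 n44 (.cons 799 n647 (.cons 802 n119 .nil))
noncomputable def n871 : Strat := .move 800 n55 (.cons 759 n54 .nil)
noncomputable def n872 : Strat := .win 800 3 799
noncomputable def n873 : Strat := .win 1003 1 839
noncomputable def n874 : Strat := .win 921 1 798
noncomputable def n875 : Strat := .move 962 n873 (.cons 1003 n874 .nil)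
noncomputable def n876 : Strat := .move 963 n872 (.cons 800 n875 .nil)
noncomputable def n877 : Strat := .win 1004 3 840
noncomputable def n878 : Strat := .move 882 n877 (.cons 1004 n265 .nil)
noncomputable def n879 : Strat := .move 963 n875 (.cons 921 n878 .nil)
noncomputable def n880 : Strat := .move 923 n748 (.cons 964 n879 .nil)
noncomputable def n881 : Strat := .move 758 n750 (.cons 718 n50 .nil)
noncomputable def n882 : Strat := .move 759 n749 (.cons 800 n881 .nil)
noncomputable def n883 : Strat := .move 922 n871 (.cons 759 n876 (.cons 800 n880 (.cons 963 n882 .nil)))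
noncomputable def n884 : Strat := .move 881 n35 (.cons 880 n883 .nil)
noncomputable def n885 : Strat := .move 799 n33 (.cons 798 n884 .nil)
noncomputable def n886 : Strat := .move 843 n735 (.cons 880 n119 (.cons 800 n104 (.cons 844 n885 .nil)))
noncomputable def n887 : Strat := .move 842 n834 (.cons 803 n853 (.cons 843 n854 (.cons 799 n136 (.cons 800 n855 (.cons 839 n856 (.cons 881 n869 (.cons 801 n757 (.cons 880 n870 (.cons 802 n886 .nil)))))))))
noncomputable def n888 : Strat := .move 839 n140 (.cons 882 n90 (.cons 801 n492 .nil))
noncomputable def n889 : Strat := .move 839 n140 (.cons 802 n431 (.cons 884 n463 (.cons 838 n577 .nil)))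
noncomputable def n890 : Strat := .move 799 n33 (.cons 798 n733 .nil)
noncomputable def n891 : Strat := .move 881 n35 (.cons 880 n890 .nil)
noncomputable def n892 : Strat := .win 844 2 799
noncomputable def n893 : Strat := .win 801 5 758
noncomputable def n894 : Strat := .win 721 3 720
noncomputable def n895 : Strat := .move 762 n893 (.cons 801 n894 .nil)
noncomputable def n896 : Strat := .move 761 n230 (.cons 720 n895 .nil)
noncomputable def n897 : Strat := .move 800 n892 (.cons 844 n896 .nil)
noncomputable def n898 : Strat := .move 799 n33 (.cons 798 n897 .nil)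
noncomputable def n899 : Strat := .move 884 n95 (.cons 885 n898 .nil)
noncomputable def n900 : Strat := .move 802 n47 (.cons 803 n899 .nil)
noncomputable def n901 : Strat := .move 801 n217 (.cons 966 n216 .nil)
noncomputable def n902 : Strat := .win 801 7 801
noncomputable def n903 : Strat := .win 1006 1 842
noncomputable def n904 : Strat := .win 924 1 801
noncomputable def n905 : Strat := .move 965 n903 (.cons 1006 n904 .nil)
noncomputable def n906 : Strat := .move 966 n902 (.cons 801 n905 .nil)
noncomputable def n907 : Strat := .move 924 n182 (.cons 761 n221 .nil)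
noncomputable def n908 : Strat := .move 883 n220 (.cons 720 n907 (.cons 924 n225 .nil))
noncomputable def n909 : Strat := .move 925 n901 (.cons 760 n906 (.cons 966 n908 .nil))
noncomputable def n910 : Strat := .move 881 n35 (.cons 880 n909 .nil)
noncomputable def n911 : Strat := .move 884 n95 (.cons 885 n910 .nil)
noncomputable def n912 : Strat := .move 802 n47 (.cons 803 n911 .nil)
noncomputable def n913 : Strat := .move 843 n46 (.cons 804 n891 (.cons 881 n900 (.cons 844 n912 .nil)))
noncomputable def n914 : Strat := .move 843 n104 (.cons 884 n94 (.cons 882 n187 .nil))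
noncomputable def n915 : Strat := .move 843 n94 (.cons 798 n46 (.cons 881 n647 .nil))
noncomputable def n916 : Strat := .move 839 n90 (.cons 803 n492 (.cons 880 n497 .nil))
noncomputable def n917 : Strat := .move 881 n35 (.cons 880 n53 .nil)
noncomputable def n918 : Strat := .move 800 n892 (.cons 844 n917 .nil)
noncomputable def n919 : Strat := .move 799 n33 (.cons 798 n918 .nil)
noncomputable def n920 : Strat := .move 884 n95 (.cons 885 n919 .nil)
noncomputable def n921 : Strat := .move 844 n34 (.cons 800 n675 .nil)
noncomputable def n922 : Strat := .move 799 n33 (.cons 798 n921 .nil)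
noncomputable def n923 : Strat := .move 883 n181 (.cons 839 n922 .nil)
noncomputable def n924 : Strat := .move 884 n95 (.cons 885 n923 .nil)
noncomputable def n925 : Strat := .win 962 1 798
noncomputable def n926 : Strat := .win 882 4 880
noncomputable def n927 : Strat := .move 921 n925 (.cons 962 n926 .nil)
noncomputable def n928 : Strat := .move 922 n927 (.cons 882 n871 .nil)
noncomputable def n929 : Strat := .move 799 n33 (.cons 798 n928 .nil)
noncomputable def n930 : Strat := .move 881 n35 (.cons 880 n929 .nil)
noncomputable def n931 : Strat := .move 883 n181 (.cons 839 n930 .nil)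
noncomputable def n932 : Strat := .move 884 n95 (.cons 885 n931 .nil)
noncomputable def n933 : Strat := .move 843 n94 (.cons 799 n104 (.cons 882 n920 (.cons 881 n924 (.cons 844 n932 .nil))))
noncomputable def n934 : Strat := .win 844 0 799
noncomputable def n935 : Strat := .win 757 2 757
noncomputable def n936 : Strat := .win 676 6 676
noncomputable def n937 : Strat := .move 717 n936 (.cons 676 n737 .nil)
noncomputable def n938 : Strat := .move 758 n935 (.cons 757 n937 .nil)
noncomputable def n939 : Strat := .move 800 n934 (.cons 844 n938 .nil)
noncomputable def n940 : Strat := .move 799 n33 (.cons 798 n939 .nil)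
noncomputable def n941 : Strat := .move 801 n111 (.cons 839 n940 .nil)
noncomputable def n942 : Strat := .move 802 n47 (.cons 803 n941 .nil)
noncomputable def n943 : Strat := .move 843 n117 (.cons 885 n942 (.cons 839 n119 .nil))
noncomputable def n944 : Strat := .win 800 2 800
noncomputable def n945 : Strat := .move 845 n692 (.cons 846 n944 .nil)
noncomputable def n946 : Strat := .move 844 n36 (.cons 882 n945 .nil)
noncomputable def n947 : Strat := .move 881 n35 (.cons 880 n946 .nil)
noncomputable def n948 : Strat := .move 801 n111 (.cons 839 n947 .nil)
noncomputable def n949 : Strat := .move 802 n47 (.cons 803 n948 .nil)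
noncomputable def n950 : Strat := .win 800 2 757
noncomputable def n951 : Strat := .move 757 n58 (.cons 716 n950 .nil)
noncomputable def n952 : Strat := .move 758 n50 (.cons 717 n951 .nil)
noncomputable def n953 : Strat := .move 881 n35 (.cons 880 n952 .nil)
noncomputable def n954 : Strat := .move 799 n33 (.cons 798 n953 .nil)
noncomputable def n955 : Strat := .move 801 n111 (.cons 839 n954 .nil)
noncomputable def n956 : Strat := .move 802 n47 (.cons 803 n955 .nil)
noncomputable def n957 : Strat := .win 762 5 758
noncomputable def n958 : Strat := .move 720 n334 (.cons 679 n237 .nil)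
noncomputable def n959 : Strat := .move 761 n957 (.cons 762 n958 .nil)
noncomputable def n960 : Strat := .move 800 n934 (.cons 844 n959 .nil)
noncomputable def n961 : Strat := .move 799 n33 (.cons 798 n960 .nil)
noncomputable def n962 : Strat := .move 801 n111 (.cons 839 n961 .nil)
noncomputable def n963 : Strat := .move 802 n47 (.cons 803 n962 .nil)
noncomputable def n964 : Strat := .move 843 n94 (.cons 799 n949 (.cons 844 n956 (.cons 882 n963 (.cons 800 n46 .nil))))
noncomputable def n965 : Strat := .move 843 n274 (.cons 884 n46 (.cons 803 n281 .nil))
noncomputable def n966 : Strat := .move 842 n888 (.cons 843 n889 (.cons 839 n913 (.cons 801 n914 (.cons 883 n915 (.cons 882 n916 (.cons 802 n933 (.cons 880 n943 (.cons 884 n964 (.cons 800 n965 .nil)))))))))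
noncomputable def n967 : Strat := .move 922 n131 (.cons 963 n130 .nil)
noncomputable def n968 : Strat := .move 881 n129 (.cons 843 n967 .nil)
noncomputable def n969 : Strat := .move 880 n2 (.cons 879 n968 .nil)
noncomputable def n970 : Strat := .move 798 n0 (.cons 797 n969 .nil)
noncomputable def n971 : Strat := .move 839 n970 (.cons 798 n70 (.cons 880 n109 .nil))
noncomputable def n972 : Strat := .move 880 n2 (.cons 879 n82 .nil)
noncomputable def n973 : Strat := .move 798 n0 (.cons 797 n972 .nil)
noncomputable def n974 : Strat := .move 922 n298 (.cons 963 n297 .nil)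
noncomputable def n975 : Strat := .move 921 n299 (.cons 962 n312 (.cons 758 n974 .nil))
noncomputable def n976 : Strat := .move 716 n287 (.cons 758 n294 .nil)
noncomputable def n977 : Strat := .move 757 n73 (.cons 716 n975 (.cons 922 n288 (.cons 881 n976 .nil)))
noncomputable def n978 : Strat := .move 798 n0 (.cons 797 n977 .nil)
noncomputable def n979 : Strat := .move 880 n2 (.cons 879 n978 .nil)
noncomputable def n980 : Strat := .move 801 n25 (.cons 880 n30 (.cons 838 n973 (.cons 800 n979 .nil)))
noncomputable def n981 : Strat := .move 800 n527 (.cons 801 n375 .nil)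
noncomputable def n982 : Strat := .move 923 n764 (.cons 758 n266 .nil)
noncomputable def n983 : Strat := .move 882 n374 (.cons 883 n982 .nil)
noncomputable def n984 : Strat := .move 800 n375 (.cons 837 n983 .nil)
noncomputable def n985 : Strat := .win 836 5 795
noncomputable def n986 : Strat := .move 837 n609 (.cons 881 n985 .nil)
noncomputable def n987 : Strat := .move 882 n374 (.cons 883 n986 .nil)
noncomputable def n988 : Strat := .move 800 n527 (.cons 801 n983 .nil)
noncomputable def n989 : Strat := .move 838 n981 (.cons 801 n984 (.cons 800 n987 (.cons 837 n988 .nil)))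
noncomputable def n990 : Strat := .move 799 n15 (.cons 843 n989 .nil)
noncomputable def n991 : Strat := .move 798 n0 (.cons 797 n990 .nil)
noncomputable def n992 : Strat := .move 839 n21 (.cons 798 n719 (.cons 843 n980 (.cons 880 n991 (.cons 799 n135 .nil))))
noncomputable def n993 : Strat := .move 839 n109 (.cons 797 n431 (.cons 884 n980 (.cons 838 n587 .nil)))
noncomputable def n994 : Strat := .move 839 n109 (.cons 883 n434 (.cons 798 n70 .nil))
noncomputable def n995 : Strat := .move 759 n52 (.cons 718 n51 .nil)
noncomputable def n996 : Strat := .move 881 n35 (.cons 880 n995 .nil)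
noncomputable def n997 : Strat := .move 800 n892 (.cons 844 n996 .nil)
noncomputable def n998 : Strat := .move 799 n33 (.cons 798 n997 .nil)
noncomputable def n999 : Strat := .move 843 n119 (.cons 800 n99 (.cons 799 n592 (.cons 885 n998 .nil)))
noncomputable def n1000 : Strat := .win 887 0 842
noncomputable def n1001 : Strat := .win 885 0 841
noncomputable def n1002 : Strat := .move 886 n1000 (.cons 887 n1001 .nil)
noncomputable def n1003 : Strat := .move 845 n691 (.cons 883 n1002 .nil)
noncomputable def n1004 : Strat := .move 882 n670 (.cons 881 n1003 .nil)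
noncomputable def n1005 : Strat := .move 844 n34 (.cons 800 n1004 .nil)
noncomputable def n1006 : Strat := .move 799 n33 (.cons 798 n1005 .nil)
noncomputable def n1007 : Strat := .win 677 1 676
noncomputable def n1008 : Strat := .move 718 n1007 (.cons 677 n778 .nil)
noncomputable def n1009 : Strat := .move 881 n52 (.cons 718 n51 .nil)
noncomputable def n1010 : Strat := .move 923 n788 (.cons 963 n266 .nil)
noncomputable def n1011 : Strat := .move 922 n787 (.cons 881 n1010 .nil)
noncomputable def n1012 : Strat := .move 839 n353 (.cons 838 n7 .nil)
noncomputable def n1013 : Strat := .move 883 n681 (.cons 924 n1012 .nil)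
noncomputable def n1014 : Strat := .move 882 n982 (.cons 964 n763 (.cons 758 n1011 (.cons 923 n1013 .nil)))
noncomputable def n1015 : Strat := .win 883 6 718
noncomputable def n1016 : Strat := .move 718 n1007 (.cons 677 n1015 .nil)
noncomputable def n1017 : Strat := .move 759 n1008 (.cons 677 n1009 (.cons 718 n1014 (.cons 881 n1016 .nil)))
noncomputable def n1018 : Strat := .move 800 n892 (.cons 844 n1017 .nil)
noncomputable def n1019 : Strat := .move 799 n33 (.cons 798 n1018 .nil)
noncomputable def n1020 : Strat := .win 805 5 801
noncomputable def n1021 : Strat := .win 803 5 800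
noncomputable def n1022 : Strat := .move 804 n1020 (.cons 805 n1021 .nil)
noncomputable def n1023 : Strat := .move 845 n691 (.cons 883 n1022 .nil)
noncomputable def n1024 : Strat := .move 882 n670 (.cons 881 n1023 .nil)
noncomputable def n1025 : Strat := .move 844 n101 (.cons 886 n1024 .nil)
noncomputable def n1026 : Strat := .move 885 n100 (.cons 884 n1025 .nil)
noncomputable def n1027 : Strat := .move 843 n119 (.cons 844 n99 (.cons 884 n1006 (.cons 798 n687 (.cons 885 n1019 (.cons 799 n1026 .nil)))))
noncomputable def n1028 : Strat := .move 842 n971 (.cons 883 n886 (.cons 884 n992 (.cons 843 n993 (.cons 881 n994 (.cons 882 n999 (.cons 798 n669 (.cons 880 n1027 .nil)))))))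
noncomputable def n1029 : Strat := .move 839 n813 (.cons 883 n319 (.cons 801 n323 .nil))
noncomputable def n1030 : Strat := .win 761 5 757
noncomputable def n1031 : Strat := .win 678 1 677
noncomputable def n1032 : Strat := .move 719 n1031 (.cons 678 n172 .nil)
noncomputable def n1033 : Strat := .move 760 n1030 (.cons 761 n1032 .nil)
noncomputable def n1034 : Strat := .move 799 n817 (.cons 757 n1033 .nil)
noncomputable def n1035 : Strat := .move 798 n0 (.cons 797 n1034 .nil)
noncomputable def n1036 : Strat := .move 800 n493 (.cons 838 n1035 .nil)
noncomputable def n1037 : Strat := .move 801 n9 (.cons 802 n1036 .nil)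
noncomputable def n1038 : Strat := .move 839 n140 (.cons 801 n109 (.cons 883 n1037 (.cons 838 n454 (.cons 882 n497 .nil))))
noncomputable def n1039 : Strat := .move 843 n119 (.cons 844 n64 (.cons 798 n46 .nil))
noncomputable def n1040 : Strat := .move 843 n39 (.cons 880 n119 (.cons 799 n596 .nil))
noncomputable def n1041 : Strat := .move 924 n183 (.cons 965 n182 .nil)
noncomputable def n1042 : Strat := .move 883 n181 (.cons 839 n1041 .nil)
noncomputable def n1043 : Strat := .move 884 n95 (.cons 885 n1042 .nil)
noncomputable def n1044 : Strat := .move 802 n47 (.cons 803 n1043 .nil)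
noncomputable def n1045 : Strat := .move 843 n1044 (.cons 839 n46 (.cons 802 n214 .nil))
noncomputable def n1046 : Strat := .move 843 n39 (.cons 798 n214 (.cons 881 n119 (.cons 844 n932 (.cons 800 n281 .nil))))
noncomputable def n1047 : Strat := .move 843 n39 (.cons 799 n949 (.cons 880 n44 (.cons 800 n279 (.cons 844 n956 .nil))))
noncomputable def n1048 : Strat := .move 842 n1029 (.cons 843 n1038 (.cons 839 n1039 (.cons 801 n1040 (.cons 798 n1045 (.cons 802 n1046 (.cons 884 n1047 (.cons 800 n282 .nil)))))))
noncomputable def n1049 : Strat := .move 800 n936 (.cons 676 n51 .nil)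
noncomputable def n1050 : Strat := .move 717 n1049 (.cons 922 n744 .nil)
noncomputable def n1051 : Strat := .move 759 n750 (.cons 718 n1050 .nil)
noncomputable def n1052 : Strat := .move 922 n748 (.cons 964 n871 .nil)
noncomputable def n1053 : Strat := .move 923 n747 (.cons 882 n1052 .nil)
noncomputable def n1054 : Strat := .move 758 n736 (.cons 923 n741 (.cons 882 n1051 (.cons 717 n1053 .nil)))
noncomputable def n1055 : Strat := .move 799 n33 (.cons 798 n1054 .nil)
noncomputable def n1056 : Strat := .move 881 n35 (.cons 880 n1055 .nil)
noncomputable def n1057 : Strat := .move 843 n891 (.cons 844 n1056 (.cons 800 n46 (.cons 881 n44 .nil)))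
noncomputable def n1058 : Strat := .win 757 7 757
noncomputable def n1059 : Strat := .move 922 n131 (.cons 963 n1058 .nil)
noncomputable def n1060 : Strat := .win 922 7 757
noncomputable def n1061 : Strat := .move 757 n72 (.cons 716 n1060 .nil)
noncomputable def n1062 : Strat := .win 757 6 716
noncomputable def n1063 : Strat := .move 838 n708 (.cons 837 n374 .nil)
noncomputable def n1064 : Strat := .move 882 n1063 (.cons 883 n275 .nil)
noncomputable def n1065 : Strat := .move 716 n1062 (.cons 757 n1064 .nil)
noncomputable def n1066 : Strat := .move 922 n131 (.cons 963 n1064 .nil)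
noncomputable def n1067 : Strat := .move 881 n1059 (.cons 963 n1061 (.cons 922 n1065 (.cons 757 n1066 .nil)))
noncomputable def n1068 : Strat := .move 799 n15 (.cons 843 n1067 .nil)
noncomputable def n1069 : Strat := .move 798 n0 (.cons 797 n1068 .nil)
noncomputable def n1070 : Strat := .move 800 n817 (.cons 757 n1033 .nil)
noncomputable def n1071 : Strat := .move 801 n9 (.cons 802 n1070 .nil)
noncomputable def n1072 : Strat := .move 799 n15 (.cons 843 n1071 .nil)
noncomputable def n1073 : Strat := .move 798 n0 (.cons 797 n1072 .nil)
noncomputable def n1074 : Strat := .move 837 n609 (.cons 881 n347 .nil)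
noncomputable def n1075 : Strat := .move 882 n374 (.cons 883 n1074 .nil)
noncomputable def n1076 : Strat := .move 838 n10 (.cons 800 n1075 .nil)
noncomputable def n1077 : Strat := .move 801 n9 (.cons 802 n1076 .nil)
noncomputable def n1078 : Strat := .move 839 n31 (.cons 801 n1069 (.cons 798 n707 (.cons 838 n1073 (.cons 797 n1077 .nil))))
noncomputable def n1079 : Strat := .move 839 n9 (.cons 802 n25 .nil)
noncomputable def n1080 : Strat := .move 839 n25 (.cons 880 n30 (.cons 838 n973 (.cons 800 n979 .nil)))
noncomputable def n1081 : Strat := .move 839 n9 (.cons 802 n979 .nil)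
noncomputable def n1082 : Strat := .move 839 n9 (.cons 802 n30 .nil)
noncomputable def n1083 : Strat := .win 883 1 759
noncomputable def n1084 : Strat := .move 760 n141 (.cons 719 n1083 .nil)
noncomputable def n1085 : Strat := .move 923 n355 (.cons 964 n1084 .nil)
noncomputable def n1086 : Strat := .move 718 n778 (.cons 881 n1015 .nil)
noncomputable def n1087 : Strat := .win 677 6 677
noncomputable def n1088 : Strat := .move 718 n1087 (.cons 677 n1015 .nil)
noncomputable def n1089 : Strat := .win 802 0 757
noncomputable def n1090 : Strat := .win 756 0 756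
noncomputable def n1091 : Strat := .move 757 n1089 (.cons 802 n1090 .nil)
noncomputable def n1092 : Strat := .move 758 n790 (.cons 717 n1091 .nil)
noncomputable def n1093 : Strat := .move 759 n1086 (.cons 883 n629 (.cons 881 n1088 (.cons 718 n1092 .nil)))
noncomputable def n1094 : Strat := .win 803 4 799
noncomputable def n1095 : Strat := .win 757 0 757
noncomputable def n1096 : Strat := .move 758 n1095 (.cons 757 n790 .nil)
noncomputable def n1097 : Strat := .move 759 n629 (.cons 718 n1096 .nil)
noncomputable def n1098 : Strat := .move 802 n1094 (.cons 803 n1097 .nil)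
noncomputable def n1099 : Strat := .move 883 n681 (.cons 924 n448 .nil)
noncomputable def n1100 : Strat := .win 799 4 758
noncomputable def n1101 : Strat := .win 763 4 759
noncomputable def n1102 : Strat := .move 762 n1100 (.cons 799 n1101 .nil)
noncomputable def n1103 : Strat := .move 761 n1099 (.cons 720 n1102 .nil)
noncomputable def n1104 : Strat := .move 759 n1086 (.cons 883 n629 (.cons 881 n1088 (.cons 718 n1103 .nil)))
noncomputable def n1105 : Strat := .win 883 3 719
noncomputable def n1106 : Strat := .move 720 n334 (.cons 679 n1105 .nil)
noncomputable def n1107 : Strat := .win 798 5 757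
noncomputable def n1108 : Strat := .move 799 n957 (.cons 762 n1107 .nil)
noncomputable def n1109 : Strat := .move 761 n1106 (.cons 883 n1108 .nil)
noncomputable def n1110 : Strat := .move 802 n1094 (.cons 803 n1109 .nil)
noncomputable def n1111 : Strat := .move 800 n1093 (.cons 883 n1098 (.cons 757 n1104 (.cons 759 n1110 .nil)))
noncomputable def n1112 : Strat := .move 760 n141 (.cons 719 n1111 .nil)
noncomputable def n1113 : Strat := .win 924 6 800
noncomputable def n1114 : Strat := .move 922 n787 (.cons 881 n788 .nil)
noncomputable def n1115 : Strat := .move 718 n1087 (.cons 677 n778 .nil)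
noncomputable def n1116 : Strat := .move 758 n790 (.cons 717 n789 .nil)
noncomputable def n1117 : Strat := .move 759 n629 (.cons 718 n1114 (.cons 922 n1115 (.cons 881 n1116 .nil)))
noncomputable def n1118 : Strat := .move 965 n1113 (.cons 924 n1117 .nil)
noncomputable def n1119 : Strat := .move 800 n695 (.cons 760 n1118 .nil)
noncomputable def n1120 : Strat := .move 923 n355 (.cons 964 n1119 .nil)
noncomputable def n1121 : Strat := .move 718 n1015 (.cons 883 n1007 .nil)
noncomputable def n1122 : Strat := .move 759 n629 (.cons 718 n1114 (.cons 922 n1008 (.cons 881 n1121 .nil)))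
noncomputable def n1123 : Strat := .move 799 n764 (.cons 758 n1122 .nil)
noncomputable def n1124 : Strat := .win 965 6 800
noncomputable def n1125 : Strat := .win 883 6 759
noncomputable def n1126 : Strat := .move 759 n1125 (.cons 883 n629 .nil)
noncomputable def n1127 : Strat := .move 924 n1124 (.cons 965 n1126 .nil)
noncomputable def n1128 : Strat := .win 883 3 760
noncomputable def n1129 : Strat := .move 924 n1128 (.cons 883 n1124 .nil)
noncomputable def n1130 : Strat := .move 799 n957 (.cons 762 n764 .nil)
noncomputable def n1131 : Strat := .move 761 n1129 (.cons 965 n1130 .nil)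
noncomputable def n1132 : Strat := .move 802 n1094 (.cons 803 n1131 .nil)
noncomputable def n1133 : Strat := .move 800 n1123 (.cons 799 n1127 (.cons 883 n1118 (.cons 759 n1132 .nil)))
noncomputable def n1134 : Strat := .move 923 n355 (.cons 964 n1133 .nil)
noncomputable def n1135 : Strat := .move 882 n1085 (.cons 923 n1112 (.cons 883 n1120 (.cons 760 n1134 .nil)))
noncomputable def n1136 : Strat := .move 801 n1079 (.cons 802 n1080 (.cons 800 n1081 (.cons 880 n1082 (.cons 839 n1135 .nil))))
noncomputable def n1137 : Strat := .move 842 n32 (.cons 839 n65 (.cons 799 n162 (.cons 800 n271 (.cons 801 n1057 (.cons 798 n722 (.cons 802 n992 (.cons 880 n1078 (.cons 843 n1136 .nil))))))))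
noncomputable def n1138 : Strat := .win 882 1 758
noncomputable def n1139 : Strat := .move 922 n54 (.cons 963 n1138 .nil)
noncomputable def n1140 : Strat := .move 759 n52 (.cons 718 n1139 .nil)
noncomputable def n1141 : Strat := .win 842 0 797
noncomputable def n1142 : Strat := .win 796 0 796
noncomputable def n1143 : Strat := .move 797 n1141 (.cons 842 n1142 .nil)
noncomputable def n1144 : Strat := .move 798 n1058 (.cons 757 n1143 .nil)
noncomputable def n1145 : Strat := .move 882 n265 (.cons 758 n1144 .nil)
noncomputable def n1146 : Strat := .move 923 n748 (.cons 964 n1145 .nil)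
noncomputable def n1147 : Strat := .win 797 0 797
noncomputable def n1148 : Strat := .move 842 n1147 (.cons 797 n15 .nil)
noncomputable def n1149 : Strat := .move 798 n1058 (.cons 757 n1148 .nil)
noncomputable def n1150 : Strat := .win 883 5 879
noncomputable def n1151 : Strat := .win 919 5 878
noncomputable def n1152 : Strat := .move 920 n1150 (.cons 883 n1151 .nil)
noncomputable def n1153 : Strat := .move 921 n925 (.cons 962 n1152 .nil)
noncomputable def n1154 : Strat := .move 882 n265 (.cons 758 n1153 .nil)
noncomputable def n1155 : Strat := .move 923 n748 (.cons 964 n1154 .nil)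
noncomputable def n1156 : Strat := .move 799 n1146 (.cons 923 n1149 (.cons 798 n1155 .nil))
noncomputable def n1157 : Strat := .move 922 n54 (.cons 963 n1156 .nil)
noncomputable def n1158 : Strat := .win 755 0 755
noncomputable def n1159 : Strat := .win 801 0 756
noncomputable def n1160 : Strat := .move 756 n1158 (.cons 755 n1159 .nil)
noncomputable def n1161 : Strat := .move 757 n58 (.cons 716 n1160 .nil)
noncomputable def n1162 : Strat := .move 799 n48 (.cons 923 n1161 .nil)
noncomputable def n1163 : Strat := .move 758 n790 (.cons 717 n1162 .nil)
noncomputable def n1164 : Strat := .move 882 n628 (.cons 922 n1163 .nil)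
noncomputable def n1165 : Strat := .move 759 n52 (.cons 718 n1164 .nil)
noncomputable def n1166 : Strat := .move 843 n198 (.cons 844 n35 .nil)
noncomputable def n1167 : Strat := .win 801 1 759
noncomputable def n1168 : Strat := .move 760 n1167 (.cons 801 n630 .nil)
noncomputable def n1169 : Strat := .win 1005 3 841
noncomputable def n1170 : Strat := .win 799 7 799
noncomputable def n1171 : Strat := .move 964 n1169 (.cons 1005 n1170 .nil)
noncomputable def n1172 : Strat := .move 923 n1168 (.cons 719 n1171 .nil)
noncomputable def n1173 : Strat := .move 842 n1166 (.cons 880 n1172 .nil)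
noncomputable def n1174 : Strat := .move 883 n681 (.cons 924 n1173 .nil)
noncomputable def n1175 : Strat := .move 801 n1089 (.cons 802 n1090 .nil)
noncomputable def n1176 : Strat := .win 715 2 715
noncomputable def n1177 : Strat := .win 799 7 716
noncomputable def n1178 : Strat := .move 716 n1176 (.cons 715 n1177 .nil)
noncomputable def n1179 : Strat := .move 757 n1175 (.cons 756 n1178 .nil)
noncomputable def n1180 : Strat := .move 760 n630 (.cons 719 n1179 .nil)
noncomputable def n1181 : Strat := .move 758 n790 (.cons 717 n1180 .nil)
noncomputable def n1182 : Strat := .win 923 3 759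
noncomputable def n1183 : Strat := .move 801 n1182 (.cons 923 n1091 .nil)
noncomputable def n1184 : Strat := .move 758 n790 (.cons 717 n1183 .nil)
noncomputable def n1185 : Strat := .move 760 n630 (.cons 719 n1184 .nil)
noncomputable def n1186 : Strat := .win 762 4 758
noncomputable def n1187 : Strat := .win 798 4 757
noncomputable def n1188 : Strat := .move 761 n1186 (.cons 762 n1187 .nil)
noncomputable def n1189 : Strat := .move 760 n630 (.cons 719 n1188 .nil)
noncomputable def n1190 : Strat := .move 799 n48 (.cons 923 n1189 .nil)
noncomputable def n1191 : Strat := .move 758 n790 (.cons 717 n1190 .nil)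
noncomputable def n1192 : Strat := .move 882 n1163 (.cons 758 n1174 (.cons 923 n1181 (.cons 799 n1185 (.cons 801 n1191 .nil))))
noncomputable def n1193 : Strat := .move 759 n52 (.cons 718 n1192 .nil)
noncomputable def n1194 : Strat := .win 799 3 758
noncomputable def n1195 : Strat := .move 922 n54 (.cons 963 n1194 .nil)
noncomputable def n1196 : Strat := .move 759 n52 (.cons 718 n1195 .nil)
noncomputable def n1197 : Strat := .move 881 n1140 (.cons 759 n1157 (.cons 963 n1165 (.cons 922 n1193 (.cons 882 n1196 .nil))))
noncomputable def n1198 : Strat := .move 799 n764 (.cons 758 n266 .nil)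
noncomputable def n1199 : Strat := .win 801 3 759
noncomputable def n1200 : Strat := .move 924 n1124 (.cons 965 n1125 .nil)
noncomputable def n1201 : Strat := .move 759 n630 (.cons 719 n1200 .nil)
noncomputable def n1202 : Strat := .move 760 n1199 (.cons 801 n1201 .nil)
noncomputable def n1203 : Strat := .move 799 n764 (.cons 758 n1202 .nil)
noncomputable def n1204 : Strat := .win 1006 6 841
noncomputable def n1205 : Strat := .move 965 n1113 (.cons 924 n1204 .nil)
noncomputable def n1206 : Strat := .move 964 n1170 (.cons 799 n1205 .nil)
noncomputable def n1207 : Strat := .win 842 3 800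
noncomputable def n1208 : Strat := .move 964 n1207 (.cons 842 n1205 .nil)
noncomputable def n1209 : Strat := .move 801 n695 (.cons 760 n1208 .nil)
noncomputable def n1210 : Strat := .move 923 n1198 (.cons 964 n1203 (.cons 758 n1206 (.cons 799 n1209 .nil)))
noncomputable def n1211 : Strat := .win 842 6 718
noncomputable def n1212 : Strat := .move 719 n780 (.cons 760 n779 .nil)
noncomputable def n1213 : Strat := .move 718 n1211 (.cons 842 n1212 .nil)
noncomputable def n1214 : Strat := .move 883 n681 (.cons 924 n1213 .nil)
noncomputable def n1215 : Strat := .move 801 n1182 (.cons 923 n1092 .nil)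
noncomputable def n1216 : Strat := .move 760 n630 (.cons 719 n1215 .nil)
noncomputable def n1217 : Strat := .move 717 n783 (.cons 758 n784 .nil)
noncomputable def n1218 : Strat := .move 718 n1211 (.cons 842 n1217 .nil)
noncomputable def n1219 : Strat := .move 883 n681 (.cons 924 n1218 .nil)
noncomputable def n1220 : Strat := .move 759 n1214 (.cons 718 n1216 (.cons 760 n1219 .nil))
noncomputable def n1221 : Strat := .move 718 n1007 (.cons 677 n781 .nil)
noncomputable def n1222 : Strat := .move 759 n1125 (.cons 883 n1221 .nil)
noncomputable def n1223 : Strat := .move 924 n1124 (.cons 965 n1222 .nil)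
noncomputable def n1224 : Strat := .move 923 n266 (.cons 964 n1223 .nil)
noncomputable def n1225 : Strat := .move 883 n1211 (.cons 842 n681 .nil)
noncomputable def n1226 : Strat := .move 718 n1007 (.cons 677 n1225 .nil)
noncomputable def n1227 : Strat := .move 759 n1189 (.cons 760 n1226 .nil)
noncomputable def n1228 : Strat := .move 758 n49 (.cons 717 n1227 .nil)
noncomputable def n1229 : Strat := .move 799 n377 (.cons 758 n1224 (.cons 923 n1228 .nil))
noncomputable def n1230 : Strat := .move 842 n814 (.cons 843 n1147 .nil)
noncomputable def n1231 : Strat := .win 757 2 756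
noncomputable def n1232 : Strat := .move 756 n537 (.cons 755 n1231 .nil)
noncomputable def n1233 : Strat := .move 797 n1142 (.cons 796 n1232 .nil)
noncomputable def n1234 : Strat := .win 842 0 798
noncomputable def n1235 : Strat := .move 802 n934 (.cons 844 n1094 .nil)
noncomputable def n1236 : Strat := .move 843 n1234 (.cons 842 n1235 .nil)
noncomputable def n1237 : Strat := .move 798 n1143 (.cons 796 n1230 (.cons 842 n1233 (.cons 797 n1236 .nil)))
noncomputable def n1238 : Strat := .move 801 n695 (.cons 760 n1237 .nil)
noncomputable def n1239 : Strat := .move 799 n266 (.cons 964 n1238 .nil)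
noncomputable def n1240 : Strat := .win 759 6 759
noncomputable def n1241 : Strat := .win 885 2 840
noncomputable def n1242 : Strat := .win 921 5 880
noncomputable def n1243 : Strat := .move 922 n1242 (.cons 921 n788 .nil)
noncomputable def n1244 : Strat := .move 884 n1241 (.cons 885 n1243 .nil)
noncomputable def n1245 : Strat := .move 883 n1240 (.cons 759 n1244 .nil)
noncomputable def n1246 : Strat := .move 924 n1124 (.cons 965 n1245 .nil)
noncomputable def n1247 : Strat := .move 799 n1202 (.cons 801 n1223 (.cons 760 n1246 (.cons 883 n1238 .nil)))
noncomputable def n1248 : Strat := .move 923 n1206 (.cons 924 n1239 (.cons 964 n1247 (.cons 799 n1209 .nil)))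
noncomputable def n1249 : Strat := .win 922 1 799
noncomputable def n1250 : Strat := .win 1004 1 840
noncomputable def n1251 : Strat := .move 963 n1249 (.cons 922 n1250 .nil)
noncomputable def n1252 : Strat := .move 964 n1170 (.cons 799 n1251 .nil)
noncomputable def n1253 : Strat := .move 964 n1207 (.cons 842 n1251 .nil)
noncomputable def n1254 : Strat := .move 801 n695 (.cons 760 n1253 .nil)
noncomputable def n1255 : Strat := .move 799 n764 (.cons 758 n1238 .nil)
noncomputable def n1256 : Strat := .move 923 n1198 (.cons 758 n1252 (.cons 799 n1254 (.cons 964 n1255 .nil)))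
noncomputable def n1257 : Strat := .move 760 n630 (.cons 719 n1199 .nil)
noncomputable def n1258 : Strat := .move 923 n789 (.cons 799 n1257 .nil)
noncomputable def n1259 : Strat := .move 758 n790 (.cons 717 n1258 .nil)
noncomputable def n1260 : Strat := .move 924 n1125 (.cons 883 n1124 .nil)
noncomputable def n1261 : Strat := .move 923 n1199 (.cons 801 n1260 .nil)
noncomputable def n1262 : Strat := .move 760 n630 (.cons 719 n1261 .nil)
noncomputable def n1263 : Strat := .move 923 n789 (.cons 799 n1260 .nil)
noncomputable def n1264 : Strat := .move 758 n790 (.cons 717 n1263 .nil)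
noncomputable def n1265 : Strat := .move 718 n784 (.cons 676 n1212 .nil)
noncomputable def n1266 : Strat := .move 717 n783 (.cons 758 n1265 .nil)
noncomputable def n1267 : Strat := .move 759 n1259 (.cons 758 n1262 (.cons 760 n1264 (.cons 923 n1266 .nil)))
noncomputable def n1268 : Strat := .move 799 n764 (.cons 758 n1246 .nil)
noncomputable def n1269 : Strat := .win 884 5 880
noncomputable def n1270 : Strat := .win 920 5 879
noncomputable def n1271 : Strat := .move 921 n1269 (.cons 884 n1270 .nil)
noncomputable def n1272 : Strat := .move 922 n788 (.cons 963 n1271 .nil)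
noncomputable def n1273 : Strat := .move 883 n1240 (.cons 759 n1272 .nil)
noncomputable def n1274 : Strat := .move 924 n1124 (.cons 965 n1273 .nil)
noncomputable def n1275 : Strat := .move 923 n1198 (.cons 964 n1268 (.cons 799 n1274 .nil))
noncomputable def n1276 : Strat := .move 718 n1211 (.cons 842 n1007 .nil)
noncomputable def n1277 : Strat := .move 799 n1276 (.cons 677 n1188 .nil)
noncomputable def n1278 : Strat := .move 883 n681 (.cons 924 n1277 .nil)
noncomputable def n1279 : Strat := .move 760 n630 (.cons 719 n1278 .nil)
noncomputable def n1280 : Strat := .move 758 n790 (.cons 717 n1279 .nil)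
noncomputable def n1281 : Strat := .move 717 n784 (.cons 676 n781 .nil)
noncomputable def n1282 : Strat := .move 718 n1211 (.cons 842 n1281 .nil)
noncomputable def n1283 : Strat := .move 883 n681 (.cons 924 n1282 .nil)
noncomputable def n1284 : Strat := .move 799 n1186 (.cons 762 n1187 .nil)
noncomputable def n1285 : Strat := .win 804 0 759
noncomputable def n1286 : Strat := .win 802 0 758
noncomputable def n1287 : Strat := .move 803 n1285 (.cons 804 n1286 .nil)
noncomputable def n1288 : Strat := .move 762 n1100 (.cons 799 n1287 .nil)
noncomputable def n1289 : Strat := .win 803 0 758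
noncomputable def n1290 : Strat := .win 801 0 757
noncomputable def n1291 : Strat := .move 802 n1289 (.cons 803 n1290 .nil)
noncomputable def n1292 : Strat := .win 799 4 757
noncomputable def n1293 : Strat := .win 797 4 756
noncomputable def n1294 : Strat := .move 798 n1292 (.cons 799 n1293 .nil)
noncomputable def n1295 : Strat := .move 757 n1175 (.cons 756 n1291 (.cons 802 n1294 .nil))
noncomputable def n1296 : Strat := .win 722 5 718
noncomputable def n1297 : Strat := .win 720 5 717
noncomputable def n1298 : Strat := .move 721 n1296 (.cons 722 n1297 .nil)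
noncomputable def n1299 : Strat := .move 762 n1287 (.cons 802 n1298 .nil)
noncomputable def n1300 : Strat := .move 761 n1284 (.cons 798 n1288 (.cons 762 n1295 (.cons 799 n1299 .nil)))
noncomputable def n1301 : Strat := .move 760 n630 (.cons 719 n1300 .nil)
noncomputable def n1302 : Strat := .move 758 n790 (.cons 717 n1301 .nil)
noncomputable def n1303 : Strat := .move 759 n1280 (.cons 842 n1266 (.cons 758 n1283 (.cons 717 n1214 (.cons 760 n1219 (.cons 718 n1302 .nil)))))
noncomputable def n1304 : Strat := .move 882 n1210 (.cons 799 n1220 (.cons 801 n1229 (.cons 758 n1248 (.cons 883 n1256 (.cons 842 n1267 (.cons 760 n1275 (.cons 923 n1303 .nil)))))))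
noncomputable def n1305 : Strat := .move 882 n628 (.cons 922 n1185 .nil)
noncomputable def n1306 : Strat := .move 881 n52 (.cons 718 n1305 .nil)
noncomputable def n1307 : Strat := .win 801 6 677
noncomputable def n1308 : Strat := .win 717 7 676
noncomputable def n1309 : Strat := .win 635 7 635
noncomputable def n1310 : Strat := .move 676 n1308 (.cons 717 n1309 .nil)
noncomputable def n1311 : Strat := .move 677 n1307 (.cons 801 n1310 .nil)
noncomputable def n1312 : Strat := .move 842 n1015 (.cons 883 n1311 .nil)
noncomputable def n1313 : Strat := .move 718 n778 (.cons 881 n1312 .nil)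
noncomputable def n1314 : Strat := .win 882 3 718
noncomputable def n1315 : Strat := .move 801 n146 (.cons 679 n1087 .nil)
noncomputable def n1316 : Strat := .win 722 4 718
noncomputable def n1317 : Strat := .win 758 4 717
noncomputable def n1318 : Strat := .move 721 n1316 (.cons 722 n1317 .nil)
noncomputable def n1319 : Strat := .move 720 n1315 (.cons 677 n1318 .nil)
noncomputable def n1320 : Strat := .move 760 n1314 (.cons 882 n1319 .nil)
noncomputable def n1321 : Strat := .move 842 n1015 (.cons 883 n1320 .nil)
noncomputable def n1322 : Strat := .move 719 n779 (.cons 678 n1321 .nil)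
noncomputable def n1323 : Strat := .move 718 n778 (.cons 881 n1322 .nil)
noncomputable def n1324 : Strat := .move 882 n780 (.cons 760 n783 .nil)
noncomputable def n1325 : Strat := .move 717 n784 (.cons 676 n1324 .nil)
noncomputable def n1326 : Strat := .move 719 n779 (.cons 678 n1325 .nil)
noncomputable def n1327 : Strat := .move 718 n1326 (.cons 717 n1322 (.cons 882 n1312 .nil))
noncomputable def n1328 : Strat := .move 881 n628 (.cons 922 n1185 .nil)
noncomputable def n1329 : Strat := .move 760 n1199 (.cons 801 n630 .nil)
noncomputable def n1330 : Strat := .move 923 n1124 (.cons 965 n1329 .nil)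
noncomputable def n1331 : Strat := .move 924 n1125 (.cons 883 n1330 .nil)
noncomputable def n1332 : Strat := .move 881 n628 (.cons 922 n1331 .nil)
noncomputable def n1333 : Strat := .win 842 5 838
noncomputable def n1334 : Strat := .win 878 5 837
noncomputable def n1335 : Strat := .move 879 n1333 (.cons 842 n1334 .nil)
noncomputable def n1336 : Strat := .win 879 5 838
noncomputable def n1337 : Strat := .move 842 n1336 (.cons 879 n129 .nil)
noncomputable def n1338 : Strat := .win 919 4 878
noncomputable def n1339 : Strat := .win 921 4 879
noncomputable def n1340 : Strat := .move 920 n1338 (.cons 919 n1339 .nil)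
noncomputable def n1341 : Strat := .move 879 n1334 (.cons 878 n1340 .nil)
noncomputable def n1342 : Strat := .win 842 4 839
noncomputable def n1343 : Strat := .win 844 5 840
noncomputable def n1344 : Strat := .move 884 n1343 (.cons 844 n1241 .nil)
noncomputable def n1345 : Strat := .move 843 n1342 (.cons 842 n1344 .nil)
noncomputable def n1346 : Strat := .move 880 n1335 (.cons 878 n1337 (.cons 842 n1341 (.cons 879 n1345 .nil)))
noncomputable def n1347 : Strat := .move 883 n681 (.cons 924 n1346 .nil)
noncomputable def n1348 : Strat := .move 881 n628 (.cons 922 n1347 .nil)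
noncomputable def n1349 : Strat := .move 882 n1328 (.cons 881 n1216 (.cons 802 n1332 (.cons 760 n1348 .nil)))
noncomputable def n1350 : Strat := .move 882 n628 (.cons 922 n1347 .nil)
noncomputable def n1351 : Strat := .move 881 n52 (.cons 718 n1350 .nil)
noncomputable def n1352 : Strat := .move 759 n1306 (.cons 882 n1313 (.cons 717 n1323 (.cons 881 n1327 (.cons 718 n1349 (.cons 801 n1351 .nil)))))
noncomputable def n1353 : Strat := .win 799 1 676
noncomputable def n1354 : Strat := .win 719 3 677
noncomputable def n1355 : Strat := .win 637 3 636
noncomputable def n1356 : Strat := .move 678 n1354 (.cons 719 n1355 .nil)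
noncomputable def n1357 : Strat := .move 677 n1353 (.cons 799 n1356 .nil)
noncomputable def n1358 : Strat := .move 718 n778 (.cons 881 n1357 .nil)
noncomputable def n1359 : Strat := .move 881 n628 (.cons 922 n1181 .nil)
noncomputable def n1360 : Strat := .move 881 n628 (.cons 922 n1191 .nil)
noncomputable def n1361 : Strat := .move 923 n788 (.cons 963 n1260 .nil)
noncomputable def n1362 : Strat := .move 922 n787 (.cons 881 n1361 .nil)
noncomputable def n1363 : Strat := .move 882 n1259 (.cons 923 n1359 (.cons 801 n1360 (.cons 758 n1362 .nil)))
noncomputable def n1364 : Strat := .move 881 n52 (.cons 718 n1139 .nil)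
noncomputable def n1365 : Strat := .move 882 n1259 (.cons 758 n1262 (.cons 760 n1264 (.cons 923 n1266 .nil)))
noncomputable def n1366 : Strat := .move 759 n1358 (.cons 718 n1363 (.cons 719 n1364 (.cons 881 n1365 .nil)))
noncomputable def n1367 : Strat := .move 882 n628 (.cons 922 n1191 .nil)
noncomputable def n1368 : Strat := .move 759 n52 (.cons 718 n1367 .nil)
noncomputable def n1369 : Strat := .win 880 1 757
noncomputable def n1370 : Strat := .move 921 n1369 (.cons 880 n925 .nil)
noncomputable def n1371 : Strat := .move 758 n747 (.cons 882 n1370 .nil)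
noncomputable def n1372 : Strat := .move 923 n748 (.cons 964 n1371 .nil)
noncomputable def n1373 : Strat := .move 799 n1372 (.cons 923 n1149 .nil)
noncomputable def n1374 : Strat := .move 922 n54 (.cons 963 n1373 .nil)
noncomputable def n1375 : Strat := .move 880 n652 (.cons 921 n1335 .nil)
noncomputable def n1376 : Strat := .move 799 n48 (.cons 923 n1375 .nil)
noncomputable def n1377 : Strat := .move 758 n790 (.cons 717 n1376 .nil)
noncomputable def n1378 : Strat := .move 882 n1191 (.cons 761 n1377 (.cons 799 n1347 .nil))
noncomputable def n1379 : Strat := .move 759 n52 (.cons 718 n1378 .nil)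
noncomputable def n1380 : Strat := .move 759 n52 (.cons 718 n1350 .nil)
noncomputable def n1381 : Strat := .move 881 n1368 (.cons 759 n1374 (.cons 882 n1196 (.cons 922 n1379 (.cons 799 n1380 .nil))))
noncomputable def n1382 : Strat := .move 923 n266 (.cons 964 n1329 .nil)
noncomputable def n1383 : Strat := .move 881 n628 (.cons 922 n1382 .nil)
noncomputable def n1384 : Strat := .move 881 n628 (.cons 922 n1161 .nil)
noncomputable def n1385 : Strat := .move 758 n49 (.cons 717 n1384 .nil)
noncomputable def n1386 : Strat := .move 759 n377 (.cons 717 n982 (.cons 758 n1383 (.cons 923 n1385 .nil)))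
noncomputable def n1387 : Strat := .move 759 n628 (.cons 922 n1161 .nil)
noncomputable def n1388 : Strat := .move 881 n1387 (.cons 759 n1375 .nil)
noncomputable def n1389 : Strat := .move 758 n49 (.cons 717 n1388 .nil)
noncomputable def n1390 : Strat := .move 881 n208 (.cons 759 n1144 .nil)
noncomputable def n1391 : Strat := .move 922 n788 (.cons 963 n1390 .nil)
noncomputable def n1392 : Strat := .move 923 n266 (.cons 964 n1391 .nil)
noncomputable def n1393 : Strat := .move 799 n1386 (.cons 923 n1389 (.cons 881 n982 (.cons 758 n1392 .nil)))
noncomputable def n1394 : Strat := .move 759 n787 (.cons 881 n1125 .nil)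
noncomputable def n1395 : Strat := .move 924 n1124 (.cons 965 n1394 .nil)
noncomputable def n1396 : Strat := .move 922 n788 (.cons 963 n1395 .nil)
noncomputable def n1397 : Strat := .win 1005 7 840
noncomputable def n1398 : Strat := .move 801 n1207 (.cons 842 n695 .nil)
noncomputable def n1399 : Strat := .move 964 n1397 (.cons 1005 n1398 .nil)
noncomputable def n1400 : Strat := .move 881 n208 (.cons 759 n1399 .nil)
noncomputable def n1401 : Strat := .move 922 n788 (.cons 963 n1400 .nil)
noncomputable def n1402 : Strat := .move 923 n1396 (.cons 922 n1209 (.cons 924 n1401 .nil))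
noncomputable def n1403 : Strat := .win 881 7 757
noncomputable def n1404 : Strat := .move 757 n815 (.cons 756 n1403 .nil)
noncomputable def n1405 : Strat := .move 798 n1143 (.cons 796 n1230 (.cons 842 n1404 .nil))
noncomputable def n1406 : Strat := .move 801 n695 (.cons 760 n1405 .nil)
noncomputable def n1407 : Strat := .move 922 n788 (.cons 963 n1406 .nil)
noncomputable def n1408 : Strat := .move 799 n764 (.cons 758 n1407 .nil)
noncomputable def n1409 : Strat := .win 925 2 880
noncomputable def n1410 : Strat := .win 879 0 879
noncomputable def n1411 : Strat := .move 880 n1409 (.cons 925 n1410 .nil)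
noncomputable def n1412 : Strat := .move 924 n1124 (.cons 965 n1411 .nil)
noncomputable def n1413 : Strat := .move 881 n1399 (.cons 964 n1412 .nil)
noncomputable def n1414 : Strat := .move 922 n788 (.cons 963 n1413 .nil)
noncomputable def n1415 : Strat := .move 923 n1198 (.cons 964 n1408 (.cons 799 n1414 .nil))
noncomputable def n1416 : Strat := .move 801 n695 (.cons 760 n1207 .nil)
noncomputable def n1417 : Strat := .move 964 n1170 (.cons 799 n1416 .nil)
noncomputable def n1418 : Strat := .move 923 n1198 (.cons 758 n1417 (.cons 799 n1209 (.cons 964 n1203 .nil)))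
noncomputable def n1419 : Strat := .win 799 6 799
noncomputable def n1420 : Strat := .move 964 n1419 (.cons 799 n1397 .nil)
noncomputable def n1421 : Strat := .move 881 n208 (.cons 759 n1420 .nil)
noncomputable def n1422 : Strat := .move 922 n788 (.cons 963 n1421 .nil)
noncomputable def n1423 : Strat := .move 881 n208 (.cons 759 n1411 .nil)
noncomputable def n1424 : Strat := .move 924 n1124 (.cons 965 n1423 .nil)
noncomputable def n1425 : Strat := .move 922 n788 (.cons 963 n1424 .nil)
noncomputable def n1426 : Strat := .move 923 n1198 (.cons 758 n1422 (.cons 799 n1425 .nil))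
noncomputable def n1427 : Strat := .move 923 n764 (.cons 758 n1391 .nil)
noncomputable def n1428 : Strat := .move 756 n1159 (.cons 801 n1158 .nil)
noncomputable def n1429 : Strat := .move 757 n58 (.cons 716 n1428 .nil)
noncomputable def n1430 : Strat := .move 759 n628 (.cons 922 n1429 .nil)
noncomputable def n1431 : Strat := .move 881 n1430 (.cons 922 n1375 .nil)
noncomputable def n1432 : Strat := .move 758 n49 (.cons 717 n1431 .nil)
noncomputable def n1433 : Strat := .move 922 n54 (.cons 963 n1144 .nil)
noncomputable def n1434 : Strat := .move 922 n208 (.cons 759 n1144 .nil)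
noncomputable def n1435 : Strat := .move 842 n33 (.cons 798 n892 .nil)
noncomputable def n1436 : Strat := .move 842 n33 (.cons 798 n35 .nil)
noncomputable def n1437 : Strat := .win 759 3 718
noncomputable def n1438 : Strat := .move 719 n1031 (.cons 678 n1437 .nil)
noncomputable def n1439 : Strat := .move 760 n1182 (.cons 923 n1438 .nil)
noncomputable def n1440 : Strat := .move 801 n1235 (.cons 803 n1439 .nil)
noncomputable def n1441 : Strat := .move 843 n1435 (.cons 844 n1436 (.cons 842 n1440 .nil))
noncomputable def n1442 : Strat := .move 881 n798 (.cons 759 n1433 (.cons 963 n1434 (.cons 922 n1441 .nil)))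
noncomputable def n1443 : Strat := .move 799 n377 (.cons 717 n1427 (.cons 923 n1432 (.cons 758 n1442 .nil)))
noncomputable def n1444 : Strat := .move 759 n628 (.cons 922 n1181 .nil)
noncomputable def n1445 : Strat := .move 758 n49 (.cons 717 n1370 .nil)
noncomputable def n1446 : Strat := .move 799 n1144 (.cons 796 n1445 .nil)
noncomputable def n1447 : Strat := .move 922 n54 (.cons 963 n1446 .nil)
noncomputable def n1448 : Strat := .move 842 n129 (.cons 843 n1336 .nil)
noncomputable def n1449 : Strat := .win 925 0 880
noncomputable def n1450 : Strat := .move 924 n1449 (.cons 925 n1240 .nil)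
noncomputable def n1451 : Strat := .move 883 n1339 (.cons 921 n1450 .nil)
noncomputable def n1452 : Strat := .move 920 n1338 (.cons 919 n1451 .nil)
noncomputable def n1453 : Strat := .move 879 n1334 (.cons 878 n1452 .nil)
noncomputable def n1454 : Strat := .move 883 n1450 (.cons 759 n1344 .nil)
noncomputable def n1455 : Strat := .move 843 n1342 (.cons 842 n1454 .nil)
noncomputable def n1456 : Strat := .move 880 n1448 (.cons 842 n1453 (.cons 879 n1455 .nil))
noncomputable def n1457 : Strat := .move 881 n1444 (.cons 759 n1447 (.cons 799 n798 (.cons 922 n1456 .nil)))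
noncomputable def n1458 : Strat := .move 882 n1393 (.cons 799 n1402 (.cons 759 n1415 (.cons 922 n1418 (.cons 801 n1426 (.cons 964 n1443 (.cons 923 n1457 .nil))))))
noncomputable def n1459 : Strat := .move 881 n52 (.cons 718 n1192 .nil)
noncomputable def n1460 : Strat := .move 677 n1353 (.cons 799 n1310 .nil)
noncomputable def n1461 : Strat := .move 882 n783 (.cons 758 n781 .nil)
noncomputable def n1462 : Strat := .move 717 n784 (.cons 676 n1461 .nil)
noncomputable def n1463 : Strat := .move 718 n1357 (.cons 719 n1460 (.cons 677 n1462 .nil))
noncomputable def n1464 : Strat := .move 718 n778 (.cons 881 n1326 .nil)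
noncomputable def n1465 : Strat := .move 718 n778 (.cons 881 n1460 .nil)
noncomputable def n1466 : Strat := .move 881 n1163 (.cons 758 n1174 (.cons 923 n1181 (.cons 799 n1185 (.cons 801 n1191 .nil))))
noncomputable def n1467 : Strat := .move 842 n15 (.cons 843 n1147 .nil)
noncomputable def n1468 : Strat := .win 881 7 716
noncomputable def n1469 : Strat := .move 716 n290 (.cons 675 n1468 .nil)
noncomputable def n1470 : Strat := .move 757 n1160 (.cons 801 n1469 .nil)
noncomputable def n1471 : Strat := .move 798 n1143 (.cons 796 n1467 (.cons 842 n1470 .nil))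
noncomputable def n1472 : Strat := .move 799 n376 (.cons 923 n1471 .nil)
noncomputable def n1473 : Strat := .move 758 n790 (.cons 717 n1472 .nil)
noncomputable def n1474 : Strat := .move 760 n630 (.cons 719 n1183 .nil)
noncomputable def n1475 : Strat := .move 758 n790 (.cons 717 n1474 .nil)
noncomputable def n1476 : Strat := .move 881 n1191 (.cons 761 n1377 (.cons 799 n1347 .nil))
noncomputable def n1477 : Strat := .move 716 n1468 (.cons 881 n1176 .nil)
noncomputable def n1478 : Strat := .move 757 n1175 (.cons 756 n1477 .nil)
noncomputable def n1479 : Strat := .move 799 n1188 (.cons 798 n1478 .nil)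
noncomputable def n1480 : Strat := .move 760 n630 (.cons 719 n1479 .nil)
noncomputable def n1481 : Strat := .move 758 n790 (.cons 717 n1480 .nil)
noncomputable def n1482 : Strat := .move 882 n1466 (.cons 760 n1473 (.cons 799 n1475 (.cons 801 n1476 (.cons 758 n1262 (.cons 923 n1481 .nil)))))
noncomputable def n1483 : Strat := .move 759 n1459 (.cons 881 n1463 (.cons 882 n1358 (.cons 799 n1464 (.cons 719 n1465 (.cons 718 n1482 .nil)))))
noncomputable def n1484 : Strat := .move 759 n52 (.cons 718 n1138 .nil)
noncomputable def n1485 : Strat := .move 922 n54 (.cons 963 n1484 .nil)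
noncomputable def n1486 : Strat := .win 966 0 921
noncomputable def n1487 : Strat := .win 882 6 800
noncomputable def n1488 : Strat := .move 965 n1486 (.cons 966 n1487 .nil)
noncomputable def n1489 : Strat := .win 879 2 879
noncomputable def n1490 : Strat := .move 880 n1489 (.cons 879 n1409 .nil)
noncomputable def n1491 : Strat := .move 924 n1488 (.cons 882 n1490 .nil)
noncomputable def n1492 : Strat := .move 921 n925 (.cons 962 n1491 .nil)
noncomputable def n1493 : Strat := .move 923 n748 (.cons 964 n1492 .nil)
noncomputable def n1494 : Strat := .move 799 n1149 (.cons 798 n1493 .nil)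
noncomputable def n1495 : Strat := .move 922 n54 (.cons 963 n1494 .nil)
noncomputable def n1496 : Strat := .move 882 n628 (.cons 922 n1174 .nil)
noncomputable def n1497 : Strat := .move 759 n52 (.cons 718 n1496 .nil)
noncomputable def n1498 : Strat := .move 759 n52 (.cons 718 n1194 .nil)
noncomputable def n1499 : Strat := .move 922 n54 (.cons 963 n1498 .nil)
noncomputable def n1500 : Strat := .move 964 n1397 (.cons 1005 n1170 .nil)
noncomputable def n1501 : Strat := .move 923 n1199 (.cons 801 n1500 .nil)
noncomputable def n1502 : Strat := .move 760 n630 (.cons 719 n1501 .nil)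
noncomputable def n1503 : Strat := .move 923 n1124 (.cons 965 n1500 .nil)
noncomputable def n1504 : Strat := .move 924 n1125 (.cons 883 n1503 .nil)
noncomputable def n1505 : Strat := .move 923 n1124 (.cons 965 n1199 .nil)
noncomputable def n1506 : Strat := .move 924 n1125 (.cons 883 n1505 .nil)
noncomputable def n1507 : Strat := .move 760 n630 (.cons 719 n1506 .nil)
noncomputable def n1508 : Strat := .move 882 n1174 (.cons 883 n1502 (.cons 719 n1504 (.cons 964 n1507 (.cons 923 n1347 .nil))))
noncomputable def n1509 : Strat := .move 759 n52 (.cons 718 n1508 .nil)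
noncomputable def n1510 : Strat := .move 881 n1485 (.cons 759 n1495 (.cons 963 n1497 (.cons 882 n1499 (.cons 922 n1509 .nil))))
noncomputable def n1511 : Strat := .move 718 n1357 (.cons 719 n1460 (.cons 799 n1326 .nil))
noncomputable def n1512 : Strat := .move 882 n628 (.cons 922 n1181 .nil)
noncomputable def n1513 : Strat := .move 882 n790 (.cons 717 n1180 .nil)
noncomputable def n1514 : Strat := .move 799 n58 (.cons 716 n1160 .nil)
noncomputable def n1515 : Strat := .win 796 4 755
noncomputable def n1516 : Strat := .move 756 n1515 (.cons 796 n1158 .nil)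
noncomputable def n1517 : Strat := .win 798 0 796
noncomputable def n1518 : Strat := .win 756 4 755
noncomputable def n1519 : Strat := .move 796 n1517 (.cons 798 n1518 .nil)
noncomputable def n1520 : Strat := .win 760 4 756
noncomputable def n1521 : Strat := .move 798 n1141 (.cons 842 n1520 .nil)
noncomputable def n1522 : Strat := .move 797 n1516 (.cons 755 n1519 (.cons 796 n1521 .nil))
noncomputable def n1523 : Strat := .move 799 n58 (.cons 716 n1522 .nil)
noncomputable def n1524 : Strat := .win 760 2 715
noncomputable def n1525 : Strat := .win 717 0 714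
noncomputable def n1526 : Strat := .win 713 0 713
noncomputable def n1527 : Strat := .move 714 n1525 (.cons 717 n1526 .nil)
noncomputable def n1528 : Strat := .move 715 n1524 (.cons 760 n1527 .nil)
noncomputable def n1529 : Strat := .move 716 n1177 (.cons 799 n1528 .nil)
noncomputable def n1530 : Strat := .win 760 0 757
noncomputable def n1531 : Strat := .win 803 2 758
noncomputable def n1532 : Strat := .move 802 n1530 (.cons 760 n1531 .nil)
noncomputable def n1533 : Strat := .move 801 n1090 (.cons 756 n1532 .nil)
noncomputable def n1534 : Strat := .move 757 n1514 (.cons 801 n1523 (.cons 756 n1529 (.cons 799 n1533 .nil)))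
noncomputable def n1535 : Strat := .win 802 2 757
noncomputable def n1536 : Strat := .move 801 n1535 (.cons 802 n1090 .nil)
noncomputable def n1537 : Strat := .move 757 n58 (.cons 716 n1536 .nil)
noncomputable def n1538 : Strat := .win 882 5 838
noncomputable def n1539 : Strat := .move 879 n1538 (.cons 882 n1334 .nil)
noncomputable def n1540 : Strat := .move 842 n129 (.cons 843 n1539 .nil)
noncomputable def n1541 : Strat := .move 880 n652 (.cons 921 n1540 .nil)
noncomputable def n1542 : Strat := .move 799 n1161 (.cons 755 n1537 (.cons 757 n1541 .nil))
noncomputable def n1543 : Strat := .win 920 4 879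
noncomputable def n1544 : Strat := .win 799 1 757
noncomputable def n1545 : Strat := .move 921 n1543 (.cons 920 n1544 .nil)
noncomputable def n1546 : Strat := .move 880 n1335 (.cons 878 n1337 (.cons 842 n1545 .nil))
noncomputable def n1547 : Strat := .move 883 n681 (.cons 924 n1546 .nil)
noncomputable def n1548 : Strat := .move 882 n790 (.cons 717 n1547 .nil)
noncomputable def n1549 : Strat := .move 882 n630 (.cons 719 n790 .nil)
noncomputable def n1550 : Strat := .win 801 1 677
noncomputable def n1551 : Strat := .win 637 1 636
noncomputable def n1552 : Strat := .move 678 n1550 (.cons 801 n1551 .nil)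
noncomputable def n1553 : Strat := .move 719 n1314 (.cons 882 n1552 .nil)
noncomputable def n1554 : Strat := .win 720 5 716
noncomputable def n1555 : Strat := .move 719 n1554 (.cons 720 n1031 .nil)
noncomputable def n1556 : Strat := .move 801 n1089 (.cons 802 n1555 .nil)
noncomputable def n1557 : Strat := .move 719 n1554 (.cons 720 n1552 .nil)
noncomputable def n1558 : Strat := .win 717 2 716
noncomputable def n1559 : Strat := .move 716 n1558 (.cons 717 n1176 .nil)
noncomputable def n1560 : Strat := .win 721 5 717
noncomputable def n1561 : Strat := .win 719 5 716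
noncomputable def n1562 : Strat := .move 720 n1560 (.cons 721 n1561 .nil)
noncomputable def n1563 : Strat := .move 761 n1559 (.cons 715 n1562 .nil)
noncomputable def n1564 : Strat := .move 757 n1175 (.cons 756 n1556 (.cons 802 n1557 (.cons 801 n1563 .nil)))
noncomputable def n1565 : Strat := .win 882 7 717
noncomputable def n1566 : Strat := .win 761 2 716
noncomputable def n1567 : Strat := .win 714 0 714
noncomputable def n1568 : Strat := .win 757 2 715
noncomputable def n1569 : Strat := .move 715 n1567 (.cons 714 n1568 .nil)
noncomputable def n1570 : Strat := .move 716 n1566 (.cons 761 n1569 .nil)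
noncomputable def n1571 : Strat := .move 717 n1565 (.cons 882 n1570 .nil)
noncomputable def n1572 : Strat := .move 760 n1549 (.cons 717 n1553 (.cons 882 n1564 (.cons 719 n1571 .nil)))
noncomputable def n1573 : Strat := .move 758 n1513 (.cons 882 n1534 (.cons 717 n1542 (.cons 757 n1548 (.cons 799 n1572 .nil))))
noncomputable def n1574 : Strat := .move 881 n1512 (.cons 882 n1195 (.cons 799 n1139 (.cons 922 n1573 .nil)))
noncomputable def n1575 : Strat := .move 759 n1358 (.cons 881 n1511 (.cons 799 n1464 (.cons 719 n1465 (.cons 718 n1574 .nil))))
noncomputable def n1576 : Strat := .move 965 n1204 (.cons 1006 n1113 .nil)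
noncomputable def n1577 : Strat := .move 964 n1397 (.cons 1005 n1576 .nil)
noncomputable def n1578 : Strat := .move 923 n1199 (.cons 801 n1577 .nil)
noncomputable def n1579 : Strat := .move 760 n630 (.cons 719 n1578 .nil)
noncomputable def n1580 : Strat := .move 882 n1163 (.cons 758 n1502 (.cons 923 n1181 (.cons 799 n1579 (.cons 801 n1191 .nil))))
noncomputable def n1581 : Strat := .move 759 n52 (.cons 718 n1580 .nil)
noncomputable def n1582 : Strat := .move 759 n1138 (.cons 882 n1194 .nil)
noncomputable def n1583 : Strat := .move 922 n54 (.cons 963 n1582 .nil)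
noncomputable def n1584 : Strat := .move 799 n55 (.cons 759 n1149 .nil)
noncomputable def n1585 : Strat := .move 922 n54 (.cons 963 n1584 .nil)
noncomputable def n1586 : Strat := .move 799 n1372 (.cons 882 n1149 .nil)
noncomputable def n1587 : Strat := .move 922 n54 (.cons 963 n1586 .nil)
noncomputable def n1588 : Strat := .move 881 n1485 (.cons 922 n1581 (.cons 718 n1583 (.cons 882 n1585 (.cons 759 n1587 .nil))))
noncomputable def n1589 : Strat := .move 882 n1163 (.cons 799 n1347 .nil)
noncomputable def n1590 : Strat := .move 759 n52 (.cons 718 n1589 .nil)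
noncomputable def n1591 : Strat := .move 881 n1485 (.cons 759 n1587 (.cons 882 n1196 (.cons 922 n1590 .nil)))
noncomputable def n1592 : Strat := .move 922 n1138 (.cons 882 n1194 .nil)
noncomputable def n1593 : Strat := .move 759 n52 (.cons 718 n1592 .nil)
noncomputable def n1594 : Strat := .move 799 n1149 (.cons 798 n1372 .nil)
noncomputable def n1595 : Strat := .move 922 n54 (.cons 963 n1594 .nil)
noncomputable def n1596 : Strat := .move 799 n266 (.cons 964 n265 .nil)
noncomputable def n1597 : Strat := .move 923 n1199 (.cons 801 n1596 .nil)
noncomputable def n1598 : Strat := .move 760 n630 (.cons 719 n1597 .nil)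
noncomputable def n1599 : Strat := .move 882 n1163 (.cons 717 n1598 (.cons 923 n1181 (.cons 758 n1502 (.cons 799 n1216 (.cons 801 n1191 .nil)))))
noncomputable def n1600 : Strat := .move 759 n52 (.cons 718 n1599 .nil)
noncomputable def n1601 : Strat := .move 881 n1140 (.cons 718 n1583 (.cons 963 n1593 (.cons 882 n1196 (.cons 759 n1595 (.cons 922 n1600 .nil)))))
noncomputable def n1602 : Strat := .move 842 n1015 (.cons 883 n1307 .nil)
noncomputable def n1603 : Strat := .move 677 n1353 (.cons 799 n1602 .nil)
noncomputable def n1604 : Strat := .move 718 n1357 (.cons 678 n1603 (.cons 677 n1462 .nil))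
noncomputable def n1605 : Strat := .move 881 n52 (.cons 718 n1195 .nil)
noncomputable def n1606 : Strat := .win 799 6 758
noncomputable def n1607 : Strat := .move 923 n1606 (.cons 799 n1329 .nil)
noncomputable def n1608 : Strat := .move 758 n790 (.cons 717 n1607 .nil)
noncomputable def n1609 : Strat := .move 881 n628 (.cons 922 n1608 .nil)
noncomputable def n1610 : Strat := .move 881 n628 (.cons 922 n1174 .nil)
noncomputable def n1611 : Strat := .move 758 n790 (.cons 717 n1547 .nil)
noncomputable def n1612 : Strat := .move 881 n628 (.cons 922 n1611 .nil)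
noncomputable def n1613 : Strat := .move 882 n1609 (.cons 881 n1259 (.cons 758 n1610 (.cons 923 n1612 (.cons 799 n1332 .nil))))
noncomputable def n1614 : Strat := .move 759 n1364 (.cons 881 n1604 (.cons 882 n1605 (.cons 718 n1613 .nil)))
noncomputable def n1615 : Strat := .move 797 n1142 (.cons 796 n1141 .nil)
noncomputable def n1616 : Strat := .win 760 5 756
noncomputable def n1617 : Strat := .move 759 n1616 (.cons 760 n1009 .nil)
noncomputable def n1618 : Strat := .move 797 n1141 (.cons 842 n1617 .nil)
noncomputable def n1619 : Strat := .win 758 2 757
noncomputable def n1620 : Strat := .move 757 n1619 (.cons 758 n815 .nil)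
noncomputable def n1621 : Strat := .move 802 n1094 (.cons 803 n1620 .nil)
noncomputable def n1622 : Strat := .move 759 n1007 (.cons 677 n778 .nil)
noncomputable def n1623 : Strat := .move 759 n1015 (.cons 883 n1007 .nil)
noncomputable def n1624 : Strat := .move 759 n1015 (.cons 883 n778 .nil)
noncomputable def n1625 : Strat := .move 719 n145 (.cons 677 n1031 .nil)
noncomputable def n1626 : Strat := .move 718 n1622 (.cons 881 n1623 (.cons 677 n1624 (.cons 759 n1625 .nil)))
noncomputable def n1627 : Strat := .move 760 n1030 (.cons 761 n1626 .nil)
noncomputable def n1628 : Strat := .move 801 n1621 (.cons 802 n1627 .nil)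
noncomputable def n1629 : Strat := .move 842 n15 (.cons 843 n1628 .nil)
noncomputable def n1630 : Strat := .move 797 n1142 (.cons 796 n1617 .nil)
noncomputable def n1631 : Strat := .move 798 n1615 (.cons 796 n1618 (.cons 797 n1629 (.cons 842 n1630 .nil)))
noncomputable def n1632 : Strat := .win 924 2 879
noncomputable def n1633 : Strat := .move 923 n1632 (.cons 924 n748 .nil)
noncomputable def n1634 : Strat := .move 879 n1334 (.cons 878 n1633 .nil)
noncomputable def n1635 : Strat := .move 880 n654 (.cons 758 n1634 .nil)
noncomputable def n1636 : Strat := .move 921 n925 (.cons 962 n1635 .nil)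
noncomputable def n1637 : Strat := .move 922 n54 (.cons 963 n1636 .nil)
noncomputable def n1638 : Strat := .move 759 n52 (.cons 718 n1429 .nil)
noncomputable def n1639 : Strat := .move 716 n743 (.cons 757 n742 .nil)
noncomputable def n1640 : Strat := .move 717 n936 (.cons 676 n1639 .nil)
noncomputable def n1641 : Strat := .win 759 1 717
noncomputable def n1642 : Strat := .move 717 n936 (.cons 676 n738 .nil)
noncomputable def n1643 : Strat := .move 718 n1641 (.cons 759 n1642 .nil)
noncomputable def n1644 : Strat := .move 758 n1638 (.cons 759 n1640 (.cons 716 n1643 .nil))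
noncomputable def n1645 : Strat := .move 881 n995 (.cons 759 n1637 (.cons 922 n1644 .nil))
noncomputable def n1646 : Strat := .win 801 2 756
noncomputable def n1647 : Strat := .win 879 3 715
noncomputable def n1648 : Strat := .move 838 n1647 (.cons 879 n536 .nil)
noncomputable def n1649 : Strat := .move 716 n290 (.cons 675 n1648 .nil)
noncomputable def n1650 : Strat := .move 757 n1646 (.cons 801 n1649 .nil)
noncomputable def n1651 : Strat := .move 756 n537 (.cons 755 n1650 .nil)
noncomputable def n1652 : Strat := .move 797 n1142 (.cons 796 n1651 .nil)
noncomputable def n1653 : Strat := .win 758 7 716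
noncomputable def n1654 : Strat := .move 716 n1653 (.cons 758 n290 .nil)
noncomputable def n1655 : Strat := .move 881 n1060 (.cons 922 n1654 .nil)
noncomputable def n1656 : Strat := .move 757 n815 (.cons 756 n1655 .nil)
noncomputable def n1657 : Strat := .win 760 5 757
noncomputable def n1658 : Strat := .move 761 n957 (.cons 762 n1657 .nil)
noncomputable def n1659 : Strat := .move 802 n1094 (.cons 803 n1658 .nil)
noncomputable def n1660 : Strat := .move 801 n1621 (.cons 802 n1656 (.cons 757 n1659 .nil))
noncomputable def n1661 : Strat := .move 842 n15 (.cons 843 n1660 .nil)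
noncomputable def n1662 : Strat := .move 798 n1148 (.cons 842 n1652 (.cons 797 n1661 .nil))
noncomputable def n1663 : Strat := .move 842 n814 (.cons 843 n1659 .nil)
noncomputable def n1664 : Strat := .move 761 n1657 (.cons 760 n957 .nil)
noncomputable def n1665 : Strat := .move 802 n1094 (.cons 803 n1664 .nil)
noncomputable def n1666 : Strat := .move 842 n814 (.cons 843 n1627 .nil)
noncomputable def n1667 : Strat := .move 802 n1094 (.cons 803 n934 .nil)
noncomputable def n1668 : Strat := .move 843 n1234 (.cons 842 n1667 .nil)
noncomputable def n1669 : Strat := .move 801 n1663 (.cons 842 n1665 (.cons 802 n1666 (.cons 760 n1668 .nil)))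
noncomputable def n1670 : Strat := .move 798 n1615 (.cons 842 n1630 (.cons 796 n1148 (.cons 797 n1669 .nil)))
noncomputable def n1671 : Strat := .move 718 n778 (.cons 881 n1007 .nil)
noncomputable def n1672 : Strat := .move 759 n1616 (.cons 760 n1671 .nil)
noncomputable def n1673 : Strat := .move 797 n1142 (.cons 796 n1672 .nil)
noncomputable def n1674 : Strat := .move 797 n1141 (.cons 842 n1672 .nil)
noncomputable def n1675 : Strat := .move 798 n1615 (.cons 842 n1673 (.cons 796 n1674 (.cons 797 n1629 .nil)))
noncomputable def n1676 : Strat := .move 922 n54 (.cons 963 n1149 .nil)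
noncomputable def n1677 : Strat := .move 717 n936 (.cons 676 n744 .nil)
noncomputable def n1678 : Strat := .move 759 n52 (.cons 718 n1677 .nil)
noncomputable def n1679 : Strat := .move 798 n1141 (.cons 842 n1142 .nil)
noncomputable def n1680 : Strat := .move 798 n1520 (.cons 760 n1141 .nil)
noncomputable def n1681 : Strat := .move 798 n1520 (.cons 760 n1142 .nil)
noncomputable def n1682 : Strat := .move 797 n1679 (.cons 796 n1680 (.cons 842 n1681 (.cons 798 n1516 .nil)))
noncomputable def n1683 : Strat := .move 757 n58 (.cons 716 n1682 .nil)
noncomputable def n1684 : Strat := .move 759 n52 (.cons 718 n1683 .nil)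
noncomputable def n1685 : Strat := .move 758 n1678 (.cons 759 n1640 (.cons 717 n1684 (.cons 757 n1643 .nil)))
noncomputable def n1686 : Strat := .move 881 n56 (.cons 759 n1676 (.cons 963 n995 (.cons 922 n1685 .nil)))
noncomputable def n1687 : Strat := .move 843 n33 (.cons 798 n892 .nil)
noncomputable def n1688 : Strat := .move 762 n894 (.cons 721 n893 .nil)
noncomputable def n1689 : Strat := .move 761 n230 (.cons 720 n1688 .nil)
noncomputable def n1690 : Strat := .move 884 n95 (.cons 885 n1689 .nil)
noncomputable def n1691 : Strat := .move 802 n47 (.cons 803 n1690 .nil)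
noncomputable def n1692 : Strat := .move 843 n892 (.cons 844 n1691 .nil)
noncomputable def n1693 : Strat := .move 843 n33 (.cons 798 n1691 .nil)
noncomputable def n1694 : Strat := .move 798 n1657 (.cons 760 n1147 .nil)
noncomputable def n1695 : Strat := .move 761 n957 (.cons 762 n1694 .nil)
noncomputable def n1696 : Strat := .move 802 n1094 (.cons 803 n1695 .nil)
noncomputable def n1697 : Strat := .win 760 3 719
noncomputable def n1698 : Strat := .move 720 n1697 (.cons 760 n334 .nil)
noncomputable def n1699 : Strat := .move 883 n191 (.cons 924 n1698 .nil)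
noncomputable def n1700 : Strat := .move 761 n957 (.cons 762 n1699 .nil)
noncomputable def n1701 : Strat := .move 802 n1094 (.cons 803 n1700 .nil)
noncomputable def n1702 : Strat := .move 798 n1147 (.cons 797 n1620 .nil)
noncomputable def n1703 : Strat := .move 802 n1094 (.cons 803 n1702 .nil)
noncomputable def n1704 : Strat := .move 802 n957 (.cons 762 n1619 .nil)
noncomputable def n1705 : Strat := .move 761 n1657 (.cons 760 n1704 .nil)
noncomputable def n1706 : Strat := .move 757 n815 (.cons 756 n1705 .nil)
noncomputable def n1707 : Strat := .move 798 n1147 (.cons 797 n1706 .nil)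
noncomputable def n1708 : Strat := .move 760 n194 (.cons 884 n1030 .nil)
noncomputable def n1709 : Strat := .move 924 n195 (.cons 966 n169 .nil)
noncomputable def n1710 : Strat := .move 925 n1708 (.cons 761 n1709 .nil)
noncomputable def n1711 : Strat := .move 798 n1147 (.cons 797 n1710 .nil)
noncomputable def n1712 : Strat := .win 759 6 718
noncomputable def n1713 : Strat := .move 798 n1030 (.cons 761 n1147 .nil)
noncomputable def n1714 : Strat := .move 761 n448 (.cons 720 n1107 .nil)
noncomputable def n1715 : Strat := .move 760 n1713 (.cons 797 n1714 (.cons 761 n1625 .nil))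
noncomputable def n1716 : Strat := .move 718 n1712 (.cons 759 n1715 .nil)
noncomputable def n1717 : Strat := .move 883 n494 (.cons 759 n1711 (.cons 924 n1716 .nil))
noncomputable def n1718 : Strat := .move 801 n1696 (.cons 798 n1701 (.cons 760 n1703 (.cons 803 n1707 (.cons 802 n1717 .nil))))
noncomputable def n1719 : Strat := .move 842 n1687 (.cons 798 n1692 (.cons 844 n1693 (.cons 843 n1718 .nil)))
noncomputable def n1720 : Strat := .move 799 n1631 (.cons 798 n1645 (.cons 759 n1662 (.cons 758 n1670 (.cons 922 n1675 (.cons 801 n1686 (.cons 881 n1719 .nil))))))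
noncomputable def n1721 : Strat := .move 882 n49 (.cons 717 n376 .nil)
noncomputable def n1722 : Strat := .win 798 2 756
noncomputable def n1723 : Strat := .move 801 n1722 (.cons 798 n1535 .nil)
noncomputable def n1724 : Strat := .move 756 n1158 (.cons 755 n1723 .nil)
noncomputable def n1725 : Strat := .move 757 n1468 (.cons 881 n1724 .nil)
noncomputable def n1726 : Strat := .move 716 n742 (.cons 675 n1725 .nil)
noncomputable def n1727 : Strat := .move 717 n936 (.cons 676 n1726 .nil)
noncomputable def n1728 : Strat := .move 921 n925 (.cons 962 n1369 .nil)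
noncomputable def n1729 : Strat := .move 922 n54 (.cons 963 n1728 .nil)
noncomputable def n1730 : Strat := .win 798 7 757
noncomputable def n1731 : Strat := .move 757 n1730 (.cons 798 n58 .nil)
noncomputable def n1732 : Strat := .move 922 n54 (.cons 963 n1731 .nil)
noncomputable def n1733 : Strat := .move 881 n1375 (.cons 842 n1729 (.cons 880 n1732 .nil))
noncomputable def n1734 : Strat := .move 882 n376 (.cons 923 n1733 .nil)
noncomputable def n1735 : Strat := .move 758 n1721 (.cons 882 n1727 (.cons 717 n1734 .nil))
noncomputable def n1736 : Strat := .move 756 n1722 (.cons 798 n1158 .nil)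
noncomputable def n1737 : Strat := .move 801 n1535 (.cons 802 n1736 .nil)
noncomputable def n1738 : Strat := .move 757 n58 (.cons 716 n1737 .nil)
noncomputable def n1739 : Strat := .move 881 n1729 (.cons 922 n1738 .nil)
noncomputable def n1740 : Strat := .move 882 n376 (.cons 923 n1739 .nil)
noncomputable def n1741 : Strat := .move 758 n1721 (.cons 882 n1727 (.cons 717 n1740 .nil))
noncomputable def n1742 : Strat := .move 801 n1231 (.cons 757 n1659 .nil)
noncomputable def n1743 : Strat := .move 756 n537 (.cons 755 n1742 .nil)
noncomputable def n1744 : Strat := .move 797 n1142 (.cons 796 n1743 .nil)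
noncomputable def n1745 : Strat := .move 719 n172 (.cons 882 n1031 .nil)
noncomputable def n1746 : Strat := .move 760 n1030 (.cons 761 n1745 .nil)
noncomputable def n1747 : Strat := .move 801 n1746 (.cons 678 n1621 .nil)
noncomputable def n1748 : Strat := .move 842 n15 (.cons 843 n1747 .nil)
noncomputable def n1749 : Strat := .move 798 n1148 (.cons 843 n1615 (.cons 842 n1744 (.cons 797 n1748 .nil)))
noncomputable def n1750 : Strat := .move 881 n1375 (.cons 878 n1729 (.cons 880 n1732 .nil))
noncomputable def n1751 : Strat := .move 758 n49 (.cons 717 n1750 .nil)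
noncomputable def n1752 : Strat := .win 961 4 920
noncomputable def n1753 : Strat := .win 881 1 798
noncomputable def n1754 : Strat := .move 962 n1752 (.cons 961 n1753 .nil)
noncomputable def n1755 : Strat := .move 883 n1269 (.cons 884 n1270 .nil)
noncomputable def n1756 : Strat := .move 921 n1754 (.cons 881 n1755 .nil)
noncomputable def n1757 : Strat := .move 924 n1124 (.cons 965 n1756 .nil)
noncomputable def n1758 : Strat := .move 922 n788 (.cons 963 n1757 .nil)
noncomputable def n1759 : Strat := .move 923 n266 (.cons 964 n1758 .nil)
noncomputable def n1760 : Strat := .move 882 n982 (.cons 964 n377 (.cons 923 n1751 (.cons 758 n1759 .nil)))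
noncomputable def n1761 : Strat := .move 842 n814 (.cons 843 n1746 .nil)
noncomputable def n1762 : Strat := .move 801 n1761 (.cons 842 n1665 (.cons 761 n1668 .nil))
noncomputable def n1763 : Strat := .move 798 n1148 (.cons 842 n1652 (.cons 797 n1762 .nil))
noncomputable def n1764 : Strat := .win 719 4 715
noncomputable def n1765 : Strat := .move 756 n1764 (.cons 719 n1158 .nil)
noncomputable def n1766 : Strat := .move 718 n738 (.cons 677 n1765 .nil)
noncomputable def n1767 : Strat := .move 757 n1468 (.cons 881 n1766 .nil)
noncomputable def n1768 : Strat := .move 716 n742 (.cons 675 n1767 .nil)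
noncomputable def n1769 : Strat := .move 717 n936 (.cons 676 n1768 .nil)
noncomputable def n1770 : Strat := .move 882 n48 (.cons 923 n1375 .nil)
noncomputable def n1771 : Strat := .move 922 n54 (.cons 963 n1370 .nil)
noncomputable def n1772 : Strat := .move 922 n54 (.cons 963 n748 .nil)
noncomputable def n1773 : Strat := .move 923 n747 (.cons 882 n1772 .nil)
noncomputable def n1774 : Strat := .move 881 n1770 (.cons 882 n1771 (.cons 921 n1773 .nil))
noncomputable def n1775 : Strat := .move 758 n1721 (.cons 882 n1769 (.cons 717 n1774 .nil))
noncomputable def n1776 : Strat := .win 798 0 798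
noncomputable def n1777 : Strat := .move 720 n237 (.cons 883 n334 .nil)
noncomputable def n1778 : Strat := .move 761 n957 (.cons 762 n1777 .nil)
noncomputable def n1779 : Strat := .move 842 n1776 (.cons 798 n1778 .nil)
noncomputable def n1780 : Strat := .move 843 n934 (.cons 844 n1779 .nil)
noncomputable def n1781 : Strat := .move 802 n1094 (.cons 803 n1780 .nil)
noncomputable def n1782 : Strat := .win 884 7 719
noncomputable def n1783 : Strat := .move 843 n1782 (.cons 884 n934 .nil)
noncomputable def n1784 : Strat := .move 719 n1031 (.cons 678 n1783 .nil)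
noncomputable def n1785 : Strat := .move 760 n1107 (.cons 798 n1784 .nil)
noncomputable def n1786 : Strat := .move 761 n957 (.cons 762 n1785 .nil)
noncomputable def n1787 : Strat := .move 802 n1094 (.cons 803 n1786 .nil)
noncomputable def n1788 : Strat := .win 926 6 761
noncomputable def n1789 : Strat := .win 842 0 840
noncomputable def n1790 : Strat := .move 885 n1788 (.cons 926 n1789 .nil)
noncomputable def n1791 : Strat := .move 760 n234 (.cons 719 n113 .nil)
noncomputable def n1792 : Strat := .move 884 n1790 (.cons 842 n1791 .nil)
noncomputable def n1793 : Strat := .move 761 n957 (.cons 762 n1792 .nil)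
noncomputable def n1794 : Strat := .move 843 n934 (.cons 844 n1793 .nil)
noncomputable def n1795 : Strat := .win 842 1 718
noncomputable def n1796 : Strat := .move 719 n1795 (.cons 842 n1031 .nil)
noncomputable def n1797 : Strat := .move 882 n1182 (.cons 923 n1796 .nil)
noncomputable def n1798 : Strat := .move 760 n1107 (.cons 798 n1797 .nil)
noncomputable def n1799 : Strat := .move 761 n957 (.cons 762 n1798 .nil)
noncomputable def n1800 : Strat := .move 842 n1776 (.cons 798 n645 .nil)
noncomputable def n1801 : Strat := .move 843 n934 (.cons 844 n1800 .nil)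
noncomputable def n1802 : Strat := .move 802 n1780 (.cons 842 n1786 (.cons 798 n1794 (.cons 843 n1799 (.cons 761 n1801 .nil))))
noncomputable def n1803 : Strat := .move 802 n1094 (.cons 803 n1794 .nil)
noncomputable def n1804 : Strat := .move 798 n1657 (.cons 760 n1143 .nil)
noncomputable def n1805 : Strat := .move 761 n957 (.cons 762 n1804 .nil)
noncomputable def n1806 : Strat := .move 802 n1094 (.cons 803 n1805 .nil)
noncomputable def n1807 : Strat := .move 843 n1776 (.cons 798 n892 .nil)
noncomputable def n1808 : Strat := .move 798 n1147 (.cons 797 n814 .nil)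
noncomputable def n1809 : Strat := .move 923 n764 (.cons 758 n355 .nil)
noncomputable def n1810 : Strat := .move 760 n141 (.cons 719 n1713 .nil)
noncomputable def n1811 : Strat := .move 882 n1809 (.cons 923 n1810 .nil)
noncomputable def n1812 : Strat := .win 883 6 760
noncomputable def n1813 : Strat := .move 925 n1812 (.cons 883 n217 .nil)
noncomputable def n1814 : Strat := .move 760 n112 (.cons 719 n1813 .nil)
noncomputable def n1815 : Strat := .move 884 n95 (.cons 885 n1814 .nil)
noncomputable def n1816 : Strat := .move 843 n892 (.cons 844 n1815 .nil)
noncomputable def n1817 : Strat := .move 842 n1807 (.cons 844 n1808 (.cons 843 n1811 (.cons 798 n1816 .nil)))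
noncomputable def n1818 : Strat := .move 802 n1094 (.cons 803 n1801 .nil)
noncomputable def n1819 : Strat := .move 801 n1781 (.cons 842 n1787 (.cons 803 n1802 (.cons 798 n1803 (.cons 844 n1806 (.cons 802 n1817 (.cons 761 n1818 .nil))))))
noncomputable def n1820 : Strat := .move 799 n1735 (.cons 842 n1741 (.cons 882 n1662 (.cons 881 n1749 (.cons 756 n1760 (.cons 758 n1763 (.cons 798 n1775 (.cons 757 n1819 .nil)))))))
noncomputable def n1821 : Strat := .move 800 n1197 (.cons 881 n1304 (.cons 799 n1352 (.cons 842 n1366 (.cons 801 n1381 (.cons 718 n1458 (.cons 922 n1483 (.cons 758 n1510 (.cons 923 n1575 (.cons 883 n1588 (.cons 760 n1591 (.cons 924 n1601 (.cons 757 n1614 (.cons 882 n1720 (.cons 759 n1820 .nil))))))))))))))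
noncomputable def n1822 : Strat := .move 758 n58 (.cons 716 n1370 .nil)
noncomputable def n1823 : Strat := .move 757 n1730 (.cons 798 n1822 .nil)
noncomputable def n1824 : Strat := .move 799 n55 (.cons 759 n1823 .nil)
noncomputable def n1825 : Strat := .move 922 n54 (.cons 963 n1824 .nil)
noncomputable def n1826 : Strat := .win 884 2 839
noncomputable def n1827 : Strat := .move 839 n353 (.cons 838 n1826 .nil)
noncomputable def n1828 : Strat := .move 883 n681 (.cons 924 n1827 .nil)
noncomputable def n1829 : Strat := .move 882 n1163 (.cons 758 n1828 .nil)
noncomputable def n1830 : Strat := .move 759 n52 (.cons 718 n1829 .nil)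
noncomputable def n1831 : Strat := .win 839 4 798
noncomputable def n1832 : Strat := .move 802 n1831 (.cons 839 n1094 .nil)
noncomputable def n1833 : Strat := .move 801 n695 (.cons 760 n1832 .nil)
noncomputable def n1834 : Strat := .move 882 n265 (.cons 758 n1833 .nil)
noncomputable def n1835 : Strat := .move 923 n748 (.cons 964 n1834 .nil)
noncomputable def n1836 : Strat := .win 802 4 798
noncomputable def n1837 : Strat := .move 839 n1836 (.cons 802 n841 .nil)
noncomputable def n1838 : Strat := .win 882 3 759
noncomputable def n1839 : Strat := .move 760 n1030 (.cons 761 n1838 .nil)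
noncomputable def n1840 : Strat := .move 801 n1832 (.cons 803 n1837 (.cons 839 n1839 .nil))
noncomputable def n1841 : Strat := .move 798 n1058 (.cons 757 n1840 .nil)
noncomputable def n1842 : Strat := .move 923 n748 (.cons 964 n1841 .nil)
noncomputable def n1843 : Strat := .move 799 n1835 (.cons 882 n1823 (.cons 758 n1842 .nil))
noncomputable def n1844 : Strat := .move 922 n54 (.cons 963 n1843 .nil)
noncomputable def n1845 : Strat := .move 881 n1485 (.cons 882 n1825 (.cons 963 n1165 (.cons 922 n1830 (.cons 759 n1844 .nil))))
noncomputable def n1846 : Strat := .move 761 n1187 (.cons 798 n1186 .nil)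
noncomputable def n1847 : Strat := .move 760 n630 (.cons 719 n1846 .nil)
noncomputable def n1848 : Strat := .move 882 n376 (.cons 923 n1847 .nil)
noncomputable def n1849 : Strat := .win 760 0 715
noncomputable def n1850 : Strat := .move 715 n1849 (.cons 760 n1567 .nil)
noncomputable def n1851 : Strat := .move 716 n742 (.cons 675 n1850 .nil)
noncomputable def n1852 : Strat := .move 718 n1007 (.cons 677 n1851 .nil)
noncomputable def n1853 : Strat := .move 717 n936 (.cons 676 n1852 .nil)
noncomputable def n1854 : Strat := .move 758 n937 (.cons 717 n1848 (.cons 882 n1853 .nil))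
noncomputable def n1855 : Strat := .win 716 0 716
noncomputable def n1856 : Strat := .move 717 n1855 (.cons 716 n784 .nil)
noncomputable def n1857 : Strat := .move 761 n1186 (.cons 762 n1856 .nil)
noncomputable def n1858 : Strat := .move 760 n1314 (.cons 882 n1857 .nil)
noncomputable def n1859 : Strat := .move 719 n779 (.cons 678 n1858 .nil)
noncomputable def n1860 : Strat := .move 718 n1007 (.cons 677 n1859 .nil)
noncomputable def n1861 : Strat := .win 761 0 716
noncomputable def n1862 : Strat := .win 715 0 715
noncomputable def n1863 : Strat := .move 760 n1861 (.cons 761 n1862 .nil)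
noncomputable def n1864 : Strat := .win 674 2 674
noncomputable def n1865 : Strat := .win 758 7 675
noncomputable def n1866 : Strat := .move 675 n1864 (.cons 674 n1865 .nil)
noncomputable def n1867 : Strat := .move 716 n1863 (.cons 715 n1866 .nil)
noncomputable def n1868 : Strat := .move 719 n779 (.cons 678 n1867 .nil)
noncomputable def n1869 : Strat := .move 717 n784 (.cons 676 n1868 .nil)
noncomputable def n1870 : Strat := .move 718 n1007 (.cons 677 n1869 .nil)
noncomputable def n1871 : Strat := .move 882 n780 (.cons 760 n765 .nil)
noncomputable def n1872 : Strat := .move 719 n779 (.cons 678 n1871 .nil)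
noncomputable def n1873 : Strat := .move 718 n1007 (.cons 677 n1872 .nil)
noncomputable def n1874 : Strat := .move 923 n266 (.cons 964 n1199 .nil)
noncomputable def n1875 : Strat := .move 760 n630 (.cons 719 n1874 .nil)
noncomputable def n1876 : Strat := .move 758 n49 (.cons 717 n1847 .nil)
noncomputable def n1877 : Strat := .move 882 n377 (.cons 717 n982 (.cons 758 n1875 (.cons 923 n1876 .nil)))
noncomputable def n1878 : Strat := .win 721 4 717
noncomputable def n1879 : Strat := .win 757 4 716
noncomputable def n1880 : Strat := .move 720 n1878 (.cons 721 n1879 .nil)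
noncomputable def n1881 : Strat := .move 719 n779 (.cons 678 n1880 .nil)
noncomputable def n1882 : Strat := .move 758 n737 (.cons 882 n1881 .nil)
noncomputable def n1883 : Strat := .move 717 n784 (.cons 676 n1882 .nil)
noncomputable def n1884 : Strat := .move 718 n1007 (.cons 677 n1883 .nil)
noncomputable def n1885 : Strat := .move 923 n266 (.cons 964 n1260 .nil)
noncomputable def n1886 : Strat := .win 758 6 717
noncomputable def n1887 : Strat := .move 718 n1007 (.cons 677 n784 .nil)
noncomputable def n1888 : Strat := .move 717 n1886 (.cons 758 n1887 .nil)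
noncomputable def n1889 : Strat := .move 882 n377 (.cons 717 n982 (.cons 758 n1885 (.cons 923 n1888 .nil)))
noncomputable def n1890 : Strat := .move 759 n1854 (.cons 758 n1860 (.cons 882 n1870 (.cons 717 n1873 (.cons 718 n1877 (.cons 760 n1884 (.cons 719 n1889 .nil))))))
noncomputable def n1891 : Strat := .move 718 n1007 (.cons 677 n1212 .nil)
noncomputable def n1892 : Strat := .move 759 n1876 (.cons 758 n1891 (.cons 719 n1888 .nil))
noncomputable def n1893 : Strat := .move 882 n982 (.cons 758 n1224 (.cons 964 n377 (.cons 923 n1892 .nil)))
noncomputable def n1894 : Strat := .move 839 n493 (.cons 838 n1836 .nil)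
noncomputable def n1895 : Strat := .move 882 n1437 (.cons 759 n1182 .nil)
noncomputable def n1896 : Strat := .move 719 n1031 (.cons 678 n1895 .nil)
noncomputable def n1897 : Strat := .move 760 n1107 (.cons 798 n1896 .nil)
noncomputable def n1898 : Strat := .move 761 n957 (.cons 762 n1897 .nil)
noncomputable def n1899 : Strat := .move 802 n1094 (.cons 803 n1898 .nil)
noncomputable def n1900 : Strat := .move 719 n1437 (.cons 759 n1031 .nil)
noncomputable def n1901 : Strat := .move 882 n1182 (.cons 923 n1900 .nil)
noncomputable def n1902 : Strat := .move 760 n1030 (.cons 761 n1901 .nil)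
noncomputable def n1903 : Strat := .move 798 n1233 (.cons 797 n1902 .nil)
noncomputable def n1904 : Strat := .move 839 n493 (.cons 838 n1903 .nil)
noncomputable def n1905 : Strat := .move 801 n1894 (.cons 839 n1899 (.cons 802 n1904 .nil))
noncomputable def n1906 : Strat := .move 838 n365 (.cons 801 n375 .nil)
noncomputable def n1907 : Strat := .win 798 2 755
noncomputable def n1908 : Strat := .move 755 n391 (.cons 714 n1907 .nil)
noncomputable def n1909 : Strat := .move 756 n383 (.cons 715 n1908 .nil)
noncomputable def n1910 : Strat := .move 879 n23 (.cons 878 n1909 .nil)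
noncomputable def n1911 : Strat := .move 797 n28 (.cons 796 n1910 .nil)
noncomputable def n1912 : Strat := .move 838 n375 (.cons 837 n1911 .nil)
noncomputable def n1913 : Strat := .move 801 n493 (.cons 838 n1836 .nil)
noncomputable def n1914 : Strat := .move 801 n1231 (.cons 757 n1836 .nil)
noncomputable def n1915 : Strat := .move 756 n537 (.cons 755 n1914 .nil)
noncomputable def n1916 : Strat := .move 797 n1142 (.cons 796 n1915 .nil)
noncomputable def n1917 : Strat := .win 879 1 756
noncomputable def n1918 : Strat := .move 757 n1917 (.cons 879 n815 .nil)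
noncomputable def n1919 : Strat := .move 921 n522 (.cons 961 n75 .nil)
noncomputable def n1920 : Strat := .move 920 n1918 (.cons 756 n1919 .nil)
noncomputable def n1921 : Strat := .move 801 n1836 (.cons 802 n1920 .nil)
noncomputable def n1922 : Strat := .win 758 1 716
noncomputable def n1923 : Strat := .move 801 n815 (.cons 756 n1836 .nil)
noncomputable def n1924 : Strat := .move 756 n79 (.cons 715 n1646 .nil)
noncomputable def n1925 : Strat := .move 716 n285 (.cons 676 n290 .nil)
noncomputable def n1926 : Strat := .move 757 n1923 (.cons 802 n1924 (.cons 756 n1925 .nil))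
noncomputable def n1927 : Strat := .move 717 n1922 (.cons 758 n1926 .nil)
noncomputable def n1928 : Strat := .move 880 n18 (.cons 717 n77 (.cons 758 n1921 (.cons 921 n1927 .nil)))
noncomputable def n1929 : Strat := .win 921 7 756
noncomputable def n1930 : Strat := .win 757 7 715
noncomputable def n1931 : Strat := .move 715 n1930 (.cons 757 n538 .nil)
noncomputable def n1932 : Strat := .move 880 n1929 (.cons 921 n1931 .nil)
noncomputable def n1933 : Strat := .move 756 n537 (.cons 755 n1932 .nil)
noncomputable def n1934 : Strat := .move 797 n1142 (.cons 796 n1933 .nil)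
noncomputable def n1935 : Strat := .win 759 5 756
noncomputable def n1936 : Strat := .move 760 n1030 (.cons 761 n1935 .nil)
noncomputable def n1937 : Strat := .move 801 n1836 (.cons 802 n1936 .nil)
noncomputable def n1938 : Strat := .move 797 n1142 (.cons 796 n1937 .nil)
noncomputable def n1939 : Strat := .move 798 n1916 (.cons 797 n1928 (.cons 801 n1934 (.cons 757 n1938 .nil)))
noncomputable def n1940 : Strat := .move 839 n1906 (.cons 801 n1912 (.cons 837 n1913 (.cons 838 n1939 .nil)))
noncomputable def n1941 : Strat := .move 802 n1094 (.cons 803 n1831 .nil)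
noncomputable def n1942 : Strat := .move 758 n935 (.cons 757 n1721 .nil)
noncomputable def n1943 : Strat := .move 802 n1094 (.cons 803 n1942 .nil)
noncomputable def n1944 : Strat := .move 839 n841 (.cons 838 n1233 .nil)
noncomputable def n1945 : Strat := .win 676 1 675
noncomputable def n1946 : Strat := .move 758 n737 (.cons 882 n1945 .nil)
noncomputable def n1947 : Strat := .win 880 1 716
noncomputable def n1948 : Strat := .move 758 n1947 (.cons 880 n737 .nil)
noncomputable def n1949 : Strat := .move 758 n1947 (.cons 880 n1945 .nil)
noncomputable def n1950 : Strat := .move 717 n1946 (.cons 676 n1948 (.cons 882 n1949 (.cons 758 n1925 .nil)))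
noncomputable def n1951 : Strat := .move 757 n815 (.cons 756 n1950 .nil)
noncomputable def n1952 : Strat := .move 839 n841 (.cons 838 n1951 .nil)
noncomputable def n1953 : Strat := .move 756 n1231 (.cons 757 n537 .nil)
noncomputable def n1954 : Strat := .move 797 n1142 (.cons 796 n1953 .nil)
noncomputable def n1955 : Strat := .win 839 4 797
noncomputable def n1956 : Strat := .move 797 n1142 (.cons 796 n536 .nil)
noncomputable def n1957 : Strat := .move 838 n1955 (.cons 839 n1956 .nil)
noncomputable def n1958 : Strat := .move 798 n1944 (.cons 797 n1952 (.cons 839 n1954 (.cons 757 n1957 .nil)))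
noncomputable def n1959 : Strat := .move 801 n1941 (.cons 839 n1943 (.cons 803 n1894 (.cons 802 n1958 .nil)))
noncomputable def n1960 : Strat := .move 715 n1567 (.cons 714 n1849 .nil)
noncomputable def n1961 : Strat := .move 716 n742 (.cons 675 n1960 .nil)
noncomputable def n1962 : Strat := .move 758 n737 (.cons 882 n1961 .nil)
noncomputable def n1963 : Strat := .move 717 n784 (.cons 676 n1962 .nil)
noncomputable def n1964 : Strat := .move 718 n1007 (.cons 677 n1963 .nil)
noncomputable def n1965 : Strat := .move 923 n266 (.cons 964 n1200 .nil)
noncomputable def n1966 : Strat := .move 882 n780 (.cons 760 n1965 .nil)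
noncomputable def n1967 : Strat := .move 719 n779 (.cons 678 n1966 .nil)
noncomputable def n1968 : Strat := .move 718 n1007 (.cons 677 n1967 .nil)
noncomputable def n1969 : Strat := .move 922 n788 (.cons 963 n1329 .nil)
noncomputable def n1970 : Strat := .move 923 n266 (.cons 964 n1969 .nil)
noncomputable def n1971 : Strat := .move 801 n1831 (.cons 839 n1531 .nil)
noncomputable def n1972 : Strat := .move 801 n1095 (.cons 757 n1831 .nil)
noncomputable def n1973 : Strat := .move 801 n1095 (.cons 757 n1531 .nil)
noncomputable def n1974 : Strat := .move 761 n1289 (.cons 803 n1186 .nil)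
noncomputable def n1975 : Strat := .move 802 n1971 (.cons 803 n1972 (.cons 839 n1973 (.cons 801 n1974 .nil)))
noncomputable def n1976 : Strat := .move 760 n630 (.cons 719 n1975 .nil)
noncomputable def n1977 : Strat := .move 758 n49 (.cons 717 n1976 .nil)
noncomputable def n1978 : Strat := .move 882 n377 (.cons 717 n982 (.cons 758 n1970 (.cons 923 n1977 .nil)))
noncomputable def n1979 : Strat := .move 759 n1964 (.cons 882 n1870 (.cons 758 n1968 (.cons 718 n1978 (.cons 760 n1884 .nil))))
noncomputable def n1980 : Strat := .move 799 n1890 (.cons 801 n1893 (.cons 758 n1905 (.cons 882 n1940 (.cons 759 n1959 (.cons 798 n1979 .nil)))))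
noncomputable def n1981 : Strat := .move 881 n628 (.cons 922 n1828 .nil)
noncomputable def n1982 : Strat := .move 881 n628 (.cons 922 n1216 .nil)
noncomputable def n1983 : Strat := .move 883 n681 (.cons 924 n1216 .nil)
noncomputable def n1984 : Strat := .move 882 n1981 (.cons 924 n1982 (.cons 881 n1983 .nil))
noncomputable def n1985 : Strat := .win 762 0 717
noncomputable def n1986 : Strat := .win 760 0 716
noncomputable def n1987 : Strat := .move 761 n1985 (.cons 762 n1986 .nil)
noncomputable def n1988 : Strat := .move 758 n1879 (.cons 757 n1878 .nil)
noncomputable def n1989 : Strat := .move 720 n1987 (.cons 760 n1988 .nil)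
noncomputable def n1990 : Strat := .win 673 2 673
noncomputable def n1991 : Strat := .win 675 2 674
noncomputable def n1992 : Strat := .move 674 n1990 (.cons 673 n1991 .nil)
noncomputable def n1993 : Strat := .move 715 n1849 (.cons 760 n1992 .nil)
noncomputable def n1994 : Strat := .win 755 4 714
noncomputable def n1995 : Strat := .win 757 4 715
noncomputable def n1996 : Strat := .move 756 n1994 (.cons 755 n1995 .nil)
noncomputable def n1997 : Strat := .move 715 n1992 (.cons 675 n1996 .nil)
noncomputable def n1998 : Strat := .move 716 n1863 (.cons 715 n1989 (.cons 761 n1993 (.cons 760 n1997 .nil)))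
noncomputable def n1999 : Strat := .move 717 n784 (.cons 676 n1998 .nil)
noncomputable def n2000 : Strat := .move 719 n779 (.cons 678 n1999 .nil)
noncomputable def n2001 : Strat := .move 718 n778 (.cons 881 n2000 .nil)
noncomputable def n2002 : Strat := .move 718 n779 (.cons 678 n1325 .nil)
noncomputable def n2003 : Strat := .move 718 n779 (.cons 678 n1999 .nil)
noncomputable def n2004 : Strat := .move 716 n1861 (.cons 761 n1862 .nil)
noncomputable def n2005 : Strat := .move 760 n1314 (.cons 882 n2004 .nil)
noncomputable def n2006 : Strat := .move 717 n784 (.cons 676 n2005 .nil)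
noncomputable def n2007 : Strat := .move 718 n779 (.cons 678 n2006 .nil)
noncomputable def n2008 : Strat := .move 720 n1879 (.cons 757 n1878 .nil)
noncomputable def n2009 : Strat := .move 758 n1565 (.cons 882 n2008 .nil)
noncomputable def n2010 : Strat := .move 717 n784 (.cons 676 n2009 .nil)
noncomputable def n2011 : Strat := .move 718 n779 (.cons 678 n2010 .nil)
noncomputable def n2012 : Strat := .move 678 n1551 (.cons 637 n1550 .nil)
noncomputable def n2013 : Strat := .move 760 n1314 (.cons 882 n2012 .nil)
noncomputable def n2014 : Strat := .move 757 n1554 (.cons 720 n1175 .nil)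
noncomputable def n2015 : Strat := .win 757 5 716
noncomputable def n2016 : Strat := .win 718 4 717
noncomputable def n2017 : Strat := .move 721 n2016 (.cons 718 n1316 .nil)
noncomputable def n2018 : Strat := .move 720 n2015 (.cons 757 n2017 .nil)
noncomputable def n2019 : Strat := .win 716 2 716
noncomputable def n2020 : Strat := .win 635 6 635
noncomputable def n2021 : Strat := .win 718 7 676
noncomputable def n2022 : Strat := .move 676 n2020 (.cons 635 n2021 .nil)
noncomputable def n2023 : Strat := .move 717 n2019 (.cons 716 n2022 .nil)
noncomputable def n2024 : Strat := .win 801 4 759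
noncomputable def n2025 : Strat := .win 718 2 718
noncomputable def n2026 : Strat := .move 763 n2024 (.cons 801 n2025 .nil)
noncomputable def n2027 : Strat := .move 762 n1287 (.cons 802 n2026 .nil)
noncomputable def n2028 : Strat := .move 761 n2023 (.cons 717 n2027 (.cons 718 n1299 .nil))
noncomputable def n2029 : Strat := .move 716 n1566 (.cons 761 n1176 .nil)
noncomputable def n2030 : Strat := .move 717 n2029 (.cons 715 n2022 .nil)
noncomputable def n2031 : Strat := .move 757 n1175 (.cons 756 n2030 .nil)
noncomputable def n2032 : Strat := .move 758 n2014 (.cons 756 n2018 (.cons 757 n2028 (.cons 720 n2031 .nil)))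
noncomputable def n2033 : Strat := .move 760 n1314 (.cons 882 n2032 .nil)
noncomputable def n2034 : Strat := .move 719 n2002 (.cons 882 n2003 (.cons 758 n2007 (.cons 760 n2011 (.cons 718 n2013 (.cons 678 n2033 .nil)))))
noncomputable def n2035 : Strat := .move 759 n1464 (.cons 718 n1984 (.cons 882 n2001 (.cons 719 n1364 (.cons 881 n2034 .nil))))
noncomputable def n2036 : Strat := .move 839 n1947 (.cons 880 n1913 .nil)
noncomputable def n2037 : Strat := .move 717 n936 (.cons 676 n2036 .nil)
noncomputable def n2038 : Strat := .win 882 7 758
noncomputable def n2039 : Strat := .move 881 n1772 (.cons 922 n1738 .nil)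
noncomputable def n2040 : Strat := .move 923 n2038 (.cons 882 n2039 .nil)
noncomputable def n2041 : Strat := .move 758 n937 (.cons 882 n2037 (.cons 676 n1721 (.cons 717 n2040 .nil)))
noncomputable def n2042 : Strat := .move 717 n936 (.cons 676 n1947 .nil)
noncomputable def n2043 : Strat := .move 756 n1158 (.cons 755 n1722 .nil)
noncomputable def n2044 : Strat := .move 716 n1468 (.cons 881 n742 .nil)
noncomputable def n2045 : Strat := .move 757 n2043 (.cons 798 n2044 .nil)
noncomputable def n2046 : Strat := .move 717 n936 (.cons 676 n2045 .nil)
noncomputable def n2047 : Strat := .move 757 n58 (.cons 716 n2043 .nil)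
noncomputable def n2048 : Strat := .move 922 n925 (.cons 962 n54 .nil)
noncomputable def n2049 : Strat := .move 921 n1369 (.cons 880 n2048 .nil)
noncomputable def n2050 : Strat := .move 881 n2047 (.cons 757 n2049 .nil)
noncomputable def n2051 : Strat := .move 758 n2042 (.cons 880 n2046 (.cons 717 n2050 .nil))
noncomputable def n2052 : Strat := .move 839 n493 (.cons 838 n2051 .nil)
noncomputable def n2053 : Strat := .move 884 n234 (.cons 719 n113 .nil)
noncomputable def n2054 : Strat := .move 760 n1107 (.cons 798 n2053 .nil)
noncomputable def n2055 : Strat := .move 761 n957 (.cons 762 n2054 .nil)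
noncomputable def n2056 : Strat := .move 843 n934 (.cons 844 n2055 .nil)
noncomputable def n2057 : Strat := .move 802 n1094 (.cons 803 n2056 .nil)
noncomputable def n2058 : Strat := .move 801 n1941 (.cons 803 n1894 (.cons 802 n2052 (.cons 839 n2057 .nil)))
noncomputable def n2059 : Strat := .move 839 n1947 (.cons 880 n1906 .nil)
noncomputable def n2060 : Strat := .move 717 n936 (.cons 676 n2059 .nil)
noncomputable def n2061 : Strat := .move 756 n1646 (.cons 801 n1158 .nil)
noncomputable def n2062 : Strat := .move 798 n1060 (.cons 922 n2061 .nil)
noncomputable def n2063 : Strat := .move 757 n58 (.cons 716 n2062 .nil)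
noncomputable def n2064 : Strat := .move 839 n708 (.cons 837 n365 .nil)
noncomputable def n2065 : Strat := .move 839 n374 (.cons 883 n708 .nil)
noncomputable def n2066 : Strat := .move 839 n374 (.cons 883 n365 .nil)
noncomputable def n2067 : Strat := .win 837 2 837
noncomputable def n2068 : Strat := .move 879 n2067 (.cons 837 n1334 .nil)
noncomputable def n2069 : Strat := .move 838 n2064 (.cons 801 n2065 (.cons 837 n2066 (.cons 839 n2068 .nil)))
noncomputable def n2070 : Strat := .move 880 n652 (.cons 921 n2069 .nil)
noncomputable def n2071 : Strat := .move 881 n1729 (.cons 963 n2063 (.cons 922 n2070 .nil))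
noncomputable def n2072 : Strat := .move 882 n376 (.cons 923 n2071 .nil)
noncomputable def n2073 : Strat := .move 758 n937 (.cons 882 n2060 (.cons 676 n1721 (.cons 717 n2072 .nil)))
noncomputable def n2074 : Strat := .win 839 5 797
noncomputable def n2075 : Strat := .move 797 n536 (.cons 837 n1142 .nil)
noncomputable def n2076 : Strat := .move 922 n1058 (.cons 757 n54 .nil)
noncomputable def n2077 : Strat := .move 798 n2075 (.cons 796 n2076 .nil)
noncomputable def n2078 : Strat := .move 758 n652 (.cons 921 n49 .nil)
noncomputable def n2079 : Strat := .move 879 n1334 (.cons 878 n2067 .nil)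
noncomputable def n2080 : Strat := .move 880 n2078 (.cons 717 n2079 .nil)
noncomputable def n2081 : Strat := .move 758 n1369 (.cons 880 n49 .nil)
noncomputable def n2082 : Strat := .move 921 n2081 (.cons 717 n2048 .nil)
noncomputable def n2083 : Strat := .move 881 n2077 (.cons 798 n2080 (.cons 837 n2082 .nil))
noncomputable def n2084 : Strat := .move 923 n266 (.cons 964 n695 .nil)
noncomputable def n2085 : Strat := .move 882 n982 (.cons 923 n2083 (.cons 758 n2084 .nil))
noncomputable def n2086 : Strat := .move 838 n2074 (.cons 839 n2085 .nil)
noncomputable def n2087 : Strat := .move 801 n1941 (.cons 803 n1894 (.cons 839 n1943 (.cons 802 n2086 .nil)))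
noncomputable def n2088 : Strat := .move 922 n1835 (.cons 882 n1823 (.cons 758 n1842 .nil))
noncomputable def n2089 : Strat := .move 838 n1955 (.cons 839 n2075 .nil)
noncomputable def n2090 : Strat := .move 801 n1832 (.cons 803 n1837 (.cons 839 n1659 (.cons 802 n2089 .nil)))
noncomputable def n2091 : Strat := .move 798 n1058 (.cons 757 n2090 .nil)
noncomputable def n2092 : Strat := .move 922 n1842 (.cons 923 n2091 (.cons 798 n1493 .nil))
noncomputable def n2093 : Strat := .move 758 n1369 (.cons 880 n1677 .nil)
noncomputable def n2094 : Strat := .move 921 n925 (.cons 962 n2093 .nil)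
noncomputable def n2095 : Strat := .move 922 n1823 (.cons 798 n2094 (.cons 757 n1636 (.cons 962 n2091 .nil)))
noncomputable def n2096 : Strat := .move 758 n747 (.cons 882 n1728 .nil)
noncomputable def n2097 : Strat := .move 923 n748 (.cons 964 n2096 .nil)
noncomputable def n2098 : Strat := .move 758 n747 (.cons 882 n1731 .nil)
noncomputable def n2099 : Strat := .move 923 n748 (.cons 964 n2098 .nil)
noncomputable def n2100 : Strat := .win 838 5 796
noncomputable def n2101 : Strat := .move 717 n737 (.cons 882 n936 .nil)
noncomputable def n2102 : Strat := .move 758 n2101 (.cons 676 n1728 .nil)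
noncomputable def n2103 : Strat := .move 839 n2100 (.cons 838 n2102 .nil)
noncomputable def n2104 : Strat := .win 839 5 796
noncomputable def n2105 : Strat := .win 797 4 796
noncomputable def n2106 : Strat := .move 798 n2105 (.cons 797 n1058 .nil)
noncomputable def n2107 : Strat := .move 838 n2104 (.cons 839 n2106 .nil)
noncomputable def n2108 : Strat := .move 837 n2097 (.cons 880 n2099 (.cons 923 n2103 (.cons 758 n2107 .nil)))
noncomputable def n2109 : Strat := .move 797 n1142 (.cons 796 n2102 .nil)
noncomputable def n2110 : Strat := .move 798 n1058 (.cons 757 n2109 .nil)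
noncomputable def n2111 : Strat := .move 758 n1369 (.cons 880 n1731 .nil)
noncomputable def n2112 : Strat := .move 921 n925 (.cons 962 n2111 .nil)
noncomputable def n2113 : Strat := .move 922 n2108 (.cons 923 n2110 (.cons 758 n1493 (.cons 962 n2099 (.cons 882 n2112 .nil))))
noncomputable def n2114 : Strat := .move 758 n1369 (.cons 880 n2101 .nil)
noncomputable def n2115 : Strat := .move 921 n925 (.cons 962 n2114 .nil)
noncomputable def n2116 : Strat := .move 922 n2110 (.cons 798 n2115 (.cons 758 n2091 .nil))
noncomputable def n2117 : Strat := .move 922 n1835 (.cons 923 n2115 (.cons 758 n1493 (.cons 882 n2094 .nil)))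
noncomputable def n2118 : Strat := .move 922 n1835 (.cons 882 n2091 (.cons 801 n1155 .nil))
noncomputable def n2119 : Strat := .move 798 n815 (.cons 756 n1060 .nil)
noncomputable def n2120 : Strat := .move 801 n1535 (.cons 802 n2119 .nil)
noncomputable def n2121 : Strat := .move 757 n58 (.cons 716 n2120 .nil)
noncomputable def n2122 : Strat := .move 758 n736 (.cons 882 n2121 .nil)
noncomputable def n2123 : Strat := .move 922 n1835 (.cons 923 n2115 (.cons 882 n1636 (.cons 758 n1493 .nil)))
noncomputable def n2124 : Strat := .move 882 n48 (.cons 923 n1738 .nil)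
noncomputable def n2125 : Strat := .win 839 1 716
noncomputable def n2126 : Strat := .move 880 n652 (.cons 921 n2125 .nil)
noncomputable def n2127 : Strat := .move 717 n936 (.cons 676 n2126 .nil)
noncomputable def n2128 : Strat := .move 758 n736 (.cons 717 n2124 (.cons 923 n937 (.cons 882 n2127 .nil)))
noncomputable def n2129 : Strat := .move 881 n2088 (.cons 758 n2092 (.cons 882 n2095 (.cons 801 n2113 (.cons 923 n2116 (.cons 798 n2117 (.cons 880 n2118 (.cons 921 n2122 (.cons 757 n2123 (.cons 922 n2128 .nil)))))))))
noncomputable def n2130 : Strat := .move 798 n1956 (.cons 797 n1656 .nil)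
noncomputable def n2131 : Strat := .move 838 n2074 (.cons 839 n2130 .nil)
noncomputable def n2132 : Strat := .move 801 n1941 (.cons 839 n1943 (.cons 803 n1894 (.cons 802 n2131 .nil)))
noncomputable def n2133 : Strat := .move 881 n1653 (.cons 758 n1060 .nil)
noncomputable def n2134 : Strat := .move 716 n290 (.cons 675 n2133 .nil)
noncomputable def n2135 : Strat := .move 757 n815 (.cons 756 n2134 .nil)
noncomputable def n2136 : Strat := .move 798 n1956 (.cons 837 n2135 .nil)
noncomputable def n2137 : Strat := .move 838 n2074 (.cons 839 n2136 .nil)
noncomputable def n2138 : Strat := .move 801 n1941 (.cons 803 n1894 (.cons 802 n2137 (.cons 839 n1787 .nil)))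
noncomputable def n2139 : Strat := .move 882 n376 (.cons 923 n49 .nil)
noncomputable def n2140 : Strat := .move 716 n1468 (.cons 881 n290 .nil)
noncomputable def n2141 : Strat := .move 758 n2101 (.cons 676 n2139 (.cons 882 n2140 .nil))
noncomputable def n2142 : Strat := .move 757 n815 (.cons 756 n2141 .nil)
noncomputable def n2143 : Strat := .move 798 n1956 (.cons 837 n2142 .nil)
noncomputable def n2144 : Strat := .move 838 n2074 (.cons 839 n2143 .nil)
noncomputable def n2145 : Strat := .move 801 n1941 (.cons 839 n1943 (.cons 803 n1894 (.cons 802 n2144 .nil)))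
noncomputable def n2146 : Strat := .move 716 n284 (.cons 881 n290 .nil)
noncomputable def n2147 : Strat := .move 757 n815 (.cons 756 n2146 .nil)
noncomputable def n2148 : Strat := .move 839 n841 (.cons 838 n2147 .nil)
noncomputable def n2149 : Strat := .move 798 n2148 (.cons 839 n1954 (.cons 756 n1957 .nil))
noncomputable def n2150 : Strat := .move 801 n1894 (.cons 839 n1787 (.cons 802 n2149 .nil))
noncomputable def n2151 : Strat := .move 922 n54 (.cons 963 n2108 .nil)
noncomputable def n2152 : Strat := .move 922 n54 (.cons 963 n1493 .nil)
noncomputable def n2153 : Strat := .move 922 n54 (.cons 963 n2112 .nil)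
noncomputable def n2154 : Strat := .move 922 n54 (.cons 963 n2099 .nil)
noncomputable def n2155 : Strat := .move 758 n49 (.cons 717 n48 .nil)
noncomputable def n2156 : Strat := .win 883 0 880
noncomputable def n2157 : Strat := .win 926 2 881
noncomputable def n2158 : Strat := .move 925 n2156 (.cons 883 n2157 .nil)
noncomputable def n2159 : Strat := .move 880 n1410 (.cons 879 n2158 .nil)
noncomputable def n2160 : Strat := .move 924 n1124 (.cons 965 n2159 .nil)
noncomputable def n2161 : Strat := .move 923 n266 (.cons 964 n2160 .nil)
noncomputable def n2162 : Strat := .win 839 2 839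
noncomputable def n2163 : Strat := .move 884 n2162 (.cons 839 n1241 .nil)
noncomputable def n2164 : Strat := .win 924 0 880
noncomputable def n2165 : Strat := .move 880 n2164 (.cons 924 n652 .nil)
noncomputable def n2166 : Strat := .move 884 n325 (.cons 926 n1241 .nil)
noncomputable def n2167 : Strat := .move 925 n2165 (.cons 921 n2166 .nil)
noncomputable def n2168 : Strat := .move 758 n49 (.cons 717 n2167 .nil)
noncomputable def n2169 : Strat := .win 839 0 838
noncomputable def n2170 : Strat := .move 921 n1543 (.cons 920 n654 .nil)
noncomputable def n2171 : Strat := .move 880 n2078 (.cons 717 n2170 (.cons 921 n2068 .nil))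
noncomputable def n2172 : Strat := .move 838 n2169 (.cons 839 n2171 .nil)
noncomputable def n2173 : Strat := .move 883 n1827 (.cons 838 n2163 (.cons 839 n2168 (.cons 884 n2172 .nil)))
noncomputable def n2174 : Strat := .move 882 n2155 (.cons 758 n2161 (.cons 923 n2173 .nil))
noncomputable def n2175 : Strat := .move 881 n2151 (.cons 758 n2152 (.cons 882 n2153 (.cons 963 n2113 (.cons 962 n2154 (.cons 922 n2174 .nil)))))
noncomputable def n2176 : Strat := .move 882 n48 (.cons 923 n1729 .nil)
noncomputable def n2177 : Strat := .move 882 n48 (.cons 923 n2070 .nil)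
noncomputable def n2178 : Strat := .move 881 n2176 (.cons 882 n1771 (.cons 880 n1773 (.cons 922 n2177 .nil)))
noncomputable def n2179 : Strat := .move 758 n937 (.cons 882 n2037 (.cons 676 n1721 (.cons 717 n2178 .nil)))
noncomputable def n2180 : Strat := .move 799 n2041 (.cons 882 n2058 (.cons 839 n1741 (.cons 802 n2073 (.cons 716 n2087 (.cons 963 n2129 (.cons 880 n2132 (.cons 717 n2138 (.cons 922 n2145 (.cons 758 n2150 (.cons 881 n1959 (.cons 801 n2175 (.cons 798 n2179 .nil))))))))))))
noncomputable def n2181 : Strat := .move 799 n55 (.cons 759 n1372 .nil)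
noncomputable def n2182 : Strat := .move 922 n54 (.cons 963 n2181 .nil)
noncomputable def n2183 : Strat := .move 799 n2108 (.cons 923 n2110 (.cons 758 n1493 (.cons 962 n2099 (.cons 882 n2112 .nil))))
noncomputable def n2184 : Strat := .move 922 n54 (.cons 963 n2183 .nil)
noncomputable def n2185 : Strat := .move 923 n1606 (.cons 799 n1200 .nil)
noncomputable def n2186 : Strat := .move 758 n790 (.cons 717 n2185 .nil)
noncomputable def n2187 : Strat := .move 882 n1191 (.cons 798 n2186 (.cons 758 n1828 .nil))
noncomputable def n2188 : Strat := .move 759 n52 (.cons 718 n2187 .nil)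
noncomputable def n2189 : Strat := .move 881 n1485 (.cons 882 n1499 (.cons 718 n2182 (.cons 759 n2184 (.cons 922 n2188 .nil))))
noncomputable def n2190 : Strat := .move 881 n52 (.cons 718 n1829 .nil)
noncomputable def n2191 : Strat := .move 881 n1163 (.cons 758 n1828 .nil)
noncomputable def n2192 : Strat := .win 799 4 798
noncomputable def n2193 : Strat := .move 802 n2192 (.cons 799 n1094 .nil)
noncomputable def n2194 : Strat := .move 839 n493 (.cons 838 n2193 .nil)
noncomputable def n2195 : Strat := .move 801 n1182 (.cons 923 n2194 .nil)
noncomputable def n2196 : Strat := .move 760 n630 (.cons 719 n2195 .nil)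
noncomputable def n2197 : Strat := .move 881 n1163 (.cons 799 n1216 (.cons 923 n1181 (.cons 756 n1191 (.cons 758 n2196 .nil))))
noncomputable def n2198 : Strat := .move 923 n1199 (.cons 801 n789 .nil)
noncomputable def n2199 : Strat := .move 760 n630 (.cons 719 n2198 .nil)
noncomputable def n2200 : Strat := .move 758 n790 (.cons 717 n2199 .nil)
noncomputable def n2201 : Strat := .win 881 2 839
noncomputable def n2202 : Strat := .move 884 n1241 (.cons 885 n2201 .nil)
noncomputable def n2203 : Strat := .move 839 n353 (.cons 838 n2202 .nil)
noncomputable def n2204 : Strat := .move 883 n681 (.cons 924 n2203 .nil)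
noncomputable def n2205 : Strat := .move 882 n2191 (.cons 924 n2197 (.cons 881 n2200 (.cons 758 n2204 .nil)))
noncomputable def n2206 : Strat := .move 758 n2101 (.cons 717 n1848 (.cons 882 n1853 .nil))
noncomputable def n2207 : Strat := .move 801 n1836 (.cons 802 n493 .nil)
noncomputable def n2208 : Strat := .move 839 n1947 (.cons 880 n2207 .nil)
noncomputable def n2209 : Strat := .move 717 n936 (.cons 676 n2208 .nil)
noncomputable def n2210 : Strat := .move 923 n2038 (.cons 882 n2209 .nil)
noncomputable def n2211 : Strat := .move 802 n1531 (.cons 803 n1831 .nil)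
noncomputable def n2212 : Strat := .move 757 n1090 (.cons 756 n1535 .nil)
noncomputable def n2213 : Strat := .move 801 n2211 (.cons 803 n2212 (.cons 802 n1848 .nil))
noncomputable def n2214 : Strat := .move 758 n2210 (.cons 882 n2209 (.cons 801 n2101 (.cons 676 n1721 (.cons 717 n2213 .nil))))
noncomputable def n2215 : Strat := .move 799 n2206 (.cons 758 n1860 (.cons 718 n2214 (.cons 882 n1870 (.cons 717 n1873 (.cons 760 n1884 (.cons 719 n1964 .nil))))))
noncomputable def n2216 : Strat := .move 759 n2190 (.cons 718 n2205 (.cons 882 n1358 (.cons 799 n1464 (.cons 881 n2215 .nil))))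
noncomputable def n2217 : Strat := .move 799 n55 (.cons 759 n1842 .nil)
noncomputable def n2218 : Strat := .move 922 n54 (.cons 963 n2217 .nil)
noncomputable def n2219 : Strat := .move 799 n55 (.cons 759 n2091 .nil)
noncomputable def n2220 : Strat := .move 922 n54 (.cons 963 n2219 .nil)
noncomputable def n2221 : Strat := .move 799 n55 (.cons 759 n1493 .nil)
noncomputable def n2222 : Strat := .move 922 n54 (.cons 963 n2221 .nil)
noncomputable def n2223 : Strat := .move 799 n1842 (.cons 923 n2091 (.cons 798 n1493 .nil))
noncomputable def n2224 : Strat := .move 922 n54 (.cons 963 n2223 .nil)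
noncomputable def n2225 : Strat := .move 882 n1828 (.cons 883 n1502 .nil)
noncomputable def n2226 : Strat := .move 759 n52 (.cons 718 n2225 .nil)
noncomputable def n2227 : Strat := .move 881 n2218 (.cons 964 n2220 (.cons 761 n2222 (.cons 759 n2224 (.cons 963 n1593 (.cons 799 n1485 (.cons 922 n2226 .nil))))))
noncomputable def n2228 : Strat := .move 799 n2110 (.cons 798 n2115 (.cons 758 n2091 .nil))
noncomputable def n2229 : Strat := .move 922 n54 (.cons 963 n2228 .nil)
noncomputable def n2230 : Strat := .move 882 n1828 (.cons 839 n1181 .nil)
noncomputable def n2231 : Strat := .move 759 n52 (.cons 718 n2230 .nil)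
noncomputable def n2232 : Strat := .move 881 n1140 (.cons 718 n1583 (.cons 882 n1499 (.cons 759 n2229 (.cons 922 n2231 .nil))))
noncomputable def n2233 : Strat := .move 799 n1007 (.cons 677 n1883 .nil)
noncomputable def n2234 : Strat := .move 758 n1565 (.cons 882 n1881 .nil)
noncomputable def n2235 : Strat := .move 717 n784 (.cons 676 n2234 .nil)
noncomputable def n2236 : Strat := .move 718 n2233 (.cons 717 n1357 (.cons 719 n1460 (.cons 677 n2235 .nil)))
noncomputable def n2237 : Strat := .move 881 n628 (.cons 922 n1163 .nil)
noncomputable def n2238 : Strat := .move 883 n681 (.cons 924 n2163 .nil)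
noncomputable def n2239 : Strat := .move 799 n48 (.cons 923 n2238 .nil)
noncomputable def n2240 : Strat := .move 758 n790 (.cons 717 n2239 .nil)
noncomputable def n2241 : Strat := .move 881 n628 (.cons 922 n2240 .nil)
noncomputable def n2242 : Strat := .move 882 n2237 (.cons 755 n2241 (.cons 881 n1264 (.cons 758 n1981 .nil)))
noncomputable def n2243 : Strat := .move 759 n1364 (.cons 882 n1465 (.cons 881 n2236 (.cons 718 n2242 .nil)))
noncomputable def n2244 : Strat := .move 799 n1007 (.cons 677 n1961 .nil)
noncomputable def n2245 : Strat := .move 758 n1565 (.cons 882 n2244 .nil)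
noncomputable def n2246 : Strat := .move 717 n784 (.cons 676 n2245 .nil)
noncomputable def n2247 : Strat := .move 718 n778 (.cons 881 n2246 .nil)
noncomputable def n2248 : Strat := .move 881 n628 (.cons 922 n2196 .nil)
noncomputable def n2249 : Strat := .move 882 n2237 (.cons 922 n2197 (.cons 799 n1982 (.cons 923 n1359 (.cons 756 n1360 (.cons 881 n2200 (.cons 758 n2248 .nil))))))
noncomputable def n2250 : Strat := .move 718 n2246 (.cons 799 n1326 (.cons 882 n1357 .nil))
noncomputable def n2251 : Strat := .move 759 n2247 (.cons 718 n2249 (.cons 882 n1358 (.cons 799 n1464 (.cons 881 n2250 .nil))))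
noncomputable def n2252 : Strat := .move 799 n376 (.cons 923 n1189 .nil)
noncomputable def n2253 : Strat := .move 758 n790 (.cons 717 n2252 .nil)
noncomputable def n2254 : Strat := .move 882 n1259 (.cons 801 n2253 (.cons 758 n1262 (.cons 760 n1264 (.cons 923 n786 .nil))))
noncomputable def n2255 : Strat := .move 882 n1981 (.cons 838 n1609 (.cons 881 n1259 .nil))
noncomputable def n2256 : Strat := .move 759 n1358 (.cons 678 n1364 (.cons 881 n2254 (.cons 718 n2255 .nil)))
noncomputable def n2257 : Strat := .move 838 n365 (.cons 801 n368 .nil)
noncomputable def n2258 : Strat := .move 838 n368 (.cons 837 n547 (.cons 879 n437 (.cons 799 n554 .nil)))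
noncomputable def n2259 : Strat := .move 838 n365 (.cons 801 n554 .nil)
noncomputable def n2260 : Strat := .move 838 n365 (.cons 801 n437 .nil)
noncomputable def n2261 : Strat := .move 799 n742 (.cons 675 n1947 .nil)
noncomputable def n2262 : Strat := .move 716 n1960 (.cons 760 n2261 .nil)
noncomputable def n2263 : Strat := .move 758 n1881 (.cons 719 n2262 .nil)
noncomputable def n2264 : Strat := .move 717 n784 (.cons 676 n2263 .nil)
noncomputable def n2265 : Strat := .move 676 n1309 (.cons 635 n1308 .nil)
noncomputable def n2266 : Strat := .move 677 n1355 (.cons 637 n2265 .nil)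
noncomputable def n2267 : Strat := .move 678 n1354 (.cons 719 n2266 .nil)
noncomputable def n2268 : Strat := .move 678 n1355 (.cons 637 n2265 .nil)
noncomputable def n2269 : Strat := .move 677 n1353 (.cons 799 n2268 .nil)
noncomputable def n2270 : Strat := .move 718 n1357 (.cons 677 n2264 (.cons 799 n2267 (.cons 719 n2269 (.cons 678 n1460 .nil))))
noncomputable def n2271 : Strat := .move 718 n778 (.cons 881 n2267 .nil)
noncomputable def n2272 : Strat := .move 801 n1090 (.cons 756 n1535 .nil)
noncomputable def n2273 : Strat := .move 758 n2272 (.cons 802 n1160 (.cons 756 n2042 .nil))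
noncomputable def n2274 : Strat := .move 881 n72 (.cons 716 n51 .nil)
noncomputable def n2275 : Strat := .move 798 n2274 (.cons 922 n1923 .nil)
noncomputable def n2276 : Strat := .win 798 6 716
noncomputable def n2277 : Strat := .move 716 n1653 (.cons 758 n2276 .nil)
noncomputable def n2278 : Strat := .move 881 n51 (.cons 922 n2277 .nil)
noncomputable def n2279 : Strat := .move 799 n2273 (.cons 755 n2275 (.cons 801 n2278 .nil))
noncomputable def n2280 : Strat := .win 880 3 716
noncomputable def n2281 : Strat := .move 716 n285 (.cons 676 n284 .nil)
noncomputable def n2282 : Strat := .move 798 n2280 (.cons 880 n2281 .nil)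
noncomputable def n2283 : Strat := .move 717 n2282 (.cons 798 n1533 .nil)
noncomputable def n2284 : Strat := .win 880 6 757
noncomputable def n2285 : Strat := .move 922 n2284 (.cons 880 n54 .nil)
noncomputable def n2286 : Strat := .move 798 n72 (.cons 716 n2285 .nil)
noncomputable def n2287 : Strat := .move 881 n2286 (.cons 798 n1533 .nil)
noncomputable def n2288 : Strat := .move 719 n1031 (.cons 678 n1554 .nil)
noncomputable def n2289 : Strat := .move 760 n1089 (.cons 802 n2288 .nil)
noncomputable def n2290 : Strat := .move 801 n1090 (.cons 756 n2289 .nil)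
noncomputable def n2291 : Strat := .move 797 n1520 (.cons 760 n1515 .nil)
noncomputable def n2292 : Strat := .move 880 n79 (.cons 715 n289 .nil)
noncomputable def n2293 : Strat := .move 798 n2291 (.cons 796 n2292 .nil)
noncomputable def n2294 : Strat := .move 756 n1159 (.cons 801 n2293 .nil)
noncomputable def n2295 : Strat := .move 760 n1293 (.cons 797 n1176 .nil)
noncomputable def n2296 : Strat := .move 716 n284 (.cons 881 n2295 .nil)
noncomputable def n2297 : Strat := .win 795 0 795
noncomputable def n2298 : Strat := .move 796 n2297 (.cons 795 n1518 .nil)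
noncomputable def n2299 : Strat := .move 797 n1520 (.cons 760 n2298 .nil)
noncomputable def n2300 : Strat := .move 717 n285 (.cons 676 n2280 .nil)
noncomputable def n2301 : Strat := .move 716 n284 (.cons 881 n2300 .nil)
noncomputable def n2302 : Strat := .move 798 n2296 (.cons 716 n2299 (.cons 797 n2301 .nil))
noncomputable def n2303 : Strat := .move 801 n1089 (.cons 802 n2288 .nil)
noncomputable def n2304 : Strat := .move 798 n1293 (.cons 797 n284 .nil)
noncomputable def n2305 : Strat := .move 716 n1176 (.cons 715 n2304 .nil)
noncomputable def n2306 : Strat := .move 760 n2303 (.cons 801 n2305 .nil)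
noncomputable def n2307 : Strat := .win 713 2 713
noncomputable def n2308 : Strat := .win 715 2 714
noncomputable def n2309 : Strat := .move 714 n2307 (.cons 713 n2308 .nil)
noncomputable def n2310 : Strat := .win 795 4 754
noncomputable def n2311 : Strat := .win 797 4 755
noncomputable def n2312 : Strat := .move 796 n2310 (.cons 795 n2311 .nil)
noncomputable def n2313 : Strat := .move 755 n2309 (.cons 715 n2312 .nil)
noncomputable def n2314 : Strat := .move 756 n1159 (.cons 801 n2313 .nil)
noncomputable def n2315 : Strat := .move 758 n2283 (.cons 717 n2287 (.cons 803 n2290 (.cons 802 n2294 (.cons 801 n2302 (.cons 756 n2306 (.cons 760 n2314 .nil))))))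
noncomputable def n2316 : Strat := .win 799 2 757
noncomputable def n2317 : Strat := .move 802 n2316 (.cons 799 n1531 .nil)
noncomputable def n2318 : Strat := .move 801 n1090 (.cons 756 n2317 .nil)
noncomputable def n2319 : Strat := .move 881 n58 (.cons 716 n51 .nil)
noncomputable def n2320 : Strat := .move 799 n2272 (.cons 802 n1160 (.cons 756 n2319 .nil))
noncomputable def n2321 : Strat := .move 799 n1158 (.cons 755 n2319 .nil)
noncomputable def n2322 : Strat := .move 756 n1159 (.cons 801 n2321 .nil)
noncomputable def n2323 : Strat := .move 797 n1142 (.cons 796 n1520 .nil)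
noncomputable def n2324 : Strat := .move 799 n2274 (.cons 922 n2323 .nil)
noncomputable def n2325 : Strat := .move 922 n1194 (.cons 799 n54 .nil)
noncomputable def n2326 : Strat := .move 881 n72 (.cons 716 n2325 .nil)
noncomputable def n2327 : Strat := .move 798 n2324 (.cons 799 n2296 (.cons 760 n2326 (.cons 716 n2299 .nil)))
noncomputable def n2328 : Strat := .move 758 n2318 (.cons 803 n2320 (.cons 802 n2322 (.cons 801 n2327 (.cons 799 n1533 (.cons 756 n2306 .nil)))))
noncomputable def n2329 : Strat := .move 799 n2274 (.cons 922 n1923 .nil)
noncomputable def n2330 : Strat := .move 797 n1616 (.cons 760 n1142 .nil)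
noncomputable def n2331 : Strat := .move 799 n1923 (.cons 802 n2330 .nil)
noncomputable def n2332 : Strat := .move 881 n72 (.cons 716 n2285 .nil)
noncomputable def n2333 : Strat := .move 798 n2329 (.cons 881 n2331 (.cons 799 n2332 .nil))
noncomputable def n2334 : Strat := .move 799 n2272 (.cons 802 n1160 (.cons 756 n2042 .nil))
noncomputable def n2335 : Strat := .move 799 n2042 (.cons 880 n2319 .nil)
noncomputable def n2336 : Strat := .move 758 n2334 (.cons 801 n2335 (.cons 799 n1533 .nil))
noncomputable def n2337 : Strat := .win 799 6 675
noncomputable def n2338 : Strat := .win 635 3 634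
noncomputable def n2339 : Strat := .win 717 3 675
noncomputable def n2340 : Strat := .move 676 n2338 (.cons 635 n2339 .nil)
noncomputable def n2341 : Strat := .move 675 n2337 (.cons 799 n2340 .nil)
noncomputable def n2342 : Strat := .move 716 n284 (.cons 881 n2341 .nil)
noncomputable def n2343 : Strat := .win 635 1 634
noncomputable def n2344 : Strat := .win 716 3 675
noncomputable def n2345 : Strat := .move 676 n2343 (.cons 635 n2344 .nil)
noncomputable def n2346 : Strat := .move 717 n2280 (.cons 880 n2345 .nil)
noncomputable def n2347 : Strat := .win 799 0 796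
noncomputable def n2348 : Strat := .move 796 n2347 (.cons 799 n2297 .nil)
noncomputable def n2349 : Strat := .move 797 n1520 (.cons 760 n2348 .nil)
noncomputable def n2350 : Strat := .move 758 n2346 (.cons 717 n2349 .nil)
noncomputable def n2351 : Strat := .move 879 n1334 (.cons 878 n519 .nil)
noncomputable def n2352 : Strat := .move 881 n71 (.cons 922 n2351 .nil)
noncomputable def n2353 : Strat := .move 758 n1520 (.cons 760 n289 .nil)
noncomputable def n2354 : Strat := .move 797 n2348 (.cons 795 n2353 .nil)
noncomputable def n2355 : Strat := .move 880 n2352 (.cons 881 n2354 .nil)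
noncomputable def n2356 : Strat := .move 758 n2296 (.cons 716 n2299 (.cons 797 n2301 .nil))
noncomputable def n2357 : Strat := .move 798 n2326 (.cons 922 n2342 (.cons 881 n2350 (.cons 716 n2355 (.cons 799 n2356 .nil))))
noncomputable def n2358 : Strat := .win 799 0 755
noncomputable def n2359 : Strat := .move 755 n2358 (.cons 799 n2309 .nil)
noncomputable def n2360 : Strat := .move 756 n1159 (.cons 801 n2359 .nil)
noncomputable def n2361 : Strat := .move 798 n2346 (.cons 717 n2349 .nil)
noncomputable def n2362 : Strat := .move 676 n2344 (.cons 716 n2343 .nil)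
noncomputable def n2363 : Strat := .move 717 n2280 (.cons 880 n2362 .nil)
noncomputable def n2364 : Strat := .move 756 n1159 (.cons 801 n2291 .nil)
noncomputable def n2365 : Strat := .move 798 n2363 (.cons 717 n2364 .nil)
noncomputable def n2366 : Strat := .move 758 n2318 (.cons 802 n2360 (.cons 801 n2361 (.cons 799 n2365 .nil)))
noncomputable def n2367 : Strat := .move 758 n289 (.cons 717 n1159 .nil)
noncomputable def n2368 : Strat := .move 756 n79 (.cons 715 n2367 .nil)
noncomputable def n2369 : Strat := .move 880 n2352 (.cons 881 n2368 .nil)
noncomputable def n2370 : Strat := .move 798 n2331 (.cons 799 n2369 (.cons 801 n2355 .nil))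
noncomputable def n2371 : Strat := .win 798 3 716
noncomputable def n2372 : Strat := .win 799 1 716
noncomputable def n2373 : Strat := .move 880 n2371 (.cons 798 n2372 .nil)
noncomputable def n2374 : Strat := .move 798 n1293 (.cons 797 n2280 .nil)
noncomputable def n2375 : Strat := .win 799 6 676
noncomputable def n2376 : Strat := .move 676 n2375 (.cons 799 n2020 .nil)
noncomputable def n2377 : Strat := .move 717 n2373 (.cons 799 n2374 (.cons 798 n2376 .nil))
noncomputable def n2378 : Strat := .move 760 n2303 (.cons 801 n2377 .nil)
noncomputable def n2379 : Strat := .move 758 n2335 (.cons 799 n2306 (.cons 881 n2378 .nil))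
noncomputable def n2380 : Strat := .move 757 n2279 (.cons 799 n2315 (.cons 880 n2328 (.cons 758 n2333 (.cons 798 n2336 (.cons 801 n2357 (.cons 881 n2366 (.cons 716 n2370 (.cons 756 n2379 .nil))))))))
noncomputable def n2381 : Strat := .move 759 n1358 (.cons 881 n2270 (.cons 799 n2271 (.cons 719 n1605 (.cons 718 n2380 .nil))))
noncomputable def n2382 : Strat := .move 839 n2257 (.cons 801 n2258 (.cons 799 n2259 (.cons 879 n2260 (.cons 838 n2381 .nil))))
noncomputable def n2383 : Strat := .move 800 n1845 (.cons 881 n1980 (.cons 799 n2035 (.cons 759 n2180 (.cons 801 n2189 (.cons 839 n1366 (.cons 922 n2216 (.cons 758 n2227 (.cons 923 n2232 (.cons 760 n2243 (.cons 924 n2251 (.cons 757 n2256 (.cons 882 n2382 .nil))))))))))))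
noncomputable def n2384 : Strat := .move 841 n121 (.cons 799 n260 (.cons 800 n361 (.cons 881 n461 (.cons 882 n561 (.cons 838 n599 (.cons 843 n640 (.cons 798 n732 (.cons 801 n761 (.cons 880 n833 (.cons 883 n887 (.cons 797 n966 (.cons 802 n1028 (.cons 879 n1048 (.cons 884 n1137 (.cons 839 n1821 (.cons 842 n2383 .nil))))))))))))))))

end Vale.Agent.Snaky.R5_2
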