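import Vale.Agent.Snaky.Assemble

namespace Vale.Agent.Snaky.R5_3

open Vale.Agent.Snaky

noncomputable def n0 : Strat := .win 757 7 757
noncomputable def n1 : Strat := .win 839 7 798
noncomputable def n2 : Strat := .win 759 3 758
noncomputable def n3 : Strat := .win 841 3 799
noncomputable def n4 : Strat := .move 800 n2 (.cons 759 n3 .nil)
noncomputable def n5 : Strat := .move 963 n1 (.cons 839 n4 .nil)
noncomputable def n6 : Strat := .move 798 n0 (.cons 757 n5 .nil)
noncomputable def n7 : Strat := .win 964 6 799
noncomputable def n8 : Strat := .win 882 6 758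
noncomputable def n9 : Strat := .win 962 1 798
noncomputable def n10 : Strat := .win 880 1 757
noncomputable def n11 : Strat := .move 921 n9 (.cons 962 n10 .nil)
noncomputable def n12 : Strat := .move 758 n8 (.cons 882 n11 .nil)
noncomputable def n13 : Strat := .move 923 n7 (.cons 964 n12 .nil)
noncomputable def n14 : Strat := .move 799 n6 (.cons 798 n13 .nil)
noncomputable def n15 : Strat := .move 923 n7 (.cons 964 n8 .nil)
noncomputable def n16 : Strat := .move 758 n10 (.cons 880 n15 .nil)
noncomputable def n17 : Strat := .move 921 n9 (.cons 962 n16 .nil)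
noncomputable def n18 : Strat := .win 800 3 758
noncomputable def n19 : Strat := .win 718 3 717
noncomputable def n20 : Strat := .move 759 n18 (.cons 800 n19 .nil)
noncomputable def n21 : Strat := .move 758 n10 (.cons 880 n20 .nil)
noncomputable def n22 : Strat := .move 921 n9 (.cons 962 n21 .nil)
noncomputable def n23 : Strat := .win 798 7 757
noncomputable def n24 : Strat := .win 716 7 716
noncomputable def n25 : Strat := .move 757 n23 (.cons 798 n24 .nil)
noncomputable def n26 : Strat := .move 758 n8 (.cons 882 n25 .nil)
noncomputable def n27 : Strat := .move 923 n7 (.cons 964 n26 .nil)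
noncomputable def n28 : Strat := .win 842 0 797
noncomputable def n29 : Strat := .win 796 0 796
noncomputable def n30 : Strat := .move 841 n28 (.cons 842 n29 .nil)
noncomputable def n31 : Strat := .win 801 4 797
noncomputable def n32 : Strat := .win 837 4 796
noncomputable def n33 : Strat := .move 838 n31 (.cons 801 n32 .nil)
noncomputable def n34 : Strat := .win 802 4 798
noncomputable def n35 : Strat := .win 838 4 797
noncomputable def n36 : Strat := .move 801 n34 (.cons 802 n35 .nil)
noncomputable def n37 : Strat := .win 880 7 756
noncomputable def n38 : Strat := .win 755 2 755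
noncomputable def n39 : Strat := .move 756 n37 (.cons 880 n38 .nil)
noncomputable def n40 : Strat := .move 839 n33 (.cons 837 n36 (.cons 801 n39 .nil))
noncomputable def n41 : Strat := .move 797 n30 (.cons 796 n40 .nil)
noncomputable def n42 : Strat := .move 921 n9 (.cons 962 n41 .nil)
noncomputable def n43 : Strat := .move 800 n2 (.cons 759 n42 .nil)
noncomputable def n44 : Strat := .move 798 n0 (.cons 757 n43 .nil)
noncomputable def n45 : Strat := .move 799 n17 (.cons 923 n22 (.cons 921 n27 (.cons 758 n44 .nil)))
noncomputable def n46 : Strat := .win 921 1 798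
noncomputable def n47 : Strat := .win 1003 1 839
noncomputable def n48 : Strat := .move 962 n46 (.cons 921 n47 .nil)
noncomputable def n49 : Strat := .move 963 n3 (.cons 841 n48 .nil)
noncomputable def n50 : Strat := .move 800 n2 (.cons 759 n49 .nil)
noncomputable def n51 : Strat := .move 758 n8 (.cons 882 n20 .nil)
noncomputable def n52 : Strat := .move 923 n7 (.cons 964 n51 .nil)
noncomputable def n53 : Strat := .move 799 n13 (.cons 923 n50 (.cons 962 n52 .nil))
noncomputable def n54 : Strat := .win 923 6 799
noncomputable def n55 : Strat := .win 1005 6 840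
noncomputable def n56 : Strat := .move 964 n54 (.cons 923 n55 .nil)
noncomputable def n57 : Strat := .move 963 n1 (.cons 839 n56 .nil)
noncomputable def n58 : Strat := .move 798 n0 (.cons 757 n57 .nil)
noncomputable def n59 : Strat := .move 758 n10 (.cons 880 n25 .nil)
noncomputable def n60 : Strat := .move 921 n9 (.cons 962 n59 .nil)
noncomputable def n61 : Strat := .move 799 n17 (.cons 921 n58 (.cons 923 n60 .nil))
noncomputable def n62 : Strat := .win 800 3 799
noncomputable def n63 : Strat := .win 882 3 840
noncomputable def n64 : Strat := .win 798 7 798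
noncomputable def n65 : Strat := .win 880 7 839
noncomputable def n66 : Strat := .move 839 n64 (.cons 798 n65 .nil)
noncomputable def n67 : Strat := .move 1004 n63 (.cons 882 n66 .nil)
noncomputable def n68 : Strat := .move 841 n62 (.cons 800 n67 .nil)
noncomputable def n69 : Strat := .move 798 n0 (.cons 757 n1 .nil)
noncomputable def n70 : Strat := .move 799 n54 (.cons 923 n69 .nil)
noncomputable def n71 : Strat := .move 964 n55 (.cons 1005 n70 .nil)
noncomputable def n72 : Strat := .win 964 6 840
noncomputable def n73 : Strat := .win 1046 6 881
noncomputable def n74 : Strat := .move 1005 n72 (.cons 964 n73 .nil)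
noncomputable def n75 : Strat := .move 1004 n63 (.cons 882 n74 .nil)
noncomputable def n76 : Strat := .move 841 n62 (.cons 800 n75 .nil)
noncomputable def n77 : Strat := .move 963 n68 (.cons 841 n71 (.cons 839 n76 .nil))
noncomputable def n78 : Strat := .move 841 n62 (.cons 800 n63 .nil)
noncomputable def n79 : Strat := .move 1004 n65 (.cons 880 n78 .nil)
noncomputable def n80 : Strat := .move 839 n64 (.cons 798 n79 .nil)
noncomputable def n81 : Strat := .move 799 n46 (.cons 921 n4 .nil)
noncomputable def n82 : Strat := .move 962 n47 (.cons 1003 n81 .nil)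
noncomputable def n83 : Strat := .win 962 1 839
noncomputable def n84 : Strat := .win 1044 1 880
noncomputable def n85 : Strat := .move 1003 n83 (.cons 962 n84 .nil)
noncomputable def n86 : Strat := .move 1004 n65 (.cons 880 n85 .nil)
noncomputable def n87 : Strat := .move 839 n64 (.cons 798 n86 .nil)
noncomputable def n88 : Strat := .move 963 n80 (.cons 839 n82 (.cons 841 n87 .nil))
noncomputable def n89 : Strat := .move 963 n3 (.cons 841 n69 .nil)
noncomputable def n90 : Strat := .move 800 n2 (.cons 759 n89 .nil)
noncomputable def n91 : Strat := .move 963 n3 (.cons 841 n56 .nil)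
noncomputable def n92 : Strat := .move 800 n2 (.cons 759 n91 .nil)
noncomputable def n93 : Strat := .move 799 n90 (.cons 800 n27 (.cons 798 n92 .nil))
noncomputable def n94 : Strat := .move 963 n1 (.cons 839 n48 .nil)
noncomputable def n95 : Strat := .move 798 n0 (.cons 757 n94 .nil)
noncomputable def n96 : Strat := .move 799 n6 (.cons 798 n22 (.cons 800 n95 .nil))
noncomputable def n97 : Strat := .move 1004 n63 (.cons 882 n85 .nil)
noncomputable def n98 : Strat := .move 841 n62 (.cons 800 n97 .nil)
noncomputable def n99 : Strat := .move 1004 n65 (.cons 880 n74 .nil)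
noncomputable def n100 : Strat := .move 839 n64 (.cons 798 n99 .nil)
noncomputable def n101 : Strat := .win 883 0 838
noncomputable def n102 : Strat := .win 837 0 837
noncomputable def n103 : Strat := .move 882 n101 (.cons 883 n102 .nil)
noncomputable def n104 : Strat := .win 842 4 838
noncomputable def n105 : Strat := .win 878 4 837
noncomputable def n106 : Strat := .move 879 n104 (.cons 842 n105 .nil)
noncomputable def n107 : Strat := .win 843 4 839
noncomputable def n108 : Strat := .win 879 4 838
noncomputable def n109 : Strat := .move 842 n107 (.cons 843 n108 .nil)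
noncomputable def n110 : Strat := .win 921 7 797
noncomputable def n111 : Strat := .win 796 2 796
noncomputable def n112 : Strat := .move 797 n110 (.cons 921 n111 .nil)
noncomputable def n113 : Strat := .move 880 n106 (.cons 878 n109 (.cons 842 n112 .nil))
noncomputable def n114 : Strat := .move 838 n103 (.cons 837 n113 .nil)
noncomputable def n115 : Strat := .move 962 n47 (.cons 1003 n114 .nil)
noncomputable def n116 : Strat := .move 841 n62 (.cons 800 n115 .nil)
noncomputable def n117 : Strat := .move 839 n64 (.cons 798 n116 .nil)
noncomputable def n118 : Strat := .move 963 n80 (.cons 839 n98 (.cons 841 n100 (.cons 1004 n117 .nil)))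
noncomputable def n119 : Strat := .move 922 n14 (.cons 963 n45 (.cons 839 n53 (.cons 841 n61 (.cons 921 n77 (.cons 923 n88 (.cons 880 n93 (.cons 882 n96 (.cons 799 n118 .nil))))))))
noncomputable def n120 : Strat := .move 759 n19 (.cons 718 n18 .nil)
noncomputable def n121 : Strat := .move 922 n23 (.cons 798 n120 .nil)
noncomputable def n122 : Strat := .move 757 n24 (.cons 716 n121 .nil)
noncomputable def n123 : Strat := .win 921 1 757
noncomputable def n124 : Strat := .win 839 1 716
noncomputable def n125 : Strat := .win 759 3 717
noncomputable def n126 : Strat := .win 677 3 676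
noncomputable def n127 : Strat := .move 718 n125 (.cons 759 n126 .nil)
noncomputable def n128 : Strat := .move 717 n124 (.cons 839 n127 .nil)
noncomputable def n129 : Strat := .move 880 n123 (.cons 921 n128 .nil)
noncomputable def n130 : Strat := .move 921 n10 (.cons 880 n9 .nil)
noncomputable def n131 : Strat := .move 922 n23 (.cons 798 n130 .nil)
noncomputable def n132 : Strat := .move 757 n24 (.cons 716 n131 .nil)
noncomputable def n133 : Strat := .move 758 n122 (.cons 757 n129 (.cons 759 n132 .nil))
noncomputable def n134 : Strat := .win 963 7 798
noncomputable def n135 : Strat := .win 837 5 796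
noncomputable def n136 : Strat := .move 838 n135 (.cons 837 n31 .nil)
noncomputable def n137 : Strat := .move 839 n134 (.cons 963 n136 .nil)
noncomputable def n138 : Strat := .move 798 n0 (.cons 757 n137 .nil)
noncomputable def n139 : Strat := .move 800 n2 (.cons 759 n138 .nil)
noncomputable def n140 : Strat := .win 919 5 878
noncomputable def n141 : Strat := .win 883 5 879
noncomputable def n142 : Strat := .move 882 n140 (.cons 919 n141 .nil)
noncomputable def n143 : Strat := .win 879 2 878
noncomputable def n144 : Strat := .win 877 2 877
noncomputable def n145 : Strat := .win 959 4 918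
noncomputable def n146 : Strat := .win 961 4 919
noncomputable def n147 : Strat := .move 960 n145 (.cons 959 n146 .nil)
noncomputable def n148 : Strat := .move 919 n144 (.cons 877 n147 .nil)
noncomputable def n149 : Strat := .move 878 n143 (.cons 879 n148 .nil)
noncomputable def n150 : Strat := .win 882 5 879
noncomputable def n151 : Strat := .win 884 5 880
noncomputable def n152 : Strat := .win 880 2 879
noncomputable def n153 : Strat := .win 878 2 878
noncomputable def n154 : Strat := .move 879 n152 (.cons 880 n153 .nil)
noncomputable def n155 : Strat := .move 924 n151 (.cons 884 n154 .nil)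
noncomputable def n156 : Strat := .move 883 n150 (.cons 882 n155 .nil)
noncomputable def n157 : Strat := .move 920 n142 (.cons 882 n149 (.cons 919 n156 .nil))
noncomputable def n158 : Strat := .move 923 n7 (.cons 964 n157 .nil)
noncomputable def n159 : Strat := .move 921 n9 (.cons 962 n158 .nil)
noncomputable def n160 : Strat := .move 922 n139 (.cons 798 n159 .nil)
noncomputable def n161 : Strat := .win 802 2 757
noncomputable def n162 : Strat := .win 756 0 756
noncomputable def n163 : Strat := .move 801 n161 (.cons 802 n162 .nil)
noncomputable def n164 : Strat := .move 757 n24 (.cons 716 n163 .nil)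
noncomputable def n165 : Strat := .move 759 n19 (.cons 718 n164 .nil)
noncomputable def n166 : Strat := .win 717 1 716
noncomputable def n167 : Strat := .win 883 2 838
noncomputable def n168 : Strat := .win 923 6 758
noncomputable def n169 : Strat := .move 882 n167 (.cons 883 n168 .nil)
noncomputable def n170 : Strat := .move 838 n135 (.cons 837 n169 .nil)
noncomputable def n171 : Strat := .move 839 n166 (.cons 717 n170 .nil)
noncomputable def n172 : Strat := .move 880 n123 (.cons 921 n171 .nil)
noncomputable def n173 : Strat := .move 759 n19 (.cons 718 n172 .nil)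
noncomputable def n174 : Strat := .win 755 0 755
noncomputable def n175 : Strat := .win 798 2 756
noncomputable def n176 : Strat := .move 756 n174 (.cons 755 n175 .nil)
noncomputable def n177 : Strat := .move 801 n161 (.cons 802 n176 .nil)
noncomputable def n178 : Strat := .move 757 n24 (.cons 716 n177 .nil)
noncomputable def n179 : Strat := .move 800 n165 (.cons 757 n173 (.cons 759 n178 .nil))
noncomputable def n180 : Strat := .win 801 0 756
noncomputable def n181 : Strat := .move 800 n174 (.cons 755 n180 .nil)
noncomputable def n182 : Strat := .win 800 0 755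
noncomputable def n183 : Strat := .win 713 2 713
noncomputable def n184 : Strat := .win 715 2 714
noncomputable def n185 : Strat := .move 714 n183 (.cons 713 n184 .nil)
noncomputable def n186 : Strat := .move 755 n182 (.cons 800 n185 .nil)
noncomputable def n187 : Strat := .win 797 4 755
noncomputable def n188 : Strat := .win 795 4 754
noncomputable def n189 : Strat := .move 755 n188 (.cons 795 n185 .nil)
noncomputable def n190 : Strat := .move 796 n187 (.cons 797 n189 .nil)
noncomputable def n191 : Strat := .win 800 0 756
noncomputable def n192 : Strat := .win 802 0 757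
noncomputable def n193 : Strat := .win 798 4 756
noncomputable def n194 : Strat := .win 796 4 755
noncomputable def n195 : Strat := .move 797 n193 (.cons 798 n194 .nil)
noncomputable def n196 : Strat := .move 760 n192 (.cons 802 n195 .nil)
noncomputable def n197 : Strat := .move 801 n191 (.cons 800 n196 .nil)
noncomputable def n198 : Strat := .move 756 n181 (.cons 801 n186 (.cons 800 n190 (.cons 755 n197 .nil)))
noncomputable def n199 : Strat := .move 759 n19 (.cons 718 n198 .nil)
noncomputable def n200 : Strat := .move 757 n24 (.cons 716 n199 .nil)
noncomputable def n201 : Strat := .win 757 7 716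
noncomputable def n202 : Strat := .win 675 7 675
noncomputable def n203 : Strat := .move 716 n201 (.cons 757 n202 .nil)
noncomputable def n204 : Strat := .move 717 n124 (.cons 839 n203 .nil)
noncomputable def n205 : Strat := .move 880 n123 (.cons 921 n204 .nil)
noncomputable def n206 : Strat := .move 758 n179 (.cons 880 n200 (.cons 759 n205 (.cons 757 n129 .nil)))
noncomputable def n207 : Strat := .move 717 n203 (.cons 675 n127 .nil)
noncomputable def n208 : Strat := .move 922 n18 (.cons 800 n130 .nil)
noncomputable def n209 : Strat := .move 759 n19 (.cons 718 n208 .nil)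
noncomputable def n210 : Strat := .move 758 n207 (.cons 677 n132 (.cons 757 n209 .nil))
noncomputable def n211 : Strat := .move 758 n10 (.cons 880 n8 .nil)
noncomputable def n212 : Strat := .move 923 n7 (.cons 964 n211 .nil)
noncomputable def n213 : Strat := .move 921 n9 (.cons 962 n212 .nil)
noncomputable def n214 : Strat := .move 800 n138 (.cons 801 n213 .nil)
noncomputable def n215 : Strat := .move 757 n24 (.cons 716 n23 .nil)
noncomputable def n216 : Strat := .move 758 n8 (.cons 882 n215 .nil)
noncomputable def n217 : Strat := .move 923 n7 (.cons 964 n216 .nil)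
noncomputable def n218 : Strat := .move 922 n214 (.cons 798 n213 (.cons 962 n217 (.cons 758 n95 .nil)))
noncomputable def n219 : Strat := .move 923 n8 (.cons 882 n7 .nil)
noncomputable def n220 : Strat := .move 922 n23 (.cons 798 n219 .nil)
noncomputable def n221 : Strat := .move 757 n24 (.cons 716 n220 .nil)
noncomputable def n222 : Strat := .move 758 n132 (.cons 757 n129 (.cons 880 n221 .nil))
noncomputable def n223 : Strat := .move 758 n8 (.cons 882 n120 .nil)
noncomputable def n224 : Strat := .move 923 n7 (.cons 964 n223 .nil)
noncomputable def n225 : Strat := .move 838 n31 (.cons 801 n135 .nil)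
noncomputable def n226 : Strat := .move 800 n2 (.cons 759 n225 .nil)
noncomputable def n227 : Strat := .move 839 n134 (.cons 963 n226 .nil)
noncomputable def n228 : Strat := .move 798 n0 (.cons 757 n227 .nil)
noncomputable def n229 : Strat := .move 922 n58 (.cons 757 n224 (.cons 964 n228 .nil))
noncomputable def n230 : Strat := .move 922 n18 (.cons 800 n219 .nil)
noncomputable def n231 : Strat := .move 759 n19 (.cons 718 n230 .nil)
noncomputable def n232 : Strat := .move 758 n209 (.cons 922 n129 (.cons 759 n205 (.cons 880 n231 .nil)))
noncomputable def n233 : Strat := .move 838 n102 (.cons 837 n167 .nil)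
noncomputable def n234 : Strat := .move 882 n168 (.cons 923 n233 .nil)
noncomputable def n235 : Strat := .move 839 n166 (.cons 717 n234 .nil)
noncomputable def n236 : Strat := .move 880 n123 (.cons 921 n235 .nil)
noncomputable def n237 : Strat := .move 758 n129 (.cons 718 n236 (.cons 839 n209 (.cons 880 n231 .nil)))
noncomputable def n238 : Strat := .move 799 n133 (.cons 758 n160 (.cons 922 n206 (.cons 839 n210 (.cons 759 n218 (.cons 800 n222 (.cons 921 n229 (.cons 798 n232 (.cons 757 n237 .nil))))))))
noncomputable def n239 : Strat := .move 922 n90 (.cons 800 n27 (.cons 798 n92 .nil))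
noncomputable def n240 : Strat := .win 963 1 799
noncomputable def n241 : Strat := .move 797 n28 (.cons 842 n29 .nil)
noncomputable def n242 : Strat := .move 798 n0 (.cons 757 n241 .nil)
noncomputable def n243 : Strat := .move 841 n240 (.cons 963 n242 .nil)
noncomputable def n244 : Strat := .move 800 n2 (.cons 759 n243 .nil)
noncomputable def n245 : Strat := .move 923 n7 (.cons 964 n244 .nil)
noncomputable def n246 : Strat := .win 884 4 880
noncomputable def n247 : Strat := .win 920 5 879
noncomputable def n248 : Strat := .move 883 n246 (.cons 884 n247 .nil)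
noncomputable def n249 : Strat := .move 921 n9 (.cons 962 n248 .nil)
noncomputable def n250 : Strat := .move 923 n244 (.cons 963 n249 .nil)
noncomputable def n251 : Strat := .move 923 n7 (.cons 964 n249 .nil)
noncomputable def n252 : Strat := .move 882 n245 (.cons 964 n250 (.cons 963 n251 (.cons 923 n90 .nil)))
noncomputable def n253 : Strat := .move 963 n3 (.cons 841 n1 .nil)
noncomputable def n254 : Strat := .move 798 n0 (.cons 757 n253 .nil)
noncomputable def n255 : Strat := .move 800 n2 (.cons 759 n254 .nil)
noncomputable def n256 : Strat := .move 839 n35 (.cons 838 n34 .nil)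
noncomputable def n257 : Strat := .win 843 0 798
noncomputable def n258 : Strat := .win 797 0 797
noncomputable def n259 : Strat := .move 842 n257 (.cons 843 n258 .nil)
noncomputable def n260 : Strat := .win 882 3 759
noncomputable def n261 : Strat := .win 761 5 757
noncomputable def n262 : Strat := .move 760 n260 (.cons 882 n261 .nil)
noncomputable def n263 : Strat := .move 841 n241 (.cons 796 n259 (.cons 842 n262 .nil))
noncomputable def n264 : Strat := .move 801 n256 (.cons 802 n263 .nil)
noncomputable def n265 : Strat := .move 923 n7 (.cons 964 n264 .nil)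
noncomputable def n266 : Strat := .move 798 n0 (.cons 757 n265 .nil)
noncomputable def n267 : Strat := .move 800 n2 (.cons 759 n266 .nil)
noncomputable def n268 : Strat := .move 922 n252 (.cons 964 n255 (.cons 841 n58 (.cons 798 n92 (.cons 963 n267 .nil))))
noncomputable def n269 : Strat := .win 963 3 799
noncomputable def n270 : Strat := .move 841 n269 (.cons 963 n242 .nil)
noncomputable def n271 : Strat := .move 800 n2 (.cons 759 n270 .nil)
noncomputable def n272 : Strat := .move 758 n19 (.cons 718 n215 .nil)
noncomputable def n273 : Strat := .move 759 n18 (.cons 800 n272 .nil)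
noncomputable def n274 : Strat := .move 882 n271 (.cons 797 n90 (.cons 800 n95 (.cons 798 n50 (.cons 963 n273 .nil))))
noncomputable def n275 : Strat := .move 839 n34 (.cons 802 n35 .nil)
noncomputable def n276 : Strat := .win 839 4 798
noncomputable def n277 : Strat := .win 844 0 799
noncomputable def n278 : Strat := .win 842 0 798
noncomputable def n279 : Strat := .move 843 n277 (.cons 844 n278 .nil)
noncomputable def n280 : Strat := .move 802 n276 (.cons 839 n279 .nil)
noncomputable def n281 : Strat := .win 762 5 758
noncomputable def n282 : Strat := .win 760 5 757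
noncomputable def n283 : Strat := .move 761 n281 (.cons 762 n282 .nil)
noncomputable def n284 : Strat := .move 802 n277 (.cons 844 n283 .nil)
noncomputable def n285 : Strat := .move 843 n278 (.cons 842 n284 .nil)
noncomputable def n286 : Strat := .win 839 4 797
noncomputable def n287 : Strat := .move 797 n32 (.cons 837 n30 .nil)
noncomputable def n288 : Strat := .move 838 n286 (.cons 839 n287 .nil)
noncomputable def n289 : Strat := .move 801 n275 (.cons 838 n280 (.cons 839 n285 (.cons 802 n288 .nil)))
noncomputable def n290 : Strat := .move 798 n0 (.cons 757 n289 .nil)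
noncomputable def n291 : Strat := .move 800 n2 (.cons 759 n290 .nil)
noncomputable def n292 : Strat := .move 922 n274 (.cons 800 n95 (.cons 798 n50 (.cons 963 n291 .nil)))
noncomputable def n293 : Strat := .win 841 6 717
noncomputable def n294 : Strat := .move 717 n293 (.cons 841 n127 .nil)
noncomputable def n295 : Strat := .move 882 n168 (.cons 923 n294 .nil)
noncomputable def n296 : Strat := .win 922 3 758
noncomputable def n297 : Strat := .move 801 n162 (.cons 756 n161 .nil)
noncomputable def n298 : Strat := .move 757 n24 (.cons 716 n297 .nil)
noncomputable def n299 : Strat := .move 800 n296 (.cons 922 n298 .nil)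
noncomputable def n300 : Strat := .move 759 n19 (.cons 718 n299 .nil)
noncomputable def n301 : Strat := .move 717 n293 (.cons 841 n203 .nil)
noncomputable def n302 : Strat := .move 882 n168 (.cons 923 n301 .nil)
noncomputable def n303 : Strat := .move 758 n295 (.cons 923 n300 (.cons 759 n302 .nil))
noncomputable def n304 : Strat := .move 758 n302 (.cons 841 n200 (.cons 757 n295 .nil))
noncomputable def n305 : Strat := .move 758 n207 (.cons 757 n295 (.cons 677 n221 .nil))
noncomputable def n306 : Strat := .move 800 n2 (.cons 759 n253 .nil)
noncomputable def n307 : Strat := .move 798 n0 (.cons 757 n306 .nil)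
noncomputable def n308 : Strat := .move 841 n29 (.cons 796 n28 .nil)
noncomputable def n309 : Strat := .win 841 0 796
noncomputable def n310 : Strat := .win 754 2 754
noncomputable def n311 : Strat := .win 756 2 755
noncomputable def n312 : Strat := .move 755 n310 (.cons 754 n311 .nil)
noncomputable def n313 : Strat := .move 796 n309 (.cons 841 n312 .nil)
noncomputable def n314 : Strat := .win 838 4 796
noncomputable def n315 : Strat := .win 836 4 795
noncomputable def n316 : Strat := .move 796 n315 (.cons 836 n312 .nil)
noncomputable def n317 : Strat := .move 837 n314 (.cons 838 n316 .nil)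
noncomputable def n318 : Strat := .win 841 0 797
noncomputable def n319 : Strat := .move 838 n286 (.cons 839 n32 .nil)
noncomputable def n320 : Strat := .move 801 n257 (.cons 843 n319 .nil)
noncomputable def n321 : Strat := .move 842 n318 (.cons 841 n320 .nil)
noncomputable def n322 : Strat := .move 797 n308 (.cons 842 n313 (.cons 841 n317 (.cons 796 n321 .nil)))
noncomputable def n323 : Strat := .move 800 n2 (.cons 759 n322 .nil)
noncomputable def n324 : Strat := .move 798 n0 (.cons 757 n323 .nil)
noncomputable def n325 : Strat := .move 922 n307 (.cons 798 n50 (.cons 800 n58 (.cons 963 n324 .nil)))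
noncomputable def n326 : Strat := .win 758 6 758
noncomputable def n327 : Strat := .move 920 n141 (.cons 883 n140 .nil)
noncomputable def n328 : Strat := .move 921 n9 (.cons 962 n327 .nil)
noncomputable def n329 : Strat := .move 882 n326 (.cons 758 n328 .nil)
noncomputable def n330 : Strat := .move 923 n7 (.cons 964 n329 .nil)
noncomputable def n331 : Strat := .move 798 n0 (.cons 757 n330 .nil)
noncomputable def n332 : Strat := .move 800 n89 (.cons 798 n91 (.cons 963 n331 .nil))
noncomputable def n333 : Strat := .move 882 n326 (.cons 758 n249 .nil)
noncomputable def n334 : Strat := .move 923 n7 (.cons 964 n333 .nil)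
noncomputable def n335 : Strat := .move 922 n332 (.cons 923 n95 (.cons 962 n58 (.cons 798 n334 .nil)))
noncomputable def n336 : Strat := .move 922 n92 (.cons 923 n50 (.cons 800 n334 .nil))
noncomputable def n337 : Strat := .move 717 n203 (.cons 716 n127 .nil)
noncomputable def n338 : Strat := .move 758 n337 (.cons 757 n231 (.cons 759 n221 .nil))
noncomputable def n339 : Strat := .move 799 n239 (.cons 758 n268 (.cons 923 n292 (.cons 798 n303 (.cons 922 n304 (.cons 800 n305 (.cons 882 n325 (.cons 759 n335 (.cons 757 n336 (.cons 841 n338 .nil)))))))))
noncomputable def n340 : Strat := .move 922 n6 (.cons 798 n22 (.cons 800 n95 .nil))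
noncomputable def n341 : Strat := .move 922 n18 (.cons 800 n23 .nil)
noncomputable def n342 : Strat := .move 757 n24 (.cons 716 n341 .nil)
noncomputable def n343 : Strat := .move 759 n19 (.cons 718 n342 .nil)
noncomputable def n344 : Strat := .win 761 4 757
noncomputable def n345 : Strat := .win 797 4 756
noncomputable def n346 : Strat := .move 798 n344 (.cons 761 n345 .nil)
noncomputable def n347 : Strat := .win 798 4 757
noncomputable def n348 : Strat := .win 803 0 758
noncomputable def n349 : Strat := .win 801 0 757
noncomputable def n350 : Strat := .move 802 n348 (.cons 803 n349 .nil)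
noncomputable def n351 : Strat := .move 761 n347 (.cons 798 n350 .nil)
noncomputable def n352 : Strat := .win 721 5 717
noncomputable def n353 : Strat := .win 719 5 716
noncomputable def n354 : Strat := .move 720 n352 (.cons 721 n353 .nil)
noncomputable def n355 : Strat := .move 761 n348 (.cons 803 n354 .nil)
noncomputable def n356 : Strat := .move 802 n349 (.cons 801 n355 .nil)
noncomputable def n357 : Strat := .move 800 n180 (.cons 801 n174 .nil)
noncomputable def n358 : Strat := .move 756 n194 (.cons 796 n357 .nil)
noncomputable def n359 : Strat := .move 797 n193 (.cons 798 n358 .nil)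
noncomputable def n360 : Strat := .move 760 n346 (.cons 797 n351 (.cons 798 n356 (.cons 761 n359 .nil)))
noncomputable def n361 : Strat := .move 757 n24 (.cons 716 n360 .nil)
noncomputable def n362 : Strat := .move 759 n19 (.cons 718 n361 .nil)
noncomputable def n363 : Strat := .move 758 n343 (.cons 800 n132 (.cons 757 n209 (.cons 922 n362 .nil)))
noncomputable def n364 : Strat := .move 717 n127 (.cons 677 n203 .nil)
noncomputable def n365 : Strat := .move 758 n364 (.cons 759 n205 (.cons 717 n209 .nil))
noncomputable def n366 : Strat := .win 922 7 757
noncomputable def n367 : Strat := .win 760 4 756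
noncomputable def n368 : Strat := .win 796 5 755
noncomputable def n369 : Strat := .move 797 n367 (.cons 760 n368 .nil)
noncomputable def n370 : Strat := .move 759 n19 (.cons 718 n369 .nil)
noncomputable def n371 : Strat := .move 798 n366 (.cons 922 n370 .nil)
noncomputable def n372 : Strat := .move 757 n24 (.cons 716 n371 .nil)
noncomputable def n373 : Strat := .move 758 n205 (.cons 921 n372 (.cons 757 n129 .nil))
noncomputable def n374 : Strat := .move 922 n307 (.cons 759 n58 (.cons 798 n92 (.cons 963 n324 .nil)))
noncomputable def n375 : Strat := .win 635 6 635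
noncomputable def n376 : Strat := .win 841 6 676
noncomputable def n377 : Strat := .move 676 n375 (.cons 635 n376 .nil)
noncomputable def n378 : Strat := .move 717 n124 (.cons 839 n377 .nil)
noncomputable def n379 : Strat := .move 880 n123 (.cons 921 n378 .nil)
noncomputable def n380 : Strat := .move 759 n19 (.cons 718 n379 .nil)
noncomputable def n381 : Strat := .win 756 2 756
noncomputable def n382 : Strat := .move 880 n166 (.cons 717 n123 .nil)
noncomputable def n383 : Strat := .move 839 n35 (.cons 838 n382 .nil)
noncomputable def n384 : Strat := .move 798 n381 (.cons 756 n383 .nil)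
noncomputable def n385 : Strat := .move 801 n161 (.cons 802 n384 .nil)
noncomputable def n386 : Strat := .move 757 n24 (.cons 716 n385 .nil)
noncomputable def n387 : Strat := .move 800 n165 (.cons 757 n380 (.cons 759 n386 .nil))
noncomputable def n388 : Strat := .move 797 n367 (.cons 760 n194 .nil)
noncomputable def n389 : Strat := .move 760 n344 (.cons 761 n345 .nil)
noncomputable def n390 : Strat := .win 839 7 715
noncomputable def n391 : Strat := .win 714 2 714
noncomputable def n392 : Strat := .move 715 n390 (.cons 839 n391 .nil)
noncomputable def n393 : Strat := .move 798 n388 (.cons 796 n389 (.cons 760 n392 .nil))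
noncomputable def n394 : Strat := .move 756 n357 (.cons 755 n393 .nil)
noncomputable def n395 : Strat := .move 880 n123 (.cons 921 n394 .nil)
noncomputable def n396 : Strat := .move 759 n19 (.cons 718 n395 .nil)
noncomputable def n397 : Strat := .move 757 n24 (.cons 716 n396 .nil)
noncomputable def n398 : Strat := .move 758 n387 (.cons 716 n129 (.cons 717 n397 (.cons 839 n362 (.cons 759 n205 .nil))))
noncomputable def n399 : Strat := .win 758 1 757
noncomputable def n400 : Strat := .win 878 0 878
noncomputable def n401 : Strat := .win 924 2 879
noncomputable def n402 : Strat := .move 879 n400 (.cons 878 n401 .nil)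
noncomputable def n403 : Strat := .move 923 n7 (.cons 964 n402 .nil)
noncomputable def n404 : Strat := .move 880 n399 (.cons 758 n403 .nil)
noncomputable def n405 : Strat := .move 921 n9 (.cons 962 n404 .nil)
noncomputable def n406 : Strat := .move 922 n50 (.cons 921 n92 (.cons 800 n405 .nil))
noncomputable def n407 : Strat := .move 922 n95 (.cons 921 n58 (.cons 798 n405 .nil))
noncomputable def n408 : Strat := .move 799 n340 (.cons 880 n325 (.cons 839 n363 (.cons 798 n365 (.cons 800 n373 (.cons 921 n374 (.cons 922 n398 (.cons 757 n406 (.cons 759 n407 .nil))))))))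
noncomputable def n409 : Strat := .win 717 6 717
noncomputable def n410 : Strat := .win 879 5 838
noncomputable def n411 : Strat := .move 842 n107 (.cons 843 n410 .nil)
noncomputable def n412 : Strat := .move 841 n409 (.cons 717 n411 .nil)
noncomputable def n413 : Strat := .move 882 n168 (.cons 923 n412 .nil)
noncomputable def n414 : Strat := .move 880 n123 (.cons 921 n413 .nil)
noncomputable def n415 : Strat := .move 758 n414 (.cons 717 n209 (.cons 880 n231 .nil))
noncomputable def n416 : Strat := .move 801 n35 (.cons 838 n34 .nil)
noncomputable def n417 : Strat := .move 839 n416 (.cons 802 n33 (.cons 838 n39 .nil))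
noncomputable def n418 : Strat := .move 797 n30 (.cons 796 n417 .nil)
noncomputable def n419 : Strat := .move 921 n9 (.cons 962 n418 .nil)
noncomputable def n420 : Strat := .move 798 n0 (.cons 757 n419 .nil)
noncomputable def n421 : Strat := .move 800 n2 (.cons 759 n420 .nil)
noncomputable def n422 : Strat := .move 922 n50 (.cons 962 n255 (.cons 963 n421 (.cons 759 n58 .nil)))
noncomputable def n423 : Strat := .win 1045 3 881
noncomputable def n424 : Strat := .win 841 3 840
noncomputable def n425 : Strat := .move 1004 n423 (.cons 1045 n424 .nil)
noncomputable def n426 : Strat := .move 963 n1 (.cons 839 n425 .nil)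
noncomputable def n427 : Strat := .move 798 n0 (.cons 757 n426 .nil)
noncomputable def n428 : Strat := .move 882 n326 (.cons 758 n427 .nil)
noncomputable def n429 : Strat := .move 923 n7 (.cons 964 n428 .nil)
noncomputable def n430 : Strat := .win 841 3 759
noncomputable def n431 : Strat := .move 760 n261 (.cons 761 n430 .nil)
noncomputable def n432 : Strat := .move 801 n256 (.cons 802 n431 .nil)
noncomputable def n433 : Strat := .move 798 n0 (.cons 757 n432 .nil)
noncomputable def n434 : Strat := .move 800 n2 (.cons 759 n433 .nil)
noncomputable def n435 : Strat := .move 882 n326 (.cons 758 n434 .nil)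
noncomputable def n436 : Strat := .move 923 n7 (.cons 964 n435 .nil)
noncomputable def n437 : Strat := .move 800 n2 (.cons 759 n36 .nil)
noncomputable def n438 : Strat := .move 839 n134 (.cons 963 n437 .nil)
noncomputable def n439 : Strat := .move 798 n0 (.cons 757 n438 .nil)
noncomputable def n440 : Strat := .move 923 n7 (.cons 964 n439 .nil)
noncomputable def n441 : Strat := .move 922 n90 (.cons 800 n429 (.cons 963 n436 (.cons 757 n92 (.cons 841 n440 .nil))))
noncomputable def n442 : Strat := .move 717 n124 (.cons 839 n293 .nil)
noncomputable def n443 : Strat := .move 882 n168 (.cons 923 n442 .nil)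
noncomputable def n444 : Strat := .move 880 n123 (.cons 921 n443 .nil)
noncomputable def n445 : Strat := .win 884 2 839
noncomputable def n446 : Strat := .win 838 2 838
noncomputable def n447 : Strat := .move 839 n445 (.cons 884 n446 .nil)
noncomputable def n448 : Strat := .win 839 2 839
noncomputable def n449 : Strat := .win 926 0 881
noncomputable def n450 : Strat := .win 924 0 880
noncomputable def n451 : Strat := .move 925 n449 (.cons 926 n450 .nil)
noncomputable def n452 : Strat := .move 884 n448 (.cons 839 n451 .nil)
noncomputable def n453 : Strat := .win 842 5 838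
noncomputable def n454 : Strat := .win 878 5 837
noncomputable def n455 : Strat := .move 879 n453 (.cons 842 n454 .nil)
noncomputable def n456 : Strat := .move 842 n410 (.cons 879 n107 .nil)
noncomputable def n457 : Strat := .win 800 6 759
noncomputable def n458 : Strat := .win 925 0 880
noncomputable def n459 : Strat := .move 924 n457 (.cons 800 n458 .nil)
noncomputable def n460 : Strat := .move 841 n455 (.cons 878 n456 (.cons 842 n459 .nil))
noncomputable def n461 : Strat := .move 883 n447 (.cons 838 n452 (.cons 884 n460 .nil))
noncomputable def n462 : Strat := .move 759 n19 (.cons 718 n461 .nil)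
noncomputable def n463 : Strat := .move 882 n168 (.cons 923 n462 .nil)
noncomputable def n464 : Strat := .move 880 n123 (.cons 921 n463 .nil)
noncomputable def n465 : Strat := .move 880 n123 (.cons 921 n411 .nil)
noncomputable def n466 : Strat := .move 841 n409 (.cons 717 n465 .nil)
noncomputable def n467 : Strat := .move 882 n168 (.cons 923 n466 .nil)
noncomputable def n468 : Strat := .move 758 n444 (.cons 717 n464 (.cons 839 n467 (.cons 882 n129 (.cons 921 n295 .nil))))
noncomputable def n469 : Strat := .move 880 n399 (.cons 758 n402 .nil)
noncomputable def n470 : Strat := .move 923 n7 (.cons 964 n469 .nil)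
noncomputable def n471 : Strat := .move 921 n9 (.cons 962 n470 .nil)
noncomputable def n472 : Strat := .win 963 6 798
noncomputable def n473 : Strat := .win 756 7 756
noncomputable def n474 : Strat := .win 795 0 795
noncomputable def n475 : Strat := .move 796 n474 (.cons 795 n309 .nil)
noncomputable def n476 : Strat := .move 797 n473 (.cons 756 n475 .nil)
noncomputable def n477 : Strat := .move 839 n472 (.cons 963 n476 .nil)
noncomputable def n478 : Strat := .move 798 n0 (.cons 757 n477 .nil)
noncomputable def n479 : Strat := .move 880 n399 (.cons 758 n478 .nil)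
noncomputable def n480 : Strat := .move 921 n9 (.cons 962 n479 .nil)
noncomputable def n481 : Strat := .move 922 n471 (.cons 758 n58 (.cons 923 n480 .nil))
noncomputable def n482 : Strat := .win 839 7 756
noncomputable def n483 : Strat := .move 756 n38 (.cons 755 n482 .nil)
noncomputable def n484 : Strat := .move 797 n30 (.cons 796 n483 .nil)
noncomputable def n485 : Strat := .move 800 n2 (.cons 759 n484 .nil)
noncomputable def n486 : Strat := .move 798 n0 (.cons 757 n485 .nil)
noncomputable def n487 : Strat := .move 880 n399 (.cons 758 n486 .nil)
noncomputable def n488 : Strat := .move 921 n9 (.cons 962 n487 .nil)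
noncomputable def n489 : Strat := .move 839 n472 (.cons 963 n437 .nil)
noncomputable def n490 : Strat := .move 798 n0 (.cons 757 n489 .nil)
noncomputable def n491 : Strat := .move 880 n399 (.cons 758 n490 .nil)
noncomputable def n492 : Strat := .move 921 n9 (.cons 962 n491 .nil)
noncomputable def n493 : Strat := .move 922 n90 (.cons 759 n480 (.cons 963 n488 (.cons 839 n50 (.cons 841 n492 .nil))))
noncomputable def n494 : Strat := .move 922 n471 (.cons 921 n440 (.cons 923 n492 .nil))
noncomputable def n495 : Strat := .move 799 n415 (.cons 758 n422 (.cons 921 n441 (.cons 922 n468 (.cons 759 n481 (.cons 923 n493 (.cons 841 n494 .nil))))))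
noncomputable def n496 : Strat := .move 922 n13 (.cons 923 n50 (.cons 962 n52 .nil))
noncomputable def n497 : Strat := .move 758 n10 (.cons 880 n215 .nil)
noncomputable def n498 : Strat := .move 921 n9 (.cons 962 n497 .nil)
noncomputable def n499 : Strat := .move 1003 n84 (.cons 1044 n83 .nil)
noncomputable def n500 : Strat := .move 1005 n73 (.cons 1046 n72 .nil)
noncomputable def n501 : Strat := .move 1004 n499 (.cons 962 n500 .nil)
noncomputable def n502 : Strat := .move 758 n24 (.cons 716 n501 .nil)
noncomputable def n503 : Strat := .move 757 n23 (.cons 798 n502 .nil)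
noncomputable def n504 : Strat := .move 963 n3 (.cons 841 n503 .nil)
noncomputable def n505 : Strat := .move 800 n2 (.cons 759 n504 .nil)
noncomputable def n506 : Strat := .win 843 2 798
noncomputable def n507 : Strat := .move 842 n258 (.cons 797 n506 .nil)
noncomputable def n508 : Strat := .move 798 n0 (.cons 757 n507 .nil)
noncomputable def n509 : Strat := .move 841 n269 (.cons 963 n508 .nil)
noncomputable def n510 : Strat := .move 800 n2 (.cons 759 n509 .nil)
noncomputable def n511 : Strat := .move 922 n50 (.cons 800 n498 (.cons 921 n505 (.cons 962 n510 .nil)))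
noncomputable def n512 : Strat := .move 800 n296 (.cons 922 n297 .nil)
noncomputable def n513 : Strat := .move 757 n24 (.cons 716 n512 .nil)
noncomputable def n514 : Strat := .move 759 n19 (.cons 718 n513 .nil)
noncomputable def n515 : Strat := .win 719 3 718
noncomputable def n516 : Strat := .win 762 4 758
noncomputable def n517 : Strat := .move 761 n516 (.cons 762 n347 .nil)
noncomputable def n518 : Strat := .move 760 n515 (.cons 719 n517 .nil)
noncomputable def n519 : Strat := .move 841 n409 (.cons 717 n518 .nil)
noncomputable def n520 : Strat := .move 882 n168 (.cons 923 n519 .nil)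
noncomputable def n521 : Strat := .move 800 n296 (.cons 922 n520 .nil)
noncomputable def n522 : Strat := .move 759 n19 (.cons 718 n521 .nil)
noncomputable def n523 : Strat := .move 758 n514 (.cons 759 n302 (.cons 716 n522 .nil))
noncomputable def n524 : Strat := .move 758 n221 (.cons 882 n132 (.cons 757 n295 .nil))
noncomputable def n525 : Strat := .move 758 n295 (.cons 882 n362 (.cons 759 n302 .nil))
noncomputable def n526 : Strat := .move 758 n302 (.cons 716 n467 (.cons 882 n132 .nil))
noncomputable def n527 : Strat := .move 842 n506 (.cons 843 n258 .nil)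
noncomputable def n528 : Strat := .move 841 n269 (.cons 963 n527 .nil)
noncomputable def n529 : Strat := .move 800 n2 (.cons 759 n528 .nil)
noncomputable def n530 : Strat := .move 798 n0 (.cons 757 n529 .nil)
noncomputable def n531 : Strat := .move 882 n141 (.cons 883 n140 .nil)
noncomputable def n532 : Strat := .win 879 2 879
noncomputable def n533 : Strat := .win 925 2 880
noncomputable def n534 : Strat := .move 880 n532 (.cons 879 n533 .nil)
noncomputable def n535 : Strat := .move 883 n151 (.cons 884 n150 .nil)
noncomputable def n536 : Strat := .move 924 n534 (.cons 925 n154 (.cons 879 n535 .nil))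
noncomputable def n537 : Strat := .win 882 5 878
noncomputable def n538 : Strat := .move 878 n144 (.cons 877 n143 .nil)
noncomputable def n539 : Strat := .move 919 n537 (.cons 882 n538 .nil)
noncomputable def n540 : Strat := .move 919 n538 (.cons 879 n147 .nil)
noncomputable def n541 : Strat := .move 920 n531 (.cons 919 n536 (.cons 883 n539 (.cons 882 n540 .nil)))
noncomputable def n542 : Strat := .move 921 n9 (.cons 962 n541 .nil)
noncomputable def n543 : Strat := .move 923 n7 (.cons 964 n542 .nil)
noncomputable def n544 : Strat := .move 798 n0 (.cons 757 n543 .nil)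
noncomputable def n545 : Strat := .move 922 n530 (.cons 800 n544 (.cons 757 n50 .nil))
noncomputable def n546 : Strat := .move 799 n496 (.cons 923 n511 (.cons 841 n210 (.cons 962 n523 (.cons 800 n524 (.cons 922 n525 (.cons 759 n526 (.cons 758 n545 .nil)))))))
noncomputable def n547 : Strat := .move 798 n366 (.cons 922 n369 .nil)
noncomputable def n548 : Strat := .move 759 n19 (.cons 718 n547 .nil)
noncomputable def n549 : Strat := .move 757 n24 (.cons 716 n548 .nil)
noncomputable def n550 : Strat := .move 880 n123 (.cons 921 n124 .nil)
noncomputable def n551 : Strat := .move 882 n293 (.cons 841 n550 .nil)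
noncomputable def n552 : Strat := .move 717 n551 (.cons 882 n127 .nil)
noncomputable def n553 : Strat := .move 758 n549 (.cons 759 n205 (.cons 757 n552 .nil))
noncomputable def n554 : Strat := .move 922 n6 (.cons 800 n95 (.cons 963 n44 (.cons 839 n50 .nil)))
noncomputable def n555 : Strat := .move 758 n129 (.cons 718 n205 (.cons 880 n300 .nil))
noncomputable def n556 : Strat := .move 1004 n65 (.cons 880 n499 .nil)
noncomputable def n557 : Strat := .move 839 n64 (.cons 798 n556 .nil)
noncomputable def n558 : Strat := .move 963 n3 (.cons 841 n557 .nil)
noncomputable def n559 : Strat := .move 800 n2 (.cons 759 n558 .nil)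
noncomputable def n560 : Strat := .win 798 2 798
noncomputable def n561 : Strat := .win 844 2 799
noncomputable def n562 : Strat := .move 843 n560 (.cons 798 n561 .nil)
noncomputable def n563 : Strat := .move 798 n258 (.cons 797 n506 .nil)
noncomputable def n564 : Strat := .win 801 5 797
noncomputable def n565 : Strat := .move 838 n564 (.cons 801 n135 .nil)
noncomputable def n566 : Strat := .win 838 5 797
noncomputable def n567 : Strat := .move 801 n566 (.cons 838 n34 .nil)
noncomputable def n568 : Strat := .win 798 0 797
noncomputable def n569 : Strat := .move 838 n111 (.cons 796 n135 .nil)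
noncomputable def n570 : Strat := .move 797 n568 (.cons 798 n569 .nil)
noncomputable def n571 : Strat := .move 758 n166 (.cons 717 n123 .nil)
noncomputable def n572 : Strat := .move 880 n108 (.cons 879 n571 .nil)
noncomputable def n573 : Strat := .move 839 n565 (.cons 837 n567 (.cons 801 n570 (.cons 838 n572 .nil)))
noncomputable def n574 : Strat := .win 880 4 839
noncomputable def n575 : Strat := .move 843 n561 (.cons 844 n574 .nil)
noncomputable def n576 : Strat := .move 842 n562 (.cons 844 n563 (.cons 843 n573 (.cons 798 n575 .nil)))
noncomputable def n577 : Strat := .move 841 n269 (.cons 963 n576 .nil)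
noncomputable def n578 : Strat := .move 800 n2 (.cons 759 n577 .nil)
noncomputable def n579 : Strat := .move 758 n10 (.cons 880 n120 .nil)
noncomputable def n580 : Strat := .move 921 n9 (.cons 962 n579 .nil)
noncomputable def n581 : Strat := .win 798 6 798
noncomputable def n582 : Strat := .win 1004 7 839
noncomputable def n583 : Strat := .move 839 n581 (.cons 798 n582 .nil)
noncomputable def n584 : Strat := .win 1045 7 880
noncomputable def n585 : Strat := .win 839 7 839
noncomputable def n586 : Strat := .move 1004 n584 (.cons 1045 n585 .nil)
noncomputable def n587 : Strat := .move 800 n3 (.cons 841 n586 .nil)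
noncomputable def n588 : Strat := .move 1004 n63 (.cons 882 n584 .nil)
noncomputable def n589 : Strat := .move 841 n62 (.cons 800 n588 .nil)
noncomputable def n590 : Strat := .move 842 n108 (.cons 879 n107 .nil)
noncomputable def n591 : Strat := .move 841 n62 (.cons 800 n590 .nil)
noncomputable def n592 : Strat := .move 839 n581 (.cons 798 n591 .nil)
noncomputable def n593 : Strat := .move 963 n583 (.cons 798 n587 (.cons 839 n589 (.cons 1004 n592 .nil)))
noncomputable def n594 : Strat := .move 880 n399 (.cons 758 n593 .nil)
noncomputable def n595 : Strat := .move 921 n9 (.cons 962 n594 .nil)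
noncomputable def n596 : Strat := .move 1004 n65 (.cons 880 n500 .nil)
noncomputable def n597 : Strat := .move 839 n64 (.cons 798 n596 .nil)
noncomputable def n598 : Strat := .move 963 n47 (.cons 1003 n597 .nil)
noncomputable def n599 : Strat := .move 962 n46 (.cons 921 n598 .nil)
noncomputable def n600 : Strat := .move 922 n50 (.cons 921 n559 (.cons 962 n578 (.cons 963 n580 (.cons 759 n595 (.cons 800 n599 .nil)))))
noncomputable def n601 : Strat := .move 1004 n63 (.cons 882 n499 .nil)
noncomputable def n602 : Strat := .move 841 n62 (.cons 800 n601 .nil)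
noncomputable def n603 : Strat := .move 963 n1 (.cons 839 n602 .nil)
noncomputable def n604 : Strat := .move 798 n0 (.cons 757 n603 .nil)
noncomputable def n605 : Strat := .win 920 4 879
noncomputable def n606 : Strat := .move 883 n246 (.cons 884 n605 .nil)
noncomputable def n607 : Strat := .win 883 4 879
noncomputable def n608 : Strat := .move 920 n140 (.cons 919 n607 .nil)
noncomputable def n609 : Strat := .win 920 5 878
noncomputable def n610 : Strat := .win 1004 3 840
noncomputable def n611 : Strat := .move 963 n610 (.cons 1004 n62 .nil)
noncomputable def n612 : Strat := .move 841 n611 (.cons 800 n455 .nil)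
noncomputable def n613 : Strat := .move 919 n609 (.cons 920 n612 .nil)
noncomputable def n614 : Strat := .move 883 n246 (.cons 884 n612 .nil)
noncomputable def n615 : Strat := .move 882 n606 (.cons 884 n608 (.cons 883 n613 (.cons 920 n614 .nil)))
noncomputable def n616 : Strat := .move 880 n399 (.cons 758 n615 .nil)
noncomputable def n617 : Strat := .move 921 n9 (.cons 962 n616 .nil)
noncomputable def n618 : Strat := .move 1004 n63 (.cons 882 n500 .nil)
noncomputable def n619 : Strat := .move 841 n62 (.cons 800 n618 .nil)
noncomputable def n620 : Strat := .move 963 n1 (.cons 839 n619 .nil)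
noncomputable def n621 : Strat := .move 798 n0 (.cons 757 n620 .nil)
noncomputable def n622 : Strat := .move 922 n95 (.cons 921 n604 (.cons 839 n498 (.cons 798 n617 (.cons 962 n621 .nil))))
noncomputable def n623 : Strat := .move 800 n296 (.cons 922 n163 .nil)
noncomputable def n624 : Strat := .move 759 n19 (.cons 718 n623 .nil)
noncomputable def n625 : Strat := .move 757 n24 (.cons 716 n624 .nil)
noncomputable def n626 : Strat := .win 882 6 717
noncomputable def n627 : Strat := .win 676 6 676
noncomputable def n628 : Strat := .move 841 n626 (.cons 882 n627 .nil)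
noncomputable def n629 : Strat := .move 676 n376 (.cons 841 n375 .nil)
noncomputable def n630 : Strat := .move 880 n124 (.cons 839 n629 .nil)
noncomputable def n631 : Strat := .win 880 1 716
noncomputable def n632 : Strat := .win 798 1 675
noncomputable def n633 : Strat := .move 676 n632 (.cons 798 n375 .nil)
noncomputable def n634 : Strat := .move 839 n631 (.cons 880 n633 .nil)
noncomputable def n635 : Strat := .move 839 n631 (.cons 880 n565 .nil)
noncomputable def n636 : Strat := .move 841 n626 (.cons 882 n635 .nil)
noncomputable def n637 : Strat := .move 717 n628 (.cons 882 n630 (.cons 841 n634 (.cons 676 n636 .nil)))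
noncomputable def n638 : Strat := .move 800 n296 (.cons 922 n637 .nil)
noncomputable def n639 : Strat := .move 759 n19 (.cons 718 n638 .nil)
noncomputable def n640 : Strat := .win 676 1 675
noncomputable def n641 : Strat := .move 839 n631 (.cons 880 n640 .nil)
noncomputable def n642 : Strat := .win 839 1 675
noncomputable def n643 : Strat := .win 635 1 634
noncomputable def n644 : Strat := .move 676 n642 (.cons 839 n643 .nil)
noncomputable def n645 : Strat := .move 882 n293 (.cons 841 n644 .nil)
noncomputable def n646 : Strat := .win 800 6 676
noncomputable def n647 : Strat := .move 676 n646 (.cons 800 n643 .nil)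
noncomputable def n648 : Strat := .move 841 n626 (.cons 882 n647 .nil)
noncomputable def n649 : Strat := .win 797 2 797
noncomputable def n650 : Strat := .move 842 n649 (.cons 797 n506 .nil)
noncomputable def n651 : Strat := .move 841 n626 (.cons 882 n650 .nil)
noncomputable def n652 : Strat := .move 839 n631 (.cons 880 n651 .nil)
noncomputable def n653 : Strat := .move 717 n641 (.cons 880 n645 (.cons 839 n648 (.cons 676 n652 .nil)))
noncomputable def n654 : Strat := .move 798 n366 (.cons 922 n653 .nil)
noncomputable def n655 : Strat := .move 757 n24 (.cons 716 n654 .nil)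
noncomputable def n656 : Strat := .move 759 n19 (.cons 718 n394 .nil)
noncomputable def n657 : Strat := .move 757 n24 (.cons 716 n656 .nil)
noncomputable def n658 : Strat := .move 801 n192 (.cons 802 n191 .nil)
noncomputable def n659 : Strat := .move 798 n345 (.cons 797 n344 .nil)
noncomputable def n660 : Strat := .move 760 n658 (.cons 800 n659 .nil)
noncomputable def n661 : Strat := .move 796 n188 (.cons 795 n187 .nil)
noncomputable def n662 : Strat := .move 755 n185 (.cons 715 n661 .nil)
noncomputable def n663 : Strat := .move 756 n357 (.cons 755 n660 (.cons 801 n186 (.cons 800 n662 .nil)))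
noncomputable def n664 : Strat := .move 757 n24 (.cons 716 n663 .nil)
noncomputable def n665 : Strat := .move 759 n19 (.cons 718 n664 .nil)
noncomputable def n666 : Strat := .move 880 n128 (.cons 717 n657 (.cons 718 n204 (.cons 839 n665 .nil)))
noncomputable def n667 : Strat := .move 758 n549 (.cons 796 n625 (.cons 757 n639 (.cons 759 n655 (.cons 922 n666 .nil))))
noncomputable def n668 : Strat := .move 880 n123 (.cons 921 n665 .nil)
noncomputable def n669 : Strat := .win 755 5 714
noncomputable def n670 : Strat := .move 798 n642 (.cons 839 n643 .nil)
noncomputable def n671 : Strat := .move 841 n646 (.cons 800 n626 .nil)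
noncomputable def n672 : Strat := .move 676 n670 (.cons 635 n671 .nil)
noncomputable def n673 : Strat := .move 756 n669 (.cons 755 n672 .nil)
noncomputable def n674 : Strat := .move 717 n126 (.cons 677 n673 .nil)
noncomputable def n675 : Strat := .move 718 n125 (.cons 759 n674 .nil)
noncomputable def n676 : Strat := .move 757 n24 (.cons 716 n675 .nil)
noncomputable def n677 : Strat := .move 758 n129 (.cons 718 n205 (.cons 717 n397 (.cons 921 n666 (.cons 839 n668 (.cons 880 n676 .nil)))))
noncomputable def n678 : Strat := .move 799 n553 (.cons 758 n554 (.cons 798 n555 (.cons 839 n511 (.cons 880 n292 (.cons 757 n600 (.cons 759 n622 (.cons 921 n667 (.cons 922 n677 .nil))))))))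
noncomputable def n679 : Strat := .move 758 n8 (.cons 882 n10 .nil)
noncomputable def n680 : Strat := .move 923 n7 (.cons 964 n679 .nil)
noncomputable def n681 : Strat := .move 921 n9 (.cons 962 n680 .nil)
noncomputable def n682 : Strat := .move 798 n0 (.cons 757 n681 .nil)
noncomputable def n683 : Strat := .move 800 n2 (.cons 759 n682 .nil)
noncomputable def n684 : Strat := .move 922 n58 (.cons 963 n683 (.cons 923 n6 (.cons 798 n334 .nil)))
noncomputable def n685 : Strat := .win 920 1 756
noncomputable def n686 : Strat := .move 841 n104 (.cons 842 n454 .nil)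
noncomputable def n687 : Strat := .move 879 n685 (.cons 920 n686 .nil)
noncomputable def n688 : Strat := .move 839 n166 (.cons 717 n687 .nil)
noncomputable def n689 : Strat := .move 798 n366 (.cons 922 n688 .nil)
noncomputable def n690 : Strat := .move 757 n24 (.cons 716 n689 .nil)
noncomputable def n691 : Strat := .move 880 n123 (.cons 921 n690 .nil)
noncomputable def n692 : Strat := .move 758 n444 (.cons 882 n691 (.cons 921 n302 (.cons 717 n132 .nil)))
noncomputable def n693 : Strat := .move 882 n168 (.cons 923 n293 .nil)
noncomputable def n694 : Strat := .move 717 n550 (.cons 921 n693 .nil)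
noncomputable def n695 : Strat := .move 841 n453 (.cons 842 n454 .nil)
noncomputable def n696 : Strat := .move 838 n167 (.cons 883 n102 .nil)
noncomputable def n697 : Strat := .move 883 n445 (.cons 884 n446 .nil)
noncomputable def n698 : Strat := .win 798 1 756
noncomputable def n699 : Strat := .win 919 4 878
noncomputable def n700 : Strat := .move 920 n698 (.cons 798 n699 .nil)
noncomputable def n701 : Strat := .move 839 n696 (.cons 837 n697 (.cons 883 n700 .nil))
noncomputable def n702 : Strat := .move 879 n695 (.cons 878 n701 .nil)
noncomputable def n703 : Strat := .move 757 n24 (.cons 716 n702 .nil)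
noncomputable def n704 : Strat := .move 882 n168 (.cons 923 n703 .nil)
noncomputable def n705 : Strat := .move 880 n123 (.cons 921 n704 .nil)
noncomputable def n706 : Strat := .move 758 n694 (.cons 923 n205 (.cons 717 n705 (.cons 880 n302 .nil)))
noncomputable def n707 : Strat := .move 922 n58 (.cons 964 n307 (.cons 963 n44 (.cons 757 n50 .nil)))
noncomputable def n708 : Strat := .move 963 n3 (.cons 841 n586 .nil)
noncomputable def n709 : Strat := .move 800 n2 (.cons 759 n708 .nil)
noncomputable def n710 : Strat := .move 880 n399 (.cons 758 n709 .nil)
noncomputable def n711 : Strat := .move 921 n9 (.cons 962 n710 .nil)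
noncomputable def n712 : Strat := .move 921 n9 (.cons 962 n271 .nil)
noncomputable def n713 : Strat := .move 922 n6 (.cons 798 n711 (.cons 963 n488 (.cons 759 n95 (.cons 839 n712 .nil))))
noncomputable def n714 : Strat := .win 760 3 759
noncomputable def n715 : Strat := .win 803 4 799
noncomputable def n716 : Strat := .move 802 n715 (.cons 803 n276 .nil)
noncomputable def n717 : Strat := .move 801 n714 (.cons 760 n716 .nil)
noncomputable def n718 : Strat := .move 841 n240 (.cons 963 n717 .nil)
noncomputable def n719 : Strat := .move 800 n2 (.cons 759 n718 .nil)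
noncomputable def n720 : Strat := .move 882 n326 (.cons 758 n719 .nil)
noncomputable def n721 : Strat := .move 923 n7 (.cons 964 n720 .nil)
noncomputable def n722 : Strat := .move 882 n326 (.cons 758 n244 .nil)
noncomputable def n723 : Strat := .move 923 n7 (.cons 964 n722 .nil)
noncomputable def n724 : Strat := .move 922 n6 (.cons 841 n58 (.cons 798 n721 (.cons 963 n436 (.cons 839 n723 .nil))))
noncomputable def n725 : Strat := .move 882 n326 (.cons 758 n248 .nil)
noncomputable def n726 : Strat := .move 923 n7 (.cons 964 n725 .nil)
noncomputable def n727 : Strat := .move 921 n9 (.cons 962 n726 .nil)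
noncomputable def n728 : Strat := .move 922 n727 (.cons 758 n50 (.cons 921 n721 .nil))
noncomputable def n729 : Strat := .move 922 n471 (.cons 921 n58 (.cons 964 n492 .nil))
noncomputable def n730 : Strat := .move 921 n9 (.cons 962 n725 .nil)
noncomputable def n731 : Strat := .move 923 n7 (.cons 964 n730 .nil)
noncomputable def n732 : Strat := .move 922 n731 (.cons 923 n712 (.cons 921 n723 .nil))
noncomputable def n733 : Strat := .move 799 n684 (.cons 800 n692 (.cons 922 n706 (.cons 758 n707 (.cons 923 n713 (.cons 921 n724 (.cons 757 n728 (.cons 841 n729 (.cons 839 n732 .nil))))))))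
noncomputable def n734 : Strat := .move 759 n19 (.cons 718 n341 .nil)
noncomputable def n735 : Strat := .move 757 n24 (.cons 716 n734 .nil)
noncomputable def n736 : Strat := .move 717 n124 (.cons 839 n693 .nil)
noncomputable def n737 : Strat := .move 880 n123 (.cons 921 n736 .nil)
noncomputable def n738 : Strat := .move 758 n735 (.cons 800 n737 .nil)
noncomputable def n739 : Strat := .win 960 4 919
noncomputable def n740 : Strat := .win 880 1 797
noncomputable def n741 : Strat := .move 961 n739 (.cons 960 n740 .nil)
noncomputable def n742 : Strat := .move 920 n741 (.cons 880 n531 .nil)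
noncomputable def n743 : Strat := .move 923 n7 (.cons 964 n742 .nil)
noncomputable def n744 : Strat := .move 921 n9 (.cons 962 n743 .nil)
noncomputable def n745 : Strat := .move 839 n134 (.cons 963 n744 .nil)
noncomputable def n746 : Strat := .move 798 n0 (.cons 757 n745 .nil)
noncomputable def n747 : Strat := .win 966 0 921
noncomputable def n748 : Strat := .win 882 6 800
noncomputable def n749 : Strat := .move 965 n747 (.cons 966 n748 .nil)
noncomputable def n750 : Strat := .move 924 n749 (.cons 882 n534 .nil)
noncomputable def n751 : Strat := .move 921 n9 (.cons 962 n750 .nil)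
noncomputable def n752 : Strat := .move 923 n7 (.cons 964 n751 .nil)
noncomputable def n753 : Strat := .move 841 n269 (.cons 963 n752 .nil)
noncomputable def n754 : Strat := .move 800 n2 (.cons 759 n753 .nil)
noncomputable def n755 : Strat := .move 842 n258 (.cons 797 n257 .nil)
noncomputable def n756 : Strat := .move 841 n241 (.cons 796 n755 (.cons 842 n262 .nil))
noncomputable def n757 : Strat := .move 801 n275 (.cons 838 n280 (.cons 802 n756 .nil))
noncomputable def n758 : Strat := .move 923 n7 (.cons 964 n757 .nil)
noncomputable def n759 : Strat := .move 800 n2 (.cons 759 n758 .nil)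
noncomputable def n760 : Strat := .move 798 n0 (.cons 757 n759 .nil)
noncomputable def n761 : Strat := .move 922 n307 (.cons 800 n746 (.cons 839 n510 (.cons 798 n754 (.cons 963 n760 .nil))))
noncomputable def n762 : Strat := .move 882 n168 (.cons 923 n696 .nil)
noncomputable def n763 : Strat := .move 839 n166 (.cons 717 n762 .nil)
noncomputable def n764 : Strat := .move 880 n123 (.cons 921 n763 .nil)
noncomputable def n765 : Strat := .move 759 n19 (.cons 718 n764 .nil)
noncomputable def n766 : Strat := .move 757 n24 (.cons 716 n765 .nil)
noncomputable def n767 : Strat := .move 756 n180 (.cons 801 n174 .nil)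
noncomputable def n768 : Strat := .move 801 n162 (.cons 756 n192 .nil)
noncomputable def n769 : Strat := .win 841 3 718
noncomputable def n770 : Strat := .win 720 5 716
noncomputable def n771 : Strat := .move 719 n769 (.cons 841 n770 .nil)
noncomputable def n772 : Strat := .move 800 n767 (.cons 755 n768 (.cons 801 n771 .nil))
noncomputable def n773 : Strat := .move 760 n346 (.cons 797 n351 (.cons 761 n772 .nil))
noncomputable def n774 : Strat := .move 882 n168 (.cons 923 n773 .nil)
noncomputable def n775 : Strat := .move 759 n19 (.cons 718 n774 .nil)
noncomputable def n776 : Strat := .move 757 n24 (.cons 716 n775 .nil)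
noncomputable def n777 : Strat := .move 758 n302 (.cons 841 n766 (.cons 882 n129 (.cons 717 n776 .nil)))
noncomputable def n778 : Strat := .move 839 n134 (.cons 963 n225 .nil)
noncomputable def n779 : Strat := .move 800 n2 (.cons 759 n778 .nil)
noncomputable def n780 : Strat := .move 798 n0 (.cons 757 n779 .nil)
noncomputable def n781 : Strat := .move 879 n401 (.cons 924 n400 .nil)
noncomputable def n782 : Strat := .move 923 n7 (.cons 964 n781 .nil)
noncomputable def n783 : Strat := .move 880 n399 (.cons 758 n782 .nil)
noncomputable def n784 : Strat := .move 921 n9 (.cons 962 n783 .nil)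
noncomputable def n785 : Strat := .move 800 n2 (.cons 759 n784 .nil)
noncomputable def n786 : Strat := .move 880 n399 (.cons 758 n476 .nil)
noncomputable def n787 : Strat := .move 921 n9 (.cons 962 n786 .nil)
noncomputable def n788 : Strat := .move 839 n134 (.cons 963 n787 .nil)
noncomputable def n789 : Strat := .move 798 n0 (.cons 757 n788 .nil)
noncomputable def n790 : Strat := .move 922 n780 (.cons 838 n307 (.cons 798 n785 (.cons 800 n789 .nil)))
noncomputable def n791 : Strat := .move 758 n735 (.cons 922 n766 (.cons 757 n209 (.cons 718 n221 .nil)))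
noncomputable def n792 : Strat := .move 841 n269 (.cons 963 n507 .nil)
noncomputable def n793 : Strat := .move 798 n0 (.cons 757 n792 .nil)
noncomputable def n794 : Strat := .move 800 n2 (.cons 759 n793 .nil)
noncomputable def n795 : Strat := .move 882 n326 (.cons 758 n717 .nil)
noncomputable def n796 : Strat := .move 923 n7 (.cons 964 n795 .nil)
noncomputable def n797 : Strat := .move 841 n269 (.cons 963 n796 .nil)
noncomputable def n798 : Strat := .move 800 n2 (.cons 759 n797 .nil)
noncomputable def n799 : Strat := .move 922 n794 (.cons 843 n255 (.cons 800 n217 (.cons 757 n798 .nil)))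
noncomputable def n800 : Strat := .move 717 n293 (.cons 841 n550 .nil)
noncomputable def n801 : Strat := .move 882 n168 (.cons 923 n800 .nil)
noncomputable def n802 : Strat := .move 758 n801 (.cons 841 n209 (.cons 880 n522 .nil))
noncomputable def n803 : Strat := .win 715 7 715
noncomputable def n804 : Strat := .win 754 0 754
noncomputable def n805 : Strat := .move 755 n804 (.cons 754 n182 .nil)
noncomputable def n806 : Strat := .move 756 n803 (.cons 715 n805 .nil)
noncomputable def n807 : Strat := .move 839 n166 (.cons 717 n806 .nil)
noncomputable def n808 : Strat := .move 880 n123 (.cons 921 n807 .nil)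
noncomputable def n809 : Strat := .move 798 n366 (.cons 922 n808 .nil)
noncomputable def n810 : Strat := .move 757 n24 (.cons 716 n809 .nil)
noncomputable def n811 : Strat := .move 758 n801 (.cons 882 n810 (.cons 839 n302 (.cons 717 n221 .nil)))
noncomputable def n812 : Strat := .move 717 n626 (.cons 882 n627 .nil)
noncomputable def n813 : Strat := .move 758 n10 (.cons 880 n812 .nil)
noncomputable def n814 : Strat := .move 921 n9 (.cons 962 n813 .nil)
noncomputable def n815 : Strat := .move 841 n269 (.cons 963 n814 .nil)
noncomputable def n816 : Strat := .move 800 n2 (.cons 759 n815 .nil)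
noncomputable def n817 : Strat := .move 756 n482 (.cons 839 n38 .nil)
noncomputable def n818 : Strat := .move 797 n30 (.cons 796 n817 .nil)
noncomputable def n819 : Strat := .move 880 n399 (.cons 758 n818 .nil)
noncomputable def n820 : Strat := .move 921 n9 (.cons 962 n819 .nil)
noncomputable def n821 : Strat := .move 800 n2 (.cons 759 n820 .nil)
noncomputable def n822 : Strat := .move 798 n0 (.cons 757 n821 .nil)
noncomputable def n823 : Strat := .move 922 n228 (.cons 798 n816 (.cons 800 n789 (.cons 963 n822 .nil)))
noncomputable def n824 : Strat := .move 758 n295 (.cons 882 n300 (.cons 759 n801 .nil))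
noncomputable def n825 : Strat := .move 759 n19 (.cons 718 n389 .nil)
noncomputable def n826 : Strat := .move 718 n126 (.cons 677 n125 .nil)
noncomputable def n827 : Strat := .move 717 n640 (.cons 676 n826 .nil)
noncomputable def n828 : Strat := .move 882 n293 (.cons 841 n168 .nil)
noncomputable def n829 : Strat := .move 717 n640 (.cons 676 n828 .nil)
noncomputable def n830 : Strat := .move 839 n825 (.cons 760 n827 (.cons 759 n829 .nil))
noncomputable def n831 : Strat := .move 798 n366 (.cons 922 n830 .nil)
noncomputable def n832 : Strat := .move 757 n24 (.cons 716 n831 .nil)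
noncomputable def n833 : Strat := .move 839 n166 (.cons 717 n825 .nil)
noncomputable def n834 : Strat := .move 880 n123 (.cons 921 n833 .nil)
noncomputable def n835 : Strat := .move 798 n366 (.cons 922 n834 .nil)
noncomputable def n836 : Strat := .move 757 n24 (.cons 716 n835 .nil)
noncomputable def n837 : Strat := .move 758 n737 (.cons 880 n832 (.cons 882 n836 (.cons 717 n221 .nil)))
noncomputable def n838 : Strat := .move 758 n343 (.cons 759 n302 (.cons 716 n231 .nil))
noncomputable def n839 : Strat := .move 799 n738 (.cons 758 n761 (.cons 922 n777 (.cons 882 n790 (.cons 841 n791 (.cons 880 n799 (.cons 757 n802 (.cons 759 n811 (.cons 923 n823 (.cons 798 n824 (.cons 800 n837 (.cons 839 n838 .nil)))))))))))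
noncomputable def n840 : Strat := .move 716 n201 (.cons 757 n127 .nil)
noncomputable def n841 : Strat := .move 758 n203 (.cons 675 n840 (.cons 716 n550 .nil))
noncomputable def n842 : Strat := .move 922 n58 (.cons 923 n95 (.cons 839 n543 .nil))
noncomputable def n843 : Strat := .move 758 n550 (.cons 921 n693 .nil)
noncomputable def n844 : Strat := .move 758 n203 (.cons 675 n127 .nil)
noncomputable def n845 : Strat := .move 717 n841 (.cons 758 n842 (.cons 757 n843 (.cons 880 n844 .nil)))
noncomputable def n846 : Strat := .move 841 n454 (.cons 878 n453 .nil)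
noncomputable def n847 : Strat := .win 841 5 837
noncomputable def n848 : Strat := .win 836 2 836
noncomputable def n849 : Strat := .win 838 2 837
noncomputable def n850 : Strat := .move 837 n848 (.cons 836 n849 .nil)
noncomputable def n851 : Strat := .move 878 n847 (.cons 841 n850 .nil)
noncomputable def n852 : Strat := .win 918 4 877
noncomputable def n853 : Strat := .win 920 4 878
noncomputable def n854 : Strat := .move 919 n852 (.cons 918 n853 .nil)
noncomputable def n855 : Strat := .move 878 n848 (.cons 836 n854 .nil)
noncomputable def n856 : Strat := .move 837 n849 (.cons 838 n855 .nil)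
noncomputable def n857 : Strat := .win 841 5 838
noncomputable def n858 : Strat := .win 843 5 839
noncomputable def n859 : Strat := .win 839 2 838
noncomputable def n860 : Strat := .win 837 2 837
noncomputable def n861 : Strat := .move 838 n859 (.cons 839 n860 .nil)
noncomputable def n862 : Strat := .move 883 n858 (.cons 843 n861 .nil)
noncomputable def n863 : Strat := .move 842 n857 (.cons 841 n862 .nil)
noncomputable def n864 : Strat := .move 879 n846 (.cons 842 n851 (.cons 841 n856 (.cons 878 n863 .nil)))
noncomputable def n865 : Strat := .move 882 n168 (.cons 923 n864 .nil)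
noncomputable def n866 : Strat := .move 880 n123 (.cons 921 n865 .nil)
noncomputable def n867 : Strat := .move 758 n694 (.cons 921 n295 (.cons 717 n866 (.cons 841 n129 .nil)))
noncomputable def n868 : Strat := .move 922 n471 (.cons 758 n58 (.cons 964 n480 .nil))
noncomputable def n869 : Strat := .move 924 n533 (.cons 925 n532 .nil)
noncomputable def n870 : Strat := .win 839 1 797
noncomputable def n871 : Strat := .move 961 n870 (.cons 839 n739 .nil)
noncomputable def n872 : Strat := .move 880 n781 (.cons 878 n869 (.cons 924 n871 .nil))
noncomputable def n873 : Strat := .move 920 n531 (.cons 919 n872 .nil)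
noncomputable def n874 : Strat := .move 923 n7 (.cons 964 n873 .nil)
noncomputable def n875 : Strat := .move 921 n9 (.cons 962 n874 .nil)
noncomputable def n876 : Strat := .move 798 n57 (.cons 963 n875 (.cons 923 n94 (.cons 839 n543 .nil)))
noncomputable def n877 : Strat := .move 798 n0 (.cons 757 n873 .nil)
noncomputable def n878 : Strat := .move 923 n7 (.cons 964 n877 .nil)
noncomputable def n879 : Strat := .move 921 n9 (.cons 962 n878 .nil)
noncomputable def n880 : Strat := .move 920 n142 (.cons 883 n539 (.cons 882 n149 (.cons 919 n156 .nil)))
noncomputable def n881 : Strat := .move 923 n7 (.cons 964 n880 .nil)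
noncomputable def n882 : Strat := .move 921 n9 (.cons 962 n881 .nil)
noncomputable def n883 : Strat := .move 922 n58 (.cons 923 n95 (.cons 757 n876 (.cons 963 n879 (.cons 839 n544 (.cons 798 n882 .nil)))))
noncomputable def n884 : Strat := .move 799 n845 (.cons 880 n305 (.cons 882 n373 (.cons 757 n867 (.cons 718 n692 (.cons 717 n868 (.cons 758 n883 .nil))))))
noncomputable def n885 : Strat := .win 799 1 798
noncomputable def n886 : Strat := .win 919 0 919
noncomputable def n887 : Strat := .win 965 2 920
noncomputable def n888 : Strat := .move 920 n886 (.cons 919 n887 .nil)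
noncomputable def n889 : Strat := .move 921 n885 (.cons 799 n888 .nil)
noncomputable def n890 : Strat := .move 964 n55 (.cons 1005 n889 .nil)
noncomputable def n891 : Strat := .move 962 n47 (.cons 1003 n890 .nil)
noncomputable def n892 : Strat := .move 963 n98 (.cons 882 n891 (.cons 962 n68 .nil))
noncomputable def n893 : Strat := .move 841 n62 (.cons 800 n109 .nil)
noncomputable def n894 : Strat := .move 880 n582 (.cons 1004 n893 .nil)
noncomputable def n895 : Strat := .move 839 n64 (.cons 798 n894 .nil)
noncomputable def n896 : Strat := .move 964 n55 (.cons 1005 n895 .nil)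
noncomputable def n897 : Strat := .move 962 n47 (.cons 1003 n896 .nil)
noncomputable def n898 : Strat := .win 924 5 920
noncomputable def n899 : Strat := .win 960 5 919
noncomputable def n900 : Strat := .move 923 n898 (.cons 924 n899 .nil)
noncomputable def n901 : Strat := .win 921 1 838
noncomputable def n902 : Strat := .win 1001 4 960
noncomputable def n903 : Strat := .move 1002 n901 (.cons 921 n902 .nil)
noncomputable def n904 : Strat := .move 961 n900 (.cons 960 n903 .nil)
noncomputable def n905 : Strat := .move 880 n582 (.cons 1004 n904 .nil)
noncomputable def n906 : Strat := .move 839 n64 (.cons 798 n905 .nil)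
noncomputable def n907 : Strat := .move 964 n55 (.cons 1005 n906 .nil)
noncomputable def n908 : Strat := .move 962 n47 (.cons 1003 n907 .nil)
noncomputable def n909 : Strat := .move 1004 n63 (.cons 882 n65 .nil)
noncomputable def n910 : Strat := .move 839 n64 (.cons 798 n909 .nil)
noncomputable def n911 : Strat := .move 841 n62 (.cons 800 n910 .nil)
noncomputable def n912 : Strat := .move 880 n590 (.cons 843 n106 (.cons 879 n112 .nil))
noncomputable def n913 : Strat := .move 838 n103 (.cons 837 n912 .nil)
noncomputable def n914 : Strat := .move 962 n47 (.cons 1003 n913 .nil)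
noncomputable def n915 : Strat := .move 839 n64 (.cons 798 n914 .nil)
noncomputable def n916 : Strat := .move 841 n62 (.cons 800 n915 .nil)
noncomputable def n917 : Strat := .move 963 n98 (.cons 882 n897 (.cons 841 n908 (.cons 1003 n911 (.cons 1004 n916 .nil))))
noncomputable def n918 : Strat := .win 1004 6 839
noncomputable def n919 : Strat := .win 797 7 797
noncomputable def n920 : Strat := .win 836 0 836
noncomputable def n921 : Strat := .win 882 0 837
noncomputable def n922 : Strat := .move 837 n920 (.cons 836 n921 .nil)
noncomputable def n923 : Strat := .move 838 n919 (.cons 797 n922 .nil)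
noncomputable def n924 : Strat := .move 880 n918 (.cons 1004 n923 .nil)
noncomputable def n925 : Strat := .move 839 n64 (.cons 798 n924 .nil)
noncomputable def n926 : Strat := .move 921 n885 (.cons 799 n925 .nil)
noncomputable def n927 : Strat := .move 962 n47 (.cons 1003 n926 .nil)
noncomputable def n928 : Strat := .win 880 7 797
noncomputable def n929 : Strat := .move 797 n111 (.cons 796 n928 .nil)
noncomputable def n930 : Strat := .move 838 n103 (.cons 837 n929 .nil)
noncomputable def n931 : Strat := .move 841 n62 (.cons 800 n930 .nil)
noncomputable def n932 : Strat := .move 839 n64 (.cons 798 n931 .nil)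
noncomputable def n933 : Strat := .move 921 n885 (.cons 799 n932 .nil)
noncomputable def n934 : Strat := .move 962 n47 (.cons 1003 n933 .nil)
noncomputable def n935 : Strat := .move 880 n918 (.cons 1004 n893 .nil)
noncomputable def n936 : Strat := .move 839 n64 (.cons 798 n935 .nil)
noncomputable def n937 : Strat := .move 921 n885 (.cons 799 n936 .nil)
noncomputable def n938 : Strat := .move 962 n47 (.cons 1003 n937 .nil)
noncomputable def n939 : Strat := .move 963 n68 (.cons 880 n98 (.cons 841 n927 (.cons 1004 n934 (.cons 882 n938 .nil))))
noncomputable def n940 : Strat := .win 799 6 799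
noncomputable def n941 : Strat := .move 838 n101 (.cons 883 n102 .nil)
noncomputable def n942 : Strat := .move 839 n64 (.cons 798 n941 .nil)
noncomputable def n943 : Strat := .move 923 n940 (.cons 799 n942 .nil)
noncomputable def n944 : Strat := .move 964 n55 (.cons 1005 n943 .nil)
noncomputable def n945 : Strat := .move 882 n610 (.cons 1004 n944 .nil)
noncomputable def n946 : Strat := .move 841 n62 (.cons 800 n945 .nil)
noncomputable def n947 : Strat := .move 799 n46 (.cons 921 n54 .nil)
noncomputable def n948 : Strat := .move 962 n47 (.cons 1003 n947 .nil)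
noncomputable def n949 : Strat := .move 964 n55 (.cons 1005 n948 .nil)
noncomputable def n950 : Strat := .move 963 n946 (.cons 799 n911 (.cons 1004 n949 .nil))
noncomputable def n951 : Strat := .move 880 n533 (.cons 925 n532 .nil)
noncomputable def n952 : Strat := .win 880 2 880
noncomputable def n953 : Strat := .win 967 0 922
noncomputable def n954 : Strat := .win 965 0 921
noncomputable def n955 : Strat := .move 966 n953 (.cons 967 n954 .nil)
noncomputable def n956 : Strat := .move 925 n952 (.cons 880 n955 .nil)
noncomputable def n957 : Strat := .move 883 n247 (.cons 920 n246 .nil)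
noncomputable def n958 : Strat := .win 841 6 800
noncomputable def n959 : Strat := .move 965 n958 (.cons 841 n747 .nil)
noncomputable def n960 : Strat := .move 882 n327 (.cons 919 n957 (.cons 883 n959 .nil))
noncomputable def n961 : Strat := .move 924 n951 (.cons 879 n956 (.cons 925 n960 .nil))
noncomputable def n962 : Strat := .move 800 n2 (.cons 759 n961 .nil)
noncomputable def n963 : Strat := .move 923 n7 (.cons 964 n962 .nil)
noncomputable def n964 : Strat := .move 921 n9 (.cons 962 n963 .nil)
noncomputable def n965 : Strat := .move 799 n213 (.cons 923 n580 (.cons 962 n52 (.cons 758 n964 .nil)))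
noncomputable def n966 : Strat := .win 925 4 921
noncomputable def n967 : Strat := .win 961 5 920
noncomputable def n968 : Strat := .move 924 n966 (.cons 925 n967 .nil)
noncomputable def n969 : Strat := .move 923 n940 (.cons 799 n968 .nil)
noncomputable def n970 : Strat := .move 962 n47 (.cons 1003 n969 .nil)
noncomputable def n971 : Strat := .move 964 n55 (.cons 1005 n970 .nil)
noncomputable def n972 : Strat := .move 963 n76 (.cons 964 n68 (.cons 882 n971 .nil))
noncomputable def n973 : Strat := .move 799 n50 (.cons 921 n92 (.cons 800 n405 .nil))
noncomputable def n974 : Strat := .move 799 n92 (.cons 923 n50 (.cons 800 n334 .nil))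
noncomputable def n975 : Strat := .move 963 n891 (.cons 964 n927 (.cons 799 n100 .nil))
noncomputable def n976 : Strat := .win 1086 3 922
noncomputable def n977 : Strat := .win 882 3 881
noncomputable def n978 : Strat := .move 1045 n976 (.cons 1086 n977 .nil)
noncomputable def n979 : Strat := .move 1004 n65 (.cons 880 n978 .nil)
noncomputable def n980 : Strat := .move 839 n64 (.cons 798 n979 .nil)
noncomputable def n981 : Strat := .move 923 n940 (.cons 799 n980 .nil)
noncomputable def n982 : Strat := .move 964 n55 (.cons 1005 n981 .nil)
noncomputable def n983 : Strat := .move 880 n108 (.cons 879 n107 .nil)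
noncomputable def n984 : Strat := .win 802 5 798
noncomputable def n985 : Strat := .win 882 3 800
noncomputable def n986 : Strat := .move 801 n984 (.cons 802 n985 .nil)
noncomputable def n987 : Strat := .move 842 n983 (.cons 843 n986 .nil)
noncomputable def n988 : Strat := .move 839 n64 (.cons 798 n987 .nil)
noncomputable def n989 : Strat := .move 841 n62 (.cons 800 n988 .nil)
noncomputable def n990 : Strat := .move 923 n940 (.cons 799 n989 .nil)
noncomputable def n991 : Strat := .move 964 n55 (.cons 1005 n990 .nil)
noncomputable def n992 : Strat := .move 963 n68 (.cons 882 n896 (.cons 841 n982 (.cons 1004 n991 (.cons 798 n76 .nil))))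
noncomputable def n993 : Strat := .move 922 n892 (.cons 799 n917 (.cons 964 n939 (.cons 1044 n950 (.cons 963 n965 (.cons 921 n972 (.cons 882 n973 (.cons 880 n974 (.cons 800 n975 (.cons 962 n992 .nil)))))))))
noncomputable def n994 : Strat := .move 799 n27 (.cons 758 n760 (.cons 882 n324 (.cons 798 n52 .nil)))
noncomputable def n995 : Strat := .move 799 n58 (.cons 757 n224 (.cons 964 n228 .nil))
noncomputable def n996 : Strat := .move 880 n107 (.cons 843 n108 .nil)
noncomputable def n997 : Strat := .win 885 0 840
noncomputable def n998 : Strat := .win 883 0 839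
noncomputable def n999 : Strat := .move 884 n997 (.cons 885 n998 .nil)
noncomputable def n1000 : Strat := .move 843 n574 (.cons 880 n999 .nil)
noncomputable def n1001 : Strat := .win 803 5 799
noncomputable def n1002 : Strat := .win 801 5 798
noncomputable def n1003 : Strat := .move 802 n1001 (.cons 803 n1002 .nil)
noncomputable def n1004 : Strat := .move 843 n997 (.cons 885 n1003 .nil)
noncomputable def n1005 : Strat := .move 884 n998 (.cons 883 n1004 .nil)
noncomputable def n1006 : Strat := .win 880 4 838
noncomputable def n1007 : Strat := .move 838 n105 (.cons 878 n103 .nil)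
noncomputable def n1008 : Strat := .move 879 n1006 (.cons 880 n1007 .nil)
noncomputable def n1009 : Strat := .move 842 n996 (.cons 879 n1000 (.cons 880 n1005 (.cons 843 n1008 .nil)))
noncomputable def n1010 : Strat := .move 839 n64 (.cons 798 n1009 .nil)
noncomputable def n1011 : Strat := .move 841 n62 (.cons 800 n1010 .nil)
noncomputable def n1012 : Strat := .move 963 n911 (.cons 882 n87 (.cons 839 n98 (.cons 1004 n1011 .nil)))
noncomputable def n1013 : Strat := .move 799 n52 (.cons 923 n505 (.cons 964 n510 (.cons 800 n27 .nil)))
noncomputable def n1014 : Strat := .move 962 n47 (.cons 1003 n968 .nil)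
noncomputable def n1015 : Strat := .move 923 n940 (.cons 799 n1014 .nil)
noncomputable def n1016 : Strat := .move 964 n55 (.cons 1005 n1015 .nil)
noncomputable def n1017 : Strat := .move 963 n100 (.cons 964 n87 (.cons 880 n1016 .nil))
noncomputable def n1018 : Strat := .move 963 n76 (.cons 964 n98 (.cons 882 n971 .nil))
noncomputable def n1019 : Strat := .move 922 n77 (.cons 963 n994 (.cons 757 n972 (.cons 841 n995 (.cons 964 n1012 (.cons 839 n1013 (.cons 800 n1017 (.cons 798 n1018 .nil)))))))
noncomputable def n1020 : Strat := .move 922 n780 (.cons 800 n498 (.cons 798 n580 .nil))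
noncomputable def n1021 : Strat := .win 800 3 718
noncomputable def n1022 : Strat := .move 719 n1021 (.cons 800 n770 .nil)
noncomputable def n1023 : Strat := .move 760 n659 (.cons 761 n1022 .nil)
noncomputable def n1024 : Strat := .move 841 n409 (.cons 717 n1023 .nil)
noncomputable def n1025 : Strat := .move 882 n168 (.cons 923 n1024 .nil)
noncomputable def n1026 : Strat := .move 757 n24 (.cons 716 n1025 .nil)
noncomputable def n1027 : Strat := .move 759 n19 (.cons 718 n1026 .nil)
noncomputable def n1028 : Strat := .move 758 n129 (.cons 880 n1027 (.cons 718 n444 (.cons 717 n397 .nil)))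
noncomputable def n1029 : Strat := .win 841 6 759
noncomputable def n1030 : Strat := .move 924 n458 (.cons 925 n1029 .nil)
noncomputable def n1031 : Strat := .move 839 n446 (.cons 838 n445 .nil)
noncomputable def n1032 : Strat := .move 883 n1030 (.cons 841 n1031 .nil)
noncomputable def n1033 : Strat := .move 880 n123 (.cons 921 n1032 .nil)
noncomputable def n1034 : Strat := .move 882 n168 (.cons 923 n1033 .nil)
noncomputable def n1035 : Strat := .move 800 n296 (.cons 922 n1034 .nil)
noncomputable def n1036 : Strat := .move 759 n19 (.cons 718 n1035 .nil)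
noncomputable def n1037 : Strat := .move 758 n737 (.cons 841 n129 (.cons 880 n522 (.cons 717 n1036 .nil)))
noncomputable def n1038 : Strat := .move 880 n123 (.cons 921 n455 .nil)
noncomputable def n1039 : Strat := .move 841 n409 (.cons 717 n1038 .nil)
noncomputable def n1040 : Strat := .move 882 n168 (.cons 923 n1039 .nil)
noncomputable def n1041 : Strat := .move 757 n24 (.cons 716 n1040 .nil)
noncomputable def n1042 : Strat := .move 717 n293 (.cons 841 n644 .nil)
noncomputable def n1043 : Strat := .move 882 n168 (.cons 923 n1042 .nil)
noncomputable def n1044 : Strat := .move 798 n366 (.cons 922 n1043 .nil)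
noncomputable def n1045 : Strat := .move 757 n24 (.cons 716 n1044 .nil)
noncomputable def n1046 : Strat := .win 839 1 756
noncomputable def n1047 : Strat := .move 920 n699 (.cons 919 n1046 .nil)
noncomputable def n1048 : Strat := .move 879 n1047 (.cons 839 n695 .nil)
noncomputable def n1049 : Strat := .move 882 n168 (.cons 923 n1048 .nil)
noncomputable def n1050 : Strat := .move 880 n123 (.cons 921 n1049 .nil)
noncomputable def n1051 : Strat := .move 798 n366 (.cons 922 n1050 .nil)
noncomputable def n1052 : Strat := .move 757 n24 (.cons 716 n1051 .nil)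
noncomputable def n1053 : Strat := .move 758 n737 (.cons 839 n1041 (.cons 880 n1045 (.cons 882 n810 (.cons 717 n1052 .nil))))
noncomputable def n1054 : Strat := .move 758 n625 (.cons 757 n522 (.cons 922 n302 .nil))
noncomputable def n1055 : Strat := .move 758 n129 (.cons 880 n300 (.cons 759 n737 .nil))
noncomputable def n1056 : Strat := .move 758 n205 (.cons 880 n372 (.cons 757 n737 .nil))
noncomputable def n1057 : Strat := .move 756 n38 (.cons 755 n37 .nil)
noncomputable def n1058 : Strat := .move 800 n36 (.cons 838 n1057 .nil)
noncomputable def n1059 : Strat := .move 797 n475 (.cons 841 n1058 .nil)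
noncomputable def n1060 : Strat := .move 921 n9 (.cons 962 n1059 .nil)
noncomputable def n1061 : Strat := .move 839 n134 (.cons 963 n1060 .nil)
noncomputable def n1062 : Strat := .move 798 n0 (.cons 757 n1061 .nil)
noncomputable def n1063 : Strat := .win 923 3 881
noncomputable def n1064 : Strat := .win 880 7 880
noncomputable def n1065 : Strat := .move 1045 n1063 (.cons 923 n1064 .nil)
noncomputable def n1066 : Strat := .move 1004 n424 (.cons 841 n1065 .nil)
noncomputable def n1067 : Strat := .win 880 4 879
noncomputable def n1068 : Strat := .move 920 n1067 (.cons 880 n140 .nil)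
noncomputable def n1069 : Strat := .move 883 n246 (.cons 884 n1068 .nil)
noncomputable def n1070 : Strat := .win 923 5 879
noncomputable def n1071 : Strat := .move 920 n1070 (.cons 923 n140 .nil)
noncomputable def n1072 : Strat := .move 883 n246 (.cons 884 n1071 .nil)
noncomputable def n1073 : Strat := .move 882 n1066 (.cons 1004 n1069 (.cons 880 n1072 .nil))
noncomputable def n1074 : Strat := .move 963 n1 (.cons 839 n1073 .nil)
noncomputable def n1075 : Strat := .move 798 n0 (.cons 757 n1074 .nil)
noncomputable def n1076 : Strat := .move 921 n9 (.cons 962 n1075 .nil)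
noncomputable def n1077 : Strat := .move 922 n307 (.cons 757 n50 (.cons 759 n1062 (.cons 963 n44 (.cons 841 n228 (.cons 800 n1076 .nil)))))
noncomputable def n1078 : Strat := .move 799 n1020 (.cons 922 n1028 (.cons 757 n1037 (.cons 759 n1053 (.cons 921 n1054 (.cons 798 n1055 (.cons 800 n1056 (.cons 758 n1077 .nil)))))))
noncomputable def n1079 : Strat := .move 802 n276 (.cons 839 n715 .nil)
noncomputable def n1080 : Strat := .move 801 n714 (.cons 760 n1079 .nil)
noncomputable def n1081 : Strat := .move 882 n326 (.cons 758 n1080 .nil)
noncomputable def n1082 : Strat := .move 923 n7 (.cons 964 n1081 .nil)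
noncomputable def n1083 : Strat := .move 799 n508 (.cons 798 n1082 .nil)
noncomputable def n1084 : Strat := .move 841 n269 (.cons 963 n1083 .nil)
noncomputable def n1085 : Strat := .win 839 4 838
noncomputable def n1086 : Strat := .move 842 n107 (.cons 843 n1085 .nil)
noncomputable def n1087 : Strat := .move 879 n454 (.cons 878 n1086 .nil)
noncomputable def n1088 : Strat := .win 757 6 757
noncomputable def n1089 : Strat := .move 798 n649 (.cons 797 n1088 .nil)
noncomputable def n1090 : Strat := .move 839 n108 (.cons 879 n1089 .nil)
noncomputable def n1091 : Strat := .move 842 n107 (.cons 843 n1090 .nil)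
noncomputable def n1092 : Strat := .move 801 n984 (.cons 802 n566 .nil)
noncomputable def n1093 : Strat := .move 839 n1089 (.cons 757 n1092 .nil)
noncomputable def n1094 : Strat := .move 842 n107 (.cons 843 n1093 .nil)
noncomputable def n1095 : Strat := .move 839 n101 (.cons 883 n564 .nil)
noncomputable def n1096 : Strat := .move 838 n860 (.cons 837 n1095 .nil)
noncomputable def n1097 : Strat := .win 923 0 879
noncomputable def n1098 : Strat := .move 924 n458 (.cons 925 n1097 .nil)
noncomputable def n1099 : Strat := .win 885 2 840
noncomputable def n1100 : Strat := .move 884 n1099 (.cons 885 n448 .nil)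
noncomputable def n1101 : Strat := .move 883 n1098 (.cons 923 n1100 .nil)
noncomputable def n1102 : Strat := .win 839 5 797
noncomputable def n1103 : Strat := .move 838 n860 (.cons 837 n1102 .nil)
noncomputable def n1104 : Strat := .win 924 0 879
noncomputable def n1105 : Strat := .move 923 n714 (.cons 760 n1104 .nil)
noncomputable def n1106 : Strat := .move 801 n1103 (.cons 839 n1105 .nil)
noncomputable def n1107 : Strat := .win 921 4 879
noncomputable def n1108 : Strat := .move 920 n1107 (.cons 921 n699 .nil)
noncomputable def n1109 : Strat := .move 883 n1098 (.cons 923 n1108 .nil)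
noncomputable def n1110 : Strat := .move 882 n1096 (.cons 838 n1101 (.cons 883 n1106 (.cons 839 n1109 .nil)))
noncomputable def n1111 : Strat := .move 879 n454 (.cons 878 n1110 .nil)
noncomputable def n1112 : Strat := .move 882 n453 (.cons 842 n1109 .nil)
noncomputable def n1113 : Strat := .move 879 n454 (.cons 878 n1112 .nil)
noncomputable def n1114 : Strat := .move 880 n1087 (.cons 878 n1091 (.cons 879 n1094 (.cons 842 n1111 (.cons 839 n1113 .nil))))
noncomputable def n1115 : Strat := .move 841 n269 (.cons 963 n1114 .nil)
noncomputable def n1116 : Strat := .move 882 n326 (.cons 758 n242 .nil)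
noncomputable def n1117 : Strat := .move 923 n7 (.cons 964 n1116 .nil)
noncomputable def n1118 : Strat := .move 798 n0 (.cons 757 n527 .nil)
noncomputable def n1119 : Strat := .move 799 n1117 (.cons 758 n1118 (.cons 797 n330 .nil))
noncomputable def n1120 : Strat := .move 841 n269 (.cons 963 n1119 .nil)
noncomputable def n1121 : Strat := .move 799 n508 (.cons 798 n814 .nil)
noncomputable def n1122 : Strat := .move 841 n269 (.cons 963 n1121 .nil)
noncomputable def n1123 : Strat := .move 798 n0 (.cons 757 n784 .nil)
noncomputable def n1124 : Strat := .move 799 n254 (.cons 963 n1123 (.cons 798 n49 .nil))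
noncomputable def n1125 : Strat := .move 923 n401 (.cons 924 n7 .nil)
noncomputable def n1126 : Strat := .move 879 n454 (.cons 878 n1125 .nil)
noncomputable def n1127 : Strat := .move 880 n399 (.cons 758 n1126 .nil)
noncomputable def n1128 : Strat := .move 921 n9 (.cons 962 n1127 .nil)
noncomputable def n1129 : Strat := .move 799 n1082 (.cons 923 n814 (.cons 882 n1128 (.cons 758 n752 .nil)))
noncomputable def n1130 : Strat := .move 841 n269 (.cons 963 n1129 .nil)
noncomputable def n1131 : Strat := .move 841 n508 (.cons 798 n1082 .nil)
noncomputable def n1132 : Strat := .move 841 n508 (.cons 797 n752 .nil)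
noncomputable def n1133 : Strat := .move 841 n1082 (.cons 923 n814 (.cons 882 n1128 (.cons 758 n752 .nil)))
noncomputable def n1134 : Strat := .move 841 n508 (.cons 798 n814 .nil)
noncomputable def n1135 : Strat := .move 799 n1131 (.cons 758 n1132 (.cons 882 n1123 (.cons 798 n1133 (.cons 923 n1134 .nil))))
noncomputable def n1136 : Strat := .move 799 n138 (.cons 801 n213 .nil)
noncomputable def n1137 : Strat := .move 800 n1084 (.cons 799 n1115 (.cons 839 n1120 (.cons 923 n1122 (.cons 882 n1124 (.cons 798 n1130 (.cons 963 n1135 (.cons 841 n1136 .nil)))))))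
noncomputable def n1138 : Strat := .move 882 n610 (.cons 1004 n942 .nil)
noncomputable def n1139 : Strat := .move 841 n62 (.cons 800 n1138 .nil)
noncomputable def n1140 : Strat := .move 962 n47 (.cons 1003 n1139 .nil)
noncomputable def n1141 : Strat := .move 964 n55 (.cons 1005 n1140 .nil)
noncomputable def n1142 : Strat := .win 920 2 920
noncomputable def n1143 : Strat := .win 966 2 921
noncomputable def n1144 : Strat := .move 921 n1142 (.cons 920 n1143 .nil)
noncomputable def n1145 : Strat := .win 923 6 841
noncomputable def n1146 : Strat := .win 1007 0 962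
noncomputable def n1147 : Strat := .move 1006 n1145 (.cons 923 n1146 .nil)
noncomputable def n1148 : Strat := .move 965 n1144 (.cons 966 n1147 .nil)
noncomputable def n1149 : Strat := .move 882 n610 (.cons 1004 n1148 .nil)
noncomputable def n1150 : Strat := .move 841 n62 (.cons 800 n1149 .nil)
noncomputable def n1151 : Strat := .move 962 n47 (.cons 1003 n1150 .nil)
noncomputable def n1152 : Strat := .move 964 n55 (.cons 1005 n1151 .nil)
noncomputable def n1153 : Strat := .move 841 n62 (.cons 800 n909 .nil)
noncomputable def n1154 : Strat := .move 839 n64 (.cons 798 n1153 .nil)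
noncomputable def n1155 : Strat := .move 963 n100 (.cons 880 n1141 (.cons 839 n1152 (.cons 1005 n1154 (.cons 1004 n117 .nil))))
noncomputable def n1156 : Strat := .win 1004 1 840
noncomputable def n1157 : Strat := .win 801 3 800
noncomputable def n1158 : Strat := .win 844 4 840
noncomputable def n1159 : Strat := .move 843 n1158 (.cons 844 n574 .nil)
noncomputable def n1160 : Strat := .move 842 n1157 (.cons 801 n1159 .nil)
noncomputable def n1161 : Strat := .move 882 n1156 (.cons 1004 n1160 .nil)
noncomputable def n1162 : Strat := .move 841 n62 (.cons 800 n1161 .nil)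
noncomputable def n1163 : Strat := .move 923 n940 (.cons 799 n1162 .nil)
noncomputable def n1164 : Strat := .move 964 n55 (.cons 1005 n1163 .nil)
noncomputable def n1165 : Strat := .move 963 n100 (.cons 964 n80 (.cons 798 n1164 (.cons 1004 n1016 .nil)))
noncomputable def n1166 : Strat := .move 799 n95 (.cons 921 n604 (.cons 839 n498 (.cons 798 n617 (.cons 962 n621 .nil))))
noncomputable def n1167 : Strat := .move 799 n332 (.cons 923 n95 (.cons 962 n58 (.cons 798 n334 .nil)))
noncomputable def n1168 : Strat := .move 799 n95 (.cons 921 n58 (.cons 798 n405 .nil))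
noncomputable def n1169 : Strat := .move 964 n55 (.cons 1005 n969 .nil)
noncomputable def n1170 : Strat := .move 962 n47 (.cons 1003 n1169 .nil)
noncomputable def n1171 : Strat := .move 963 n1170 (.cons 799 n98 (.cons 962 n1164 .nil))
noncomputable def n1172 : Strat := .move 882 n1156 (.cons 1004 n942 .nil)
noncomputable def n1173 : Strat := .move 841 n62 (.cons 800 n1172 .nil)
noncomputable def n1174 : Strat := .move 923 n940 (.cons 799 n1173 .nil)
noncomputable def n1175 : Strat := .move 964 n55 (.cons 1005 n1174 .nil)
noncomputable def n1176 : Strat := .move 963 n80 (.cons 798 n1164 (.cons 841 n100 (.cons 1004 n991 (.cons 880 n1175 .nil))))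
noncomputable def n1177 : Strat := .win 1086 7 921
noncomputable def n1178 : Strat := .move 1045 n1177 (.cons 1086 n1064 .nil)
noncomputable def n1179 : Strat := .move 1004 n63 (.cons 882 n1178 .nil)
noncomputable def n1180 : Strat := .move 841 n62 (.cons 800 n1179 .nil)
noncomputable def n1181 : Strat := .move 921 n885 (.cons 799 n1180 .nil)
noncomputable def n1182 : Strat := .move 962 n47 (.cons 1003 n1181 .nil)
noncomputable def n1183 : Strat := .move 963 n80 (.cons 880 n1140 (.cons 839 n1182 (.cons 1004 n934 (.cons 800 n87 .nil))))
noncomputable def n1184 : Strat := .move 800 n1131 (.cons 758 n1132 (.cons 882 n1123 (.cons 798 n1133 (.cons 923 n1134 .nil))))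
noncomputable def n1185 : Strat := .move 921 n9 (.cons 962 n211 .nil)
noncomputable def n1186 : Strat := .move 923 n7 (.cons 964 n1185 .nil)
noncomputable def n1187 : Strat := .move 799 n1184 (.cons 964 n60 (.cons 758 n879 (.cons 962 n27 (.cons 798 n1186 .nil))))
noncomputable def n1188 : Strat := .move 922 n1137 (.cons 799 n1155 (.cons 921 n1165 (.cons 923 n1166 (.cons 880 n1167 (.cons 882 n1168 (.cons 798 n1171 (.cons 962 n1176 (.cons 964 n1183 (.cons 963 n1187 .nil)))))))))
noncomputable def n1189 : Strat := .move 799 n46 (.cons 921 n56 .nil)
noncomputable def n1190 : Strat := .move 962 n47 (.cons 1003 n1189 .nil)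
noncomputable def n1191 : Strat := .move 963 n1190 (.cons 962 n68 .nil)
noncomputable def n1192 : Strat := .move 799 n255 (.cons 841 n17 .nil)
noncomputable def n1193 : Strat := .move 842 n257 (.cons 843 n318 .nil)
noncomputable def n1194 : Strat := .move 797 n1193 (.cons 841 n319 .nil)
noncomputable def n1195 : Strat := .move 802 n279 (.cons 842 n283 .nil)
noncomputable def n1196 : Strat := .move 801 n256 (.cons 802 n1194 (.cons 838 n280 (.cons 839 n1195 .nil)))
noncomputable def n1197 : Strat := .move 921 n9 (.cons 962 n1196 .nil)
noncomputable def n1198 : Strat := .move 798 n0 (.cons 757 n1197 .nil)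
noncomputable def n1199 : Strat := .move 800 n2 (.cons 759 n1198 .nil)
noncomputable def n1200 : Strat := .move 799 n17 (.cons 882 n60 (.cons 921 n27 (.cons 758 n1199 .nil)))
noncomputable def n1201 : Strat := .move 921 n1143 (.cons 966 n1142 .nil)
noncomputable def n1202 : Strat := .win 921 2 921
noncomputable def n1203 : Strat := .win 1008 0 963
noncomputable def n1204 : Strat := .win 1006 0 962
noncomputable def n1205 : Strat := .move 1007 n1203 (.cons 1008 n1204 .nil)
noncomputable def n1206 : Strat := .move 966 n1202 (.cons 921 n1205 .nil)
noncomputable def n1207 : Strat := .move 961 n898 (.cons 924 n899 .nil)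
noncomputable def n1208 : Strat := .move 924 n967 (.cons 961 n966 .nil)
noncomputable def n1209 : Strat := .win 882 6 841
noncomputable def n1210 : Strat := .move 1006 n1209 (.cons 882 n1146 .nil)
noncomputable def n1211 : Strat := .move 923 n1207 (.cons 960 n1208 (.cons 924 n1210 .nil))
noncomputable def n1212 : Strat := .move 965 n1201 (.cons 920 n1206 (.cons 966 n1211 .nil))
noncomputable def n1213 : Strat := .move 841 n62 (.cons 800 n1212 .nil)
noncomputable def n1214 : Strat := .move 964 n55 (.cons 1005 n1213 .nil)
noncomputable def n1215 : Strat := .move 962 n47 (.cons 1003 n1214 .nil)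
noncomputable def n1216 : Strat := .move 963 n98 (.cons 1004 n1215 (.cons 841 n100 .nil))
noncomputable def n1217 : Strat := .move 963 n76 (.cons 841 n71 (.cons 964 n68 .nil))
noncomputable def n1218 : Strat := .move 963 n87 (.cons 839 n82 (.cons 962 n80 .nil))
noncomputable def n1219 : Strat := .move 799 n17 (.cons 921 n27 (.cons 923 n60 (.cons 758 n95 .nil)))
noncomputable def n1220 : Strat := .move 799 n13 (.cons 880 n92 (.cons 923 n50 .nil))
noncomputable def n1221 : Strat := .move 799 n54 (.cons 923 n48 .nil)
noncomputable def n1222 : Strat := .move 964 n55 (.cons 1005 n1221 .nil)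
noncomputable def n1223 : Strat := .move 799 n54 (.cons 923 n4 .nil)
noncomputable def n1224 : Strat := .move 964 n55 (.cons 1005 n1223 .nil)
noncomputable def n1225 : Strat := .move 963 n1222 (.cons 921 n1224 (.cons 964 n98 .nil))
noncomputable def n1226 : Strat := .move 963 n1190 (.cons 923 n82 (.cons 962 n71 (.cons 799 n87 .nil)))
noncomputable def n1227 : Strat := .move 922 n1191 (.cons 1004 n1192 (.cons 963 n1200 (.cons 799 n1216 (.cons 921 n1217 (.cons 923 n1218 (.cons 841 n1219 (.cons 839 n1220 (.cons 880 n1225 (.cons 882 n1226 .nil)))))))))
noncomputable def n1228 : Strat := .move 758 n549 (.cons 922 n302 (.cons 757 n801 .nil))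
noncomputable def n1229 : Strat := .move 757 n24 (.cons 716 n767 .nil)
noncomputable def n1230 : Strat := .move 841 n409 (.cons 717 n1229 .nil)
noncomputable def n1231 : Strat := .move 882 n168 (.cons 923 n1230 .nil)
noncomputable def n1232 : Strat := .move 800 n296 (.cons 922 n1231 .nil)
noncomputable def n1233 : Strat := .move 759 n19 (.cons 718 n1232 .nil)
noncomputable def n1234 : Strat := .move 880 n123 (.cons 921 n442 .nil)
noncomputable def n1235 : Strat := .move 882 n168 (.cons 923 n1234 .nil)
noncomputable def n1236 : Strat := .move 758 n1233 (.cons 717 n343 (.cons 922 n1235 .nil))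
noncomputable def n1237 : Strat := .win 798 7 715
noncomputable def n1238 : Strat := .move 715 n1237 (.cons 798 n391 .nil)
noncomputable def n1239 : Strat := .move 756 n357 (.cons 755 n1238 .nil)
noncomputable def n1240 : Strat := .move 839 n166 (.cons 717 n1239 .nil)
noncomputable def n1241 : Strat := .move 880 n123 (.cons 921 n1240 .nil)
noncomputable def n1242 : Strat := .move 759 n19 (.cons 718 n1241 .nil)
noncomputable def n1243 : Strat := .move 757 n24 (.cons 716 n1242 .nil)
noncomputable def n1244 : Strat := .move 758 n302 (.cons 675 n1235 (.cons 882 n1243 (.cons 717 n776 .nil)))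
noncomputable def n1245 : Strat := .move 717 n124 (.cons 839 n629 .nil)
noncomputable def n1246 : Strat := .move 880 n123 (.cons 921 n1245 .nil)
noncomputable def n1247 : Strat := .move 800 n296 (.cons 922 n1246 .nil)
noncomputable def n1248 : Strat := .move 759 n19 (.cons 718 n1247 .nil)
noncomputable def n1249 : Strat := .move 758 n801 (.cons 880 n522 (.cons 882 n1248 (.cons 717 n1036 (.cons 841 n765 .nil))))
noncomputable def n1250 : Strat := .move 758 n801 (.cons 880 n1045 (.cons 839 n302 (.cons 717 n1052 (.cons 882 n810 .nil))))
noncomputable def n1251 : Strat := .move 758 n549 (.cons 759 n810 (.cons 922 n129 .nil))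
noncomputable def n1252 : Strat := .move 758 n735 (.cons 757 n1036 (.cons 759 n1052 (.cons 922 n776 .nil)))
noncomputable def n1253 : Strat := .move 922 n307 (.cons 798 n92 (.cons 759 n58 (.cons 963 n760 .nil)))
noncomputable def n1254 : Strat := .move 882 n168 (.cons 923 n409 .nil)
noncomputable def n1255 : Strat := .move 921 n10 (.cons 880 n812 .nil)
noncomputable def n1256 : Strat := .move 717 n124 (.cons 839 n627 .nil)
noncomputable def n1257 : Strat := .move 880 n123 (.cons 921 n1256 .nil)
noncomputable def n1258 : Strat := .move 882 n168 (.cons 923 n1038 .nil)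
noncomputable def n1259 : Strat := .move 758 n1254 (.cons 923 n1255 (.cons 882 n1257 (.cons 717 n1258 .nil)))
noncomputable def n1260 : Strat := .move 841 n269 (.cons 963 n1259 .nil)
noncomputable def n1261 : Strat := .move 800 n2 (.cons 759 n1260 .nil)
noncomputable def n1262 : Strat := .move 838 n135 (.cons 837 n564 .nil)
noncomputable def n1263 : Strat := .move 801 n34 (.cons 802 n566 .nil)
noncomputable def n1264 : Strat := .win 801 4 798
noncomputable def n1265 : Strat := .move 880 n571 (.cons 921 n590 .nil)
noncomputable def n1266 : Strat := .move 802 n1264 (.cons 801 n1265 .nil)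
noncomputable def n1267 : Strat := .move 838 n135 (.cons 837 n1265 .nil)
noncomputable def n1268 : Strat := .move 839 n1262 (.cons 837 n1263 (.cons 838 n1266 (.cons 801 n1267 .nil)))
noncomputable def n1269 : Strat := .move 841 n269 (.cons 963 n1268 .nil)
noncomputable def n1270 : Strat := .move 800 n2 (.cons 759 n1269 .nil)
noncomputable def n1271 : Strat := .move 717 n124 (.cons 839 n826 .nil)
noncomputable def n1272 : Strat := .move 880 n123 (.cons 921 n1271 .nil)
noncomputable def n1273 : Strat := .move 758 n8 (.cons 882 n1272 .nil)
noncomputable def n1274 : Strat := .move 923 n7 (.cons 964 n1273 .nil)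
noncomputable def n1275 : Strat := .move 716 n202 (.cons 675 n201 .nil)
noncomputable def n1276 : Strat := .move 717 n124 (.cons 839 n1275 .nil)
noncomputable def n1277 : Strat := .move 880 n123 (.cons 921 n1276 .nil)
noncomputable def n1278 : Strat := .move 758 n8 (.cons 882 n1277 .nil)
noncomputable def n1279 : Strat := .move 923 n7 (.cons 964 n1278 .nil)
noncomputable def n1280 : Strat := .move 922 n224 (.cons 964 n1261 (.cons 923 n1270 (.cons 800 n1274 (.cons 758 n92 (.cons 759 n1279 .nil)))))
noncomputable def n1281 : Strat := .move 799 n1228 (.cons 839 n523 (.cons 675 n1236 (.cons 922 n1244 (.cons 757 n1249 (.cons 759 n1250 (.cons 923 n1251 (.cons 717 n1252 (.cons 758 n1253 (.cons 798 n1280 .nil)))))))))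
noncomputable def n1282 : Strat := .move 964 n55 (.cons 1005 n947 .nil)
noncomputable def n1283 : Strat := .move 962 n47 (.cons 1003 n1282 .nil)
noncomputable def n1284 : Strat := .move 963 n1283 (.cons 921 n76 (.cons 964 n98 .nil))
noncomputable def n1285 : Strat := .move 799 n13 (.cons 921 n52 (.cons 923 n22 (.cons 758 n964 .nil)))
noncomputable def n1286 : Strat := .move 963 n62 (.cons 800 n97 .nil)
noncomputable def n1287 : Strat := .win 921 2 920
noncomputable def n1288 : Strat := .win 919 2 919
noncomputable def n1289 : Strat := .move 920 n1287 (.cons 921 n1288 .nil)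
noncomputable def n1290 : Strat := .move 961 n1289 (.cons 919 n900 .nil)
noncomputable def n1291 : Strat := .win 926 5 922
noncomputable def n1292 : Strat := .win 924 5 921
noncomputable def n1293 : Strat := .move 925 n1291 (.cons 926 n1292 .nil)
noncomputable def n1294 : Strat := .move 966 n1205 (.cons 1006 n1293 .nil)
noncomputable def n1295 : Strat := .move 965 n1201 (.cons 920 n1206 (.cons 966 n1290 (.cons 921 n1294 .nil)))
noncomputable def n1296 : Strat := .move 964 n55 (.cons 1005 n1295 .nil)
noncomputable def n1297 : Strat := .move 962 n47 (.cons 1003 n1296 .nil)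
noncomputable def n1298 : Strat := .win 884 0 839
noncomputable def n1299 : Strat := .win 838 0 838
noncomputable def n1300 : Strat := .move 883 n1298 (.cons 884 n1299 .nil)
noncomputable def n1301 : Strat := .win 923 3 800
noncomputable def n1302 : Strat := .move 801 n984 (.cons 802 n1301 .nil)
noncomputable def n1303 : Strat := .move 839 n941 (.cons 837 n1300 (.cons 883 n1302 .nil))
noncomputable def n1304 : Strat := .move 842 n1159 (.cons 880 n1303 .nil)
noncomputable def n1305 : Strat := .move 964 n55 (.cons 1005 n1304 .nil)
noncomputable def n1306 : Strat := .move 882 n610 (.cons 1004 n1305 .nil)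
noncomputable def n1307 : Strat := .move 963 n97 (.cons 882 n1297 (.cons 1003 n1306 .nil))
noncomputable def n1308 : Strat := .move 963 n62 (.cons 800 n1297 .nil)
noncomputable def n1309 : Strat := .win 718 1 717
noncomputable def n1310 : Strat := .win 882 1 758
noncomputable def n1311 : Strat := .move 759 n1309 (.cons 718 n1310 .nil)
noncomputable def n1312 : Strat := .move 800 n269 (.cons 963 n1311 .nil)
noncomputable def n1313 : Strat := .move 839 n1299 (.cons 838 n1298 .nil)
noncomputable def n1314 : Strat := .win 759 1 758
noncomputable def n1315 : Strat := .win 965 7 800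
noncomputable def n1316 : Strat := .move 924 n1315 (.cons 965 n458 .nil)
noncomputable def n1317 : Strat := .move 800 n1314 (.cons 759 n1316 .nil)
noncomputable def n1318 : Strat := .move 883 n1313 (.cons 884 n1317 .nil)
noncomputable def n1319 : Strat := .win 964 3 800
noncomputable def n1320 : Strat := .move 923 n714 (.cons 760 n1319 .nil)
noncomputable def n1321 : Strat := .win 923 3 759
noncomputable def n1322 : Strat := .win 719 1 718
noncomputable def n1323 : Strat := .move 760 n1321 (.cons 923 n1322 .nil)
noncomputable def n1324 : Strat := .win 839 5 798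
noncomputable def n1325 : Strat := .move 802 n715 (.cons 803 n1324 .nil)
noncomputable def n1326 : Strat := .move 801 n1320 (.cons 964 n1323 (.cons 760 n1325 .nil))
noncomputable def n1327 : Strat := .move 800 n1314 (.cons 759 n1326 .nil)
noncomputable def n1328 : Strat := .move 839 n1299 (.cons 838 n984 .nil)
noncomputable def n1329 : Strat := .win 923 1 759
noncomputable def n1330 : Strat := .move 760 n1329 (.cons 923 n1322 .nil)
noncomputable def n1331 : Strat := .move 801 n1328 (.cons 802 n1330 .nil)
noncomputable def n1332 : Strat := .win 839 0 839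
noncomputable def n1333 : Strat := .move 884 n1099 (.cons 885 n1332 .nil)
noncomputable def n1334 : Strat := .win 921 4 880
noncomputable def n1335 : Strat := .move 884 n1334 (.cons 921 n1099 .nil)
noncomputable def n1336 : Strat := .move 883 n1313 (.cons 884 n1331 (.cons 838 n1333 (.cons 839 n1335 .nil)))
noncomputable def n1337 : Strat := .move 921 n246 (.cons 884 n605 .nil)
noncomputable def n1338 : Strat := .move 883 n1335 (.cons 885 n1337 (.cons 921 n1316 .nil))
noncomputable def n1339 : Strat := .move 800 n1314 (.cons 759 n1338 .nil)
noncomputable def n1340 : Strat := .move 882 n1318 (.cons 883 n1327 (.cons 800 n1336 (.cons 839 n1339 .nil)))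
noncomputable def n1341 : Strat := .move 842 n107 (.cons 843 n1340 .nil)
noncomputable def n1342 : Strat := .win 839 0 838
noncomputable def n1343 : Strat := .move 838 n1342 (.cons 839 n860 .nil)
noncomputable def n1344 : Strat := .move 839 n445 (.cons 884 n1299 .nil)
noncomputable def n1345 : Strat := .move 883 n1343 (.cons 837 n1344 (.cons 839 n1108 .nil))
noncomputable def n1346 : Strat := .move 923 n1104 (.cons 924 n1345 .nil)
noncomputable def n1347 : Strat := .move 882 n453 (.cons 842 n1346 .nil)
noncomputable def n1348 : Strat := .move 879 n454 (.cons 878 n1347 .nil)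
noncomputable def n1349 : Strat := .move 883 n1342 (.cons 839 n1108 .nil)
noncomputable def n1350 : Strat := .move 838 n860 (.cons 837 n1349 .nil)
noncomputable def n1351 : Strat := .move 883 n458 (.cons 925 n1108 .nil)
noncomputable def n1352 : Strat := .move 924 n1097 (.cons 923 n1351 .nil)
noncomputable def n1353 : Strat := .move 838 n1102 (.cons 839 n860 .nil)
noncomputable def n1354 : Strat := .move 801 n1105 (.cons 924 n1353 .nil)
noncomputable def n1355 : Strat := .move 800 n1314 (.cons 759 n1354 .nil)
noncomputable def n1356 : Strat := .move 882 n1346 (.cons 923 n1350 (.cons 839 n1352 (.cons 883 n1355 .nil)))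
noncomputable def n1357 : Strat := .move 879 n454 (.cons 878 n1356 .nil)
noncomputable def n1358 : Strat := .move 882 n453 (.cons 842 n1352 .nil)
noncomputable def n1359 : Strat := .move 879 n454 (.cons 878 n1358 .nil)
noncomputable def n1360 : Strat := .move 880 n1087 (.cons 879 n1341 (.cons 843 n1348 (.cons 842 n1357 (.cons 839 n1359 .nil))))
noncomputable def n1361 : Strat := .move 841 n1286 (.cons 800 n1307 (.cons 882 n1308 (.cons 1003 n1312 (.cons 963 n1360 .nil))))
noncomputable def n1362 : Strat := .move 964 n55 (.cons 1005 n888 .nil)
noncomputable def n1363 : Strat := .move 921 n885 (.cons 799 n1362 .nil)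
noncomputable def n1364 : Strat := .move 962 n47 (.cons 1003 n1363 .nil)
noncomputable def n1365 : Strat := .move 963 n98 (.cons 841 n1364 (.cons 1003 n76 .nil))
noncomputable def n1366 : Strat := .move 799 n213 (.cons 758 n159 (.cons 880 n52 (.cons 964 n22 .nil)))
noncomputable def n1367 : Strat := .move 799 n22 (.cons 921 n92 (.cons 759 n405 .nil))
noncomputable def n1368 : Strat := .move 717 n293 (.cons 841 n826 .nil)
noncomputable def n1369 : Strat := .move 882 n168 (.cons 923 n1368 .nil)
noncomputable def n1370 : Strat := .move 758 n10 (.cons 880 n1369 .nil)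
noncomputable def n1371 : Strat := .move 921 n9 (.cons 962 n1370 .nil)
noncomputable def n1372 : Strat := .move 717 n126 (.cons 677 n1275 .nil)
noncomputable def n1373 : Strat := .move 718 n125 (.cons 759 n1372 .nil)
noncomputable def n1374 : Strat := .move 758 n10 (.cons 880 n1373 .nil)
noncomputable def n1375 : Strat := .move 921 n9 (.cons 962 n1374 .nil)
noncomputable def n1376 : Strat := .move 717 n202 (.cons 675 n826 .nil)
noncomputable def n1377 : Strat := .move 716 n201 (.cons 757 n1376 .nil)
noncomputable def n1378 : Strat := .move 758 n8 (.cons 882 n1377 .nil)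
noncomputable def n1379 : Strat := .move 923 n7 (.cons 964 n1378 .nil)
noncomputable def n1380 : Strat := .move 799 n213 (.cons 962 n1274 (.cons 964 n1371 (.cons 758 n882 (.cons 923 n1375 (.cons 921 n1379 .nil)))))
noncomputable def n1381 : Strat := .move 799 n224 (.cons 964 n1261 (.cons 923 n1270 (.cons 800 n1274 (.cons 758 n92 (.cons 759 n1279 .nil)))))
noncomputable def n1382 : Strat := .win 921 7 880
noncomputable def n1383 : Strat := .win 1085 1 921
noncomputable def n1384 : Strat := .win 1003 1 880
noncomputable def n1385 : Strat := .move 1044 n1383 (.cons 1085 n1384 .nil)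
noncomputable def n1386 : Strat := .move 1045 n1382 (.cons 921 n1385 .nil)
noncomputable def n1387 : Strat := .move 880 n585 (.cons 839 n1386 .nil)
noncomputable def n1388 : Strat := .move 1004 n63 (.cons 882 n1387 .nil)
noncomputable def n1389 : Strat := .move 841 n62 (.cons 800 n1388 .nil)
noncomputable def n1390 : Strat := .win 839 6 839
noncomputable def n1391 : Strat := .move 880 n1390 (.cons 839 n584 .nil)
noncomputable def n1392 : Strat := .move 841 n63 (.cons 882 n1178 .nil)
noncomputable def n1393 : Strat := .move 1045 n1063 (.cons 923 n1177 .nil)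
noncomputable def n1394 : Strat := .move 882 n424 (.cons 841 n1393 .nil)
noncomputable def n1395 : Strat := .move 883 n605 (.cons 920 n246 .nil)
noncomputable def n1396 : Strat := .move 882 n424 (.cons 841 n1395 .nil)
noncomputable def n1397 : Strat := .move 880 n1390 (.cons 839 n1396 .nil)
noncomputable def n1398 : Strat := .move 1004 n1391 (.cons 839 n1392 (.cons 880 n1394 (.cons 1045 n1397 .nil)))
noncomputable def n1399 : Strat := .move 921 n885 (.cons 799 n1398 .nil)
noncomputable def n1400 : Strat := .move 962 n47 (.cons 1003 n1399 .nil)
noncomputable def n1401 : Strat := .move 884 n448 (.cons 839 n1099 .nil)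
noncomputable def n1402 : Strat := .move 839 n1299 (.cons 838 n445 .nil)
noncomputable def n1403 : Strat := .move 879 n860 (.cons 837 n454 .nil)
noncomputable def n1404 : Strat := .move 838 n1342 (.cons 839 n1403 .nil)
noncomputable def n1405 : Strat := .move 799 n399 (.cons 758 n9 .nil)
noncomputable def n1406 : Strat := .move 921 n605 (.cons 920 n1405 .nil)
noncomputable def n1407 : Strat := .move 880 n455 (.cons 878 n456 (.cons 842 n1404 (.cons 879 n1406 .nil)))
noncomputable def n1408 : Strat := .move 884 n1099 (.cons 885 n1334 .nil)
noncomputable def n1409 : Strat := .move 883 n1401 (.cons 885 n1402 (.cons 884 n1407 (.cons 839 n1408 .nil)))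
noncomputable def n1410 : Strat := .move 882 n610 (.cons 1004 n1409 .nil)
noncomputable def n1411 : Strat := .move 841 n62 (.cons 800 n1410 .nil)
noncomputable def n1412 : Strat := .win 1087 6 922
noncomputable def n1413 : Strat := .win 1005 6 881
noncomputable def n1414 : Strat := .move 1046 n1412 (.cons 1087 n1413 .nil)
noncomputable def n1415 : Strat := .move 1045 n1382 (.cons 921 n1414 .nil)
noncomputable def n1416 : Strat := .move 880 n585 (.cons 839 n1415 .nil)
noncomputable def n1417 : Strat := .move 1004 n84 (.cons 1044 n1416 .nil)
noncomputable def n1418 : Strat := .move 1003 n83 (.cons 962 n1417 .nil)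
noncomputable def n1419 : Strat := .move 963 n98 (.cons 962 n1389 (.cons 800 n1400 (.cons 1003 n1411 (.cons 1004 n82 (.cons 841 n1418 .nil)))))
noncomputable def n1420 : Strat := .move 922 n1284 (.cons 963 n1285 (.cons 799 n1361 (.cons 923 n1365 (.cons 921 n1018 (.cons 841 n1366 (.cons 882 n1367 (.cons 800 n1380 (.cons 962 n1381 (.cons 964 n1419 .nil)))))))))
noncomputable def n1421 : Strat := .move 922 n17 (.cons 923 n22 (.cons 921 n27 (.cons 758 n44 .nil)))
noncomputable def n1422 : Strat := .move 924 n534 (.cons 925 n960 .nil)
noncomputable def n1423 : Strat := .move 800 n2 (.cons 759 n1422 .nil)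
noncomputable def n1424 : Strat := .move 921 n9 (.cons 962 n1423 .nil)
noncomputable def n1425 : Strat := .move 923 n7 (.cons 964 n1424 .nil)
noncomputable def n1426 : Strat := .move 922 n44 (.cons 800 n879 (.cons 921 n760 (.cons 839 n1425 .nil)))
noncomputable def n1427 : Strat := .move 922 n17 (.cons 882 n60 (.cons 921 n27 (.cons 758 n1199 .nil)))
noncomputable def n1428 : Strat := .move 922 n13 (.cons 921 n52 (.cons 923 n22 (.cons 758 n964 .nil)))
noncomputable def n1429 : Strat := .move 758 n10 (.cons 880 n219 .nil)
noncomputable def n1430 : Strat := .move 921 n9 (.cons 962 n1429 .nil)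
noncomputable def n1431 : Strat := .move 922 n1430 (.cons 923 n498 (.cons 758 n879 (.cons 880 n217 .nil)))
noncomputable def n1432 : Strat := .move 922 n22 (.cons 758 n44 (.cons 880 n291 (.cons 800 n498 .nil)))
noncomputable def n1433 : Strat := .move 839 n631 (.cons 880 n1275 .nil)
noncomputable def n1434 : Strat := .move 717 n293 (.cons 841 n1433 .nil)
noncomputable def n1435 : Strat := .move 882 n168 (.cons 923 n1434 .nil)
noncomputable def n1436 : Strat := .move 759 n19 (.cons 718 n520 .nil)
noncomputable def n1437 : Strat := .move 800 n165 (.cons 759 n1435 (.cons 757 n1436 .nil))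
noncomputable def n1438 : Strat := .move 758 n1437 (.cons 880 n302 (.cons 882 n129 (.cons 717 n397 .nil)))
noncomputable def n1439 : Strat := .move 922 n27 (.cons 758 n760 (.cons 882 n324 (.cons 798 n52 .nil)))
noncomputable def n1440 : Strat := .move 799 n1421 (.cons 758 n1426 (.cons 796 n1427 (.cons 798 n1428 (.cons 800 n1431 (.cons 923 n1432 (.cons 922 n1438 (.cons 921 n1439 .nil)))))))
noncomputable def n1441 : Strat := .move 798 n5 (.cons 963 n43 (.cons 839 n529 (.cons 759 n57 .nil)))
noncomputable def n1442 : Strat := .move 799 n6 (.cons 800 n58 (.cons 963 n44 (.cons 757 n1441 (.cons 798 n50 .nil))))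
noncomputable def n1443 : Strat := .move 799 n44 (.cons 800 n879 (.cons 921 n760 (.cons 839 n1425 .nil)))
noncomputable def n1444 : Strat := .move 799 n90 (.cons 798 n92 (.cons 841 n58 (.cons 963 n760 .nil)))
noncomputable def n1445 : Strat := .move 799 n6 (.cons 800 n95 (.cons 963 n44 (.cons 839 n50 .nil)))
noncomputable def n1446 : Strat := .move 799 n50 (.cons 921 n92 (.cons 841 n159 .nil))
noncomputable def n1447 : Strat := .move 799 n58 (.cons 923 n95 (.cons 757 n876 (.cons 963 n879 (.cons 839 n544 (.cons 798 n882 .nil)))))
noncomputable def n1448 : Strat := .move 963 n80 (.cons 880 n98 (.cons 841 n100 (.cons 1004 n117 .nil)))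
noncomputable def n1449 : Strat := .move 922 n1442 (.cons 963 n1443 (.cons 921 n1444 (.cons 923 n1445 (.cons 798 n1446 (.cons 800 n1447 (.cons 799 n1448 .nil))))))
noncomputable def n1450 : Strat := .move 879 n454 (.cons 878 n1085 .nil)
noncomputable def n1451 : Strat := .move 842 n107 (.cons 843 n1450 .nil)
noncomputable def n1452 : Strat := .move 801 n984 (.cons 802 n1330 .nil)
noncomputable def n1453 : Strat := .move 882 n1299 (.cons 838 n1452 .nil)
noncomputable def n1454 : Strat := .move 883 n1298 (.cons 884 n1453 .nil)
noncomputable def n1455 : Strat := .win 716 6 716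
noncomputable def n1456 : Strat := .move 837 n921 (.cons 882 n920 .nil)
noncomputable def n1457 : Strat := .win 800 5 797
noncomputable def n1458 : Strat := .move 801 n1457 (.cons 800 n984 .nil)
noncomputable def n1459 : Strat := .move 838 n1456 (.cons 836 n1458 .nil)
noncomputable def n1460 : Strat := .move 757 n1455 (.cons 716 n1459 .nil)
noncomputable def n1461 : Strat := .move 798 n649 (.cons 797 n1460 .nil)
noncomputable def n1462 : Strat := .win 966 6 801
noncomputable def n1463 : Strat := .win 882 0 880
noncomputable def n1464 : Strat := .move 925 n1462 (.cons 966 n1463 .nil)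
noncomputable def n1465 : Strat := .win 759 7 759
noncomputable def n1466 : Strat := .move 800 n1465 (.cons 759 n1315 .nil)
noncomputable def n1467 : Strat := .move 924 n1464 (.cons 882 n1466 .nil)
noncomputable def n1468 : Strat := .move 801 n984 (.cons 802 n1467 .nil)
noncomputable def n1469 : Strat := .move 883 n1298 (.cons 884 n1468 .nil)
noncomputable def n1470 : Strat := .win 799 3 798
noncomputable def n1471 : Strat := .win 1003 3 839
noncomputable def n1472 : Strat := .move 962 n1470 (.cons 799 n1471 .nil)
noncomputable def n1473 : Strat := .move 921 n605 (.cons 920 n1472 .nil)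
noncomputable def n1474 : Strat := .move 882 n1299 (.cons 838 n1473 .nil)
noncomputable def n1475 : Strat := .move 883 n1298 (.cons 884 n1474 .nil)
noncomputable def n1476 : Strat := .move 924 n1465 (.cons 759 n1315 .nil)
noncomputable def n1477 : Strat := .move 800 n566 (.cons 838 n1476 .nil)
noncomputable def n1478 : Strat := .move 801 n984 (.cons 802 n1477 .nil)
noncomputable def n1479 : Strat := .move 883 n1298 (.cons 884 n1478 .nil)
noncomputable def n1480 : Strat := .move 839 n1454 (.cons 883 n1461 (.cons 838 n1469 (.cons 801 n1475 (.cons 882 n1479 .nil))))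
noncomputable def n1481 : Strat := .move 842 n107 (.cons 843 n1480 .nil)
noncomputable def n1482 : Strat := .win 882 5 838
noncomputable def n1483 : Strat := .move 879 n454 (.cons 878 n1482 .nil)
noncomputable def n1484 : Strat := .move 842 n107 (.cons 843 n1483 .nil)
noncomputable def n1485 : Strat := .win 715 6 715
noncomputable def n1486 : Strat := .win 921 6 756
noncomputable def n1487 : Strat := .move 756 n1485 (.cons 715 n1486 .nil)
noncomputable def n1488 : Strat := .move 797 n111 (.cons 796 n1487 .nil)
noncomputable def n1489 : Strat := .move 839 n101 (.cons 883 n1488 .nil)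
noncomputable def n1490 : Strat := .move 838 n860 (.cons 837 n1489 .nil)
noncomputable def n1491 : Strat := .win 964 7 799
noncomputable def n1492 : Strat := .move 799 n326 (.cons 758 n1491 .nil)
noncomputable def n1493 : Strat := .move 923 n1104 (.cons 924 n1492 .nil)
noncomputable def n1494 : Strat := .move 882 n1490 (.cons 883 n1493 .nil)
noncomputable def n1495 : Strat := .move 879 n454 (.cons 878 n1494 .nil)
noncomputable def n1496 : Strat := .move 880 n1451 (.cons 879 n1481 (.cons 839 n1484 (.cons 842 n1495 .nil)))
noncomputable def n1497 : Strat := .win 882 4 840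
noncomputable def n1498 : Strat := .win 802 5 799
noncomputable def n1499 : Strat := .win 804 5 800
noncomputable def n1500 : Strat := .move 803 n1498 (.cons 802 n1499 .nil)
noncomputable def n1501 : Strat := .move 844 n1497 (.cons 882 n1500 .nil)
noncomputable def n1502 : Strat := .move 802 n1002 (.cons 801 n1001 .nil)
noncomputable def n1503 : Strat := .move 839 n998 (.cons 883 n1502 .nil)
noncomputable def n1504 : Strat := .move 884 n997 (.cons 885 n1503 .nil)
noncomputable def n1505 : Strat := .win 800 2 799
noncomputable def n1506 : Strat := .move 799 n560 (.cons 798 n1505 .nil)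
noncomputable def n1507 : Strat := .move 844 n1497 (.cons 882 n1506 .nil)
noncomputable def n1508 : Strat := .move 843 n1501 (.cons 844 n1504 (.cons 802 n1507 .nil))
noncomputable def n1509 : Strat := .move 844 n1505 (.cons 800 n1500 .nil)
noncomputable def n1510 : Strat := .move 799 n560 (.cons 798 n1509 .nil)
noncomputable def n1511 : Strat := .win 760 7 760
noncomputable def n1512 : Strat := .win 966 7 801
noncomputable def n1513 : Strat := .move 801 n1511 (.cons 760 n1512 .nil)
noncomputable def n1514 : Strat := .win 924 1 760
noncomputable def n1515 : Strat := .win 720 1 719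
noncomputable def n1516 : Strat := .move 761 n1514 (.cons 924 n1515 .nil)
noncomputable def n1517 : Strat := .win 965 1 801
noncomputable def n1518 : Strat := .win 761 1 760
noncomputable def n1519 : Strat := .move 924 n1517 (.cons 965 n1518 .nil)
noncomputable def n1520 : Strat := .win 882 0 881
noncomputable def n1521 : Strat := .win 967 6 802
noncomputable def n1522 : Strat := .move 926 n1520 (.cons 882 n1521 .nil)
noncomputable def n1523 : Strat := .move 883 n1516 (.cons 720 n1519 (.cons 924 n1522 .nil))
noncomputable def n1524 : Strat := .move 925 n1513 (.cons 966 n1523 .nil)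
noncomputable def n1525 : Strat := .move 802 n1001 (.cons 803 n1524 .nil)
noncomputable def n1526 : Strat := .move 884 n997 (.cons 885 n1525 .nil)
noncomputable def n1527 : Strat := .move 843 n1501 (.cons 882 n1510 (.cons 803 n1507 (.cons 844 n1526 .nil)))
noncomputable def n1528 : Strat := .move 839 n998 (.cons 883 n1002 .nil)
noncomputable def n1529 : Strat := .move 884 n997 (.cons 885 n1528 .nil)
noncomputable def n1530 : Strat := .move 802 n1001 (.cons 803 n1529 .nil)
noncomputable def n1531 : Strat := .move 839 n999 (.cons 883 n565 .nil)
noncomputable def n1532 : Strat := .move 759 n1309 (.cons 718 n1531 .nil)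
noncomputable def n1533 : Strat := .move 800 n561 (.cons 844 n1532 .nil)
noncomputable def n1534 : Strat := .move 799 n560 (.cons 798 n1533 .nil)
noncomputable def n1535 : Strat := .win 679 1 678
noncomputable def n1536 : Strat := .win 883 1 719
noncomputable def n1537 : Strat := .move 720 n1535 (.cons 679 n1536 .nil)
noncomputable def n1538 : Strat := .move 800 n281 (.cons 762 n277 .nil)
noncomputable def n1539 : Strat := .move 761 n1537 (.cons 883 n1538 .nil)
noncomputable def n1540 : Strat := .move 801 n1324 (.cons 839 n1539 .nil)
noncomputable def n1541 : Strat := .move 799 n560 (.cons 798 n1540 .nil)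
noncomputable def n1542 : Strat := .move 802 n1001 (.cons 803 n1541 .nil)
noncomputable def n1543 : Strat := .move 843 n1530 (.cons 802 n1534 (.cons 884 n1542 (.cons 839 n1510 .nil)))
noncomputable def n1544 : Strat := .win 925 7 760
noncomputable def n1545 : Strat := .win 719 6 719
noncomputable def n1546 : Strat := .move 760 n1544 (.cons 925 n1545 .nil)
noncomputable def n1547 : Strat := .move 884 n997 (.cons 885 n1546 .nil)
noncomputable def n1548 : Strat := .move 801 n1324 (.cons 839 n1547 .nil)
noncomputable def n1549 : Strat := .move 802 n1001 (.cons 803 n1548 .nil)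
noncomputable def n1550 : Strat := .move 844 n1497 (.cons 882 n1505 .nil)
noncomputable def n1551 : Strat := .move 799 n560 (.cons 798 n1550 .nil)
noncomputable def n1552 : Strat := .move 843 n1501 (.cons 844 n1549 (.cons 803 n1551 .nil))
noncomputable def n1553 : Strat := .move 758 n168 (.cons 923 n409 .nil)
noncomputable def n1554 : Strat := .move 799 n560 (.cons 798 n1553 .nil)
noncomputable def n1555 : Strat := .move 882 n1158 (.cons 844 n1554 .nil)
noncomputable def n1556 : Strat := .move 883 n1332 (.cons 839 n1555 .nil)
noncomputable def n1557 : Strat := .move 884 n997 (.cons 885 n1556 .nil)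
noncomputable def n1558 : Strat := .move 843 n1557 (.cons 882 n1530 (.cons 884 n1501 .nil))
noncomputable def n1559 : Strat := .win 884 0 840
noncomputable def n1560 : Strat := .win 886 0 841
noncomputable def n1561 : Strat := .move 885 n1559 (.cons 884 n1560 .nil)
noncomputable def n1562 : Strat := .move 844 n1497 (.cons 882 n1561 .nil)
noncomputable def n1563 : Strat := .move 802 n1001 (.cons 803 n1516 .nil)
noncomputable def n1564 : Strat := .move 883 n1332 (.cons 839 n1563 .nil)
noncomputable def n1565 : Strat := .move 884 n997 (.cons 885 n1564 .nil)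
noncomputable def n1566 : Strat := .move 843 n1562 (.cons 844 n1565 (.cons 885 n1501 .nil))
noncomputable def n1567 : Strat := .win 799 2 798
noncomputable def n1568 : Strat := .move 798 n649 (.cons 797 n1567 .nil)
noncomputable def n1569 : Strat := .move 839 n1002 (.cons 801 n1568 .nil)
noncomputable def n1570 : Strat := .move 802 n1001 (.cons 803 n1569 .nil)
noncomputable def n1571 : Strat := .move 843 n1507 (.cons 882 n1542 (.cons 844 n1570 (.cons 798 n1501 .nil)))
noncomputable def n1572 : Strat := .move 839 n998 (.cons 883 n1568 .nil)
noncomputable def n1573 : Strat := .move 884 n997 (.cons 885 n1572 .nil)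
noncomputable def n1574 : Strat := .move 843 n1507 (.cons 882 n1534 (.cons 800 n1562 (.cons 844 n1573 .nil)))
noncomputable def n1575 : Strat := .win 882 0 838
noncomputable def n1576 : Strat := .move 801 n984 (.cons 802 n1457 .nil)
noncomputable def n1577 : Strat := .move 838 n1575 (.cons 882 n1576 .nil)
noncomputable def n1578 : Strat := .move 883 n1298 (.cons 884 n1577 .nil)
noncomputable def n1579 : Strat := .win 798 2 797
noncomputable def n1580 : Strat := .move 797 n1579 (.cons 798 n111 .nil)
noncomputable def n1581 : Strat := .move 838 n1575 (.cons 882 n1580 .nil)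
noncomputable def n1582 : Strat := .move 883 n1298 (.cons 884 n1581 .nil)
noncomputable def n1583 : Strat := .move 757 n381 (.cons 756 n1455 .nil)
noncomputable def n1584 : Strat := .move 800 n35 (.cons 838 n1583 .nil)
noncomputable def n1585 : Strat := .move 801 n984 (.cons 802 n1584 .nil)
noncomputable def n1586 : Strat := .move 799 n506 (.cons 843 n1585 .nil)
noncomputable def n1587 : Strat := .move 798 n649 (.cons 797 n1586 .nil)
noncomputable def n1588 : Strat := .move 843 n1001 (.cons 803 n1567 .nil)
noncomputable def n1589 : Strat := .move 802 n1002 (.cons 801 n1588 .nil)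
noncomputable def n1590 : Strat := .move 883 n1298 (.cons 884 n1589 .nil)
noncomputable def n1591 : Strat := .move 798 n649 (.cons 797 n1590 .nil)
noncomputable def n1592 : Strat := .move 839 n1578 (.cons 800 n1582 (.cons 883 n1587 (.cons 838 n1591 .nil)))
noncomputable def n1593 : Strat := .move 838 n1457 (.cons 800 n1580 .nil)
noncomputable def n1594 : Strat := .move 801 n984 (.cons 802 n1593 .nil)
noncomputable def n1595 : Strat := .move 882 n1329 (.cons 923 n1322 .nil)
noncomputable def n1596 : Strat := .win 964 1 800
noncomputable def n1597 : Strat := .win 882 1 759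
noncomputable def n1598 : Strat := .move 923 n1596 (.cons 964 n1597 .nil)
noncomputable def n1599 : Strat := .move 924 n1598 (.cons 882 n1466 .nil)
noncomputable def n1600 : Strat := .win 759 7 718
noncomputable def n1601 : Strat := .win 677 7 677
noncomputable def n1602 : Strat := .win 882 1 718
noncomputable def n1603 : Strat := .move 719 n1601 (.cons 677 n1602 .nil)
noncomputable def n1604 : Strat := .move 718 n1600 (.cons 759 n1603 .nil)
noncomputable def n1605 : Strat := .win 679 3 678
noncomputable def n1606 : Strat := .win 761 3 719
noncomputable def n1607 : Strat := .move 720 n1605 (.cons 679 n1606 .nil)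
noncomputable def n1608 : Strat := .move 718 n1601 (.cons 677 n1600 .nil)
noncomputable def n1609 : Strat := .move 719 n1607 (.cons 761 n1608 .nil)
noncomputable def n1610 : Strat := .move 760 n1595 (.cons 719 n1599 (.cons 923 n1604 (.cons 882 n1609 .nil)))
noncomputable def n1611 : Strat := .move 801 n984 (.cons 802 n1610 .nil)
noncomputable def n1612 : Strat := .move 883 n1298 (.cons 884 n1611 .nil)
noncomputable def n1613 : Strat := .move 839 n1578 (.cons 883 n1594 (.cons 801 n1582 (.cons 838 n1612 .nil)))
noncomputable def n1614 : Strat := .move 842 n1508 (.cons 839 n1527 (.cons 882 n1543 (.cons 883 n1552 (.cons 800 n1558 (.cons 801 n1566 (.cons 884 n1571 (.cons 802 n1574 (.cons 844 n1592 (.cons 843 n1613 .nil)))))))))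
noncomputable def n1615 : Strat := .move 839 n108 (.cons 879 n1479 .nil)
noncomputable def n1616 : Strat := .move 880 n107 (.cons 843 n1615 .nil)
noncomputable def n1617 : Strat := .move 880 n108 (.cons 879 n1479 .nil)
noncomputable def n1618 : Strat := .move 838 n111 (.cons 796 n1458 .nil)
noncomputable def n1619 : Strat := .move 797 n1579 (.cons 798 n1618 .nil)
noncomputable def n1620 : Strat := .move 880 n108 (.cons 879 n1619 .nil)
noncomputable def n1621 : Strat := .win 924 7 759
noncomputable def n1622 : Strat := .move 883 n1621 (.cons 924 n1298 .nil)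
noncomputable def n1623 : Strat := .move 759 n1309 (.cons 718 n1622 .nil)
noncomputable def n1624 : Strat := .move 800 n566 (.cons 838 n1623 .nil)
noncomputable def n1625 : Strat := .move 801 n984 (.cons 802 n1624 .nil)
noncomputable def n1626 : Strat := .win 962 3 798
noncomputable def n1627 : Strat := .move 799 n1626 (.cons 962 n399 .nil)
noncomputable def n1628 : Strat := .move 962 n1471 (.cons 1003 n1470 .nil)
noncomputable def n1629 : Strat := .win 799 1 757
noncomputable def n1630 : Strat := .win 717 3 716
noncomputable def n1631 : Strat := .move 757 n1630 (.cons 717 n1455 .nil)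
noncomputable def n1632 : Strat := .move 758 n1629 (.cons 799 n1631 .nil)
noncomputable def n1633 : Strat := .win 1002 1 838
noncomputable def n1634 : Strat := .win 920 1 797
noncomputable def n1635 : Strat := .move 961 n1633 (.cons 1002 n1634 .nil)
noncomputable def n1636 : Strat := .move 962 n1471 (.cons 1003 n1635 .nil)
noncomputable def n1637 : Strat := .move 921 n1627 (.cons 758 n1628 (.cons 962 n1632 (.cons 799 n1636 .nil)))
noncomputable def n1638 : Strat := .move 798 n649 (.cons 797 n1637 .nil)
noncomputable def n1639 : Strat := .move 880 n108 (.cons 879 n1638 .nil)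
noncomputable def n1640 : Strat := .move 839 n1617 (.cons 759 n1620 (.cons 880 n1625 (.cons 801 n1639 .nil)))
noncomputable def n1641 : Strat := .move 843 n574 (.cons 880 n1534 .nil)
noncomputable def n1642 : Strat := .move 843 n574 (.cons 880 n1542 .nil)
noncomputable def n1643 : Strat := .move 843 n574 (.cons 880 n1530 .nil)
noncomputable def n1644 : Strat := .move 843 n574 (.cons 880 n1510 .nil)
noncomputable def n1645 : Strat := .move 842 n1616 (.cons 843 n1640 (.cons 802 n1641 (.cons 884 n1642 (.cons 800 n1643 (.cons 880 n1543 (.cons 839 n1644 .nil))))))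
noncomputable def n1646 : Strat := .move 797 n111 (.cons 796 n1579 .nil)
noncomputable def n1647 : Strat := .move 838 n1575 (.cons 882 n1646 .nil)
noncomputable def n1648 : Strat := .move 883 n1298 (.cons 884 n1647 .nil)
noncomputable def n1649 : Strat := .move 838 n102 (.cons 837 n1646 .nil)
noncomputable def n1650 : Strat := .win 800 3 759
noncomputable def n1651 : Strat := .move 760 n1650 (.cons 800 n1322 .nil)
noncomputable def n1652 : Strat := .move 923 n1319 (.cons 964 n1651 .nil)
noncomputable def n1653 : Strat := .move 801 n984 (.cons 802 n1652 .nil)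
noncomputable def n1654 : Strat := .move 882 n1649 (.cons 838 n1653 .nil)
noncomputable def n1655 : Strat := .move 839 n1648 (.cons 838 n1469 (.cons 883 n1654 (.cons 882 n1479 .nil)))
noncomputable def n1656 : Strat := .move 842 n107 (.cons 843 n1655 .nil)
noncomputable def n1657 : Strat := .move 842 n107 (.cons 843 n1482 .nil)
noncomputable def n1658 : Strat := .move 879 n454 (.cons 878 n1657 .nil)
noncomputable def n1659 : Strat := .move 882 n453 (.cons 842 n1490 .nil)
noncomputable def n1660 : Strat := .move 879 n454 (.cons 878 n1659 .nil)
noncomputable def n1661 : Strat := .move 883 n1342 (.cons 839 n1098 .nil)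
noncomputable def n1662 : Strat := .move 838 n860 (.cons 837 n1661 .nil)
noncomputable def n1663 : Strat := .win 962 6 797
noncomputable def n1664 : Strat := .win 756 6 756
noncomputable def n1665 : Strat := .move 921 n1663 (.cons 962 n1664 .nil)
noncomputable def n1666 : Strat := .win 755 7 755
noncomputable def n1667 : Strat := .win 839 2 796
noncomputable def n1668 : Strat := .move 796 n1666 (.cons 755 n1667 .nil)
noncomputable def n1669 : Strat := .move 797 n1665 (.cons 756 n1668 .nil)
noncomputable def n1670 : Strat := .move 920 n699 (.cons 919 n1669 .nil)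
noncomputable def n1671 : Strat := .move 838 n860 (.cons 837 n1670 .nil)
noncomputable def n1672 : Strat := .move 883 n445 (.cons 884 n1098 .nil)
noncomputable def n1673 : Strat := .win 757 1 756
noncomputable def n1674 : Strat := .win 921 1 797
noncomputable def n1675 : Strat := .win 1002 3 838
noncomputable def n1676 : Strat := .move 961 n1674 (.cons 921 n1675 .nil)
noncomputable def n1677 : Strat := .move 798 n1673 (.cons 757 n1676 .nil)
noncomputable def n1678 : Strat := .move 920 n699 (.cons 919 n1677 .nil)
noncomputable def n1679 : Strat := .move 839 n1672 (.cons 883 n1678 .nil)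
noncomputable def n1680 : Strat := .move 797 n1663 (.cons 962 n1664 .nil)
noncomputable def n1681 : Strat := .move 921 n607 (.cons 883 n1680 .nil)
noncomputable def n1682 : Strat := .move 920 n699 (.cons 919 n1681 .nil)
noncomputable def n1683 : Strat := .move 838 n860 (.cons 837 n1682 .nil)
noncomputable def n1684 : Strat := .move 882 n1662 (.cons 883 n1671 (.cons 838 n1679 (.cons 839 n1683 .nil)))
noncomputable def n1685 : Strat := .move 879 n454 (.cons 878 n1684 .nil)
noncomputable def n1686 : Strat := .move 880 n1451 (.cons 879 n1656 (.cons 839 n1658 (.cons 843 n1660 (.cons 842 n1685 .nil))))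
noncomputable def n1687 : Strat := .move 921 n1472 (.cons 1003 n1627 (.cons 799 n1636 (.cons 962 n1632 .nil)))
noncomputable def n1688 : Strat := .move 798 n649 (.cons 797 n1687 .nil)
noncomputable def n1689 : Strat := .move 839 n1454 (.cons 882 n1688 .nil)
noncomputable def n1690 : Strat := .move 842 n107 (.cons 843 n1689 .nil)
noncomputable def n1691 : Strat := .move 882 n1662 (.cons 838 n1493 (.cons 923 n1350 .nil))
noncomputable def n1692 : Strat := .move 879 n454 (.cons 878 n1691 .nil)
noncomputable def n1693 : Strat := .move 880 n1451 (.cons 879 n1690 (.cons 839 n1484 (.cons 842 n1692 .nil)))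
noncomputable def n1694 : Strat := .move 882 n453 (.cons 842 n1493 .nil)
noncomputable def n1695 : Strat := .move 879 n454 (.cons 878 n1694 .nil)
noncomputable def n1696 : Strat := .move 756 n1486 (.cons 921 n1485 .nil)
noncomputable def n1697 : Strat := .move 797 n111 (.cons 796 n1696 .nil)
noncomputable def n1698 : Strat := .win 799 5 796
noncomputable def n1699 : Strat := .move 800 n1698 (.cons 799 n564 .nil)
noncomputable def n1700 : Strat := .move 837 n920 (.cons 836 n1699 .nil)
noncomputable def n1701 : Strat := .move 838 n1697 (.cons 797 n1700 .nil)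
noncomputable def n1702 : Strat := .move 839 n104 (.cons 842 n1701 .nil)
noncomputable def n1703 : Strat := .move 879 n454 (.cons 878 n1702 .nil)
noncomputable def n1704 : Strat := .move 879 n453 (.cons 842 n1490 .nil)
noncomputable def n1705 : Strat := .move 879 n453 (.cons 842 n1493 .nil)
noncomputable def n1706 : Strat := .move 839 n1299 (.cons 838 n1473 .nil)
noncomputable def n1707 : Strat := .move 839 n1298 (.cons 884 n1452 .nil)
noncomputable def n1708 : Strat := .win 800 7 800
noncomputable def n1709 : Strat := .win 1006 7 841
noncomputable def n1710 : Strat := .move 965 n1708 (.cons 800 n1709 .nil)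
noncomputable def n1711 : Strat := .move 924 n458 (.cons 925 n1710 .nil)
noncomputable def n1712 : Strat := .move 842 n1707 (.cons 839 n1711 .nil)
noncomputable def n1713 : Strat := .win 759 6 759
noncomputable def n1714 : Strat := .win 923 6 800
noncomputable def n1715 : Strat := .move 965 n1714 (.cons 923 n1709 .nil)
noncomputable def n1716 : Strat := .move 800 n1713 (.cons 759 n1715 .nil)
noncomputable def n1717 : Strat := .move 924 n458 (.cons 925 n1716 .nil)
noncomputable def n1718 : Strat := .move 883 n1402 (.cons 884 n1706 (.cons 838 n1712 (.cons 839 n1717 .nil)))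
noncomputable def n1719 : Strat := .move 879 n1490 (.cons 883 n1493 .nil)
noncomputable def n1720 : Strat := .move 882 n1704 (.cons 883 n1705 (.cons 879 n1718 (.cons 842 n1719 .nil)))
noncomputable def n1721 : Strat := .move 842 n1454 (.cons 883 n1461 (.cons 838 n1469 (.cons 801 n1475 (.cons 882 n1479 .nil))))
noncomputable def n1722 : Strat := .move 838 n1457 (.cons 800 n1456 .nil)
noncomputable def n1723 : Strat := .move 801 n984 (.cons 802 n1722 .nil)
noncomputable def n1724 : Strat := .win 795 2 795
noncomputable def n1725 : Strat := .win 797 2 796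
noncomputable def n1726 : Strat := .move 796 n1724 (.cons 795 n1725 .nil)
noncomputable def n1727 : Strat := .move 837 n920 (.cons 836 n1726 .nil)
noncomputable def n1728 : Strat := .move 838 n1457 (.cons 800 n1727 .nil)
noncomputable def n1729 : Strat := .move 801 n984 (.cons 802 n1728 .nil)
noncomputable def n1730 : Strat := .move 842 n1454 (.cons 883 n1723 (.cons 838 n1469 (.cons 882 n1729 (.cons 801 n1475 .nil))))
noncomputable def n1731 : Strat := .move 842 n1454 (.cons 882 n1688 .nil)
noncomputable def n1732 : Strat := .move 842 n1454 (.cons 883 n1723 (.cons 882 n1625 (.cons 838 n1469 (.cons 801 n1475 .nil))))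
noncomputable def n1733 : Strat := .move 842 n1475 (.cons 882 n1638 (.cons 921 n1582 .nil))
noncomputable def n1734 : Strat := .move 758 n123 (.cons 921 n166 .nil)
noncomputable def n1735 : Strat := .move 800 n564 (.cons 801 n135 .nil)
noncomputable def n1736 : Strat := .win 842 2 797
noncomputable def n1737 : Strat := .move 798 n473 (.cons 756 n1736 .nil)
noncomputable def n1738 : Strat := .move 921 n1626 (.cons 962 n1737 .nil)
noncomputable def n1739 : Strat := .move 797 n111 (.cons 796 n1738 .nil)
noncomputable def n1740 : Strat := .move 838 n922 (.cons 882 n1735 (.cons 837 n1739 .nil))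
noncomputable def n1741 : Strat := .win 758 1 716
noncomputable def n1742 : Strat := .win 800 5 796
noncomputable def n1743 : Strat := .move 837 n1742 (.cons 800 n921 .nil)
noncomputable def n1744 : Strat := .move 837 n1742 (.cons 800 n920 .nil)
noncomputable def n1745 : Strat := .move 842 n1580 (.cons 796 n1576 .nil)
noncomputable def n1746 : Strat := .move 838 n1456 (.cons 836 n1743 (.cons 882 n1744 (.cons 837 n1745 .nil)))
noncomputable def n1747 : Strat := .move 717 n1741 (.cons 758 n1746 .nil)
noncomputable def n1748 : Strat := .move 799 n1734 (.cons 758 n1740 (.cons 921 n1747 .nil))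
noncomputable def n1749 : Strat := .move 882 n102 (.cons 837 n101 .nil)
noncomputable def n1750 : Strat := .move 800 n564 (.cons 801 n1698 .nil)
noncomputable def n1751 : Strat := .move 837 n920 (.cons 836 n1750 .nil)
noncomputable def n1752 : Strat := .win 962 7 797
noncomputable def n1753 : Strat := .win 798 7 756
noncomputable def n1754 : Strat := .move 756 n1753 (.cons 798 n1485 .nil)
noncomputable def n1755 : Strat := .move 921 n1752 (.cons 962 n1754 .nil)
noncomputable def n1756 : Strat := .move 797 n111 (.cons 796 n1755 .nil)
noncomputable def n1757 : Strat := .move 882 n101 (.cons 883 n1756 .nil)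
noncomputable def n1758 : Strat := .move 838 n1749 (.cons 882 n1751 (.cons 837 n1757 .nil))
noncomputable def n1759 : Strat := .move 799 n399 (.cons 758 n1626 .nil)
noncomputable def n1760 : Strat := .move 797 n473 (.cons 756 n1736 .nil)
noncomputable def n1761 : Strat := .move 798 n1760 (.cons 842 n1631 .nil)
noncomputable def n1762 : Strat := .move 758 n1629 (.cons 799 n1761 .nil)
noncomputable def n1763 : Strat := .move 798 n1634 (.cons 920 n1760 .nil)
noncomputable def n1764 : Strat := .move 961 n1633 (.cons 1002 n1763 .nil)
noncomputable def n1765 : Strat := .move 962 n1471 (.cons 1003 n1764 .nil)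
noncomputable def n1766 : Strat := .move 921 n1759 (.cons 962 n1762 (.cons 758 n1628 (.cons 799 n1765 .nil)))
noncomputable def n1767 : Strat := .move 838 n1456 (.cons 836 n1576 .nil)
noncomputable def n1768 : Strat := .move 757 n1455 (.cons 716 n1767 .nil)
noncomputable def n1769 : Strat := .move 798 n649 (.cons 797 n1768 .nil)
noncomputable def n1770 : Strat := .move 842 n1582 (.cons 883 n1769 (.cons 838 n1469 (.cons 882 n1479 .nil)))
noncomputable def n1771 : Strat := .move 839 n1721 (.cons 798 n1730 (.cons 800 n1731 (.cons 797 n1732 (.cons 801 n1733 (.cons 883 n1748 (.cons 842 n1758 (.cons 838 n1766 (.cons 921 n1770 .nil))))))))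
noncomputable def n1772 : Strat := .move 880 n1660 (.cons 839 n1695 (.cons 882 n1703 (.cons 878 n1720 (.cons 842 n1495 (.cons 879 n1771 .nil)))))
noncomputable def n1773 : Strat := .move 882 n1493 (.cons 799 n1671 .nil)
noncomputable def n1774 : Strat := .move 879 n454 (.cons 878 n1773 .nil)
noncomputable def n1775 : Strat := .move 879 n1085 (.cons 839 n1482 .nil)
noncomputable def n1776 : Strat := .move 842 n107 (.cons 843 n1775 .nil)
noncomputable def n1777 : Strat := .move 838 n111 (.cons 796 n1456 .nil)
noncomputable def n1778 : Strat := .move 797 n1579 (.cons 798 n1777 .nil)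
noncomputable def n1779 : Strat := .move 839 n1461 (.cons 798 n1723 (.cons 801 n1778 (.cons 882 n1619 (.cons 838 n1688 .nil))))
noncomputable def n1780 : Strat := .move 842 n107 (.cons 843 n1779 .nil)
noncomputable def n1781 : Strat := .move 880 n1087 (.cons 842 n1774 (.cons 878 n1776 (.cons 839 n1658 (.cons 879 n1780 .nil))))
noncomputable def n1782 : Strat := .move 839 n108 (.cons 879 n1469 .nil)
noncomputable def n1783 : Strat := .move 880 n107 (.cons 843 n1782 .nil)
noncomputable def n1784 : Strat := .move 883 n1332 (.cons 839 n1554 .nil)
noncomputable def n1785 : Strat := .move 884 n997 (.cons 885 n1784 .nil)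
noncomputable def n1786 : Strat := .move 882 n1158 (.cons 844 n1785 .nil)
noncomputable def n1787 : Strat := .move 802 n1001 (.cons 803 n1528 .nil)
noncomputable def n1788 : Strat := .move 884 n997 (.cons 885 n1787 .nil)
noncomputable def n1789 : Strat := .move 843 n1786 (.cons 844 n1788 (.cons 839 n1501 .nil))
noncomputable def n1790 : Strat := .move 880 n107 (.cons 843 n1450 .nil)
noncomputable def n1791 : Strat := .move 880 n107 (.cons 843 n1483 .nil)
noncomputable def n1792 : Strat := .move 800 n1315 (.cons 965 n1713 .nil)
noncomputable def n1793 : Strat := .move 924 n458 (.cons 925 n1792 .nil)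
noncomputable def n1794 : Strat := .move 883 n1707 (.cons 839 n1793 .nil)
noncomputable def n1795 : Strat := .move 880 n410 (.cons 879 n1794 .nil)
noncomputable def n1796 : Strat := .win 799 7 799
noncomputable def n1797 : Strat := .move 964 n1157 (.cons 801 n1796 .nil)
noncomputable def n1798 : Strat := .win 1005 7 840
noncomputable def n1799 : Strat := .move 964 n1157 (.cons 801 n1798 .nil)
noncomputable def n1800 : Strat := .win 799 6 758
noncomputable def n1801 : Strat := .win 717 7 717
noncomputable def n1802 : Strat := .move 759 n1801 (.cons 717 n1309 .nil)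
noncomputable def n1803 : Strat := .move 758 n1800 (.cons 799 n1802 .nil)
noncomputable def n1804 : Strat := .win 965 6 800
noncomputable def n1805 : Strat := .win 926 2 881
noncomputable def n1806 : Strat := .win 883 0 880
noncomputable def n1807 : Strat := .move 925 n1805 (.cons 926 n1806 .nil)
noncomputable def n1808 : Strat := .move 924 n1804 (.cons 965 n1807 .nil)
noncomputable def n1809 : Strat := .move 800 n1803 (.cons 758 n1808 .nil)
noncomputable def n1810 : Strat := .move 923 n1797 (.cons 799 n1799 (.cons 964 n1809 .nil))
noncomputable def n1811 : Strat := .move 880 n410 (.cons 879 n1810 .nil)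
noncomputable def n1812 : Strat := .move 964 n1796 (.cons 799 n1157 .nil)
noncomputable def n1813 : Strat := .move 799 n1491 (.cons 964 n326 .nil)
noncomputable def n1814 : Strat := .win 1005 3 841
noncomputable def n1815 : Strat := .move 964 n1814 (.cons 1005 n1157 .nil)
noncomputable def n1816 : Strat := .move 884 n1099 (.cons 885 n451 .nil)
noncomputable def n1817 : Strat := .move 923 n1812 (.cons 801 n1813 (.cons 799 n1815 (.cons 964 n1816 .nil)))
noncomputable def n1818 : Strat := .win 760 1 759
noncomputable def n1819 : Strat := .move 923 n1818 (.cons 760 n1596 .nil)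
noncomputable def n1820 : Strat := .win 761 3 760
noncomputable def n1821 : Strat := .move 802 n1820 (.cons 761 n1324 .nil)
noncomputable def n1822 : Strat := .move 801 n1330 (.cons 719 n1819 (.cons 923 n1821 .nil))
noncomputable def n1823 : Strat := .move 924 n458 (.cons 925 n1822 .nil)
noncomputable def n1824 : Strat := .move 884 n1332 (.cons 839 n1099 .nil)
noncomputable def n1825 : Strat := .move 883 n1707 (.cons 839 n1817 (.cons 884 n1823 (.cons 801 n1824 .nil)))
noncomputable def n1826 : Strat := .move 880 n410 (.cons 879 n1825 .nil)
noncomputable def n1827 : Strat := .move 964 n1796 (.cons 799 n1798 .nil)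
noncomputable def n1828 : Strat := .win 883 6 759
noncomputable def n1829 : Strat := .move 924 n1828 (.cons 883 n1804 .nil)
noncomputable def n1830 : Strat := .move 759 n1309 (.cons 718 n1829 .nil)
noncomputable def n1831 : Strat := .move 800 n717 (.cons 801 n1830 .nil)
noncomputable def n1832 : Strat := .move 799 n326 (.cons 758 n1831 .nil)
noncomputable def n1833 : Strat := .move 923 n1797 (.cons 801 n1827 (.cons 964 n1832 (.cons 799 n1799 .nil)))
noncomputable def n1834 : Strat := .win 880 5 838
noncomputable def n1835 : Strat := .move 801 n714 (.cons 760 n1325 .nil)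
noncomputable def n1836 : Strat := .move 800 n1803 (.cons 758 n1835 .nil)
noncomputable def n1837 : Strat := .move 923 n1797 (.cons 801 n1492 (.cons 964 n1836 (.cons 799 n1799 .nil)))
noncomputable def n1838 : Strat := .move 879 n1834 (.cons 880 n1837 .nil)
noncomputable def n1839 : Strat := .move 883 n1824 (.cons 839 n1793 .nil)
noncomputable def n1840 : Strat := .move 880 n410 (.cons 879 n1839 .nil)
noncomputable def n1841 : Strat := .move 882 n1795 (.cons 839 n1811 (.cons 800 n1826 (.cons 880 n1833 (.cons 883 n1838 (.cons 801 n1840 .nil)))))
noncomputable def n1842 : Strat := .move 842 n1783 (.cons 880 n1789 (.cons 882 n1790 (.cons 839 n1791 (.cons 843 n1841 .nil))))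
noncomputable def n1843 : Strat := .move 839 n1475 (.cons 882 n1638 (.cons 921 n1582 .nil))
noncomputable def n1844 : Strat := .move 842 n107 (.cons 843 n1843 .nil)
noncomputable def n1845 : Strat := .move 882 n453 (.cons 842 n1662 .nil)
noncomputable def n1846 : Strat := .move 879 n454 (.cons 878 n1845 .nil)
noncomputable def n1847 : Strat := .move 880 n1087 (.cons 879 n1844 (.cons 843 n1846 (.cons 839 n1484 (.cons 842 n1692 .nil))))
noncomputable def n1848 : Strat := .move 843 n1501 (.cons 844 n1504 (.cons 803 n1507 .nil))
noncomputable def n1849 : Strat := .move 880 n108 (.cons 879 n1648 .nil)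
noncomputable def n1850 : Strat := .move 838 n1457 (.cons 800 n102 .nil)
noncomputable def n1851 : Strat := .move 801 n984 (.cons 802 n1850 .nil)
noncomputable def n1852 : Strat := .move 882 n1649 (.cons 796 n1851 (.cons 838 n1653 .nil))
noncomputable def n1853 : Strat := .move 880 n108 (.cons 879 n1852 .nil)
noncomputable def n1854 : Strat := .move 883 n1298 (.cons 884 n1619 .nil)
noncomputable def n1855 : Strat := .move 880 n108 (.cons 879 n1854 .nil)
noncomputable def n1856 : Strat := .win 961 1 797
noncomputable def n1857 : Strat := .win 882 4 879
noncomputable def n1858 : Strat := .move 920 n1856 (.cons 961 n1857 .nil)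
noncomputable def n1859 : Strat := .move 921 n1627 (.cons 758 n1628 (.cons 962 n1858 .nil))
noncomputable def n1860 : Strat := .move 798 n649 (.cons 797 n1859 .nil)
noncomputable def n1861 : Strat := .move 883 n1298 (.cons 884 n1860 .nil)
noncomputable def n1862 : Strat := .move 880 n108 (.cons 879 n1861 .nil)
noncomputable def n1863 : Strat := .move 839 n1849 (.cons 880 n1578 (.cons 883 n1853 (.cons 882 n1855 (.cons 838 n1862 .nil))))
noncomputable def n1864 : Strat := .move 843 n574 (.cons 880 n1501 .nil)
noncomputable def n1865 : Strat := .move 842 n1790 (.cons 880 n1848 (.cons 843 n1863 (.cons 839 n1864 .nil)))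
noncomputable def n1866 : Strat := .move 843 n574 (.cons 880 n1158 .nil)
noncomputable def n1867 : Strat := .move 964 n1798 (.cons 1005 n1157 .nil)
noncomputable def n1868 : Strat := .move 923 n1827 (.cons 799 n1867 (.cons 964 n1809 .nil))
noncomputable def n1869 : Strat := .move 880 n410 (.cons 879 n1868 .nil)
noncomputable def n1870 : Strat := .move 923 n326 (.cons 758 n1491 .nil)
noncomputable def n1871 : Strat := .move 799 n560 (.cons 798 n1870 .nil)
noncomputable def n1872 : Strat := .move 843 n1158 (.cons 844 n1871 .nil)
noncomputable def n1873 : Strat := .move 842 n1866 (.cons 843 n1869 (.cons 880 n1872 .nil))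
noncomputable def n1874 : Strat := .move 879 n454 (.cons 878 n453 .nil)
noncomputable def n1875 : Strat := .win 801 3 759
noncomputable def n1876 : Strat := .move 760 n515 (.cons 719 n1875 .nil)
noncomputable def n1877 : Strat := .move 759 n1309 (.cons 718 n1876 .nil)
noncomputable def n1878 : Strat := .move 800 n1877 (.cons 759 n1808 .nil)
noncomputable def n1879 : Strat := .win 1006 6 841
noncomputable def n1880 : Strat := .win 800 6 800
noncomputable def n1881 : Strat := .move 965 n1879 (.cons 1006 n1880 .nil)
noncomputable def n1882 : Strat := .move 924 n1807 (.cons 883 n1881 .nil)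
noncomputable def n1883 : Strat := .move 964 n1798 (.cons 1005 n1882 .nil)
noncomputable def n1884 : Strat := .move 923 n1867 (.cons 964 n1878 (.cons 801 n1883 .nil))
noncomputable def n1885 : Strat := .move 842 n107 (.cons 843 n1884 .nil)
noncomputable def n1886 : Strat := .move 879 n454 (.cons 878 n1683 .nil)
noncomputable def n1887 : Strat := .move 880 n1874 (.cons 879 n1885 (.cons 842 n1886 .nil))
noncomputable def n1888 : Strat := .win 842 4 839
noncomputable def n1889 : Strat := .win 844 5 840
noncomputable def n1890 : Strat := .move 884 n1099 (.cons 885 n1889 .nil)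
noncomputable def n1891 : Strat := .move 883 n1890 (.cons 885 n1717 .nil)
noncomputable def n1892 : Strat := .move 843 n1888 (.cons 842 n1891 .nil)
noncomputable def n1893 : Strat := .move 880 n1874 (.cons 878 n411 (.cons 879 n1892 (.cons 842 n1886 .nil)))
noncomputable def n1894 : Strat := .win 879 0 879
noncomputable def n1895 : Strat := .move 925 n1806 (.cons 883 n1805 .nil)
noncomputable def n1896 : Strat := .move 880 n1894 (.cons 879 n1895 .nil)
noncomputable def n1897 : Strat := .move 924 n1804 (.cons 965 n1896 .nil)
noncomputable def n1898 : Strat := .move 800 n1877 (.cons 759 n1897 .nil)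
noncomputable def n1899 : Strat := .move 799 n326 (.cons 758 n1898 .nil)
noncomputable def n1900 : Strat := .move 799 n1491 (.cons 964 n1898 .nil)
noncomputable def n1901 : Strat := .move 880 n1806 (.cons 883 n1894 .nil)
noncomputable def n1902 : Strat := .move 925 n1805 (.cons 926 n1901 .nil)
noncomputable def n1903 : Strat := .move 924 n1880 (.cons 800 n1902 .nil)
noncomputable def n1904 : Strat := .move 965 n1879 (.cons 1006 n1903 .nil)
noncomputable def n1905 : Strat := .move 964 n1798 (.cons 1005 n1904 .nil)
noncomputable def n1906 : Strat := .move 923 n1492 (.cons 964 n1899 (.cons 758 n1900 (.cons 799 n1905 .nil)))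
noncomputable def n1907 : Strat := .move 842 n1157 (.cons 801 n1866 .nil)
noncomputable def n1908 : Strat := .move 964 n1798 (.cons 1005 n1907 .nil)
noncomputable def n1909 : Strat := .move 842 n561 (.cons 844 n574 .nil)
noncomputable def n1910 : Strat := .win 798 0 798
noncomputable def n1911 : Strat := .move 842 n1910 (.cons 798 n561 .nil)
noncomputable def n1912 : Strat := .move 842 n1910 (.cons 798 n574 .nil)
noncomputable def n1913 : Strat := .move 802 n277 (.cons 844 n715 .nil)
noncomputable def n1914 : Strat := .move 843 n1909 (.cons 880 n1911 (.cons 844 n1912 (.cons 842 n1913 .nil)))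
noncomputable def n1915 : Strat := .move 801 n714 (.cons 760 n1914 .nil)
noncomputable def n1916 : Strat := .move 800 n1877 (.cons 719 n1830 (.cons 759 n1915 .nil))
noncomputable def n1917 : Strat := .move 799 n326 (.cons 758 n1916 .nil)
noncomputable def n1918 : Strat := .move 923 n1827 (.cons 1005 n1492 (.cons 799 n1908 (.cons 964 n1917 .nil)))
noncomputable def n1919 : Strat := .move 884 n1889 (.cons 844 n1099 .nil)
noncomputable def n1920 : Strat := .move 843 n1888 (.cons 842 n1919 .nil)
noncomputable def n1921 : Strat := .move 965 n1709 (.cons 1006 n1880 .nil)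
noncomputable def n1922 : Strat := .move 924 n458 (.cons 925 n1921 .nil)
noncomputable def n1923 : Strat := .move 883 n1920 (.cons 843 n1922 .nil)
noncomputable def n1924 : Strat := .move 879 n454 (.cons 878 n1104 .nil)
noncomputable def n1925 : Strat := .move 880 n1874 (.cons 879 n1923 (.cons 842 n1924 .nil))
noncomputable def n1926 : Strat := .move 758 n1800 (.cons 799 n1925 .nil)
noncomputable def n1927 : Strat := .move 880 n107 (.cons 843 n410 .nil)
noncomputable def n1928 : Strat := .move 842 n1157 (.cons 801 n1927 .nil)
noncomputable def n1929 : Strat := .move 964 n1798 (.cons 1005 n1928 .nil)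
noncomputable def n1930 : Strat := .move 923 n1827 (.cons 1005 n1492 (.cons 964 n1926 (.cons 799 n1929 .nil)))
noncomputable def n1931 : Strat := .move 879 n454 (.cons 878 n1493 .nil)
noncomputable def n1932 : Strat := .move 758 n409 (.cons 717 n168 .nil)
noncomputable def n1933 : Strat := .win 924 6 759
noncomputable def n1934 : Strat := .move 759 n1933 (.cons 924 n1309 .nil)
noncomputable def n1935 : Strat := .move 883 n1919 (.cons 885 n1934 .nil)
noncomputable def n1936 : Strat := .move 923 n714 (.cons 760 n1491 .nil)
noncomputable def n1937 : Strat := .move 802 n715 (.cons 803 n277 .nil)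
noncomputable def n1938 : Strat := .move 801 n1936 (.cons 964 n1937 .nil)
noncomputable def n1939 : Strat := .move 759 n515 (.cons 719 n1309 .nil)
noncomputable def n1940 : Strat := .move 923 n1875 (.cons 801 n1491 .nil)
noncomputable def n1941 : Strat := .move 760 n1939 (.cons 718 n1940 .nil)
noncomputable def n1942 : Strat := .move 800 n1935 (.cons 883 n1938 (.cons 844 n1941 .nil))
noncomputable def n1943 : Strat := .move 758 n409 (.cons 717 n123 .nil)
noncomputable def n1944 : Strat := .move 799 n1932 (.cons 758 n1942 (.cons 923 n1943 .nil))
noncomputable def n1945 : Strat := .move 843 n1888 (.cons 842 n1944 .nil)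
noncomputable def n1946 : Strat := .move 880 n411 (.cons 842 n1931 (.cons 879 n1945 .nil))
noncomputable def n1947 : Strat := .move 880 n410 (.cons 879 n107 .nil)
noncomputable def n1948 : Strat := .move 842 n575 (.cons 880 n562 (.cons 844 n1947 (.cons 843 n1877 .nil)))
noncomputable def n1949 : Strat := .move 799 n326 (.cons 758 n1948 .nil)
noncomputable def n1950 : Strat := .move 799 n326 (.cons 758 n1915 .nil)
noncomputable def n1951 : Strat := .move 799 n326 (.cons 758 n1877 .nil)
noncomputable def n1952 : Strat := .move 759 n1309 (.cons 718 n1801 .nil)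
noncomputable def n1953 : Strat := .move 758 n1800 (.cons 799 n1952 .nil)
noncomputable def n1954 : Strat := .move 760 n1875 (.cons 801 n515 .nil)
noncomputable def n1955 : Strat := .move 759 n1309 (.cons 718 n1954 .nil)
noncomputable def n1956 : Strat := .move 800 n1949 (.cons 759 n1950 (.cons 844 n1951 (.cons 760 n1953 (.cons 799 n1955 .nil))))
noncomputable def n1957 : Strat := .move 923 n1827 (.cons 799 n1929 (.cons 1005 n1492 (.cons 964 n1956 .nil)))
noncomputable def n1958 : Strat := .move 838 n860 (.cons 837 n1680 .nil)
noncomputable def n1959 : Strat := .move 921 n607 (.cons 883 n1958 .nil)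
noncomputable def n1960 : Strat := .move 920 n699 (.cons 919 n1959 .nil)
noncomputable def n1961 : Strat := .move 879 n454 (.cons 878 n1960 .nil)
noncomputable def n1962 : Strat := .move 842 n107 (.cons 843 n1711 .nil)
noncomputable def n1963 : Strat := .move 925 n450 (.cons 924 n449 .nil)
noncomputable def n1964 : Strat := .move 884 n1099 (.cons 885 n1963 .nil)
noncomputable def n1965 : Strat := .move 843 n1888 (.cons 842 n1890 .nil)
noncomputable def n1966 : Strat := .move 883 n1962 (.cons 842 n1964 (.cons 925 n1965 .nil))
noncomputable def n1967 : Strat := .move 880 n411 (.cons 842 n1961 (.cons 879 n1966 .nil))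
noncomputable def n1968 : Strat := .move 923 n1800 (.cons 799 n1954 .nil)
noncomputable def n1969 : Strat := .move 758 n1801 (.cons 717 n1968 .nil)
noncomputable def n1970 : Strat := .move 759 n1309 (.cons 718 n1969 .nil)
noncomputable def n1971 : Strat := .move 801 n192 (.cons 802 n162 .nil)
noncomputable def n1972 : Strat := .win 715 2 715
noncomputable def n1973 : Strat := .win 799 7 716
noncomputable def n1974 : Strat := .move 716 n1972 (.cons 715 n1973 .nil)
noncomputable def n1975 : Strat := .move 757 n1971 (.cons 756 n1974 .nil)
noncomputable def n1976 : Strat := .move 760 n515 (.cons 719 n1975 .nil)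
noncomputable def n1977 : Strat := .move 758 n1801 (.cons 717 n1976 .nil)
noncomputable def n1978 : Strat := .move 759 n1309 (.cons 718 n1977 .nil)
noncomputable def n1979 : Strat := .move 757 n192 (.cons 802 n162 .nil)
noncomputable def n1980 : Strat := .move 801 n1321 (.cons 923 n1979 .nil)
noncomputable def n1981 : Strat := .move 760 n515 (.cons 719 n1980 .nil)
noncomputable def n1982 : Strat := .move 758 n1801 (.cons 717 n1981 .nil)
noncomputable def n1983 : Strat := .move 759 n1309 (.cons 718 n1982 .nil)
noncomputable def n1984 : Strat := .move 964 n1798 (.cons 1005 n1796 .nil)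
noncomputable def n1985 : Strat := .move 923 n1875 (.cons 801 n1984 .nil)
noncomputable def n1986 : Strat := .move 760 n515 (.cons 719 n1985 .nil)
noncomputable def n1987 : Strat := .move 924 n1804 (.cons 965 n1828 .nil)
noncomputable def n1988 : Strat := .move 923 n1800 (.cons 799 n1987 .nil)
noncomputable def n1989 : Strat := .move 758 n1801 (.cons 717 n1988 .nil)
noncomputable def n1990 : Strat := .move 759 n1969 (.cons 799 n1982 (.cons 758 n1986 (.cons 923 n1977 (.cons 719 n1989 .nil))))
noncomputable def n1991 : Strat := .move 759 n1309 (.cons 718 n1986 .nil)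
noncomputable def n1992 : Strat := .move 759 n1309 (.cons 718 n1989 .nil)
noncomputable def n1993 : Strat := .move 756 n175 (.cons 798 n174 .nil)
noncomputable def n1994 : Strat := .move 801 n161 (.cons 802 n1993 .nil)
noncomputable def n1995 : Strat := .move 757 n24 (.cons 716 n1994 .nil)
noncomputable def n1996 : Strat := .move 758 n409 (.cons 717 n1995 .nil)
noncomputable def n1997 : Strat := .move 797 n29 (.cons 796 n28 .nil)
noncomputable def n1998 : Strat := .move 797 n38 (.cons 755 n29 .nil)
noncomputable def n1999 : Strat := .win 757 2 756
noncomputable def n2000 : Strat := .move 801 n1999 (.cons 757 n714 .nil)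
noncomputable def n2001 : Strat := .move 756 n1998 (.cons 796 n2000 .nil)
noncomputable def n2002 : Strat := .move 923 n1491 (.cons 964 n2001 .nil)
noncomputable def n2003 : Strat := .win 842 2 798
noncomputable def n2004 : Strat := .move 760 n261 (.cons 761 n1321 .nil)
noncomputable def n2005 : Strat := .move 801 n1936 (.cons 964 n2004 (.cons 760 n1913 .nil))
noncomputable def n2006 : Strat := .move 843 n2003 (.cons 842 n2005 .nil)
noncomputable def n2007 : Strat := .move 798 n507 (.cons 843 n1997 (.cons 842 n2002 (.cons 797 n2006 .nil)))
noncomputable def n2008 : Strat := .move 799 n1870 (.cons 923 n1996 (.cons 758 n2007 .nil))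
noncomputable def n2009 : Strat := .move 800 n1970 (.cons 923 n1978 (.cons 799 n1983 (.cons 718 n1990 (.cons 758 n1991 (.cons 719 n1992 (.cons 759 n2008 .nil))))))
noncomputable def n2010 : Strat := .move 964 n1814 (.cons 1005 n1796 .nil)
noncomputable def n2011 : Strat := .move 923 n1813 (.cons 758 n2010 (.cons 964 n1816 .nil))
noncomputable def n2012 : Strat := .move 842 n107 (.cons 843 n2011 .nil)
noncomputable def n2013 : Strat := .move 921 n605 (.cons 920 n451 .nil)
noncomputable def n2014 : Strat := .move 884 n1099 (.cons 885 n2013 .nil)
noncomputable def n2015 : Strat := .move 923 n1814 (.cons 1005 n1796 .nil)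
noncomputable def n2016 : Strat := .win 801 1 800
noncomputable def n2017 : Strat := .move 923 n2016 (.cons 801 n1814 .nil)
noncomputable def n2018 : Strat := .move 923 n2016 (.cons 801 n1796 .nil)
noncomputable def n2019 : Strat := .win 1005 1 841
noncomputable def n2020 : Strat := .move 965 n2019 (.cons 1005 n1709 .nil)
noncomputable def n2021 : Strat := .move 964 n2015 (.cons 799 n2017 (.cons 1005 n2018 (.cons 923 n2020 .nil)))
noncomputable def n2022 : Strat := .move 924 n458 (.cons 925 n2021 .nil)
noncomputable def n2023 : Strat := .move 842 n107 (.cons 843 n2022 .nil)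
noncomputable def n2024 : Strat := .move 883 n2012 (.cons 842 n2014 (.cons 884 n2023 (.cons 925 n1965 .nil)))
noncomputable def n2025 : Strat := .move 880 n1874 (.cons 842 n1931 (.cons 878 n411 (.cons 879 n2024 .nil)))
noncomputable def n2026 : Strat := .move 882 n1873 (.cons 799 n1887 (.cons 964 n1893 (.cons 842 n1906 (.cons 879 n1918 (.cons 759 n1930 (.cons 965 n1946 (.cons 883 n1957 (.cons 923 n1967 (.cons 880 n2009 (.cons 800 n2025 .nil))))))))))
noncomputable def n2027 : Strat := .win 960 1 796
noncomputable def n2028 : Strat := .win 880 4 878
noncomputable def n2029 : Strat := .move 919 n2027 (.cons 960 n2028 .nil)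
noncomputable def n2030 : Strat := .win 757 3 756
noncomputable def n2031 : Strat := .win 961 3 797
noncomputable def n2032 : Strat := .move 798 n2030 (.cons 757 n2031 .nil)
noncomputable def n2033 : Strat := .move 920 n2029 (.cons 880 n2032 .nil)
noncomputable def n2034 : Strat := .move 797 n111 (.cons 796 n2033 .nil)
noncomputable def n2035 : Strat := .move 879 n105 (.cons 878 n2034 .nil)
noncomputable def n2036 : Strat := .move 882 n101 (.cons 883 n2035 .nil)
noncomputable def n2037 : Strat := .win 879 4 837
noncomputable def n2038 : Strat := .win 877 4 836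
noncomputable def n2039 : Strat := .move 878 n2037 (.cons 879 n2038 .nil)
noncomputable def n2040 : Strat := .move 837 n921 (.cons 882 n2039 .nil)
noncomputable def n2041 : Strat := .move 880 n1697 (.cons 797 n1700 .nil)
noncomputable def n2042 : Strat := .move 879 n105 (.cons 878 n2041 .nil)
noncomputable def n2043 : Strat := .move 838 n1749 (.cons 837 n2036 (.cons 883 n2040 (.cons 882 n2042 .nil)))
noncomputable def n2044 : Strat := .move 880 n1486 (.cons 921 n1485 .nil)
noncomputable def n2045 : Strat := .win 798 3 756
noncomputable def n2046 : Strat := .win 716 3 715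
noncomputable def n2047 : Strat := .move 757 n2045 (.cons 798 n2046 .nil)
noncomputable def n2048 : Strat := .win 880 6 756
noncomputable def n2049 : Strat := .move 921 n1663 (.cons 962 n2048 .nil)
noncomputable def n2050 : Strat := .move 920 n2032 (.cons 961 n2047 (.cons 757 n2049 .nil))
noncomputable def n2051 : Strat := .win 880 6 715
noncomputable def n2052 : Strat := .win 675 3 674
noncomputable def n2053 : Strat := .win 757 3 715
noncomputable def n2054 : Strat := .move 716 n2052 (.cons 675 n2053 .nil)
noncomputable def n2055 : Strat := .move 715 n2051 (.cons 880 n2054 .nil)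
noncomputable def n2056 : Strat := .win 673 7 673
noncomputable def n2057 : Strat := .win 755 7 714
noncomputable def n2058 : Strat := .move 714 n2056 (.cons 673 n2057 .nil)
noncomputable def n2059 : Strat := .move 715 n2054 (.cons 757 n2058 .nil)
noncomputable def n2060 : Strat := .move 756 n2044 (.cons 715 n2050 (.cons 921 n2055 (.cons 880 n2059 .nil)))
noncomputable def n2061 : Strat := .move 797 n111 (.cons 796 n2060 .nil)
noncomputable def n2062 : Strat := .move 879 n105 (.cons 878 n2061 .nil)
noncomputable def n2063 : Strat := .move 921 n1752 (.cons 962 n1664 .nil)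
noncomputable def n2064 : Strat := .move 797 n111 (.cons 796 n2063 .nil)
noncomputable def n2065 : Strat := .move 880 n2064 (.cons 756 n1727 (.cons 797 n1700 .nil))
noncomputable def n2066 : Strat := .move 879 n105 (.cons 878 n2065 .nil)
noncomputable def n2067 : Strat := .move 796 n1725 (.cons 797 n1724 .nil)
noncomputable def n2068 : Strat := .move 837 n1698 (.cons 799 n2067 .nil)
noncomputable def n2069 : Strat := .move 800 n564 (.cons 801 n2068 .nil)
noncomputable def n2070 : Strat := .move 837 n1698 (.cons 799 n2039 .nil)
noncomputable def n2071 : Strat := .move 800 n564 (.cons 801 n2070 .nil)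
noncomputable def n2072 : Strat := .move 838 n2042 (.cons 837 n2062 (.cons 715 n2066 (.cons 879 n2069 (.cons 796 n2071 .nil))))
noncomputable def n2073 : Strat := .move 837 n2038 (.cons 877 n1698 .nil)
noncomputable def n2074 : Strat := .move 878 n2037 (.cons 879 n2073 .nil)
noncomputable def n2075 : Strat := .move 800 n564 (.cons 801 n2074 .nil)
noncomputable def n2076 : Strat := .win 924 6 800
noncomputable def n2077 : Strat := .move 965 n1879 (.cons 1006 n2076 .nil)
noncomputable def n2078 : Strat := .move 964 n1798 (.cons 1005 n2077 .nil)
noncomputable def n2079 : Strat := .move 923 n1813 (.cons 758 n1984 (.cons 964 n1803 (.cons 799 n2078 .nil)))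
noncomputable def n2080 : Strat := .move 800 n564 (.cons 801 n2079 .nil)
noncomputable def n2081 : Strat := .move 882 n101 (.cons 883 n2080 .nil)
noncomputable def n2082 : Strat := .move 838 n1749 (.cons 882 n2075 (.cons 837 n2081 .nil))
noncomputable def n2083 : Strat := .win 716 1 715
noncomputable def n2084 : Strat := .win 880 1 756
noncomputable def n2085 : Strat := .move 920 n2084 (.cons 880 n2031 .nil)
noncomputable def n2086 : Strat := .move 757 n2083 (.cons 716 n2085 .nil)
noncomputable def n2087 : Strat := .move 879 n105 (.cons 878 n2086 .nil)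
noncomputable def n2088 : Strat := .move 798 n1749 (.cons 882 n2087 .nil)
noncomputable def n2089 : Strat := .move 837 n2038 (.cons 877 n2067 .nil)
noncomputable def n2090 : Strat := .move 878 n2037 (.cons 879 n2089 .nil)
noncomputable def n2091 : Strat := .move 838 n2088 (.cons 882 n2090 (.cons 837 n2036 (.cons 879 n1749 .nil)))
noncomputable def n2092 : Strat := .move 838 n1749 (.cons 882 n2069 (.cons 837 n2081 .nil))
noncomputable def n2093 : Strat := .move 838 n101 (.cons 883 n2035 .nil)
noncomputable def n2094 : Strat := .move 801 n714 (.cons 760 n566 .nil)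
noncomputable def n2095 : Strat := .move 800 n2076 (.cons 924 n2094 .nil)
noncomputable def n2096 : Strat := .move 965 n1879 (.cons 1006 n2095 .nil)
noncomputable def n2097 : Strat := .move 964 n1798 (.cons 1005 n2096 .nil)
noncomputable def n2098 : Strat := .move 800 n2094 (.cons 838 n1802 .nil)
noncomputable def n2099 : Strat := .move 758 n1800 (.cons 799 n2098 .nil)
noncomputable def n2100 : Strat := .move 923 n1492 (.cons 758 n1827 (.cons 799 n2097 (.cons 964 n2099 .nil)))
noncomputable def n2101 : Strat := .move 880 n1894 (.cons 879 n458 .nil)
noncomputable def n2102 : Strat := .move 800 n1804 (.cons 965 n1713 .nil)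
noncomputable def n2103 : Strat := .move 924 n2101 (.cons 925 n2102 .nil)
noncomputable def n2104 : Strat := .move 923 n1491 (.cons 964 n2103 .nil)
noncomputable def n2105 : Strat := .move 880 n123 (.cons 921 n458 .nil)
noncomputable def n2106 : Strat := .move 759 n19 (.cons 718 n457 .nil)
noncomputable def n2107 : Strat := .move 924 n2105 (.cons 925 n2106 .nil)
noncomputable def n2108 : Strat := .move 758 n409 (.cons 717 n2107 .nil)
noncomputable def n2109 : Strat := .move 799 n1932 (.cons 758 n2104 (.cons 923 n2108 .nil))
noncomputable def n2110 : Strat := .move 883 n445 (.cons 884 n2109 .nil)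
noncomputable def n2111 : Strat := .move 882 n2093 (.cons 883 n2100 (.cons 838 n2110 .nil))
noncomputable def n2112 : Strat := .move 717 n631 (.cons 880 n626 .nil)
noncomputable def n2113 : Strat := .move 879 n685 (.cons 920 n454 .nil)
noncomputable def n2114 : Strat := .move 880 n123 (.cons 921 n2113 .nil)
noncomputable def n2115 : Strat := .move 797 n367 (.cons 760 n29 .nil)
noncomputable def n2116 : Strat := .move 759 n19 (.cons 718 n2115 .nil)
noncomputable def n2117 : Strat := .move 798 n2114 (.cons 880 n2116 .nil)
noncomputable def n2118 : Strat := .move 757 n24 (.cons 716 n2117 .nil)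
noncomputable def n2119 : Strat := .move 882 n409 (.cons 717 n168 .nil)
noncomputable def n2120 : Strat := .move 799 n2112 (.cons 717 n2118 (.cons 880 n2119 .nil))
noncomputable def n2121 : Strat := .move 883 n1933 (.cons 924 n445 .nil)
noncomputable def n2122 : Strat := .move 882 n168 (.cons 923 n2121 .nil)
noncomputable def n2123 : Strat := .move 800 n2122 (.cons 882 n1229 .nil)
noncomputable def n2124 : Strat := .move 759 n19 (.cons 718 n2123 .nil)
noncomputable def n2125 : Strat := .move 799 n382 (.cons 717 n2124 .nil)
noncomputable def n2126 : Strat := .move 757 n698 (.cons 798 n24 .nil)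
noncomputable def n2127 : Strat := .move 882 n699 (.cons 919 n168 .nil)
noncomputable def n2128 : Strat := .move 920 n2126 (.cons 716 n2127 .nil)
noncomputable def n2129 : Strat := .move 879 n454 (.cons 878 n2128 .nil)
noncomputable def n2130 : Strat := .move 880 n123 (.cons 921 n2129 .nil)
noncomputable def n2131 : Strat := .move 799 n2119 (.cons 717 n2130 (.cons 882 n382 .nil))
noncomputable def n2132 : Strat := .move 799 n24 (.cons 716 n2117 .nil)
noncomputable def n2133 : Strat := .win 800 1 717
noncomputable def n2134 : Strat := .win 799 3 717
noncomputable def n2135 : Strat := .move 718 n2133 (.cons 800 n2134 .nil)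
noncomputable def n2136 : Strat := .win 756 5 715
noncomputable def n2137 : Strat := .win 721 4 717
noncomputable def n2138 : Strat := .win 760 5 716
noncomputable def n2139 : Strat := .move 720 n2137 (.cons 721 n2138 .nil)
noncomputable def n2140 : Strat := .move 719 n2136 (.cons 756 n2139 .nil)
noncomputable def n2141 : Strat := .move 718 n2134 (.cons 799 n2140 .nil)
noncomputable def n2142 : Strat := .move 756 n658 (.cons 800 n195 .nil)
noncomputable def n2143 : Strat := .win 799 4 757
noncomputable def n2144 : Strat := .move 798 n2143 (.cons 799 n345 .nil)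
noncomputable def n2145 : Strat := .move 761 n350 (.cons 801 n2144 .nil)
noncomputable def n2146 : Strat := .move 761 n350 (.cons 801 n354 .nil)
noncomputable def n2147 : Strat := .move 761 n2144 (.cons 797 n354 .nil)
noncomputable def n2148 : Strat := .move 760 n2142 (.cons 756 n2145 (.cons 798 n2146 (.cons 802 n2147 .nil)))
noncomputable def n2149 : Strat := .win 803 2 758
noncomputable def n2150 : Strat := .win 760 0 757
noncomputable def n2151 : Strat := .move 802 n2149 (.cons 803 n2150 .nil)
noncomputable def n2152 : Strat := .move 801 n162 (.cons 756 n2151 .nil)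
noncomputable def n2153 : Strat := .move 800 n1309 (.cons 718 n2152 .nil)
noncomputable def n2154 : Strat := .move 759 n2135 (.cons 800 n2141 (.cons 718 n2148 (.cons 799 n2153 .nil)))
noncomputable def n2155 : Strat := .move 799 n19 (.cons 718 n24 .nil)
noncomputable def n2156 : Strat := .win 760 2 715
noncomputable def n2157 : Strat := .win 713 0 713
noncomputable def n2158 : Strat := .win 756 2 714
noncomputable def n2159 : Strat := .move 714 n2157 (.cons 713 n2158 .nil)
noncomputable def n2160 : Strat := .move 715 n2156 (.cons 760 n2159 .nil)
noncomputable def n2161 : Strat := .move 716 n1973 (.cons 799 n2160 .nil)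
noncomputable def n2162 : Strat := .move 759 n2155 (.cons 718 n2161 (.cons 716 n2135 (.cons 799 n2153 .nil)))
noncomputable def n2163 : Strat := .win 880 7 715
noncomputable def n2164 : Strat := .win 797 6 674
noncomputable def n2165 : Strat := .win 633 6 633
noncomputable def n2166 : Strat := .move 674 n2164 (.cons 797 n2165 .nil)
noncomputable def n2167 : Strat := .move 715 n2163 (.cons 880 n2166 .nil)
noncomputable def n2168 : Strat := .move 800 n180 (.cons 801 n1309 .nil)
noncomputable def n2169 : Strat := .move 797 n194 (.cons 796 n367 .nil)
noncomputable def n2170 : Strat := .move 759 n2168 (.cons 718 n2169 .nil)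
noncomputable def n2171 : Strat := .move 880 n803 (.cons 715 n2113 .nil)
noncomputable def n2172 : Strat := .move 756 n2167 (.cons 715 n2170 (.cons 797 n2171 .nil))
noncomputable def n2173 : Strat := .move 798 n1455 (.cons 716 n2172 .nil)
noncomputable def n2174 : Strat := .win 798 6 716
noncomputable def n2175 : Strat := .move 716 n2174 (.cons 798 n1973 .nil)
noncomputable def n2176 : Strat := .move 757 n2132 (.cons 716 n2154 (.cons 798 n2162 (.cons 799 n2173 (.cons 759 n2175 .nil))))
noncomputable def n2177 : Strat := .move 798 n1254 (.cons 717 n2116 .nil)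
noncomputable def n2178 : Strat := .move 799 n2112 (.cons 717 n2117 (.cons 880 n2177 .nil))
noncomputable def n2179 : Strat := .move 880 n123 (.cons 921 n166 .nil)
noncomputable def n2180 : Strat := .move 799 n19 (.cons 718 n2179 .nil)
noncomputable def n2181 : Strat := .move 882 n1801 (.cons 717 n2121 .nil)
noncomputable def n2182 : Strat := .win 799 2 757
noncomputable def n2183 : Strat := .move 802 n2182 (.cons 799 n2150 .nil)
noncomputable def n2184 : Strat := .move 801 n162 (.cons 756 n2183 .nil)
noncomputable def n2185 : Strat := .move 800 n2181 (.cons 882 n2184 .nil)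
noncomputable def n2186 : Strat := .move 759 n2135 (.cons 800 n2180 (.cons 718 n2185 (.cons 799 n2153 .nil)))
noncomputable def n2187 : Strat := .win 718 5 715
noncomputable def n2188 : Strat := .move 719 n770 (.cons 720 n2187 .nil)
noncomputable def n2189 : Strat := .move 760 n195 (.cons 796 n2188 .nil)
noncomputable def n2190 : Strat := .win 717 5 714
noncomputable def n2191 : Strat := .win 719 5 715
noncomputable def n2192 : Strat := .move 718 n2190 (.cons 717 n2191 .nil)
noncomputable def n2193 : Strat := .move 755 n185 (.cons 715 n2192 .nil)
noncomputable def n2194 : Strat := .move 756 n662 (.cons 755 n2189 (.cons 797 n2193 .nil))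
noncomputable def n2195 : Strat := .move 800 n1309 (.cons 718 n2181 .nil)
noncomputable def n2196 : Strat := .win 756 4 755
noncomputable def n2197 : Strat := .move 796 n474 (.cons 795 n2196 .nil)
noncomputable def n2198 : Strat := .move 797 n367 (.cons 760 n2197 .nil)
noncomputable def n2199 : Strat := .move 880 n1630 (.cons 717 n2113 .nil)
noncomputable def n2200 : Strat := .move 798 n2198 (.cons 797 n2199 .nil)
noncomputable def n2201 : Strat := .move 759 n2153 (.cons 800 n2194 (.cons 760 n2195 (.cons 718 n2200 .nil)))
noncomputable def n2202 : Strat := .move 799 n166 (.cons 717 n123 .nil)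
noncomputable def n2203 : Strat := .win 799 1 716
noncomputable def n2204 : Strat := .win 798 3 716
noncomputable def n2205 : Strat := .move 717 n2203 (.cons 799 n2204 .nil)
noncomputable def n2206 : Strat := .win 879 1 756
noncomputable def n2207 : Strat := .move 920 n1856 (.cons 961 n2206 .nil)
noncomputable def n2208 : Strat := .win 797 7 756
noncomputable def n2209 : Strat := .move 756 n2208 (.cons 797 n803 .nil)
noncomputable def n2210 : Strat := .move 798 n2113 (.cons 878 n2207 (.cons 920 n2209 .nil))
noncomputable def n2211 : Strat := .move 921 n1629 (.cons 799 n2210 .nil)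
noncomputable def n2212 : Strat := .move 798 n1630 (.cons 717 n2113 .nil)
noncomputable def n2213 : Strat := .move 880 n2202 (.cons 921 n2205 (.cons 717 n2211 (.cons 799 n2212 .nil)))
noncomputable def n2214 : Strat := .move 757 n2178 (.cons 798 n2186 (.cons 717 n2154 (.cons 799 n2201 (.cons 760 n2213 .nil))))
noncomputable def n2215 : Strat := .move 799 n19 (.cons 718 n2119 .nil)
noncomputable def n2216 : Strat := .move 799 n409 (.cons 717 n168 .nil)
noncomputable def n2217 : Strat := .win 799 6 717
noncomputable def n2218 : Strat := .win 800 7 717
noncomputable def n2219 : Strat := .move 717 n2217 (.cons 799 n2218 .nil)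
noncomputable def n2220 : Strat := .move 800 n2121 (.cons 884 n1954 .nil)
noncomputable def n2221 : Strat := .move 923 n1800 (.cons 799 n2220 .nil)
noncomputable def n2222 : Strat := .move 800 n1801 (.cons 717 n2121 .nil)
noncomputable def n2223 : Strat := .move 882 n2216 (.cons 923 n2219 (.cons 717 n2221 (.cons 799 n2222 .nil)))
noncomputable def n2224 : Strat := .move 759 n2135 (.cons 800 n2215 (.cons 718 n2223 (.cons 799 n2195 .nil)))
noncomputable def n2225 : Strat := .move 798 n1455 (.cons 716 n2199 .nil)
noncomputable def n2226 : Strat := .win 716 2 715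
noncomputable def n2227 : Strat := .move 715 n2226 (.cons 716 n391 .nil)
noncomputable def n2228 : Strat := .move 760 n2227 (.cons 714 n2188 .nil)
noncomputable def n2229 : Strat := .move 755 n661 (.cons 797 n2192 .nil)
noncomputable def n2230 : Strat := .move 756 n662 (.cons 755 n2228 (.cons 715 n2229 .nil))
noncomputable def n2231 : Strat := .move 756 n658 (.cons 800 n2227 .nil)
noncomputable def n2232 : Strat := .win 717 2 716
noncomputable def n2233 : Strat := .move 716 n2232 (.cons 717 n1972 .nil)
noncomputable def n2234 : Strat := .move 761 n350 (.cons 801 n2233 .nil)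
noncomputable def n2235 : Strat := .move 882 n515 (.cons 719 n1801 .nil)
noncomputable def n2236 : Strat := .move 800 n1971 (.cons 756 n2235 .nil)
noncomputable def n2237 : Strat := .move 761 n2233 (.cons 715 n354 .nil)
noncomputable def n2238 : Strat := .move 760 n2231 (.cons 756 n2234 (.cons 716 n2236 (.cons 802 n2237 .nil)))
noncomputable def n2239 : Strat := .move 759 n2153 (.cons 803 n2195 (.cons 800 n2230 (.cons 718 n2238 .nil)))
noncomputable def n2240 : Strat := .move 757 n2225 (.cons 798 n2239 (.cons 716 n2201 (.cons 717 n2173 .nil)))
noncomputable def n2241 : Strat := .move 758 n2120 (.cons 920 n2125 (.cons 718 n2131 (.cons 717 n2176 (.cons 716 n2214 (.cons 880 n2224 (.cons 799 n2240 .nil))))))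
noncomputable def n2242 : Strat := .move 839 n2043 (.cons 882 n2072 (.cons 880 n2082 (.cons 799 n2091 (.cons 879 n2092 (.cons 837 n2111 (.cons 838 n2241 .nil))))))
noncomputable def n2243 : Strat := .move 839 n1454 (.cons 883 n1723 (.cons 838 n1469 (.cons 882 n1729 (.cons 801 n1475 .nil))))
noncomputable def n2244 : Strat := .move 842 n107 (.cons 843 n2243 .nil)
noncomputable def n2245 : Strat := .move 842 n1085 (.cons 839 n1482 .nil)
noncomputable def n2246 : Strat := .move 879 n454 (.cons 878 n2245 .nil)
noncomputable def n2247 : Strat := .move 923 n1104 (.cons 924 n1813 .nil)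
noncomputable def n2248 : Strat := .move 883 n445 (.cons 884 n1108 .nil)
noncomputable def n2249 : Strat := .move 839 n2247 (.cons 923 n2248 .nil)
noncomputable def n2250 : Strat := .move 882 n1662 (.cons 838 n2249 (.cons 839 n1493 (.cons 923 n1350 .nil)))
noncomputable def n2251 : Strat := .move 879 n454 (.cons 878 n2250 .nil)
noncomputable def n2252 : Strat := .move 880 n1087 (.cons 879 n2244 (.cons 843 n2246 (.cons 839 n1695 (.cons 842 n2251 .nil))))
noncomputable def n2253 : Strat := .move 841 n1496 (.cons 880 n1614 (.cons 882 n1645 (.cons 799 n1686 (.cons 800 n1693 (.cons 843 n1772 (.cons 883 n1781 (.cons 838 n1842 (.cons 801 n1847 (.cons 924 n1865 (.cons 839 n2026 (.cons 842 n2242 (.cons 798 n2252 .nil))))))))))))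
noncomputable def n2254 : Strat := .win 922 6 757
noncomputable def n2255 : Strat := .move 757 n2254 (.cons 922 n1455 .nil)
noncomputable def n2256 : Strat := .move 798 n649 (.cons 797 n2255 .nil)
noncomputable def n2257 : Strat := .move 882 n1299 (.cons 838 n2256 .nil)
noncomputable def n2258 : Strat := .move 883 n1298 (.cons 884 n2257 .nil)
noncomputable def n2259 : Strat := .move 838 n102 (.cons 837 n1458 .nil)
noncomputable def n2260 : Strat := .move 882 n2256 (.cons 757 n1649 (.cons 798 n2259 .nil))
noncomputable def n2261 : Strat := .move 922 n1088 (.cons 757 n134 .nil)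
noncomputable def n2262 : Strat := .move 798 n649 (.cons 797 n2261 .nil)
noncomputable def n2263 : Strat := .move 839 n2258 (.cons 883 n2260 (.cons 798 n1454 (.cons 838 n2262 .nil)))
noncomputable def n2264 : Strat := .move 842 n107 (.cons 843 n2263 .nil)
noncomputable def n2265 : Strat := .win 922 1 758
noncomputable def n2266 : Strat := .move 759 n2265 (.cons 922 n1309 .nil)
noncomputable def n2267 : Strat := .move 800 n564 (.cons 801 n2266 .nil)
noncomputable def n2268 : Strat := .move 839 n101 (.cons 883 n2267 .nil)
noncomputable def n2269 : Strat := .move 838 n860 (.cons 837 n2268 .nil)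
noncomputable def n2270 : Strat := .move 882 n1490 (.cons 838 n1679 (.cons 883 n1671 (.cons 839 n1683 (.cons 921 n2269 .nil))))
noncomputable def n2271 : Strat := .move 879 n454 (.cons 878 n2270 .nil)
noncomputable def n2272 : Strat := .move 882 n453 (.cons 842 n1683 .nil)
noncomputable def n2273 : Strat := .move 879 n454 (.cons 878 n2272 .nil)
noncomputable def n2274 : Strat := .move 841 n1087 (.cons 879 n2264 (.cons 842 n2271 (.cons 839 n2273 .nil)))
noncomputable def n2275 : Strat := .win 918 5 877
noncomputable def n2276 : Strat := .move 919 n537 (.cons 882 n2275 .nil)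
noncomputable def n2277 : Strat := .move 920 n1856 (.cons 961 n2276 .nil)
noncomputable def n2278 : Strat := .win 838 7 797
noncomputable def n2279 : Strat := .move 797 n2278 (.cons 838 n473 .nil)
noncomputable def n2280 : Strat := .move 962 n1471 (.cons 1003 n2279 .nil)
noncomputable def n2281 : Strat := .move 921 n2277 (.cons 919 n1636 (.cons 920 n2280 .nil))
noncomputable def n2282 : Strat := .move 922 n1088 (.cons 757 n2281 .nil)
noncomputable def n2283 : Strat := .win 921 7 756
noncomputable def n2284 : Strat := .win 838 2 796
noncomputable def n2285 : Strat := .move 841 n2284 (.cons 838 n1736 .nil)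
noncomputable def n2286 : Strat := .move 796 n474 (.cons 795 n2285 .nil)
noncomputable def n2287 : Strat := .move 797 n2283 (.cons 921 n2286 .nil)
noncomputable def n2288 : Strat := .move 756 n803 (.cons 715 n2287 .nil)
noncomputable def n2289 : Strat := .move 757 n1455 (.cons 716 n2288 .nil)
noncomputable def n2290 : Strat := .move 922 n134 (.cons 963 n2281 .nil)
noncomputable def n2291 : Strat := .move 798 n2261 (.cons 963 n2282 (.cons 922 n2289 (.cons 757 n2290 .nil)))
noncomputable def n2292 : Strat := .move 882 n102 (.cons 837 n167 .nil)
noncomputable def n2293 : Strat := .win 841 2 796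
noncomputable def n2294 : Strat := .win 919 3 755
noncomputable def n2295 : Strat := .move 878 n2294 (.cons 919 n2038 .nil)
noncomputable def n2296 : Strat := .move 756 n1485 (.cons 715 n2295 .nil)
noncomputable def n2297 : Strat := .move 797 n2293 (.cons 841 n2296 .nil)
noncomputable def n2298 : Strat := .move 796 n1724 (.cons 795 n2297 .nil)
noncomputable def n2299 : Strat := .move 837 n920 (.cons 836 n2298 .nil)
noncomputable def n2300 : Strat := .move 882 n101 (.cons 883 n2267 .nil)
noncomputable def n2301 : Strat := .move 842 n107 (.cons 843 n1458 .nil)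
noncomputable def n2302 : Strat := .move 842 n107 (.cons 843 n1298 .nil)
noncomputable def n2303 : Strat := .move 883 n1575 (.cons 882 n2302 .nil)
noncomputable def n2304 : Strat := .move 841 n2300 (.cons 882 n2301 (.cons 801 n2303 .nil))
noncomputable def n2305 : Strat := .move 838 n2292 (.cons 882 n2299 (.cons 837 n2304 .nil))
noncomputable def n2306 : Strat := .win 759 4 755
noncomputable def n2307 : Strat := .move 796 n2306 (.cons 759 n474 .nil)
noncomputable def n2308 : Strat := .move 758 n1630 (.cons 717 n2307 .nil)
noncomputable def n2309 : Strat := .move 797 n2283 (.cons 921 n2308 .nil)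
noncomputable def n2310 : Strat := .move 756 n803 (.cons 715 n2309 .nil)
noncomputable def n2311 : Strat := .move 757 n1455 (.cons 716 n2310 .nil)
noncomputable def n2312 : Strat := .move 922 n472 (.cons 963 n2277 .nil)
noncomputable def n2313 : Strat := .move 961 n1634 (.cons 920 n1633 .nil)
noncomputable def n2314 : Strat := .move 962 n1471 (.cons 1003 n2313 .nil)
noncomputable def n2315 : Strat := .win 922 6 798
noncomputable def n2316 : Strat := .move 962 n1471 (.cons 1003 n918 .nil)
noncomputable def n2317 : Strat := .move 963 n2315 (.cons 922 n2316 .nil)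
noncomputable def n2318 : Strat := .move 921 n2312 (.cons 922 n2314 (.cons 961 n2317 .nil))
noncomputable def n2319 : Strat := .move 798 n2261 (.cons 922 n2311 (.cons 757 n2318 .nil))
noncomputable def n2320 : Strat := .move 796 n2284 (.cons 838 n474 .nil)
noncomputable def n2321 : Strat := .move 841 n1736 (.cons 842 n2320 .nil)
noncomputable def n2322 : Strat := .move 797 n473 (.cons 756 n2321 .nil)
noncomputable def n2323 : Strat := .move 921 n1636 (.cons 962 n2322 .nil)
noncomputable def n2324 : Strat := .move 922 n1088 (.cons 757 n2323 .nil)
noncomputable def n2325 : Strat := .move 922 n134 (.cons 963 n2323 .nil)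
noncomputable def n2326 : Strat := .move 798 n2261 (.cons 963 n2324 (.cons 922 n2289 (.cons 757 n2325 .nil)))
noncomputable def n2327 : Strat := .move 842 n107 (.cons 843 n1646 .nil)
noncomputable def n2328 : Strat := .move 842 n107 (.cons 843 n1576 .nil)
noncomputable def n2329 : Strat := .move 841 n2327 (.cons 798 n2328 (.cons 842 n1756 .nil))
noncomputable def n2330 : Strat := .move 882 n167 (.cons 883 n2329 .nil)
noncomputable def n2331 : Strat := .move 838 n2292 (.cons 883 n922 (.cons 882 n2299 (.cons 837 n2330 .nil)))
noncomputable def n2332 : Strat := .move 883 n446 (.cons 838 n445 .nil)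
noncomputable def n2333 : Strat := .move 923 n1596 (.cons 964 n1818 .nil)
noncomputable def n2334 : Strat := .win 841 5 798
noncomputable def n2335 : Strat := .move 802 n1820 (.cons 761 n2334 .nil)
noncomputable def n2336 : Strat := .move 801 n2333 (.cons 760 n2335 .nil)
noncomputable def n2337 : Strat := .move 924 n458 (.cons 925 n2336 .nil)
noncomputable def n2338 : Strat := .move 842 n858 (.cons 843 n2337 .nil)
noncomputable def n2339 : Strat := .move 883 n445 (.cons 884 n2338 .nil)
noncomputable def n2340 : Strat := .move 842 n107 (.cons 843 n1580 .nil)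
noncomputable def n2341 : Strat := .move 841 n2267 (.cons 718 n2340 .nil)
noncomputable def n2342 : Strat := .move 838 n102 (.cons 837 n2341 .nil)
noncomputable def n2343 : Strat := .move 882 n2332 (.cons 884 n233 (.cons 838 n2339 (.cons 883 n2342 .nil)))
noncomputable def n2344 : Strat := .move 962 n919 (.cons 797 n1471 .nil)
noncomputable def n2345 : Strat := .move 797 n473 (.cons 756 n1752 .nil)
noncomputable def n2346 : Strat := .move 920 n140 (.cons 919 n1856 .nil)
noncomputable def n2347 : Strat := .move 921 n2344 (.cons 1003 n2345 (.cons 797 n2346 .nil))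
noncomputable def n2348 : Strat := .move 922 n1088 (.cons 757 n2347 .nil)
noncomputable def n2349 : Strat := .move 757 n803 (.cons 715 n1455 .nil)
noncomputable def n2350 : Strat := .move 756 n2208 (.cons 797 n2349 .nil)
noncomputable def n2351 : Strat := .move 921 n2344 (.cons 1003 n2345 (.cons 797 n1636 (.cons 962 n2350 .nil)))
noncomputable def n2352 : Strat := .move 922 n134 (.cons 963 n2347 .nil)
noncomputable def n2353 : Strat := .move 798 n2261 (.cons 963 n2348 (.cons 922 n2351 (.cons 757 n2352 .nil)))
noncomputable def n2354 : Strat := .move 838 n102 (.cons 837 n2353 .nil)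
noncomputable def n2355 : Strat := .move 882 n2332 (.cons 884 n233 (.cons 883 n2354 (.cons 838 n2339 .nil)))
noncomputable def n2356 : Strat := .move 842 n107 (.cons 843 n1454 .nil)
noncomputable def n2357 : Strat := .move 883 n1299 (.cons 838 n445 .nil)
noncomputable def n2358 : Strat := .move 963 n64 (.cons 798 n610 .nil)
noncomputable def n2359 : Strat := .move 838 n564 (.cons 801 n102 .nil)
noncomputable def n2360 : Strat := .move 800 n1314 (.cons 759 n2359 .nil)
noncomputable def n2361 : Strat := .move 922 n2358 (.cons 798 n611 (.cons 963 n2360 .nil))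
noncomputable def n2362 : Strat := .move 883 n445 (.cons 884 n1717 .nil)
noncomputable def n2363 : Strat := .move 882 n2357 (.cons 883 n2361 (.cons 838 n2362 .nil))
noncomputable def n2364 : Strat := .move 842 n107 (.cons 843 n1625 .nil)
noncomputable def n2365 : Strat := .move 842 n107 (.cons 843 n1469 .nil)
noncomputable def n2366 : Strat := .move 800 n1713 (.cons 759 n1315 .nil)
noncomputable def n2367 : Strat := .move 924 n458 (.cons 925 n2366 .nil)
noncomputable def n2368 : Strat := .move 882 n1299 (.cons 838 n2367 .nil)
noncomputable def n2369 : Strat := .move 883 n1298 (.cons 884 n2368 .nil)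
noncomputable def n2370 : Strat := .move 842 n107 (.cons 843 n2369 .nil)
noncomputable def n2371 : Strat := .move 842 n107 (.cons 843 n1723 .nil)
noncomputable def n2372 : Strat := .move 841 n2356 (.cons 842 n2363 (.cons 882 n2364 (.cons 838 n2365 (.cons 801 n2370 (.cons 884 n2371 .nil)))))
noncomputable def n2373 : Strat := .move 839 n2291 (.cons 798 n2305 (.cons 838 n2319 (.cons 882 n2326 (.cons 922 n2331 (.cons 756 n2343 (.cons 796 n2355 (.cons 797 n2372 .nil)))))))
noncomputable def n2374 : Strat := .move 798 n2315 (.cons 922 n2313 .nil)
noncomputable def n2375 : Strat := .move 963 n918 (.cons 1004 n2374 .nil)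
noncomputable def n2376 : Strat := .move 838 n919 (.cons 797 n2292 .nil)
noncomputable def n2377 : Strat := .move 839 n2375 (.cons 922 n2376 .nil)
noncomputable def n2378 : Strat := .move 962 n1471 (.cons 1003 n2377 .nil)
noncomputable def n2379 : Strat := .win 879 4 878
noncomputable def n2380 : Strat := .move 919 n2275 (.cons 918 n2379 .nil)
noncomputable def n2381 : Strat := .move 882 n607 (.cons 883 n2380 .nil)
noncomputable def n2382 : Strat := .win 964 0 919
noncomputable def n2383 : Strat := .move 839 n582 (.cons 1004 n581 .nil)
noncomputable def n2384 : Strat := .move 963 n2382 (.cons 964 n2383 .nil)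
noncomputable def n2385 : Strat := .win 879 0 878
noncomputable def n2386 : Strat := .win 965 0 920
noncomputable def n2387 : Strat := .win 963 0 919
noncomputable def n2388 : Strat := .move 964 n2386 (.cons 965 n2387 .nil)
noncomputable def n2389 : Strat := .move 923 n2385 (.cons 879 n2388 .nil)
noncomputable def n2390 : Strat := .move 878 n144 (.cons 877 n2389 .nil)
noncomputable def n2391 : Strat := .move 960 n146 (.cons 961 n145 .nil)
noncomputable def n2392 : Strat := .move 923 n2385 (.cons 879 n2391 .nil)
noncomputable def n2393 : Strat := .move 878 n144 (.cons 877 n2392 .nil)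
noncomputable def n2394 : Strat := .move 922 n2384 (.cons 1004 n2390 (.cons 963 n2393 .nil))
noncomputable def n2395 : Strat := .move 919 n2275 (.cons 918 n2394 .nil)
noncomputable def n2396 : Strat := .move 757 n1455 (.cons 716 n2206 .nil)
noncomputable def n2397 : Strat := .move 798 n1856 (.cons 961 n2396 .nil)
noncomputable def n2398 : Strat := .move 757 n2254 (.cons 922 n2206 .nil)
noncomputable def n2399 : Strat := .move 798 n1856 (.cons 961 n2398 .nil)
noncomputable def n2400 : Strat := .win 879 6 756
noncomputable def n2401 : Strat := .move 756 n2400 (.cons 879 n1485 .nil)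
noncomputable def n2402 : Strat := .move 797 n1752 (.cons 962 n2401 .nil)
noncomputable def n2403 : Strat := .move 838 n102 (.cons 837 n2402 .nil)
noncomputable def n2404 : Strat := .move 798 n1856 (.cons 961 n2255 .nil)
noncomputable def n2405 : Strat := .move 839 n2397 (.cons 716 n2399 (.cons 798 n2403 (.cons 879 n2404 .nil)))
noncomputable def n2406 : Strat := .move 882 n607 (.cons 883 n2405 .nil)
noncomputable def n2407 : Strat := .win 922 5 878
noncomputable def n2408 : Strat := .move 919 n2275 (.cons 918 n2407 .nil)
noncomputable def n2409 : Strat := .move 882 n607 (.cons 883 n2408 .nil)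
noncomputable def n2410 : Strat := .move 920 n2381 (.cons 882 n2395 (.cons 919 n2406 (.cons 879 n2409 .nil)))
noncomputable def n2411 : Strat := .win 798 1 797
noncomputable def n2412 : Strat := .win 964 2 919
noncomputable def n2413 : Strat := .move 963 n2412 (.cons 964 n918 .nil)
noncomputable def n2414 : Strat := .move 919 n2275 (.cons 918 n2413 .nil)
noncomputable def n2415 : Strat := .move 920 n2411 (.cons 798 n2414 .nil)
noncomputable def n2416 : Strat := .move 961 n1633 (.cons 1002 n2415 .nil)
noncomputable def n2417 : Strat := .move 839 n2376 (.cons 838 n2416 .nil)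
noncomputable def n2418 : Strat := .move 962 n1471 (.cons 1003 n2417 .nil)
noncomputable def n2419 : Strat := .move 882 n607 (.cons 883 n2379 .nil)
noncomputable def n2420 : Strat := .move 919 n2275 (.cons 918 n2419 .nil)
noncomputable def n2421 : Strat := .win 797 6 797
noncomputable def n2422 : Strat := .move 838 n860 (.cons 837 n2421 .nil)
noncomputable def n2423 : Strat := .move 879 n1104 (.cons 924 n2422 .nil)
noncomputable def n2424 : Strat := .win 922 0 920
noncomputable def n2425 : Strat := .win 963 2 920
noncomputable def n2426 : Strat := .move 965 n2424 (.cons 922 n2425 .nil)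
noncomputable def n2427 : Strat := .move 964 n1798 (.cons 1005 n2426 .nil)
noncomputable def n2428 : Strat := .move 923 n2423 (.cons 879 n2427 .nil)
noncomputable def n2429 : Strat := .move 882 n607 (.cons 883 n2428 .nil)
noncomputable def n2430 : Strat := .move 962 n1471 (.cons 1003 n2429 .nil)
noncomputable def n2431 : Strat := .move 1004 n84 (.cons 1044 n584 .nil)
noncomputable def n2432 : Strat := .move 1003 n83 (.cons 962 n2431 .nil)
noncomputable def n2433 : Strat := .move 963 n2382 (.cons 964 n2432 .nil)
noncomputable def n2434 : Strat := .move 922 n537 (.cons 882 n2433 .nil)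
noncomputable def n2435 : Strat := .move 919 n2275 (.cons 918 n2434 .nil)
noncomputable def n2436 : Strat := .move 922 n2390 (.cons 879 n2433 (.cons 964 n2393 .nil))
noncomputable def n2437 : Strat := .move 919 n2275 (.cons 918 n2436 .nil)
noncomputable def n2438 : Strat := .move 920 n2420 (.cons 919 n2430 (.cons 879 n2435 (.cons 882 n2437 .nil)))
noncomputable def n2439 : Strat := .move 963 n918 (.cons 1004 n581 .nil)
noncomputable def n2440 : Strat := .move 838 n919 (.cons 797 n1456 .nil)
noncomputable def n2441 : Strat := .move 922 n2439 (.cons 963 n2440 .nil)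
noncomputable def n2442 : Strat := .win 923 5 919
noncomputable def n2443 : Strat := .win 959 5 918
noncomputable def n2444 : Strat := .move 960 n2442 (.cons 923 n2443 .nil)
noncomputable def n2445 : Strat := .move 961 n1633 (.cons 1002 n2444 .nil)
noncomputable def n2446 : Strat := .move 922 n581 (.cons 798 n2445 .nil)
noncomputable def n2447 : Strat := .move 963 n918 (.cons 1004 n2446 .nil)
noncomputable def n2448 : Strat := .move 839 n2441 (.cons 838 n2447 (.cons 963 n923 .nil))
noncomputable def n2449 : Strat := .move 962 n1471 (.cons 1003 n2448 .nil)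
noncomputable def n2450 : Strat := .move 964 n1288 (.cons 919 n887 .nil)
noncomputable def n2451 : Strat := .move 920 n2411 (.cons 798 n2450 .nil)
noncomputable def n2452 : Strat := .move 961 n1633 (.cons 1002 n2451 .nil)
noncomputable def n2453 : Strat := .move 963 n918 (.cons 1004 n2452 .nil)
noncomputable def n2454 : Strat := .move 798 n2313 (.cons 1002 n2255 .nil)
noncomputable def n2455 : Strat := .move 837 n920 (.cons 836 n2454 .nil)
noncomputable def n2456 : Strat := .move 838 n919 (.cons 797 n2455 .nil)
noncomputable def n2457 : Strat := .win 1006 0 961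
noncomputable def n2458 : Strat := .win 922 6 840
noncomputable def n2459 : Strat := .move 1005 n2457 (.cons 1006 n2458 .nil)
noncomputable def n2460 : Strat := .move 920 n1288 (.cons 919 n887 .nil)
noncomputable def n2461 : Strat := .move 964 n2459 (.cons 922 n2460 .nil)
noncomputable def n2462 : Strat := .move 961 n1633 (.cons 1002 n2461 .nil)
noncomputable def n2463 : Strat := .move 963 n918 (.cons 1004 n2462 .nil)
noncomputable def n2464 : Strat := .move 797 n473 (.cons 756 n2278 .nil)
noncomputable def n2465 : Strat := .move 798 n2315 (.cons 922 n2464 .nil)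
noncomputable def n2466 : Strat := .move 963 n918 (.cons 1004 n2465 .nil)
noncomputable def n2467 : Strat := .move 839 n2375 (.cons 922 n2453 (.cons 963 n2456 (.cons 798 n2463 (.cons 1002 n2466 .nil))))
noncomputable def n2468 : Strat := .move 962 n1471 (.cons 1003 n2467 .nil)
noncomputable def n2469 : Strat := .move 798 n1634 (.cons 920 n2255 .nil)
noncomputable def n2470 : Strat := .move 961 n1633 (.cons 1002 n2469 .nil)
noncomputable def n2471 : Strat := .move 839 n2376 (.cons 882 n2456 (.cons 838 n2470 .nil))
noncomputable def n2472 : Strat := .move 962 n1471 (.cons 1003 n2471 .nil)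
noncomputable def n2473 : Strat := .move 922 n581 (.cons 798 n1362 .nil)
noncomputable def n2474 : Strat := .move 963 n918 (.cons 1004 n2473 .nil)
noncomputable def n2475 : Strat := .move 839 n2375 (.cons 922 n2416 (.cons 920 n2447 (.cons 798 n2463 (.cons 961 n2474 (.cons 963 n2470 .nil)))))
noncomputable def n2476 : Strat := .move 962 n1471 (.cons 1003 n2475 .nil)
noncomputable def n2477 : Strat := .move 839 n2376 (.cons 883 n2474 .nil)
noncomputable def n2478 : Strat := .move 962 n1471 (.cons 1003 n2477 .nil)
noncomputable def n2479 : Strat := .win 922 0 878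
noncomputable def n2480 : Strat := .move 878 n2479 (.cons 922 n850 .nil)
noncomputable def n2481 : Strat := .move 923 n1104 (.cons 924 n2480 .nil)
noncomputable def n2482 : Strat := .move 879 n699 (.cons 919 n2481 .nil)
noncomputable def n2483 : Strat := .move 882 n607 (.cons 883 n2482 .nil)
noncomputable def n2484 : Strat := .move 882 n607 (.cons 883 n2481 .nil)
noncomputable def n2485 : Strat := .win 839 5 836
noncomputable def n2486 : Strat := .win 876 0 876
noncomputable def n2487 : Strat := .move 877 n2485 (.cons 839 n2486 .nil)
noncomputable def n2488 : Strat := .move 878 n848 (.cons 836 n2487 .nil)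
noncomputable def n2489 : Strat := .move 837 n849 (.cons 838 n2488 .nil)
noncomputable def n2490 : Strat := .move 882 n607 (.cons 883 n2489 .nil)
noncomputable def n2491 : Strat := .win 877 0 877
noncomputable def n2492 : Strat := .win 923 0 878
noncomputable def n2493 : Strat := .move 922 n2491 (.cons 877 n2492 .nil)
noncomputable def n2494 : Strat := .win 922 0 877
noncomputable def n2495 : Strat := .move 877 n2486 (.cons 876 n2494 .nil)
noncomputable def n2496 : Strat := .move 877 n2486 (.cons 876 n2485 .nil)
noncomputable def n2497 : Strat := .move 882 n1104 (.cons 924 n607 .nil)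
noncomputable def n2498 : Strat := .move 923 n2479 (.cons 922 n2497 .nil)
noncomputable def n2499 : Strat := .move 878 n2493 (.cons 923 n2495 (.cons 922 n2496 (.cons 877 n2498 .nil)))
noncomputable def n2500 : Strat := .move 882 n849 (.cons 838 n1104 .nil)
noncomputable def n2501 : Strat := .move 837 n848 (.cons 836 n2500 .nil)
noncomputable def n2502 : Strat := .move 923 n2479 (.cons 922 n2501 .nil)
noncomputable def n2503 : Strat := .move 878 n2493 (.cons 923 n2495 (.cons 922 n2496 (.cons 877 n2502 .nil)))
noncomputable def n2504 : Strat := .win 1002 7 837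
noncomputable def n2505 : Strat := .win 838 7 796
noncomputable def n2506 : Strat := .win 755 6 755
noncomputable def n2507 : Strat := .move 796 n2505 (.cons 838 n2506 .nil)
noncomputable def n2508 : Strat := .move 961 n2504 (.cons 1002 n2507 .nil)
noncomputable def n2509 : Strat := .move 837 n848 (.cons 836 n2508 .nil)
noncomputable def n2510 : Strat := .move 878 n2493 (.cons 922 n2496 (.cons 877 n2509 .nil))
noncomputable def n2511 : Strat := .move 839 n2411 (.cons 798 n1675 .nil)
noncomputable def n2512 : Strat := .win 1043 3 879
noncomputable def n2513 : Strat := .win 839 3 838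
noncomputable def n2514 : Strat := .move 1002 n2512 (.cons 1043 n2513 .nil)
noncomputable def n2515 : Strat := .win 1001 1 837
noncomputable def n2516 : Strat := .move 838 n2515 (.cons 1001 n860 .nil)
noncomputable def n2517 : Strat := .win 922 4 919
noncomputable def n2518 : Strat := .move 923 n2517 (.cons 922 n1104 .nil)
noncomputable def n2519 : Strat := .move 960 n2516 (.cons 837 n2518 .nil)
noncomputable def n2520 : Strat := .move 882 n607 (.cons 883 n2519 .nil)
noncomputable def n2521 : Strat := .move 961 n2511 (.cons 798 n2514 (.cons 839 n2520 .nil))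
noncomputable def n2522 : Strat := .move 879 n2484 (.cons 922 n2490 (.cons 838 n2499 (.cons 883 n2503 (.cons 882 n2510 (.cons 878 n2521 .nil)))))
noncomputable def n2523 : Strat := .move 920 n2483 (.cons 882 n2395 (.cons 922 n2381 (.cons 879 n2409 (.cons 919 n2522 .nil))))
noncomputable def n2524 : Strat := .move 921 n2378 (.cons 1003 n2410 (.cons 922 n2418 (.cons 839 n2438 (.cons 920 n2449 (.cons 882 n2468 (.cons 963 n2472 (.cons 838 n2476 (.cons 961 n2478 (.cons 962 n2523 .nil)))))))))
noncomputable def n2525 : Strat := .move 841 n454 (.cons 878 n2272 .nil)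
noncomputable def n2526 : Strat := .move 841 n453 (.cons 842 n1683 .nil)
noncomputable def n2527 : Strat := .move 838 n2421 (.cons 797 n860 .nil)
noncomputable def n2528 : Strat := .move 962 n1471 (.cons 1003 n2527 .nil)
noncomputable def n2529 : Strat := .move 921 n607 (.cons 883 n2528 .nil)
noncomputable def n2530 : Strat := .move 920 n699 (.cons 919 n2529 .nil)
noncomputable def n2531 : Strat := .move 838 n860 (.cons 837 n1352 .nil)
noncomputable def n2532 : Strat := .move 841 n453 (.cons 842 n2531 .nil)
noncomputable def n2533 : Strat := .move 922 n240 (.cons 963 n1314 .nil)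
noncomputable def n2534 : Strat := .win 922 1 799
noncomputable def n2535 : Strat := .move 964 n1156 (.cons 1004 n1798 .nil)
noncomputable def n2536 : Strat := .move 963 n2534 (.cons 922 n2535 .nil)
noncomputable def n2537 : Strat := .move 800 n2266 (.cons 718 n2533 (.cons 922 n1877 (.cons 759 n2536 .nil)))
noncomputable def n2538 : Strat := .move 923 n1104 (.cons 924 n2537 .nil)
noncomputable def n2539 : Strat := .move 841 n453 (.cons 842 n2538 .nil)
noncomputable def n2540 : Strat := .move 882 n2526 (.cons 841 n2530 (.cons 797 n2532 (.cons 883 n2539 .nil)))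
noncomputable def n2541 : Strat := .move 882 n849 (.cons 838 n853 .nil)
noncomputable def n2542 : Strat := .move 837 n848 (.cons 836 n2541 .nil)
noncomputable def n2543 : Strat := .move 919 n852 (.cons 918 n2542 .nil)
noncomputable def n2544 : Strat := .win 882 2 837
noncomputable def n2545 : Strat := .move 837 n2544 (.cons 882 n848 .nil)
noncomputable def n2546 : Strat := .win 920 6 797
noncomputable def n2547 : Strat := .move 797 n2546 (.cons 920 n1664 .nil)
noncomputable def n2548 : Strat := .move 838 n2545 (.cons 836 n2547 .nil)
noncomputable def n2549 : Strat := .move 962 n1471 (.cons 1003 n2548 .nil)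
noncomputable def n2550 : Strat := .move 921 n2491 (.cons 877 n2549 .nil)
noncomputable def n2551 : Strat := .move 922 n2492 (.cons 923 n2550 .nil)
noncomputable def n2552 : Strat := .win 882 4 878
noncomputable def n2553 : Strat := .win 797 1 796
noncomputable def n2554 : Strat := .win 1001 3 837
noncomputable def n2555 : Strat := .move 838 n2553 (.cons 797 n2554 .nil)
noncomputable def n2556 : Strat := .move 921 n145 (.cons 959 n2491 .nil)
noncomputable def n2557 : Strat := .move 960 n2555 (.cons 1001 n2556 .nil)
noncomputable def n2558 : Strat := .move 920 n2552 (.cons 882 n2557 .nil)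
noncomputable def n2559 : Strat := .move 922 n2492 (.cons 923 n2558 .nil)
noncomputable def n2560 : Strat := .move 919 n852 (.cons 918 n2559 .nil)
noncomputable def n2561 : Strat := .win 921 0 877
noncomputable def n2562 : Strat := .win 837 2 836
noncomputable def n2563 : Strat := .win 835 2 835
noncomputable def n2564 : Strat := .move 836 n2562 (.cons 837 n2563 .nil)
noncomputable def n2565 : Strat := .move 877 n2561 (.cons 921 n2564 .nil)
noncomputable def n2566 : Strat := .move 922 n2492 (.cons 923 n2565 .nil)
noncomputable def n2567 : Strat := .move 878 n2543 (.cons 919 n2551 (.cons 837 n2560 (.cons 882 n2566 .nil)))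
noncomputable def n2568 : Strat := .move 841 n454 (.cons 878 n1657 .nil)
noncomputable def n2569 : Strat := .move 878 n847 (.cons 841 n2566 .nil)
noncomputable def n2570 : Strat := .move 879 n2525 (.cons 878 n2540 (.cons 841 n2567 (.cons 838 n2568 (.cons 882 n2569 .nil))))
noncomputable def n2571 : Strat := .win 839 4 836
noncomputable def n2572 : Strat := .win 917 4 876
noncomputable def n2573 : Strat := .win 919 4 877
noncomputable def n2574 : Strat := .move 918 n2572 (.cons 917 n2573 .nil)
noncomputable def n2575 : Strat := .move 877 n2571 (.cons 839 n2574 .nil)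
noncomputable def n2576 : Strat := .move 838 n2544 (.cons 882 n2575 .nil)
noncomputable def n2577 : Strat := .move 837 n848 (.cons 836 n2576 .nil)
noncomputable def n2578 : Strat := .move 878 n847 (.cons 841 n2577 .nil)
noncomputable def n2579 : Strat := .move 920 n699 (.cons 919 n1107 .nil)
noncomputable def n2580 : Strat := .move 883 n859 (.cons 839 n2579 .nil)
noncomputable def n2581 : Strat := .move 838 n860 (.cons 837 n2580 .nil)
noncomputable def n2582 : Strat := .move 924 n1097 (.cons 923 n458 .nil)
noncomputable def n2583 : Strat := .move 883 n858 (.cons 843 n2582 .nil)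
noncomputable def n2584 : Strat := .move 842 n857 (.cons 841 n2583 .nil)
noncomputable def n2585 : Strat := .move 841 n453 (.cons 842 n1671 .nil)
noncomputable def n2586 : Strat := .move 882 n2581 (.cons 838 n2584 (.cons 883 n2585 .nil))
noncomputable def n2587 : Strat := .move 878 n847 (.cons 841 n2543 .nil)
noncomputable def n2588 : Strat := .move 841 n454 (.cons 878 n1086 .nil)
noncomputable def n2589 : Strat := .move 883 n1107 (.cons 921 n2582 .nil)
noncomputable def n2590 : Strat := .move 920 n699 (.cons 919 n2589 .nil)
noncomputable def n2591 : Strat := .move 883 n859 (.cons 839 n2582 .nil)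
noncomputable def n2592 : Strat := .move 838 n860 (.cons 837 n2591 .nil)
noncomputable def n2593 : Strat := .move 882 n2581 (.cons 838 n2590 (.cons 920 n2592 (.cons 883 n856 .nil)))
noncomputable def n2594 : Strat := .move 879 n2578 (.cons 878 n2586 (.cons 839 n2587 (.cons 837 n2588 (.cons 841 n2593 .nil))))
noncomputable def n2595 : Strat := .move 838 n1575 (.cons 882 n1458 .nil)
noncomputable def n2596 : Strat := .move 883 n1298 (.cons 884 n2595 .nil)
noncomputable def n2597 : Strat := .move 839 n1648 (.cons 883 n2262 (.cons 798 n2596 .nil))
noncomputable def n2598 : Strat := .move 842 n107 (.cons 843 n2597 .nil)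
noncomputable def n2599 : Strat := .move 882 n453 (.cons 842 n2269 .nil)
noncomputable def n2600 : Strat := .move 879 n454 (.cons 878 n2599 .nil)
noncomputable def n2601 : Strat := .move 922 n1314 (.cons 759 n240 .nil)
noncomputable def n2602 : Strat := .move 800 n2266 (.cons 718 n2601 (.cons 922 n1877 (.cons 759 n2536 .nil)))
noncomputable def n2603 : Strat := .move 923 n1104 (.cons 924 n2602 .nil)
noncomputable def n2604 : Strat := .win 798 3 797
noncomputable def n2605 : Strat := .move 961 n2604 (.cons 798 n1675 .nil)
noncomputable def n2606 : Strat := .move 839 n101 (.cons 883 n2605 .nil)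
noncomputable def n2607 : Strat := .move 838 n860 (.cons 837 n2606 .nil)
noncomputable def n2608 : Strat := .move 920 n699 (.cons 919 n2607 .nil)
noncomputable def n2609 : Strat := .move 882 n2269 (.cons 839 n2603 (.cons 800 n2608 .nil))
noncomputable def n2610 : Strat := .move 879 n454 (.cons 878 n2609 .nil)
noncomputable def n2611 : Strat := .move 882 n453 (.cons 842 n2603 .nil)
noncomputable def n2612 : Strat := .move 879 n454 (.cons 878 n2611 .nil)
noncomputable def n2613 : Strat := .move 841 n1087 (.cons 879 n2598 (.cons 843 n2600 (.cons 842 n2610 (.cons 839 n2612 .nil))))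
noncomputable def n2614 : Strat := .move 839 n108 (.cons 879 n2258 .nil)
noncomputable def n2615 : Strat := .move 842 n107 (.cons 843 n2614 .nil)
noncomputable def n2616 : Strat := .move 839 n108 (.cons 879 n2262 .nil)
noncomputable def n2617 : Strat := .move 842 n107 (.cons 843 n2616 .nil)
noncomputable def n2618 : Strat := .win 922 4 880
noncomputable def n2619 : Strat := .move 921 n2618 (.cons 922 n605 .nil)
noncomputable def n2620 : Strat := .move 884 n1099 (.cons 885 n2619 .nil)
noncomputable def n2621 : Strat := .move 883 n1793 (.cons 924 n2620 .nil)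
noncomputable def n2622 : Strat := .move 882 n410 (.cons 879 n2621 .nil)
noncomputable def n2623 : Strat := .move 842 n107 (.cons 843 n2622 .nil)
noncomputable def n2624 : Strat := .move 842 n108 (.cons 879 n2258 .nil)
noncomputable def n2625 : Strat := .move 757 n1455 (.cons 716 n2254 .nil)
noncomputable def n2626 : Strat := .move 962 n918 (.cons 1004 n1471 .nil)
noncomputable def n2627 : Strat := .move 963 n2315 (.cons 922 n2626 .nil)
noncomputable def n2628 : Strat := .move 796 n474 (.cons 795 n2284 .nil)
noncomputable def n2629 : Strat := .move 797 n473 (.cons 756 n2628 .nil)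
noncomputable def n2630 : Strat := .move 921 n2627 (.cons 963 n2629 .nil)
noncomputable def n2631 : Strat := .move 757 n1455 (.cons 716 n685 .nil)
noncomputable def n2632 : Strat := .move 798 n2625 (.cons 757 n2630 (.cons 922 n2631 .nil))
noncomputable def n2633 : Strat := .move 879 n104 (.cons 842 n2632 .nil)
noncomputable def n2634 : Strat := .move 842 n108 (.cons 879 n2262 .nil)
noncomputable def n2635 : Strat := .move 921 n1752 (.cons 962 n2401 .nil)
noncomputable def n2636 : Strat := .move 797 n111 (.cons 796 n2635 .nil)
noncomputable def n2637 : Strat := .move 838 n1749 (.cons 882 n2636 .nil)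
noncomputable def n2638 : Strat := .move 842 n2258 (.cons 838 n2262 (.cons 798 n1454 .nil))
noncomputable def n2639 : Strat := .move 838 n102 (.cons 837 n101 .nil)
noncomputable def n2640 : Strat := .move 838 n102 (.cons 837 n2267 .nil)
noncomputable def n2641 : Strat := .move 879 n104 (.cons 842 n2640 .nil)
noncomputable def n2642 : Strat := .move 883 n1298 (.cons 884 n1452 .nil)
noncomputable def n2643 : Strat := .move 842 n108 (.cons 879 n2642 .nil)
noncomputable def n2644 : Strat := .move 882 n2357 (.cons 884 n2639 (.cons 883 n2641 (.cons 838 n2643 .nil)))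
noncomputable def n2645 : Strat := .move 839 n2624 (.cons 882 n2633 (.cons 838 n2634 (.cons 842 n2637 (.cons 879 n2638 (.cons 797 n2644 .nil)))))
noncomputable def n2646 : Strat := .move 839 n2258 (.cons 838 n2262 (.cons 798 n1454 .nil))
noncomputable def n2647 : Strat := .move 842 n107 (.cons 843 n2646 .nil)
noncomputable def n2648 : Strat := .move 879 n1490 (.cons 838 n1679 (.cons 883 n1671 (.cons 839 n1683 (.cons 921 n2269 .nil))))
noncomputable def n2649 : Strat := .move 801 n714 (.cons 760 n1102 .nil)
noncomputable def n2650 : Strat := .move 800 n2266 (.cons 718 n2601 (.cons 922 n2649 .nil))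
noncomputable def n2651 : Strat := .move 923 n1104 (.cons 924 n2650 .nil)
noncomputable def n2652 : Strat := .move 838 n860 (.cons 837 n2651 .nil)
noncomputable def n2653 : Strat := .move 879 n1671 (.cons 919 n2652 (.cons 839 n2538 .nil))
noncomputable def n2654 : Strat := .move 883 n1107 (.cons 921 n1098 .nil)
noncomputable def n2655 : Strat := .move 920 n699 (.cons 919 n2654 .nil)
noncomputable def n2656 : Strat := .move 879 n1662 (.cons 883 n1671 (.cons 839 n1683 (.cons 838 n2655 .nil)))
noncomputable def n2657 : Strat := .move 963 n62 (.cons 800 n610 .nil)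
noncomputable def n2658 : Strat := .move 921 n605 (.cons 920 n246 .nil)
noncomputable def n2659 : Strat := .move 923 n1804 (.cons 965 n1894 .nil)
noncomputable def n2660 : Strat := .move 800 n1314 (.cons 759 n2659 .nil)
noncomputable def n2661 : Strat := .move 924 n458 (.cons 925 n2660 .nil)
noncomputable def n2662 : Strat := .move 883 n1401 (.cons 839 n2658 (.cons 884 n2661 .nil))
noncomputable def n2663 : Strat := .win 963 3 840
noncomputable def n2664 : Strat := .move 884 n1334 (.cons 921 n448 .nil)
noncomputable def n2665 : Strat := .move 879 n1098 (.cons 923 n1108 .nil)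
noncomputable def n2666 : Strat := .move 883 n1100 (.cons 839 n1335 (.cons 885 n2664 (.cons 884 n2665 .nil)))
noncomputable def n2667 : Strat := .move 1004 n2663 (.cons 963 n2666 .nil)
noncomputable def n2668 : Strat := .move 922 n2657 (.cons 963 n2662 (.cons 800 n2667 .nil))
noncomputable def n2669 : Strat := .move 883 n1107 (.cons 921 n1100 .nil)
noncomputable def n2670 : Strat := .move 920 n699 (.cons 919 n2669 .nil)
noncomputable def n2671 : Strat := .move 883 n1107 (.cons 921 n1816 .nil)
noncomputable def n2672 : Strat := .move 920 n699 (.cons 919 n2671 .nil)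
noncomputable def n2673 : Strat := .move 879 n1490 (.cons 838 n2670 (.cons 883 n1671 (.cons 839 n2672 (.cons 921 n2269 .nil))))
noncomputable def n2674 : Strat := .move 879 n2269 (.cons 839 n2603 (.cons 800 n2608 .nil))
noncomputable def n2675 : Strat := .move 921 n605 (.cons 920 n2618 .nil)
noncomputable def n2676 : Strat := .move 884 n1099 (.cons 885 n2675 .nil)
noncomputable def n2677 : Strat := .move 839 n1299 (.cons 838 n1717 .nil)
noncomputable def n2678 : Strat := .move 883 n1402 (.cons 839 n2676 (.cons 884 n2677 .nil))
noncomputable def n2679 : Strat := .move 879 n1490 (.cons 838 n2670 (.cons 839 n1960 (.cons 883 n1671 (.cons 921 n2269 .nil))))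
noncomputable def n2680 : Strat := .move 800 n1713 (.cons 759 n2659 .nil)
noncomputable def n2681 : Strat := .move 924 n458 (.cons 925 n2680 .nil)
noncomputable def n2682 : Strat := .move 839 n1299 (.cons 838 n2681 .nil)
noncomputable def n2683 : Strat := .move 883 n1402 (.cons 884 n2682 (.cons 838 n1401 (.cons 839 n2681 .nil)))
noncomputable def n2684 : Strat := .move 922 n269 (.cons 963 n1314 .nil)
noncomputable def n2685 : Strat := .move 759 n1309 (.cons 718 n2265 .nil)
noncomputable def n2686 : Strat := .move 923 n1104 (.cons 924 n1955 .nil)
noncomputable def n2687 : Strat := .move 923 n1104 (.cons 924 n2536 .nil)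
noncomputable def n2688 : Strat := .move 879 n2684 (.cons 963 n2685 (.cons 922 n2686 (.cons 759 n2687 .nil)))
noncomputable def n2689 : Strat := .move 924 n458 (.cons 925 n2659 .nil)
noncomputable def n2690 : Strat := .move 883 n1335 (.cons 885 n1337 (.cons 921 n2689 .nil))
noncomputable def n2691 : Strat := .move 922 n269 (.cons 963 n2690 .nil)
noncomputable def n2692 : Strat := .move 922 n1314 (.cons 759 n2690 .nil)
noncomputable def n2693 : Strat := .move 924 n1828 (.cons 883 n2659 .nil)
noncomputable def n2694 : Strat := .move 759 n1309 (.cons 718 n2693 .nil)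
noncomputable def n2695 : Strat := .move 800 n2688 (.cons 759 n2691 (.cons 963 n2692 (.cons 879 n2685 (.cons 922 n2694 .nil))))
noncomputable def n2696 : Strat := .move 882 n2648 (.cons 883 n2653 (.cons 800 n2656 (.cons 838 n2668 (.cons 923 n2673 (.cons 921 n2674 (.cons 879 n2678 (.cons 924 n2679 (.cons 920 n2683 (.cons 839 n2695 .nil)))))))))
noncomputable def n2697 : Strat := .move 839 n108 (.cons 879 n1454 .nil)
noncomputable def n2698 : Strat := .move 842 n107 (.cons 843 n2697 .nil)
noncomputable def n2699 : Strat := .move 841 n2615 (.cons 882 n2617 (.cons 839 n2623 (.cons 843 n2645 (.cons 879 n2647 (.cons 842 n2696 (.cons 922 n2698 .nil))))))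
noncomputable def n2700 : Strat := .move 839 n64 (.cons 798 n582 .nil)
noncomputable def n2701 : Strat := .move 1004 n585 (.cons 839 n85 .nil)
noncomputable def n2702 : Strat := .move 841 n62 (.cons 800 n1087 .nil)
noncomputable def n2703 : Strat := .move 963 n2700 (.cons 798 n2701 (.cons 839 n98 (.cons 1004 n2702 .nil)))
noncomputable def n2704 : Strat := .move 883 n1100 (.cons 839 n1108 .nil)
noncomputable def n2705 : Strat := .move 923 n1104 (.cons 924 n2704 .nil)
noncomputable def n2706 : Strat := .move 882 n453 (.cons 842 n2705 .nil)
noncomputable def n2707 : Strat := .move 841 n454 (.cons 878 n2706 .nil)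
noncomputable def n2708 : Strat := .move 883 n1108 (.cons 919 n2664 (.cons 921 n1100 .nil))
noncomputable def n2709 : Strat := .move 923 n1104 (.cons 924 n2708 .nil)
noncomputable def n2710 : Strat := .move 841 n453 (.cons 842 n2709 .nil)
noncomputable def n2711 : Strat := .move 841 n453 (.cons 842 n2670 .nil)
noncomputable def n2712 : Strat := .move 883 n458 (.cons 925 n1100 .nil)
noncomputable def n2713 : Strat := .move 924 n1097 (.cons 923 n2712 .nil)
noncomputable def n2714 : Strat := .move 841 n453 (.cons 842 n2713 .nil)
noncomputable def n2715 : Strat := .move 839 n1098 (.cons 923 n1108 .nil)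
noncomputable def n2716 : Strat := .move 883 n2715 (.cons 839 n2582 (.cons 924 n2579 .nil))
noncomputable def n2717 : Strat := .move 964 n2386 (.cons 965 n1798 .nil)
noncomputable def n2718 : Strat := .move 921 n607 (.cons 883 n2717 .nil)
noncomputable def n2719 : Strat := .move 920 n699 (.cons 919 n2718 .nil)
noncomputable def n2720 : Strat := .move 923 n1104 (.cons 924 n2719 .nil)
noncomputable def n2721 : Strat := .win 921 0 920
noncomputable def n2722 : Strat := .move 920 n2721 (.cons 921 n699 .nil)
noncomputable def n2723 : Strat := .move 841 n1879 (.cons 1006 n453 .nil)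
noncomputable def n2724 : Strat := .move 965 n2722 (.cons 919 n2723 .nil)
noncomputable def n2725 : Strat := .move 964 n1798 (.cons 1005 n2724 .nil)
noncomputable def n2726 : Strat := .move 923 n1104 (.cons 924 n2725 .nil)
noncomputable def n2727 : Strat := .move 882 n2710 (.cons 924 n2711 (.cons 921 n2714 (.cons 884 n2716 (.cons 839 n2720 (.cons 883 n2726 .nil)))))
noncomputable def n2728 : Strat := .move 877 n2561 (.cons 921 n2485 .nil)
noncomputable def n2729 : Strat := .move 878 n2492 (.cons 923 n2728 .nil)
noncomputable def n2730 : Strat := .move 841 n454 (.cons 878 n1358 .nil)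
noncomputable def n2731 : Strat := .move 879 n2588 (.cons 843 n2707 (.cons 878 n2727 (.cons 841 n2729 (.cons 839 n2730 .nil))))
noncomputable def n2732 : Strat := .move 920 n887 (.cons 965 n886 .nil)
noncomputable def n2733 : Strat := .move 964 n55 (.cons 1005 n2732 .nil)
noncomputable def n2734 : Strat := .move 841 n63 (.cons 882 n62 .nil)
noncomputable def n2735 : Strat := .move 1004 n584 (.cons 1045 n2734 .nil)
noncomputable def n2736 : Strat := .move 921 n2733 (.cons 964 n2735 .nil)
noncomputable def n2737 : Strat := .move 962 n47 (.cons 1003 n2736 .nil)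
noncomputable def n2738 : Strat := .move 1002 n902 (.cons 1001 n901 .nil)
noncomputable def n2739 : Strat := .move 961 n2738 (.cons 921 n900 .nil)
noncomputable def n2740 : Strat := .move 964 n55 (.cons 1005 n2739 .nil)
noncomputable def n2741 : Strat := .move 962 n47 (.cons 1003 n2740 .nil)
noncomputable def n2742 : Strat := .move 839 n64 (.cons 798 n2741 .nil)
noncomputable def n2743 : Strat := .move 963 n2700 (.cons 798 n2701 (.cons 839 n2737 (.cons 1004 n2742 .nil)))
noncomputable def n2744 : Strat := .win 882 0 879
noncomputable def n2745 : Strat := .move 879 n2744 (.cons 882 n400 .nil)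
noncomputable def n2746 : Strat := .move 924 n533 (.cons 925 n2745 .nil)
noncomputable def n2747 : Strat := .move 1045 n977 (.cons 882 n1382 .nil)
noncomputable def n2748 : Strat := .move 1004 n73 (.cons 1046 n2747 .nil)
noncomputable def n2749 : Strat := .win 921 2 879
noncomputable def n2750 : Strat := .move 879 n2749 (.cons 921 n400 .nil)
noncomputable def n2751 : Strat := .move 924 n533 (.cons 925 n2750 .nil)
noncomputable def n2752 : Strat := .move 923 n2746 (.cons 924 n2748 (.cons 882 n2751 .nil))
noncomputable def n2753 : Strat := .move 1005 n72 (.cons 964 n2752 .nil)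
noncomputable def n2754 : Strat := .move 962 n47 (.cons 1003 n2753 .nil)
noncomputable def n2755 : Strat := .move 963 n2700 (.cons 1004 n2742 (.cons 798 n2701 (.cons 839 n2754 .nil)))
noncomputable def n2756 : Strat := .move 882 n610 (.cons 1004 n1874 .nil)
noncomputable def n2757 : Strat := .move 963 n62 (.cons 800 n2756 .nil)
noncomputable def n2758 : Strat := .move 963 n62 (.cons 800 n1658 .nil)
noncomputable def n2759 : Strat := .move 1004 n84 (.cons 1044 n500 .nil)
noncomputable def n2760 : Strat := .move 1003 n83 (.cons 962 n2759 .nil)
noncomputable def n2761 : Strat := .move 963 n62 (.cons 800 n2760 .nil)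
noncomputable def n2762 : Strat := .move 841 n1286 (.cons 962 n2757 (.cons 1004 n2758 (.cons 963 n1359 (.cons 882 n2761 .nil))))
noncomputable def n2763 : Strat := .move 879 n454 (.cons 878 n104 .nil)
noncomputable def n2764 : Strat := .move 841 n62 (.cons 800 n2763 .nil)
noncomputable def n2765 : Strat := .move 839 n64 (.cons 798 n2764 .nil)
noncomputable def n2766 : Strat := .move 841 n62 (.cons 800 n2760 .nil)
noncomputable def n2767 : Strat := .move 963 n2700 (.cons 1004 n2765 (.cons 798 n2701 (.cons 839 n2766 .nil)))
noncomputable def n2768 : Strat := .move 922 n2703 (.cons 963 n2731 (.cons 879 n2743 (.cons 841 n2755 (.cons 839 n2762 (.cons 882 n2767 .nil)))))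
noncomputable def n2769 : Strat := .move 839 n2260 (.cons 802 n2262 (.cons 798 n1723 .nil))
noncomputable def n2770 : Strat := .move 842 n107 (.cons 843 n2769 .nil)
noncomputable def n2771 : Strat := .move 882 n1671 (.cons 919 n2652 (.cons 839 n2538 .nil))
noncomputable def n2772 : Strat := .move 879 n454 (.cons 878 n2771 .nil)
noncomputable def n2773 : Strat := .move 841 n1087 (.cons 879 n2770 (.cons 839 n1658 (.cons 843 n2246 (.cons 842 n2772 .nil))))
noncomputable def n2774 : Strat := .move 839 n108 (.cons 879 n1648 .nil)
noncomputable def n2775 : Strat := .move 842 n107 (.cons 843 n2774 .nil)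
noncomputable def n2776 : Strat := .move 1004 n63 (.cons 882 n585 .nil)
noncomputable def n2777 : Strat := .move 963 n62 (.cons 800 n2776 .nil)
noncomputable def n2778 : Strat := .move 800 n564 (.cons 801 n1314 .nil)
noncomputable def n2779 : Strat := .move 839 n101 (.cons 883 n2778 .nil)
noncomputable def n2780 : Strat := .move 838 n860 (.cons 837 n2779 .nil)
noncomputable def n2781 : Strat := .move 883 n458 (.cons 925 n1335 .nil)
noncomputable def n2782 : Strat := .move 924 n1097 (.cons 923 n2781 .nil)
noncomputable def n2783 : Strat := .move 882 n2780 (.cons 838 n2713 (.cons 839 n2782 (.cons 883 n1355 .nil)))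
noncomputable def n2784 : Strat := .move 963 n64 (.cons 798 n582 .nil)
noncomputable def n2785 : Strat := .move 798 n1088 (.cons 757 n134 .nil)
noncomputable def n2786 : Strat := .move 838 n922 (.cons 882 n1697 .nil)
noncomputable def n2787 : Strat := .move 839 n2784 (.cons 1004 n2785 (.cons 963 n2786 .nil))
noncomputable def n2788 : Strat := .move 963 n62 (.cons 800 n2700 .nil)
noncomputable def n2789 : Strat := .move 963 n62 (.cons 800 n601 .nil)
noncomputable def n2790 : Strat := .move 922 n2777 (.cons 963 n2783 (.cons 800 n2787 (.cons 882 n2788 (.cons 839 n2789 .nil))))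
noncomputable def n2791 : Strat := .move 879 n454 (.cons 878 n2790 .nil)
noncomputable def n2792 : Strat := .move 841 n1451 (.cons 878 n2775 (.cons 879 n2598 (.cons 843 n2246 (.cons 842 n2791 (.cons 839 n1658 .nil)))))
noncomputable def n2793 : Strat := .move 839 n2262 (.cons 798 n2596 .nil)
noncomputable def n2794 : Strat := .move 842 n107 (.cons 843 n2793 .nil)
noncomputable def n2795 : Strat := .move 882 n1490 (.cons 838 n2670 (.cons 839 n1960 (.cons 883 n1671 (.cons 921 n2269 .nil))))
noncomputable def n2796 : Strat := .move 879 n454 (.cons 878 n2795 .nil)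
noncomputable def n2797 : Strat := .move 841 n1087 (.cons 878 n2617 (.cons 879 n2794 (.cons 842 n2796 (.cons 839 n1658 .nil))))
noncomputable def n2798 : Strat := .move 841 n454 (.cons 878 n104 .nil)
noncomputable def n2799 : Strat := .move 879 n685 (.cons 920 n2798 .nil)
noncomputable def n2800 : Strat := .move 757 n1455 (.cons 716 n2799 .nil)
noncomputable def n2801 : Strat := .move 798 n2625 (.cons 716 n2261 (.cons 757 n2325 (.cons 922 n2800 .nil)))
noncomputable def n2802 : Strat := .move 922 n581 (.cons 798 n591 .nil)
noncomputable def n2803 : Strat := .move 963 n918 (.cons 1004 n2802 .nil)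
noncomputable def n2804 : Strat := .move 798 n2255 (.cons 716 n1635 .nil)
noncomputable def n2805 : Strat := .move 837 n920 (.cons 836 n2804 .nil)
noncomputable def n2806 : Strat := .move 838 n919 (.cons 797 n2805 .nil)
noncomputable def n2807 : Strat := .move 962 n2803 (.cons 922 n2453 (.cons 963 n2806 (.cons 798 n2463 .nil)))
noncomputable def n2808 : Strat := .move 798 n473 (.cons 756 n1635 .nil)
noncomputable def n2809 : Strat := .move 797 n2278 (.cons 838 n2808 .nil)
noncomputable def n2810 : Strat := .move 963 n918 (.cons 1004 n2809 .nil)
noncomputable def n2811 : Strat := .move 837 n2038 (.cons 877 n920 .nil)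
noncomputable def n2812 : Strat := .move 878 n2037 (.cons 879 n2811 .nil)
noncomputable def n2813 : Strat := .move 841 n590 (.cons 843 n106 (.cons 879 n2328 (.cons 842 n2812 .nil)))
noncomputable def n2814 : Strat := .move 838 n919 (.cons 797 n2813 .nil)
noncomputable def n2815 : Strat := .move 962 n2453 (.cons 964 n2810 (.cons 961 n2814 .nil))
noncomputable def n2816 : Strat := .win 922 3 799
noncomputable def n2817 : Strat := .move 800 n564 (.cons 801 n2816 .nil)
noncomputable def n2818 : Strat := .move 841 n590 (.cons 843 n106 (.cons 879 n2817 .nil))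
noncomputable def n2819 : Strat := .move 838 n919 (.cons 797 n2818 .nil)
noncomputable def n2820 : Strat := .move 963 n918 (.cons 1004 n2819 .nil)
noncomputable def n2821 : Strat := .move 962 n2463 (.cons 964 n2820 (.cons 963 n2814 .nil))
noncomputable def n2822 : Strat := .move 962 n2806 (.cons 838 n2470 (.cons 798 n2814 .nil))
noncomputable def n2823 : Strat := .move 756 n803 (.cons 715 n2208 .nil)
noncomputable def n2824 : Strat := .move 757 n1455 (.cons 716 n2823 .nil)
noncomputable def n2825 : Strat := .move 798 n1634 (.cons 920 n2824 .nil)
noncomputable def n2826 : Strat := .move 961 n1633 (.cons 1002 n2825 .nil)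
noncomputable def n2827 : Strat := .move 962 n2803 (.cons 963 n2470 (.cons 798 n2463 (.cons 922 n2826 .nil)))
noncomputable def n2828 : Strat := .move 922 n581 (.cons 798 n2444 .nil)
noncomputable def n2829 : Strat := .move 963 n918 (.cons 1004 n2828 .nil)
noncomputable def n2830 : Strat := .move 961 n1633 (.cons 1002 n2829 .nil)
noncomputable def n2831 : Strat := .move 962 n2803 (.cons 922 n2814 (.cons 841 n2830 .nil))
noncomputable def n2832 : Strat := .move 962 n2803 (.cons 963 n2470 (.cons 922 n2416 (.cons 798 n2463 .nil)))
noncomputable def n2833 : Strat := .move 922 n1088 (.cons 757 n472 .nil)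
noncomputable def n2834 : Strat := .move 757 n1455 (.cons 716 n2207 .nil)
noncomputable def n2835 : Strat := .move 922 n472 (.cons 963 n2322 .nil)
noncomputable def n2836 : Strat := .move 798 n2833 (.cons 922 n2834 (.cons 757 n2835 .nil))
noncomputable def n2837 : Strat := .move 798 n2315 (.cons 922 n2279 .nil)
noncomputable def n2838 : Strat := .move 963 n918 (.cons 1004 n2837 .nil)
noncomputable def n2839 : Strat := .move 962 n2803 (.cons 922 n2814 (.cons 841 n2838 .nil))
noncomputable def n2840 : Strat := .move 962 n2375 (.cons 922 n2453 (.cons 963 n2456 (.cons 798 n2463 (.cons 1002 n2466 .nil))))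
noncomputable def n2841 : Strat := .move 921 n2807 (.cons 922 n2815 (.cons 798 n2821 (.cons 963 n2822 (.cons 838 n2827 (.cons 920 n2831 (.cons 797 n2832 (.cons 962 n2836 (.cons 961 n2839 (.cons 841 n2840 .nil)))))))))
noncomputable def n2842 : Strat := .move 842 n107 (.cons 843 n1479 .nil)
noncomputable def n2843 : Strat := .win 879 5 837
noncomputable def n2844 : Strat := .move 837 n920 (.cons 836 n2038 .nil)
noncomputable def n2845 : Strat := .move 921 n1753 (.cons 798 n1752 .nil)
noncomputable def n2846 : Strat := .move 756 n1485 (.cons 715 n2845 .nil)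
noncomputable def n2847 : Strat := .move 797 n111 (.cons 796 n2846 .nil)
noncomputable def n2848 : Strat := .move 838 n2844 (.cons 836 n2847 .nil)
noncomputable def n2849 : Strat := .move 878 n2843 (.cons 879 n2848 .nil)
noncomputable def n2850 : Strat := .move 841 n109 (.cons 879 n2842 (.cons 843 n2763 (.cons 842 n2849 .nil)))
noncomputable def n2851 : Strat := .win 841 4 837
noncomputable def n2852 : Strat := .win 920 6 755
noncomputable def n2853 : Strat := .win 714 6 714
noncomputable def n2854 : Strat := .move 755 n2852 (.cons 920 n2853 .nil)
noncomputable def n2855 : Strat := .move 796 n1724 (.cons 795 n2854 .nil)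
noncomputable def n2856 : Strat := .move 879 n2851 (.cons 841 n2855 .nil)
noncomputable def n2857 : Strat := .move 878 n2038 (.cons 877 n2856 .nil)
noncomputable def n2858 : Strat := .move 837 n920 (.cons 836 n2857 .nil)
noncomputable def n2859 : Strat := .win 959 1 795
noncomputable def n2860 : Strat := .win 879 4 877
noncomputable def n2861 : Strat := .move 918 n2859 (.cons 959 n2860 .nil)
noncomputable def n2862 : Strat := .win 756 3 755
noncomputable def n2863 : Strat := .win 960 3 796
noncomputable def n2864 : Strat := .move 797 n2862 (.cons 756 n2863 .nil)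
noncomputable def n2865 : Strat := .move 919 n2861 (.cons 879 n2864 .nil)
noncomputable def n2866 : Strat := .move 796 n1724 (.cons 795 n2865 .nil)
noncomputable def n2867 : Strat := .move 878 n2038 (.cons 877 n2866 .nil)
noncomputable def n2868 : Strat := .move 837 n920 (.cons 836 n2867 .nil)
noncomputable def n2869 : Strat := .move 841 n1725 (.cons 797 n2328 .nil)
noncomputable def n2870 : Strat := .move 796 n1724 (.cons 795 n2869 .nil)
noncomputable def n2871 : Strat := .move 837 n920 (.cons 836 n2870 .nil)
noncomputable def n2872 : Strat := .move 879 n105 (.cons 878 n104 .nil)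
noncomputable def n2873 : Strat := .move 798 n2254 (.cons 922 n2083 .nil)
noncomputable def n2874 : Strat := .move 798 n685 (.cons 920 n2254 .nil)
noncomputable def n2875 : Strat := .move 798 n685 (.cons 920 n2083 .nil)
noncomputable def n2876 : Strat := .move 756 n2046 (.cons 716 n1485 .nil)
noncomputable def n2877 : Strat := .move 757 n2873 (.cons 716 n2874 (.cons 922 n2875 (.cons 798 n2876 .nil)))
noncomputable def n2878 : Strat := .move 797 n111 (.cons 796 n2877 .nil)
noncomputable def n2879 : Strat := .move 879 n105 (.cons 878 n2878 .nil)
noncomputable def n2880 : Strat := .move 841 n2872 (.cons 842 n2879 (.cons 878 n109 (.cons 879 n2327 .nil)))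
noncomputable def n2881 : Strat := .move 878 n2037 (.cons 879 n2844 .nil)
noncomputable def n2882 : Strat := .move 841 n2872 (.cons 842 n2881 (.cons 879 n2301 .nil))
noncomputable def n2883 : Strat := .move 838 n2858 (.cons 841 n2868 (.cons 879 n2871 (.cons 837 n2880 (.cons 796 n2882 .nil))))
noncomputable def n2884 : Strat := .win 877 5 836
noncomputable def n2885 : Strat := .move 878 n847 (.cons 841 n2884 .nil)
noncomputable def n2886 : Strat := .move 879 n685 (.cons 920 n2885 .nil)
noncomputable def n2887 : Strat := .move 757 n1455 (.cons 716 n2886 .nil)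
noncomputable def n2888 : Strat := .move 879 n2491 (.cons 877 n847 .nil)
noncomputable def n2889 : Strat := .move 879 n2492 (.cons 923 n2491 .nil)
noncomputable def n2890 : Strat := .move 879 n2492 (.cons 923 n847 .nil)
noncomputable def n2891 : Strat := .move 919 n144 (.cons 877 n2275 .nil)
noncomputable def n2892 : Strat := .move 878 n2888 (.cons 841 n2889 (.cons 877 n2890 (.cons 879 n2891 .nil)))
noncomputable def n2893 : Strat := .move 920 n1856 (.cons 961 n2892 .nil)
noncomputable def n2894 : Strat := .move 962 n2278 (.cons 838 n1471 .nil)
noncomputable def n2895 : Strat := .move 797 n473 (.cons 756 n2894 .nil)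
noncomputable def n2896 : Strat := .move 921 n1636 (.cons 962 n2893 (.cons 961 n2895 .nil))
noncomputable def n2897 : Strat := .move 922 n134 (.cons 963 n2896 .nil)
noncomputable def n2898 : Strat := .move 798 n2625 (.cons 922 n2887 (.cons 716 n2261 (.cons 757 n2897 .nil)))
noncomputable def n2899 : Strat := .move 842 n107 (.cons 843 n2262 .nil)
noncomputable def n2900 : Strat := .move 838 n2811 (.cons 836 n2344 .nil)
noncomputable def n2901 : Strat := .move 798 n1856 (.cons 961 n1088 .nil)
noncomputable def n2902 : Strat := .move 919 n2275 (.cons 918 n144 .nil)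
noncomputable def n2903 : Strat := .move 920 n2901 (.cons 757 n2902 .nil)
noncomputable def n2904 : Strat := .move 798 n1634 (.cons 920 n1088 .nil)
noncomputable def n2905 : Strat := .move 962 n1633 (.cons 1002 n1471 .nil)
noncomputable def n2906 : Strat := .move 961 n2904 (.cons 757 n2905 .nil)
noncomputable def n2907 : Strat := .move 921 n2900 (.cons 838 n2903 (.cons 877 n2906 .nil))
noncomputable def n2908 : Strat := .move 963 n582 (.cons 1004 n62 .nil)
noncomputable def n2909 : Strat := .move 922 n2784 (.cons 963 n2907 (.cons 798 n2908 .nil))
noncomputable def n2910 : Strat := .move 878 n2843 (.cons 879 n2909 .nil)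
noncomputable def n2911 : Strat := .move 841 n109 (.cons 843 n2763 (.cons 879 n2899 (.cons 842 n2910 .nil)))
noncomputable def n2912 : Strat := .move 879 n105 (.cons 878 n1697 .nil)
noncomputable def n2913 : Strat := .move 837 n920 (.cons 836 n2067 .nil)
noncomputable def n2914 : Strat := .move 838 n2912 (.cons 879 n2913 (.cons 796 n2881 .nil))
noncomputable def n2915 : Strat := .move 841 n2763 (.cons 879 n2364 (.cons 842 n2914 .nil))
noncomputable def n2916 : Strat := .move 961 n1634 (.cons 920 n2905 .nil)
noncomputable def n2917 : Strat := .move 879 n686 (.cons 878 n2916 .nil)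
noncomputable def n2918 : Strat := .move 922 n472 (.cons 963 n2917 .nil)
noncomputable def n2919 : Strat := .move 797 n473 (.cons 756 n1635 .nil)
noncomputable def n2920 : Strat := .move 962 n1471 (.cons 1003 n2919 .nil)
noncomputable def n2921 : Strat := .move 922 n472 (.cons 963 n2893 .nil)
noncomputable def n2922 : Strat := .move 921 n2918 (.cons 922 n2920 (.cons 962 n2921 (.cons 961 n2317 .nil)))
noncomputable def n2923 : Strat := .move 798 n2625 (.cons 922 n2800 (.cons 716 n2261 (.cons 757 n2922 .nil)))
noncomputable def n2924 : Strat := .move 963 n582 (.cons 1004 n2741 .nil)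
noncomputable def n2925 : Strat := .move 963 n64 (.cons 798 n2741 .nil)
noncomputable def n2926 : Strat := .move 798 n1088 (.cons 757 n1635 .nil)
noncomputable def n2927 : Strat := .move 962 n1471 (.cons 1003 n2926 .nil)
noncomputable def n2928 : Strat := .move 798 n1088 (.cons 757 n2280 .nil)
noncomputable def n2929 : Strat := .move 924 n532 (.cons 879 n533 .nil)
noncomputable def n2930 : Strat := .win 962 4 920
noncomputable def n2931 : Strat := .move 961 n2930 (.cons 962 n1634 .nil)
noncomputable def n2932 : Strat := .move 924 n533 (.cons 925 n2931 .nil)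
noncomputable def n2933 : Strat := .move 962 n1635 (.cons 920 n2279 .nil)
noncomputable def n2934 : Strat := .move 923 n2929 (.cons 925 n781 (.cons 879 n2932 (.cons 924 n2933 .nil)))
noncomputable def n2935 : Strat := .move 798 n1088 (.cons 757 n2934 .nil)
noncomputable def n2936 : Strat := .win 924 4 920
noncomputable def n2937 : Strat := .win 920 4 919
noncomputable def n2938 : Strat := .move 960 n2937 (.cons 920 n2443 .nil)
noncomputable def n2939 : Strat := .move 923 n2936 (.cons 924 n2938 .nil)
noncomputable def n2940 : Strat := .move 961 n1633 (.cons 1002 n2939 .nil)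
noncomputable def n2941 : Strat := .move 962 n1471 (.cons 1003 n2940 .nil)
noncomputable def n2942 : Strat := .move 961 n739 (.cons 960 n2411 .nil)
noncomputable def n2943 : Strat := .move 920 n2901 (.cons 757 n2942 (.cons 961 n2891 .nil))
noncomputable def n2944 : Strat := .move 878 n2385 (.cons 879 n2943 .nil)
noncomputable def n2945 : Strat := .win 964 0 920
noncomputable def n2946 : Strat := .move 920 n2945 (.cons 964 n1856 .nil)
noncomputable def n2947 : Strat := .move 924 n747 (.cons 966 n533 .nil)
noncomputable def n2948 : Strat := .move 965 n2946 (.cons 961 n2947 .nil)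
noncomputable def n2949 : Strat := .move 798 n1088 (.cons 757 n2948 .nil)
noncomputable def n2950 : Strat := .move 923 n402 (.cons 924 n2944 (.cons 879 n2949 .nil))
noncomputable def n2951 : Strat := .move 921 n2927 (.cons 1002 n2928 (.cons 1003 n2935 (.cons 798 n2941 (.cons 962 n2950 .nil))))
noncomputable def n2952 : Strat := .move 922 n2784 (.cons 798 n2924 (.cons 1004 n2925 (.cons 963 n2951 .nil)))
noncomputable def n2953 : Strat := .move 963 n2315 (.cons 922 n918 .nil)
noncomputable def n2954 : Strat := .move 962 n2953 (.cons 963 n2313 .nil)
noncomputable def n2955 : Strat := .move 921 n2918 (.cons 1003 n2954 (.cons 1002 n2921 (.cons 922 n2314 (.cons 920 n2317 .nil))))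
noncomputable def n2956 : Strat := .move 798 n2625 (.cons 716 n2261 (.cons 922 n2887 (.cons 757 n2955 .nil)))
noncomputable def n2957 : Strat := .move 839 n2801 (.cons 879 n2326 (.cons 1003 n2841 (.cons 757 n2850 (.cons 921 n2883 (.cons 842 n2898 (.cons 756 n2911 (.cons 798 n2915 (.cons 838 n2923 (.cons 841 n2952 (.cons 797 n2956 .nil))))))))))
noncomputable def n2958 : Strat := .move 880 n2274 (.cons 879 n2373 (.cons 841 n2524 (.cons 839 n2570 (.cons 922 n2594 (.cons 921 n2613 (.cons 878 n2699 (.cons 838 n2768 (.cons 883 n2773 (.cons 920 n2792 (.cons 924 n2797 (.cons 882 n2957 .nil)))))))))))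
noncomputable def n2959 : Strat := .move 881 n119 (.cons 841 n238 (.cons 880 n339 (.cons 882 n408 (.cons 716 n495 (.cons 839 n546 (.cons 923 n678 (.cons 718 n733 (.cons 1003 n839 (.cons 800 n884 (.cons 757 n993 (.cons 921 n1019 (.cons 964 n1078 (.cons 759 n1188 (.cons 796 n1227 (.cons 962 n1281 (.cons 798 n1420 (.cons 963 n1440 (.cons 758 n1449 (.cons 922 n2253 (.cons 799 n2958 .nil))))))))))))))))))))

end Vale.Agent.Snaky.R5_3
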