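import Vale.Agent.Snaky.Assemble

namespace Vale.Agent.Snaky.R6_0

open Vale.Agent.Snaky

noncomputable def n0 : Strat := .win 795 2 795
noncomputable def n1 : Strat := .win 797 2 796
noncomputable def n2 : Strat := .win 877 4 836
noncomputable def n3 : Strat := .win 879 4 837
noncomputable def n4 : Strat := .move 878 n2 (.cons 877 n3 .nil)
noncomputable def n5 : Strat := .move 841 n1 (.cons 797 n4 .nil)
noncomputable def n6 : Strat := .move 796 n0 (.cons 795 n5 .nil)
noncomputable def n7 : Strat := .win 882 0 837
noncomputable def n8 : Strat := .win 880 0 836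
noncomputable def n9 : Strat := .win 800 5 796
noncomputable def n10 : Strat := .win 798 5 795
noncomputable def n11 : Strat := .move 799 n9 (.cons 800 n10 .nil)
noncomputable def n12 : Strat := .move 836 n8 (.cons 880 n11 .nil)
noncomputable def n13 : Strat := .move 881 n7 (.cons 882 n12 .nil)
noncomputable def n14 : Strat := .move 837 n6 (.cons 796 n13 .nil)
noncomputable def n15 : Strat := .win 881 0 837
noncomputable def n16 : Strat := .win 883 0 838
noncomputable def n17 : Strat := .move 882 n15 (.cons 881 n16 .nil)
noncomputable def n18 : Strat := .move 841 n3 (.cons 879 n17 .nil)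
noncomputable def n19 : Strat := .move 878 n2 (.cons 877 n18 .nil)
noncomputable def n20 : Strat := .win 799 5 796
noncomputable def n21 : Strat := .win 801 5 797
noncomputable def n22 : Strat := .move 800 n20 (.cons 799 n21 .nil)
noncomputable def n23 : Strat := .move 841 n3 (.cons 879 n22 .nil)
noncomputable def n24 : Strat := .move 878 n2 (.cons 877 n23 .nil)
noncomputable def n25 : Strat := .move 837 n13 (.cons 798 n19 (.cons 881 n24 .nil))
noncomputable def n26 : Strat := .move 881 n7 (.cons 882 n8 .nil)
noncomputable def n27 : Strat := .move 836 n10 (.cons 798 n26 .nil)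
noncomputable def n28 : Strat := .move 799 n9 (.cons 800 n27 .nil)
noncomputable def n29 : Strat := .move 841 n1 (.cons 797 n22 .nil)
noncomputable def n30 : Strat := .move 796 n0 (.cons 795 n29 .nil)
noncomputable def n31 : Strat := .move 841 n1 (.cons 797 n17 .nil)
noncomputable def n32 : Strat := .move 796 n0 (.cons 795 n31 .nil)
noncomputable def n33 : Strat := .move 837 n28 (.cons 880 n30 (.cons 799 n32 .nil))
noncomputable def n34 : Strat := .win 878 4 837
noncomputable def n35 : Strat := .win 880 4 838
noncomputable def n36 : Strat := .win 796 2 796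
noncomputable def n37 : Strat := .win 798 2 797
noncomputable def n38 : Strat := .move 797 n36 (.cons 796 n37 .nil)
noncomputable def n39 : Strat := .move 842 n35 (.cons 880 n38 .nil)
noncomputable def n40 : Strat := .move 879 n34 (.cons 878 n39 .nil)
noncomputable def n41 : Strat := .move 796 n0 (.cons 795 n1 .nil)
noncomputable def n42 : Strat := .move 837 n15 (.cons 881 n41 .nil)
noncomputable def n43 : Strat := .move 882 n16 (.cons 883 n42 .nil)
noncomputable def n44 : Strat := .win 882 0 838
noncomputable def n45 : Strat := .win 884 0 839
noncomputable def n46 : Strat := .move 883 n44 (.cons 882 n45 .nil)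
noncomputable def n47 : Strat := .move 842 n35 (.cons 880 n46 .nil)
noncomputable def n48 : Strat := .move 879 n34 (.cons 878 n47 .nil)
noncomputable def n49 : Strat := .move 841 n40 (.cons 879 n43 (.cons 796 n48 .nil))
noncomputable def n50 : Strat := .move 879 n34 (.cons 878 n35 .nil)
noncomputable def n51 : Strat := .move 842 n37 (.cons 798 n50 .nil)
noncomputable def n52 : Strat := .move 797 n36 (.cons 796 n51 .nil)
noncomputable def n53 : Strat := .move 837 n20 (.cons 799 n4 .nil)
noncomputable def n54 : Strat := .move 800 n21 (.cons 801 n53 .nil)
noncomputable def n55 : Strat := .win 800 5 797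
noncomputable def n56 : Strat := .win 802 5 798
noncomputable def n57 : Strat := .move 801 n55 (.cons 800 n56 .nil)
noncomputable def n58 : Strat := .move 842 n37 (.cons 798 n57 .nil)
noncomputable def n59 : Strat := .move 797 n36 (.cons 796 n58 .nil)
noncomputable def n60 : Strat := .move 841 n52 (.cons 797 n54 (.cons 878 n59 .nil))
noncomputable def n61 : Strat := .move 841 n3 (.cons 879 n41 .nil)
noncomputable def n62 : Strat := .move 878 n2 (.cons 877 n61 .nil)
noncomputable def n63 : Strat := .win 796 2 795
noncomputable def n64 : Strat := .win 794 2 794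
noncomputable def n65 : Strat := .move 795 n63 (.cons 796 n64 .nil)
noncomputable def n66 : Strat := .move 836 n8 (.cons 880 n65 .nil)
noncomputable def n67 : Strat := .move 881 n7 (.cons 882 n66 .nil)
noncomputable def n68 : Strat := .move 837 n62 (.cons 797 n19 (.cons 878 n67 .nil))
noncomputable def n69 : Strat := .win 878 4 836
noncomputable def n70 : Strat := .win 876 4 835
noncomputable def n71 : Strat := .move 877 n69 (.cons 878 n70 .nil)
noncomputable def n72 : Strat := .move 836 n10 (.cons 798 n71 .nil)
noncomputable def n73 : Strat := .move 799 n9 (.cons 800 n72 .nil)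
noncomputable def n74 : Strat := .move 837 n6 (.cons 879 n30 (.cons 796 n73 .nil))
noncomputable def n75 : Strat := .move 842 n35 (.cons 880 n57 .nil)
noncomputable def n76 : Strat := .move 879 n34 (.cons 878 n75 .nil)
noncomputable def n77 : Strat := .move 842 n37 (.cons 798 n46 .nil)
noncomputable def n78 : Strat := .move 797 n36 (.cons 796 n77 .nil)
noncomputable def n79 : Strat := .win 921 6 756
noncomputable def n80 : Strat := .win 715 6 715
noncomputable def n81 : Strat := .move 880 n79 (.cons 921 n80 .nil)
noncomputable def n82 : Strat := .win 920 3 756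
noncomputable def n83 : Strat := .win 716 1 715
noncomputable def n84 : Strat := .move 757 n82 (.cons 920 n83 .nil)
noncomputable def n85 : Strat := .win 961 3 797
noncomputable def n86 : Strat := .win 757 3 756
noncomputable def n87 : Strat := .move 920 n85 (.cons 961 n86 .nil)
noncomputable def n88 : Strat := .win 799 2 755
noncomputable def n89 : Strat := .win 714 7 714
noncomputable def n90 : Strat := .move 755 n88 (.cons 799 n89 .nil)
noncomputable def n91 : Strat := .move 798 n84 (.cons 716 n87 (.cons 920 n90 .nil))
noncomputable def n92 : Strat := .move 756 n81 (.cons 715 n91 .nil)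
noncomputable def n93 : Strat := .move 800 n21 (.cons 801 n92 .nil)
noncomputable def n94 : Strat := .move 879 n34 (.cons 878 n93 .nil)
noncomputable def n95 : Strat := .move 797 n36 (.cons 796 n94 .nil)
noncomputable def n96 : Strat := .move 841 n52 (.cons 797 n76 (.cons 879 n78 (.cons 842 n95 .nil)))
noncomputable def n97 : Strat := .win 920 6 755
noncomputable def n98 : Strat := .win 714 6 714
noncomputable def n99 : Strat := .move 879 n97 (.cons 920 n98 .nil)
noncomputable def n100 : Strat := .win 919 3 755
noncomputable def n101 : Strat := .win 715 1 714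
noncomputable def n102 : Strat := .move 756 n100 (.cons 919 n101 .nil)
noncomputable def n103 : Strat := .win 960 3 796
noncomputable def n104 : Strat := .win 756 3 755
noncomputable def n105 : Strat := .move 919 n103 (.cons 960 n104 .nil)
noncomputable def n106 : Strat := .win 798 2 754
noncomputable def n107 : Strat := .win 713 7 713
noncomputable def n108 : Strat := .move 754 n106 (.cons 798 n107 .nil)
noncomputable def n109 : Strat := .move 797 n102 (.cons 715 n105 (.cons 919 n108 .nil))
noncomputable def n110 : Strat := .move 755 n99 (.cons 714 n109 .nil)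
noncomputable def n111 : Strat := .move 799 n9 (.cons 800 n110 .nil)
noncomputable def n112 : Strat := .move 878 n2 (.cons 877 n111 .nil)
noncomputable def n113 : Strat := .move 796 n0 (.cons 795 n112 .nil)
noncomputable def n114 : Strat := .move 837 n28 (.cons 799 n67 (.cons 881 n73 (.cons 836 n113 .nil)))
noncomputable def n115 : Strat := .move 838 n14 (.cons 797 n25 (.cons 879 n33 (.cons 799 n49 (.cons 881 n60 (.cons 798 n68 (.cons 880 n74 (.cons 837 n96 (.cons 841 n114 .nil))))))))
noncomputable def n116 : Strat := .move 838 n55 (.cons 800 n46 .nil)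
noncomputable def n117 : Strat := .move 801 n56 (.cons 802 n116 .nil)
noncomputable def n118 : Strat := .win 879 4 838
noncomputable def n119 : Strat := .win 881 4 839
noncomputable def n120 : Strat := .win 797 2 797
noncomputable def n121 : Strat := .win 799 2 798
noncomputable def n122 : Strat := .move 798 n120 (.cons 797 n121 .nil)
noncomputable def n123 : Strat := .move 843 n119 (.cons 881 n122 .nil)
noncomputable def n124 : Strat := .move 880 n118 (.cons 879 n123 .nil)
noncomputable def n125 : Strat := .move 842 n117 (.cons 882 n124 .nil)
noncomputable def n126 : Strat := .move 878 n3 (.cons 879 n2 .nil)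
noncomputable def n127 : Strat := .move 837 n20 (.cons 799 n126 .nil)
noncomputable def n128 : Strat := .move 800 n21 (.cons 801 n127 .nil)
noncomputable def n129 : Strat := .move 882 n16 (.cons 883 n15 .nil)
noncomputable def n130 : Strat := .move 837 n20 (.cons 799 n129 .nil)
noncomputable def n131 : Strat := .move 800 n21 (.cons 801 n130 .nil)
noncomputable def n132 : Strat := .move 842 n37 (.cons 798 n35 .nil)
noncomputable def n133 : Strat := .move 879 n34 (.cons 878 n132 .nil)
noncomputable def n134 : Strat := .move 797 n36 (.cons 796 n133 .nil)
noncomputable def n135 : Strat := .move 838 n128 (.cons 879 n131 (.cons 837 n134 .nil))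
noncomputable def n136 : Strat := .move 796 n1 (.cons 797 n0 .nil)
noncomputable def n137 : Strat := .move 837 n15 (.cons 881 n136 .nil)
noncomputable def n138 : Strat := .move 882 n16 (.cons 883 n137 .nil)
noncomputable def n139 : Strat := .win 922 1 758
noncomputable def n140 : Strat := .win 718 1 717
noncomputable def n141 : Strat := .move 881 n139 (.cons 922 n140 .nil)
noncomputable def n142 : Strat := .win 923 7 758
noncomputable def n143 : Strat := .win 717 6 717
noncomputable def n144 : Strat := .move 758 n142 (.cons 923 n143 .nil)
noncomputable def n145 : Strat := .win 964 7 799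
noncomputable def n146 : Strat := .win 758 7 758
noncomputable def n147 : Strat := .move 923 n145 (.cons 964 n146 .nil)
noncomputable def n148 : Strat := .win 798 5 756
noncomputable def n149 : Strat := .win 719 3 718
noncomputable def n150 : Strat := .move 760 n148 (.cons 798 n149 .nil)
noncomputable def n151 : Strat := .move 799 n144 (.cons 717 n147 (.cons 923 n150 .nil))
noncomputable def n152 : Strat := .move 759 n141 (.cons 718 n151 .nil)
noncomputable def n153 : Strat := .move 797 n36 (.cons 796 n152 .nil)
noncomputable def n154 : Strat := .move 882 n16 (.cons 883 n153 .nil)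
noncomputable def n155 : Strat := .move 800 n21 (.cons 801 n154 .nil)
noncomputable def n156 : Strat := .move 837 n20 (.cons 799 n136 .nil)
noncomputable def n157 : Strat := .move 800 n21 (.cons 801 n156 .nil)
noncomputable def n158 : Strat := .move 838 n131 (.cons 800 n138 (.cons 837 n155 (.cons 881 n157 .nil)))
noncomputable def n159 : Strat := .win 842 4 838
noncomputable def n160 : Strat := .win 962 7 797
noncomputable def n161 : Strat := .win 756 6 756
noncomputable def n162 : Strat := .move 921 n160 (.cons 962 n161 .nil)
noncomputable def n163 : Strat := .move 880 n159 (.cons 842 n162 .nil)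
noncomputable def n164 : Strat := .move 879 n34 (.cons 878 n163 .nil)
noncomputable def n165 : Strat := .move 797 n36 (.cons 796 n164 .nil)
noncomputable def n166 : Strat := .move 837 n15 (.cons 881 n126 .nil)
noncomputable def n167 : Strat := .move 882 n16 (.cons 883 n166 .nil)
noncomputable def n168 : Strat := .move 838 n165 (.cons 797 n167 (.cons 879 n138 .nil))
noncomputable def n169 : Strat := .move 838 n134 (.cons 797 n128 (.cons 879 n157 .nil))
noncomputable def n170 : Strat := .win 801 5 798
noncomputable def n171 : Strat := .win 803 5 799
noncomputable def n172 : Strat := .move 802 n170 (.cons 801 n171 .nil)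
noncomputable def n173 : Strat := .move 843 n121 (.cons 799 n172 .nil)
noncomputable def n174 : Strat := .move 798 n120 (.cons 797 n173 .nil)
noncomputable def n175 : Strat := .move 843 n119 (.cons 881 n172 .nil)
noncomputable def n176 : Strat := .move 880 n118 (.cons 879 n175 .nil)
noncomputable def n177 : Strat := .win 965 7 800
noncomputable def n178 : Strat := .win 759 7 759
noncomputable def n179 : Strat := .move 800 n177 (.cons 965 n178 .nil)
noncomputable def n180 : Strat := .win 800 7 800
noncomputable def n181 : Strat := .win 1005 1 841
noncomputable def n182 : Strat := .win 923 1 800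
noncomputable def n183 : Strat := .move 964 n181 (.cons 1005 n182 .nil)
noncomputable def n184 : Strat := .move 965 n180 (.cons 800 n183 .nil)
noncomputable def n185 : Strat := .win 923 1 759
noncomputable def n186 : Strat := .win 719 1 718
noncomputable def n187 : Strat := .move 760 n185 (.cons 923 n186 .nil)
noncomputable def n188 : Strat := .win 760 1 759
noncomputable def n189 : Strat := .win 964 1 800
noncomputable def n190 : Strat := .move 923 n188 (.cons 760 n189 .nil)
noncomputable def n191 : Strat := .win 881 0 880
noncomputable def n192 : Strat := .win 966 6 801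
noncomputable def n193 : Strat := .move 925 n191 (.cons 881 n192 .nil)
noncomputable def n194 : Strat := .move 882 n187 (.cons 719 n190 (.cons 923 n193 .nil))
noncomputable def n195 : Strat := .move 924 n179 (.cons 759 n184 (.cons 965 n194 .nil))
noncomputable def n196 : Strat := .move 880 n118 (.cons 879 n195 .nil)
noncomputable def n197 : Strat := .move 883 n45 (.cons 884 n196 .nil)
noncomputable def n198 : Strat := .move 801 n56 (.cons 802 n197 .nil)
noncomputable def n199 : Strat := .move 842 n124 (.cons 881 n174 (.cons 798 n176 (.cons 843 n198 .nil)))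
noncomputable def n200 : Strat := .win 838 0 838
noncomputable def n201 : Strat := .win 964 3 800
noncomputable def n202 : Strat := .move 923 n201 (.cons 964 n188 .nil)
noncomputable def n203 : Strat := .move 882 n200 (.cons 838 n202 .nil)
noncomputable def n204 : Strat := .move 883 n45 (.cons 884 n203 .nil)
noncomputable def n205 : Strat := .move 801 n56 (.cons 802 n204 .nil)
noncomputable def n206 : Strat := .win 883 0 839
noncomputable def n207 : Strat := .win 885 0 840
noncomputable def n208 : Strat := .move 884 n206 (.cons 883 n207 .nil)
noncomputable def n209 : Strat := .move 843 n119 (.cons 881 n208 .nil)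
noncomputable def n210 : Strat := .move 880 n118 (.cons 879 n209 .nil)
noncomputable def n211 : Strat := .move 842 n205 (.cons 760 n176 (.cons 801 n210 .nil))
noncomputable def n212 : Strat := .move 841 n125 (.cons 884 n135 (.cons 842 n158 (.cons 801 n168 (.cons 883 n169 (.cons 838 n199 (.cons 797 n211 .nil))))))
noncomputable def n213 : Strat := .win 843 4 839
noncomputable def n214 : Strat := .win 757 6 757
noncomputable def n215 : Strat := .win 963 7 798
noncomputable def n216 : Strat := .move 922 n214 (.cons 757 n215 .nil)
noncomputable def n217 : Strat := .move 881 n213 (.cons 843 n216 .nil)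
noncomputable def n218 : Strat := .move 798 n120 (.cons 797 n217 .nil)
noncomputable def n219 : Strat := .move 880 n118 (.cons 879 n218 .nil)
noncomputable def n220 : Strat := .move 838 n44 (.cons 882 n38 .nil)
noncomputable def n221 : Strat := .move 883 n45 (.cons 884 n220 .nil)
noncomputable def n222 : Strat := .move 838 n44 (.cons 882 n50 .nil)
noncomputable def n223 : Strat := .move 883 n45 (.cons 884 n222 .nil)
noncomputable def n224 : Strat := .move 842 n219 (.cons 881 n221 (.cons 798 n223 .nil))
noncomputable def n225 : Strat := .win 837 5 796
noncomputable def n226 : Strat := .move 882 n16 (.cons 883 n144 .nil)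
noncomputable def n227 : Strat := .move 799 n225 (.cons 837 n226 .nil)
noncomputable def n228 : Strat := .move 800 n21 (.cons 801 n227 .nil)
noncomputable def n229 : Strat := .move 879 n34 (.cons 878 n228 .nil)
noncomputable def n230 : Strat := .move 797 n36 (.cons 796 n229 .nil)
noncomputable def n231 : Strat := .win 798 2 755
noncomputable def n232 : Strat := .move 755 n231 (.cons 798 n89 .nil)
noncomputable def n233 : Strat := .move 756 n81 (.cons 715 n232 .nil)
noncomputable def n234 : Strat := .move 799 n225 (.cons 837 n233 .nil)
noncomputable def n235 : Strat := .move 800 n21 (.cons 801 n234 .nil)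
noncomputable def n236 : Strat := .move 879 n34 (.cons 878 n235 .nil)
noncomputable def n237 : Strat := .move 797 n36 (.cons 796 n236 .nil)
noncomputable def n238 : Strat := .move 837 n15 (.cons 881 n20 .nil)
noncomputable def n239 : Strat := .move 800 n21 (.cons 801 n238 .nil)
noncomputable def n240 : Strat := .move 882 n16 (.cons 883 n239 .nil)
noncomputable def n241 : Strat := .move 798 n85 (.cons 961 n86 .nil)
noncomputable def n242 : Strat := .win 798 3 797
noncomputable def n243 : Strat := .win 1001 1 837
noncomputable def n244 : Strat := .win 919 1 796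
noncomputable def n245 : Strat := .move 960 n243 (.cons 1001 n244 .nil)
noncomputable def n246 : Strat := .move 961 n242 (.cons 798 n245 .nil)
noncomputable def n247 : Strat := .move 756 n79 (.cons 921 n80 .nil)
noncomputable def n248 : Strat := .win 962 6 797
noncomputable def n249 : Strat := .move 921 n161 (.cons 756 n248 .nil)
noncomputable def n250 : Strat := .win 881 4 878
noncomputable def n251 : Strat := .win 960 1 796
noncomputable def n252 : Strat := .move 919 n250 (.cons 881 n251 .nil)
noncomputable def n253 : Strat := .move 880 n247 (.cons 715 n249 (.cons 921 n252 .nil))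
noncomputable def n254 : Strat := .move 920 n241 (.cons 757 n246 (.cons 961 n253 .nil))
noncomputable def n255 : Strat := .move 882 n16 (.cons 883 n254 .nil)
noncomputable def n256 : Strat := .move 879 n34 (.cons 878 n255 .nil)
noncomputable def n257 : Strat := .move 797 n36 (.cons 796 n256 .nil)
noncomputable def n258 : Strat := .move 838 n138 (.cons 881 n230 (.cons 882 n237 (.cons 796 n240 (.cons 837 n257 .nil))))
noncomputable def n259 : Strat := .move 838 n138 (.cons 795 n240 (.cons 882 n134 .nil))
noncomputable def n260 : Strat := .move 921 n161 (.cons 756 n160 .nil)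
noncomputable def n261 : Strat := .move 797 n36 (.cons 796 n260 .nil)
noncomputable def n262 : Strat := .move 880 n159 (.cons 842 n261 .nil)
noncomputable def n263 : Strat := .move 879 n34 (.cons 878 n262 .nil)
noncomputable def n264 : Strat := .move 800 n21 (.cons 801 n20 .nil)
noncomputable def n265 : Strat := .move 837 n15 (.cons 881 n264 .nil)
noncomputable def n266 : Strat := .move 882 n16 (.cons 883 n265 .nil)
noncomputable def n267 : Strat := .move 838 n167 (.cons 837 n263 (.cons 879 n266 .nil))
noncomputable def n268 : Strat := .win 842 2 797
noncomputable def n269 : Strat := .move 757 n83 (.cons 716 n82 .nil)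
noncomputable def n270 : Strat := .move 879 n34 (.cons 878 n269 .nil)
noncomputable def n271 : Strat := .move 798 n268 (.cons 842 n270 .nil)
noncomputable def n272 : Strat := .move 797 n36 (.cons 796 n271 .nil)
noncomputable def n273 : Strat := .move 838 n138 (.cons 881 n272 (.cons 797 n266 .nil))
noncomputable def n274 : Strat := .move 798 n268 (.cons 842 n269 .nil)
noncomputable def n275 : Strat := .move 879 n34 (.cons 878 n274 .nil)
noncomputable def n276 : Strat := .move 797 n36 (.cons 796 n275 .nil)
noncomputable def n277 : Strat := .win 837 4 796
noncomputable def n278 : Strat := .win 755 2 755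
noncomputable def n279 : Strat := .win 674 6 674
noncomputable def n280 : Strat := .win 880 6 715
noncomputable def n281 : Strat := .move 715 n279 (.cons 674 n280 .nil)
noncomputable def n282 : Strat := .move 756 n278 (.cons 755 n281 .nil)
noncomputable def n283 : Strat := .move 799 n277 (.cons 837 n282 .nil)
noncomputable def n284 : Strat := .move 800 n21 (.cons 801 n283 .nil)
noncomputable def n285 : Strat := .move 798 n268 (.cons 842 n284 .nil)
noncomputable def n286 : Strat := .move 797 n36 (.cons 796 n285 .nil)
noncomputable def n287 : Strat := .move 838 n276 (.cons 842 n230 (.cons 879 n286 (.cons 797 n229 .nil)))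
noncomputable def n288 : Strat := .win 799 3 798
noncomputable def n289 : Strat := .win 797 7 797
noncomputable def n290 : Strat := .move 962 n288 (.cons 799 n289 .nil)
noncomputable def n291 : Strat := .win 1003 7 838
noncomputable def n292 : Strat := .move 962 n289 (.cons 797 n291 .nil)
noncomputable def n293 : Strat := .win 920 1 756
noncomputable def n294 : Strat := .move 757 n293 (.cons 920 n83 .nil)
noncomputable def n295 : Strat := .win 757 1 756
noncomputable def n296 : Strat := .win 961 1 797
noncomputable def n297 : Strat := .move 920 n295 (.cons 757 n296 .nil)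
noncomputable def n298 : Strat := .win 797 6 756
noncomputable def n299 : Strat := .win 715 7 715
noncomputable def n300 : Strat := .move 757 n299 (.cons 715 n83 .nil)
noncomputable def n301 : Strat := .move 756 n298 (.cons 797 n300 .nil)
noncomputable def n302 : Strat := .win 758 3 757
noncomputable def n303 : Strat := .win 801 4 797
noncomputable def n304 : Strat := .move 800 n225 (.cons 837 n303 .nil)
noncomputable def n305 : Strat := .move 799 n302 (.cons 758 n304 .nil)
noncomputable def n306 : Strat := .move 798 n294 (.cons 716 n297 (.cons 920 n301 (.cons 757 n305 .nil)))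
noncomputable def n307 : Strat := .move 962 n288 (.cons 799 n291 .nil)
noncomputable def n308 : Strat := .move 921 n290 (.cons 799 n292 (.cons 962 n306 (.cons 797 n307 .nil)))
noncomputable def n309 : Strat := .move 880 n159 (.cons 842 n308 .nil)
noncomputable def n310 : Strat := .move 879 n34 (.cons 878 n309 .nil)
noncomputable def n311 : Strat := .move 838 n276 (.cons 796 n310 (.cons 879 n286 (.cons 842 n128 .nil)))
noncomputable def n312 : Strat := .win 881 0 836
noncomputable def n313 : Strat := .win 835 0 835
noncomputable def n314 : Strat := .move 836 n312 (.cons 881 n313 .nil)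
noncomputable def n315 : Strat := .move 837 n20 (.cons 799 n314 .nil)
noncomputable def n316 : Strat := .move 800 n21 (.cons 801 n315 .nil)
noncomputable def n317 : Strat := .move 880 n159 (.cons 842 n316 .nil)
noncomputable def n318 : Strat := .move 879 n34 (.cons 878 n317 .nil)
noncomputable def n319 : Strat := .win 965 6 800
noncomputable def n320 : Strat := .win 881 0 879
noncomputable def n321 : Strat := .move 924 n319 (.cons 965 n320 .nil)
noncomputable def n322 : Strat := .move 799 n146 (.cons 758 n145 .nil)
noncomputable def n323 : Strat := .move 923 n321 (.cons 881 n322 .nil)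
noncomputable def n324 : Strat := .move 800 n21 (.cons 801 n323 .nil)
noncomputable def n325 : Strat := .move 882 n16 (.cons 883 n324 .nil)
noncomputable def n326 : Strat := .move 880 n159 (.cons 842 n325 .nil)
noncomputable def n327 : Strat := .move 879 n34 (.cons 878 n326 .nil)
noncomputable def n328 : Strat := .move 838 n266 (.cons 881 n229 (.cons 801 n167 (.cons 882 n318 (.cons 837 n327 .nil))))
noncomputable def n329 : Strat := .win 837 0 837
noncomputable def n330 : Strat := .win 759 1 758
noncomputable def n331 : Strat := .win 963 3 799
noncomputable def n332 : Strat := .move 922 n330 (.cons 759 n331 .nil)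
noncomputable def n333 : Strat := .move 800 n21 (.cons 801 n332 .nil)
noncomputable def n334 : Strat := .move 881 n329 (.cons 837 n333 .nil)
noncomputable def n335 : Strat := .move 882 n16 (.cons 883 n334 .nil)
noncomputable def n336 : Strat := .move 879 n83 (.cons 716 n82 .nil)
noncomputable def n337 : Strat := .win 756 7 756
noncomputable def n338 : Strat := .move 921 n337 (.cons 756 n160 .nil)
noncomputable def n339 : Strat := .win 921 7 756
noncomputable def n340 : Strat := .move 756 n339 (.cons 921 n80 .nil)
noncomputable def n341 : Strat := .win 879 1 756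
noncomputable def n342 : Strat := .move 921 n296 (.cons 961 n160 .nil)
noncomputable def n343 : Strat := .move 920 n341 (.cons 879 n342 .nil)
noncomputable def n344 : Strat := .win 922 6 757
noncomputable def n345 : Strat := .move 882 n329 (.cons 837 n16 .nil)
noncomputable def n346 : Strat := .move 881 n344 (.cons 922 n345 .nil)
noncomputable def n347 : Strat := .move 880 n338 (.cons 962 n340 (.cons 756 n343 (.cons 921 n346 .nil)))
noncomputable def n348 : Strat := .win 675 1 674
noncomputable def n349 : Strat := .win 881 6 716
noncomputable def n350 : Strat := .move 716 n348 (.cons 675 n349 .nil)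
noncomputable def n351 : Strat := .move 757 n336 (.cons 716 n347 (.cons 879 n350 .nil))
noncomputable def n352 : Strat := .move 798 n268 (.cons 842 n351 .nil)
noncomputable def n353 : Strat := .move 797 n36 (.cons 796 n352 .nil)
noncomputable def n354 : Strat := .win 799 5 756
noncomputable def n355 : Strat := .move 760 n149 (.cons 719 n354 .nil)
noncomputable def n356 : Strat := .move 759 n141 (.cons 718 n355 .nil)
noncomputable def n357 : Strat := .move 882 n16 (.cons 883 n356 .nil)
noncomputable def n358 : Strat := .move 800 n21 (.cons 801 n357 .nil)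
noncomputable def n359 : Strat := .move 798 n268 (.cons 842 n358 .nil)
noncomputable def n360 : Strat := .move 797 n36 (.cons 796 n359 .nil)
noncomputable def n361 : Strat := .move 838 n335 (.cons 882 n286 (.cons 800 n353 (.cons 837 n360 .nil)))
noncomputable def n362 : Strat := .move 838 n266 (.cons 883 n286 (.cons 801 n138 (.cons 837 n360 .nil)))
noncomputable def n363 : Strat := .move 843 n121 (.cons 799 n119 .nil)
noncomputable def n364 : Strat := .move 798 n120 (.cons 797 n363 .nil)
noncomputable def n365 : Strat := .move 880 n118 (.cons 879 n364 .nil)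
noncomputable def n366 : Strat := .move 843 n121 (.cons 799 n208 .nil)
noncomputable def n367 : Strat := .move 798 n120 (.cons 797 n366 .nil)
noncomputable def n368 : Strat := .win 758 1 757
noncomputable def n369 : Strat := .win 962 3 798
noncomputable def n370 : Strat := .move 799 n368 (.cons 758 n369 .nil)
noncomputable def n371 : Strat := .win 716 6 716
noncomputable def n372 : Strat := .move 757 n344 (.cons 922 n371 .nil)
noncomputable def n373 : Strat := .win 963 6 798
noncomputable def n374 : Strat := .move 922 n373 (.cons 963 n214 .nil)
noncomputable def n375 : Strat := .win 882 4 879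
noncomputable def n376 : Strat := .move 920 n296 (.cons 961 n375 .nil)
noncomputable def n377 : Strat := .move 798 n372 (.cons 716 n374 (.cons 922 n376 .nil))
noncomputable def n378 : Strat := .move 921 n370 (.cons 962 n377 .nil)
noncomputable def n379 : Strat := .move 883 n45 (.cons 884 n378 .nil)
noncomputable def n380 : Strat := .move 881 n213 (.cons 843 n379 .nil)
noncomputable def n381 : Strat := .move 880 n118 (.cons 879 n380 .nil)
noncomputable def n382 : Strat := .move 799 n302 (.cons 758 n369 .nil)
noncomputable def n383 : Strat := .move 881 n372 (.cons 716 n374 (.cons 922 n376 .nil))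
noncomputable def n384 : Strat := .move 921 n382 (.cons 962 n383 .nil)
noncomputable def n385 : Strat := .move 883 n45 (.cons 884 n384 .nil)
noncomputable def n386 : Strat := .move 798 n120 (.cons 797 n385 .nil)
noncomputable def n387 : Strat := .move 880 n118 (.cons 879 n386 .nil)
noncomputable def n388 : Strat := .move 798 n120 (.cons 797 n216 .nil)
noncomputable def n389 : Strat := .move 881 n213 (.cons 843 n388 .nil)
noncomputable def n390 : Strat := .move 880 n118 (.cons 879 n389 .nil)
noncomputable def n391 : Strat := .move 842 n365 (.cons 880 n367 (.cons 797 n381 (.cons 843 n387 (.cons 799 n390 (.cons 798 n210 .nil)))))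
noncomputable def n392 : Strat := .move 841 n224 (.cons 842 n258 (.cons 757 n259 (.cons 798 n267 (.cons 880 n273 (.cons 881 n287 (.cons 883 n311 (.cons 797 n328 (.cons 878 n361 (.cons 879 n362 (.cons 838 n391 .nil))))))))))
noncomputable def n393 : Strat := .win 843 2 798
noncomputable def n394 : Strat := .win 717 1 716
noncomputable def n395 : Strat := .win 921 3 757
noncomputable def n396 : Strat := .move 758 n394 (.cons 717 n395 .nil)
noncomputable def n397 : Strat := .move 799 n393 (.cons 843 n396 .nil)
noncomputable def n398 : Strat := .move 880 n118 (.cons 879 n397 .nil)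
noncomputable def n399 : Strat := .move 798 n120 (.cons 797 n398 .nil)
noncomputable def n400 : Strat := .move 838 n55 (.cons 800 n50 .nil)
noncomputable def n401 : Strat := .move 801 n56 (.cons 802 n400 .nil)
noncomputable def n402 : Strat := .move 838 n55 (.cons 800 n38 .nil)
noncomputable def n403 : Strat := .move 801 n56 (.cons 802 n402 .nil)
noncomputable def n404 : Strat := .move 842 n399 (.cons 799 n401 (.cons 880 n403 .nil))
noncomputable def n405 : Strat := .move 759 n139 (.cons 922 n140 .nil)
noncomputable def n406 : Strat := .move 800 n21 (.cons 801 n405 .nil)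
noncomputable def n407 : Strat := .move 881 n329 (.cons 837 n406 .nil)
noncomputable def n408 : Strat := .move 882 n16 (.cons 883 n407 .nil)
noncomputable def n409 : Strat := .move 797 n36 (.cons 796 n408 .nil)
noncomputable def n410 : Strat := .move 879 n34 (.cons 878 n409 .nil)
noncomputable def n411 : Strat := .move 798 n86 (.cons 757 n85 .nil)
noncomputable def n412 : Strat := .win 880 4 878
noncomputable def n413 : Strat := .move 919 n412 (.cons 880 n251 .nil)
noncomputable def n414 : Strat := .move 920 n411 (.cons 961 n413 .nil)
noncomputable def n415 : Strat := .move 881 n329 (.cons 837 n414 .nil)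
noncomputable def n416 : Strat := .move 882 n16 (.cons 883 n415 .nil)
noncomputable def n417 : Strat := .move 797 n36 (.cons 796 n416 .nil)
noncomputable def n418 : Strat := .move 879 n34 (.cons 878 n417 .nil)
noncomputable def n419 : Strat := .move 882 n16 (.cons 883 n238 .nil)
noncomputable def n420 : Strat := .move 800 n21 (.cons 801 n419 .nil)
noncomputable def n421 : Strat := .move 920 n86 (.cons 757 n85 .nil)
noncomputable def n422 : Strat := .move 798 n421 (.cons 961 n84 (.cons 757 n90 .nil))
noncomputable def n423 : Strat := .move 756 n81 (.cons 715 n422 .nil)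
noncomputable def n424 : Strat := .move 800 n21 (.cons 801 n423 .nil)
noncomputable def n425 : Strat := .move 797 n36 (.cons 796 n424 .nil)
noncomputable def n426 : Strat := .move 879 n34 (.cons 878 n425 .nil)
noncomputable def n427 : Strat := .move 838 n128 (.cons 799 n410 (.cons 800 n418 (.cons 878 n420 (.cons 837 n426 .nil))))
noncomputable def n428 : Strat := .move 797 n36 (.cons 796 n132 .nil)
noncomputable def n429 : Strat := .move 879 n34 (.cons 878 n428 .nil)
noncomputable def n430 : Strat := .move 838 n128 (.cons 877 n420 (.cons 800 n429 .nil))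
noncomputable def n431 : Strat := .move 838 n157 (.cons 837 n272 (.cons 797 n131 .nil))
noncomputable def n432 : Strat := .move 838 n128 (.cons 799 n263 (.cons 879 n131 .nil))
noncomputable def n433 : Strat := .move 880 n159 (.cons 842 n260 .nil)
noncomputable def n434 : Strat := .move 797 n36 (.cons 796 n433 .nil)
noncomputable def n435 : Strat := .move 879 n34 (.cons 878 n434 .nil)
noncomputable def n436 : Strat := .move 880 n159 (.cons 842 n408 .nil)
noncomputable def n437 : Strat := .move 879 n34 (.cons 878 n436 .nil)
noncomputable def n438 : Strat := .move 838 n435 (.cons 842 n410 (.cons 797 n437 (.cons 879 n409 .nil)))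
noncomputable def n439 : Strat := .win 879 1 715
noncomputable def n440 : Strat := .move 716 n348 (.cons 675 n439 .nil)
noncomputable def n441 : Strat := .move 757 n440 (.cons 716 n347 (.cons 879 n350 .nil))
noncomputable def n442 : Strat := .move 798 n268 (.cons 842 n441 .nil)
noncomputable def n443 : Strat := .move 797 n36 (.cons 796 n442 .nil)
noncomputable def n444 : Strat := .win 919 4 878
noncomputable def n445 : Strat := .move 798 n295 (.cons 757 n85 .nil)
noncomputable def n446 : Strat := .move 920 n444 (.cons 919 n445 .nil)
noncomputable def n447 : Strat := .move 881 n329 (.cons 837 n446 .nil)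
noncomputable def n448 : Strat := .move 882 n16 (.cons 883 n447 .nil)
noncomputable def n449 : Strat := .move 880 n159 (.cons 842 n448 .nil)
noncomputable def n450 : Strat := .move 879 n34 (.cons 878 n449 .nil)
noncomputable def n451 : Strat := .move 838 n435 (.cons 878 n443 (.cons 797 n450 (.cons 842 n138 .nil)))
noncomputable def n452 : Strat := .win 799 5 795
noncomputable def n453 : Strat := .win 835 5 794
noncomputable def n454 : Strat := .move 836 n452 (.cons 799 n453 .nil)
noncomputable def n455 : Strat := .move 837 n15 (.cons 881 n454 .nil)
noncomputable def n456 : Strat := .move 882 n16 (.cons 883 n455 .nil)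
noncomputable def n457 : Strat := .move 798 n268 (.cons 842 n456 .nil)
noncomputable def n458 : Strat := .move 797 n36 (.cons 796 n457 .nil)
noncomputable def n459 : Strat := .move 838 n131 (.cons 799 n409 (.cons 883 n157 (.cons 800 n458 (.cons 837 n360 .nil))))
noncomputable def n460 : Strat := .move 758 n143 (.cons 717 n142 .nil)
noncomputable def n461 : Strat := .move 882 n16 (.cons 883 n460 .nil)
noncomputable def n462 : Strat := .move 799 n225 (.cons 837 n461 .nil)
noncomputable def n463 : Strat := .move 800 n21 (.cons 801 n462 .nil)
noncomputable def n464 : Strat := .move 797 n161 (.cons 756 n160 .nil)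
noncomputable def n465 : Strat := .move 921 n464 (.cons 962 n306 (.cons 797 n307 .nil))
noncomputable def n466 : Strat := .move 880 n159 (.cons 842 n465 .nil)
noncomputable def n467 : Strat := .move 879 n34 (.cons 878 n466 .nil)
noncomputable def n468 : Strat := .move 838 n463 (.cons 800 n450 (.cons 882 n467 (.cons 837 n327 .nil)))
noncomputable def n469 : Strat := .move 838 n131 (.cons 801 n450 (.cons 883 n128 (.cons 837 n327 .nil)))
noncomputable def n470 : Strat := .move 880 n118 (.cons 879 n363 .nil)
noncomputable def n471 : Strat := .move 798 n120 (.cons 797 n470 .nil)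
noncomputable def n472 : Strat := .win 675 6 675
noncomputable def n473 : Strat := .move 716 n472 (.cons 675 n349 .nil)
noncomputable def n474 : Strat := .win 880 1 716
noncomputable def n475 : Strat := .win 676 1 675
noncomputable def n476 : Strat := .move 758 n474 (.cons 880 n475 .nil)
noncomputable def n477 : Strat := .win 882 6 717
noncomputable def n478 : Strat := .move 758 n477 (.cons 882 n474 .nil)
noncomputable def n479 : Strat := .move 758 n477 (.cons 882 n475 .nil)
noncomputable def n480 : Strat := .win 676 3 675
noncomputable def n481 : Strat := .move 716 n480 (.cons 676 n472 .nil)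
noncomputable def n482 : Strat := .move 717 n476 (.cons 676 n478 (.cons 880 n479 (.cons 758 n481 .nil)))
noncomputable def n483 : Strat := .win 922 7 757
noncomputable def n484 : Strat := .move 881 n483 (.cons 922 n371 .nil)
noncomputable def n485 : Strat := .move 758 n395 (.cons 921 n394 .nil)
noncomputable def n486 : Strat := .move 921 n369 (.cons 962 n302 .nil)
noncomputable def n487 : Strat := .win 800 2 756
noncomputable def n488 : Strat := .move 756 n299 (.cons 715 n487 .nil)
noncomputable def n489 : Strat := .move 880 n485 (.cons 717 n486 (.cons 921 n488 .nil))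
noncomputable def n490 : Strat := .move 757 n473 (.cons 881 n482 (.cons 675 n484 (.cons 716 n489 .nil)))
noncomputable def n491 : Strat := .move 801 n56 (.cons 802 n490 .nil)
noncomputable def n492 : Strat := .move 799 n393 (.cons 843 n491 .nil)
noncomputable def n493 : Strat := .move 798 n120 (.cons 797 n492 .nil)
noncomputable def n494 : Strat := .move 881 n344 (.cons 922 n371 .nil)
noncomputable def n495 : Strat := .move 799 n485 (.cons 717 n486 (.cons 921 n488 .nil))
noncomputable def n496 : Strat := .move 757 n494 (.cons 716 n495 .nil)
noncomputable def n497 : Strat := .move 801 n56 (.cons 802 n496 .nil)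
noncomputable def n498 : Strat := .move 880 n118 (.cons 879 n497 .nil)
noncomputable def n499 : Strat := .move 798 n120 (.cons 797 n498 .nil)
noncomputable def n500 : Strat := .move 880 n118 (.cons 879 n396 .nil)
noncomputable def n501 : Strat := .move 799 n393 (.cons 843 n500 .nil)
noncomputable def n502 : Strat := .move 798 n120 (.cons 797 n501 .nil)
noncomputable def n503 : Strat := .move 842 n471 (.cons 798 n176 (.cons 879 n493 (.cons 843 n499 (.cons 881 n502 (.cons 880 n174 .nil)))))
noncomputable def n504 : Strat := .move 841 n404 (.cons 842 n427 (.cons 921 n430 (.cons 880 n431 (.cons 798 n432 (.cons 799 n438 (.cons 801 n451 (.cons 879 n459 (.cons 796 n468 (.cons 797 n469 (.cons 838 n503 .nil))))))))))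
noncomputable def n505 : Strat := .move 880 n118 (.cons 879 n119 .nil)
noncomputable def n506 : Strat := .move 843 n121 (.cons 799 n505 .nil)
noncomputable def n507 : Strat := .move 798 n120 (.cons 797 n506 .nil)
noncomputable def n508 : Strat := .move 842 n117 (.cons 882 n174 (.cons 801 n507 .nil))
noncomputable def n509 : Strat := .move 799 n145 (.cons 964 n146 .nil)
noncomputable def n510 : Strat := .win 799 7 799
noncomputable def n511 : Strat := .win 1004 1 840
noncomputable def n512 : Strat := .win 922 1 799
noncomputable def n513 : Strat := .move 963 n511 (.cons 1004 n512 .nil)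
noncomputable def n514 : Strat := .move 964 n510 (.cons 799 n513 .nil)
noncomputable def n515 : Strat := .win 963 1 799
noncomputable def n516 : Strat := .move 922 n330 (.cons 759 n515 .nil)
noncomputable def n517 : Strat := .win 880 0 879
noncomputable def n518 : Strat := .move 924 n517 (.cons 880 n319 .nil)
noncomputable def n519 : Strat := .move 881 n405 (.cons 718 n516 (.cons 922 n518 .nil))
noncomputable def n520 : Strat := .move 923 n509 (.cons 758 n514 (.cons 964 n519 .nil))
noncomputable def n521 : Strat := .move 879 n34 (.cons 878 n520 .nil)
noncomputable def n522 : Strat := .move 882 n16 (.cons 883 n521 .nil)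
noncomputable def n523 : Strat := .move 800 n21 (.cons 801 n522 .nil)
noncomputable def n524 : Strat := .move 838 n131 (.cons 882 n128 (.cons 837 n523 (.cons 799 n138 .nil)))
noncomputable def n525 : Strat := .move 838 n131 (.cons 882 n157 (.cons 837 n59 (.cons 800 n78 .nil)))
noncomputable def n526 : Strat := .move 798 n120 (.cons 797 n372 .nil)
noncomputable def n527 : Strat := .move 881 n213 (.cons 843 n526 .nil)
noncomputable def n528 : Strat := .move 880 n118 (.cons 879 n527 .nil)
noncomputable def n529 : Strat := .move 801 n56 (.cons 802 n528 .nil)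
noncomputable def n530 : Strat := .move 883 n45 (.cons 884 n529 .nil)
noncomputable def n531 : Strat := .move 882 n185 (.cons 923 n186 .nil)
noncomputable def n532 : Strat := .win 924 7 759
noncomputable def n533 : Strat := .win 718 6 718
noncomputable def n534 : Strat := .move 759 n532 (.cons 924 n533 .nil)
noncomputable def n535 : Strat := .move 924 n177 (.cons 965 n178 .nil)
noncomputable def n536 : Strat := .win 799 5 757
noncomputable def n537 : Strat := .win 720 3 719
noncomputable def n538 : Strat := .move 761 n536 (.cons 799 n537 .nil)
noncomputable def n539 : Strat := .move 800 n534 (.cons 718 n535 (.cons 924 n538 .nil))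
noncomputable def n540 : Strat := .move 760 n531 (.cons 719 n539 .nil)
noncomputable def n541 : Strat := .move 798 n120 (.cons 797 n540 .nil)
noncomputable def n542 : Strat := .move 883 n45 (.cons 884 n541 .nil)
noncomputable def n543 : Strat := .move 801 n56 (.cons 802 n542 .nil)
noncomputable def n544 : Strat := .move 842 n367 (.cons 799 n530 (.cons 843 n543 (.cons 883 n507 (.cons 797 n176 .nil))))
noncomputable def n545 : Strat := .move 842 n367 (.cons 843 n223 (.cons 883 n507 .nil))
noncomputable def n546 : Strat := .move 842 n174 (.cons 798 n401 (.cons 801 n507 .nil))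
noncomputable def n547 : Strat := .win 800 5 757
noncomputable def n548 : Strat := .move 761 n547 (.cons 800 n537 .nil)
noncomputable def n549 : Strat := .move 760 n531 (.cons 719 n548 .nil)
noncomputable def n550 : Strat := .move 799 n393 (.cons 843 n549 .nil)
noncomputable def n551 : Strat := .move 798 n120 (.cons 797 n550 .nil)
noncomputable def n552 : Strat := .move 883 n45 (.cons 884 n551 .nil)
noncomputable def n553 : Strat := .move 801 n56 (.cons 802 n552 .nil)
noncomputable def n554 : Strat := .move 842 n117 (.cons 801 n221 (.cons 838 n553 (.cons 882 n403 .nil)))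
noncomputable def n555 : Strat := .move 838 n44 (.cons 882 n57 .nil)
noncomputable def n556 : Strat := .move 883 n45 (.cons 884 n555 .nil)
noncomputable def n557 : Strat := .move 842 n556 (.cons 838 n530 (.cons 883 n401 (.cons 802 n223 .nil)))
noncomputable def n558 : Strat := .move 838 n44 (.cons 882 n55 .nil)
noncomputable def n559 : Strat := .move 883 n45 (.cons 884 n558 .nil)
noncomputable def n560 : Strat := .move 801 n56 (.cons 802 n559 .nil)
noncomputable def n561 : Strat := .win 798 2 798
noncomputable def n562 : Strat := .win 800 2 799
noncomputable def n563 : Strat := .win 845 4 841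
noncomputable def n564 : Strat := .move 844 n562 (.cons 800 n563 .nil)
noncomputable def n565 : Strat := .move 799 n561 (.cons 798 n564 .nil)
noncomputable def n566 : Strat := .move 843 n119 (.cons 881 n565 .nil)
noncomputable def n567 : Strat := .move 880 n118 (.cons 879 n566 .nil)
noncomputable def n568 : Strat := .move 882 n200 (.cons 838 n567 .nil)
noncomputable def n569 : Strat := .move 883 n45 (.cons 884 n568 .nil)
noncomputable def n570 : Strat := .move 842 n560 (.cons 801 n569 (.cons 838 n176 .nil))
noncomputable def n571 : Strat := .move 841 n508 (.cons 884 n430 (.cons 842 n524 (.cons 880 n525 (.cons 838 n544 (.cons 800 n545 (.cons 882 n546 (.cons 881 n554 (.cons 799 n557 (.cons 797 n570 .nil)))))))))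
noncomputable def n572 : Strat := .move 842 n117 (.cons 882 n507 .nil)
noncomputable def n573 : Strat := .move 919 n251 (.cons 960 n412 .nil)
noncomputable def n574 : Strat := .move 920 n573 (.cons 880 n411 .nil)
noncomputable def n575 : Strat := .move 797 n36 (.cons 796 n574 .nil)
noncomputable def n576 : Strat := .move 879 n34 (.cons 878 n575 .nil)
noncomputable def n577 : Strat := .move 881 n329 (.cons 837 n576 .nil)
noncomputable def n578 : Strat := .move 882 n16 (.cons 883 n577 .nil)
noncomputable def n579 : Strat := .move 755 n89 (.cons 714 n231 .nil)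
noncomputable def n580 : Strat := .move 756 n81 (.cons 715 n579 .nil)
noncomputable def n581 : Strat := .move 879 n34 (.cons 878 n580 .nil)
noncomputable def n582 : Strat := .move 797 n36 (.cons 796 n581 .nil)
noncomputable def n583 : Strat := .move 799 n225 (.cons 837 n582 .nil)
noncomputable def n584 : Strat := .move 800 n21 (.cons 801 n583 .nil)
noncomputable def n585 : Strat := .move 838 n420 (.cons 799 n335 (.cons 800 n578 (.cons 882 n584 (.cons 837 n523 .nil))))
noncomputable def n586 : Strat := .move 799 n225 (.cons 837 n460 .nil)
noncomputable def n587 : Strat := .move 882 n16 (.cons 883 n586 .nil)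
noncomputable def n588 : Strat := .move 800 n21 (.cons 801 n587 .nil)
noncomputable def n589 : Strat := .move 879 n34 (.cons 878 n84 .nil)
noncomputable def n590 : Strat := .move 798 n268 (.cons 842 n589 .nil)
noncomputable def n591 : Strat := .move 797 n36 (.cons 796 n590 .nil)
noncomputable def n592 : Strat := .move 882 n16 (.cons 883 n591 .nil)
noncomputable def n593 : Strat := .win 842 0 797
noncomputable def n594 : Strat := .win 760 5 756
noncomputable def n595 : Strat := .win 677 1 676
noncomputable def n596 : Strat := .win 881 1 717
noncomputable def n597 : Strat := .move 718 n595 (.cons 677 n596 .nil)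
noncomputable def n598 : Strat := .move 759 n594 (.cons 760 n597 .nil)
noncomputable def n599 : Strat := .move 798 n593 (.cons 842 n598 .nil)
noncomputable def n600 : Strat := .move 797 n36 (.cons 796 n599 .nil)
noncomputable def n601 : Strat := .move 799 n225 (.cons 837 n600 .nil)
noncomputable def n602 : Strat := .move 800 n21 (.cons 801 n601 .nil)
noncomputable def n603 : Strat := .move 838 n588 (.cons 800 n592 (.cons 882 n602 .nil))
noncomputable def n604 : Strat := .win 844 2 799
noncomputable def n605 : Strat := .move 843 n604 (.cons 844 n561 .nil)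
noncomputable def n606 : Strat := .move 842 n35 (.cons 880 n605 .nil)
noncomputable def n607 : Strat := .move 879 n34 (.cons 878 n606 .nil)
noncomputable def n608 : Strat := .move 799 n225 (.cons 837 n607 .nil)
noncomputable def n609 : Strat := .move 800 n21 (.cons 801 n608 .nil)
noncomputable def n610 : Strat := .move 880 n159 (.cons 842 n446 .nil)
noncomputable def n611 : Strat := .move 879 n34 (.cons 878 n610 .nil)
noncomputable def n612 : Strat := .move 881 n329 (.cons 837 n611 .nil)
noncomputable def n613 : Strat := .move 882 n16 (.cons 883 n612 .nil)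
noncomputable def n614 : Strat := .move 838 n335 (.cons 882 n609 (.cons 801 n613 (.cons 837 n76 .nil)))
noncomputable def n615 : Strat := .move 842 n124 (.cons 880 n367 (.cons 798 n176 (.cons 843 n198 .nil)))
noncomputable def n616 : Strat := .move 801 n56 (.cons 802 n558 .nil)
noncomputable def n617 : Strat := .move 883 n45 (.cons 884 n616 .nil)
noncomputable def n618 : Strat := .move 842 n617 (.cons 802 n223 (.cons 883 n176 .nil))
noncomputable def n619 : Strat := .move 842 n124 (.cons 881 n221 (.cons 798 n210 .nil))
noncomputable def n620 : Strat := .win 844 4 840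
noncomputable def n621 : Strat := .win 880 4 839
noncomputable def n622 : Strat := .move 843 n620 (.cons 844 n621 .nil)
noncomputable def n623 : Strat := .move 842 n37 (.cons 798 n622 .nil)
noncomputable def n624 : Strat := .move 797 n36 (.cons 796 n623 .nil)
noncomputable def n625 : Strat := .move 881 n329 (.cons 837 n624 .nil)
noncomputable def n626 : Strat := .move 882 n16 (.cons 883 n625 .nil)
noncomputable def n627 : Strat := .move 798 n593 (.cons 842 n282 .nil)
noncomputable def n628 : Strat := .move 797 n36 (.cons 796 n627 .nil)
noncomputable def n629 : Strat := .move 799 n225 (.cons 837 n628 .nil)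
noncomputable def n630 : Strat := .move 800 n21 (.cons 801 n629 .nil)
noncomputable def n631 : Strat := .move 760 n354 (.cons 799 n149 .nil)
noncomputable def n632 : Strat := .move 759 n141 (.cons 718 n631 .nil)
noncomputable def n633 : Strat := .move 798 n268 (.cons 842 n632 .nil)
noncomputable def n634 : Strat := .move 797 n36 (.cons 796 n633 .nil)
noncomputable def n635 : Strat := .move 882 n16 (.cons 883 n634 .nil)
noncomputable def n636 : Strat := .move 800 n21 (.cons 801 n635 .nil)
noncomputable def n637 : Strat := .move 838 n463 (.cons 800 n626 (.cons 883 n630 (.cons 837 n636 .nil)))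
noncomputable def n638 : Strat := .move 842 n124 (.cons 799 n176 (.cons 843 n401 (.cons 879 n174 .nil)))
noncomputable def n639 : Strat := .move 880 n118 (.cons 879 n485 .nil)
noncomputable def n640 : Strat := .move 799 n393 (.cons 843 n639 .nil)
noncomputable def n641 : Strat := .move 798 n120 (.cons 797 n640 .nil)
noncomputable def n642 : Strat := .move 883 n45 (.cons 884 n641 .nil)
noncomputable def n643 : Strat := .move 801 n56 (.cons 802 n642 .nil)
noncomputable def n644 : Strat := .move 842 n117 (.cons 801 n221 (.cons 883 n401 (.cons 838 n643 .nil)))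
noncomputable def n645 : Strat := .move 841 n572 (.cons 842 n585 (.cons 880 n603 (.cons 797 n614 (.cons 838 n615 (.cons 799 n618 (.cons 801 n619 (.cons 879 n637 (.cons 883 n638 (.cons 881 n644 .nil)))))))))
noncomputable def n646 : Strat := .move 836 n8 (.cons 880 n71 .nil)
noncomputable def n647 : Strat := .move 881 n7 (.cons 882 n646 .nil)
noncomputable def n648 : Strat := .move 797 n103 (.cons 960 n104 .nil)
noncomputable def n649 : Strat := .win 797 3 796
noncomputable def n650 : Strat := .win 1000 1 836
noncomputable def n651 : Strat := .win 918 1 795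
noncomputable def n652 : Strat := .move 959 n650 (.cons 1000 n651 .nil)
noncomputable def n653 : Strat := .move 960 n649 (.cons 797 n652 .nil)
noncomputable def n654 : Strat := .move 755 n97 (.cons 920 n98 .nil)
noncomputable def n655 : Strat := .win 755 6 755
noncomputable def n656 : Strat := .win 961 6 796
noncomputable def n657 : Strat := .move 920 n655 (.cons 755 n656 .nil)
noncomputable def n658 : Strat := .win 880 4 877
noncomputable def n659 : Strat := .win 959 1 795
noncomputable def n660 : Strat := .move 918 n658 (.cons 880 n659 .nil)
noncomputable def n661 : Strat := .move 879 n654 (.cons 714 n657 (.cons 920 n660 .nil))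
noncomputable def n662 : Strat := .move 919 n648 (.cons 756 n653 (.cons 960 n661 .nil))
noncomputable def n663 : Strat := .move 881 n7 (.cons 882 n662 .nil)
noncomputable def n664 : Strat := .move 878 n2 (.cons 877 n663 .nil)
noncomputable def n665 : Strat := .move 796 n0 (.cons 795 n664 .nil)
noncomputable def n666 : Strat := .move 879 n98 (.cons 714 n97 .nil)
noncomputable def n667 : Strat := .win 756 3 714
noncomputable def n668 : Strat := .win 674 3 673
noncomputable def n669 : Strat := .win 672 7 672
noncomputable def n670 : Strat := .win 754 7 713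
noncomputable def n671 : Strat := .move 713 n669 (.cons 672 n670 .nil)
noncomputable def n672 : Strat := .move 714 n668 (.cons 674 n671 .nil)
noncomputable def n673 : Strat := .move 715 n667 (.cons 756 n672 .nil)
noncomputable def n674 : Strat := .win 879 6 755
noncomputable def n675 : Strat := .win 797 3 755
noncomputable def n676 : Strat := .win 715 3 714
noncomputable def n677 : Strat := .move 756 n675 (.cons 797 n676 .nil)
noncomputable def n678 : Strat := .move 919 n656 (.cons 961 n677 .nil)
noncomputable def n679 : Strat := .move 920 n674 (.cons 879 n678 .nil)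
noncomputable def n680 : Strat := .move 755 n666 (.cons 879 n673 (.cons 714 n679 .nil))
noncomputable def n681 : Strat := .move 878 n2 (.cons 877 n680 .nil)
noncomputable def n682 : Strat := .move 796 n0 (.cons 795 n681 .nil)
noncomputable def n683 : Strat := .move 837 n67 (.cons 796 n647 (.cons 836 n665 (.cons 880 n682 .nil)))
noncomputable def n684 : Strat := .move 841 n48 (.cons 884 n437 (.cons 879 n335 (.cons 882 n76 .nil)))
noncomputable def n685 : Strat := .move 797 n36 (.cons 796 n247 .nil)
noncomputable def n686 : Strat := .move 880 n159 (.cons 842 n685 .nil)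
noncomputable def n687 : Strat := .move 879 n34 (.cons 878 n686 .nil)
noncomputable def n688 : Strat := .move 882 n16 (.cons 883 n687 .nil)
noncomputable def n689 : Strat := .move 922 n331 (.cons 963 n330 .nil)
noncomputable def n690 : Strat := .move 800 n21 (.cons 801 n689 .nil)
noncomputable def n691 : Strat := .move 882 n687 (.cons 842 n690 .nil)
noncomputable def n692 : Strat := .move 797 n37 (.cons 798 n36 .nil)
noncomputable def n693 : Strat := .move 883 n45 (.cons 884 n692 .nil)
noncomputable def n694 : Strat := .move 842 n35 (.cons 880 n693 .nil)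
noncomputable def n695 : Strat := .move 879 n34 (.cons 878 n694 .nil)
noncomputable def n696 : Strat := .move 882 n16 (.cons 883 n690 .nil)
noncomputable def n697 : Strat := .move 881 n688 (.cons 883 n691 (.cons 882 n695 (.cons 842 n696 .nil)))
noncomputable def n698 : Strat := .move 921 n248 (.cons 962 n161 .nil)
noncomputable def n699 : Strat := .move 880 n247 (.cons 715 n698 (.cons 921 n252 .nil))
noncomputable def n700 : Strat := .move 920 n411 (.cons 961 n699 .nil)
noncomputable def n701 : Strat := .move 882 n16 (.cons 883 n700 .nil)
noncomputable def n702 : Strat := .move 797 n36 (.cons 796 n701 .nil)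
noncomputable def n703 : Strat := .move 879 n34 (.cons 878 n702 .nil)
noncomputable def n704 : Strat := .move 841 n697 (.cons 883 n429 (.cons 842 n703 (.cons 798 n48 (.cons 879 n78 .nil))))
noncomputable def n705 : Strat := .move 883 n45 (.cons 884 n44 .nil)
noncomputable def n706 : Strat := .move 801 n56 (.cons 802 n55 .nil)
noncomputable def n707 : Strat := .move 842 n705 (.cons 882 n706 .nil)
noncomputable def n708 : Strat := .move 836 n70 (.cons 876 n707 .nil)
noncomputable def n709 : Strat := .move 877 n69 (.cons 878 n708 .nil)
noncomputable def n710 : Strat := .move 841 n1 (.cons 797 n709 .nil)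
noncomputable def n711 : Strat := .move 796 n0 (.cons 795 n710 .nil)
noncomputable def n712 : Strat := .win 841 2 796
noncomputable def n713 : Strat := .move 756 n101 (.cons 715 n100 .nil)
noncomputable def n714 : Strat := .move 878 n2 (.cons 877 n713 .nil)
noncomputable def n715 : Strat := .move 797 n712 (.cons 841 n714 .nil)
noncomputable def n716 : Strat := .move 796 n0 (.cons 795 n715 .nil)
noncomputable def n717 : Strat := .move 837 n32 (.cons 796 n647 (.cons 881 n711 (.cons 882 n716 .nil)))
noncomputable def n718 : Strat := .move 880 n80 (.cons 715 n79 .nil)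
noncomputable def n719 : Strat := .win 675 3 674
noncomputable def n720 : Strat := .win 757 3 715
noncomputable def n721 : Strat := .move 716 n719 (.cons 675 n720 .nil)
noncomputable def n722 : Strat := .move 715 n280 (.cons 880 n721 .nil)
noncomputable def n723 : Strat := .win 673 7 673
noncomputable def n724 : Strat := .win 755 7 714
noncomputable def n725 : Strat := .move 714 n723 (.cons 673 n724 .nil)
noncomputable def n726 : Strat := .move 715 n719 (.cons 675 n725 .nil)
noncomputable def n727 : Strat := .move 716 n720 (.cons 757 n726 .nil)
noncomputable def n728 : Strat := .win 880 6 756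
noncomputable def n729 : Strat := .win 798 3 756
noncomputable def n730 : Strat := .win 716 3 715
noncomputable def n731 : Strat := .move 757 n729 (.cons 798 n730 .nil)
noncomputable def n732 : Strat := .move 920 n248 (.cons 962 n731 .nil)
noncomputable def n733 : Strat := .move 921 n728 (.cons 880 n732 .nil)
noncomputable def n734 : Strat := .move 756 n718 (.cons 921 n722 (.cons 880 n727 (.cons 715 n733 .nil)))
noncomputable def n735 : Strat := .move 879 n34 (.cons 878 n734 .nil)
noncomputable def n736 : Strat := .move 797 n36 (.cons 796 n735 .nil)
noncomputable def n737 : Strat := .move 841 n134 (.cons 797 n76 (.cons 879 n78 (.cons 842 n736 .nil)))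
noncomputable def n738 : Strat := .move 841 n78 (.cons 797 n335 (.cons 883 n59 .nil))
noncomputable def n739 : Strat := .win 921 6 797
noncomputable def n740 : Strat := .win 1003 6 838
noncomputable def n741 : Strat := .move 961 n740 (.cons 1003 n245 .nil)
noncomputable def n742 : Strat := .move 962 n739 (.cons 921 n741 .nil)
noncomputable def n743 : Strat := .move 756 n730 (.cons 716 n81 .nil)
noncomputable def n744 : Strat := .move 757 n729 (.cons 798 n743 .nil)
noncomputable def n745 : Strat := .move 920 n241 (.cons 798 n742 (.cons 961 n744 .nil))
noncomputable def n746 : Strat := .move 797 n36 (.cons 796 n745 .nil)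
noncomputable def n747 : Strat := .move 879 n34 (.cons 878 n746 .nil)
noncomputable def n748 : Strat := .move 841 n429 (.cons 796 n76 (.cons 842 n747 (.cons 879 n59 .nil)))
noncomputable def n749 : Strat := .move 838 n49 (.cons 841 n683 (.cons 796 n684 (.cons 837 n704 (.cons 879 n717 (.cons 881 n737 (.cons 878 n738 (.cons 882 n748 .nil)))))))
noncomputable def n750 : Strat := .move 836 n10 (.cons 798 n65 .nil)
noncomputable def n751 : Strat := .move 799 n9 (.cons 800 n750 .nil)
noncomputable def n752 : Strat := .move 919 n104 (.cons 756 n103 .nil)
noncomputable def n753 : Strat := .move 797 n752 (.cons 960 n102 (.cons 756 n108 .nil))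
noncomputable def n754 : Strat := .move 755 n99 (.cons 714 n753 .nil)
noncomputable def n755 : Strat := .move 799 n9 (.cons 800 n754 .nil)
noncomputable def n756 : Strat := .move 796 n0 (.cons 795 n755 .nil)
noncomputable def n757 : Strat := .move 878 n2 (.cons 877 n756 .nil)
noncomputable def n758 : Strat := .win 920 6 796
noncomputable def n759 : Strat := .win 1002 6 837
noncomputable def n760 : Strat := .move 960 n759 (.cons 1002 n652 .nil)
noncomputable def n761 : Strat := .move 961 n758 (.cons 920 n760 .nil)
noncomputable def n762 : Strat := .move 755 n676 (.cons 715 n99 .nil)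
noncomputable def n763 : Strat := .move 756 n675 (.cons 797 n762 .nil)
noncomputable def n764 : Strat := .move 919 n648 (.cons 797 n761 (.cons 960 n763 .nil))
noncomputable def n765 : Strat := .move 796 n0 (.cons 795 n764 .nil)
noncomputable def n766 : Strat := .move 878 n2 (.cons 877 n765 .nil)
noncomputable def n767 : Strat := .move 837 n73 (.cons 878 n751 (.cons 836 n757 (.cons 798 n766 .nil)))
noncomputable def n768 : Strat := .move 841 n59 (.cons 802 n286 (.cons 797 n463 (.cons 800 n78 .nil)))
noncomputable def n769 : Strat := .move 800 n21 (.cons 801 n628 .nil)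
noncomputable def n770 : Strat := .move 800 n628 (.cons 842 n461 .nil)
noncomputable def n771 : Strat := .move 801 n56 (.cons 802 n705 .nil)
noncomputable def n772 : Strat := .move 842 n37 (.cons 798 n771 .nil)
noncomputable def n773 : Strat := .move 797 n36 (.cons 796 n772 .nil)
noncomputable def n774 : Strat := .move 800 n21 (.cons 801 n461 .nil)
noncomputable def n775 : Strat := .move 799 n769 (.cons 801 n770 (.cons 800 n773 (.cons 842 n774 .nil)))
noncomputable def n776 : Strat := .move 841 n775 (.cons 801 n134 (.cons 842 n95 (.cons 880 n59 (.cons 797 n76 .nil))))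
noncomputable def n777 : Strat := .move 836 n64 (.cons 794 n707 .nil)
noncomputable def n778 : Strat := .move 795 n63 (.cons 796 n777 .nil)
noncomputable def n779 : Strat := .move 841 n3 (.cons 879 n778 .nil)
noncomputable def n780 : Strat := .move 878 n2 (.cons 877 n779 .nil)
noncomputable def n781 : Strat := .win 841 4 837
noncomputable def n782 : Strat := .win 961 7 796
noncomputable def n783 : Strat := .move 920 n655 (.cons 755 n782 .nil)
noncomputable def n784 : Strat := .move 796 n0 (.cons 795 n783 .nil)
noncomputable def n785 : Strat := .move 879 n781 (.cons 841 n784 .nil)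
noncomputable def n786 : Strat := .move 878 n2 (.cons 877 n785 .nil)
noncomputable def n787 : Strat := .move 837 n24 (.cons 878 n751 (.cons 799 n780 (.cons 800 n786 .nil)))
noncomputable def n788 : Strat := .move 841 n76 (.cons 879 n463 (.cons 801 n48 .nil))
noncomputable def n789 : Strat := .move 756 n718 (.cons 880 n727 (.cons 715 n733 .nil))
noncomputable def n790 : Strat := .move 879 n34 (.cons 878 n789 .nil)
noncomputable def n791 : Strat := .move 797 n36 (.cons 796 n790 .nil)
noncomputable def n792 : Strat := .move 841 n134 (.cons 878 n78 (.cons 842 n791 (.cons 797 n48 .nil)))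
noncomputable def n793 : Strat := .move 838 n60 (.cons 841 n767 (.cons 878 n768 (.cons 837 n776 (.cons 797 n787 (.cons 799 n737 (.cons 796 n788 (.cons 800 n792 .nil)))))))
noncomputable def n794 : Strat := .move 837 n15 (.cons 881 n4 .nil)
noncomputable def n795 : Strat := .move 882 n16 (.cons 883 n794 .nil)
noncomputable def n796 : Strat := .move 841 n134 (.cons 797 n795 (.cons 879 n43 .nil))
noncomputable def n797 : Strat := .win 836 5 795
noncomputable def n798 : Strat := .move 757 n483 (.cons 922 n371 .nil)
noncomputable def n799 : Strat := .move 881 n7 (.cons 882 n798 .nil)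
noncomputable def n800 : Strat := .move 798 n797 (.cons 836 n799 .nil)
noncomputable def n801 : Strat := .move 799 n9 (.cons 800 n800 .nil)
noncomputable def n802 : Strat := .move 878 n2 (.cons 877 n801 .nil)
noncomputable def n803 : Strat := .move 796 n0 (.cons 795 n802 .nil)
noncomputable def n804 : Strat := .win 797 2 754
noncomputable def n805 : Strat := .move 754 n804 (.cons 797 n107 .nil)
noncomputable def n806 : Strat := .move 755 n99 (.cons 714 n805 .nil)
noncomputable def n807 : Strat := .move 798 n797 (.cons 836 n806 .nil)
noncomputable def n808 : Strat := .move 799 n9 (.cons 800 n807 .nil)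
noncomputable def n809 : Strat := .move 878 n2 (.cons 877 n808 .nil)
noncomputable def n810 : Strat := .move 796 n0 (.cons 795 n809 .nil)
noncomputable def n811 : Strat := .move 836 n8 (.cons 880 n10 .nil)
noncomputable def n812 : Strat := .move 799 n9 (.cons 800 n811 .nil)
noncomputable def n813 : Strat := .move 881 n7 (.cons 882 n812 .nil)
noncomputable def n814 : Strat := .move 837 n67 (.cons 880 n803 (.cons 881 n810 (.cons 795 n813 (.cons 836 n665 .nil))))
noncomputable def n815 : Strat := .move 837 n647 (.cons 878 n13 (.cons 836 n786 .nil))
noncomputable def n816 : Strat := .move 837 n67 (.cons 880 n716 (.cons 796 n13 .nil))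
noncomputable def n817 : Strat := .win 880 0 835
noncomputable def n818 : Strat := .win 834 0 834
noncomputable def n819 : Strat := .move 835 n817 (.cons 880 n818 .nil)
noncomputable def n820 : Strat := .move 836 n10 (.cons 798 n819 .nil)
noncomputable def n821 : Strat := .move 799 n9 (.cons 800 n820 .nil)
noncomputable def n822 : Strat := .move 879 n781 (.cons 841 n821 .nil)
noncomputable def n823 : Strat := .move 878 n2 (.cons 877 n822 .nil)
noncomputable def n824 : Strat := .win 964 6 799
noncomputable def n825 : Strat := .win 880 0 878
noncomputable def n826 : Strat := .move 923 n824 (.cons 964 n825 .nil)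
noncomputable def n827 : Strat := .win 757 7 757
noncomputable def n828 : Strat := .move 798 n827 (.cons 757 n215 .nil)
noncomputable def n829 : Strat := .move 922 n826 (.cons 880 n828 .nil)
noncomputable def n830 : Strat := .move 799 n9 (.cons 800 n829 .nil)
noncomputable def n831 : Strat := .move 881 n7 (.cons 882 n830 .nil)
noncomputable def n832 : Strat := .move 879 n781 (.cons 841 n831 .nil)
noncomputable def n833 : Strat := .move 878 n2 (.cons 877 n832 .nil)
noncomputable def n834 : Strat := .move 837 n13 (.cons 880 n802 (.cons 881 n823 (.cons 836 n833 (.cons 800 n647 .nil))))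
noncomputable def n835 : Strat := .win 836 4 795
noncomputable def n836 : Strat := .win 754 2 754
noncomputable def n837 : Strat := .win 673 6 673
noncomputable def n838 : Strat := .win 879 6 714
noncomputable def n839 : Strat := .move 714 n837 (.cons 673 n838 .nil)
noncomputable def n840 : Strat := .move 755 n836 (.cons 754 n839 .nil)
noncomputable def n841 : Strat := .move 798 n835 (.cons 836 n840 .nil)
noncomputable def n842 : Strat := .move 799 n9 (.cons 800 n841 .nil)
noncomputable def n843 : Strat := .move 797 n712 (.cons 841 n842 .nil)
noncomputable def n844 : Strat := .move 796 n0 (.cons 795 n843 .nil)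
noncomputable def n845 : Strat := .win 921 1 757
noncomputable def n846 : Strat := .move 880 n845 (.cons 921 n394 .nil)
noncomputable def n847 : Strat := .win 718 3 717
noncomputable def n848 : Strat := .win 798 5 755
noncomputable def n849 : Strat := .move 759 n847 (.cons 718 n848 .nil)
noncomputable def n850 : Strat := .move 758 n846 (.cons 717 n849 .nil)
noncomputable def n851 : Strat := .move 881 n7 (.cons 882 n850 .nil)
noncomputable def n852 : Strat := .move 799 n9 (.cons 800 n851 .nil)
noncomputable def n853 : Strat := .move 797 n712 (.cons 841 n852 .nil)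
noncomputable def n854 : Strat := .move 796 n0 (.cons 795 n853 .nil)
noncomputable def n855 : Strat := .move 837 n13 (.cons 798 n67 (.cons 882 n844 (.cons 836 n854 .nil)))
noncomputable def n856 : Strat := .move 797 n712 (.cons 841 n713 .nil)
noncomputable def n857 : Strat := .move 878 n2 (.cons 877 n856 .nil)
noncomputable def n858 : Strat := .move 796 n0 (.cons 795 n857 .nil)
noncomputable def n859 : Strat := .win 796 7 796
noncomputable def n860 : Strat := .move 961 n242 (.cons 798 n859 .nil)
noncomputable def n861 : Strat := .win 1002 7 837
noncomputable def n862 : Strat := .move 961 n859 (.cons 796 n861 .nil)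
noncomputable def n863 : Strat := .win 919 1 755
noncomputable def n864 : Strat := .move 756 n863 (.cons 919 n101 .nil)
noncomputable def n865 : Strat := .win 756 1 755
noncomputable def n866 : Strat := .move 919 n865 (.cons 756 n251 .nil)
noncomputable def n867 : Strat := .win 796 6 755
noncomputable def n868 : Strat := .move 756 n89 (.cons 714 n101 .nil)
noncomputable def n869 : Strat := .move 755 n867 (.cons 796 n868 .nil)
noncomputable def n870 : Strat := .win 800 4 796
noncomputable def n871 : Strat := .move 799 n797 (.cons 836 n870 .nil)
noncomputable def n872 : Strat := .move 798 n86 (.cons 757 n871 .nil)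
noncomputable def n873 : Strat := .move 797 n864 (.cons 715 n866 (.cons 919 n869 (.cons 756 n872 .nil)))
noncomputable def n874 : Strat := .move 961 n242 (.cons 798 n861 .nil)
noncomputable def n875 : Strat := .move 920 n860 (.cons 798 n862 (.cons 961 n873 (.cons 796 n874 .nil)))
noncomputable def n876 : Strat := .move 879 n781 (.cons 841 n875 .nil)
noncomputable def n877 : Strat := .move 878 n2 (.cons 877 n876 .nil)
noncomputable def n878 : Strat := .move 837 n858 (.cons 878 n844 (.cons 795 n877 (.cons 841 n73 .nil)))
noncomputable def n879 : Strat := .move 879 n781 (.cons 841 n783 .nil)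
noncomputable def n880 : Strat := .move 796 n0 (.cons 795 n879 .nil)
noncomputable def n881 : Strat := .move 878 n2 (.cons 877 n880 .nil)
noncomputable def n882 : Strat := .win 836 0 836
noncomputable def n883 : Strat := .move 758 n845 (.cons 921 n394 .nil)
noncomputable def n884 : Strat := .move 799 n9 (.cons 800 n883 .nil)
noncomputable def n885 : Strat := .move 880 n882 (.cons 836 n884 .nil)
noncomputable def n886 : Strat := .move 881 n7 (.cons 882 n885 .nil)
noncomputable def n887 : Strat := .move 879 n781 (.cons 841 n886 .nil)
noncomputable def n888 : Strat := .move 878 n2 (.cons 877 n887 .nil)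
noncomputable def n889 : Strat := .move 837 n881 (.cons 878 n67 (.cons 795 n888 .nil))
noncomputable def n890 : Strat := .move 841 n36 (.cons 796 n133 .nil)
noncomputable def n891 : Strat := .move 841 n36 (.cons 796 n164 .nil)
noncomputable def n892 : Strat := .win 794 0 794
noncomputable def n893 : Strat := .win 798 0 795
noncomputable def n894 : Strat := .move 795 n892 (.cons 794 n893 .nil)
noncomputable def n895 : Strat := .move 796 n712 (.cons 841 n894 .nil)
noncomputable def n896 : Strat := .win 879 6 756
noncomputable def n897 : Strat := .move 756 n80 (.cons 715 n896 .nil)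
noncomputable def n898 : Strat := .move 921 n160 (.cons 962 n897 .nil)
noncomputable def n899 : Strat := .win 877 5 836
noncomputable def n900 : Strat := .move 878 n899 (.cons 877 n863 .nil)
noncomputable def n901 : Strat := .win 798 1 756
noncomputable def n902 : Strat := .win 878 1 755
noncomputable def n903 : Strat := .move 919 n251 (.cons 960 n902 .nil)
noncomputable def n904 : Strat := .move 920 n901 (.cons 798 n903 .nil)
noncomputable def n905 : Strat := .move 757 n730 (.cons 716 n904 .nil)
noncomputable def n906 : Strat := .win 796 7 755
noncomputable def n907 : Strat := .move 755 n906 (.cons 796 n89 .nil)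
noncomputable def n908 : Strat := .move 920 n901 (.cons 798 n907 .nil)
noncomputable def n909 : Strat := .move 757 n730 (.cons 716 n908 .nil)
noncomputable def n910 : Strat := .move 879 n900 (.cons 877 n905 (.cons 878 n909 .nil))
noncomputable def n911 : Strat := .move 756 n80 (.cons 715 n910 .nil)
noncomputable def n912 : Strat := .win 799 3 757
noncomputable def n913 : Strat := .win 717 3 716
noncomputable def n914 : Strat := .move 716 n349 (.cons 881 n348 .nil)
noncomputable def n915 : Strat := .move 757 n913 (.cons 717 n914 .nil)
noncomputable def n916 : Strat := .move 758 n912 (.cons 799 n915 .nil)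
noncomputable def n917 : Strat := .move 798 n337 (.cons 756 n916 .nil)
noncomputable def n918 : Strat := .move 921 n160 (.cons 962 n917 .nil)
noncomputable def n919 : Strat := .move 716 n439 (.cons 879 n348 .nil)
noncomputable def n920 : Strat := .move 879 n293 (.cons 920 n83 .nil)
noncomputable def n921 : Strat := .move 758 n913 (.cons 717 n912 .nil)
noncomputable def n922 : Strat := .move 757 n919 (.cons 675 n920 (.cons 879 n921 .nil))
noncomputable def n923 : Strat := .move 757 n913 (.cons 717 n919 .nil)
noncomputable def n924 : Strat := .move 758 n912 (.cons 799 n923 .nil)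
noncomputable def n925 : Strat := .move 757 n341 (.cons 879 n914 .nil)
noncomputable def n926 : Strat := .move 920 n296 (.cons 961 n925 .nil)
noncomputable def n927 : Strat := .win 795 0 795
noncomputable def n928 : Strat := .move 799 n836 (.cons 754 n302 .nil)
noncomputable def n929 : Strat := .win 879 7 755
noncomputable def n930 : Strat := .move 920 n929 (.cons 879 n296 .nil)
noncomputable def n931 : Strat := .move 755 n928 (.cons 758 n930 .nil)
noncomputable def n932 : Strat := .move 796 n927 (.cons 795 n931 .nil)
noncomputable def n933 : Strat := .move 798 n922 (.cons 920 n924 (.cons 799 n926 (.cons 879 n916 (.cons 757 n932 .nil))))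
noncomputable def n934 : Strat := .move 921 n160 (.cons 962 n933 .nil)
noncomputable def n935 : Strat := .move 880 n898 (.cons 921 n911 (.cons 879 n918 (.cons 756 n934 .nil)))
noncomputable def n936 : Strat := .move 841 n34 (.cons 878 n132 .nil)
noncomputable def n937 : Strat := .move 841 n34 (.cons 878 n274 .nil)
noncomputable def n938 : Strat := .move 756 n80 (.cons 715 n79 .nil)
noncomputable def n939 : Strat := .move 878 n863 (.cons 919 n899 .nil)
noncomputable def n940 : Strat := .move 756 n80 (.cons 715 n939 .nil)
noncomputable def n941 : Strat := .move 798 n296 (.cons 961 n295 .nil)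
noncomputable def n942 : Strat := .win 1002 3 838
noncomputable def n943 : Strat := .win 798 1 797
noncomputable def n944 : Strat := .move 961 n942 (.cons 1002 n943 .nil)
noncomputable def n945 : Strat := .win 881 5 877
noncomputable def n946 : Strat := .win 917 5 876
noncomputable def n947 : Strat := .move 918 n945 (.cons 881 n946 .nil)
noncomputable def n948 : Strat := .move 919 n251 (.cons 960 n947 .nil)
noncomputable def n949 : Strat := .move 920 n941 (.cons 757 n944 (.cons 961 n948 .nil))
noncomputable def n950 : Strat := .move 921 n160 (.cons 962 n949 .nil)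
noncomputable def n951 : Strat := .move 880 n162 (.cons 962 n938 (.cons 921 n940 (.cons 756 n950 .nil)))
noncomputable def n952 : Strat := .move 841 n34 (.cons 878 n163 .nil)
noncomputable def n953 : Strat := .win 799 0 754
noncomputable def n954 : Strat := .win 753 0 753
noncomputable def n955 : Strat := .move 754 n953 (.cons 799 n954 .nil)
noncomputable def n956 : Strat := .move 755 n89 (.cons 714 n955 .nil)
noncomputable def n957 : Strat := .move 756 n81 (.cons 715 n956 .nil)
noncomputable def n958 : Strat := .move 757 n83 (.cons 716 n957 .nil)
noncomputable def n959 : Strat := .move 841 n268 (.cons 842 n16 .nil)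
noncomputable def n960 : Strat := .move 882 n959 (.cons 883 n252 .nil)
noncomputable def n961 : Strat := .move 880 n247 (.cons 715 n249 (.cons 921 n960 .nil))
noncomputable def n962 : Strat := .move 920 n85 (.cons 961 n961 .nil)
noncomputable def n963 : Strat := .move 798 n269 (.cons 716 n421 (.cons 920 n958 (.cons 757 n962 .nil)))
noncomputable def n964 : Strat := .move 879 n936 (.cons 880 n937 (.cons 841 n951 (.cons 798 n952 (.cons 878 n963 .nil))))
noncomputable def n965 : Strat := .move 797 n890 (.cons 798 n891 (.cons 879 n895 (.cons 841 n935 (.cons 796 n964 .nil))))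
noncomputable def n966 : Strat := .move 838 n796 (.cons 841 n814 (.cons 797 n815 (.cons 879 n816 (.cons 796 n834 (.cons 878 n855 (.cons 882 n878 (.cons 798 n889 (.cons 837 n965 .nil))))))))
noncomputable def n967 : Strat := .move 837 n20 (.cons 799 n41 .nil)
noncomputable def n968 : Strat := .move 800 n21 (.cons 801 n967 .nil)
noncomputable def n969 : Strat := .move 841 n429 (.cons 879 n968 (.cons 797 n54 .nil))
noncomputable def n970 : Strat := .move 796 n0 (.cons 795 n886 .nil)
noncomputable def n971 : Strat := .move 878 n2 (.cons 877 n970 .nil)
noncomputable def n972 : Strat := .move 797 n104 (.cons 756 n103 .nil)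
noncomputable def n973 : Strat := .win 879 4 877
noncomputable def n974 : Strat := .move 918 n973 (.cons 879 n659 .nil)
noncomputable def n975 : Strat := .move 919 n972 (.cons 960 n974 .nil)
noncomputable def n976 : Strat := .move 880 n882 (.cons 836 n975 .nil)
noncomputable def n977 : Strat := .move 881 n7 (.cons 882 n976 .nil)
noncomputable def n978 : Strat := .move 796 n0 (.cons 795 n977 .nil)
noncomputable def n979 : Strat := .move 878 n2 (.cons 877 n978 .nil)
noncomputable def n980 : Strat := .move 881 n7 (.cons 882 n811 .nil)
noncomputable def n981 : Strat := .move 799 n9 (.cons 800 n980 .nil)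
noncomputable def n982 : Strat := .move 837 n73 (.cons 798 n971 (.cons 799 n979 (.cons 877 n981 (.cons 836 n757 .nil))))
noncomputable def n983 : Strat := .move 837 n751 (.cons 796 n28 (.cons 836 n716 .nil))
noncomputable def n984 : Strat := .move 837 n73 (.cons 798 n786 (.cons 878 n28 .nil))
noncomputable def n985 : Strat := .win 798 5 794
noncomputable def n986 : Strat := .win 834 5 793
noncomputable def n987 : Strat := .move 835 n985 (.cons 798 n986 .nil)
noncomputable def n988 : Strat := .move 836 n8 (.cons 880 n987 .nil)
noncomputable def n989 : Strat := .move 881 n7 (.cons 882 n988 .nil)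
noncomputable def n990 : Strat := .move 797 n712 (.cons 841 n989 .nil)
noncomputable def n991 : Strat := .move 796 n0 (.cons 795 n990 .nil)
noncomputable def n992 : Strat := .move 837 n28 (.cons 798 n970 (.cons 799 n991 (.cons 836 n854 (.cons 882 n751 .nil))))
noncomputable def n993 : Strat := .win 918 4 877
noncomputable def n994 : Strat := .move 797 n865 (.cons 756 n103 .nil)
noncomputable def n995 : Strat := .move 919 n993 (.cons 918 n994 .nil)
noncomputable def n996 : Strat := .move 880 n882 (.cons 836 n995 .nil)
noncomputable def n997 : Strat := .move 881 n7 (.cons 882 n996 .nil)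
noncomputable def n998 : Strat := .move 879 n781 (.cons 841 n997 .nil)
noncomputable def n999 : Strat := .move 878 n2 (.cons 877 n998 .nil)
noncomputable def n1000 : Strat := .move 837 n28 (.cons 880 n73 (.cons 800 n999 (.cons 836 n833 .nil)))
noncomputable def n1001 : Strat := .win 674 1 673
noncomputable def n1002 : Strat := .win 878 1 714
noncomputable def n1003 : Strat := .move 715 n1001 (.cons 674 n1002 .nil)
noncomputable def n1004 : Strat := .win 755 7 755
noncomputable def n1005 : Strat := .move 920 n1004 (.cons 755 n782 .nil)
noncomputable def n1006 : Strat := .win 920 7 755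
noncomputable def n1007 : Strat := .move 755 n1006 (.cons 920 n98 .nil)
noncomputable def n1008 : Strat := .move 920 n251 (.cons 960 n782 .nil)
noncomputable def n1009 : Strat := .move 919 n902 (.cons 878 n1008 .nil)
noncomputable def n1010 : Strat := .move 881 n882 (.cons 836 n7 .nil)
noncomputable def n1011 : Strat := .move 880 n79 (.cons 921 n1010 .nil)
noncomputable def n1012 : Strat := .move 879 n1005 (.cons 961 n1007 (.cons 755 n1009 (.cons 920 n1011 .nil)))
noncomputable def n1013 : Strat := .move 715 n1001 (.cons 674 n280 .nil)
noncomputable def n1014 : Strat := .move 756 n1003 (.cons 715 n1012 (.cons 878 n1013 .nil))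
noncomputable def n1015 : Strat := .move 797 n712 (.cons 841 n1014 .nil)
noncomputable def n1016 : Strat := .move 796 n0 (.cons 795 n1015 .nil)
noncomputable def n1017 : Strat := .move 837 n881 (.cons 796 n999 (.cons 877 n1016 (.cons 841 n67 .nil)))
noncomputable def n1018 : Strat := .move 837 n858 (.cons 796 n73 (.cons 877 n844 .nil))
noncomputable def n1019 : Strat := .move 842 n35 (.cons 880 n37 .nil)
noncomputable def n1020 : Strat := .move 797 n36 (.cons 796 n1019 .nil)
noncomputable def n1021 : Strat := .move 841 n34 (.cons 878 n1020 .nil)
noncomputable def n1022 : Strat := .move 797 n36 (.cons 796 n274 .nil)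
noncomputable def n1023 : Strat := .move 841 n34 (.cons 878 n1022 .nil)
noncomputable def n1024 : Strat := .win 876 5 835
noncomputable def n1025 : Strat := .win 880 5 836
noncomputable def n1026 : Strat := .move 877 n1024 (.cons 876 n1025 .nil)
noncomputable def n1027 : Strat := .move 878 n781 (.cons 841 n1026 .nil)
noncomputable def n1028 : Strat := .win 880 1 756
noncomputable def n1029 : Strat := .move 920 n85 (.cons 961 n1028 .nil)
noncomputable def n1030 : Strat := .move 757 n83 (.cons 716 n1029 .nil)
noncomputable def n1031 : Strat := .move 796 n927 (.cons 795 n1004 .nil)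
noncomputable def n1032 : Strat := .move 919 n902 (.cons 878 n251 .nil)
noncomputable def n1033 : Strat := .move 756 n728 (.cons 880 n1032 .nil)
noncomputable def n1034 : Strat := .move 921 n248 (.cons 962 n1033 .nil)
noncomputable def n1035 : Strat := .move 797 n1031 (.cons 795 n1034 .nil)
noncomputable def n1036 : Strat := .move 920 n85 (.cons 961 n1035 .nil)
noncomputable def n1037 : Strat := .move 758 n912 (.cons 799 n913 .nil)
noncomputable def n1038 : Strat := .move 799 n369 (.cons 962 n302 .nil)
noncomputable def n1039 : Strat := .move 756 n298 (.cons 797 n299 .nil)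
noncomputable def n1040 : Strat := .move 921 n1037 (.cons 717 n1038 (.cons 799 n1039 .nil))
noncomputable def n1041 : Strat := .win 881 6 757
noncomputable def n1042 : Strat := .move 921 n373 (.cons 963 n1037 .nil)
noncomputable def n1043 : Strat := .move 922 n1041 (.cons 881 n1042 .nil)
noncomputable def n1044 : Strat := .win 797 1 755
noncomputable def n1045 : Strat := .move 756 n1044 (.cons 797 n299 .nil)
noncomputable def n1046 : Strat := .move 881 n993 (.cons 918 n344 .nil)
noncomputable def n1047 : Strat := .move 919 n1045 (.cons 715 n1046 .nil)
noncomputable def n1048 : Strat := .move 878 n899 (.cons 877 n1047 .nil)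
noncomputable def n1049 : Strat := .move 880 n1040 (.cons 756 n1043 (.cons 921 n1048 .nil))
noncomputable def n1050 : Strat := .move 757 n83 (.cons 716 n1049 .nil)
noncomputable def n1051 : Strat := .win 797 3 756
noncomputable def n1052 : Strat := .move 920 n85 (.cons 961 n1051 .nil)
noncomputable def n1053 : Strat := .move 757 n83 (.cons 716 n1052 .nil)
noncomputable def n1054 : Strat := .move 798 n1030 (.cons 757 n1036 (.cons 920 n1050 (.cons 880 n1053 .nil)))
noncomputable def n1055 : Strat := .move 841 n36 (.cons 796 n1019 .nil)
noncomputable def n1056 : Strat := .move 841 n36 (.cons 796 n433 .nil)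
noncomputable def n1057 : Strat := .move 920 n85 (.cons 961 n1031 .nil)
noncomputable def n1058 : Strat := .move 798 n269 (.cons 716 n87 (.cons 757 n1057 (.cons 920 n958 .nil)))
noncomputable def n1059 : Strat := .move 841 n36 (.cons 796 n274 .nil)
noncomputable def n1060 : Strat := .move 798 n295 (.cons 757 n296 .nil)
noncomputable def n1061 : Strat := .move 920 n1060 (.cons 961 n948 .nil)
noncomputable def n1062 : Strat := .move 921 n160 (.cons 962 n1061 .nil)
noncomputable def n1063 : Strat := .move 920 n295 (.cons 757 n85 .nil)
noncomputable def n1064 : Strat := .move 841 n268 (.cons 842 n21 .nil)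
noncomputable def n1065 : Strat := .move 800 n1064 (.cons 801 n90 .nil)
noncomputable def n1066 : Strat := .move 798 n1063 (.cons 961 n294 (.cons 757 n1065 .nil))
noncomputable def n1067 : Strat := .move 756 n80 (.cons 715 n1066 .nil)
noncomputable def n1068 : Strat := .move 880 n260 (.cons 962 n938 (.cons 756 n1062 (.cons 921 n1067 .nil)))
noncomputable def n1069 : Strat := .move 797 n1055 (.cons 798 n1056 (.cons 841 n1058 (.cons 880 n1059 (.cons 796 n1068 .nil))))
noncomputable def n1070 : Strat := .move 879 n1021 (.cons 880 n1023 (.cons 797 n1027 (.cons 841 n1054 (.cons 878 n1069 .nil))))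
noncomputable def n1071 : Strat := .move 838 n969 (.cons 841 n982 (.cons 879 n983 (.cons 797 n984 (.cons 878 n992 (.cons 796 n1000 (.cons 800 n1017 (.cons 880 n1018 (.cons 837 n1070 .nil))))))))
noncomputable def n1072 : Strat := .move 842 n124 (.cons 880 n221 (.cons 798 n210 .nil))
noncomputable def n1073 : Strat := .move 920 n375 (.cons 882 n296 .nil)
noncomputable def n1074 : Strat := .move 881 n372 (.cons 716 n374 (.cons 922 n1073 .nil))
noncomputable def n1075 : Strat := .move 921 n382 (.cons 962 n1074 .nil)
noncomputable def n1076 : Strat := .move 883 n45 (.cons 884 n1075 .nil)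
noncomputable def n1077 : Strat := .move 798 n120 (.cons 797 n1076 .nil)
noncomputable def n1078 : Strat := .move 880 n118 (.cons 879 n1077 .nil)
noncomputable def n1079 : Strat := .move 842 n124 (.cons 843 n1078 (.cons 799 n210 (.cons 880 n367 .nil)))
noncomputable def n1080 : Strat := .move 884 n207 (.cons 885 n206 .nil)
noncomputable def n1081 : Strat := .move 802 n171 (.cons 803 n170 .nil)
noncomputable def n1082 : Strat := .move 843 n1080 (.cons 883 n1081 .nil)
noncomputable def n1083 : Strat := .move 837 n2 (.cons 877 n1082 .nil)
noncomputable def n1084 : Strat := .move 878 n3 (.cons 879 n1083 .nil)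
noncomputable def n1085 : Strat := .move 842 n37 (.cons 798 n1084 .nil)
noncomputable def n1086 : Strat := .move 797 n36 (.cons 796 n1085 .nil)
noncomputable def n1087 : Strat := .move 838 n78 (.cons 798 n138 (.cons 797 n167 (.cons 882 n1086 (.cons 883 n272 .nil))))
noncomputable def n1088 : Strat := .move 838 n435 (.cons 796 n450 (.cons 878 n353 (.cons 842 n138 .nil)))
noncomputable def n1089 : Strat := .move 838 n138 (.cons 881 n791 (.cons 797 n167 .nil))
noncomputable def n1090 : Strat := .move 837 n0 (.cons 795 n1082 .nil)
noncomputable def n1091 : Strat := .move 796 n1 (.cons 797 n1090 .nil)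
noncomputable def n1092 : Strat := .move 842 n35 (.cons 880 n1091 .nil)
noncomputable def n1093 : Strat := .move 879 n34 (.cons 878 n1092 .nil)
noncomputable def n1094 : Strat := .move 838 n167 (.cons 882 n1093 (.cons 879 n138 (.cons 883 n263 .nil)))
noncomputable def n1095 : Strat := .win 922 6 798
noncomputable def n1096 : Strat := .win 1004 6 839
noncomputable def n1097 : Strat := .win 1002 1 838
noncomputable def n1098 : Strat := .win 920 1 797
noncomputable def n1099 : Strat := .move 961 n1097 (.cons 1002 n1098 .nil)
noncomputable def n1100 : Strat := .move 962 n1096 (.cons 1004 n1099 .nil)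
noncomputable def n1101 : Strat := .move 963 n1095 (.cons 922 n1100 .nil)
noncomputable def n1102 : Strat := .move 757 n913 (.cons 717 n494 .nil)
noncomputable def n1103 : Strat := .move 758 n912 (.cons 799 n1102 .nil)
noncomputable def n1104 : Strat := .move 921 n1038 (.cons 799 n1101 (.cons 962 n1103 .nil))
noncomputable def n1105 : Strat := .move 798 n120 (.cons 797 n1104 .nil)
noncomputable def n1106 : Strat := .move 880 n118 (.cons 879 n1105 .nil)
noncomputable def n1107 : Strat := .move 842 n365 (.cons 843 n1106 (.cons 799 n176 (.cons 880 n174 .nil)))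
noncomputable def n1108 : Strat := .move 923 n188 (.cons 760 n201 .nil)
noncomputable def n1109 : Strat := .move 801 n56 (.cons 802 n1108 .nil)
noncomputable def n1110 : Strat := .move 882 n200 (.cons 838 n1109 .nil)
noncomputable def n1111 : Strat := .move 883 n45 (.cons 884 n1110 .nil)
noncomputable def n1112 : Strat := .move 842 n367 (.cons 799 n1111 (.cons 884 n174 .nil))
noncomputable def n1113 : Strat := .move 801 n56 (.cons 802 n187 .nil)
noncomputable def n1114 : Strat := .move 882 n200 (.cons 838 n1113 .nil)
noncomputable def n1115 : Strat := .move 883 n45 (.cons 884 n1114 .nil)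
noncomputable def n1116 : Strat := .move 881 n213 (.cons 843 n1115 .nil)
noncomputable def n1117 : Strat := .move 880 n118 (.cons 879 n1116 .nil)
noncomputable def n1118 : Strat := .move 842 n210 (.cons 885 n1117 (.cons 880 n1111 (.cons 883 n176 .nil)))
noncomputable def n1119 : Strat := .move 841 n1072 (.cons 838 n1079 (.cons 880 n1087 (.cons 843 n1088 (.cons 842 n1089 (.cons 798 n1094 (.cons 883 n1107 (.cons 879 n1112 (.cons 797 n1118 .nil))))))))
noncomputable def n1120 : Strat := .move 842 n507 (.cons 798 n401 (.cons 880 n174 .nil))
noncomputable def n1121 : Strat := .move 756 n487 (.cons 800 n299 .nil)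
noncomputable def n1122 : Strat := .move 799 n485 (.cons 717 n486 (.cons 921 n1121 .nil))
noncomputable def n1123 : Strat := .move 757 n494 (.cons 716 n1122 .nil)
noncomputable def n1124 : Strat := .move 801 n56 (.cons 802 n1123 .nil)
noncomputable def n1125 : Strat := .move 880 n118 (.cons 879 n1124 .nil)
noncomputable def n1126 : Strat := .move 798 n120 (.cons 797 n1125 .nil)
noncomputable def n1127 : Strat := .move 842 n507 (.cons 843 n1126 (.cons 881 n174 (.cons 798 n176 .nil)))
noncomputable def n1128 : Strat := .move 838 n76 (.cons 880 n128 (.cons 879 n157 (.cons 800 n1093 (.cons 801 n263 .nil))))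
noncomputable def n1129 : Strat := .move 838 n276 (.cons 878 n286 (.cons 796 n467 (.cons 842 n128 .nil)))
noncomputable def n1130 : Strat := .move 838 n128 (.cons 799 n747 (.cons 879 n157 .nil))
noncomputable def n1131 : Strat := .move 838 n157 (.cons 800 n1086 (.cons 797 n128 (.cons 801 n272 .nil)))
noncomputable def n1132 : Strat := .move 881 n371 (.cons 716 n344 .nil)
noncomputable def n1133 : Strat := .win 758 3 716
noncomputable def n1134 : Strat := .win 674 7 674
noncomputable def n1135 : Strat := .win 756 7 715
noncomputable def n1136 : Strat := .move 715 n1134 (.cons 674 n1135 .nil)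
noncomputable def n1137 : Strat := .move 716 n480 (.cons 676 n1136 .nil)
noncomputable def n1138 : Strat := .move 717 n1133 (.cons 758 n1137 .nil)
noncomputable def n1139 : Strat := .move 757 n1132 (.cons 881 n1138 (.cons 716 n1043 .nil))
noncomputable def n1140 : Strat := .move 880 n118 (.cons 879 n1139 .nil)
noncomputable def n1141 : Strat := .move 798 n120 (.cons 797 n1140 .nil)
noncomputable def n1142 : Strat := .move 842 n471 (.cons 843 n1141 (.cons 881 n367 (.cons 798 n210 .nil)))
noncomputable def n1143 : Strat := .win 838 5 797
noncomputable def n1144 : Strat := .move 759 n533 (.cons 718 n532 .nil)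
noncomputable def n1145 : Strat := .move 883 n45 (.cons 884 n1144 .nil)
noncomputable def n1146 : Strat := .move 800 n1143 (.cons 838 n1145 .nil)
noncomputable def n1147 : Strat := .move 801 n56 (.cons 802 n1146 .nil)
noncomputable def n1148 : Strat := .move 842 n176 (.cons 881 n1147 (.cons 802 n210 .nil))
noncomputable def n1149 : Strat := .win 838 4 797
noncomputable def n1150 : Strat := .win 756 2 756
noncomputable def n1151 : Strat := .move 757 n1150 (.cons 756 n473 .nil)
noncomputable def n1152 : Strat := .move 800 n1149 (.cons 838 n1151 .nil)
noncomputable def n1153 : Strat := .move 801 n56 (.cons 802 n1152 .nil)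
noncomputable def n1154 : Strat := .move 799 n393 (.cons 843 n1153 .nil)
noncomputable def n1155 : Strat := .move 798 n120 (.cons 797 n1154 .nil)
noncomputable def n1156 : Strat := .move 842 n174 (.cons 803 n1155 (.cons 798 n1147 (.cons 801 n367 .nil)))
noncomputable def n1157 : Strat := .move 841 n1120 (.cons 838 n1127 (.cons 798 n1128 (.cons 843 n1129 (.cons 842 n1130 (.cons 880 n1131 (.cons 801 n1142 (.cons 797 n1148 (.cons 879 n1156 .nil))))))))
noncomputable def n1158 : Strat := .move 837 n73 (.cons 798 n786 (.cons 878 n751 .nil))
noncomputable def n1159 : Strat := .move 837 n647 (.cons 881 n786 (.cons 878 n67 .nil))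
noncomputable def n1160 : Strat := .move 798 n215 (.cons 963 n827 .nil)
noncomputable def n1161 : Strat := .win 921 1 798
noncomputable def n1162 : Strat := .win 1003 1 839
noncomputable def n1163 : Strat := .win 1005 6 840
noncomputable def n1164 : Strat := .win 923 6 799
noncomputable def n1165 : Strat := .move 964 n1163 (.cons 1005 n1164 .nil)
noncomputable def n1166 : Strat := .move 963 n1162 (.cons 1003 n1165 .nil)
noncomputable def n1167 : Strat := .move 962 n1161 (.cons 921 n1166 .nil)
noncomputable def n1168 : Strat := .win 798 7 757
noncomputable def n1169 : Strat := .win 716 7 716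
noncomputable def n1170 : Strat := .move 758 n1169 (.cons 716 n846 .nil)
noncomputable def n1171 : Strat := .move 757 n1168 (.cons 798 n1170 .nil)
noncomputable def n1172 : Strat := .move 922 n1160 (.cons 798 n1167 (.cons 963 n1171 .nil))
noncomputable def n1173 : Strat := .move 799 n9 (.cons 800 n1172 .nil)
noncomputable def n1174 : Strat := .move 881 n7 (.cons 882 n1173 .nil)
noncomputable def n1175 : Strat := .move 837 n813 (.cons 881 n751 (.cons 800 n67 (.cons 836 n1174 .nil)))
noncomputable def n1176 : Strat := .move 881 n329 (.cons 837 n332 .nil)
noncomputable def n1177 : Strat := .move 800 n21 (.cons 801 n1176 .nil)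
noncomputable def n1178 : Strat := .move 882 n16 (.cons 883 n1177 .nil)
noncomputable def n1179 : Strat := .move 882 n143 (.cons 717 n142 .nil)
noncomputable def n1180 : Strat := .win 759 3 758
noncomputable def n1181 : Strat := .move 922 n1180 (.cons 759 n331 .nil)
noncomputable def n1182 : Strat := .win 922 3 758
noncomputable def n1183 : Strat := .move 759 n1182 (.cons 922 n140 .nil)
noncomputable def n1184 : Strat := .win 882 6 758
noncomputable def n1185 : Strat := .move 922 n824 (.cons 964 n331 .nil)
noncomputable def n1186 : Strat := .move 923 n1184 (.cons 882 n1185 .nil)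
noncomputable def n1187 : Strat := .move 879 n159 (.cons 842 n34 .nil)
noncomputable def n1188 : Strat := .move 880 n845 (.cons 921 n1187 .nil)
noncomputable def n1189 : Strat := .move 881 n1181 (.cons 963 n1183 (.cons 759 n1186 (.cons 922 n1188 .nil)))
noncomputable def n1190 : Strat := .win 676 6 676
noncomputable def n1191 : Strat := .move 717 n474 (.cons 880 n1190 .nil)
noncomputable def n1192 : Strat := .move 758 n1179 (.cons 717 n1189 (.cons 882 n1191 .nil))
noncomputable def n1193 : Strat := .move 799 n225 (.cons 837 n1192 .nil)
noncomputable def n1194 : Strat := .move 800 n21 (.cons 801 n1193 .nil)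
noncomputable def n1195 : Strat := .move 841 n1178 (.cons 801 n613 (.cons 883 n1194 (.cons 837 n76 .nil)))
noncomputable def n1196 : Strat := .win 881 1 758
noncomputable def n1197 : Strat := .move 922 n515 (.cons 963 n1196 .nil)
noncomputable def n1198 : Strat := .win 799 7 758
noncomputable def n1199 : Strat := .win 717 7 717
noncomputable def n1200 : Strat := .move 758 n1198 (.cons 799 n1199 .nil)
noncomputable def n1201 : Strat := .move 923 n1197 (.cons 881 n1200 .nil)
noncomputable def n1202 : Strat := .win 678 3 677
noncomputable def n1203 : Strat := .win 760 3 718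
noncomputable def n1204 : Strat := .move 719 n1202 (.cons 678 n1203 .nil)
noncomputable def n1205 : Strat := .move 718 n596 (.cons 881 n1204 .nil)
noncomputable def n1206 : Strat := .win 676 7 676
noncomputable def n1207 : Strat := .win 758 7 717
noncomputable def n1208 : Strat := .move 717 n1206 (.cons 676 n1207 .nil)
noncomputable def n1209 : Strat := .move 718 n1204 (.cons 760 n1208 .nil)
noncomputable def n1210 : Strat := .move 759 n141 (.cons 718 n1201 (.cons 922 n1205 (.cons 881 n1209 .nil)))
noncomputable def n1211 : Strat := .move 882 n16 (.cons 883 n1210 .nil)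
noncomputable def n1212 : Strat := .move 800 n21 (.cons 801 n1211 .nil)
noncomputable def n1213 : Strat := .move 879 n34 (.cons 878 n1212 .nil)
noncomputable def n1214 : Strat := .move 881 n140 (.cons 718 n139 .nil)
noncomputable def n1215 : Strat := .move 718 n1206 (.cons 676 n1204 .nil)
noncomputable def n1216 : Strat := .move 717 n1207 (.cons 758 n1215 .nil)
noncomputable def n1217 : Strat := .move 923 n515 (.cons 963 n1200 .nil)
noncomputable def n1218 : Strat := .move 922 n1196 (.cons 881 n1217 .nil)
noncomputable def n1219 : Strat := .move 759 n1214 (.cons 922 n1205 (.cons 881 n1216 (.cons 718 n1218 .nil)))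
noncomputable def n1220 : Strat := .move 882 n16 (.cons 883 n1219 .nil)
noncomputable def n1221 : Strat := .move 800 n21 (.cons 801 n1220 .nil)
noncomputable def n1222 : Strat := .move 841 n76 (.cons 802 n327 (.cons 842 n523 (.cons 880 n1213 (.cons 879 n1221 (.cons 800 n48 .nil)))))
noncomputable def n1223 : Strat := .move 838 n25 (.cons 881 n787 (.cons 882 n1158 (.cons 800 n1159 (.cons 878 n1175 (.cons 836 n1195 (.cons 837 n1222 .nil))))))
noncomputable def n1224 : Strat := .move 837 n67 (.cons 880 n716 (.cons 796 n647 .nil))
noncomputable def n1225 : Strat := .move 837 n751 (.cons 799 n716 (.cons 796 n73 .nil))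
noncomputable def n1226 : Strat := .move 880 n394 (.cons 717 n845 .nil)
noncomputable def n1227 : Strat := .win 757 7 716
noncomputable def n1228 : Strat := .win 675 7 675
noncomputable def n1229 : Strat := .win 677 3 676
noncomputable def n1230 : Strat := .win 759 3 717
noncomputable def n1231 : Strat := .move 718 n1229 (.cons 677 n1230 .nil)
noncomputable def n1232 : Strat := .move 717 n1228 (.cons 675 n1231 .nil)
noncomputable def n1233 : Strat := .move 716 n1227 (.cons 757 n1232 .nil)
noncomputable def n1234 : Strat := .win 880 1 757
noncomputable def n1235 : Strat := .win 962 1 798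
noncomputable def n1236 : Strat := .move 757 n1168 (.cons 798 n1169 .nil)
noncomputable def n1237 : Strat := .move 922 n1235 (.cons 962 n1236 .nil)
noncomputable def n1238 : Strat := .move 921 n1234 (.cons 880 n1237 .nil)
noncomputable def n1239 : Strat := .move 758 n1226 (.cons 880 n1233 (.cons 717 n1238 .nil))
noncomputable def n1240 : Strat := .move 881 n7 (.cons 882 n1239 .nil)
noncomputable def n1241 : Strat := .move 799 n9 (.cons 800 n1240 .nil)
noncomputable def n1242 : Strat := .move 837 n981 (.cons 799 n647 (.cons 882 n73 (.cons 836 n1241 .nil)))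
noncomputable def n1243 : Strat := .move 800 n330 (.cons 759 n331 .nil)
noncomputable def n1244 : Strat := .win 923 6 758
noncomputable def n1245 : Strat := .move 758 n1244 (.cons 923 n143 .nil)
noncomputable def n1246 : Strat := .win 758 6 758
noncomputable def n1247 : Strat := .move 923 n1246 (.cons 758 n824 .nil)
noncomputable def n1248 : Strat := .win 800 1 758
noncomputable def n1249 : Strat := .move 758 n847 (.cons 718 n143 .nil)
noncomputable def n1250 : Strat := .move 759 n1248 (.cons 800 n1249 .nil)
noncomputable def n1251 : Strat := .win 796 0 796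
noncomputable def n1252 : Strat := .move 797 n268 (.cons 842 n1251 .nil)
noncomputable def n1253 : Strat := .move 798 n827 (.cons 757 n1252 .nil)
noncomputable def n1254 : Strat := .move 799 n1245 (.cons 717 n1247 (.cons 923 n1250 (.cons 758 n1253 .nil)))
noncomputable def n1255 : Strat := .win 1004 3 840
noncomputable def n1256 : Strat := .win 798 7 798
noncomputable def n1257 : Strat := .move 963 n1255 (.cons 1004 n1256 .nil)
noncomputable def n1258 : Strat := .move 922 n1243 (.cons 963 n1254 (.cons 800 n1257 .nil))
noncomputable def n1259 : Strat := .move 881 n329 (.cons 837 n1258 .nil)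
noncomputable def n1260 : Strat := .move 882 n16 (.cons 883 n1259 .nil)
noncomputable def n1261 : Strat := .move 841 n588 (.cons 883 n630 (.cons 801 n1260 (.cons 837 n78 .nil)))
noncomputable def n1262 : Strat := .move 923 n146 (.cons 758 n145 .nil)
noncomputable def n1263 : Strat := .move 799 n1262 (.cons 964 n144 (.cons 758 n150 .nil))
noncomputable def n1264 : Strat := .move 759 n141 (.cons 718 n1263 .nil)
noncomputable def n1265 : Strat := .move 797 n36 (.cons 796 n1264 .nil)
noncomputable def n1266 : Strat := .move 800 n21 (.cons 801 n1265 .nil)
noncomputable def n1267 : Strat := .move 882 n16 (.cons 883 n1266 .nil)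
noncomputable def n1268 : Strat := .move 759 n141 (.cons 718 n1197 (.cons 922 n1200 .nil))
noncomputable def n1269 : Strat := .win 1006 6 841
noncomputable def n1270 : Strat := .win 924 6 800
noncomputable def n1271 : Strat := .move 965 n1269 (.cons 1006 n1270 .nil)
noncomputable def n1272 : Strat := .move 964 n513 (.cons 922 n1271 .nil)
noncomputable def n1273 : Strat := .move 923 n322 (.cons 964 n1268 (.cons 758 n514 (.cons 799 n1272 .nil)))
noncomputable def n1274 : Strat := .move 800 n21 (.cons 801 n1273 .nil)
noncomputable def n1275 : Strat := .move 882 n16 (.cons 883 n1274 .nil)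
noncomputable def n1276 : Strat := .move 797 n36 (.cons 796 n1275 .nil)
noncomputable def n1277 : Strat := .move 841 n78 (.cons 884 n360 (.cons 842 n1267 (.cons 798 n1276 (.cons 797 n1221 (.cons 882 n59 .nil)))))
noncomputable def n1278 : Strat := .move 838 n33 (.cons 799 n717 (.cons 800 n1224 (.cons 882 n1225 (.cons 796 n1242 (.cons 836 n1261 (.cons 837 n1277 .nil))))))
noncomputable def n1279 : Strat := .move 838 n52 (.cons 797 n76 (.cons 879 n78 (.cons 842 n95 .nil)))
noncomputable def n1280 : Strat := .move 838 n95 (.cons 797 n523 (.cons 879 n1267 (.cons 799 n703 .nil)))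
noncomputable def n1281 : Strat := .move 838 n697 (.cons 883 n429 (.cons 842 n703 (.cons 798 n48 (.cons 879 n78 .nil))))
noncomputable def n1282 : Strat := .move 838 n76 (.cons 802 n327 (.cons 842 n523 (.cons 880 n1213 (.cons 879 n1221 (.cons 800 n48 .nil)))))
noncomputable def n1283 : Strat := .move 838 n78 (.cons 884 n360 (.cons 842 n1267 (.cons 798 n1276 (.cons 797 n1221 (.cons 882 n59 .nil)))))
noncomputable def n1284 : Strat := .move 842 n507 (.cons 798 n176 (.cons 880 n367 (.cons 843 n1126 .nil)))
noncomputable def n1285 : Strat := .move 798 n121 (.cons 799 n120 .nil)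
noncomputable def n1286 : Strat := .move 843 n620 (.cons 844 n1285 .nil)
noncomputable def n1287 : Strat := .move 881 n1113 (.cons 760 n1286 .nil)
noncomputable def n1288 : Strat := .move 882 n200 (.cons 838 n1287 .nil)
noncomputable def n1289 : Strat := .move 883 n45 (.cons 884 n1288 .nil)
noncomputable def n1290 : Strat := .move 842 n124 (.cons 880 n1289 (.cons 843 n1111 .nil))
noncomputable def n1291 : Strat := .win 881 4 879
noncomputable def n1292 : Strat := .move 920 n296 (.cons 961 n1291 .nil)
noncomputable def n1293 : Strat := .move 921 n1292 (.cons 881 n382 .nil)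
noncomputable def n1294 : Strat := .move 798 n120 (.cons 797 n1293 .nil)
noncomputable def n1295 : Strat := .move 880 n118 (.cons 879 n1294 .nil)
noncomputable def n1296 : Strat := .move 882 n200 (.cons 838 n1295 .nil)
noncomputable def n1297 : Strat := .move 883 n45 (.cons 884 n1296 .nil)
noncomputable def n1298 : Strat := .move 842 n124 (.cons 843 n1297 (.cons 797 n210 (.cons 879 n367 .nil)))
noncomputable def n1299 : Strat := .win 799 2 756
noncomputable def n1300 : Strat := .move 756 n299 (.cons 715 n1299 .nil)
noncomputable def n1301 : Strat := .move 757 n494 (.cons 716 n1300 .nil)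
noncomputable def n1302 : Strat := .move 880 n118 (.cons 879 n1301 .nil)
noncomputable def n1303 : Strat := .move 798 n120 (.cons 797 n1302 .nil)
noncomputable def n1304 : Strat := .move 800 n1143 (.cons 838 n1303 .nil)
noncomputable def n1305 : Strat := .move 801 n56 (.cons 802 n1304 .nil)
noncomputable def n1306 : Strat := .move 842 n507 (.cons 843 n1305 (.cons 879 n174 (.cons 797 n176 .nil)))
noncomputable def n1307 : Strat := .move 841 n1279 (.cons 842 n1280 (.cons 799 n1281 (.cons 797 n1282 (.cons 879 n1283 (.cons 838 n1284 (.cons 800 n1290 (.cons 801 n1298 (.cons 883 n1306 .nil))))))))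
noncomputable def n1308 : Strat := .move 838 n420 (.cons 881 n76 (.cons 800 n48 .nil))
noncomputable def n1309 : Strat := .move 838 n76 (.cons 879 n463 (.cons 801 n48 .nil))
noncomputable def n1310 : Strat := .move 838 n48 (.cons 884 n437 (.cons 879 n335 (.cons 882 n76 .nil)))
noncomputable def n1311 : Strat := .win 843 0 798
noncomputable def n1312 : Strat := .move 799 n1311 (.cons 843 n1151 .nil)
noncomputable def n1313 : Strat := .move 798 n120 (.cons 797 n1312 .nil)
noncomputable def n1314 : Strat := .move 800 n1143 (.cons 838 n1313 .nil)
noncomputable def n1315 : Strat := .move 801 n56 (.cons 802 n1314 .nil)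
noncomputable def n1316 : Strat := .win 761 5 757
noncomputable def n1317 : Strat := .win 678 1 677
noncomputable def n1318 : Strat := .win 882 1 718
noncomputable def n1319 : Strat := .move 719 n1317 (.cons 678 n1318 .nil)
noncomputable def n1320 : Strat := .move 760 n1316 (.cons 761 n1319 .nil)
noncomputable def n1321 : Strat := .move 799 n1311 (.cons 843 n1320 .nil)
noncomputable def n1322 : Strat := .move 798 n120 (.cons 797 n1321 .nil)
noncomputable def n1323 : Strat := .move 800 n1143 (.cons 838 n1322 .nil)
noncomputable def n1324 : Strat := .move 801 n56 (.cons 802 n1323 .nil)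
noncomputable def n1325 : Strat := .win 845 2 800
noncomputable def n1326 : Strat := .win 799 2 799
noncomputable def n1327 : Strat := .move 844 n1325 (.cons 845 n1326 .nil)
noncomputable def n1328 : Strat := .move 843 n119 (.cons 881 n1327 .nil)
noncomputable def n1329 : Strat := .move 880 n118 (.cons 879 n1328 .nil)
noncomputable def n1330 : Strat := .move 800 n1143 (.cons 838 n1329 .nil)
noncomputable def n1331 : Strat := .move 801 n56 (.cons 802 n1330 .nil)
noncomputable def n1332 : Strat := .move 842 n124 (.cons 879 n1315 (.cons 881 n1324 (.cons 798 n1331 (.cons 843 n1305 (.cons 799 n176 .nil)))))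
noncomputable def n1333 : Strat := .move 842 n176 (.cons 881 n643 (.cons 880 n553 (.cons 802 n365 (.cons 843 n198 .nil))))
noncomputable def n1334 : Strat := .win 881 4 840
noncomputable def n1335 : Strat := .move 844 n563 (.cons 845 n1334 .nil)
noncomputable def n1336 : Strat := .move 843 n121 (.cons 799 n1335 .nil)
noncomputable def n1337 : Strat := .move 798 n120 (.cons 797 n1336 .nil)
noncomputable def n1338 : Strat := .move 882 n200 (.cons 838 n1337 .nil)
noncomputable def n1339 : Strat := .move 883 n45 (.cons 884 n1338 .nil)
noncomputable def n1340 : Strat := .move 842 n124 (.cons 881 n642 (.cons 880 n1339 (.cons 843 n1297 (.cons 798 n210 .nil))))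
noncomputable def n1341 : Strat := .move 800 n1143 (.cons 838 n1144 .nil)
noncomputable def n1342 : Strat := .move 883 n45 (.cons 884 n1341 .nil)
noncomputable def n1343 : Strat := .move 801 n56 (.cons 802 n1342 .nil)
noncomputable def n1344 : Strat := .win 801 3 800
noncomputable def n1345 : Strat := .win 1005 3 841
noncomputable def n1346 : Strat := .move 964 n1344 (.cons 801 n1345 .nil)
noncomputable def n1347 : Strat := .win 924 6 759
noncomputable def n1348 : Strat := .move 759 n1347 (.cons 924 n533 .nil)
noncomputable def n1349 : Strat := .win 759 6 759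
noncomputable def n1350 : Strat := .move 924 n1349 (.cons 759 n319 .nil)
noncomputable def n1351 : Strat := .win 801 1 759
noncomputable def n1352 : Strat := .move 759 n149 (.cons 719 n533 .nil)
noncomputable def n1353 : Strat := .move 760 n1351 (.cons 801 n1352 .nil)
noncomputable def n1354 : Strat := .win 797 0 797
noncomputable def n1355 : Strat := .move 798 n393 (.cons 843 n1354 .nil)
noncomputable def n1356 : Strat := .move 799 n146 (.cons 758 n1355 .nil)
noncomputable def n1357 : Strat := .move 800 n1348 (.cons 718 n1350 (.cons 924 n1353 (.cons 759 n1356 .nil)))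
noncomputable def n1358 : Strat := .move 964 n1345 (.cons 1005 n510 .nil)
noncomputable def n1359 : Strat := .move 923 n1346 (.cons 964 n1357 (.cons 801 n1358 .nil))
noncomputable def n1360 : Strat := .move 882 n200 (.cons 838 n1359 .nil)
noncomputable def n1361 : Strat := .move 883 n45 (.cons 884 n1360 .nil)
noncomputable def n1362 : Strat := .move 842 n1343 (.cons 883 n1315 (.cons 802 n1361 (.cons 838 n367 .nil)))
noncomputable def n1363 : Strat := .move 837 n20 (.cons 799 n15 .nil)
noncomputable def n1364 : Strat := .move 882 n16 (.cons 883 n1363 .nil)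
noncomputable def n1365 : Strat := .move 838 n21 (.cons 801 n1364 .nil)
noncomputable def n1366 : Strat := .win 882 1 758
noncomputable def n1367 : Strat := .move 759 n140 (.cons 718 n1366 .nil)
noncomputable def n1368 : Strat := .move 922 n331 (.cons 963 n1367 .nil)
noncomputable def n1369 : Strat := .move 758 n1184 (.cons 882 n846 .nil)
noncomputable def n1370 : Strat := .move 923 n824 (.cons 964 n1369 .nil)
noncomputable def n1371 : Strat := .move 799 n1180 (.cons 759 n1370 .nil)
noncomputable def n1372 : Strat := .move 922 n331 (.cons 963 n1371 .nil)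
noncomputable def n1373 : Strat := .win 884 2 839
noncomputable def n1374 : Strat := .move 883 n1373 (.cons 884 n1347 .nil)
noncomputable def n1375 : Strat := .win 799 6 758
noncomputable def n1376 : Strat := .win 801 3 759
noncomputable def n1377 : Strat := .move 760 n1376 (.cons 801 n149 .nil)
noncomputable def n1378 : Strat := .move 923 n1375 (.cons 799 n1377 .nil)
noncomputable def n1379 : Strat := .move 758 n1199 (.cons 717 n1378 .nil)
noncomputable def n1380 : Strat := .move 882 n1374 (.cons 884 n1379 .nil)
noncomputable def n1381 : Strat := .move 759 n140 (.cons 718 n1380 .nil)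
noncomputable def n1382 : Strat := .move 921 n1234 (.cons 880 n1235 .nil)
noncomputable def n1383 : Strat := .move 717 n1190 (.cons 676 n474 .nil)
noncomputable def n1384 : Strat := .move 717 n477 (.cons 882 n1190 .nil)
noncomputable def n1385 : Strat := .move 758 n846 (.cons 717 n1382 (.cons 921 n1383 (.cons 880 n1384 .nil)))
noncomputable def n1386 : Strat := .win 802 4 798
noncomputable def n1387 : Strat := .win 882 3 759
noncomputable def n1388 : Strat := .move 923 n1387 (.cons 882 n824 .nil)
noncomputable def n1389 : Strat := .move 798 n1316 (.cons 761 n827 .nil)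
noncomputable def n1390 : Strat := .move 760 n1388 (.cons 964 n1389 .nil)
noncomputable def n1391 : Strat := .move 801 n1386 (.cons 802 n1390 .nil)
noncomputable def n1392 : Strat := .move 799 n1385 (.cons 882 n1171 (.cons 758 n1391 .nil))
noncomputable def n1393 : Strat := .move 922 n331 (.cons 963 n1392 .nil)
noncomputable def n1394 : Strat := .move 799 n1180 (.cons 759 n1171 .nil)
noncomputable def n1395 : Strat := .move 922 n331 (.cons 963 n1394 .nil)
noncomputable def n1396 : Strat := .move 881 n1368 (.cons 718 n1372 (.cons 922 n1381 (.cons 759 n1393 (.cons 882 n1395 .nil))))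
noncomputable def n1397 : Strat := .move 881 n329 (.cons 837 n689 .nil)
noncomputable def n1398 : Strat := .move 882 n16 (.cons 883 n1397 .nil)
noncomputable def n1399 : Strat := .move 838 n21 (.cons 801 n1398 .nil)
noncomputable def n1400 : Strat := .move 838 n21 (.cons 801 n127 .nil)
noncomputable def n1401 : Strat := .move 838 n16 (.cons 883 n1363 .nil)
noncomputable def n1402 : Strat := .move 838 n16 (.cons 883 n1397 .nil)
noncomputable def n1403 : Strat := .move 838 n16 (.cons 883 n521 .nil)
noncomputable def n1404 : Strat := .move 838 n16 (.cons 883 n586 .nil)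
noncomputable def n1405 : Strat := .move 759 n140 (.cons 718 n1374 .nil)
noncomputable def n1406 : Strat := .move 799 n824 (.cons 964 n1246 .nil)
noncomputable def n1407 : Strat := .win 1005 7 840
noncomputable def n1408 : Strat := .win 799 6 799
noncomputable def n1409 : Strat := .move 964 n1407 (.cons 1005 n1408 .nil)
noncomputable def n1410 : Strat := .win 925 2 880
noncomputable def n1411 : Strat := .win 879 0 879
noncomputable def n1412 : Strat := .move 880 n1410 (.cons 925 n1411 .nil)
noncomputable def n1413 : Strat := .move 924 n319 (.cons 965 n1412 .nil)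
noncomputable def n1414 : Strat := .move 923 n1406 (.cons 758 n1409 (.cons 964 n1413 .nil))
noncomputable def n1415 : Strat := .move 922 n331 (.cons 963 n1414 .nil)
noncomputable def n1416 : Strat := .move 881 n689 (.cons 922 n1405 (.cons 759 n1415 .nil))
noncomputable def n1417 : Strat := .move 838 n329 (.cons 837 n34 .nil)
noncomputable def n1418 : Strat := .move 879 n1417 (.cons 878 n518 .nil)
noncomputable def n1419 : Strat := .move 881 n405 (.cons 718 n516 (.cons 922 n1418 .nil))
noncomputable def n1420 : Strat := .move 923 n145 (.cons 964 n1419 .nil)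
noncomputable def n1421 : Strat := .win 762 4 758
noncomputable def n1422 : Strat := .win 798 4 757
noncomputable def n1423 : Strat := .move 761 n1421 (.cons 762 n1422 .nil)
noncomputable def n1424 : Strat := .move 760 n149 (.cons 719 n1423 .nil)
noncomputable def n1425 : Strat := .move 759 n141 (.cons 718 n1424 .nil)
noncomputable def n1426 : Strat := .move 758 n143 (.cons 717 n1425 .nil)
noncomputable def n1427 : Strat := .move 799 n460 (.cons 758 n1420 (.cons 923 n1426 .nil))
noncomputable def n1428 : Strat := .move 882 n1401 (.cons 799 n1402 (.cons 837 n1403 (.cons 881 n1404 (.cons 838 n1416 (.cons 883 n1427 .nil)))))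
noncomputable def n1429 : Strat := .move 800 n1365 (.cons 838 n1396 (.cons 799 n1399 (.cons 883 n1400 (.cons 801 n1428 .nil))))
noncomputable def n1430 : Strat := .move 842 n176 (.cons 801 n124 (.cons 843 n1147 .nil))
noncomputable def n1431 : Strat := .move 841 n1308 (.cons 881 n1309 (.cons 799 n1310 (.cons 883 n1332 (.cons 838 n1333 (.cons 801 n1340 (.cons 879 n1362 (.cons 842 n1429 (.cons 882 n1430 .nil))))))))
noncomputable def n1432 : Strat := .move 838 n240 (.cons 799 n78 (.cons 882 n59 .nil))
noncomputable def n1433 : Strat := .move 838 n78 (.cons 797 n335 (.cons 883 n59 .nil))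
noncomputable def n1434 : Strat := .move 838 n59 (.cons 802 n286 (.cons 797 n463 (.cons 800 n78 .nil)))
noncomputable def n1435 : Strat := .win 920 4 879
noncomputable def n1436 : Strat := .move 921 n1435 (.cons 920 n370 .nil)
noncomputable def n1437 : Strat := .move 881 n213 (.cons 843 n1436 .nil)
noncomputable def n1438 : Strat := .move 880 n118 (.cons 879 n1437 .nil)
noncomputable def n1439 : Strat := .move 882 n200 (.cons 838 n1438 .nil)
noncomputable def n1440 : Strat := .move 883 n45 (.cons 884 n1439 .nil)
noncomputable def n1441 : Strat := .move 882 n200 (.cons 838 n528 .nil)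
noncomputable def n1442 : Strat := .move 883 n45 (.cons 884 n1441 .nil)
noncomputable def n1443 : Strat := .move 842 n507 (.cons 797 n1440 (.cons 799 n1442 (.cons 880 n1339 (.cons 843 n1297 (.cons 881 n367 .nil)))))
noncomputable def n1444 : Strat := .move 800 n178 (.cons 759 n177 .nil)
noncomputable def n1445 : Strat := .win 882 0 880
noncomputable def n1446 : Strat := .move 925 n1445 (.cons 882 n192 .nil)
noncomputable def n1447 : Strat := .move 924 n1444 (.cons 965 n1446 .nil)
noncomputable def n1448 : Strat := .move 881 n213 (.cons 843 n1447 .nil)
noncomputable def n1449 : Strat := .move 880 n118 (.cons 879 n1448 .nil)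
noncomputable def n1450 : Strat := .move 801 n56 (.cons 802 n1449 .nil)
noncomputable def n1451 : Strat := .move 883 n45 (.cons 884 n1450 .nil)
noncomputable def n1452 : Strat := .move 924 n178 (.cons 759 n177 .nil)
noncomputable def n1453 : Strat := .move 800 n1452 (.cons 965 n534 (.cons 759 n538 .nil))
noncomputable def n1454 : Strat := .move 760 n531 (.cons 719 n1453 .nil)
noncomputable def n1455 : Strat := .move 798 n120 (.cons 797 n1454 .nil)
noncomputable def n1456 : Strat := .move 801 n56 (.cons 802 n1455 .nil)
noncomputable def n1457 : Strat := .move 883 n45 (.cons 884 n1456 .nil)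
noncomputable def n1458 : Strat := .move 842 n367 (.cons 799 n530 (.cons 798 n1451 (.cons 884 n471 (.cons 843 n1457 .nil))))
noncomputable def n1459 : Strat := .move 842 n507 (.cons 799 n529 (.cons 798 n1331 (.cons 843 n1305 (.cons 880 n174 .nil))))
noncomputable def n1460 : Strat := .move 882 n200 (.cons 838 n1108 .nil)
noncomputable def n1461 : Strat := .move 801 n56 (.cons 802 n1460 .nil)
noncomputable def n1462 : Strat := .move 883 n45 (.cons 884 n1461 .nil)
noncomputable def n1463 : Strat := .win 677 6 677
noncomputable def n1464 : Strat := .move 718 n596 (.cons 881 n1463 .nil)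
noncomputable def n1465 : Strat := .win 883 6 718
noncomputable def n1466 : Strat := .move 718 n1463 (.cons 677 n1465 .nil)
noncomputable def n1467 : Strat := .win 760 3 759
noncomputable def n1468 : Strat := .move 923 n1467 (.cons 760 n201 .nil)
noncomputable def n1469 : Strat := .win 923 3 759
noncomputable def n1470 : Strat := .move 760 n1469 (.cons 923 n186 .nil)
noncomputable def n1471 : Strat := .win 883 6 759
noncomputable def n1472 : Strat := .move 923 n319 (.cons 965 n201 .nil)
noncomputable def n1473 : Strat := .move 924 n1471 (.cons 883 n1472 .nil)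
noncomputable def n1474 : Strat := .move 880 n213 (.cons 843 n118 .nil)
noncomputable def n1475 : Strat := .move 881 n139 (.cons 922 n1474 .nil)
noncomputable def n1476 : Strat := .move 882 n1468 (.cons 964 n1470 (.cons 760 n1473 (.cons 923 n1475 .nil)))
noncomputable def n1477 : Strat := .move 759 n1464 (.cons 881 n1466 (.cons 718 n1476 .nil))
noncomputable def n1478 : Strat := .move 800 n1143 (.cons 838 n1477 .nil)
noncomputable def n1479 : Strat := .move 801 n56 (.cons 802 n1478 .nil)
noncomputable def n1480 : Strat := .move 842 n1462 (.cons 801 n1440 (.cons 884 n1479 (.cons 838 n176 .nil)))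
noncomputable def n1481 : Strat := .move 838 n16 (.cons 883 n239 .nil)
noncomputable def n1482 : Strat := .win 881 6 758
noncomputable def n1483 : Strat := .move 923 n145 (.cons 964 n1482 .nil)
noncomputable def n1484 : Strat := .move 758 n143 (.cons 717 n1483 .nil)
noncomputable def n1485 : Strat := .move 921 n1235 (.cons 962 n1234 .nil)
noncomputable def n1486 : Strat := .move 922 n1248 (.cons 800 n1485 .nil)
noncomputable def n1487 : Strat := .move 759 n847 (.cons 718 n1486 .nil)
noncomputable def n1488 : Strat := .move 881 n1244 (.cons 923 n1487 .nil)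
noncomputable def n1489 : Strat := .move 758 n143 (.cons 717 n1488 .nil)
noncomputable def n1490 : Strat := .move 801 n1386 (.cons 802 n1467 .nil)
noncomputable def n1491 : Strat := .move 760 n149 (.cons 719 n1376 .nil)
noncomputable def n1492 : Strat := .move 759 n1196 (.cons 881 n1491 .nil)
noncomputable def n1493 : Strat := .move 922 n515 (.cons 963 n1492 .nil)
noncomputable def n1494 : Strat := .move 924 n1471 (.cons 883 n319 .nil)
noncomputable def n1495 : Strat := .move 759 n1196 (.cons 881 n1494 .nil)
noncomputable def n1496 : Strat := .move 922 n515 (.cons 963 n1495 .nil)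
noncomputable def n1497 : Strat := .move 800 n1490 (.cons 802 n1493 (.cons 801 n1496 .nil))
noncomputable def n1498 : Strat := .move 923 n145 (.cons 964 n1497 .nil)
noncomputable def n1499 : Strat := .move 759 n1248 (.cons 800 n847 .nil)
noncomputable def n1500 : Strat := .move 922 n1499 (.cons 718 n1485 .nil)
noncomputable def n1501 : Strat := .win 800 3 799
noncomputable def n1502 : Strat := .move 963 n1255 (.cons 1004 n1501 .nil)
noncomputable def n1503 : Strat := .move 922 n1235 (.cons 962 n1502 .nil)
noncomputable def n1504 : Strat := .move 921 n1234 (.cons 880 n1503 .nil)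
noncomputable def n1505 : Strat := .move 922 n1248 (.cons 800 n1236 .nil)
noncomputable def n1506 : Strat := .move 759 n847 (.cons 718 n1505 .nil)
noncomputable def n1507 : Strat := .win 925 0 880
noncomputable def n1508 : Strat := .move 880 n1507 (.cons 925 n845 .nil)
noncomputable def n1509 : Strat := .win 800 6 759
noncomputable def n1510 : Strat := .move 759 n1509 (.cons 800 n847 .nil)
noncomputable def n1511 : Strat := .move 924 n1508 (.cons 921 n1510 .nil)
noncomputable def n1512 : Strat := .move 883 n1373 (.cons 884 n1511 .nil)
noncomputable def n1513 : Strat := .move 881 n1500 (.cons 759 n1504 (.cons 880 n1506 (.cons 800 n1238 (.cons 922 n1512 .nil))))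
noncomputable def n1514 : Strat := .move 758 n143 (.cons 717 n1513 .nil)
noncomputable def n1515 : Strat := .win 800 7 758
noncomputable def n1516 : Strat := .move 923 n145 (.cons 964 n1515 .nil)
noncomputable def n1517 : Strat := .move 758 n143 (.cons 717 n1516 .nil)
noncomputable def n1518 : Strat := .move 799 n1484 (.cons 964 n1489 (.cons 758 n1498 (.cons 923 n1514 (.cons 881 n1517 .nil))))
noncomputable def n1519 : Strat := .move 800 n21 (.cons 801 n586 .nil)
noncomputable def n1520 : Strat := .move 838 n16 (.cons 883 n1519 .nil)
noncomputable def n1521 : Strat := .move 838 n16 (.cons 883 n137 .nil)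
noncomputable def n1522 : Strat := .move 838 n21 (.cons 801 n238 .nil)
noncomputable def n1523 : Strat := .move 838 n21 (.cons 801 n586 .nil)
noncomputable def n1524 : Strat := .move 838 n21 (.cons 801 n1265 .nil)
noncomputable def n1525 : Strat := .move 838 n21 (.cons 801 n1176 .nil)
noncomputable def n1526 : Strat := .move 801 n1467 (.cons 760 n1386 .nil)
noncomputable def n1527 : Strat := .move 923 n145 (.cons 964 n1526 .nil)
noncomputable def n1528 : Strat := .move 799 n460 (.cons 758 n1527 (.cons 923 n1426 .nil))
noncomputable def n1529 : Strat := .move 923 n1246 (.cons 758 n145 .nil)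
noncomputable def n1530 : Strat := .move 838 n329 (.cons 837 n36 .nil)
noncomputable def n1531 : Strat := .move 797 n1530 (.cons 796 n150 .nil)
noncomputable def n1532 : Strat := .move 799 n1529 (.cons 964 n1245 (.cons 758 n1531 .nil))
noncomputable def n1533 : Strat := .move 759 n140 (.cons 718 n1532 .nil)
noncomputable def n1534 : Strat := .move 799 n1246 (.cons 758 n824 .nil)
noncomputable def n1535 : Strat := .move 923 n1534 (.cons 964 n1413 .nil)
noncomputable def n1536 : Strat := .move 922 n331 (.cons 963 n1535 .nil)
noncomputable def n1537 : Strat := .move 881 n332 (.cons 922 n1533 (.cons 759 n1536 .nil))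
noncomputable def n1538 : Strat := .move 800 n1522 (.cons 881 n1523 (.cons 837 n1524 (.cons 799 n1525 (.cons 838 n1528 (.cons 801 n1537 .nil)))))
noncomputable def n1539 : Strat := .move 882 n1481 (.cons 838 n1518 (.cons 881 n1520 (.cons 801 n1521 (.cons 883 n1538 .nil))))
noncomputable def n1540 : Strat := .move 841 n1432 (.cons 799 n1433 (.cons 881 n1434 (.cons 801 n1443 (.cons 838 n1458 (.cons 883 n1459 (.cons 797 n1480 (.cons 842 n1539 .nil)))))))
noncomputable def n1541 : Strat := .move 837 n20 (.cons 799 n17 .nil)
noncomputable def n1542 : Strat := .move 800 n21 (.cons 801 n1541 .nil)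
noncomputable def n1543 : Strat := .move 841 n1542 (.cons 837 n95 (.cons 800 n138 .nil))
noncomputable def n1544 : Strat := .move 841 n95 (.cons 797 n523 (.cons 879 n1267 (.cons 799 n703 .nil)))
noncomputable def n1545 : Strat := .move 841 n138 (.cons 881 n791 (.cons 797 n167 .nil))
noncomputable def n1546 : Strat := .move 841 n128 (.cons 799 n747 (.cons 879 n157 .nil))
noncomputable def n1547 : Strat := .move 837 n15 (.cons 881 n22 .nil)
noncomputable def n1548 : Strat := .move 882 n16 (.cons 883 n1547 .nil)
noncomputable def n1549 : Strat := .move 841 n1548 (.cons 800 n43 (.cons 837 n1267 (.cons 881 n54 .nil)))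
noncomputable def n1550 : Strat := .move 796 n0 (.cons 795 n654 .nil)
noncomputable def n1551 : Strat := .move 795 n64 (.cons 794 n63 .nil)
noncomputable def n1552 : Strat := .move 836 n313 (.cons 835 n1551 .nil)
noncomputable def n1553 : Strat := .move 799 n10 (.cons 798 n9 .nil)
noncomputable def n1554 : Strat := .move 836 n313 (.cons 835 n1553 .nil)
noncomputable def n1555 : Strat := .move 880 n1550 (.cons 755 n1552 (.cons 796 n1554 .nil))
noncomputable def n1556 : Strat := .move 879 n781 (.cons 841 n1555 .nil)
noncomputable def n1557 : Strat := .move 878 n2 (.cons 877 n1556 .nil)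
noncomputable def n1558 : Strat := .move 837 n13 (.cons 881 n1557 (.cons 836 n786 .nil))
noncomputable def n1559 : Strat := .move 878 n2 (.cons 877 n102 .nil)
noncomputable def n1560 : Strat := .move 881 n8 (.cons 880 n7 .nil)
noncomputable def n1561 : Strat := .move 836 n453 (.cons 835 n1560 .nil)
noncomputable def n1562 : Strat := .move 798 n1559 (.cons 919 n1561 .nil)
noncomputable def n1563 : Strat := .move 797 n712 (.cons 841 n1562 .nil)
noncomputable def n1564 : Strat := .move 796 n0 (.cons 795 n1563 .nil)
noncomputable def n1565 : Strat := .move 837 n28 (.cons 799 n1564 (.cons 836 n716 .nil))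
noncomputable def n1566 : Strat := .move 841 n1 (.cons 797 n3 .nil)
noncomputable def n1567 : Strat := .move 796 n0 (.cons 795 n1566 .nil)
noncomputable def n1568 : Strat := .move 878 n2 (.cons 877 n1567 .nil)
noncomputable def n1569 : Strat := .move 837 n1568 (.cons 795 n19 (.cons 841 n67 .nil))
noncomputable def n1570 : Strat := .move 837 n13 (.cons 882 n73 (.cons 800 n647 (.cons 836 n833 .nil)))
noncomputable def n1571 : Strat := .move 837 n28 (.cons 800 n67 (.cons 882 n751 (.cons 836 n854 .nil)))
noncomputable def n1572 : Strat := .move 838 n1543 (.cons 837 n1544 (.cons 800 n1545 (.cons 882 n1546 (.cons 757 n1549 (.cons 797 n1558 (.cons 879 n1565 (.cons 841 n114 (.cons 798 n1569 (.cons 796 n1570 (.cons 878 n1571 .nil))))))))))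
noncomputable def n1573 : Strat := .win 793 2 793
noncomputable def n1574 : Strat := .win 795 2 794
noncomputable def n1575 : Strat := .move 794 n1573 (.cons 793 n1574 .nil)
noncomputable def n1576 : Strat := .win 875 4 834
noncomputable def n1577 : Strat := .win 877 4 835
noncomputable def n1578 : Strat := .move 876 n1576 (.cons 875 n1577 .nil)
noncomputable def n1579 : Strat := .move 835 n1575 (.cons 795 n1578 .nil)
noncomputable def n1580 : Strat := .move 841 n21 (.cons 801 n1579 .nil)
noncomputable def n1581 : Strat := .move 800 n20 (.cons 799 n1580 .nil)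
noncomputable def n1582 : Strat := .move 836 n8 (.cons 880 n1581 .nil)
noncomputable def n1583 : Strat := .move 881 n7 (.cons 882 n1582 .nil)
noncomputable def n1584 : Strat := .move 921 n368 (.cons 758 n369 .nil)
noncomputable def n1585 : Strat := .move 799 n9 (.cons 800 n1584 .nil)
noncomputable def n1586 : Strat := .move 880 n882 (.cons 836 n1585 .nil)
noncomputable def n1587 : Strat := .move 881 n7 (.cons 882 n1586 .nil)
noncomputable def n1588 : Strat := .move 837 n67 (.cons 880 n32 (.cons 881 n30 (.cons 796 n1583 (.cons 795 n1587 .nil))))
noncomputable def n1589 : Strat := .move 841 n76 (.cons 880 n128 (.cons 879 n157 (.cons 800 n1093 (.cons 801 n263 .nil))))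
noncomputable def n1590 : Strat := .move 800 n21 (.cons 801 n687 .nil)
noncomputable def n1591 : Strat := .move 881 n329 (.cons 837 n687 .nil)
noncomputable def n1592 : Strat := .move 882 n16 (.cons 883 n1591 .nil)
noncomputable def n1593 : Strat := .move 841 n1178 (.cons 882 n1590 (.cons 800 n1592 .nil))
noncomputable def n1594 : Strat := .move 837 n881 (.cons 878 n970 (.cons 796 n888 .nil))
noncomputable def n1595 : Strat := .win 924 0 879
noncomputable def n1596 : Strat := .move 799 n1246 (.cons 758 n145 .nil)
noncomputable def n1597 : Strat := .move 923 n1595 (.cons 924 n1596 .nil)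
noncomputable def n1598 : Strat := .move 881 n329 (.cons 837 n1597 .nil)
noncomputable def n1599 : Strat := .move 880 n159 (.cons 842 n1598 .nil)
noncomputable def n1600 : Strat := .move 879 n34 (.cons 878 n1599 .nil)
noncomputable def n1601 : Strat := .move 882 n16 (.cons 883 n1600 .nil)
noncomputable def n1602 : Strat := .move 841 n240 (.cons 800 n1601 (.cons 883 n54 (.cons 837 n76 .nil)))
noncomputable def n1603 : Strat := .move 841 n76 (.cons 879 n1276 (.cons 801 n165 .nil))
noncomputable def n1604 : Strat := .move 837 n67 (.cons 881 n766 (.cons 796 n647 .nil))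
noncomputable def n1605 : Strat := .move 878 n2 (.cons 877 n1566 .nil)
noncomputable def n1606 : Strat := .move 796 n0 (.cons 795 n1605 .nil)
noncomputable def n1607 : Strat := .move 715 n668 (.cons 674 n667 .nil)
noncomputable def n1608 : Strat := .move 714 n838 (.cons 879 n1607 .nil)
noncomputable def n1609 : Strat := .move 755 n666 (.cons 920 n1608 (.cons 879 n673 (.cons 714 n679 .nil)))
noncomputable def n1610 : Strat := .move 878 n2 (.cons 877 n1609 .nil)
noncomputable def n1611 : Strat := .move 796 n0 (.cons 795 n1610 .nil)
noncomputable def n1612 : Strat := .move 837 n1606 (.cons 796 n24 (.cons 878 n32 (.cons 841 n1611 .nil)))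
noncomputable def n1613 : Strat := .move 838 n68 (.cons 878 n1588 (.cons 882 n1589 (.cons 877 n1593 (.cons 883 n1594 (.cons 796 n1602 (.cons 837 n1603 (.cons 841 n1604 (.cons 880 n1612 .nil))))))))
noncomputable def n1614 : Strat := .move 841 n16 (.cons 883 n1579 .nil)
noncomputable def n1615 : Strat := .move 882 n15 (.cons 881 n1614 .nil)
noncomputable def n1616 : Strat := .move 836 n10 (.cons 798 n1615 .nil)
noncomputable def n1617 : Strat := .move 799 n9 (.cons 800 n1616 .nil)
noncomputable def n1618 : Strat := .move 757 n371 (.cons 716 n483 .nil)
noncomputable def n1619 : Strat := .move 881 n7 (.cons 882 n1618 .nil)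
noncomputable def n1620 : Strat := .move 798 n797 (.cons 836 n1619 .nil)
noncomputable def n1621 : Strat := .move 799 n9 (.cons 800 n1620 .nil)
noncomputable def n1622 : Strat := .move 837 n73 (.cons 798 n24 (.cons 799 n19 (.cons 878 n1617 (.cons 877 n1621 .nil))))
noncomputable def n1623 : Strat := .move 841 n78 (.cons 798 n138 (.cons 797 n167 (.cons 882 n1086 (.cons 883 n272 .nil))))
noncomputable def n1624 : Strat := .move 841 n588 (.cons 800 n592 (.cons 882 n602 .nil))
noncomputable def n1625 : Strat := .move 837 n858 (.cons 796 n802 (.cons 878 n844 .nil))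
noncomputable def n1626 : Strat := .move 799 n277 (.cons 837 n598 .nil)
noncomputable def n1627 : Strat := .move 798 n268 (.cons 842 n1626 .nil)
noncomputable def n1628 : Strat := .move 797 n36 (.cons 796 n1627 .nil)
noncomputable def n1629 : Strat := .move 800 n21 (.cons 801 n1628 .nil)
noncomputable def n1630 : Strat := .move 841 n420 (.cons 882 n1629 (.cons 801 n43 (.cons 837 n78 .nil)))
noncomputable def n1631 : Strat := .move 879 n34 (.cons 878 n1022 .nil)
noncomputable def n1632 : Strat := .move 841 n78 (.cons 797 n1213 (.cons 883 n1631 .nil))
noncomputable def n1633 : Strat := .move 837 n73 (.cons 799 n682 (.cons 878 n751 .nil))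
noncomputable def n1634 : Strat := .move 838 n74 (.cons 796 n1622 (.cons 800 n1623 (.cons 795 n1624 (.cons 801 n1625 (.cons 878 n1630 (.cons 837 n1632 (.cons 841 n1633 (.cons 798 n1612 .nil))))))))
noncomputable def n1635 : Strat := .win 881 1 757
noncomputable def n1636 : Strat := .move 921 n369 (.cons 962 n1635 .nil)
noncomputable def n1637 : Strat := .move 758 n394 (.cons 717 n1636 .nil)
noncomputable def n1638 : Strat := .win 841 0 796
noncomputable def n1639 : Strat := .move 796 n1638 (.cons 841 n927 .nil)
noncomputable def n1640 : Strat := .move 797 n337 (.cons 756 n1639 .nil)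
noncomputable def n1641 : Strat := .move 881 n214 (.cons 757 n1640 .nil)
noncomputable def n1642 : Strat := .move 922 n373 (.cons 963 n1641 .nil)
noncomputable def n1643 : Strat := .move 920 n341 (.cons 879 n296 .nil)
noncomputable def n1644 : Strat := .move 757 n371 (.cons 716 n1643 .nil)
noncomputable def n1645 : Strat := .move 881 n1640 (.cons 796 n1644 .nil)
noncomputable def n1646 : Strat := .move 841 n1251 (.cons 796 n268 .nil)
noncomputable def n1647 : Strat := .move 797 n337 (.cons 756 n1646 .nil)
noncomputable def n1648 : Strat := .win 882 5 878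
noncomputable def n1649 : Strat := .win 918 5 877
noncomputable def n1650 : Strat := .move 919 n1648 (.cons 882 n1649 .nil)
noncomputable def n1651 : Strat := .move 920 n296 (.cons 961 n1650 .nil)
noncomputable def n1652 : Strat := .move 881 n214 (.cons 757 n1651 .nil)
noncomputable def n1653 : Strat := .move 922 n373 (.cons 963 n1652 .nil)
noncomputable def n1654 : Strat := .move 798 n1642 (.cons 922 n1645 (.cons 757 n1647 (.cons 797 n1653 .nil)))
noncomputable def n1655 : Strat := .move 921 n369 (.cons 962 n1654 .nil)
noncomputable def n1656 : Strat := .win 754 0 754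
noncomputable def n1657 : Strat := .win 800 0 755
noncomputable def n1658 : Strat := .move 755 n1656 (.cons 754 n1657 .nil)
noncomputable def n1659 : Strat := .move 756 n299 (.cons 715 n1658 .nil)
noncomputable def n1660 : Strat := .move 798 n344 (.cons 922 n1659 .nil)
noncomputable def n1661 : Strat := .move 757 n1169 (.cons 716 n1660 .nil)
noncomputable def n1662 : Strat := .win 800 3 758
noncomputable def n1663 : Strat := .move 759 n1662 (.cons 800 n847 .nil)
noncomputable def n1664 : Strat := .move 922 n824 (.cons 964 n1663 .nil)
noncomputable def n1665 : Strat := .move 923 n1184 (.cons 882 n1664 .nil)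
noncomputable def n1666 : Strat := .win 841 5 837
noncomputable def n1667 : Strat := .move 878 n1666 (.cons 841 n899 .nil)
noncomputable def n1668 : Strat := .win 878 5 837
noncomputable def n1669 : Strat := .move 841 n1668 (.cons 878 n159 .nil)
noncomputable def n1670 : Strat := .move 920 n444 (.cons 919 n901 .nil)
noncomputable def n1671 : Strat := .move 879 n1667 (.cons 877 n1669 (.cons 841 n1670 .nil))
noncomputable def n1672 : Strat := .move 882 n1244 (.cons 923 n1671 .nil)
noncomputable def n1673 : Strat := .move 757 n1169 (.cons 716 n1672 .nil)
noncomputable def n1674 : Strat := .move 881 n1661 (.cons 798 n1665 (.cons 922 n1673 .nil))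
noncomputable def n1675 : Strat := .move 758 n394 (.cons 717 n1674 .nil)
noncomputable def n1676 : Strat := .win 798 3 757
noncomputable def n1677 : Strat := .move 921 n369 (.cons 962 n1676 .nil)
noncomputable def n1678 : Strat := .move 758 n394 (.cons 717 n1677 .nil)
noncomputable def n1679 : Strat := .move 880 n1637 (.cons 758 n1655 (.cons 921 n1675 (.cons 881 n1678 .nil)))
noncomputable def n1680 : Strat := .move 881 n371 (.cons 716 n483 .nil)
noncomputable def n1681 : Strat := .move 879 n293 (.cons 920 n1667 .nil)
noncomputable def n1682 : Strat := .move 920 n296 (.cons 961 n341 .nil)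
noncomputable def n1683 : Strat := .move 921 n369 (.cons 962 n1682 .nil)
noncomputable def n1684 : Strat := .win 797 7 756
noncomputable def n1685 : Strat := .move 756 n1684 (.cons 797 n299 .nil)
noncomputable def n1686 : Strat := .move 921 n369 (.cons 962 n1685 .nil)
noncomputable def n1687 : Strat := .move 880 n1681 (.cons 878 n1683 (.cons 879 n1686 .nil))
noncomputable def n1688 : Strat := .move 881 n371 (.cons 716 n1687 .nil)
noncomputable def n1689 : Strat := .win 880 7 715
noncomputable def n1690 : Strat := .win 797 2 755
noncomputable def n1691 : Strat := .win 801 2 756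
noncomputable def n1692 : Strat := .move 800 n1690 (.cons 797 n1691 .nil)
noncomputable def n1693 : Strat := .move 755 n1656 (.cons 754 n1692 .nil)
noncomputable def n1694 : Strat := .move 756 n1689 (.cons 880 n1693 .nil)
noncomputable def n1695 : Strat := .move 715 n1134 (.cons 674 n1694 .nil)
noncomputable def n1696 : Strat := .move 716 n472 (.cons 675 n1695 .nil)
noncomputable def n1697 : Strat := .move 881 n483 (.cons 922 n1687 .nil)
noncomputable def n1698 : Strat := .move 757 n1680 (.cons 922 n1688 (.cons 881 n1696 (.cons 716 n1697 .nil)))
noncomputable def n1699 : Strat := .win 800 2 755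
noncomputable def n1700 : Strat := .move 878 n676 (.cons 715 n100 .nil)
noncomputable def n1701 : Strat := .move 756 n1699 (.cons 800 n1700 .nil)
noncomputable def n1702 : Strat := .move 755 n836 (.cons 754 n1701 .nil)
noncomputable def n1703 : Strat := .move 837 n835 (.cons 836 n1702 .nil)
noncomputable def n1704 : Strat := .move 796 n927 (.cons 795 n1703 .nil)
noncomputable def n1705 : Strat := .move 718 n596 (.cons 881 n595 .nil)
noncomputable def n1706 : Strat := .move 759 n594 (.cons 760 n1705 .nil)
noncomputable def n1707 : Strat := .move 841 n593 (.cons 842 n1706 .nil)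
noncomputable def n1708 : Strat := .win 759 5 756
noncomputable def n1709 : Strat := .move 760 n1708 (.cons 759 n1316 .nil)
noncomputable def n1710 : Strat := .move 801 n1386 (.cons 802 n1709 .nil)
noncomputable def n1711 : Strat := .win 841 0 797
noncomputable def n1712 : Strat := .move 801 n1386 (.cons 802 n1311 .nil)
noncomputable def n1713 : Strat := .move 842 n1711 (.cons 841 n1712 .nil)
noncomputable def n1714 : Strat := .move 800 n1707 (.cons 841 n1710 (.cons 759 n1713 .nil))
noncomputable def n1715 : Strat := .move 797 n1646 (.cons 841 n1704 (.cons 796 n1714 .nil))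
noncomputable def n1716 : Strat := .win 755 4 714
noncomputable def n1717 : Strat := .win 719 4 715
noncomputable def n1718 : Strat := .move 718 n1716 (.cons 755 n1717 .nil)
noncomputable def n1719 : Strat := .move 756 n1689 (.cons 880 n1718 .nil)
noncomputable def n1720 : Strat := .move 715 n1134 (.cons 674 n1719 .nil)
noncomputable def n1721 : Strat := .move 717 n480 (.cons 676 n1720 .nil)
noncomputable def n1722 : Strat := .move 716 n472 (.cons 675 n1721 .nil)
noncomputable def n1723 : Strat := .move 881 n344 (.cons 922 n1681 .nil)
noncomputable def n1724 : Strat := .move 879 n293 (.cons 920 n1669 .nil)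
noncomputable def n1725 : Strat := .move 881 n344 (.cons 922 n1724 .nil)
noncomputable def n1726 : Strat := .move 921 n369 (.cons 962 n373 .nil)
noncomputable def n1727 : Strat := .move 922 n1041 (.cons 881 n1726 .nil)
noncomputable def n1728 : Strat := .move 921 n369 (.cons 962 n1643 .nil)
noncomputable def n1729 : Strat := .move 880 n1723 (.cons 877 n1725 (.cons 841 n1727 (.cons 881 n1728 .nil)))
noncomputable def n1730 : Strat := .move 757 n1680 (.cons 881 n1722 (.cons 716 n1729 .nil))
noncomputable def n1731 : Strat := .move 921 n1684 (.cons 797 n369 .nil)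
noncomputable def n1732 : Strat := .move 756 n299 (.cons 715 n1731 .nil)
noncomputable def n1733 : Strat := .move 755 n1690 (.cons 797 n1656 .nil)
noncomputable def n1734 : Strat := .move 800 n1691 (.cons 801 n1733 .nil)
noncomputable def n1735 : Strat := .move 756 n299 (.cons 715 n1734 .nil)
noncomputable def n1736 : Strat := .move 880 n1683 (.cons 961 n1732 (.cons 921 n1735 .nil))
noncomputable def n1737 : Strat := .move 881 n483 (.cons 922 n1736 .nil)
noncomputable def n1738 : Strat := .move 881 n371 (.cons 716 n1736 .nil)
noncomputable def n1739 : Strat := .move 757 n1680 (.cons 716 n1737 (.cons 922 n1738 (.cons 881 n1696 .nil)))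
noncomputable def n1740 : Strat := .move 796 n927 (.cons 795 n1638 .nil)
noncomputable def n1741 : Strat := .win 878 3 714
noncomputable def n1742 : Strat := .move 837 n1741 (.cons 878 n835 .nil)
noncomputable def n1743 : Strat := .move 715 n279 (.cons 674 n1742 .nil)
noncomputable def n1744 : Strat := .move 756 n1699 (.cons 800 n1743 .nil)
noncomputable def n1745 : Strat := .move 755 n836 (.cons 754 n1744 .nil)
noncomputable def n1746 : Strat := .move 796 n927 (.cons 795 n1745 .nil)
noncomputable def n1747 : Strat := .win 757 2 756
noncomputable def n1748 : Strat := .move 756 n1747 (.cons 757 n278 .nil)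
noncomputable def n1749 : Strat := .move 801 n1386 (.cons 802 n1748 .nil)
noncomputable def n1750 : Strat := .win 757 7 715
noncomputable def n1751 : Strat := .move 715 n1750 (.cons 757 n279 .nil)
noncomputable def n1752 : Strat := .move 880 n339 (.cons 921 n1751 .nil)
noncomputable def n1753 : Strat := .move 756 n278 (.cons 755 n1752 .nil)
noncomputable def n1754 : Strat := .move 760 n1316 (.cons 761 n1708 .nil)
noncomputable def n1755 : Strat := .move 801 n1386 (.cons 802 n1754 .nil)
noncomputable def n1756 : Strat := .move 800 n1749 (.cons 801 n1753 (.cons 755 n1755 .nil))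
noncomputable def n1757 : Strat := .move 841 n268 (.cons 842 n1756 .nil)
noncomputable def n1758 : Strat := .move 797 n1646 (.cons 842 n1740 (.cons 841 n1746 (.cons 796 n1757 .nil)))
noncomputable def n1759 : Strat := .move 922 n827 (.cons 757 n215 .nil)
noncomputable def n1760 : Strat := .move 880 n1681 (.cons 877 n1683 (.cons 879 n1686 .nil))
noncomputable def n1761 : Strat := .move 757 n371 (.cons 716 n1760 .nil)
noncomputable def n1762 : Strat := .win 960 4 919
noncomputable def n1763 : Strat := .win 880 1 797
noncomputable def n1764 : Strat := .move 961 n1762 (.cons 960 n1763 .nil)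
noncomputable def n1765 : Strat := .win 883 5 879
noncomputable def n1766 : Strat := .win 919 5 878
noncomputable def n1767 : Strat := .move 882 n1765 (.cons 883 n1766 .nil)
noncomputable def n1768 : Strat := .move 920 n1764 (.cons 880 n1767 .nil)
noncomputable def n1769 : Strat := .move 923 n824 (.cons 964 n1768 .nil)
noncomputable def n1770 : Strat := .move 921 n1235 (.cons 962 n1769 .nil)
noncomputable def n1771 : Strat := .move 922 n215 (.cons 963 n1770 .nil)
noncomputable def n1772 : Strat := .move 881 n1759 (.cons 963 n1618 (.cons 922 n1761 (.cons 757 n1771 .nil)))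
noncomputable def n1773 : Strat := .move 842 n120 (.cons 797 n393 .nil)
noncomputable def n1774 : Strat := .move 797 n1251 (.cons 796 n268 .nil)
noncomputable def n1775 : Strat := .move 800 n1706 (.cons 677 n1749 .nil)
noncomputable def n1776 : Strat := .move 797 n1251 (.cons 796 n1775 .nil)
noncomputable def n1777 : Strat := .move 761 n537 (.cons 720 n547 .nil)
noncomputable def n1778 : Strat := .move 760 n531 (.cons 719 n1777 .nil)
noncomputable def n1779 : Strat := .move 883 n45 (.cons 884 n1778 .nil)
noncomputable def n1780 : Strat := .move 801 n56 (.cons 802 n1779 .nil)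
noncomputable def n1781 : Strat := .move 842 n393 (.cons 843 n1780 .nil)
noncomputable def n1782 : Strat := .move 841 n1773 (.cons 843 n1774 (.cons 842 n1776 (.cons 797 n1781 .nil)))
noncomputable def n1783 : Strat := .move 719 n1318 (.cons 882 n1317 .nil)
noncomputable def n1784 : Strat := .move 760 n1316 (.cons 761 n1783 .nil)
noncomputable def n1785 : Strat := .move 841 n1354 (.cons 797 n1784 .nil)
noncomputable def n1786 : Strat := .move 842 n1311 (.cons 843 n1785 .nil)
noncomputable def n1787 : Strat := .move 801 n1386 (.cons 802 n1786 .nil)
noncomputable def n1788 : Strat := .move 842 n1354 (.cons 797 n393 .nil)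
noncomputable def n1789 : Strat := .move 797 n1251 (.cons 796 n593 .nil)
noncomputable def n1790 : Strat := .move 922 n827 (.cons 757 n331 .nil)
noncomputable def n1791 : Strat := .move 922 n331 (.cons 963 n1180 .nil)
noncomputable def n1792 : Strat := .move 797 n594 (.cons 760 n1251 .nil)
noncomputable def n1793 : Strat := .move 759 n140 (.cons 718 n1792 .nil)
noncomputable def n1794 : Strat := .move 881 n1790 (.cons 757 n1791 (.cons 922 n1793 .nil))
noncomputable def n1795 : Strat := .win 882 6 759
noncomputable def n1796 : Strat := .move 924 n1795 (.cons 882 n177 .nil)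
noncomputable def n1797 : Strat := .move 759 n533 (.cons 718 n1796 .nil)
noncomputable def n1798 : Strat := .move 883 n45 (.cons 884 n1797 .nil)
noncomputable def n1799 : Strat := .move 842 n393 (.cons 843 n1798 .nil)
noncomputable def n1800 : Strat := .move 841 n1788 (.cons 843 n1789 (.cons 842 n1794 (.cons 797 n1799 .nil)))
noncomputable def n1801 : Strat := .win 925 6 760
noncomputable def n1802 : Strat := .win 841 0 839
noncomputable def n1803 : Strat := .move 884 n1801 (.cons 925 n1802 .nil)
noncomputable def n1804 : Strat := .win 718 7 718
noncomputable def n1805 : Strat := .move 759 n1804 (.cons 718 n532 .nil)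
noncomputable def n1806 : Strat := .move 883 n1803 (.cons 841 n1805 .nil)
noncomputable def n1807 : Strat := .move 760 n1316 (.cons 761 n1806 .nil)
noncomputable def n1808 : Strat := .move 842 n1311 (.cons 843 n1807 .nil)
noncomputable def n1809 : Strat := .move 801 n1386 (.cons 802 n1808 .nil)
noncomputable def n1810 : Strat := .move 841 n1354 (.cons 797 n1145 .nil)
noncomputable def n1811 : Strat := .move 842 n1311 (.cons 843 n1810 .nil)
noncomputable def n1812 : Strat := .move 801 n1386 (.cons 802 n1811 .nil)
noncomputable def n1813 : Strat := .move 797 n1708 (.cons 759 n1639 .nil)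
noncomputable def n1814 : Strat := .move 760 n1316 (.cons 761 n1813 .nil)
noncomputable def n1815 : Strat := .move 801 n1386 (.cons 802 n1814 .nil)
noncomputable def n1816 : Strat := .win 797 5 756
noncomputable def n1817 : Strat := .move 883 n1804 (.cons 718 n532 .nil)
noncomputable def n1818 : Strat := .move 759 n1816 (.cons 797 n1817 .nil)
noncomputable def n1819 : Strat := .move 760 n1316 (.cons 761 n1818 .nil)
noncomputable def n1820 : Strat := .move 842 n1311 (.cons 843 n1819 .nil)
noncomputable def n1821 : Strat := .move 801 n1386 (.cons 802 n1820 .nil)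
noncomputable def n1822 : Strat := .move 800 n1787 (.cons 801 n1800 (.cons 797 n1809 (.cons 760 n1812 (.cons 843 n1815 (.cons 841 n1821 .nil)))))
noncomputable def n1823 : Strat := .move 798 n1698 (.cons 757 n1715 (.cons 797 n1730 (.cons 841 n1739 (.cons 881 n1758 (.cons 755 n1772 (.cons 715 n1782 (.cons 756 n1822 .nil)))))))
noncomputable def n1824 : Strat := .move 923 n824 (.cons 964 n1184 .nil)
noncomputable def n1825 : Strat := .move 758 n847 (.cons 718 n1824 .nil)
noncomputable def n1826 : Strat := .move 759 n1662 (.cons 800 n1825 .nil)
noncomputable def n1827 : Strat := .move 798 n827 (.cons 757 n1826 .nil)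
noncomputable def n1828 : Strat := .move 920 n1765 (.cons 883 n1766 .nil)
noncomputable def n1829 : Strat := .move 882 n1246 (.cons 758 n1828 .nil)
noncomputable def n1830 : Strat := .move 923 n824 (.cons 964 n1829 .nil)
noncomputable def n1831 : Strat := .move 921 n1235 (.cons 962 n1830 .nil)
noncomputable def n1832 : Strat := .move 800 n1180 (.cons 759 n1831 .nil)
noncomputable def n1833 : Strat := .move 922 n828 (.cons 963 n1827 (.cons 798 n1832 .nil))
noncomputable def n1834 : Strat := .win 801 0 756
noncomputable def n1835 : Strat := .win 755 0 755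
noncomputable def n1836 : Strat := .move 756 n1834 (.cons 801 n1835 .nil)
noncomputable def n1837 : Strat := .move 800 n1182 (.cons 922 n1836 .nil)
noncomputable def n1838 : Strat := .move 759 n847 (.cons 718 n1837 .nil)
noncomputable def n1839 : Strat := .move 757 n1169 (.cons 716 n1838 .nil)
noncomputable def n1840 : Strat := .move 882 n1244 (.cons 923 n1839 .nil)
noncomputable def n1841 : Strat := .win 841 6 717
noncomputable def n1842 : Strat := .move 718 n1230 (.cons 759 n1229 .nil)
noncomputable def n1843 : Strat := .move 717 n1841 (.cons 841 n1842 .nil)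
noncomputable def n1844 : Strat := .move 882 n1244 (.cons 923 n1843 .nil)
noncomputable def n1845 : Strat := .move 757 n1169 (.cons 716 n1836 .nil)
noncomputable def n1846 : Strat := .move 800 n1182 (.cons 922 n1845 .nil)
noncomputable def n1847 : Strat := .move 759 n847 (.cons 718 n1846 .nil)
noncomputable def n1848 : Strat := .move 716 n1227 (.cons 757 n1228 .nil)
noncomputable def n1849 : Strat := .move 717 n1841 (.cons 841 n1848 .nil)
noncomputable def n1850 : Strat := .move 882 n1244 (.cons 923 n1849 .nil)
noncomputable def n1851 : Strat := .move 758 n1840 (.cons 922 n1844 (.cons 882 n1847 (.cons 759 n1850 .nil)))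
noncomputable def n1852 : Strat := .move 964 n1164 (.cons 923 n1163 .nil)
noncomputable def n1853 : Strat := .move 963 n1256 (.cons 798 n1852 .nil)
noncomputable def n1854 : Strat := .win 841 3 799
noncomputable def n1855 : Strat := .move 963 n1854 (.cons 841 n1852 .nil)
noncomputable def n1856 : Strat := .move 800 n1180 (.cons 759 n1855 .nil)
noncomputable def n1857 : Strat := .move 841 n593 (.cons 842 n1251 .nil)
noncomputable def n1858 : Strat := .win 756 2 755
noncomputable def n1859 : Strat := .move 755 n836 (.cons 754 n1858 .nil)
noncomputable def n1860 : Strat := .move 796 n927 (.cons 795 n1859 .nil)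
noncomputable def n1861 : Strat := .move 801 n1311 (.cons 843 n1386 .nil)
noncomputable def n1862 : Strat := .move 842 n1711 (.cons 841 n1861 .nil)
noncomputable def n1863 : Strat := .move 797 n1639 (.cons 795 n1857 (.cons 841 n1860 (.cons 796 n1862 .nil)))
noncomputable def n1864 : Strat := .move 800 n1180 (.cons 759 n1863 .nil)
noncomputable def n1865 : Strat := .move 798 n827 (.cons 757 n1864 .nil)
noncomputable def n1866 : Strat := .move 922 n828 (.cons 757 n1853 (.cons 798 n1856 (.cons 963 n1865 .nil)))
noncomputable def n1867 : Strat := .win 761 4 757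
noncomputable def n1868 : Strat := .win 797 4 756
noncomputable def n1869 : Strat := .move 760 n1867 (.cons 761 n1868 .nil)
noncomputable def n1870 : Strat := .move 759 n847 (.cons 718 n1869 .nil)
noncomputable def n1871 : Strat := .move 717 n475 (.cons 676 n1231 .nil)
noncomputable def n1872 : Strat := .move 882 n1841 (.cons 841 n1244 .nil)
noncomputable def n1873 : Strat := .move 717 n475 (.cons 676 n1872 .nil)
noncomputable def n1874 : Strat := .move 758 n1870 (.cons 761 n1871 (.cons 759 n1873 .nil))
noncomputable def n1875 : Strat := .move 757 n371 (.cons 716 n1874 .nil)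
noncomputable def n1876 : Strat := .move 758 n1184 (.cons 882 n1871 .nil)
noncomputable def n1877 : Strat := .move 923 n824 (.cons 964 n1876 .nil)
noncomputable def n1878 : Strat := .move 922 n215 (.cons 963 n1877 .nil)
noncomputable def n1879 : Strat := .move 798 n1618 (.cons 922 n1875 (.cons 716 n1759 (.cons 757 n1878 .nil)))
noncomputable def n1880 : Strat := .move 798 n215 (.cons 963 n1864 .nil)
noncomputable def n1881 : Strat := .win 920 5 879
noncomputable def n1882 : Strat := .move 921 n1881 (.cons 920 n1235 .nil)
noncomputable def n1883 : Strat := .move 883 n1373 (.cons 884 n1882 .nil)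
noncomputable def n1884 : Strat := .move 882 n1246 (.cons 758 n1883 .nil)
noncomputable def n1885 : Strat := .move 923 n824 (.cons 964 n1884 .nil)
noncomputable def n1886 : Strat := .move 798 n1826 (.cons 759 n1885 (.cons 758 n1864 .nil))
noncomputable def n1887 : Strat := .move 922 n1853 (.cons 923 n1880 (.cons 963 n1886 (.cons 798 n1856 .nil)))
noncomputable def n1888 : Strat := .move 798 n215 (.cons 963 n1885 .nil)
noncomputable def n1889 : Strat := .move 922 n828 (.cons 757 n1888 (.cons 798 n1885 .nil))
noncomputable def n1890 : Strat := .move 922 n215 (.cons 963 n1864 .nil)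
noncomputable def n1891 : Strat := .move 801 n1150 (.cons 756 n1386 .nil)
noncomputable def n1892 : Strat := .move 756 n278 (.cons 755 n1691 .nil)
noncomputable def n1893 : Strat := .move 759 n140 (.cons 718 n594 .nil)
noncomputable def n1894 : Strat := .move 800 n1891 (.cons 802 n1892 (.cons 756 n1893 .nil))
noncomputable def n1895 : Strat := .move 841 n268 (.cons 842 n1894 .nil)
noncomputable def n1896 : Strat := .win 758 5 755
noncomputable def n1897 : Strat := .move 759 n594 (.cons 760 n1896 .nil)
noncomputable def n1898 : Strat := .move 800 n1891 (.cons 802 n1892 (.cons 756 n1897 .nil))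
noncomputable def n1899 : Strat := .move 796 n927 (.cons 795 n1898 .nil)
noncomputable def n1900 : Strat := .move 797 n1740 (.cons 795 n1646 (.cons 796 n1895 (.cons 841 n1899 .nil)))
noncomputable def n1901 : Strat := .move 757 n371 (.cons 716 n1900 .nil)
noncomputable def n1902 : Strat := .move 798 n1618 (.cons 716 n1759 (.cons 757 n1890 (.cons 922 n1901 .nil)))
noncomputable def n1903 : Strat := .move 717 n1841 (.cons 841 n475 .nil)
noncomputable def n1904 : Strat := .move 798 n1903 (.cons 676 n1869 .nil)
noncomputable def n1905 : Strat := .move 882 n1244 (.cons 923 n1904 .nil)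
noncomputable def n1906 : Strat := .move 759 n847 (.cons 718 n1905 .nil)
noncomputable def n1907 : Strat := .move 757 n1169 (.cons 716 n1906 .nil)
noncomputable def n1908 : Strat := .move 717 n1228 (.cons 675 n1842 .nil)
noncomputable def n1909 : Strat := .move 716 n1227 (.cons 757 n1908 .nil)
noncomputable def n1910 : Strat := .move 716 n1228 (.cons 675 n1231 .nil)
noncomputable def n1911 : Strat := .move 717 n1841 (.cons 841 n1910 .nil)
noncomputable def n1912 : Strat := .move 882 n1244 (.cons 923 n1911 .nil)
noncomputable def n1913 : Strat := .move 800 n1834 (.cons 801 n1835 .nil)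
noncomputable def n1914 : Strat := .win 802 0 757
noncomputable def n1915 : Strat := .win 800 0 756
noncomputable def n1916 : Strat := .move 801 n1914 (.cons 802 n1915 .nil)
noncomputable def n1917 : Strat := .win 798 4 756
noncomputable def n1918 : Strat := .win 796 4 755
noncomputable def n1919 : Strat := .move 797 n1917 (.cons 798 n1918 .nil)
noncomputable def n1920 : Strat := .move 760 n1916 (.cons 800 n1919 .nil)
noncomputable def n1921 : Strat := .win 713 2 713
noncomputable def n1922 : Strat := .win 715 2 714
noncomputable def n1923 : Strat := .move 714 n1921 (.cons 713 n1922 .nil)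
noncomputable def n1924 : Strat := .move 755 n1657 (.cons 800 n1923 .nil)
noncomputable def n1925 : Strat := .win 795 4 754
noncomputable def n1926 : Strat := .win 797 4 755
noncomputable def n1927 : Strat := .move 796 n1925 (.cons 795 n1926 .nil)
noncomputable def n1928 : Strat := .move 755 n1923 (.cons 715 n1927 .nil)
noncomputable def n1929 : Strat := .move 756 n1913 (.cons 755 n1920 (.cons 801 n1924 (.cons 800 n1928 .nil)))
noncomputable def n1930 : Strat := .move 759 n847 (.cons 718 n1929 .nil)
noncomputable def n1931 : Strat := .move 757 n1169 (.cons 716 n1930 .nil)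
noncomputable def n1932 : Strat := .move 758 n1907 (.cons 718 n1850 (.cons 841 n1909 (.cons 757 n1912 (.cons 716 n1844 (.cons 717 n1931 .nil)))))
noncomputable def n1933 : Strat := .move 881 n1833 (.cons 798 n1851 (.cons 758 n1866 (.cons 800 n1879 (.cons 757 n1887 (.cons 759 n1889 (.cons 923 n1902 (.cons 922 n1932 .nil)))))))
noncomputable def n1934 : Strat := .move 881 n1230 (.cons 759 n1227 .nil)
noncomputable def n1935 : Strat := .move 716 n1228 (.cons 675 n1934 .nil)
noncomputable def n1936 : Strat := .move 718 n1229 (.cons 677 n1935 .nil)
noncomputable def n1937 : Strat := .move 717 n474 (.cons 880 n1936 .nil)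
noncomputable def n1938 : Strat := .win 800 6 676
noncomputable def n1939 : Strat := .win 716 7 675
noncomputable def n1940 : Strat := .win 634 7 634
noncomputable def n1941 : Strat := .move 675 n1939 (.cons 716 n1940 .nil)
noncomputable def n1942 : Strat := .move 676 n1938 (.cons 800 n1941 .nil)
noncomputable def n1943 : Strat := .move 841 n477 (.cons 882 n1942 .nil)
noncomputable def n1944 : Strat := .win 881 3 717
noncomputable def n1945 : Strat := .win 721 4 717
noncomputable def n1946 : Strat := .win 757 4 716
noncomputable def n1947 : Strat := .move 720 n1945 (.cons 721 n1946 .nil)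
noncomputable def n1948 : Strat := .move 800 n1202 (.cons 678 n1190 .nil)
noncomputable def n1949 : Strat := .move 719 n1947 (.cons 757 n1948 .nil)
noncomputable def n1950 : Strat := .move 841 n477 (.cons 882 n1949 .nil)
noncomputable def n1951 : Strat := .move 759 n1944 (.cons 881 n1950 .nil)
noncomputable def n1952 : Strat := .move 718 n1229 (.cons 677 n1951 .nil)
noncomputable def n1953 : Strat := .move 717 n1936 (.cons 718 n1943 (.cons 675 n1952 .nil))
noncomputable def n1954 : Strat := .move 717 n474 (.cons 880 n1943 .nil)
noncomputable def n1955 : Strat := .move 717 n474 (.cons 880 n1952 .nil)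
noncomputable def n1956 : Strat := .move 880 n845 (.cons 921 n1665 .nil)
noncomputable def n1957 : Strat := .win 920 4 878
noncomputable def n1958 : Strat := .move 919 n993 (.cons 918 n1957 .nil)
noncomputable def n1959 : Strat := .move 878 n899 (.cons 877 n1958 .nil)
noncomputable def n1960 : Strat := .win 841 4 838
noncomputable def n1961 : Strat := .win 843 5 839
noncomputable def n1962 : Strat := .move 883 n1961 (.cons 843 n1373 .nil)
noncomputable def n1963 : Strat := .move 842 n1960 (.cons 841 n1962 .nil)
noncomputable def n1964 : Strat := .move 879 n1667 (.cons 877 n1669 (.cons 841 n1959 (.cons 878 n1963 .nil)))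
noncomputable def n1965 : Strat := .move 882 n1244 (.cons 923 n1964 .nil)
noncomputable def n1966 : Strat := .move 880 n845 (.cons 921 n1965 .nil)
noncomputable def n1967 : Strat := .move 881 n1956 (.cons 880 n1847 (.cons 759 n1966 .nil))
noncomputable def n1968 : Strat := .move 758 n1937 (.cons 880 n1953 (.cons 718 n1954 (.cons 675 n1955 (.cons 717 n1967 .nil))))
noncomputable def n1969 : Strat := .win 798 1 675
noncomputable def n1970 : Strat := .win 718 3 676
noncomputable def n1971 : Strat := .win 636 3 635
noncomputable def n1972 : Strat := .move 677 n1970 (.cons 718 n1971 .nil)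
noncomputable def n1973 : Strat := .move 676 n1969 (.cons 798 n1972 .nil)
noncomputable def n1974 : Strat := .move 717 n474 (.cons 880 n1973 .nil)
noncomputable def n1975 : Strat := .move 759 n847 (.cons 718 n1662 .nil)
noncomputable def n1976 : Strat := .move 922 n1168 (.cons 798 n1975 .nil)
noncomputable def n1977 : Strat := .move 757 n1169 (.cons 716 n1976 .nil)
noncomputable def n1978 : Strat := .move 798 n344 (.cons 922 n1870 .nil)
noncomputable def n1979 : Strat := .move 757 n1169 (.cons 716 n1978 .nil)
noncomputable def n1980 : Strat := .move 880 n845 (.cons 921 n1979 .nil)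
noncomputable def n1981 : Strat := .move 923 n1184 (.cons 882 n824 .nil)
noncomputable def n1982 : Strat := .move 922 n1235 (.cons 962 n1981 .nil)
noncomputable def n1983 : Strat := .move 921 n1234 (.cons 880 n1982 .nil)
noncomputable def n1984 : Strat := .win 714 2 714
noncomputable def n1985 : Strat := .win 798 7 715
noncomputable def n1986 : Strat := .move 715 n1984 (.cons 714 n1985 .nil)
noncomputable def n1987 : Strat := .move 756 n1913 (.cons 755 n1986 .nil)
noncomputable def n1988 : Strat := .move 759 n847 (.cons 718 n1987 .nil)
noncomputable def n1989 : Strat := .move 757 n1169 (.cons 716 n1988 .nil)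
noncomputable def n1990 : Strat := .move 880 n845 (.cons 921 n1989 .nil)
noncomputable def n1991 : Strat := .move 881 n1977 (.cons 800 n1980 (.cons 757 n1983 (.cons 922 n1990 .nil)))
noncomputable def n1992 : Strat := .move 880 n394 (.cons 717 n1636 .nil)
noncomputable def n1993 : Strat := .move 922 n1662 (.cons 800 n1981 .nil)
noncomputable def n1994 : Strat := .move 759 n847 (.cons 718 n1993 .nil)
noncomputable def n1995 : Strat := .move 922 n1168 (.cons 798 n1981 .nil)
noncomputable def n1996 : Strat := .move 757 n1169 (.cons 716 n1995 .nil)
noncomputable def n1997 : Strat := .move 881 n1977 (.cons 757 n1994 (.cons 759 n1996 (.cons 922 n1909 .nil)))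
noncomputable def n1998 : Strat := .move 758 n1974 (.cons 717 n1991 (.cons 718 n1992 (.cons 880 n1997 .nil)))
noncomputable def n1999 : Strat := .move 757 n1041 (.cons 881 n1643 .nil)
noncomputable def n2000 : Strat := .move 922 n373 (.cons 963 n1999 .nil)
noncomputable def n2001 : Strat := .move 756 n299 (.cons 715 n1684 .nil)
noncomputable def n2002 : Strat := .move 757 n1041 (.cons 881 n2001 .nil)
noncomputable def n2003 : Strat := .move 922 n373 (.cons 963 n2002 .nil)
noncomputable def n2004 : Strat := .move 798 n2000 (.cons 879 n2003 (.cons 922 n1647 .nil))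
noncomputable def n2005 : Strat := .move 921 n369 (.cons 962 n2004 .nil)
noncomputable def n2006 : Strat := .move 881 n845 (.cons 921 n1979 .nil)
noncomputable def n2007 : Strat := .move 758 n394 (.cons 717 n2006 .nil)
noncomputable def n2008 : Strat := .win 798 6 757
noncomputable def n2009 : Strat := .move 922 n2008 (.cons 798 n1824 .nil)
noncomputable def n2010 : Strat := .move 757 n1169 (.cons 716 n2009 .nil)
noncomputable def n2011 : Strat := .move 920 n901 (.cons 798 n444 .nil)
noncomputable def n2012 : Strat := .move 879 n1667 (.cons 877 n1669 (.cons 841 n2011 .nil))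
noncomputable def n2013 : Strat := .move 757 n1169 (.cons 716 n2012 .nil)
noncomputable def n2014 : Strat := .move 882 n1244 (.cons 923 n2013 .nil)
noncomputable def n2015 : Strat := .move 798 n215 (.cons 963 n214 .nil)
noncomputable def n2016 : Strat := .move 922 n824 (.cons 964 n2015 .nil)
noncomputable def n2017 : Strat := .move 923 n1184 (.cons 882 n2016 .nil)
noncomputable def n2018 : Strat := .win 1004 7 839
noncomputable def n2019 : Strat := .move 963 n2018 (.cons 1004 n1256 .nil)
noncomputable def n2020 : Strat := .move 922 n824 (.cons 964 n2019 .nil)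
noncomputable def n2021 : Strat := .move 923 n1184 (.cons 882 n2020 .nil)
noncomputable def n2022 : Strat := .move 878 n899 (.cons 877 n1666 .nil)
noncomputable def n2023 : Strat := .move 841 n159 (.cons 842 n1668 .nil)
noncomputable def n2024 : Strat := .move 882 n1244 (.cons 923 n1963 .nil)
noncomputable def n2025 : Strat := .move 919 n1957 (.cons 920 n993 .nil)
noncomputable def n2026 : Strat := .move 878 n899 (.cons 877 n2025 .nil)
noncomputable def n2027 : Strat := .move 882 n1244 (.cons 923 n2026 .nil)
noncomputable def n2028 : Strat := .move 879 n2022 (.cons 877 n2023 (.cons 878 n2024 (.cons 841 n2027 .nil)))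
noncomputable def n2029 : Strat := .move 881 n1979 (.cons 797 n2010 (.cons 922 n2014 (.cons 716 n2017 (.cons 757 n2021 (.cons 798 n2028 .nil)))))
noncomputable def n2030 : Strat := .move 758 n394 (.cons 717 n2029 .nil)
noncomputable def n2031 : Strat := .move 880 n1637 (.cons 758 n2005 (.cons 881 n1678 (.cons 962 n2007 (.cons 921 n2030 .nil))))
noncomputable def n2032 : Strat := .move 922 n215 (.cons 963 n1663 .nil)
noncomputable def n2033 : Strat := .move 880 n845 (.cons 921 n2032 .nil)
noncomputable def n2034 : Strat := .move 880 n845 (.cons 921 n1659 .nil)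
noncomputable def n2035 : Strat := .move 757 n371 (.cons 716 n2034 .nil)
noncomputable def n2036 : Strat := .move 758 n1618 (.cons 757 n2033 (.cons 922 n2035 .nil))
noncomputable def n2037 : Strat := .move 758 n845 (.cons 921 n1659 .nil)
noncomputable def n2038 : Strat := .move 880 n2037 (.cons 758 n1681 .nil)
noncomputable def n2039 : Strat := .move 757 n371 (.cons 716 n2038 .nil)
noncomputable def n2040 : Strat := .move 880 n368 (.cons 758 n1640 .nil)
noncomputable def n2041 : Strat := .move 921 n1235 (.cons 962 n2040 .nil)
noncomputable def n2042 : Strat := .move 922 n215 (.cons 963 n2041 .nil)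
noncomputable def n2043 : Strat := .move 798 n2036 (.cons 963 n1618 (.cons 922 n2039 (.cons 757 n2042 .nil)))
noncomputable def n2044 : Strat := .move 758 n845 (.cons 921 n1673 .nil)
noncomputable def n2045 : Strat := .move 758 n845 (.cons 921 n1989 .nil)
noncomputable def n2046 : Strat := .move 758 n1673 (.cons 841 n1989 (.cons 798 n1965 .nil))
noncomputable def n2047 : Strat := .move 798 n1640 (.cons 795 n1644 .nil)
noncomputable def n2048 : Strat := .move 921 n369 (.cons 962 n2047 .nil)
noncomputable def n2049 : Strat := .move 921 n369 (.cons 962 n368 .nil)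
noncomputable def n2050 : Strat := .move 880 n2044 (.cons 841 n2045 (.cons 921 n2046 (.cons 758 n2048 (.cons 716 n2049 .nil))))
noncomputable def n2051 : Strat := .move 758 n1234 (.cons 880 n1184 .nil)
noncomputable def n2052 : Strat := .move 923 n824 (.cons 964 n2051 .nil)
noncomputable def n2053 : Strat := .move 921 n1235 (.cons 962 n2052 .nil)
noncomputable def n2054 : Strat := .move 800 n1854 (.cons 841 n1180 .nil)
noncomputable def n2055 : Strat := .move 963 n2018 (.cons 1004 n2054 .nil)
noncomputable def n2056 : Strat := .move 880 n368 (.cons 758 n2055 .nil)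
noncomputable def n2057 : Strat := .move 921 n1235 (.cons 962 n2056 .nil)
noncomputable def n2058 : Strat := .move 922 n2053 (.cons 880 n1856 (.cons 923 n2057 .nil))
noncomputable def n2059 : Strat := .win 880 7 756
noncomputable def n2060 : Strat := .move 756 n278 (.cons 755 n2059 .nil)
noncomputable def n2061 : Strat := .move 797 n1639 (.cons 795 n1857 (.cons 841 n2060 .nil))
noncomputable def n2062 : Strat := .move 800 n1180 (.cons 759 n2061 .nil)
noncomputable def n2063 : Strat := .move 921 n1235 (.cons 962 n2062 .nil)
noncomputable def n2064 : Strat := .move 798 n827 (.cons 757 n2063 .nil)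
noncomputable def n2065 : Strat := .move 963 n2018 (.cons 1004 n1854 .nil)
noncomputable def n2066 : Strat := .win 924 2 879
noncomputable def n2067 : Strat := .win 878 0 878
noncomputable def n2068 : Strat := .move 879 n2066 (.cons 924 n2067 .nil)
noncomputable def n2069 : Strat := .move 880 n2065 (.cons 841 n2068 .nil)
noncomputable def n2070 : Strat := .move 800 n1180 (.cons 759 n2069 .nil)
noncomputable def n2071 : Strat := .move 923 n824 (.cons 964 n2070 .nil)
noncomputable def n2072 : Strat := .move 921 n1235 (.cons 962 n2071 .nil)
noncomputable def n2073 : Strat := .move 922 n828 (.cons 963 n2064 (.cons 798 n2072 .nil))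
noncomputable def n2074 : Strat := .move 880 n1661 (.cons 798 n1665 (.cons 922 n1673 .nil))
noncomputable def n2075 : Strat := .move 798 n483 (.cons 922 n1870 .nil)
noncomputable def n2076 : Strat := .move 757 n1169 (.cons 716 n2075 .nil)
noncomputable def n2077 : Strat := .win 797 6 674
noncomputable def n2078 : Strat := .win 633 6 633
noncomputable def n2079 : Strat := .move 674 n2077 (.cons 797 n2078 .nil)
noncomputable def n2080 : Strat := .move 715 n1689 (.cons 880 n2079 .nil)
noncomputable def n2081 : Strat := .move 756 n1658 (.cons 800 n2080 .nil)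
noncomputable def n2082 : Strat := .move 798 n483 (.cons 922 n2081 .nil)
noncomputable def n2083 : Strat := .move 757 n1169 (.cons 716 n2082 .nil)
noncomputable def n2084 : Strat := .move 715 n1689 (.cons 880 n1984 .nil)
noncomputable def n2085 : Strat := .move 756 n1913 (.cons 755 n2084 .nil)
noncomputable def n2086 : Strat := .move 798 n1869 (.cons 797 n2085 .nil)
noncomputable def n2087 : Strat := .move 759 n847 (.cons 718 n2086 .nil)
noncomputable def n2088 : Strat := .move 757 n1169 (.cons 716 n2087 .nil)
noncomputable def n2089 : Strat := .move 758 n2074 (.cons 919 n2076 (.cons 757 n1994 (.cons 759 n2083 (.cons 922 n2088 .nil))))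
noncomputable def n2090 : Strat := .move 758 n1977 (.cons 800 n1980 (.cons 757 n1983 (.cons 922 n1990 .nil)))
noncomputable def n2091 : Strat := .move 922 n828 (.cons 798 n1856 (.cons 963 n1827 .nil))
noncomputable def n2092 : Strat := .move 880 n845 (.cons 921 n2021 .nil)
noncomputable def n2093 : Strat := .move 880 n845 (.cons 921 n2014 .nil)
noncomputable def n2094 : Strat := .move 880 n845 (.cons 921 n2028 .nil)
noncomputable def n2095 : Strat := .move 758 n1980 (.cons 880 n1996 (.cons 757 n2092 (.cons 922 n2093 (.cons 798 n2094 .nil))))
noncomputable def n2096 : Strat := .move 962 n1161 (.cons 921 n1162 .nil)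
noncomputable def n2097 : Strat := .move 963 n1256 (.cons 798 n2096 .nil)
noncomputable def n2098 : Strat := .move 880 n368 (.cons 758 n2068 .nil)
noncomputable def n2099 : Strat := .move 923 n824 (.cons 964 n2098 .nil)
noncomputable def n2100 : Strat := .move 921 n1235 (.cons 962 n2099 .nil)
noncomputable def n2101 : Strat := .move 922 n828 (.cons 757 n2097 (.cons 798 n2100 .nil))
noncomputable def n2102 : Strat := .move 881 n2043 (.cons 922 n2050 (.cons 798 n2058 (.cons 758 n2073 (.cons 921 n2089 (.cons 841 n2090 (.cons 880 n2091 (.cons 800 n2095 (.cons 759 n2101 .nil))))))))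
noncomputable def n2103 : Strat := .move 880 n394 (.cons 717 n1674 .nil)
noncomputable def n2104 : Strat := .move 881 n2074 (.cons 919 n2076 (.cons 757 n1994 (.cons 759 n2083 (.cons 922 n2088 .nil))))
noncomputable def n2105 : Strat := .move 676 n1969 (.cons 798 n1941 .nil)
noncomputable def n2106 : Strat := .move 881 n1227 (.cons 757 n1231 .nil)
noncomputable def n2107 : Strat := .move 716 n1228 (.cons 675 n2106 .nil)
noncomputable def n2108 : Strat := .move 717 n1973 (.cons 718 n2105 (.cons 676 n2107 .nil))
noncomputable def n2109 : Strat := .move 717 n474 (.cons 880 n2105 .nil)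
noncomputable def n2110 : Strat := .move 881 n1665 (.cons 923 n1847 (.cons 922 n1965 .nil))
noncomputable def n2111 : Strat := .move 880 n394 (.cons 717 n2110 .nil)
noncomputable def n2112 : Strat := .move 758 n2103 (.cons 717 n2104 (.cons 880 n2108 (.cons 881 n1974 (.cons 718 n2109 (.cons 798 n2111 .nil)))))
noncomputable def n2113 : Strat := .move 758 n394 (.cons 717 n1635 .nil)
noncomputable def n2114 : Strat := .move 921 n369 (.cons 962 n2113 .nil)
noncomputable def n2115 : Strat := .win 965 0 920
noncomputable def n2116 : Strat := .win 881 6 799
noncomputable def n2117 : Strat := .move 964 n2115 (.cons 965 n2116 .nil)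
noncomputable def n2118 : Strat := .win 878 2 878
noncomputable def n2119 : Strat := .move 879 n2118 (.cons 878 n2066 .nil)
noncomputable def n2120 : Strat := .move 923 n2117 (.cons 881 n2119 .nil)
noncomputable def n2121 : Strat := .move 920 n296 (.cons 961 n2120 .nil)
noncomputable def n2122 : Strat := .move 922 n373 (.cons 963 n2121 .nil)
noncomputable def n2123 : Strat := .move 798 n1647 (.cons 841 n2122 .nil)
noncomputable def n2124 : Strat := .move 921 n369 (.cons 962 n2123 .nil)
noncomputable def n2125 : Strat := .move 921 n1635 (.cons 881 n1676 .nil)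
noncomputable def n2126 : Strat := .move 758 n394 (.cons 717 n2125 .nil)
noncomputable def n2127 : Strat := .move 758 n394 (.cons 717 n1676 .nil)
noncomputable def n2128 : Strat := .move 921 n369 (.cons 962 n2127 .nil)
noncomputable def n2129 : Strat := .move 922 n1663 (.cons 718 n2019 .nil)
noncomputable def n2130 : Strat := .move 883 n1373 (.cons 884 n2129 .nil)
noncomputable def n2131 : Strat := .move 882 n1244 (.cons 923 n2130 .nil)
noncomputable def n2132 : Strat := .move 922 n1662 (.cons 800 n2019 .nil)
noncomputable def n2133 : Strat := .move 759 n847 (.cons 718 n2132 .nil)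
noncomputable def n2134 : Strat := .move 922 n824 (.cons 964 n1662 .nil)
noncomputable def n2135 : Strat := .move 923 n1184 (.cons 882 n2134 .nil)
noncomputable def n2136 : Strat := .move 759 n847 (.cons 718 n2135 .nil)
noncomputable def n2137 : Strat := .move 881 n2131 (.cons 923 n2133 (.cons 718 n2021 (.cons 963 n2136 (.cons 922 n1965 .nil))))
noncomputable def n2138 : Strat := .move 758 n394 (.cons 717 n2137 .nil)
noncomputable def n2139 : Strat := .move 880 n2114 (.cons 758 n2124 (.cons 962 n2126 (.cons 881 n2128 (.cons 921 n2138 .nil))))
noncomputable def n2140 : Strat := .move 881 n845 (.cons 921 n1673 .nil)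
noncomputable def n2141 : Strat := .move 758 n394 (.cons 717 n2140 .nil)
noncomputable def n2142 : Strat := .move 881 n845 (.cons 921 n1989 .nil)
noncomputable def n2143 : Strat := .move 758 n394 (.cons 717 n2142 .nil)
noncomputable def n2144 : Strat := .move 758 n1635 (.cons 881 n1676 .nil)
noncomputable def n2145 : Strat := .move 921 n369 (.cons 962 n2144 .nil)
noncomputable def n2146 : Strat := .win 881 5 837
noncomputable def n2147 : Strat := .move 878 n2146 (.cons 881 n899 .nil)
noncomputable def n2148 : Strat := .move 841 n159 (.cons 842 n2147 .nil)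
noncomputable def n2149 : Strat := .move 879 n295 (.cons 757 n2148 .nil)
noncomputable def n2150 : Strat := .move 920 n296 (.cons 961 n2149 .nil)
noncomputable def n2151 : Strat := .move 757 n371 (.cons 716 n1682 .nil)
noncomputable def n2152 : Strat := .win 883 4 879
noncomputable def n2153 : Strat := .win 879 4 878
noncomputable def n2154 : Strat := .move 919 n2153 (.cons 879 n1649 .nil)
noncomputable def n2155 : Strat := .move 882 n2152 (.cons 883 n2154 .nil)
noncomputable def n2156 : Strat := .move 920 n296 (.cons 961 n2155 .nil)
noncomputable def n2157 : Strat := .move 757 n371 (.cons 716 n2001 .nil)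
noncomputable def n2158 : Strat := .move 881 n2151 (.cons 757 n2156 (.cons 879 n2157 .nil))
noncomputable def n2159 : Strat := .move 798 n1645 (.cons 756 n2150 (.cons 961 n1647 (.cons 841 n2158 .nil)))
noncomputable def n2160 : Strat := .move 921 n369 (.cons 962 n2159 .nil)
noncomputable def n2161 : Strat := .move 881 n1673 (.cons 841 n1989 (.cons 798 n1965 .nil))
noncomputable def n2162 : Strat := .move 758 n394 (.cons 717 n2161 .nil)
noncomputable def n2163 : Strat := .move 880 n2141 (.cons 841 n2143 (.cons 881 n1678 (.cons 717 n2145 (.cons 798 n1637 (.cons 758 n2160 (.cons 921 n2162 .nil))))))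
noncomputable def n2164 : Strat := .win 881 7 716
noncomputable def n2165 : Strat := .win 720 4 716
noncomputable def n2166 : Strat := .win 756 4 715
noncomputable def n2167 : Strat := .move 719 n2165 (.cons 720 n2166 .nil)
noncomputable def n2168 : Strat := .move 718 n1229 (.cons 677 n2167 .nil)
noncomputable def n2169 : Strat := .move 757 n2164 (.cons 881 n2168 .nil)
noncomputable def n2170 : Strat := .move 716 n1228 (.cons 675 n2169 .nil)
noncomputable def n2171 : Strat := .move 717 n2105 (.cons 634 n1973 (.cons 676 n2170 .nil))
noncomputable def n2172 : Strat := .move 881 n845 (.cons 921 n1661 .nil)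
noncomputable def n2173 : Strat := .move 881 n845 (.cons 921 n1965 .nil)
noncomputable def n2174 : Strat := .move 881 n1661 (.cons 798 n1965 .nil)
noncomputable def n2175 : Strat := .move 880 n2172 (.cons 881 n1677 (.cons 798 n2173 (.cons 921 n2174 .nil)))
noncomputable def n2176 : Strat := .move 758 n2109 (.cons 880 n2171 (.cons 675 n1992 (.cons 717 n2175 .nil)))
noncomputable def n2177 : Strat := .move 798 n1642 (.cons 796 n1653 (.cons 922 n1647 .nil))
noncomputable def n2178 : Strat := .move 921 n369 (.cons 962 n2177 .nil)
noncomputable def n2179 : Strat := .move 798 n302 (.cons 758 n1647 .nil)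
noncomputable def n2180 : Strat := .move 921 n369 (.cons 962 n2179 .nil)
noncomputable def n2181 : Strat := .move 758 n394 (.cons 717 n2172 .nil)
noncomputable def n2182 : Strat := .move 798 n214 (.cons 757 n215 .nil)
noncomputable def n2183 : Strat := .move 963 n1256 (.cons 798 n2018 .nil)
noncomputable def n2184 : Strat := .move 922 n2182 (.cons 757 n2183 (.cons 798 n1981 .nil))
noncomputable def n2185 : Strat := .move 963 n1854 (.cons 841 n2018 .nil)
noncomputable def n2186 : Strat := .move 800 n1180 (.cons 759 n2185 .nil)
noncomputable def n2187 : Strat := .move 922 n824 (.cons 964 n2186 .nil)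
noncomputable def n2188 : Strat := .move 923 n1184 (.cons 882 n2187 .nil)
noncomputable def n2189 : Strat := .move 881 n1661 (.cons 716 n2184 (.cons 922 n1673 (.cons 757 n2021 (.cons 798 n2188 .nil))))
noncomputable def n2190 : Strat := .move 758 n394 (.cons 717 n2189 .nil)
noncomputable def n2191 : Strat := .move 880 n2114 (.cons 758 n2178 (.cons 881 n2180 (.cons 962 n2181 (.cons 921 n2190 .nil))))
noncomputable def n2192 : Strat := .move 798 n1647 (.cons 842 n2000 .nil)
noncomputable def n2193 : Strat := .move 921 n369 (.cons 962 n2192 .nil)
noncomputable def n2194 : Strat := .move 881 n1661 (.cons 755 n1979 (.cons 757 n2133 (.cons 798 n1847 (.cons 922 n1989 .nil))))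
noncomputable def n2195 : Strat := .move 758 n394 (.cons 717 n2194 .nil)
noncomputable def n2196 : Strat := .move 880 n1637 (.cons 962 n2126 (.cons 717 n2145 (.cons 881 n1678 (.cons 758 n2193 (.cons 921 n2195 .nil)))))
noncomputable def n2197 : Strat := .move 922 n2008 (.cons 798 n1663 .nil)
noncomputable def n2198 : Strat := .move 757 n1169 (.cons 716 n2197 .nil)
noncomputable def n2199 : Strat := .move 881 n845 (.cons 921 n2198 .nil)
noncomputable def n2200 : Strat := .move 880 n394 (.cons 717 n2199 .nil)
noncomputable def n2201 : Strat := .move 841 n477 (.cons 882 n1938 .nil)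
noncomputable def n2202 : Strat := .move 676 n1969 (.cons 798 n2201 .nil)
noncomputable def n2203 : Strat := .move 717 n1973 (.cons 677 n2202 (.cons 676 n2107 .nil))
noncomputable def n2204 : Strat := .move 841 n393 (.cons 843 n118 .nil)
noncomputable def n2205 : Strat := .move 841 n120 (.cons 797 n393 .nil)
noncomputable def n2206 : Strat := .move 841 n120 (.cons 797 n118 .nil)
noncomputable def n2207 : Strat := .move 842 n2204 (.cons 879 n2205 (.cons 843 n2206 (.cons 841 n1962 .nil)))
noncomputable def n2208 : Strat := .move 882 n1244 (.cons 923 n2207 .nil)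
noncomputable def n2209 : Strat := .move 798 n2032 (.cons 922 n2208 .nil)
noncomputable def n2210 : Strat := .move 881 n2198 (.cons 757 n2209 (.cons 798 n1665 (.cons 718 n2010 (.cons 922 n2014 .nil))))
noncomputable def n2211 : Strat := .move 880 n1636 (.cons 962 n2199 (.cons 921 n2210 (.cons 881 n1677 .nil)))
noncomputable def n2212 : Strat := .move 841 n477 (.cons 882 n1774 .nil)
noncomputable def n2213 : Strat := .move 798 n475 (.cons 676 n2212 .nil)
noncomputable def n2214 : Strat := .move 717 n474 (.cons 880 n2213 .nil)
noncomputable def n2215 : Strat := .move 758 n1992 (.cons 962 n2200 (.cons 880 n2203 (.cons 717 n2211 (.cons 881 n2214 .nil))))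
noncomputable def n2216 : Strat := .move 717 n474 (.cons 880 n475 .nil)
noncomputable def n2217 : Strat := .move 755 n1657 (.cons 800 n1656 .nil)
noncomputable def n2218 : Strat := .move 756 n299 (.cons 715 n2217 .nil)
noncomputable def n2219 : Strat := .move 880 n395 (.cons 921 n2218 .nil)
noncomputable def n2220 : Strat := .win 759 0 714
noncomputable def n2221 : Strat := .win 713 0 713
noncomputable def n2222 : Strat := .move 714 n2220 (.cons 759 n2221 .nil)
noncomputable def n2223 : Strat := .move 715 n1134 (.cons 674 n2222 .nil)
noncomputable def n2224 : Strat := .move 716 n472 (.cons 675 n2223 .nil)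
noncomputable def n2225 : Strat := .move 717 n475 (.cons 676 n2224 .nil)
noncomputable def n2226 : Strat := .move 758 n2216 (.cons 717 n2219 (.cons 880 n2225 .nil))
noncomputable def n2227 : Strat := .move 756 n1716 (.cons 755 n1717 .nil)
noncomputable def n2228 : Strat := .win 678 5 674
noncomputable def n2229 : Strat := .win 758 3 676
noncomputable def n2230 : Strat := .move 677 n2228 (.cons 678 n2229 .nil)
noncomputable def n2231 : Strat := .move 718 n2227 (.cons 719 n2230 .nil)
noncomputable def n2232 : Strat := .move 715 n1134 (.cons 674 n2231 .nil)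
noncomputable def n2233 : Strat := .move 717 n480 (.cons 676 n2232 .nil)
noncomputable def n2234 : Strat := .move 716 n472 (.cons 675 n2233 .nil)
noncomputable def n2235 : Strat := .move 921 n369 (.cons 962 n1684 .nil)
noncomputable def n2236 : Strat := .move 756 n299 (.cons 715 n2235 .nil)
noncomputable def n2237 : Strat := .move 758 n394 (.cons 717 n2218 .nil)
noncomputable def n2238 : Strat := .move 880 n396 (.cons 758 n2236 (.cons 921 n2237 .nil))
noncomputable def n2239 : Strat := .move 758 n474 (.cons 880 n2223 .nil)
noncomputable def n2240 : Strat := .move 717 n480 (.cons 676 n2239 .nil)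
noncomputable def n2241 : Strat := .move 716 n472 (.cons 675 n2240 .nil)
noncomputable def n2242 : Strat := .win 758 1 716
noncomputable def n2243 : Strat := .move 716 n472 (.cons 675 n480 .nil)
noncomputable def n2244 : Strat := .move 717 n2242 (.cons 758 n2243 .nil)
noncomputable def n2245 : Strat := .move 880 n396 (.cons 758 n1728 (.cons 921 n2244 .nil))
noncomputable def n2246 : Strat := .move 757 n2226 (.cons 758 n1696 (.cons 880 n2234 (.cons 675 n2238 (.cons 756 n2241 (.cons 715 n2245 .nil)))))
noncomputable def n2247 : Strat := .move 758 n475 (.cons 676 n474 .nil)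
noncomputable def n2248 : Strat := .move 718 n1206 (.cons 676 n595 .nil)
noncomputable def n2249 : Strat := .move 717 n2247 (.cons 880 n479 (.cons 676 n478 (.cons 758 n2248 .nil)))
noncomputable def n2250 : Strat := .move 759 n594 (.cons 760 n2249 .nil)
noncomputable def n2251 : Strat := .move 800 n1749 (.cons 801 n2250 .nil)
noncomputable def n2252 : Strat := .move 841 n268 (.cons 842 n2251 .nil)
noncomputable def n2253 : Strat := .win 759 5 755
noncomputable def n2254 : Strat := .move 758 n2253 (.cons 759 n2216 .nil)
noncomputable def n2255 : Strat := .move 796 n927 (.cons 795 n2254 .nil)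
noncomputable def n2256 : Strat := .move 797 n1740 (.cons 795 n1646 (.cons 796 n2252 (.cons 841 n2255 .nil)))
noncomputable def n2257 : Strat := .move 921 n369 (.cons 962 n1647 .nil)
noncomputable def n2258 : Strat := .move 756 n299 (.cons 715 n1693 .nil)
noncomputable def n2259 : Strat := .move 757 n2243 (.cons 676 n2258 .nil)
noncomputable def n2260 : Strat := .move 717 n2242 (.cons 758 n2259 .nil)
noncomputable def n2261 : Strat := .move 880 n486 (.cons 758 n2257 (.cons 962 n396 (.cons 921 n2260 .nil)))
noncomputable def n2262 : Strat := .move 757 n481 (.cons 675 n1891 .nil)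
noncomputable def n2263 : Strat := .move 759 n1792 (.cons 796 n2248 .nil)
noncomputable def n2264 : Strat := .move 797 n1708 (.cons 759 n1251 .nil)
noncomputable def n2265 : Strat := .move 801 n1316 (.cons 761 n1386 .nil)
noncomputable def n2266 : Strat := .move 760 n2264 (.cons 796 n2265 .nil)
noncomputable def n2267 : Strat := .move 800 n2262 (.cons 757 n2263 (.cons 676 n2266 .nil))
noncomputable def n2268 : Strat := .move 842 n393 (.cons 843 n118 .nil)
noncomputable def n2269 : Strat := .move 841 n1773 (.cons 842 n2267 (.cons 797 n2268 .nil))
noncomputable def n2270 : Strat := .move 717 n2242 (.cons 758 n2269 .nil)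
noncomputable def n2271 : Strat := .move 880 n396 (.cons 758 n2257 (.cons 921 n2270 .nil))
noncomputable def n2272 : Strat := .move 923 n2118 (.cons 878 n2066 .nil)
noncomputable def n2273 : Strat := .move 879 n295 (.cons 757 n2272 .nil)
noncomputable def n2274 : Strat := .move 920 n296 (.cons 961 n2273 .nil)
noncomputable def n2275 : Strat := .move 922 n373 (.cons 963 n2274 .nil)
noncomputable def n2276 : Strat := .move 921 n369 (.cons 962 n2275 .nil)
noncomputable def n2277 : Strat := .move 715 n1135 (.cons 756 n1134 .nil)
noncomputable def n2278 : Strat := .move 716 n472 (.cons 675 n2277 .nil)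
noncomputable def n2279 : Strat := .move 757 n2237 (.cons 756 n2244 (.cons 758 n2278 .nil))
noncomputable def n2280 : Strat := .move 880 n396 (.cons 758 n2276 (.cons 921 n2279 .nil))
noncomputable def n2281 : Strat := .move 880 n394 (.cons 717 n395 .nil)
noncomputable def n2282 : Strat := .move 758 n2253 (.cons 759 n2281 .nil)
noncomputable def n2283 : Strat := .move 796 n927 (.cons 795 n2282 .nil)
noncomputable def n2284 : Strat := .move 717 n475 (.cons 676 n474 .nil)
noncomputable def n2285 : Strat := .move 717 n477 (.cons 882 n475 .nil)
noncomputable def n2286 : Strat := .move 880 n395 (.cons 921 n394 .nil)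
noncomputable def n2287 : Strat := .move 760 n1708 (.cons 759 n2265 .nil)
noncomputable def n2288 : Strat := .move 758 n2284 (.cons 880 n2285 (.cons 676 n2286 (.cons 717 n2287 .nil)))
noncomputable def n2289 : Strat := .move 841 n593 (.cons 842 n2288 .nil)
noncomputable def n2290 : Strat := .move 841 n593 (.cons 842 n2250 .nil)
noncomputable def n2291 : Strat := .move 756 n278 (.cons 755 n1754 .nil)
noncomputable def n2292 : Strat := .move 801 n1386 (.cons 802 n2291 .nil)
noncomputable def n2293 : Strat := .move 800 n2289 (.cons 760 n1713 (.cons 802 n2290 (.cons 841 n2292 .nil)))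
noncomputable def n2294 : Strat := .move 797 n1740 (.cons 841 n2283 (.cons 795 n1646 (.cons 796 n2293 .nil)))
noncomputable def n2295 : Strat := .move 841 n268 (.cons 842 n1251 .nil)
noncomputable def n2296 : Strat := .move 796 n2253 (.cons 759 n927 .nil)
noncomputable def n2297 : Strat := .move 716 n1134 (.cons 674 n472 .nil)
noncomputable def n2298 : Strat := .move 715 n1135 (.cons 756 n2297 .nil)
noncomputable def n2299 : Strat := .move 797 n1639 (.cons 795 n2295 (.cons 841 n2296 (.cons 796 n2298 .nil)))
noncomputable def n2300 : Strat := .move 758 n394 (.cons 717 n2299 .nil)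
noncomputable def n2301 : Strat := .move 879 n293 (.cons 920 n1136 .nil)
noncomputable def n2302 : Strat := .move 716 n472 (.cons 675 n2301 .nil)
noncomputable def n2303 : Strat := .move 797 n1638 (.cons 841 n927 .nil)
noncomputable def n2304 : Strat := .win 759 4 755
noncomputable def n2305 : Strat := .move 797 n2304 (.cons 759 n1638 .nil)
noncomputable def n2306 : Strat := .move 797 n2304 (.cons 759 n927 .nil)
noncomputable def n2307 : Strat := .move 755 n1925 (.cons 795 n1656 .nil)
noncomputable def n2308 : Strat := .move 796 n2303 (.cons 795 n2305 (.cons 841 n2306 (.cons 797 n2307 .nil)))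
noncomputable def n2309 : Strat := .move 756 n299 (.cons 715 n2308 .nil)
noncomputable def n2310 : Strat := .move 758 n394 (.cons 717 n2309 .nil)
noncomputable def n2311 : Strat := .move 757 n2300 (.cons 758 n2302 (.cons 715 n2244 (.cons 675 n2310 .nil)))
noncomputable def n2312 : Strat := .move 880 n486 (.cons 758 n2257 (.cons 962 n396 (.cons 921 n2311 .nil)))
noncomputable def n2313 : Strat := .move 758 n475 (.cons 676 n2212 .nil)
noncomputable def n2314 : Strat := .win 760 0 715
noncomputable def n2315 : Strat := .win 714 0 714
noncomputable def n2316 : Strat := .move 759 n2314 (.cons 760 n2315 .nil)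
noncomputable def n2317 : Strat := .win 673 2 673
noncomputable def n2318 : Strat := .win 757 7 674
noncomputable def n2319 : Strat := .move 674 n2317 (.cons 673 n2318 .nil)
noncomputable def n2320 : Strat := .move 715 n2316 (.cons 714 n2319 .nil)
noncomputable def n2321 : Strat := .move 718 n1229 (.cons 677 n2320 .nil)
noncomputable def n2322 : Strat := .move 716 n1228 (.cons 675 n2321 .nil)
noncomputable def n2323 : Strat := .move 758 n475 (.cons 676 n2322 .nil)
noncomputable def n2324 : Strat := .move 758 n2212 (.cons 841 n2322 .nil)
noncomputable def n2325 : Strat := .move 759 n594 (.cons 760 n2248 .nil)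
noncomputable def n2326 : Strat := .move 800 n1749 (.cons 801 n2325 .nil)
noncomputable def n2327 : Strat := .move 841 n268 (.cons 842 n2326 .nil)
noncomputable def n2328 : Strat := .move 755 n1858 (.cons 756 n836 .nil)
noncomputable def n2329 : Strat := .move 796 n927 (.cons 795 n2328 .nil)
noncomputable def n2330 : Strat := .move 796 n927 (.cons 795 n1755 .nil)
noncomputable def n2331 : Strat := .move 800 n1749 (.cons 757 n2329 (.cons 756 n2330 .nil))
noncomputable def n2332 : Strat := .move 797 n1646 (.cons 796 n2327 (.cons 842 n1740 (.cons 841 n2331 .nil)))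
noncomputable def n2333 : Strat := .move 717 n2313 (.cons 797 n2323 (.cons 676 n2324 (.cons 758 n2332 .nil)))
noncomputable def n2334 : Strat := .move 841 n593 (.cons 842 n1755 .nil)
noncomputable def n2335 : Strat := .move 800 n2289 (.cons 761 n2290 (.cons 717 n2334 (.cons 841 n1710 (.cons 760 n1713 .nil))))
noncomputable def n2336 : Strat := .move 797 n1740 (.cons 795 n1646 (.cons 841 n2255 (.cons 796 n2335 .nil)))
noncomputable def n2337 : Strat := .move 798 n2246 (.cons 758 n1758 (.cons 921 n2256 (.cons 759 n2261 (.cons 755 n2271 (.cons 797 n2280 (.cons 757 n2294 (.cons 800 n2312 (.cons 880 n2333 (.cons 756 n2336 .nil)))))))))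
noncomputable def n2338 : Strat := .move 799 n1679 (.cons 758 n1823 (.cons 880 n1933 (.cons 798 n1968 (.cons 841 n1998 (.cons 800 n2031 (.cons 717 n2102 (.cons 921 n2112 (.cons 757 n2139 (.cons 922 n2163 (.cons 759 n2176 (.cons 718 n2191 (.cons 923 n2196 (.cons 756 n2215 (.cons 881 n2337 .nil))))))))))))))
noncomputable def n2339 : Strat := .win 880 6 757
noncomputable def n2340 : Strat := .move 922 n215 (.cons 963 n2339 .nil)
noncomputable def n2341 : Strat := .move 757 n371 (.cons 716 n2340 .nil)
noncomputable def n2342 : Strat := .move 801 n1386 (.cons 802 n1149 .nil)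
noncomputable def n2343 : Strat := .move 800 n1180 (.cons 759 n2342 .nil)
noncomputable def n2344 : Strat := .move 880 n368 (.cons 758 n2343 .nil)
noncomputable def n2345 : Strat := .move 921 n1235 (.cons 962 n2344 .nil)
noncomputable def n2346 : Strat := .move 838 n303 (.cons 801 n225 .nil)
noncomputable def n2347 : Strat := .move 800 n1180 (.cons 759 n2346 .nil)
noncomputable def n2348 : Strat := .move 882 n2152 (.cons 883 n1766 .nil)
noncomputable def n2349 : Strat := .move 920 n296 (.cons 961 n2348 .nil)
noncomputable def n2350 : Strat := .move 880 n368 (.cons 758 n2349 .nil)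
noncomputable def n2351 : Strat := .move 921 n1235 (.cons 962 n2350 .nil)
noncomputable def n2352 : Strat := .move 799 n2345 (.cons 758 n2347 (.cons 800 n2351 .nil))
noncomputable def n2353 : Strat := .move 922 n215 (.cons 963 n2352 .nil)
noncomputable def n2354 : Strat := .move 799 n845 (.cons 921 n2218 .nil)
noncomputable def n2355 : Strat := .move 758 n913 (.cons 717 n2354 .nil)
noncomputable def n2356 : Strat := .win 1003 3 839
noncomputable def n2357 : Strat := .move 962 n2356 (.cons 1003 n288 .nil)
noncomputable def n2358 : Strat := .move 921 n2357 (.cons 799 n1685 .nil)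
noncomputable def n2359 : Strat := .move 878 n899 (.cons 877 n2358 .nil)
noncomputable def n2360 : Strat := .move 879 n293 (.cons 920 n2359 .nil)
noncomputable def n2361 : Strat := .win 838 2 838
noncomputable def n2362 : Strat := .move 883 n2361 (.cons 838 n1373 .nil)
noncomputable def n2363 : Strat := .win 883 2 838
noncomputable def n2364 : Strat := .move 838 n2363 (.cons 883 n329 .nil)
noncomputable def n2365 : Strat := .move 923 n1595 (.cons 924 n1375 .nil)
noncomputable def n2366 : Strat := .move 882 n2362 (.cons 884 n2364 (.cons 838 n2365 .nil))
noncomputable def n2367 : Strat := .move 879 n293 (.cons 920 n2366 .nil)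
noncomputable def n2368 : Strat := .move 758 n913 (.cons 717 n2367 .nil)
noncomputable def n2369 : Strat := .move 921 n296 (.cons 961 n1685 .nil)
noncomputable def n2370 : Strat := .move 920 n341 (.cons 879 n2369 .nil)
noncomputable def n2371 : Strat := .move 880 n2355 (.cons 758 n2360 (.cons 921 n2368 (.cons 799 n2370 .nil)))
noncomputable def n2372 : Strat := .move 757 n371 (.cons 716 n2371 .nil)
noncomputable def n2373 : Strat := .win 799 7 757
noncomputable def n2374 : Strat := .move 922 n215 (.cons 963 n2373 .nil)
noncomputable def n2375 : Strat := .move 757 n371 (.cons 716 n2374 .nil)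
noncomputable def n2376 : Strat := .move 881 n2341 (.cons 757 n2353 (.cons 922 n2372 (.cons 880 n2375 .nil)))
noncomputable def n2377 : Strat := .win 715 0 715
noncomputable def n2378 : Strat := .move 716 n2377 (.cons 715 n1228 .nil)
noncomputable def n2379 : Strat := .move 760 n1867 (.cons 761 n2378 .nil)
noncomputable def n2380 : Strat := .move 759 n1944 (.cons 881 n2379 .nil)
noncomputable def n2381 : Strat := .move 718 n1229 (.cons 677 n2380 .nil)
noncomputable def n2382 : Strat := .move 717 n475 (.cons 676 n2381 .nil)
noncomputable def n2383 : Strat := .move 882 n1244 (.cons 923 n2364 .nil)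
noncomputable def n2384 : Strat := .move 881 n2383 (.cons 883 n2032 .nil)
noncomputable def n2385 : Strat := .move 880 n395 (.cons 921 n2384 .nil)
noncomputable def n2386 : Strat := .move 758 n2281 (.cons 921 n2284 (.cons 880 n2382 (.cons 717 n2385 .nil)))
noncomputable def n2387 : Strat := .move 715 n280 (.cons 880 n279 .nil)
noncomputable def n2388 : Strat := .move 756 n278 (.cons 755 n2387 .nil)
noncomputable def n2389 : Strat := .move 838 n277 (.cons 837 n2388 .nil)
noncomputable def n2390 : Strat := .win 838 4 796
noncomputable def n2391 : Strat := .move 796 n927 (.cons 795 n835 .nil)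
noncomputable def n2392 : Strat := .move 837 n2390 (.cons 838 n2391 .nil)
noncomputable def n2393 : Strat := .move 797 n2389 (.cons 756 n2392 (.cons 838 n2329 .nil))
noncomputable def n2394 : Strat := .move 800 n2346 (.cons 838 n1821 (.cons 801 n2393 .nil))
noncomputable def n2395 : Strat := .move 715 n2314 (.cons 760 n2315 .nil)
noncomputable def n2396 : Strat := .move 759 n1944 (.cons 881 n2395 .nil)
noncomputable def n2397 : Strat := .move 718 n1229 (.cons 677 n2396 .nil)
noncomputable def n2398 : Strat := .move 716 n1228 (.cons 675 n2397 .nil)
noncomputable def n2399 : Strat := .move 717 n475 (.cons 676 n2398 .nil)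
noncomputable def n2400 : Strat := .move 882 n1244 (.cons 923 n2362 .nil)
noncomputable def n2401 : Strat := .move 880 n845 (.cons 921 n2400 .nil)
noncomputable def n2402 : Strat := .move 922 n215 (.cons 963 n1981 .nil)
noncomputable def n2403 : Strat := .move 922 n215 (.cons 963 n1235 .nil)
noncomputable def n2404 : Strat := .move 921 n1234 (.cons 880 n2403 .nil)
noncomputable def n2405 : Strat := .move 881 n2401 (.cons 880 n2402 (.cons 882 n2404 .nil))
noncomputable def n2406 : Strat := .move 758 n2281 (.cons 880 n2399 (.cons 717 n2405 .nil))
noncomputable def n2407 : Strat := .win 796 5 755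
noncomputable def n2408 : Strat := .win 800 5 756
noncomputable def n2409 : Strat := .move 760 n2408 (.cons 800 n1867 .nil)
noncomputable def n2410 : Strat := .move 797 n2407 (.cons 796 n2409 .nil)
noncomputable def n2411 : Strat := .move 759 n847 (.cons 718 n2410 .nil)
noncomputable def n2412 : Strat := .move 922 n215 (.cons 963 n1824 .nil)
noncomputable def n2413 : Strat := .move 881 n2032 (.cons 922 n2411 (.cons 718 n2412 .nil))
noncomputable def n2414 : Strat := .move 880 n395 (.cons 921 n2413 .nil)
noncomputable def n2415 : Strat := .move 758 n2281 (.cons 921 n2284 (.cons 880 n2382 (.cons 717 n2414 .nil)))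
noncomputable def n2416 : Strat := .move 796 n1896 (.cons 758 n927 .nil)
noncomputable def n2417 : Strat := .move 759 n594 (.cons 760 n2416 .nil)
noncomputable def n2418 : Strat := .win 758 3 717
noncomputable def n2419 : Strat := .move 718 n2418 (.cons 758 n595 .nil)
noncomputable def n2420 : Strat := .move 881 n1182 (.cons 922 n2419 .nil)
noncomputable def n2421 : Strat := .move 759 n594 (.cons 760 n2420 .nil)
noncomputable def n2422 : Strat := .move 797 n1860 (.cons 754 n2417 (.cons 796 n2421 .nil))
noncomputable def n2423 : Strat := .move 838 n225 (.cons 837 n2422 .nil)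
noncomputable def n2424 : Strat := .move 838 n303 (.cons 801 n2422 .nil)
noncomputable def n2425 : Strat := .move 881 n2418 (.cons 758 n1182 .nil)
noncomputable def n2426 : Strat := .move 718 n595 (.cons 677 n2425 .nil)
noncomputable def n2427 : Strat := .move 759 n1816 (.cons 797 n2426 .nil)
noncomputable def n2428 : Strat := .move 760 n1316 (.cons 761 n2427 .nil)
noncomputable def n2429 : Strat := .move 801 n1386 (.cons 802 n2428 .nil)
noncomputable def n2430 : Strat := .move 800 n2346 (.cons 801 n2423 (.cons 837 n2424 (.cons 838 n2429 .nil)))
noncomputable def n2431 : Strat := .move 837 n797 (.cons 836 n9 .nil)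
noncomputable def n2432 : Strat := .move 800 n303 (.cons 801 n225 .nil)
noncomputable def n2433 : Strat := .move 754 n107 (.cons 713 n804 .nil)
noncomputable def n2434 : Strat := .move 755 n99 (.cons 714 n2433 .nil)
noncomputable def n2435 : Strat := .move 878 n2 (.cons 877 n2434 .nil)
noncomputable def n2436 : Strat := .move 796 n0 (.cons 795 n2435 .nil)
noncomputable def n2437 : Strat := .move 837 n797 (.cons 836 n2436 .nil)
noncomputable def n2438 : Strat := .move 759 n1896 (.cons 758 n594 .nil)
noncomputable def n2439 : Strat := .move 796 n927 (.cons 795 n2438 .nil)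
noncomputable def n2440 : Strat := .move 797 n2388 (.cons 674 n1860 (.cons 756 n2439 .nil))
noncomputable def n2441 : Strat := .move 800 n303 (.cons 801 n2440 .nil)
noncomputable def n2442 : Strat := .move 838 n2431 (.cons 836 n2432 (.cons 800 n2437 (.cons 837 n2441 .nil)))
noncomputable def n2443 : Strat := .move 921 n302 (.cons 758 n369 .nil)
noncomputable def n2444 : Strat := .move 881 n2383 (.cons 882 n2032 .nil)
noncomputable def n2445 : Strat := .move 758 n394 (.cons 717 n2444 .nil)
noncomputable def n2446 : Strat := .move 921 n369 (.cons 962 n2122 .nil)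
noncomputable def n2447 : Strat := .move 880 n2443 (.cons 962 n396 (.cons 921 n2445 (.cons 758 n2446 .nil)))
noncomputable def n2448 : Strat := .move 714 n838 (.cons 879 n837 .nil)
noncomputable def n2449 : Strat := .move 755 n836 (.cons 754 n2448 .nil)
noncomputable def n2450 : Strat := .move 838 n870 (.cons 800 n2449 .nil)
noncomputable def n2451 : Strat := .move 837 n835 (.cons 836 n2450 .nil)
noncomputable def n2452 : Strat := .move 796 n927 (.cons 795 n2451 .nil)
noncomputable def n2453 : Strat := .move 837 n797 (.cons 836 n870 .nil)
noncomputable def n2454 : Strat := .move 921 n369 (.cons 962 n337 .nil)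
noncomputable def n2455 : Strat := .move 800 n278 (.cons 755 n303 .nil)
noncomputable def n2456 : Strat := .move 756 n80 (.cons 715 n2455 .nil)
noncomputable def n2457 : Strat := .move 880 n2443 (.cons 758 n2454 (.cons 921 n2456 .nil))
noncomputable def n2458 : Strat := .win 879 1 755
noncomputable def n2459 : Strat := .move 919 n2458 (.cons 879 n103 .nil)
noncomputable def n2460 : Strat := .move 756 n101 (.cons 715 n2459 .nil)
noncomputable def n2461 : Strat := .move 878 n2 (.cons 877 n2460 .nil)
noncomputable def n2462 : Strat := .move 837 n797 (.cons 836 n2461 .nil)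
noncomputable def n2463 : Strat := .move 838 n2453 (.cons 837 n2457 (.cons 800 n2462 .nil))
noncomputable def n2464 : Strat := .win 918 1 754
noncomputable def n2465 : Strat := .win 838 4 836
noncomputable def n2466 : Strat := .move 877 n2464 (.cons 918 n2465 .nil)
noncomputable def n2467 : Strat := .move 756 n676 (.cons 715 n100 .nil)
noncomputable def n2468 : Strat := .move 878 n2466 (.cons 838 n2467 .nil)
noncomputable def n2469 : Strat := .move 755 n836 (.cons 754 n2468 .nil)
noncomputable def n2470 : Strat := .move 837 n835 (.cons 836 n2469 .nil)
noncomputable def n2471 : Strat := .move 796 n927 (.cons 795 n2470 .nil)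
noncomputable def n2472 : Strat := .move 838 n870 (.cons 800 n714 .nil)
noncomputable def n2473 : Strat := .move 837 n835 (.cons 836 n2472 .nil)
noncomputable def n2474 : Strat := .move 796 n927 (.cons 795 n2473 .nil)
noncomputable def n2475 : Strat := .move 800 n1858 (.cons 756 n2342 .nil)
noncomputable def n2476 : Strat := .move 755 n836 (.cons 754 n2475 .nil)
noncomputable def n2477 : Strat := .move 796 n927 (.cons 795 n2476 .nil)
noncomputable def n2478 : Strat := .move 797 n2452 (.cons 796 n2463 (.cons 800 n2471 (.cons 755 n2474 (.cons 836 n2477 (.cons 838 n1704 .nil)))))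
noncomputable def n2479 : Strat := .move 799 n2386 (.cons 758 n2394 (.cons 800 n2406 (.cons 838 n2415 (.cons 880 n2430 (.cons 718 n2442 (.cons 760 n2447 (.cons 759 n2478 .nil)))))))
noncomputable def n2480 : Strat := .win 799 6 675
noncomputable def n2481 : Strat := .win 715 7 674
noncomputable def n2482 : Strat := .win 633 7 633
noncomputable def n2483 : Strat := .move 674 n2481 (.cons 715 n2482 .nil)
noncomputable def n2484 : Strat := .move 675 n2480 (.cons 799 n2483 .nil)
noncomputable def n2485 : Strat := .win 717 3 675
noncomputable def n2486 : Strat := .win 635 3 634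
noncomputable def n2487 : Strat := .move 676 n2485 (.cons 717 n2486 .nil)
noncomputable def n2488 : Strat := .move 675 n2480 (.cons 799 n2487 .nil)
noncomputable def n2489 : Strat := .move 837 n9 (.cons 800 n797 .nil)
noncomputable def n2490 : Strat := .move 838 n439 (.cons 879 n2489 .nil)
noncomputable def n2491 : Strat := .move 758 n2284 (.cons 676 n2281 (.cons 717 n2490 .nil))
noncomputable def n2492 : Strat := .move 838 n439 (.cons 879 n2432 .nil)
noncomputable def n2493 : Strat := .move 880 n2242 (.cons 758 n2277 .nil)
noncomputable def n2494 : Strat := .move 717 n480 (.cons 676 n2493 .nil)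
noncomputable def n2495 : Strat := .move 799 n2491 (.cons 717 n2492 (.cons 838 n2494 .nil))
noncomputable def n2496 : Strat := .move 880 n1133 (.cons 758 n1135 .nil)
noncomputable def n2497 : Strat := .move 717 n480 (.cons 676 n2496 .nil)
noncomputable def n2498 : Strat := .move 715 n1134 (.cons 674 n2497 .nil)
noncomputable def n2499 : Strat := .move 716 n2484 (.cons 715 n2488 (.cons 675 n2495 (.cons 799 n2498 .nil)))
noncomputable def n2500 : Strat := .move 921 n912 (.cons 799 n2001 .nil)
noncomputable def n2501 : Strat := .move 758 n913 (.cons 717 n2500 .nil)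
noncomputable def n2502 : Strat := .win 760 4 756
noncomputable def n2503 : Strat := .move 797 n1918 (.cons 796 n2502 .nil)
noncomputable def n2504 : Strat := .move 799 n1657 (.cons 800 n1656 .nil)
noncomputable def n2505 : Strat := .win 799 0 755
noncomputable def n2506 : Strat := .move 800 n1834 (.cons 801 n2505 .nil)
noncomputable def n2507 : Strat := .move 796 n1926 (.cons 797 n1925 .nil)
noncomputable def n2508 : Strat := .move 755 n2504 (.cons 754 n2506 (.cons 800 n2507 .nil))
noncomputable def n2509 : Strat := .move 760 n1868 (.cons 797 n1916 .nil)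
noncomputable def n2510 : Strat := .win 720 5 716
noncomputable def n2511 : Strat := .win 718 5 715
noncomputable def n2512 : Strat := .move 719 n2510 (.cons 720 n2511 .nil)
noncomputable def n2513 : Strat := .move 760 n1916 (.cons 800 n2512 .nil)
noncomputable def n2514 : Strat := .move 759 n2503 (.cons 760 n2508 (.cons 796 n2509 (.cons 797 n2513 .nil)))
noncomputable def n2515 : Strat := .move 756 n299 (.cons 715 n2514 .nil)
noncomputable def n2516 : Strat := .move 758 n913 (.cons 717 n2515 .nil)
noncomputable def n2517 : Strat := .move 921 n1684 (.cons 797 n382 .nil)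
noncomputable def n2518 : Strat := .move 756 n299 (.cons 715 n2517 .nil)
noncomputable def n2519 : Strat := .move 796 n2304 (.cons 759 n927 .nil)
noncomputable def n2520 : Strat := .move 758 n913 (.cons 717 n2519 .nil)
noncomputable def n2521 : Strat := .move 797 n339 (.cons 921 n2520 .nil)
noncomputable def n2522 : Strat := .move 756 n299 (.cons 715 n2521 .nil)
noncomputable def n2523 : Strat := .move 921 n912 (.cons 799 n1643 .nil)
noncomputable def n2524 : Strat := .move 758 n913 (.cons 717 n2523 .nil)
noncomputable def n2525 : Strat := .move 921 n1684 (.cons 797 n1643 .nil)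
noncomputable def n2526 : Strat := .move 756 n299 (.cons 715 n2525 .nil)
noncomputable def n2527 : Strat := .move 880 n2501 (.cons 921 n2516 (.cons 717 n2518 (.cons 799 n2522 (.cons 797 n2524 (.cons 758 n2526 .nil)))))
noncomputable def n2528 : Strat := .win 797 1 674
noncomputable def n2529 : Strat := .move 675 n2528 (.cons 797 n2487 .nil)
noncomputable def n2530 : Strat := .move 838 n439 (.cons 879 n2529 .nil)
noncomputable def n2531 : Strat := .win 712 0 712
noncomputable def n2532 : Strat := .win 758 0 713
noncomputable def n2533 : Strat := .move 713 n2531 (.cons 712 n2532 .nil)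
noncomputable def n2534 : Strat := .move 797 n723 (.cons 673 n348 .nil)
noncomputable def n2535 : Strat := .move 714 n2533 (.cons 758 n2534 .nil)
noncomputable def n2536 : Strat := .move 838 n439 (.cons 879 n2535 .nil)
noncomputable def n2537 : Strat := .move 756 n1689 (.cons 880 n2536 .nil)
noncomputable def n2538 : Strat := .move 715 n1134 (.cons 674 n2537 .nil)
noncomputable def n2539 : Strat := .move 716 n2498 (.cons 715 n2530 (.cons 676 n2538 .nil))
noncomputable def n2540 : Strat := .move 799 n2492 (.cons 879 n1721 .nil)
noncomputable def n2541 : Strat := .move 838 n439 (.cons 879 n2528 .nil)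
noncomputable def n2542 : Strat := .move 675 n2480 (.cons 799 n2541 .nil)
noncomputable def n2543 : Strat := .move 718 n1717 (.cons 719 n1716 .nil)
noncomputable def n2544 : Strat := .move 717 n480 (.cons 676 n2543 .nil)
noncomputable def n2545 : Strat := .move 756 n1689 (.cons 880 n2544 .nil)
noncomputable def n2546 : Strat := .move 715 n1134 (.cons 674 n2545 .nil)
noncomputable def n2547 : Strat := .move 716 n2484 (.cons 675 n2540 (.cons 715 n2542 (.cons 799 n2546 .nil)))
noncomputable def n2548 : Strat := .win 880 3 716
noncomputable def n2549 : Strat := .move 758 n2548 (.cons 880 n2223 .nil)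
noncomputable def n2550 : Strat := .move 717 n480 (.cons 676 n2549 .nil)
noncomputable def n2551 : Strat := .move 716 n2488 (.cons 675 n2550 (.cons 717 n2484 .nil))
noncomputable def n2552 : Strat := .win 838 1 715
noncomputable def n2553 : Strat := .move 879 n2552 (.cons 838 n293 .nil)
noncomputable def n2554 : Strat := .move 880 n1135 (.cons 756 n2553 .nil)
noncomputable def n2555 : Strat := .move 715 n1134 (.cons 674 n2554 .nil)
noncomputable def n2556 : Strat := .move 675 n2480 (.cons 799 n2528 .nil)
noncomputable def n2557 : Strat := .move 838 n439 (.cons 879 n2556 .nil)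
noncomputable def n2558 : Strat := .move 716 n2484 (.cons 675 n2555 (.cons 674 n2557 .nil))
noncomputable def n2559 : Strat := .move 880 n1133 (.cons 758 n2553 .nil)
noncomputable def n2560 : Strat := .move 717 n480 (.cons 676 n2559 .nil)
noncomputable def n2561 : Strat := .move 716 n2488 (.cons 799 n2530 (.cons 717 n2542 (.cons 675 n2560 .nil)))
noncomputable def n2562 : Strat := .move 799 n472 (.cons 675 n2492 .nil)
noncomputable def n2563 : Strat := .win 799 3 676
noncomputable def n2564 : Strat := .move 677 n2563 (.cons 799 n2228 .nil)
noncomputable def n2565 : Strat := .move 758 n2222 (.cons 713 n2316 (.cons 759 n2564 .nil))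
noncomputable def n2566 : Strat := .move 718 n2227 (.cons 719 n2565 .nil)
noncomputable def n2567 : Strat := .move 715 n1134 (.cons 674 n2566 .nil)
noncomputable def n2568 : Strat := .move 717 n480 (.cons 676 n2567 .nil)
noncomputable def n2569 : Strat := .move 716 n2562 (.cons 799 n2530 (.cons 879 n2484 (.cons 675 n2568 .nil)))
noncomputable def n2570 : Strat := .move 757 n2499 (.cons 716 n2527 (.cons 799 n2539 (.cons 758 n2547 (.cons 756 n2551 (.cons 717 n2558 (.cons 715 n2561 (.cons 880 n2569 .nil)))))))
noncomputable def n2571 : Strat := .move 880 n344 (.cons 922 n2370 .nil)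
noncomputable def n2572 : Strat := .move 881 n371 (.cons 716 n2571 .nil)
noncomputable def n2573 : Strat := .move 756 n1689 (.cons 880 n2543 .nil)
noncomputable def n2574 : Strat := .move 717 n480 (.cons 676 n2573 .nil)
noncomputable def n2575 : Strat := .move 715 n1134 (.cons 674 n2574 .nil)
noncomputable def n2576 : Strat := .move 716 n349 (.cons 881 n2575 .nil)
noncomputable def n2577 : Strat := .move 758 n2548 (.cons 880 n2222 .nil)
noncomputable def n2578 : Strat := .move 715 n1134 (.cons 674 n2577 .nil)
noncomputable def n2579 : Strat := .move 717 n480 (.cons 676 n2578 .nil)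
noncomputable def n2580 : Strat := .move 716 n349 (.cons 881 n2579 .nil)
noncomputable def n2581 : Strat := .move 881 n371 (.cons 716 n2340 .nil)
noncomputable def n2582 : Strat := .move 881 n344 (.cons 922 n2370 .nil)
noncomputable def n2583 : Strat := .move 838 n329 (.cons 837 n2363 .nil)
noncomputable def n2584 : Strat := .win 838 0 837
noncomputable def n2585 : Strat := .win 836 2 836
noncomputable def n2586 : Strat := .move 878 n2585 (.cons 836 n899 .nil)
noncomputable def n2587 : Strat := .move 837 n2584 (.cons 838 n2586 .nil)
noncomputable def n2588 : Strat := .move 879 n293 (.cons 920 n2587 .nil)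
noncomputable def n2589 : Strat := .win 923 0 879
noncomputable def n2590 : Strat := .move 924 n1507 (.cons 925 n2589 .nil)
noncomputable def n2591 : Strat := .move 883 n1373 (.cons 884 n2590 .nil)
noncomputable def n2592 : Strat := .move 879 n293 (.cons 920 n2591 .nil)
noncomputable def n2593 : Strat := .move 882 n2362 (.cons 884 n2583 (.cons 883 n2588 (.cons 838 n2592 .nil)))
noncomputable def n2594 : Strat := .move 881 n344 (.cons 922 n2593 .nil)
noncomputable def n2595 : Strat := .move 880 n2582 (.cons 881 n2522 (.cons 797 n2594 .nil))
noncomputable def n2596 : Strat := .move 716 n349 (.cons 881 n2530 .nil)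
noncomputable def n2597 : Strat := .move 757 n2572 (.cons 881 n2539 (.cons 879 n2576 (.cons 756 n2580 (.cons 715 n2581 (.cons 716 n2595 (.cons 880 n2596 .nil))))))
noncomputable def n2598 : Strat := .move 716 n349 (.cons 881 n2484 .nil)
noncomputable def n2599 : Strat := .move 881 n344 (.cons 922 n2355 .nil)
noncomputable def n2600 : Strat := .move 921 n373 (.cons 963 n1643 .nil)
noncomputable def n2601 : Strat := .move 922 n1041 (.cons 881 n2600 .nil)
noncomputable def n2602 : Strat := .win 719 5 715
noncomputable def n2603 : Strat := .win 799 3 717
noncomputable def n2604 : Strat := .move 718 n2602 (.cons 719 n2603 .nil)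
noncomputable def n2605 : Strat := .move 759 n2503 (.cons 760 n2604 .nil)
noncomputable def n2606 : Strat := .move 756 n299 (.cons 715 n2605 .nil)
noncomputable def n2607 : Strat := .move 758 n913 (.cons 717 n2606 .nil)
noncomputable def n2608 : Strat := .move 881 n344 (.cons 922 n2607 .nil)
noncomputable def n2609 : Strat := .move 880 n2501 (.cons 797 n2599 (.cons 758 n2601 (.cons 921 n2608 .nil)))
noncomputable def n2610 : Strat := .move 716 n480 (.cons 676 n2277 .nil)
noncomputable def n2611 : Strat := .move 717 n1133 (.cons 758 n2610 .nil)
noncomputable def n2612 : Strat := .move 879 n293 (.cons 920 n2611 .nil)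
noncomputable def n2613 : Strat := .move 880 n2501 (.cons 758 n2526 (.cons 756 n2524 (.cons 921 n2612 .nil)))
noncomputable def n2614 : Strat := .move 757 n2598 (.cons 716 n2609 (.cons 715 n2581 (.cons 881 n2613 .nil)))
noncomputable def n2615 : Strat := .move 799 n472 (.cons 675 n2223 .nil)
noncomputable def n2616 : Strat := .move 758 n2548 (.cons 880 n2615 .nil)
noncomputable def n2617 : Strat := .move 717 n480 (.cons 676 n2616 .nil)
noncomputable def n2618 : Strat := .move 880 n1133 (.cons 758 n1136 .nil)
noncomputable def n2619 : Strat := .move 717 n480 (.cons 676 n2618 .nil)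
noncomputable def n2620 : Strat := .move 716 n2617 (.cons 758 n2562 (.cons 675 n2619 .nil))
noncomputable def n2621 : Strat := .move 881 n371 (.cons 716 n2374 .nil)
noncomputable def n2622 : Strat := .move 921 n296 (.cons 961 n2357 .nil)
noncomputable def n2623 : Strat := .move 920 n341 (.cons 879 n2622 .nil)
noncomputable def n2624 : Strat := .move 881 n344 (.cons 922 n2623 .nil)
noncomputable def n2625 : Strat := .move 883 n1373 (.cons 884 n2361 .nil)
noncomputable def n2626 : Strat := .move 923 n1375 (.cons 799 n1595 .nil)
noncomputable def n2627 : Strat := .move 882 n2364 (.cons 837 n2625 (.cons 883 n2626 .nil))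
noncomputable def n2628 : Strat := .move 758 n913 (.cons 717 n2627 .nil)
noncomputable def n2629 : Strat := .move 879 n293 (.cons 920 n2628 .nil)
noncomputable def n2630 : Strat := .move 881 n344 (.cons 922 n2629 .nil)
noncomputable def n2631 : Strat := .move 880 n2599 (.cons 881 n2524 (.cons 758 n2624 (.cons 921 n2630 (.cons 799 n2594 .nil))))
noncomputable def n2632 : Strat := .move 757 n2581 (.cons 881 n2620 (.cons 880 n2621 (.cons 716 n2631 .nil)))
noncomputable def n2633 : Strat := .move 757 n344 (.cons 922 n2218 .nil)
noncomputable def n2634 : Strat := .move 881 n2633 (.cons 757 n2383 .nil)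
noncomputable def n2635 : Strat := .move 758 n394 (.cons 717 n2634 .nil)
noncomputable def n2636 : Strat := .move 881 n214 (.cons 757 n2343 .nil)
noncomputable def n2637 : Strat := .move 922 n373 (.cons 963 n2636 .nil)
noncomputable def n2638 : Strat := .move 921 n369 (.cons 962 n2637 .nil)
noncomputable def n2639 : Strat := .move 799 n2443 (.cons 921 n2635 (.cons 758 n2638 .nil))
noncomputable def n2640 : Strat := .move 881 n344 (.cons 922 n2368 .nil)
noncomputable def n2641 : Strat := .move 882 n2364 (.cons 837 n2625 (.cons 883 n2587 (.cons 838 n2591 .nil)))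
noncomputable def n2642 : Strat := .move 879 n293 (.cons 920 n2641 .nil)
noncomputable def n2643 : Strat := .move 881 n344 (.cons 922 n2642 .nil)
noncomputable def n2644 : Strat := .move 757 n2640 (.cons 838 n2608 (.cons 881 n2516 (.cons 758 n2643 .nil)))
noncomputable def n2645 : Strat := .move 757 n341 (.cons 879 n1041 .nil)
noncomputable def n2646 : Strat := .move 920 n296 (.cons 961 n2645 .nil)
noncomputable def n2647 : Strat := .move 922 n373 (.cons 963 n2646 .nil)
noncomputable def n2648 : Strat := .win 838 7 797
noncomputable def n2649 : Strat := .move 962 n2648 (.cons 838 n2356 .nil)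
noncomputable def n2650 : Strat := .move 881 n2649 (.cons 1003 n1650 .nil)
noncomputable def n2651 : Strat := .move 797 n337 (.cons 756 n2650 .nil)
noncomputable def n2652 : Strat := .move 920 n296 (.cons 961 n2651 .nil)
noncomputable def n2653 : Strat := .move 922 n373 (.cons 963 n2652 .nil)
noncomputable def n2654 : Strat := .move 797 n2648 (.cons 838 n337 .nil)
noncomputable def n2655 : Strat := .move 962 n2356 (.cons 1003 n2654 .nil)
noncomputable def n2656 : Strat := .move 881 n214 (.cons 757 n2655 .nil)
noncomputable def n2657 : Strat := .move 922 n373 (.cons 963 n2656 .nil)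
noncomputable def n2658 : Strat := .move 961 n1098 (.cons 920 n1097 .nil)
noncomputable def n2659 : Strat := .move 962 n2648 (.cons 838 n2658 .nil)
noncomputable def n2660 : Strat := .move 797 n337 (.cons 756 n2659 .nil)
noncomputable def n2661 : Strat := .move 921 n2647 (.cons 757 n2653 (.cons 920 n2657 (.cons 881 n2660 .nil)))
noncomputable def n2662 : Strat := .move 757 n299 (.cons 715 n1682 .nil)
noncomputable def n2663 : Strat := .move 756 n1684 (.cons 797 n2662 .nil)
noncomputable def n2664 : Strat := .move 799 n302 (.cons 758 n2663 .nil)
noncomputable def n2665 : Strat := .move 921 n382 (.cons 799 n2660 (.cons 962 n2664 .nil))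
noncomputable def n2666 : Strat := .win 881 3 758
noncomputable def n2667 : Strat := .move 759 n594 (.cons 760 n2666 .nil)
noncomputable def n2668 : Strat := .move 800 n2342 (.cons 838 n2667 .nil)
noncomputable def n2669 : Strat := .move 797 n337 (.cons 756 n2668 .nil)
noncomputable def n2670 : Strat := .move 922 n373 (.cons 963 n2669 .nil)
noncomputable def n2671 : Strat := .move 799 n302 (.cons 758 n2670 .nil)
noncomputable def n2672 : Strat := .move 921 n382 (.cons 799 n2653 (.cons 962 n2671 .nil))
noncomputable def n2673 : Strat := .move 757 n2501 (.cons 797 n2599 (.cons 758 n2601 (.cons 921 n2608 .nil)))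
noncomputable def n2674 : Strat := .move 963 n1095 (.cons 922 n1096 .nil)
noncomputable def n2675 : Strat := .move 962 n288 (.cons 799 n2674 .nil)
noncomputable def n2676 : Strat := .move 881 n214 (.cons 757 n1650 .nil)
noncomputable def n2677 : Strat := .move 920 n296 (.cons 961 n2676 .nil)
noncomputable def n2678 : Strat := .move 922 n373 (.cons 963 n2677 .nil)
noncomputable def n2679 : Strat := .move 921 n382 (.cons 758 n2675 (.cons 799 n2678 .nil))
noncomputable def n2680 : Strat := .move 880 n2639 (.cons 921 n2644 (.cons 799 n2661 (.cons 881 n2665 (.cons 757 n2672 (.cons 838 n2673 (.cons 756 n2679 .nil))))))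
noncomputable def n2681 : Strat := .move 881 n344 (.cons 922 n2360 .nil)
noncomputable def n2682 : Strat := .move 921 n1684 (.cons 797 n2357 .nil)
noncomputable def n2683 : Strat := .move 756 n299 (.cons 715 n2682 .nil)
noncomputable def n2684 : Strat := .move 881 n344 (.cons 922 n2683 .nil)
noncomputable def n2685 : Strat := .move 880 n2681 (.cons 922 n2526 (.cons 921 n2643 (.cons 879 n2684 .nil)))
noncomputable def n2686 : Strat := .move 757 n2598 (.cons 716 n2685 (.cons 799 n2581 (.cons 881 n2547 .nil)))
noncomputable def n2687 : Strat := .move 880 n344 (.cons 922 n2368 .nil)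
noncomputable def n2688 : Strat := .move 881 n371 (.cons 716 n2687 .nil)
noncomputable def n2689 : Strat := .move 880 n2640 (.cons 838 n2608 (.cons 881 n2516 (.cons 758 n2643 .nil)))
noncomputable def n2690 : Strat := .move 799 n472 (.cons 675 n2240 .nil)
noncomputable def n2691 : Strat := .move 716 n2690 (.cons 799 n2498 (.cons 674 n2542 .nil))
noncomputable def n2692 : Strat := .move 757 n2688 (.cons 799 n2581 (.cons 716 n2689 (.cons 881 n2691 (.cons 880 n2598 .nil))))
noncomputable def n2693 : Strat := .move 757 n371 (.cons 716 n2339 .nil)
noncomputable def n2694 : Strat := .move 922 n215 (.cons 963 n2693 .nil)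
noncomputable def n2695 : Strat := .move 799 n827 (.cons 757 n2347 .nil)
noncomputable def n2696 : Strat := .move 922 n215 (.cons 963 n2695 .nil)
noncomputable def n2697 : Strat := .move 799 n369 (.cons 962 n368 .nil)
noncomputable def n2698 : Strat := .move 921 n2697 (.cons 758 n2357 (.cons 962 n1685 .nil))
noncomputable def n2699 : Strat := .move 878 n899 (.cons 877 n2698 .nil)
noncomputable def n2700 : Strat := .move 879 n293 (.cons 920 n2699 .nil)
noncomputable def n2701 : Strat := .move 880 n344 (.cons 922 n2700 .nil)
noncomputable def n2702 : Strat := .move 757 n371 (.cons 716 n2701 .nil)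
noncomputable def n2703 : Strat := .move 799 n369 (.cons 962 n1682 .nil)
noncomputable def n2704 : Strat := .move 921 n370 (.cons 758 n2703 (.cons 799 n1643 .nil))
noncomputable def n2705 : Strat := .move 882 n2362 (.cons 884 n2364 (.cons 838 n2591 (.cons 883 n2587 .nil)))
noncomputable def n2706 : Strat := .move 879 n293 (.cons 920 n2705 .nil)
noncomputable def n2707 : Strat := .move 921 n1684 (.cons 797 n2697 .nil)
noncomputable def n2708 : Strat := .move 756 n299 (.cons 715 n2707 .nil)
noncomputable def n2709 : Strat := .move 880 n2704 (.cons 921 n2706 (.cons 920 n2708 .nil))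
noncomputable def n2710 : Strat := .move 757 n371 (.cons 716 n2709 .nil)
noncomputable def n2711 : Strat := .move 881 n2694 (.cons 757 n2353 (.cons 880 n2696 (.cons 963 n2702 (.cons 922 n2710 .nil))))
noncomputable def n2712 : Strat := .move 757 n2339 (.cons 880 n2373 .nil)
noncomputable def n2713 : Strat := .move 922 n215 (.cons 963 n2712 .nil)
noncomputable def n2714 : Strat := .move 922 n2339 (.cons 880 n2373 .nil)
noncomputable def n2715 : Strat := .move 757 n371 (.cons 716 n2714 .nil)
noncomputable def n2716 : Strat := .move 962 n2356 (.cons 1003 n1099 .nil)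
noncomputable def n2717 : Strat := .move 921 n1684 (.cons 797 n2716 .nil)
noncomputable def n2718 : Strat := .move 756 n299 (.cons 715 n2717 .nil)
noncomputable def n2719 : Strat := .move 799 n845 (.cons 921 n1870 .nil)
noncomputable def n2720 : Strat := .move 758 n913 (.cons 717 n2719 .nil)
noncomputable def n2721 : Strat := .move 880 n2355 (.cons 758 n2683 (.cons 921 n2607 (.cons 799 n2718 (.cons 756 n2720 .nil))))
noncomputable def n2722 : Strat := .move 757 n371 (.cons 716 n2721 .nil)
noncomputable def n2723 : Strat := .move 758 n1234 (.cons 880 n1975 .nil)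
noncomputable def n2724 : Strat := .move 921 n1235 (.cons 962 n2723 .nil)
noncomputable def n2725 : Strat := .move 758 n1234 (.cons 880 n1981 .nil)
noncomputable def n2726 : Strat := .move 921 n1235 (.cons 962 n2725 .nil)
noncomputable def n2727 : Strat := .move 799 n2724 (.cons 880 n2347 (.cons 800 n2726 .nil))
noncomputable def n2728 : Strat := .move 922 n215 (.cons 963 n2727 .nil)
noncomputable def n2729 : Strat := .move 881 n2694 (.cons 716 n2713 (.cons 963 n2715 (.cons 880 n2696 (.cons 922 n2722 (.cons 757 n2728 .nil)))))
noncomputable def n2730 : Strat := .move 716 n349 (.cons 881 n2488 .nil)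
noncomputable def n2731 : Strat := .move 880 n344 (.cons 922 n2720 .nil)
noncomputable def n2732 : Strat := .win 799 1 757
noncomputable def n2733 : Strat := .move 921 n2732 (.cons 799 n1682 .nil)
noncomputable def n2734 : Strat := .move 758 n913 (.cons 717 n2733 .nil)
noncomputable def n2735 : Strat := .move 880 n2720 (.cons 718 n2734 (.cons 799 n2706 .nil))
noncomputable def n2736 : Strat := .move 881 n2731 (.cons 880 n2374 (.cons 799 n2340 (.cons 922 n2735 .nil)))
noncomputable def n2737 : Strat := .move 757 n2730 (.cons 881 n2551 (.cons 799 n2580 (.cons 676 n2581 (.cons 716 n2736 .nil))))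
noncomputable def n2738 : Strat := .move 799 n2345 (.cons 921 n2347 (.cons 801 n2351 .nil))
noncomputable def n2739 : Strat := .move 922 n215 (.cons 963 n2738 .nil)
noncomputable def n2740 : Strat := .move 757 n371 (.cons 716 n2731 .nil)
noncomputable def n2741 : Strat := .move 962 n288 (.cons 799 n2356 .nil)
noncomputable def n2742 : Strat := .move 921 n370 (.cons 758 n2741 (.cons 799 n1643 .nil))
noncomputable def n2743 : Strat := .move 797 n337 (.cons 756 n2649 .nil)
noncomputable def n2744 : Strat := .move 921 n296 (.cons 961 n2743 .nil)
noncomputable def n2745 : Strat := .move 920 n341 (.cons 879 n2744 .nil)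
noncomputable def n2746 : Strat := .move 880 n2720 (.cons 921 n2368 (.cons 717 n2742 (.cons 758 n2623 (.cons 799 n2745 .nil))))
noncomputable def n2747 : Strat := .move 757 n371 (.cons 716 n2746 .nil)
noncomputable def n2748 : Strat := .move 881 n2694 (.cons 757 n2739 (.cons 880 n2375 (.cons 963 n2740 (.cons 922 n2747 .nil))))
noncomputable def n2749 : Strat := .move 799 n2347 (.cons 837 n2724 (.cons 800 n2726 .nil))
noncomputable def n2750 : Strat := .move 922 n215 (.cons 963 n2749 .nil)
noncomputable def n2751 : Strat := .move 880 n2355 (.cons 799 n2522 (.cons 758 n2683 (.cons 921 n2607 (.cons 756 n2720 .nil))))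
noncomputable def n2752 : Strat := .move 757 n371 (.cons 716 n2751 .nil)
noncomputable def n2753 : Strat := .move 881 n2341 (.cons 963 n2715 (.cons 757 n2750 (.cons 922 n2752 (.cons 880 n2375 .nil))))
noncomputable def n2754 : Strat := .move 801 n1149 (.cons 838 n1386 .nil)
noncomputable def n2755 : Strat := .move 757 n1150 (.cons 756 n1680 .nil)
noncomputable def n2756 : Strat := .move 801 n1149 (.cons 838 n2755 .nil)
noncomputable def n2757 : Strat := .move 801 n1386 (.cons 802 n2755 .nil)
noncomputable def n2758 : Strat := .win 838 5 796
noncomputable def n2759 : Strat := .move 797 n2391 (.cons 836 n2417 (.cons 796 n2421 .nil))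
noncomputable def n2760 : Strat := .move 837 n2758 (.cons 838 n2759 .nil)
noncomputable def n2761 : Strat := .move 800 n2754 (.cons 802 n2756 (.cons 838 n2757 (.cons 801 n2760 .nil)))
noncomputable def n2762 : Strat := .move 922 n215 (.cons 963 n1831 .nil)
noncomputable def n2763 : Strat := .move 760 n1868 (.cons 797 n1867 .nil)
noncomputable def n2764 : Strat := .move 759 n847 (.cons 718 n2763 .nil)
noncomputable def n2765 : Strat := .move 757 n371 (.cons 716 n2764 .nil)
noncomputable def n2766 : Strat := .move 717 n475 (.cons 676 n1842 .nil)
noncomputable def n2767 : Strat := .win 757 6 716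
noncomputable def n2768 : Strat := .move 717 n475 (.cons 676 n1228 .nil)
noncomputable def n2769 : Strat := .move 716 n2767 (.cons 757 n2768 .nil)
noncomputable def n2770 : Strat := .move 758 n2765 (.cons 757 n2766 (.cons 759 n2769 .nil))
noncomputable def n2771 : Strat := .move 881 n1618 (.cons 757 n2762 (.cons 922 n2770 .nil))
noncomputable def n2772 : Strat := .move 800 n2390 (.cons 838 n2328 .nil)
noncomputable def n2773 : Strat := .move 837 n835 (.cons 836 n2772 .nil)
noncomputable def n2774 : Strat := .win 716 6 675
noncomputable def n2775 : Strat := .move 800 n2342 (.cons 838 n2328 .nil)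
noncomputable def n2776 : Strat := .move 757 n2774 (.cons 716 n2775 .nil)
noncomputable def n2777 : Strat := .move 717 n1939 (.cons 716 n475 .nil)
noncomputable def n2778 : Strat := .move 758 n2253 (.cons 759 n2777 .nil)
noncomputable def n2779 : Strat := .move 675 n2773 (.cons 837 n2776 (.cons 838 n2778 .nil))
noncomputable def n2780 : Strat := .move 796 n927 (.cons 795 n2779 .nil)
noncomputable def n2781 : Strat := .move 838 n303 (.cons 801 n277 .nil)
noncomputable def n2782 : Strat := .move 796 n1896 (.cons 758 n836 .nil)
noncomputable def n2783 : Strat := .move 755 n1858 (.cons 756 n2782 .nil)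
noncomputable def n2784 : Strat := .move 759 n594 (.cons 760 n2783 .nil)
noncomputable def n2785 : Strat := .move 838 n277 (.cons 837 n2784 .nil)
noncomputable def n2786 : Strat := .move 756 n278 (.cons 755 n1747 .nil)
noncomputable def n2787 : Strat := .move 801 n1386 (.cons 802 n2786 .nil)
noncomputable def n2788 : Strat := .move 800 n2781 (.cons 801 n2785 (.cons 838 n2787 .nil))
noncomputable def n2789 : Strat := .move 717 n475 (.cons 676 n2775 .nil)
noncomputable def n2790 : Strat := .move 758 n2253 (.cons 759 n2789 .nil)
noncomputable def n2791 : Strat := .move 796 n927 (.cons 795 n2790 .nil)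
noncomputable def n2792 : Strat := .move 800 n2390 (.cons 838 n1897 .nil)
noncomputable def n2793 : Strat := .move 837 n835 (.cons 836 n2792 .nil)
noncomputable def n2794 : Strat := .move 796 n927 (.cons 795 n2793 .nil)
noncomputable def n2795 : Strat := .move 800 n303 (.cons 801 n277 .nil)
noncomputable def n2796 : Strat := .move 756 n902 (.cons 878 n278 .nil)
noncomputable def n2797 : Strat := .move 920 n251 (.cons 960 n85 .nil)
noncomputable def n2798 : Strat := .move 919 n2796 (.cons 755 n2797 .nil)
noncomputable def n2799 : Strat := .move 800 n303 (.cons 801 n2798 .nil)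
noncomputable def n2800 : Strat := .win 757 1 715
noncomputable def n2801 : Strat := .move 755 n89 (.cons 714 n1699 .nil)
noncomputable def n2802 : Strat := .move 715 n719 (.cons 675 n279 .nil)
noncomputable def n2803 : Strat := .move 756 n2455 (.cons 801 n2801 (.cons 755 n2802 .nil))
noncomputable def n2804 : Strat := .move 716 n2800 (.cons 757 n2803 .nil)
noncomputable def n2805 : Strat := .move 879 n269 (.cons 716 n421 (.cons 757 n2799 (.cons 920 n2804 .nil)))
noncomputable def n2806 : Strat := .move 838 n2795 (.cons 800 n2462 (.cons 837 n2805 .nil))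
noncomputable def n2807 : Strat := .move 797 n2780 (.cons 800 n2471 (.cons 838 n1704 (.cons 795 n2788 (.cons 837 n2791 (.cons 755 n2794 (.cons 796 n2806 .nil))))))
noncomputable def n2808 : Strat := .move 796 n836 (.cons 754 n927 .nil)
noncomputable def n2809 : Strat := .move 755 n1858 (.cons 756 n2808 .nil)
noncomputable def n2810 : Strat := .move 757 n350 (.cons 881 n919 (.cons 675 n484 (.cons 716 n2809 .nil)))
noncomputable def n2811 : Strat := .move 838 n277 (.cons 837 n2810 .nil)
noncomputable def n2812 : Strat := .move 759 n594 (.cons 760 n1859 .nil)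
noncomputable def n2813 : Strat := .move 796 n927 (.cons 795 n2812 .nil)
noncomputable def n2814 : Strat := .move 757 n348 (.cons 675 n349 .nil)
noncomputable def n2815 : Strat := .move 757 n439 (.cons 879 n348 .nil)
noncomputable def n2816 : Strat := .move 757 n439 (.cons 879 n349 .nil)
noncomputable def n2817 : Strat := .move 716 n2814 (.cons 881 n2815 (.cons 675 n2816 (.cons 757 n2802 .nil)))
noncomputable def n2818 : Strat := .move 756 n278 (.cons 755 n2817 .nil)
noncomputable def n2819 : Strat := .move 838 n277 (.cons 837 n2818 .nil)
noncomputable def n2820 : Strat := .move 797 n2811 (.cons 838 n2813 (.cons 795 n2819 (.cons 755 n2392 .nil)))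
noncomputable def n2821 : Strat := .move 800 n2754 (.cons 838 n2757 (.cons 802 n2346 (.cons 801 n2820 .nil)))
noncomputable def n2822 : Strat := .move 757 n349 (.cons 881 n2223 .nil)
noncomputable def n2823 : Strat := .move 716 n1228 (.cons 675 n2822 .nil)
noncomputable def n2824 : Strat := .move 717 n475 (.cons 676 n2823 .nil)
noncomputable def n2825 : Strat := .move 717 n475 (.cons 676 n2322 .nil)
noncomputable def n2826 : Strat := .move 881 n1230 (.cons 759 n2412 .nil)
noncomputable def n2827 : Strat := .move 718 n1229 (.cons 677 n2826 .nil)
noncomputable def n2828 : Strat := .move 717 n475 (.cons 676 n2827 .nil)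
noncomputable def n2829 : Strat := .move 922 n215 (.cons 963 n827 .nil)
noncomputable def n2830 : Strat := .win 802 2 757
noncomputable def n2831 : Strat := .move 800 n2830 (.cons 802 n1149 .nil)
noncomputable def n2832 : Strat := .win 756 0 756
noncomputable def n2833 : Strat := .move 800 n2832 (.cons 756 n2830 .nil)
noncomputable def n2834 : Strat := .move 800 n2832 (.cons 756 n1149 .nil)
noncomputable def n2835 : Strat := .move 760 n1914 (.cons 802 n1867 .nil)
noncomputable def n2836 : Strat := .move 801 n2831 (.cons 838 n2833 (.cons 802 n2834 (.cons 800 n2835 .nil)))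
noncomputable def n2837 : Strat := .move 759 n847 (.cons 718 n2836 .nil)
noncomputable def n2838 : Strat := .move 757 n371 (.cons 716 n2837 .nil)
noncomputable def n2839 : Strat := .move 922 n215 (.cons 963 n1975 .nil)
noncomputable def n2840 : Strat := .move 881 n1618 (.cons 716 n2829 (.cons 922 n2838 (.cons 757 n2839 .nil)))
noncomputable def n2841 : Strat := .move 757 n349 (.cons 881 n2168 .nil)
noncomputable def n2842 : Strat := .move 716 n1228 (.cons 675 n2841 .nil)
noncomputable def n2843 : Strat := .move 717 n475 (.cons 676 n2842 .nil)
noncomputable def n2844 : Strat := .move 758 n2824 (.cons 881 n2825 (.cons 757 n2828 (.cons 676 n2840 (.cons 759 n2843 .nil))))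
noncomputable def n2845 : Strat := .move 922 n215 (.cons 963 n2347 .nil)
noncomputable def n2846 : Strat := .move 717 n1228 (.cons 675 n475 .nil)
noncomputable def n2847 : Strat := .move 758 n2846 (.cons 676 n2296 .nil)
noncomputable def n2848 : Strat := .move 715 n279 (.cons 674 n719 .nil)
noncomputable def n2849 : Strat := .move 756 n2455 (.cons 801 n2848 .nil)
noncomputable def n2850 : Strat := .move 800 n1858 (.cons 756 n303 .nil)
noncomputable def n2851 : Strat := .move 755 n2808 (.cons 795 n2850 .nil)
noncomputable def n2852 : Strat := .move 797 n2847 (.cons 758 n2849 (.cons 675 n2851 .nil))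
noncomputable def n2853 : Strat := .move 837 n797 (.cons 836 n7 .nil)
noncomputable def n2854 : Strat := .move 838 n2431 (.cons 837 n2852 (.cons 800 n2853 .nil))
noncomputable def n2855 : Strat := .move 716 n2767 (.cons 757 n2854 .nil)
noncomputable def n2856 : Strat := .move 881 n1618 (.cons 757 n2845 (.cons 922 n2855 .nil))
noncomputable def n2857 : Strat := .move 716 n349 (.cons 881 n472 .nil)
noncomputable def n2858 : Strat := .move 757 n1150 (.cons 756 n2857 .nil)
noncomputable def n2859 : Strat := .move 801 n1386 (.cons 802 n2858 .nil)
noncomputable def n2860 : Strat := .move 797 n2811 (.cons 755 n2392 (.cons 838 n2329 (.cons 796 n2819 .nil)))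
noncomputable def n2861 : Strat := .move 800 n2754 (.cons 838 n2859 (.cons 802 n2346 (.cons 801 n2860 .nil)))
noncomputable def n2862 : Strat := .move 799 n2761 (.cons 800 n2771 (.cons 757 n2430 (.cons 881 n2807 (.cons 758 n2821 (.cons 797 n2844 (.cons 760 n2856 (.cons 759 n2861 .nil)))))))
noncomputable def n2863 : Strat := .move 798 n2376 (.cons 757 n2479 (.cons 881 n2570 (.cons 799 n2597 (.cons 838 n2614 (.cons 797 n2632 (.cons 716 n2680 (.cons 758 n2686 (.cons 921 n2692 (.cons 717 n2711 (.cons 879 n2729 (.cons 756 n2737 (.cons 715 n2748 (.cons 920 n2753 (.cons 880 n2862 .nil))))))))))))))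
noncomputable def n2864 : Strat := .move 839 n115 (.cons 716 n212 (.cons 802 n392 (.cons 884 n504 (.cons 921 n571 (.cons 795 n645 (.cons 799 n749 (.cons 881 n793 (.cons 801 n966 (.cons 883 n1071 (.cons 800 n1119 (.cons 882 n1157 (.cons 797 n1223 (.cons 879 n1278 (.cons 837 n1307 (.cons 796 n1431 (.cons 878 n1540 (.cons 842 n1572 (.cons 798 n1613 (.cons 880 n1634 (.cons 838 n2338 (.cons 841 n2863 .nil)))))))))))))))))))))

end Vale.Agent.Snaky.R6_0
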