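import Vale.Agent.Snaky.Assemble

namespace Vale.Agent.Snaky.R6_1

open Vale.Agent.Snaky

noncomputable def n0 : Strat := .win 675 7 675
noncomputable def n1 : Strat := .win 757 7 716
noncomputable def n2 : Strat := .win 677 3 676
noncomputable def n3 : Strat := .win 759 3 717
noncomputable def n4 : Strat := .move 718 n2 (.cons 677 n3 .nil)
noncomputable def n5 : Strat := .move 881 n1 (.cons 757 n4 .nil)
noncomputable def n6 : Strat := .move 716 n0 (.cons 675 n5 .nil)
noncomputable def n7 : Strat := .win 880 1 716
noncomputable def n8 : Strat := .win 798 1 675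
noncomputable def n9 : Strat := .win 882 6 717
noncomputable def n10 : Strat := .win 800 6 676
noncomputable def n11 : Strat := .move 841 n9 (.cons 882 n10 .nil)
noncomputable def n12 : Strat := .move 676 n8 (.cons 798 n11 .nil)
noncomputable def n13 : Strat := .move 839 n7 (.cons 880 n12 .nil)
noncomputable def n14 : Strat := .move 717 n6 (.cons 881 n13 .nil)
noncomputable def n15 : Strat := .win 921 1 757
noncomputable def n16 : Strat := .win 923 6 758
noncomputable def n17 : Strat := .win 839 1 716
noncomputable def n18 : Strat := .win 841 6 717
noncomputable def n19 : Strat := .move 717 n17 (.cons 839 n18 .nil)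
noncomputable def n20 : Strat := .move 882 n16 (.cons 923 n19 .nil)
noncomputable def n21 : Strat := .move 880 n15 (.cons 921 n20 .nil)
noncomputable def n22 : Strat := .win 716 7 716
noncomputable def n23 : Strat := .win 798 7 757
noncomputable def n24 : Strat := .win 718 3 717
noncomputable def n25 : Strat := .win 800 3 758
noncomputable def n26 : Strat := .move 759 n24 (.cons 718 n25 .nil)
noncomputable def n27 : Strat := .move 922 n23 (.cons 798 n26 .nil)
noncomputable def n28 : Strat := .move 757 n22 (.cons 716 n27 .nil)
noncomputable def n29 : Strat := .move 881 n21 (.cons 841 n28 .nil)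
noncomputable def n30 : Strat := .move 839 n7 (.cons 880 n8 .nil)
noncomputable def n31 : Strat := .move 676 n10 (.cons 800 n30 .nil)
noncomputable def n32 : Strat := .move 841 n9 (.cons 882 n31 .nil)
noncomputable def n33 : Strat := .move 880 n17 (.cons 839 n15 .nil)
noncomputable def n34 : Strat := .move 881 n3 (.cons 759 n33 .nil)
noncomputable def n35 : Strat := .move 718 n2 (.cons 677 n34 .nil)
noncomputable def n36 : Strat := .win 718 3 676
noncomputable def n37 : Strat := .win 636 3 635
noncomputable def n38 : Strat := .move 677 n36 (.cons 718 n37 .nil)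
noncomputable def n39 : Strat := .move 676 n10 (.cons 800 n38 .nil)
noncomputable def n40 : Strat := .move 841 n9 (.cons 882 n39 .nil)
noncomputable def n41 : Strat := .move 717 n32 (.cons 841 n35 (.cons 880 n40 .nil))
noncomputable def n42 : Strat := .move 882 n18 (.cons 841 n16 .nil)
noncomputable def n43 : Strat := .move 881 n1 (.cons 757 n42 .nil)
noncomputable def n44 : Strat := .move 716 n0 (.cons 675 n43 .nil)
noncomputable def n45 : Strat := .win 716 7 675
noncomputable def n46 : Strat := .win 634 7 634
noncomputable def n47 : Strat := .move 675 n45 (.cons 716 n46 .nil)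
noncomputable def n48 : Strat := .move 676 n8 (.cons 798 n47 .nil)
noncomputable def n49 : Strat := .move 839 n7 (.cons 880 n48 .nil)
noncomputable def n50 : Strat := .move 717 n13 (.cons 839 n44 (.cons 882 n49 .nil))
noncomputable def n51 : Strat := .move 757 n22 (.cons 716 n23 .nil)
noncomputable def n52 : Strat := .move 922 n25 (.cons 800 n51 .nil)
noncomputable def n53 : Strat := .move 759 n24 (.cons 718 n52 .nil)
noncomputable def n54 : Strat := .move 716 n0 (.cons 675 n1 .nil)
noncomputable def n55 : Strat := .move 717 n18 (.cons 841 n54 .nil)
noncomputable def n56 : Strat := .move 882 n16 (.cons 923 n55 .nil)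
noncomputable def n57 : Strat := .win 882 6 758
noncomputable def n58 : Strat := .win 964 6 799
noncomputable def n59 : Strat := .move 923 n57 (.cons 882 n58 .nil)
noncomputable def n60 : Strat := .move 922 n25 (.cons 800 n59 .nil)
noncomputable def n61 : Strat := .move 759 n24 (.cons 718 n60 .nil)
noncomputable def n62 : Strat := .move 881 n53 (.cons 759 n56 (.cons 757 n61 .nil))
noncomputable def n63 : Strat := .move 717 n17 (.cons 839 n4 .nil)
noncomputable def n64 : Strat := .move 880 n15 (.cons 921 n63 .nil)
noncomputable def n65 : Strat := .win 880 1 757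
noncomputable def n66 : Strat := .win 962 1 798
noncomputable def n67 : Strat := .move 921 n65 (.cons 880 n66 .nil)
noncomputable def n68 : Strat := .move 922 n23 (.cons 798 n67 .nil)
noncomputable def n69 : Strat := .move 757 n22 (.cons 716 n68 .nil)
noncomputable def n70 : Strat := .move 881 n28 (.cons 757 n64 (.cons 759 n69 .nil))
noncomputable def n71 : Strat := .move 881 n3 (.cons 759 n54 .nil)
noncomputable def n72 : Strat := .move 718 n2 (.cons 677 n71 .nil)
noncomputable def n73 : Strat := .move 676 n10 (.cons 800 n47 .nil)
noncomputable def n74 : Strat := .move 841 n9 (.cons 882 n73 .nil)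
noncomputable def n75 : Strat := .move 881 n3 (.cons 759 n42 .nil)
noncomputable def n76 : Strat := .move 718 n2 (.cons 677 n75 .nil)
noncomputable def n77 : Strat := .move 717 n72 (.cons 718 n74 (.cons 716 n76 .nil))
noncomputable def n78 : Strat := .move 676 n8 (.cons 798 n38 .nil)
noncomputable def n79 : Strat := .move 839 n7 (.cons 880 n78 .nil)
noncomputable def n80 : Strat := .move 881 n1 (.cons 757 n33 .nil)
noncomputable def n81 : Strat := .move 716 n0 (.cons 675 n80 .nil)
noncomputable def n82 : Strat := .move 717 n6 (.cons 716 n79 (.cons 718 n81 .nil))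
noncomputable def n83 : Strat := .move 922 n25 (.cons 800 n67 .nil)
noncomputable def n84 : Strat := .move 759 n24 (.cons 718 n83 .nil)
noncomputable def n85 : Strat := .move 922 n23 (.cons 798 n59 .nil)
noncomputable def n86 : Strat := .move 757 n22 (.cons 716 n85 .nil)
noncomputable def n87 : Strat := .win 801 0 756
noncomputable def n88 : Strat := .win 755 0 755
noncomputable def n89 : Strat := .move 800 n87 (.cons 801 n88 .nil)
noncomputable def n90 : Strat := .win 760 4 756
noncomputable def n91 : Strat := .win 796 4 755
noncomputable def n92 : Strat := .move 797 n90 (.cons 760 n91 .nil)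
noncomputable def n93 : Strat := .win 761 4 757
noncomputable def n94 : Strat := .win 797 4 756
noncomputable def n95 : Strat := .move 760 n93 (.cons 761 n94 .nil)
noncomputable def n96 : Strat := .win 839 7 715
noncomputable def n97 : Strat := .win 714 2 714
noncomputable def n98 : Strat := .move 715 n96 (.cons 839 n97 .nil)
noncomputable def n99 : Strat := .move 798 n92 (.cons 796 n95 (.cons 760 n98 .nil))
noncomputable def n100 : Strat := .move 756 n89 (.cons 755 n99 .nil)
noncomputable def n101 : Strat := .move 880 n15 (.cons 921 n100 .nil)
noncomputable def n102 : Strat := .move 759 n24 (.cons 718 n101 .nil)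
noncomputable def n103 : Strat := .move 757 n22 (.cons 716 n102 .nil)
noncomputable def n104 : Strat := .move 881 n28 (.cons 757 n84 (.cons 759 n86 (.cons 922 n103 .nil)))
noncomputable def n105 : Strat := .win 760 0 715
noncomputable def n106 : Strat := .win 714 0 714
noncomputable def n107 : Strat := .move 759 n105 (.cons 760 n106 .nil)
noncomputable def n108 : Strat := .win 719 4 715
noncomputable def n109 : Strat := .win 755 4 714
noncomputable def n110 : Strat := .move 756 n108 (.cons 719 n109 .nil)
noncomputable def n111 : Strat := .win 720 4 716
noncomputable def n112 : Strat := .win 756 4 715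
noncomputable def n113 : Strat := .move 719 n111 (.cons 720 n112 .nil)
noncomputable def n114 : Strat := .win 798 7 674
noncomputable def n115 : Strat := .win 673 2 673
noncomputable def n116 : Strat := .move 674 n114 (.cons 798 n115 .nil)
noncomputable def n117 : Strat := .move 757 n110 (.cons 755 n113 (.cons 719 n116 .nil))
noncomputable def n118 : Strat := .move 715 n107 (.cons 714 n117 .nil)
noncomputable def n119 : Strat := .move 839 n7 (.cons 880 n118 .nil)
noncomputable def n120 : Strat := .move 718 n2 (.cons 677 n119 .nil)
noncomputable def n121 : Strat := .move 716 n0 (.cons 675 n120 .nil)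
noncomputable def n122 : Strat := .move 717 n13 (.cons 839 n74 (.cons 841 n79 (.cons 676 n121 .nil)))
noncomputable def n123 : Strat := .move 758 n14 (.cons 676 n29 (.cons 757 n41 (.cons 759 n50 (.cons 839 n62 (.cons 841 n70 (.cons 798 n77 (.cons 800 n82 (.cons 717 n104 (.cons 881 n122 .nil)))))))))
noncomputable def n124 : Strat := .move 717 n13 (.cons 839 n72 .nil)
noncomputable def n125 : Strat := .move 881 n28 (.cons 798 n84 (.cons 759 n86 (.cons 922 n103 .nil)))
noncomputable def n126 : Strat := .win 717 6 717
noncomputable def n127 : Strat := .win 843 4 839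
noncomputable def n128 : Strat := .win 879 5 838
noncomputable def n129 : Strat := .move 842 n127 (.cons 843 n128 .nil)
noncomputable def n130 : Strat := .move 841 n126 (.cons 717 n129 .nil)
noncomputable def n131 : Strat := .move 882 n16 (.cons 923 n130 .nil)
noncomputable def n132 : Strat := .move 880 n15 (.cons 921 n131 .nil)
noncomputable def n133 : Strat := .move 881 n132 (.cons 843 n84 (.cons 880 n61 .nil))
noncomputable def n134 : Strat := .win 717 1 716
noncomputable def n135 : Strat := .win 837 0 837
noncomputable def n136 : Strat := .win 883 2 838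
noncomputable def n137 : Strat := .move 838 n135 (.cons 837 n136 .nil)
noncomputable def n138 : Strat := .move 839 n134 (.cons 717 n137 .nil)
noncomputable def n139 : Strat := .move 882 n16 (.cons 923 n138 .nil)
noncomputable def n140 : Strat := .move 880 n15 (.cons 921 n139 .nil)
noncomputable def n141 : Strat := .move 881 n140 (.cons 837 n86 (.cons 882 n69 .nil))
noncomputable def n142 : Strat := .win 881 3 717
noncomputable def n143 : Strat := .win 715 0 715
noncomputable def n144 : Strat := .win 761 2 716
noncomputable def n145 : Strat := .move 760 n143 (.cons 715 n144 .nil)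
noncomputable def n146 : Strat := .move 716 n0 (.cons 675 n145 .nil)
noncomputable def n147 : Strat := .move 759 n142 (.cons 881 n146 .nil)
noncomputable def n148 : Strat := .move 718 n2 (.cons 677 n147 .nil)
noncomputable def n149 : Strat := .move 717 n148 (.cons 715 n79 (.cons 718 n49 .nil))
noncomputable def n150 : Strat := .move 718 n2 (.cons 677 n32 .nil)
noncomputable def n151 : Strat := .win 843 2 798
noncomputable def n152 : Strat := .win 797 2 797
noncomputable def n153 : Strat := .move 798 n151 (.cons 843 n152 .nil)
noncomputable def n154 : Strat := .win 798 2 798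
noncomputable def n155 : Strat := .win 885 0 840
noncomputable def n156 : Strat := .win 883 0 839
noncomputable def n157 : Strat := .move 884 n155 (.cons 885 n156 .nil)
noncomputable def n158 : Strat := .move 843 n154 (.cons 798 n157 .nil)
noncomputable def n159 : Strat := .win 801 5 797
noncomputable def n160 : Strat := .win 837 5 796
noncomputable def n161 : Strat := .move 838 n159 (.cons 801 n160 .nil)
noncomputable def n162 : Strat := .win 838 5 797
noncomputable def n163 : Strat := .win 802 4 798
noncomputable def n164 : Strat := .move 801 n162 (.cons 838 n163 .nil)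
noncomputable def n165 : Strat := .win 759 6 718
noncomputable def n166 : Strat := .win 884 0 839
noncomputable def n167 : Strat := .move 883 n165 (.cons 759 n166 .nil)
noncomputable def n168 : Strat := .move 800 n161 (.cons 837 n164 (.cons 801 n167 .nil))
noncomputable def n169 : Strat := .move 842 n153 (.cons 797 n158 (.cons 843 n168 .nil))
noncomputable def n170 : Strat := .move 718 n2 (.cons 677 n169 .nil)
noncomputable def n171 : Strat := .move 841 n9 (.cons 882 n170 .nil)
noncomputable def n172 : Strat := .move 839 n7 (.cons 880 n171 .nil)
noncomputable def n173 : Strat := .move 717 n150 (.cons 839 n40 (.cons 841 n79 (.cons 718 n13 (.cons 676 n172 .nil))))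
noncomputable def n174 : Strat := .move 717 n148 (.cons 715 n74 (.cons 716 n40 .nil))
noncomputable def n175 : Strat := .move 758 n124 (.cons 717 n125 (.cons 716 n133 (.cons 718 n141 (.cons 882 n149 (.cons 881 n173 (.cons 880 n174 .nil))))))
noncomputable def n176 : Strat := .move 880 n15 (.cons 921 n130 .nil)
noncomputable def n177 : Strat := .move 882 n16 (.cons 923 n176 .nil)
noncomputable def n178 : Strat := .move 717 n17 (.cons 839 n54 .nil)
noncomputable def n179 : Strat := .move 880 n15 (.cons 921 n178 .nil)
noncomputable def n180 : Strat := .win 922 1 758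
noncomputable def n181 : Strat := .move 756 n87 (.cons 801 n88 .nil)
noncomputable def n182 : Strat := .move 757 n22 (.cons 716 n181 .nil)
noncomputable def n183 : Strat := .move 800 n180 (.cons 922 n182 .nil)
noncomputable def n184 : Strat := .move 759 n24 (.cons 718 n183 .nil)
noncomputable def n185 : Strat := .move 841 n126 (.cons 717 n184 .nil)
noncomputable def n186 : Strat := .move 882 n16 (.cons 923 n185 .nil)
noncomputable def n187 : Strat := .win 922 3 758
noncomputable def n188 : Strat := .move 800 n187 (.cons 922 n182 .nil)
noncomputable def n189 : Strat := .move 759 n24 (.cons 718 n188 .nil)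
noncomputable def n190 : Strat := .move 880 n15 (.cons 921 n189 .nil)
noncomputable def n191 : Strat := .move 882 n16 (.cons 923 n190 .nil)
noncomputable def n192 : Strat := .move 881 n177 (.cons 923 n179 (.cons 921 n186 (.cons 717 n191 .nil)))
noncomputable def n193 : Strat := .win 676 6 676
noncomputable def n194 : Strat := .move 839 n7 (.cons 880 n161 .nil)
noncomputable def n195 : Strat := .move 800 n193 (.cons 676 n194 .nil)
noncomputable def n196 : Strat := .move 841 n9 (.cons 882 n195 .nil)
noncomputable def n197 : Strat := .move 716 n0 (.cons 675 n196 .nil)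
noncomputable def n198 : Strat := .move 718 n2 (.cons 677 n197 .nil)
noncomputable def n199 : Strat := .move 759 n106 (.cons 714 n105 .nil)
noncomputable def n200 : Strat := .win 759 0 714
noncomputable def n201 : Strat := .win 672 2 672
noncomputable def n202 : Strat := .win 674 2 673
noncomputable def n203 : Strat := .move 673 n201 (.cons 672 n202 .nil)
noncomputable def n204 : Strat := .move 714 n200 (.cons 759 n203 .nil)
noncomputable def n205 : Strat := .win 756 4 714
noncomputable def n206 : Strat := .win 754 4 713
noncomputable def n207 : Strat := .move 714 n206 (.cons 754 n203 .nil)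
noncomputable def n208 : Strat := .move 755 n205 (.cons 756 n207 .nil)
noncomputable def n209 : Strat := .win 759 0 715
noncomputable def n210 : Strat := .win 761 0 716
noncomputable def n211 : Strat := .win 757 4 715
noncomputable def n212 : Strat := .move 756 n211 (.cons 757 n109 .nil)
noncomputable def n213 : Strat := .move 719 n210 (.cons 761 n212 .nil)
noncomputable def n214 : Strat := .move 760 n209 (.cons 759 n213 .nil)
noncomputable def n215 : Strat := .move 715 n199 (.cons 760 n204 (.cons 759 n208 (.cons 714 n214 .nil)))
noncomputable def n216 : Strat := .move 718 n2 (.cons 677 n215 .nil)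
noncomputable def n217 : Strat := .move 716 n0 (.cons 675 n216 .nil)
noncomputable def n218 : Strat := .move 717 n198 (.cons 800 n217 (.cons 716 n40 (.cons 718 n74 .nil)))
noncomputable def n219 : Strat := .win 756 0 756
noncomputable def n220 : Strat := .win 802 2 757
noncomputable def n221 : Strat := .move 801 n219 (.cons 756 n220 .nil)
noncomputable def n222 : Strat := .move 757 n22 (.cons 716 n221 .nil)
noncomputable def n223 : Strat := .move 800 n187 (.cons 922 n222 .nil)
noncomputable def n224 : Strat := .move 759 n24 (.cons 718 n223 .nil)
noncomputable def n225 : Strat := .move 881 n84 (.cons 718 n179 (.cons 921 n224 .nil))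
noncomputable def n226 : Strat := .move 880 n15 (.cons 921 n19 .nil)
noncomputable def n227 : Strat := .move 882 n16 (.cons 923 n226 .nil)
noncomputable def n228 : Strat := .move 881 n227 (.cons 923 n64 (.cons 717 n61 .nil))
noncomputable def n229 : Strat := .move 801 n163 (.cons 802 n162 .nil)
noncomputable def n230 : Strat := .move 839 n7 (.cons 880 n229 .nil)
noncomputable def n231 : Strat := .move 800 n193 (.cons 676 n230 .nil)
noncomputable def n232 : Strat := .move 841 n9 (.cons 882 n231 .nil)
noncomputable def n233 : Strat := .move 717 n74 (.cons 882 n81 (.cons 675 n232 .nil))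
noncomputable def n234 : Strat := .win 842 5 838
noncomputable def n235 : Strat := .win 878 5 837
noncomputable def n236 : Strat := .move 841 n234 (.cons 842 n235 .nil)
noncomputable def n237 : Strat := .win 838 2 838
noncomputable def n238 : Strat := .win 884 2 839
noncomputable def n239 : Strat := .move 839 n237 (.cons 838 n238 .nil)
noncomputable def n240 : Strat := .win 839 2 838
noncomputable def n241 : Strat := .win 837 2 837
noncomputable def n242 : Strat := .move 838 n240 (.cons 839 n241 .nil)
noncomputable def n243 : Strat := .win 843 5 839
noncomputable def n244 : Strat := .win 841 5 838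
noncomputable def n245 : Strat := .move 842 n243 (.cons 843 n244 .nil)
noncomputable def n246 : Strat := .move 883 n239 (.cons 884 n242 (.cons 838 n245 .nil))
noncomputable def n247 : Strat := .win 841 5 837
noncomputable def n248 : Strat := .win 836 2 836
noncomputable def n249 : Strat := .win 838 2 837
noncomputable def n250 : Strat := .move 837 n248 (.cons 836 n249 .nil)
noncomputable def n251 : Strat := .move 878 n247 (.cons 841 n250 .nil)
noncomputable def n252 : Strat := .win 918 4 877
noncomputable def n253 : Strat := .win 920 4 878
noncomputable def n254 : Strat := .move 919 n252 (.cons 918 n253 .nil)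
noncomputable def n255 : Strat := .move 878 n250 (.cons 838 n254 .nil)
noncomputable def n256 : Strat := .move 879 n236 (.cons 878 n246 (.cons 842 n251 (.cons 841 n255 .nil)))
noncomputable def n257 : Strat := .move 880 n15 (.cons 921 n256 .nil)
noncomputable def n258 : Strat := .move 882 n16 (.cons 923 n257 .nil)
noncomputable def n259 : Strat := .move 718 n3 (.cons 759 n258 .nil)
noncomputable def n260 : Strat := .move 839 n238 (.cons 884 n237 .nil)
noncomputable def n261 : Strat := .win 839 2 839
noncomputable def n262 : Strat := .win 926 0 881
noncomputable def n263 : Strat := .win 924 0 880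
noncomputable def n264 : Strat := .move 925 n262 (.cons 926 n263 .nil)
noncomputable def n265 : Strat := .move 884 n261 (.cons 839 n264 .nil)
noncomputable def n266 : Strat := .win 885 2 840
noncomputable def n267 : Strat := .move 841 n266 (.cons 885 n128 .nil)
noncomputable def n268 : Strat := .move 884 n264 (.cons 924 n267 .nil)
noncomputable def n269 : Strat := .move 842 n243 (.cons 843 n268 .nil)
noncomputable def n270 : Strat := .move 879 n241 (.cons 837 n236 .nil)
noncomputable def n271 : Strat := .move 838 n240 (.cons 839 n270 .nil)
noncomputable def n272 : Strat := .move 883 n260 (.cons 838 n265 (.cons 839 n269 (.cons 884 n271 .nil)))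
noncomputable def n273 : Strat := .move 880 n15 (.cons 921 n272 .nil)
noncomputable def n274 : Strat := .move 882 n16 (.cons 923 n273 .nil)
noncomputable def n275 : Strat := .move 881 n259 (.cons 882 n84 (.cons 880 n61 (.cons 718 n274 .nil)))
noncomputable def n276 : Strat := .move 881 n3 (.cons 759 n1 .nil)
noncomputable def n277 : Strat := .move 718 n2 (.cons 677 n276 .nil)
noncomputable def n278 : Strat := .move 716 n0 (.cons 675 n277 .nil)
noncomputable def n279 : Strat := .move 717 n278 (.cons 881 n217 (.cons 716 n35 (.cons 718 n44 .nil)))
noncomputable def n280 : Strat := .move 758 n77 (.cons 677 n192 (.cons 881 n218 (.cons 882 n225 (.cons 716 n228 (.cons 718 n233 (.cons 717 n275 (.cons 800 n279 .nil)))))))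
noncomputable def n281 : Strat := .win 676 1 675
noncomputable def n282 : Strat := .win 842 2 797
noncomputable def n283 : Strat := .win 796 0 796
noncomputable def n284 : Strat := .move 797 n282 (.cons 842 n283 .nil)
noncomputable def n285 : Strat := .move 841 n9 (.cons 882 n284 .nil)
noncomputable def n286 : Strat := .move 798 n281 (.cons 676 n285 .nil)
noncomputable def n287 : Strat := .move 839 n7 (.cons 880 n286 .nil)
noncomputable def n288 : Strat := .move 718 n2 (.cons 677 n287 .nil)
noncomputable def n289 : Strat := .move 716 n0 (.cons 675 n288 .nil)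
noncomputable def n290 : Strat := .move 717 n289 (.cons 716 n79 (.cons 718 n49 (.cons 798 n217 .nil)))
noncomputable def n291 : Strat := .move 717 n18 (.cons 841 n4 .nil)
noncomputable def n292 : Strat := .move 882 n16 (.cons 923 n291 .nil)
noncomputable def n293 : Strat := .win 922 7 757
noncomputable def n294 : Strat := .win 796 5 755
noncomputable def n295 : Strat := .move 797 n90 (.cons 760 n294 .nil)
noncomputable def n296 : Strat := .move 759 n24 (.cons 718 n295 .nil)
noncomputable def n297 : Strat := .move 798 n293 (.cons 922 n296 .nil)
noncomputable def n298 : Strat := .move 757 n22 (.cons 716 n297 .nil)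
noncomputable def n299 : Strat := .move 881 n86 (.cons 716 n292 (.cons 923 n298 .nil))
noncomputable def n300 : Strat := .move 881 n21 (.cons 921 n56 (.cons 717 n69 .nil))
noncomputable def n301 : Strat := .move 797 n283 (.cons 796 n282 .nil)
noncomputable def n302 : Strat := .move 841 n9 (.cons 882 n301 .nil)
noncomputable def n303 : Strat := .move 798 n281 (.cons 676 n302 .nil)
noncomputable def n304 : Strat := .move 839 n7 (.cons 880 n303 .nil)
noncomputable def n305 : Strat := .move 717 n79 (.cons 798 n35 (.cons 880 n76 (.cons 677 n304 .nil)))
noncomputable def n306 : Strat := .move 841 n235 (.cons 878 n234 .nil)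
noncomputable def n307 : Strat := .move 878 n248 (.cons 836 n254 .nil)
noncomputable def n308 : Strat := .move 837 n249 (.cons 838 n307 .nil)
noncomputable def n309 : Strat := .move 883 n243 (.cons 843 n242 .nil)
noncomputable def n310 : Strat := .move 842 n244 (.cons 841 n309 .nil)
noncomputable def n311 : Strat := .move 879 n306 (.cons 842 n251 (.cons 841 n308 (.cons 878 n310 .nil)))
noncomputable def n312 : Strat := .move 882 n16 (.cons 923 n311 .nil)
noncomputable def n313 : Strat := .move 880 n15 (.cons 921 n312 .nil)
noncomputable def n314 : Strat := .move 881 n86 (.cons 798 n313 (.cons 882 n69 .nil))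
noncomputable def n315 : Strat := .move 758 n82 (.cons 881 n290 (.cons 880 n299 (.cons 798 n279 (.cons 718 n300 (.cons 716 n305 (.cons 717 n314 .nil))))))
noncomputable def n316 : Strat := .move 758 n28 (.cons 757 n84 (.cons 759 n86 (.cons 922 n103 .nil)))
noncomputable def n317 : Strat := .move 879 n234 (.cons 842 n235 .nil)
noncomputable def n318 : Strat := .move 842 n128 (.cons 879 n127 .nil)
noncomputable def n319 : Strat := .win 800 6 759
noncomputable def n320 : Strat := .win 925 0 880
noncomputable def n321 : Strat := .move 924 n319 (.cons 800 n320 .nil)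
noncomputable def n322 : Strat := .move 841 n317 (.cons 878 n318 (.cons 842 n321 .nil))
noncomputable def n323 : Strat := .move 883 n260 (.cons 838 n265 (.cons 884 n322 .nil))
noncomputable def n324 : Strat := .move 759 n24 (.cons 718 n323 .nil)
noncomputable def n325 : Strat := .move 882 n16 (.cons 923 n324 .nil)
noncomputable def n326 : Strat := .move 880 n15 (.cons 921 n325 .nil)
noncomputable def n327 : Strat := .move 798 n93 (.cons 761 n94 .nil)
noncomputable def n328 : Strat := .win 798 4 757
noncomputable def n329 : Strat := .win 803 0 758
noncomputable def n330 : Strat := .win 801 0 757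
noncomputable def n331 : Strat := .move 802 n329 (.cons 803 n330 .nil)
noncomputable def n332 : Strat := .move 761 n328 (.cons 798 n331 .nil)
noncomputable def n333 : Strat := .win 802 0 757
noncomputable def n334 : Strat := .move 801 n219 (.cons 756 n333 .nil)
noncomputable def n335 : Strat := .win 841 3 718
noncomputable def n336 : Strat := .win 720 5 716
noncomputable def n337 : Strat := .move 719 n335 (.cons 841 n336 .nil)
noncomputable def n338 : Strat := .move 800 n181 (.cons 755 n334 (.cons 801 n337 .nil))
noncomputable def n339 : Strat := .move 760 n327 (.cons 797 n332 (.cons 761 n338 .nil))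
noncomputable def n340 : Strat := .move 882 n16 (.cons 923 n339 .nil)
noncomputable def n341 : Strat := .move 759 n24 (.cons 718 n340 .nil)
noncomputable def n342 : Strat := .move 757 n22 (.cons 716 n341 .nil)
noncomputable def n343 : Strat := .move 838 n136 (.cons 883 n135 .nil)
noncomputable def n344 : Strat := .move 883 n238 (.cons 884 n237 .nil)
noncomputable def n345 : Strat := .win 798 1 756
noncomputable def n346 : Strat := .win 919 4 878
noncomputable def n347 : Strat := .move 920 n345 (.cons 798 n346 .nil)
noncomputable def n348 : Strat := .move 839 n343 (.cons 837 n344 (.cons 883 n347 .nil))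
noncomputable def n349 : Strat := .move 879 n236 (.cons 878 n348 .nil)
noncomputable def n350 : Strat := .move 757 n22 (.cons 716 n349 .nil)
noncomputable def n351 : Strat := .move 882 n16 (.cons 923 n350 .nil)
noncomputable def n352 : Strat := .move 880 n15 (.cons 921 n351 .nil)
noncomputable def n353 : Strat := .move 758 n103 (.cons 714 n326 (.cons 921 n342 (.cons 759 n352 .nil)))
noncomputable def n354 : Strat := .move 758 n259 (.cons 882 n84 (.cons 880 n61 (.cons 718 n274 .nil)))
noncomputable def n355 : Strat := .win 757 7 757
noncomputable def n356 : Strat := .win 839 7 798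
noncomputable def n357 : Strat := .win 759 3 758
noncomputable def n358 : Strat := .win 841 3 799
noncomputable def n359 : Strat := .move 800 n357 (.cons 759 n358 .nil)
noncomputable def n360 : Strat := .move 963 n356 (.cons 839 n359 .nil)
noncomputable def n361 : Strat := .move 798 n355 (.cons 757 n360 .nil)
noncomputable def n362 : Strat := .win 921 1 798
noncomputable def n363 : Strat := .win 1003 1 839
noncomputable def n364 : Strat := .move 962 n362 (.cons 921 n363 .nil)
noncomputable def n365 : Strat := .move 963 n358 (.cons 841 n364 .nil)
noncomputable def n366 : Strat := .move 800 n357 (.cons 759 n365 .nil)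
noncomputable def n367 : Strat := .win 923 6 799
noncomputable def n368 : Strat := .win 1005 6 840
noncomputable def n369 : Strat := .move 964 n367 (.cons 923 n368 .nil)
noncomputable def n370 : Strat := .move 963 n356 (.cons 839 n369 .nil)
noncomputable def n371 : Strat := .move 798 n355 (.cons 757 n370 .nil)
noncomputable def n372 : Strat := .win 842 0 797
noncomputable def n373 : Strat := .move 841 n372 (.cons 842 n283 .nil)
noncomputable def n374 : Strat := .win 801 4 797
noncomputable def n375 : Strat := .win 837 4 796
noncomputable def n376 : Strat := .move 838 n374 (.cons 801 n375 .nil)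
noncomputable def n377 : Strat := .win 838 4 797
noncomputable def n378 : Strat := .move 801 n163 (.cons 802 n377 .nil)
noncomputable def n379 : Strat := .win 880 7 756
noncomputable def n380 : Strat := .win 755 2 755
noncomputable def n381 : Strat := .move 756 n379 (.cons 880 n380 .nil)
noncomputable def n382 : Strat := .move 839 n376 (.cons 837 n378 (.cons 801 n381 .nil))
noncomputable def n383 : Strat := .move 797 n373 (.cons 796 n382 .nil)
noncomputable def n384 : Strat := .move 921 n66 (.cons 962 n383 .nil)
noncomputable def n385 : Strat := .move 800 n357 (.cons 759 n384 .nil)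
noncomputable def n386 : Strat := .move 798 n355 (.cons 757 n385 .nil)
noncomputable def n387 : Strat := .move 922 n361 (.cons 839 n366 (.cons 800 n371 (.cons 963 n386 .nil)))
noncomputable def n388 : Strat := .move 798 n355 (.cons 757 n356 .nil)
noncomputable def n389 : Strat := .move 963 n358 (.cons 841 n388 .nil)
noncomputable def n390 : Strat := .move 800 n357 (.cons 759 n389 .nil)
noncomputable def n391 : Strat := .win 758 6 758
noncomputable def n392 : Strat := .win 884 4 880
noncomputable def n393 : Strat := .win 920 5 879
noncomputable def n394 : Strat := .move 883 n392 (.cons 884 n393 .nil)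
noncomputable def n395 : Strat := .move 921 n66 (.cons 962 n394 .nil)
noncomputable def n396 : Strat := .move 882 n391 (.cons 758 n395 .nil)
noncomputable def n397 : Strat := .move 923 n58 (.cons 964 n396 .nil)
noncomputable def n398 : Strat := .move 922 n390 (.cons 963 n397 .nil)
noncomputable def n399 : Strat := .move 758 n65 (.cons 880 n57 .nil)
noncomputable def n400 : Strat := .move 921 n66 (.cons 962 n399 .nil)
noncomputable def n401 : Strat := .move 923 n58 (.cons 964 n400 .nil)
noncomputable def n402 : Strat := .move 758 n57 (.cons 882 n26 .nil)
noncomputable def n403 : Strat := .move 923 n58 (.cons 964 n402 .nil)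
noncomputable def n404 : Strat := .move 922 n401 (.cons 758 n366 (.cons 962 n403 .nil))
noncomputable def n405 : Strat := .move 963 n358 (.cons 841 n369 .nil)
noncomputable def n406 : Strat := .move 800 n357 (.cons 759 n405 .nil)
noncomputable def n407 : Strat := .move 839 n377 (.cons 838 n163 .nil)
noncomputable def n408 : Strat := .win 761 5 757
noncomputable def n409 : Strat := .win 841 3 759
noncomputable def n410 : Strat := .move 760 n408 (.cons 761 n409 .nil)
noncomputable def n411 : Strat := .move 801 n407 (.cons 802 n410 .nil)
noncomputable def n412 : Strat := .move 798 n355 (.cons 757 n411 .nil)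
noncomputable def n413 : Strat := .move 800 n357 (.cons 759 n412 .nil)
noncomputable def n414 : Strat := .move 882 n391 (.cons 758 n413 .nil)
noncomputable def n415 : Strat := .move 923 n58 (.cons 964 n414 .nil)
noncomputable def n416 : Strat := .move 922 n390 (.cons 841 n371 (.cons 757 n406 (.cons 963 n415 .nil)))
noncomputable def n417 : Strat := .win 758 1 757
noncomputable def n418 : Strat := .win 878 0 878
noncomputable def n419 : Strat := .win 924 2 879
noncomputable def n420 : Strat := .move 879 n418 (.cons 878 n419 .nil)
noncomputable def n421 : Strat := .move 880 n417 (.cons 758 n420 .nil)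
noncomputable def n422 : Strat := .move 923 n58 (.cons 964 n421 .nil)
noncomputable def n423 : Strat := .move 921 n66 (.cons 962 n422 .nil)
noncomputable def n424 : Strat := .move 963 n356 (.cons 839 n364 .nil)
noncomputable def n425 : Strat := .move 798 n355 (.cons 757 n424 .nil)
noncomputable def n426 : Strat := .move 922 n423 (.cons 924 n371 (.cons 923 n425 .nil))
noncomputable def n427 : Strat := .win 839 7 756
noncomputable def n428 : Strat := .move 756 n380 (.cons 755 n427 .nil)
noncomputable def n429 : Strat := .move 797 n373 (.cons 796 n428 .nil)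
noncomputable def n430 : Strat := .move 800 n357 (.cons 759 n429 .nil)
noncomputable def n431 : Strat := .move 798 n355 (.cons 757 n430 .nil)
noncomputable def n432 : Strat := .move 880 n417 (.cons 758 n431 .nil)
noncomputable def n433 : Strat := .move 921 n66 (.cons 962 n432 .nil)
noncomputable def n434 : Strat := .move 922 n361 (.cons 759 n425 (.cons 963 n433 (.cons 839 n366 .nil)))
noncomputable def n435 : Strat := .move 881 n316 (.cons 922 n353 (.cons 798 n354 (.cons 758 n387 (.cons 880 n398 (.cons 839 n404 (.cons 921 n416 (.cons 759 n426 (.cons 923 n434 .nil))))))))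
noncomputable def n436 : Strat := .move 881 n54 (.cons 675 n4 .nil)
noncomputable def n437 : Strat := .move 881 n33 (.cons 921 n42 .nil)
noncomputable def n438 : Strat := .move 717 n436 (.cons 718 n437 (.cons 881 n13 .nil))
noncomputable def n439 : Strat := .move 881 n103 (.cons 714 n326 (.cons 921 n342 (.cons 759 n352 .nil)))
noncomputable def n440 : Strat := .win 881 7 716
noncomputable def n441 : Strat := .win 755 5 714
noncomputable def n442 : Strat := .move 756 n108 (.cons 719 n441 .nil)
noncomputable def n443 : Strat := .move 757 n440 (.cons 881 n442 .nil)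
noncomputable def n444 : Strat := .move 718 n2 (.cons 677 n443 .nil)
noncomputable def n445 : Strat := .move 716 n0 (.cons 675 n444 .nil)
noncomputable def n446 : Strat := .win 674 7 674
noncomputable def n447 : Strat := .win 713 0 713
noncomputable def n448 : Strat := .move 714 n447 (.cons 713 n200 .nil)
noncomputable def n449 : Strat := .move 715 n446 (.cons 674 n448 .nil)
noncomputable def n450 : Strat := .move 798 n281 (.cons 676 n449 .nil)
noncomputable def n451 : Strat := .move 839 n7 (.cons 880 n450 .nil)
noncomputable def n452 : Strat := .move 757 n440 (.cons 881 n451 .nil)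
noncomputable def n453 : Strat := .move 716 n0 (.cons 675 n452 .nil)
noncomputable def n454 : Strat := .move 717 n445 (.cons 881 n79 (.cons 677 n453 .nil))
noncomputable def n455 : Strat := .move 717 n32 (.cons 676 n148 .nil)
noncomputable def n456 : Strat := .move 718 n2 (.cons 677 n442 .nil)
noncomputable def n457 : Strat := .move 757 n440 (.cons 881 n456 .nil)
noncomputable def n458 : Strat := .move 716 n0 (.cons 675 n457 .nil)
noncomputable def n459 : Strat := .move 717 n13 (.cons 676 n458 .nil)
noncomputable def n460 : Strat := .win 800 6 718
noncomputable def n461 : Strat := .move 883 n166 (.cons 884 n460 .nil)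
noncomputable def n462 : Strat := .move 798 n152 (.cons 797 n151 .nil)
noncomputable def n463 : Strat := .move 842 n461 (.cons 800 n462 .nil)
noncomputable def n464 : Strat := .move 839 n7 (.cons 880 n463 .nil)
noncomputable def n465 : Strat := .move 841 n9 (.cons 882 n464 .nil)
noncomputable def n466 : Strat := .move 759 n142 (.cons 881 n465 .nil)
noncomputable def n467 : Strat := .move 718 n2 (.cons 677 n466 .nil)
noncomputable def n468 : Strat := .move 717 n32 (.cons 676 n467 (.cons 880 n40 (.cons 882 n79 .nil)))
noncomputable def n469 : Strat := .move 717 n437 (.cons 882 n49 (.cons 880 n74 .nil))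
noncomputable def n470 : Strat := .move 760 n144 (.cons 761 n143 .nil)
noncomputable def n471 : Strat := .move 759 n142 (.cons 881 n470 .nil)
noncomputable def n472 : Strat := .move 718 n2 (.cons 677 n471 .nil)
noncomputable def n473 : Strat := .move 716 n0 (.cons 675 n472 .nil)
noncomputable def n474 : Strat := .move 717 n473 (.cons 716 n40 (.cons 718 n74 .nil))
noncomputable def n475 : Strat := .move 758 n438 (.cons 717 n439 (.cons 881 n122 (.cons 841 n454 (.cons 757 n455 (.cons 759 n459 (.cons 716 n468 (.cons 718 n469 (.cons 880 n474 .nil))))))))
noncomputable def n476 : Strat := .move 758 n65 (.cons 880 n26 .nil)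
noncomputable def n477 : Strat := .move 921 n66 (.cons 962 n476 .nil)
noncomputable def n478 : Strat := .move 922 n361 (.cons 798 n477 (.cons 800 n425 .nil))
noncomputable def n479 : Strat := .win 963 7 798
noncomputable def n480 : Strat := .move 838 n374 (.cons 801 n160 .nil)
noncomputable def n481 : Strat := .move 839 n479 (.cons 963 n480 .nil)
noncomputable def n482 : Strat := .move 800 n357 (.cons 759 n481 .nil)
noncomputable def n483 : Strat := .move 798 n355 (.cons 757 n482 .nil)
noncomputable def n484 : Strat := .win 756 7 756
noncomputable def n485 : Strat := .win 795 0 795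
noncomputable def n486 : Strat := .win 841 0 796
noncomputable def n487 : Strat := .move 796 n485 (.cons 795 n486 .nil)
noncomputable def n488 : Strat := .move 797 n484 (.cons 756 n487 .nil)
noncomputable def n489 : Strat := .move 880 n417 (.cons 758 n488 .nil)
noncomputable def n490 : Strat := .move 921 n66 (.cons 962 n489 .nil)
noncomputable def n491 : Strat := .move 839 n479 (.cons 963 n490 .nil)
noncomputable def n492 : Strat := .move 798 n355 (.cons 757 n491 .nil)
noncomputable def n493 : Strat := .move 879 n419 (.cons 924 n418 .nil)
noncomputable def n494 : Strat := .move 923 n58 (.cons 964 n493 .nil)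
noncomputable def n495 : Strat := .move 880 n417 (.cons 758 n494 .nil)
noncomputable def n496 : Strat := .move 921 n66 (.cons 962 n495 .nil)
noncomputable def n497 : Strat := .move 800 n357 (.cons 759 n496 .nil)
noncomputable def n498 : Strat := .move 798 n355 (.cons 757 n497 .nil)
noncomputable def n499 : Strat := .move 922 n483 (.cons 757 n406 (.cons 759 n492 (.cons 963 n498 .nil)))
noncomputable def n500 : Strat := .move 718 n3 (.cons 759 n2 .nil)
noncomputable def n501 : Strat := .move 717 n17 (.cons 839 n500 .nil)
noncomputable def n502 : Strat := .move 880 n15 (.cons 921 n501 .nil)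
noncomputable def n503 : Strat := .win 721 5 717
noncomputable def n504 : Strat := .win 719 5 716
noncomputable def n505 : Strat := .move 720 n503 (.cons 721 n504 .nil)
noncomputable def n506 : Strat := .move 761 n329 (.cons 803 n505 .nil)
noncomputable def n507 : Strat := .move 802 n330 (.cons 801 n506 .nil)
noncomputable def n508 : Strat := .win 798 4 756
noncomputable def n509 : Strat := .move 756 n91 (.cons 796 n89 .nil)
noncomputable def n510 : Strat := .move 797 n508 (.cons 798 n509 .nil)
noncomputable def n511 : Strat := .move 760 n327 (.cons 797 n332 (.cons 798 n507 (.cons 761 n510 .nil)))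
noncomputable def n512 : Strat := .move 757 n22 (.cons 716 n511 .nil)
noncomputable def n513 : Strat := .move 759 n24 (.cons 718 n512 .nil)
noncomputable def n514 : Strat := .move 716 n1 (.cons 757 n0 .nil)
noncomputable def n515 : Strat := .move 717 n17 (.cons 839 n514 .nil)
noncomputable def n516 : Strat := .move 880 n15 (.cons 921 n515 .nil)
noncomputable def n517 : Strat := .move 758 n502 (.cons 717 n103 (.cons 839 n513 (.cons 759 n516 .nil)))
noncomputable def n518 : Strat := .move 758 n84 (.cons 718 n179 (.cons 921 n224 .nil))
noncomputable def n519 : Strat := .move 923 n58 (.cons 964 n420 .nil)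
noncomputable def n520 : Strat := .move 880 n417 (.cons 758 n519 .nil)
noncomputable def n521 : Strat := .move 921 n66 (.cons 962 n520 .nil)
noncomputable def n522 : Strat := .move 922 n366 (.cons 1003 n406 (.cons 841 n521 .nil))
noncomputable def n523 : Strat := .move 963 n358 (.cons 841 n356 .nil)
noncomputable def n524 : Strat := .move 800 n357 (.cons 759 n523 .nil)
noncomputable def n525 : Strat := .move 798 n355 (.cons 757 n524 .nil)
noncomputable def n526 : Strat := .move 841 n283 (.cons 796 n372 .nil)
noncomputable def n527 : Strat := .win 754 2 754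
noncomputable def n528 : Strat := .win 756 2 755
noncomputable def n529 : Strat := .move 755 n527 (.cons 754 n528 .nil)
noncomputable def n530 : Strat := .move 796 n486 (.cons 841 n529 .nil)
noncomputable def n531 : Strat := .win 838 4 796
noncomputable def n532 : Strat := .win 836 4 795
noncomputable def n533 : Strat := .move 796 n532 (.cons 836 n529 .nil)
noncomputable def n534 : Strat := .move 837 n531 (.cons 838 n533 .nil)
noncomputable def n535 : Strat := .win 841 0 797
noncomputable def n536 : Strat := .win 843 0 798
noncomputable def n537 : Strat := .win 839 4 797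
noncomputable def n538 : Strat := .move 838 n537 (.cons 839 n375 .nil)
noncomputable def n539 : Strat := .move 801 n536 (.cons 843 n538 .nil)
noncomputable def n540 : Strat := .move 842 n535 (.cons 841 n539 .nil)
noncomputable def n541 : Strat := .move 797 n526 (.cons 842 n530 (.cons 841 n534 (.cons 796 n540 .nil)))
noncomputable def n542 : Strat := .move 800 n357 (.cons 759 n541 .nil)
noncomputable def n543 : Strat := .move 798 n355 (.cons 757 n542 .nil)
noncomputable def n544 : Strat := .move 922 n525 (.cons 798 n366 (.cons 800 n371 (.cons 963 n543 .nil)))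
noncomputable def n545 : Strat := .move 922 n425 (.cons 1003 n492 (.cons 798 n521 (.cons 921 n371 .nil)))
noncomputable def n546 : Strat := .move 922 n525 (.cons 759 n371 (.cons 798 n406 (.cons 963 n543 .nil)))
noncomputable def n547 : Strat := .move 881 n478 (.cons 1003 n499 (.cons 922 n517 (.cons 798 n518 (.cons 757 n522 (.cons 880 n544 (.cons 759 n545 (.cons 921 n546 .nil)))))))
noncomputable def n548 : Strat := .move 923 n58 (.cons 964 n399 .nil)
noncomputable def n549 : Strat := .move 921 n66 (.cons 962 n548 .nil)
noncomputable def n550 : Strat := .move 922 n366 (.cons 963 n549 (.cons 921 n390 .nil))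
noncomputable def n551 : Strat := .move 758 n227 (.cons 923 n64 (.cons 717 n61 .nil))
noncomputable def n552 : Strat := .win 883 5 879
noncomputable def n553 : Strat := .win 919 5 878
noncomputable def n554 : Strat := .move 882 n552 (.cons 883 n553 .nil)
noncomputable def n555 : Strat := .win 880 1 797
noncomputable def n556 : Strat := .win 960 4 919
noncomputable def n557 : Strat := .move 961 n555 (.cons 880 n556 .nil)
noncomputable def n558 : Strat := .move 920 n554 (.cons 919 n557 .nil)
noncomputable def n559 : Strat := .move 839 n479 (.cons 963 n558 .nil)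
noncomputable def n560 : Strat := .move 798 n355 (.cons 757 n559 .nil)
noncomputable def n561 : Strat := .move 923 n58 (.cons 964 n560 .nil)
noncomputable def n562 : Strat := .move 921 n66 (.cons 962 n561 .nil)
noncomputable def n563 : Strat := .move 801 n377 (.cons 838 n163 .nil)
noncomputable def n564 : Strat := .move 839 n563 (.cons 802 n376 (.cons 838 n381 .nil))
noncomputable def n565 : Strat := .move 797 n373 (.cons 796 n564 .nil)
noncomputable def n566 : Strat := .move 921 n66 (.cons 962 n565 .nil)
noncomputable def n567 : Strat := .move 798 n355 (.cons 757 n566 .nil)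
noncomputable def n568 : Strat := .move 800 n357 (.cons 759 n567 .nil)
noncomputable def n569 : Strat := .move 922 n361 (.cons 800 n562 (.cons 798 n366 (.cons 963 n568 .nil)))
noncomputable def n570 : Strat := .move 882 n391 (.cons 758 n394 .nil)
noncomputable def n571 : Strat := .move 921 n66 (.cons 962 n570 .nil)
noncomputable def n572 : Strat := .move 923 n58 (.cons 964 n571 .nil)
noncomputable def n573 : Strat := .move 922 n406 (.cons 841 n572 (.cons 923 n390 .nil))
noncomputable def n574 : Strat := .win 963 1 799
noncomputable def n575 : Strat := .move 797 n372 (.cons 842 n283 .nil)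
noncomputable def n576 : Strat := .move 798 n355 (.cons 757 n575 .nil)
noncomputable def n577 : Strat := .move 841 n574 (.cons 963 n576 .nil)
noncomputable def n578 : Strat := .move 800 n357 (.cons 759 n577 .nil)
noncomputable def n579 : Strat := .move 882 n391 (.cons 758 n578 .nil)
noncomputable def n580 : Strat := .move 923 n58 (.cons 964 n579 .nil)
noncomputable def n581 : Strat := .move 922 n572 (.cons 923 n366 (.cons 962 n580 .nil))
noncomputable def n582 : Strat := .win 963 6 798
noncomputable def n583 : Strat := .move 839 n582 (.cons 963 n488 .nil)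
noncomputable def n584 : Strat := .move 798 n355 (.cons 757 n583 .nil)
noncomputable def n585 : Strat := .move 880 n417 (.cons 758 n584 .nil)
noncomputable def n586 : Strat := .move 921 n66 (.cons 962 n585 .nil)
noncomputable def n587 : Strat := .move 922 n371 (.cons 798 n572 (.cons 964 n586 .nil))
noncomputable def n588 : Strat := .win 1045 3 881
noncomputable def n589 : Strat := .win 841 3 840
noncomputable def n590 : Strat := .move 1004 n588 (.cons 1045 n589 .nil)
noncomputable def n591 : Strat := .move 963 n356 (.cons 839 n590 .nil)
noncomputable def n592 : Strat := .move 798 n355 (.cons 757 n591 .nil)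
noncomputable def n593 : Strat := .move 882 n391 (.cons 758 n592 .nil)
noncomputable def n594 : Strat := .move 923 n58 (.cons 964 n593 .nil)
noncomputable def n595 : Strat := .move 800 n357 (.cons 759 n378 .nil)
noncomputable def n596 : Strat := .move 839 n479 (.cons 963 n595 .nil)
noncomputable def n597 : Strat := .move 798 n355 (.cons 757 n596 .nil)
noncomputable def n598 : Strat := .move 923 n58 (.cons 964 n597 .nil)
noncomputable def n599 : Strat := .move 922 n390 (.cons 800 n594 (.cons 757 n406 (.cons 963 n415 (.cons 841 n598 .nil))))
noncomputable def n600 : Strat := .move 839 n582 (.cons 963 n595 .nil)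
noncomputable def n601 : Strat := .move 798 n355 (.cons 757 n600 .nil)
noncomputable def n602 : Strat := .move 880 n417 (.cons 758 n601 .nil)
noncomputable def n603 : Strat := .move 921 n66 (.cons 962 n602 .nil)
noncomputable def n604 : Strat := .move 922 n390 (.cons 839 n366 (.cons 963 n433 (.cons 800 n586 (.cons 841 n603 .nil))))
noncomputable def n605 : Strat := .move 922 n423 (.cons 921 n598 (.cons 964 n603 .nil))
noncomputable def n606 : Strat := .move 797 n294 (.cons 796 n90 .nil)
noncomputable def n607 : Strat := .move 759 n24 (.cons 718 n606 .nil)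
noncomputable def n608 : Strat := .win 715 7 715
noncomputable def n609 : Strat := .win 800 0 755
noncomputable def n610 : Strat := .win 754 0 754
noncomputable def n611 : Strat := .move 755 n609 (.cons 800 n610 .nil)
noncomputable def n612 : Strat := .move 756 n608 (.cons 715 n611 .nil)
noncomputable def n613 : Strat := .move 839 n134 (.cons 717 n612 .nil)
noncomputable def n614 : Strat := .move 880 n15 (.cons 921 n613 .nil)
noncomputable def n615 : Strat := .move 757 n607 (.cons 759 n614 .nil)
noncomputable def n616 : Strat := .move 717 n2 (.cons 677 n42 .nil)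
noncomputable def n617 : Strat := .move 718 n3 (.cons 759 n616 .nil)
noncomputable def n618 : Strat := .win 800 0 797
noncomputable def n619 : Strat := .move 797 n618 (.cons 800 n283 .nil)
noncomputable def n620 : Strat := .move 842 n151 (.cons 843 n619 .nil)
noncomputable def n621 : Strat := .move 841 n126 (.cons 717 n620 .nil)
noncomputable def n622 : Strat := .move 882 n16 (.cons 923 n621 .nil)
noncomputable def n623 : Strat := .move 757 n607 (.cons 797 n617 (.cons 759 n622 .nil))
noncomputable def n624 : Strat := .move 715 n97 (.cons 714 n96 .nil)
noncomputable def n625 : Strat := .move 756 n611 (.cons 754 n89 (.cons 800 n624 .nil))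
noncomputable def n626 : Strat := .move 759 n24 (.cons 718 n625 .nil)
noncomputable def n627 : Strat := .move 880 n15 (.cons 921 n626 .nil)
noncomputable def n628 : Strat := .win 839 1 756
noncomputable def n629 : Strat := .move 920 n346 (.cons 919 n628 .nil)
noncomputable def n630 : Strat := .move 879 n629 (.cons 839 n236 .nil)
noncomputable def n631 : Strat := .move 882 n16 (.cons 923 n630 .nil)
noncomputable def n632 : Strat := .move 880 n15 (.cons 921 n631 .nil)
noncomputable def n633 : Strat := .move 757 n607 (.cons 797 n627 (.cons 759 n632 .nil))
noncomputable def n634 : Strat := .move 757 n614 (.cons 839 n617 (.cons 717 n627 .nil))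
noncomputable def n635 : Strat := .move 760 n94 (.cons 797 n93 .nil)
noncomputable def n636 : Strat := .move 759 n24 (.cons 718 n635 .nil)
noncomputable def n637 : Strat := .move 839 n134 (.cons 717 n636 .nil)
noncomputable def n638 : Strat := .move 880 n15 (.cons 921 n637 .nil)
noncomputable def n639 : Strat := .win 920 1 756
noncomputable def n640 : Strat := .win 842 4 838
noncomputable def n641 : Strat := .move 841 n640 (.cons 842 n235 .nil)
noncomputable def n642 : Strat := .move 879 n639 (.cons 920 n641 .nil)
noncomputable def n643 : Strat := .move 839 n134 (.cons 717 n642 .nil)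
noncomputable def n644 : Strat := .move 880 n15 (.cons 921 n643 .nil)
noncomputable def n645 : Strat := .move 757 n638 (.cons 717 n607 (.cons 759 n644 .nil))
noncomputable def n646 : Strat := .move 882 n16 (.cons 923 n343 .nil)
noncomputable def n647 : Strat := .move 839 n134 (.cons 717 n646 .nil)
noncomputable def n648 : Strat := .move 880 n15 (.cons 921 n647 .nil)
noncomputable def n649 : Strat := .move 798 n615 (.cons 839 n623 (.cons 717 n633 (.cons 797 n634 (.cons 800 n645 (.cons 757 n648 .nil)))))
noncomputable def n650 : Strat := .move 717 n18 (.cons 841 n500 .nil)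
noncomputable def n651 : Strat := .move 882 n16 (.cons 923 n650 .nil)
noncomputable def n652 : Strat := .move 758 n649 (.cons 923 n502 (.cons 759 n21 (.cons 921 n651 (.cons 717 n326 .nil))))
noncomputable def n653 : Strat := .move 881 n550 (.cons 798 n551 (.cons 758 n569 (.cons 880 n573 (.cons 839 n581 (.cons 759 n587 (.cons 921 n599 (.cons 923 n604 (.cons 841 n605 (.cons 922 n652 .nil)))))))))
noncomputable def n654 : Strat := .move 922 n371 (.cons 798 n397 (.cons 923 n361 .nil))
noncomputable def n655 : Strat := .move 758 n21 (.cons 921 n56 (.cons 717 n69 .nil))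
noncomputable def n656 : Strat := .move 922 n425 (.cons 839 n423 (.cons 921 n361 .nil))
noncomputable def n657 : Strat := .win 760 3 759
noncomputable def n658 : Strat := .win 803 4 799
noncomputable def n659 : Strat := .win 839 4 798
noncomputable def n660 : Strat := .move 802 n658 (.cons 803 n659 .nil)
noncomputable def n661 : Strat := .move 801 n657 (.cons 760 n660 .nil)
noncomputable def n662 : Strat := .move 841 n574 (.cons 963 n661 .nil)
noncomputable def n663 : Strat := .move 800 n357 (.cons 759 n662 .nil)
noncomputable def n664 : Strat := .move 882 n391 (.cons 758 n663 .nil)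
noncomputable def n665 : Strat := .move 923 n58 (.cons 964 n664 .nil)
noncomputable def n666 : Strat := .move 922 n361 (.cons 798 n665 (.cons 963 n415 (.cons 841 n371 (.cons 839 n580 .nil))))
noncomputable def n667 : Strat := .win 1045 7 880
noncomputable def n668 : Strat := .win 839 7 839
noncomputable def n669 : Strat := .move 1004 n667 (.cons 1045 n668 .nil)
noncomputable def n670 : Strat := .move 963 n358 (.cons 841 n669 .nil)
noncomputable def n671 : Strat := .move 800 n357 (.cons 759 n670 .nil)
noncomputable def n672 : Strat := .move 880 n417 (.cons 758 n671 .nil)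
noncomputable def n673 : Strat := .move 921 n66 (.cons 962 n672 .nil)
noncomputable def n674 : Strat := .win 963 3 799
noncomputable def n675 : Strat := .move 841 n674 (.cons 963 n576 .nil)
noncomputable def n676 : Strat := .move 800 n357 (.cons 759 n675 .nil)
noncomputable def n677 : Strat := .move 921 n66 (.cons 962 n676 .nil)
noncomputable def n678 : Strat := .move 922 n361 (.cons 798 n673 (.cons 963 n433 (.cons 759 n425 (.cons 839 n677 .nil))))
noncomputable def n679 : Strat := .move 923 n58 (.cons 964 n677 .nil)
noncomputable def n680 : Strat := .win 879 2 879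
noncomputable def n681 : Strat := .win 925 2 880
noncomputable def n682 : Strat := .move 880 n680 (.cons 879 n681 .nil)
noncomputable def n683 : Strat := .win 882 6 800
noncomputable def n684 : Strat := .win 966 0 921
noncomputable def n685 : Strat := .move 965 n683 (.cons 882 n684 .nil)
noncomputable def n686 : Strat := .move 924 n682 (.cons 925 n685 .nil)
noncomputable def n687 : Strat := .move 841 n674 (.cons 963 n686 .nil)
noncomputable def n688 : Strat := .move 800 n357 (.cons 759 n687 .nil)
noncomputable def n689 : Strat := .move 921 n66 (.cons 962 n688 .nil)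
noncomputable def n690 : Strat := .move 923 n58 (.cons 964 n689 .nil)
noncomputable def n691 : Strat := .move 922 n371 (.cons 839 n679 (.cons 798 n690 (.cons 964 n525 (.cons 963 n386 .nil))))
noncomputable def n692 : Strat := .move 922 n397 (.cons 923 n673 (.cons 921 n665 (.cons 758 n690 .nil)))
noncomputable def n693 : Strat := .move 717 n33 (.cons 921 n42 .nil)
noncomputable def n694 : Strat := .move 717 n18 (.cons 841 n514 .nil)
noncomputable def n695 : Strat := .move 882 n16 (.cons 923 n694 .nil)
noncomputable def n696 : Strat := .move 758 n693 (.cons 921 n695 (.cons 923 n516 (.cons 717 n352 .nil)))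
noncomputable def n697 : Strat := .move 922 n423 (.cons 921 n371 (.cons 964 n603 .nil))
noncomputable def n698 : Strat := .move 922 n572 (.cons 923 n677 (.cons 962 n580 .nil))
noncomputable def n699 : Strat := .move 881 n654 (.cons 800 n655 (.cons 882 n656 (.cons 921 n666 (.cons 923 n678 (.cons 758 n691 (.cons 798 n692 (.cons 922 n696 (.cons 841 n697 (.cons 839 n698 .nil)))))))))
noncomputable def n700 : Strat := .move 758 n28 (.cons 757 n64 (.cons 759 n69 .nil))
noncomputable def n701 : Strat := .move 758 n57 (.cons 882 n51 .nil)
noncomputable def n702 : Strat := .move 923 n58 (.cons 964 n701 .nil)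
noncomputable def n703 : Strat := .move 922 n549 (.cons 962 n702 (.cons 758 n425 .nil))
noncomputable def n704 : Strat := .move 838 n160 (.cons 837 n374 .nil)
noncomputable def n705 : Strat := .move 839 n479 (.cons 963 n704 .nil)
noncomputable def n706 : Strat := .move 798 n355 (.cons 757 n705 .nil)
noncomputable def n707 : Strat := .move 800 n357 (.cons 759 n706 .nil)
noncomputable def n708 : Strat := .move 924 n681 (.cons 925 n680 .nil)
noncomputable def n709 : Strat := .win 839 1 797
noncomputable def n710 : Strat := .move 961 n709 (.cons 839 n556 .nil)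
noncomputable def n711 : Strat := .move 880 n493 (.cons 878 n708 (.cons 924 n710 .nil))
noncomputable def n712 : Strat := .move 920 n554 (.cons 919 n711 .nil)
noncomputable def n713 : Strat := .move 798 n355 (.cons 757 n712 .nil)
noncomputable def n714 : Strat := .move 923 n58 (.cons 964 n713 .nil)
noncomputable def n715 : Strat := .move 921 n66 (.cons 962 n714 .nil)
noncomputable def n716 : Strat := .move 882 n553 (.cons 919 n552 .nil)
noncomputable def n717 : Strat := .win 882 5 878
noncomputable def n718 : Strat := .win 877 2 877
noncomputable def n719 : Strat := .win 879 2 878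
noncomputable def n720 : Strat := .move 878 n718 (.cons 877 n719 .nil)
noncomputable def n721 : Strat := .move 919 n717 (.cons 882 n720 .nil)
noncomputable def n722 : Strat := .win 959 4 918
noncomputable def n723 : Strat := .win 961 4 919
noncomputable def n724 : Strat := .move 960 n722 (.cons 959 n723 .nil)
noncomputable def n725 : Strat := .move 919 n718 (.cons 877 n724 .nil)
noncomputable def n726 : Strat := .move 878 n719 (.cons 879 n725 .nil)
noncomputable def n727 : Strat := .win 882 5 879
noncomputable def n728 : Strat := .win 884 5 880
noncomputable def n729 : Strat := .win 880 2 879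
noncomputable def n730 : Strat := .win 878 2 878
noncomputable def n731 : Strat := .move 879 n729 (.cons 880 n730 .nil)
noncomputable def n732 : Strat := .move 924 n728 (.cons 884 n731 .nil)
noncomputable def n733 : Strat := .move 883 n727 (.cons 882 n732 .nil)
noncomputable def n734 : Strat := .move 920 n716 (.cons 883 n721 (.cons 882 n726 (.cons 919 n733 .nil)))
noncomputable def n735 : Strat := .move 923 n58 (.cons 964 n734 .nil)
noncomputable def n736 : Strat := .move 921 n66 (.cons 962 n735 .nil)
noncomputable def n737 : Strat := .move 922 n707 (.cons 963 n715 (.cons 839 n736 .nil))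
noncomputable def n738 : Strat := .move 880 n15 (.cons 921 n138 .nil)
noncomputable def n739 : Strat := .move 882 n16 (.cons 923 n738 .nil)
noncomputable def n740 : Strat := .move 800 n88 (.cons 755 n87 .nil)
noncomputable def n741 : Strat := .win 713 2 713
noncomputable def n742 : Strat := .win 715 2 714
noncomputable def n743 : Strat := .move 714 n741 (.cons 713 n742 .nil)
noncomputable def n744 : Strat := .move 755 n609 (.cons 800 n743 .nil)
noncomputable def n745 : Strat := .move 798 n610 (.cons 754 n90 .nil)
noncomputable def n746 : Strat := .move 755 n745 (.cons 760 n743 .nil)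
noncomputable def n747 : Strat := .move 797 n91 (.cons 796 n746 .nil)
noncomputable def n748 : Strat := .win 800 0 756
noncomputable def n749 : Strat := .move 797 n508 (.cons 798 n91 .nil)
noncomputable def n750 : Strat := .move 760 n333 (.cons 802 n749 .nil)
noncomputable def n751 : Strat := .move 801 n748 (.cons 800 n750 .nil)
noncomputable def n752 : Strat := .move 756 n740 (.cons 801 n744 (.cons 800 n747 (.cons 755 n751 .nil)))
noncomputable def n753 : Strat := .move 759 n24 (.cons 718 n752 .nil)
noncomputable def n754 : Strat := .move 757 n22 (.cons 716 n753 .nil)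
noncomputable def n755 : Strat := .move 758 n739 (.cons 921 n754 .nil)
noncomputable def n756 : Strat := .move 880 n681 (.cons 925 n680 .nil)
noncomputable def n757 : Strat := .win 880 2 880
noncomputable def n758 : Strat := .win 967 0 922
noncomputable def n759 : Strat := .win 965 0 921
noncomputable def n760 : Strat := .move 966 n758 (.cons 967 n759 .nil)
noncomputable def n761 : Strat := .move 925 n757 (.cons 880 n760 .nil)
noncomputable def n762 : Strat := .move 920 n731 (.cons 878 n554 .nil)
noncomputable def n763 : Strat := .win 885 5 881
noncomputable def n764 : Strat := .win 883 5 880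
noncomputable def n765 : Strat := .move 884 n763 (.cons 885 n764 .nil)
noncomputable def n766 : Strat := .move 925 n760 (.cons 965 n765 .nil)
noncomputable def n767 : Strat := .move 924 n756 (.cons 879 n761 (.cons 925 n762 (.cons 880 n766 .nil)))
noncomputable def n768 : Strat := .move 923 n58 (.cons 964 n767 .nil)
noncomputable def n769 : Strat := .move 921 n66 (.cons 962 n768 .nil)
noncomputable def n770 : Strat := .move 800 n357 (.cons 759 n769 .nil)
noncomputable def n771 : Strat := .move 922 n549 (.cons 882 n521 (.cons 921 n403 (.cons 923 n477 (.cons 758 n770 .nil))))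
noncomputable def n772 : Strat := .move 800 n357 (.cons 759 n480 .nil)
noncomputable def n773 : Strat := .move 839 n479 (.cons 963 n772 .nil)
noncomputable def n774 : Strat := .move 798 n355 (.cons 757 n773 .nil)
noncomputable def n775 : Strat := .move 922 n371 (.cons 757 n403 (.cons 964 n774 .nil))
noncomputable def n776 : Strat := .move 881 n700 (.cons 716 n605 (.cons 759 n703 (.cons 758 n737 (.cons 922 n755 (.cons 757 n771 (.cons 921 n775 .nil))))))
noncomputable def n777 : Strat := .move 759 n142 (.cons 881 n145 .nil)
noncomputable def n778 : Strat := .move 716 n0 (.cons 675 n777 .nil)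
noncomputable def n779 : Strat := .move 717 n2 (.cons 677 n778 .nil)
noncomputable def n780 : Strat := .move 756 n441 (.cons 755 n108 .nil)
noncomputable def n781 : Strat := .move 757 n440 (.cons 881 n780 .nil)
noncomputable def n782 : Strat := .move 716 n0 (.cons 675 n781 .nil)
noncomputable def n783 : Strat := .move 717 n2 (.cons 677 n782 .nil)
noncomputable def n784 : Strat := .move 839 n8 (.cons 798 n7 .nil)
noncomputable def n785 : Strat := .move 676 n10 (.cons 800 n784 .nil)
noncomputable def n786 : Strat := .move 841 n9 (.cons 882 n785 .nil)
noncomputable def n787 : Strat := .move 716 n0 (.cons 675 n786 .nil)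
noncomputable def n788 : Strat := .move 717 n2 (.cons 677 n787 .nil)
noncomputable def n789 : Strat := .win 678 3 677
noncomputable def n790 : Strat := .win 721 4 717
noncomputable def n791 : Strat := .win 757 4 716
noncomputable def n792 : Strat := .move 720 n790 (.cons 721 n791 .nil)
noncomputable def n793 : Strat := .move 719 n789 (.cons 678 n792 .nil)
noncomputable def n794 : Strat := .move 800 n193 (.cons 676 n793 .nil)
noncomputable def n795 : Strat := .move 841 n9 (.cons 882 n794 .nil)
noncomputable def n796 : Strat := .move 759 n142 (.cons 881 n795 .nil)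
noncomputable def n797 : Strat := .move 717 n778 (.cons 759 n782 (.cons 881 n787 (.cons 675 n796 .nil)))
noncomputable def n798 : Strat := .move 717 n2 (.cons 677 n796 .nil)
noncomputable def n799 : Strat := .win 636 1 635
noncomputable def n800 : Strat := .win 800 1 676
noncomputable def n801 : Strat := .move 677 n799 (.cons 636 n800 .nil)
noncomputable def n802 : Strat := .move 759 n142 (.cons 881 n801 .nil)
noncomputable def n803 : Strat := .move 718 n779 (.cons 759 n783 (.cons 881 n788 (.cons 677 n797 (.cons 675 n798 (.cons 717 n802 .nil)))))
noncomputable def n804 : Strat := .move 677 n37 (.cons 636 n36 .nil)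
noncomputable def n805 : Strat := .move 676 n8 (.cons 798 n804 .nil)
noncomputable def n806 : Strat := .move 839 n7 (.cons 880 n805 .nil)
noncomputable def n807 : Strat := .move 717 n18 (.cons 841 n806 .nil)
noncomputable def n808 : Strat := .move 882 n16 (.cons 923 n807 .nil)
noncomputable def n809 : Strat := .win 760 5 756
noncomputable def n810 : Strat := .move 797 n294 (.cons 796 n809 .nil)
noncomputable def n811 : Strat := .win 797 5 756
noncomputable def n812 : Strat := .move 760 n93 (.cons 761 n811 .nil)
noncomputable def n813 : Strat := .win 760 4 757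
noncomputable def n814 : Strat := .move 717 n281 (.cons 676 n7 .nil)
noncomputable def n815 : Strat := .move 839 n814 (.cons 880 n563 .nil)
noncomputable def n816 : Strat := .move 761 n813 (.cons 760 n815 .nil)
noncomputable def n817 : Strat := .move 797 n294 (.cons 796 n815 .nil)
noncomputable def n818 : Strat := .move 798 n810 (.cons 796 n812 (.cons 797 n816 (.cons 760 n817 .nil)))
noncomputable def n819 : Strat := .move 800 n187 (.cons 922 n818 .nil)
noncomputable def n820 : Strat := .move 759 n24 (.cons 718 n819 .nil)
noncomputable def n821 : Strat := .move 675 n46 (.cons 634 n45 .nil)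
noncomputable def n822 : Strat := .move 676 n8 (.cons 798 n821 .nil)
noncomputable def n823 : Strat := .move 839 n7 (.cons 880 n822 .nil)
noncomputable def n824 : Strat := .move 717 n18 (.cons 841 n823 .nil)
noncomputable def n825 : Strat := .move 882 n16 (.cons 923 n824 .nil)
noncomputable def n826 : Strat := .move 881 n292 (.cons 841 n61 (.cons 759 n808 (.cons 882 n820 (.cons 718 n825 .nil))))
noncomputable def n827 : Strat := .win 878 4 837
noncomputable def n828 : Strat := .win 798 1 715
noncomputable def n829 : Strat := .move 879 n827 (.cons 878 n828 .nil)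
noncomputable def n830 : Strat := .move 800 n159 (.cons 801 n160 .nil)
noncomputable def n831 : Strat := .move 838 n829 (.cons 798 n830 .nil)
noncomputable def n832 : Strat := .move 841 n9 (.cons 882 n831 .nil)
noncomputable def n833 : Strat := .move 839 n7 (.cons 880 n832 .nil)
noncomputable def n834 : Strat := .move 757 n440 (.cons 881 n833 .nil)
noncomputable def n835 : Strat := .move 716 n0 (.cons 675 n834 .nil)
noncomputable def n836 : Strat := .move 717 n32 (.cons 798 n74 (.cons 841 n453 (.cons 676 n835 .nil)))
noncomputable def n837 : Strat := .move 718 n2 (.cons 677 n796 .nil)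
noncomputable def n838 : Strat := .move 717 n148 (.cons 881 n74 (.cons 675 n837 .nil))
noncomputable def n839 : Strat := .win 800 6 635
noncomputable def n840 : Strat := .win 594 6 594
noncomputable def n841 : Strat := .move 635 n839 (.cons 800 n840 .nil)
noncomputable def n842 : Strat := .move 676 n8 (.cons 798 n841 .nil)
noncomputable def n843 : Strat := .move 839 n7 (.cons 880 n842 .nil)
noncomputable def n844 : Strat := .move 759 n142 (.cons 881 n843 .nil)
noncomputable def n845 : Strat := .move 718 n2 (.cons 677 n844 .nil)
noncomputable def n846 : Strat := .move 717 n32 (.cons 841 n845 (.cons 676 n467 (.cons 880 n40 (.cons 800 n288 .nil))))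
noncomputable def n847 : Strat := .move 715 n105 (.cons 760 n106 .nil)
noncomputable def n848 : Strat := .move 716 n0 (.cons 675 n847 .nil)
noncomputable def n849 : Strat := .move 759 n142 (.cons 881 n848 .nil)
noncomputable def n850 : Strat := .move 718 n2 (.cons 677 n849 .nil)
noncomputable def n851 : Strat := .move 841 n73 (.cons 676 n850 (.cons 716 n31 .nil))
noncomputable def n852 : Strat := .move 718 n2 (.cons 677 n778 .nil)
noncomputable def n853 : Strat := .move 717 n851 (.cons 839 n852 (.cons 677 n453 (.cons 881 n79 .nil)))
noncomputable def n854 : Strat := .move 757 n111 (.cons 720 n112 .nil)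
noncomputable def n855 : Strat := .win 762 0 717
noncomputable def n856 : Strat := .win 760 0 716
noncomputable def n857 : Strat := .move 761 n855 (.cons 762 n856 .nil)
noncomputable def n858 : Strat := .move 720 n791 (.cons 757 n857 .nil)
noncomputable def n859 : Strat := .move 760 n143 (.cons 715 n210 .nil)
noncomputable def n860 : Strat := .win 800 3 677
noncomputable def n861 : Strat := .win 679 5 675
noncomputable def n862 : Strat := .move 678 n860 (.cons 800 n861 .nil)
noncomputable def n863 : Strat := .move 759 n847 (.cons 714 n859 (.cons 760 n862 .nil))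
noncomputable def n864 : Strat := .move 719 n854 (.cons 756 n858 (.cons 720 n863 .nil))
noncomputable def n865 : Strat := .move 841 n9 (.cons 882 n864 .nil)
noncomputable def n866 : Strat := .move 718 n2 (.cons 677 n865 .nil)
noncomputable def n867 : Strat := .move 716 n0 (.cons 675 n866 .nil)
noncomputable def n868 : Strat := .move 717 n278 (.cons 716 n467 (.cons 718 n835 (.cons 881 n867 .nil)))
noncomputable def n869 : Strat := .move 718 n2 (.cons 677 n787 .nil)
noncomputable def n870 : Strat := .win 757 7 674
noncomputable def n871 : Strat := .move 674 n870 (.cons 757 n115 .nil)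
noncomputable def n872 : Strat := .move 715 n107 (.cons 714 n871 .nil)
noncomputable def n873 : Strat := .move 798 n281 (.cons 676 n872 .nil)
noncomputable def n874 : Strat := .move 839 n7 (.cons 880 n873 .nil)
noncomputable def n875 : Strat := .move 718 n2 (.cons 677 n874 .nil)
noncomputable def n876 : Strat := .move 716 n0 (.cons 675 n875 .nil)
noncomputable def n877 : Strat := .move 676 n8 (.cons 798 n10 .nil)
noncomputable def n878 : Strat := .move 839 n7 (.cons 880 n877 .nil)
noncomputable def n879 : Strat := .move 841 n9 (.cons 882 n878 .nil)
noncomputable def n880 : Strat := .move 717 n869 (.cons 841 n876 (.cons 839 n74 (.cons 675 n879 (.cons 676 n867 .nil))))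
noncomputable def n881 : Strat := .move 881 n56 (.cons 675 n292 (.cons 841 n298 .nil))
noncomputable def n882 : Strat := .move 922 n25 (.cons 800 n23 .nil)
noncomputable def n883 : Strat := .move 759 n24 (.cons 718 n882 .nil)
noncomputable def n884 : Strat := .move 757 n22 (.cons 716 n883 .nil)
noncomputable def n885 : Strat := .win 762 4 758
noncomputable def n886 : Strat := .move 761 n885 (.cons 762 n328 .nil)
noncomputable def n887 : Strat := .move 801 n333 (.cons 802 n219 .nil)
noncomputable def n888 : Strat := .move 719 n336 (.cons 720 n335 .nil)
noncomputable def n889 : Strat := .move 757 n181 (.cons 755 n887 (.cons 801 n888 .nil))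
noncomputable def n890 : Strat := .move 760 n886 (.cons 798 n889 .nil)
noncomputable def n891 : Strat := .move 882 n16 (.cons 923 n890 .nil)
noncomputable def n892 : Strat := .move 800 n187 (.cons 922 n891 .nil)
noncomputable def n893 : Strat := .move 759 n24 (.cons 718 n892 .nil)
noncomputable def n894 : Strat := .move 881 n884 (.cons 716 n893 (.cons 718 n86 (.cons 922 n342 (.cons 798 n224 (.cons 757 n61 .nil)))))
noncomputable def n895 : Strat := .move 718 n2 (.cons 677 n782 .nil)
noncomputable def n896 : Strat := .move 717 n895 (.cons 716 n32 .nil)
noncomputable def n897 : Strat := .move 717 n458 (.cons 716 n845 (.cons 718 n453 (.cons 881 n876 .nil)))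
noncomputable def n898 : Strat := .move 758 n803 (.cons 757 n826 (.cons 718 n836 (.cons 839 n838 (.cons 716 n846 (.cons 882 n853 (.cons 676 n868 (.cons 881 n880 (.cons 800 n881 (.cons 717 n894 (.cons 759 n896 (.cons 841 n897 .nil)))))))))))
noncomputable def n899 : Strat := .move 758 n65 (.cons 880 n59 .nil)
noncomputable def n900 : Strat := .move 921 n66 (.cons 962 n899 .nil)
noncomputable def n901 : Strat := .move 922 n900 (.cons 880 n406 (.cons 923 n361 .nil))
noncomputable def n902 : Strat := .move 882 n16 (.cons 923 n18 .nil)
noncomputable def n903 : Strat := .move 717 n17 (.cons 839 n902 .nil)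
noncomputable def n904 : Strat := .move 880 n15 (.cons 921 n903 .nil)
noncomputable def n905 : Strat := .move 758 n904 (.cons 841 n69 (.cons 880 n884 .nil))
noncomputable def n906 : Strat := .move 758 n904 (.cons 841 n502 (.cons 880 n695 (.cons 717 n352 .nil)))
noncomputable def n907 : Strat := .move 922 n371 (.cons 1005 n525 (.cons 798 n366 (.cons 963 n715 .nil)))
noncomputable def n908 : Strat := .move 922 n406 (.cons 800 n702 (.cons 923 n390 .nil))
noncomputable def n909 : Strat := .move 922 n425 (.cons 798 n477 (.cons 921 n361 .nil))
noncomputable def n910 : Strat := .move 758 n65 (.cons 880 n51 .nil)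
noncomputable def n911 : Strat := .move 921 n66 (.cons 962 n910 .nil)
noncomputable def n912 : Strat := .move 922 n900 (.cons 882 n911 (.cons 921 n702 (.cons 758 n425 .nil)))
noncomputable def n913 : Strat := .move 922 n549 (.cons 880 n406 (.cons 923 n366 .nil))
noncomputable def n914 : Strat := .move 881 n901 (.cons 963 n905 (.cons 922 n906 (.cons 758 n907 (.cons 880 n908 (.cons 882 n909 (.cons 841 n912 (.cons 757 n913 .nil)))))))
noncomputable def n915 : Strat := .move 798 n293 (.cons 922 n295 .nil)
noncomputable def n916 : Strat := .move 759 n24 (.cons 718 n915 .nil)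
noncomputable def n917 : Strat := .move 757 n22 (.cons 716 n916 .nil)
noncomputable def n918 : Strat := .move 758 n917 (.cons 757 n502 (.cons 759 n516 .nil))
noncomputable def n919 : Strat := .move 922 n361 (.cons 841 n425 (.cons 963 n386 (.cons 839 n366 .nil)))
noncomputable def n920 : Strat := .move 798 n355 (.cons 757 n523 .nil)
noncomputable def n921 : Strat := .move 800 n357 (.cons 759 n920 .nil)
noncomputable def n922 : Strat := .move 839 n163 (.cons 802 n377 .nil)
noncomputable def n923 : Strat := .win 844 0 799
noncomputable def n924 : Strat := .win 842 0 798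
noncomputable def n925 : Strat := .move 843 n923 (.cons 844 n924 .nil)
noncomputable def n926 : Strat := .move 802 n659 (.cons 839 n925 .nil)
noncomputable def n927 : Strat := .win 762 5 758
noncomputable def n928 : Strat := .win 760 5 757
noncomputable def n929 : Strat := .move 761 n927 (.cons 762 n928 .nil)
noncomputable def n930 : Strat := .move 802 n923 (.cons 844 n929 .nil)
noncomputable def n931 : Strat := .move 843 n924 (.cons 842 n930 .nil)
noncomputable def n932 : Strat := .move 797 n375 (.cons 837 n373 .nil)
noncomputable def n933 : Strat := .move 838 n537 (.cons 839 n932 .nil)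
noncomputable def n934 : Strat := .move 801 n922 (.cons 838 n926 (.cons 839 n931 (.cons 802 n933 .nil)))
noncomputable def n935 : Strat := .move 798 n355 (.cons 757 n934 .nil)
noncomputable def n936 : Strat := .move 800 n357 (.cons 759 n935 .nil)
noncomputable def n937 : Strat := .move 922 n921 (.cons 759 n425 (.cons 757 n366 (.cons 963 n936 .nil)))
noncomputable def n938 : Strat := .win 758 7 716
noncomputable def n939 : Strat := .win 675 6 675
noncomputable def n940 : Strat := .move 716 n938 (.cons 758 n939 .nil)
noncomputable def n941 : Strat := .move 757 n293 (.cons 922 n940 .nil)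
noncomputable def n942 : Strat := .move 963 n356 (.cons 839 n358 .nil)
noncomputable def n943 : Strat := .move 800 n357 (.cons 759 n942 .nil)
noncomputable def n944 : Strat := .move 922 n355 (.cons 757 n943 .nil)
noncomputable def n945 : Strat := .win 839 6 716
noncomputable def n946 : Strat := .move 716 n939 (.cons 675 n945 .nil)
noncomputable def n947 : Strat := .move 716 n938 (.cons 758 n945 .nil)
noncomputable def n948 : Strat := .move 839 n281 (.cons 676 n7 .nil)
noncomputable def n949 : Strat := .win 635 1 634
noncomputable def n950 : Strat := .win 839 1 675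
noncomputable def n951 : Strat := .move 676 n949 (.cons 635 n950 .nil)
noncomputable def n952 : Strat := .move 717 n948 (.cons 880 n951 (.cons 839 n500 .nil))
noncomputable def n953 : Strat := .move 676 n950 (.cons 839 n949 .nil)
noncomputable def n954 : Strat := .move 882 n18 (.cons 841 n953 .nil)
noncomputable def n955 : Strat := .move 676 n10 (.cons 800 n949 .nil)
noncomputable def n956 : Strat := .move 841 n9 (.cons 882 n955 .nil)
noncomputable def n957 : Strat := .move 842 n152 (.cons 797 n151 .nil)
noncomputable def n958 : Strat := .move 841 n9 (.cons 882 n957 .nil)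
noncomputable def n959 : Strat := .move 839 n7 (.cons 880 n958 .nil)
noncomputable def n960 : Strat := .move 717 n948 (.cons 880 n954 (.cons 839 n956 (.cons 676 n959 .nil)))
noncomputable def n961 : Strat := .move 758 n296 (.cons 760 n952 (.cons 759 n960 .nil))
noncomputable def n962 : Strat := .move 757 n940 (.cons 758 n946 (.cons 675 n947 (.cons 716 n961 .nil)))
noncomputable def n963 : Strat := .move 797 n283 (.cons 796 n618 .nil)
noncomputable def n964 : Strat := .move 842 n151 (.cons 843 n963 .nil)
noncomputable def n965 : Strat := .move 922 n674 (.cons 963 n357 .nil)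
noncomputable def n966 : Strat := .move 800 n965 (.cons 759 n563 .nil)
noncomputable def n967 : Strat := .win 883 0 838
noncomputable def n968 : Strat := .move 882 n967 (.cons 883 n135 .nil)
noncomputable def n969 : Strat := .win 882 0 838
noncomputable def n970 : Strat := .move 883 n969 (.cons 882 n166 .nil)
noncomputable def n971 : Strat := .win 800 4 797
noncomputable def n972 : Strat := .win 802 5 798
noncomputable def n973 : Strat := .move 801 n971 (.cons 800 n972 .nil)
noncomputable def n974 : Strat := .move 838 n968 (.cons 837 n970 (.cons 883 n973 .nil))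
noncomputable def n975 : Strat := .win 880 4 838
noncomputable def n976 : Strat := .move 838 n827 (.cons 878 n968 .nil)
noncomputable def n977 : Strat := .move 879 n975 (.cons 880 n976 .nil)
noncomputable def n978 : Strat := .win 879 4 838
noncomputable def n979 : Strat := .move 922 n479 (.cons 963 n25 .nil)
noncomputable def n980 : Strat := .move 758 n134 (.cons 717 n24 .nil)
noncomputable def n981 : Strat := .move 759 n979 (.cons 800 n980 .nil)
noncomputable def n982 : Strat := .move 880 n978 (.cons 879 n981 .nil)
noncomputable def n983 : Strat := .move 839 n966 (.cons 759 n974 (.cons 800 n977 (.cons 838 n982 .nil)))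
noncomputable def n984 : Strat := .move 842 n151 (.cons 843 n983 .nil)
noncomputable def n985 : Strat := .move 839 n152 (.cons 797 n977 .nil)
noncomputable def n986 : Strat := .move 842 n151 (.cons 843 n985 .nil)
noncomputable def n987 : Strat := .win 718 1 717
noncomputable def n988 : Strat := .move 759 n187 (.cons 922 n987 .nil)
noncomputable def n989 : Strat := .move 800 n372 (.cons 842 n988 .nil)
noncomputable def n990 : Strat := .move 797 n283 (.cons 796 n989 .nil)
noncomputable def n991 : Strat := .move 800 n187 (.cons 922 n987 .nil)
noncomputable def n992 : Strat := .move 800 n987 (.cons 718 n809 .nil)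
noncomputable def n993 : Strat := .move 839 n7 (.cons 880 n281 .nil)
noncomputable def n994 : Strat := .move 717 n9 (.cons 882 n993 .nil)
noncomputable def n995 : Strat := .move 758 n24 (.cons 718 n994 .nil)
noncomputable def n996 : Strat := .move 800 n187 (.cons 922 n809 .nil)
noncomputable def n997 : Strat := .move 759 n991 (.cons 922 n992 (.cons 800 n995 (.cons 718 n996 .nil)))
noncomputable def n998 : Strat := .move 797 n283 (.cons 796 n997 .nil)
noncomputable def n999 : Strat := .move 841 n964 (.cons 797 n984 (.cons 800 n986 (.cons 843 n990 (.cons 842 n998 .nil))))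
noncomputable def n1000 : Strat := .move 798 n941 (.cons 716 n944 (.cons 922 n962 (.cons 757 n999 .nil)))
noncomputable def n1001 : Strat := .win 797 0 797
noncomputable def n1002 : Strat := .move 842 n1001 (.cons 797 n151 .nil)
noncomputable def n1003 : Strat := .move 798 n355 (.cons 757 n1002 .nil)
noncomputable def n1004 : Strat := .move 841 n674 (.cons 963 n1003 .nil)
noncomputable def n1005 : Strat := .move 800 n357 (.cons 759 n1004 .nil)
noncomputable def n1006 : Strat := .move 922 n366 (.cons 800 n911 (.cons 962 n1005 .nil))
noncomputable def n1007 : Strat := .move 758 n884 (.cons 757 n502 (.cons 759 n516 .nil))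
noncomputable def n1008 : Strat := .move 758 n502 (.cons 677 n179 (.cons 839 n224 .nil))
noncomputable def n1009 : Strat := .win 756 2 756
noncomputable def n1010 : Strat := .move 801 n220 (.cons 802 n1009 .nil)
noncomputable def n1011 : Strat := .win 801 2 756
noncomputable def n1012 : Strat := .move 756 n88 (.cons 755 n1011 .nil)
noncomputable def n1013 : Strat := .win 756 0 755
noncomputable def n1014 : Strat := .move 717 n193 (.cons 676 n9 .nil)
noncomputable def n1015 : Strat := .move 841 n575 (.cons 796 n1002 (.cons 842 n1014 .nil))
noncomputable def n1016 : Strat := .move 755 n1013 (.cons 756 n1015 .nil)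
noncomputable def n1017 : Strat := .move 842 n1001 (.cons 797 n536 .nil)
noncomputable def n1018 : Strat := .move 841 n575 (.cons 796 n1017 (.cons 842 n1014 .nil))
noncomputable def n1019 : Strat := .move 801 n220 (.cons 802 n1018 .nil)
noncomputable def n1020 : Strat := .move 800 n1010 (.cons 802 n1012 (.cons 801 n1016 (.cons 756 n1019 .nil)))
noncomputable def n1021 : Strat := .move 798 n293 (.cons 922 n1020 .nil)
noncomputable def n1022 : Strat := .move 757 n22 (.cons 716 n1021 .nil)
noncomputable def n1023 : Strat := .move 676 n10 (.cons 800 n804 .nil)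
noncomputable def n1024 : Strat := .move 841 n9 (.cons 882 n1023 .nil)
noncomputable def n1025 : Strat := .move 717 n17 (.cons 839 n1024 .nil)
noncomputable def n1026 : Strat := .move 880 n15 (.cons 921 n1025 .nil)
noncomputable def n1027 : Strat := .move 758 n516 (.cons 880 n1022 (.cons 757 n1026 (.cons 717 n69 .nil)))
noncomputable def n1028 : Strat := .win 798 7 798
noncomputable def n1029 : Strat := .win 880 7 839
noncomputable def n1030 : Strat := .win 1044 1 880
noncomputable def n1031 : Strat := .win 962 1 839
noncomputable def n1032 : Strat := .move 1003 n1030 (.cons 1044 n1031 .nil)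
noncomputable def n1033 : Strat := .move 1004 n1029 (.cons 880 n1032 .nil)
noncomputable def n1034 : Strat := .move 839 n1028 (.cons 798 n1033 .nil)
noncomputable def n1035 : Strat := .move 963 n358 (.cons 841 n1034 .nil)
noncomputable def n1036 : Strat := .move 800 n357 (.cons 759 n1035 .nil)
noncomputable def n1037 : Strat := .win 798 6 798
noncomputable def n1038 : Strat := .win 1004 7 839
noncomputable def n1039 : Strat := .move 839 n1037 (.cons 798 n1038 .nil)
noncomputable def n1040 : Strat := .move 800 n358 (.cons 841 n669 .nil)
noncomputable def n1041 : Strat := .win 800 3 799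
noncomputable def n1042 : Strat := .win 882 3 840
noncomputable def n1043 : Strat := .move 1004 n1042 (.cons 882 n667 .nil)
noncomputable def n1044 : Strat := .move 841 n1041 (.cons 800 n1043 .nil)
noncomputable def n1045 : Strat := .move 842 n978 (.cons 879 n127 .nil)
noncomputable def n1046 : Strat := .move 841 n1041 (.cons 800 n1045 .nil)
noncomputable def n1047 : Strat := .move 839 n1037 (.cons 798 n1046 .nil)
noncomputable def n1048 : Strat := .move 963 n1039 (.cons 798 n1040 (.cons 839 n1044 (.cons 1004 n1047 .nil)))
noncomputable def n1049 : Strat := .move 880 n417 (.cons 758 n1048 .nil)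
noncomputable def n1050 : Strat := .move 921 n66 (.cons 962 n1049 .nil)
noncomputable def n1051 : Strat := .win 844 2 799
noncomputable def n1052 : Strat := .move 843 n154 (.cons 798 n1051 .nil)
noncomputable def n1053 : Strat := .win 798 0 797
noncomputable def n1054 : Strat := .win 796 2 796
noncomputable def n1055 : Strat := .move 838 n1054 (.cons 796 n160 .nil)
noncomputable def n1056 : Strat := .move 797 n1053 (.cons 798 n1055 .nil)
noncomputable def n1057 : Strat := .move 758 n134 (.cons 717 n15 .nil)
noncomputable def n1058 : Strat := .move 880 n978 (.cons 879 n1057 .nil)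
noncomputable def n1059 : Strat := .move 839 n161 (.cons 837 n164 (.cons 801 n1056 (.cons 838 n1058 .nil)))
noncomputable def n1060 : Strat := .win 880 4 839
noncomputable def n1061 : Strat := .move 843 n1051 (.cons 844 n1060 .nil)
noncomputable def n1062 : Strat := .move 842 n1052 (.cons 843 n1059 (.cons 798 n1061 .nil))
noncomputable def n1063 : Strat := .move 841 n674 (.cons 963 n1062 .nil)
noncomputable def n1064 : Strat := .move 800 n357 (.cons 759 n1063 .nil)
noncomputable def n1065 : Strat := .win 1046 6 881
noncomputable def n1066 : Strat := .win 964 6 840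
noncomputable def n1067 : Strat := .move 1005 n1065 (.cons 1046 n1066 .nil)
noncomputable def n1068 : Strat := .move 1004 n1029 (.cons 880 n1067 .nil)
noncomputable def n1069 : Strat := .move 839 n1028 (.cons 798 n1068 .nil)
noncomputable def n1070 : Strat := .move 963 n363 (.cons 1003 n1069 .nil)
noncomputable def n1071 : Strat := .move 962 n362 (.cons 921 n1070 .nil)
noncomputable def n1072 : Strat := .move 922 n366 (.cons 921 n1036 (.cons 759 n1050 (.cons 962 n1064 (.cons 841 n477 (.cons 800 n1071 .nil)))))
noncomputable def n1073 : Strat := .move 798 n94 (.cons 797 n93 .nil)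
noncomputable def n1074 : Strat := .move 800 n181 (.cons 755 n887 (.cons 801 n337 .nil))
noncomputable def n1075 : Strat := .move 760 n1073 (.cons 761 n1074 .nil)
noncomputable def n1076 : Strat := .move 757 n22 (.cons 716 n1075 .nil)
noncomputable def n1077 : Strat := .move 759 n24 (.cons 718 n1076 .nil)
noncomputable def n1078 : Strat := .move 801 n333 (.cons 802 n748 .nil)
noncomputable def n1079 : Strat := .move 756 n89 (.cons 755 n1078 (.cons 801 n749 .nil))
noncomputable def n1080 : Strat := .move 761 n331 (.cons 801 n505 .nil)
noncomputable def n1081 : Strat := .move 760 n327 (.cons 797 n332 (.cons 761 n1079 (.cons 798 n1080 .nil)))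
noncomputable def n1082 : Strat := .move 759 n24 (.cons 718 n1081 .nil)
noncomputable def n1083 : Strat := .move 757 n22 (.cons 716 n1082 .nil)
noncomputable def n1084 : Strat := .move 882 n694 (.cons 757 n650 (.cons 717 n1077 (.cons 841 n1083 .nil)))
noncomputable def n1085 : Strat := .move 758 n502 (.cons 880 n1084 (.cons 718 n516 (.cons 717 n103 .nil)))
noncomputable def n1086 : Strat := .move 881 n918 (.cons 758 n919 (.cons 880 n937 (.cons 921 n1000 (.cons 839 n1006 (.cons 797 n1007 (.cons 798 n1008 (.cons 759 n1027 (.cons 757 n1072 (.cons 922 n1085 .nil)))))))))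
noncomputable def n1087 : Strat := .move 717 n35 (.cons 759 n79 (.cons 880 n148 (.cons 718 n49 .nil)))
noncomputable def n1088 : Strat := .move 841 n9 (.cons 882 n877 .nil)
noncomputable def n1089 : Strat := .move 839 n7 (.cons 880 n1088 .nil)
noncomputable def n1090 : Strat := .move 716 n0 (.cons 675 n1089 .nil)
noncomputable def n1091 : Strat := .move 800 n160 (.cons 837 n159 .nil)
noncomputable def n1092 : Strat := .win 800 5 796
noncomputable def n1093 : Strat := .win 795 2 795
noncomputable def n1094 : Strat := .win 797 2 796
noncomputable def n1095 : Strat := .move 796 n1093 (.cons 795 n1094 .nil)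
noncomputable def n1096 : Strat := .move 837 n1092 (.cons 800 n1095 .nil)
noncomputable def n1097 : Strat := .win 877 4 836
noncomputable def n1098 : Strat := .win 879 4 837
noncomputable def n1099 : Strat := .move 878 n1097 (.cons 877 n1098 .nil)
noncomputable def n1100 : Strat := .move 837 n1093 (.cons 795 n1099 .nil)
noncomputable def n1101 : Strat := .move 796 n1094 (.cons 797 n1100 .nil)
noncomputable def n1102 : Strat := .win 800 5 797
noncomputable def n1103 : Strat := .win 798 2 797
noncomputable def n1104 : Strat := .move 797 n1103 (.cons 798 n1054 .nil)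
noncomputable def n1105 : Strat := .move 842 n972 (.cons 802 n1104 .nil)
noncomputable def n1106 : Strat := .move 801 n1102 (.cons 800 n1105 .nil)
noncomputable def n1107 : Strat := .move 838 n1091 (.cons 801 n1096 (.cons 800 n1101 (.cons 837 n1106 .nil)))
noncomputable def n1108 : Strat := .move 841 n9 (.cons 882 n1107 .nil)
noncomputable def n1109 : Strat := .move 839 n7 (.cons 880 n1108 .nil)
noncomputable def n1110 : Strat := .move 717 n1090 (.cons 839 n74 (.cons 841 n79 (.cons 676 n1109 .nil)))
noncomputable def n1111 : Strat := .move 717 n40 (.cons 841 n148 (.cons 718 n74 .nil))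
noncomputable def n1112 : Strat := .move 880 n15 (.cons 921 n129 .nil)
noncomputable def n1113 : Strat := .move 841 n126 (.cons 717 n1112 .nil)
noncomputable def n1114 : Strat := .move 882 n16 (.cons 923 n1113 .nil)
noncomputable def n1115 : Strat := .move 963 n1038 (.cons 1004 n1028 .nil)
noncomputable def n1116 : Strat := .move 922 n25 (.cons 800 n1115 .nil)
noncomputable def n1117 : Strat := .move 759 n24 (.cons 718 n1116 .nil)
noncomputable def n1118 : Strat := .move 839 n134 (.cons 717 n1117 .nil)
noncomputable def n1119 : Strat := .move 880 n15 (.cons 921 n1118 .nil)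
noncomputable def n1120 : Strat := .win 719 3 718
noncomputable def n1121 : Strat := .move 760 n1120 (.cons 719 n886 .nil)
noncomputable def n1122 : Strat := .move 800 n180 (.cons 922 n1121 .nil)
noncomputable def n1123 : Strat := .move 759 n24 (.cons 718 n1122 .nil)
noncomputable def n1124 : Strat := .move 841 n126 (.cons 717 n1123 .nil)
noncomputable def n1125 : Strat := .move 882 n16 (.cons 923 n1124 .nil)
noncomputable def n1126 : Strat := .win 841 6 759
noncomputable def n1127 : Strat := .move 924 n1126 (.cons 841 n320 .nil)
noncomputable def n1128 : Strat := .move 883 n239 (.cons 884 n1127 .nil)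
noncomputable def n1129 : Strat := .move 800 n187 (.cons 922 n1128 .nil)
noncomputable def n1130 : Strat := .move 759 n24 (.cons 718 n1129 .nil)
noncomputable def n1131 : Strat := .move 880 n15 (.cons 921 n1130 .nil)
noncomputable def n1132 : Strat := .move 882 n16 (.cons 923 n1131 .nil)
noncomputable def n1133 : Strat := .move 881 n1114 (.cons 882 n1119 (.cons 880 n1125 (.cons 717 n1132 .nil)))
noncomputable def n1134 : Strat := .move 716 n0 (.cons 675 n879 .nil)
noncomputable def n1135 : Strat := .move 842 n972 (.cons 802 n462 .nil)
noncomputable def n1136 : Strat := .move 801 n1102 (.cons 800 n1135 .nil)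
noncomputable def n1137 : Strat := .move 838 n1091 (.cons 800 n1101 (.cons 837 n1136 .nil))
noncomputable def n1138 : Strat := .move 839 n7 (.cons 880 n1137 .nil)
noncomputable def n1139 : Strat := .move 841 n9 (.cons 882 n1138 .nil)
noncomputable def n1140 : Strat := .move 717 n1134 (.cons 841 n49 (.cons 880 n74 (.cons 675 n879 (.cons 676 n1139 .nil))))
noncomputable def n1141 : Strat := .move 883 n239 (.cons 884 n322 .nil)
noncomputable def n1142 : Strat := .move 880 n15 (.cons 921 n1141 .nil)
noncomputable def n1143 : Strat := .move 882 n16 (.cons 923 n1142 .nil)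
noncomputable def n1144 : Strat := .move 879 n242 (.cons 837 n236 .nil)
noncomputable def n1145 : Strat := .win 844 5 840
noncomputable def n1146 : Strat := .win 842 5 839
noncomputable def n1147 : Strat := .move 843 n1145 (.cons 844 n1146 .nil)
noncomputable def n1148 : Strat := .move 884 n264 (.cons 924 n1147 .nil)
noncomputable def n1149 : Strat := .move 883 n260 (.cons 838 n265 (.cons 884 n1144 (.cons 839 n1148 .nil)))
noncomputable def n1150 : Strat := .move 882 n16 (.cons 923 n1149 .nil)
noncomputable def n1151 : Strat := .move 880 n15 (.cons 921 n1150 .nil)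
noncomputable def n1152 : Strat := .move 759 n83 (.cons 921 n60 (.cons 922 n1143 (.cons 800 n1151 .nil)))
noncomputable def n1153 : Strat := .move 759 n24 (.cons 718 n1141 .nil)
noncomputable def n1154 : Strat := .move 882 n16 (.cons 923 n1153 .nil)
noncomputable def n1155 : Strat := .move 880 n15 (.cons 921 n1154 .nil)
noncomputable def n1156 : Strat := .move 759 n24 (.cons 718 n1151 .nil)
noncomputable def n1157 : Strat := .move 881 n84 (.cons 921 n61 (.cons 718 n1152 (.cons 922 n1155 (.cons 800 n1156 (.cons 759 n313 .nil)))))
noncomputable def n1158 : Strat := .move 758 n41 (.cons 841 n1087 (.cons 759 n1110 (.cons 880 n1111 (.cons 677 n1133 (.cons 718 n1140 (.cons 717 n1157 .nil))))))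
noncomputable def n1159 : Strat := .move 718 n2 (.cons 677 n1089 .nil)
noncomputable def n1160 : Strat := .move 842 n151 (.cons 843 n152 .nil)
noncomputable def n1161 : Strat := .win 757 1 715
noncomputable def n1162 : Strat := .move 879 n1161 (.cons 757 n827 .nil)
noncomputable def n1163 : Strat := .move 798 n284 (.cons 796 n1160 (.cons 842 n1162 .nil))
noncomputable def n1164 : Strat := .move 838 n830 (.cons 837 n1163 .nil)
noncomputable def n1165 : Strat := .move 716 n0 (.cons 675 n1164 .nil)
noncomputable def n1166 : Strat := .move 841 n9 (.cons 882 n1165 .nil)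
noncomputable def n1167 : Strat := .move 839 n7 (.cons 880 n1166 .nil)
noncomputable def n1168 : Strat := .move 717 n1159 (.cons 839 n74 (.cons 841 n49 (.cons 676 n1167 .nil)))
noncomputable def n1169 : Strat := .move 717 n44 (.cons 881 n74 (.cons 716 n40 (.cons 882 n458 .nil)))
noncomputable def n1170 : Strat := .move 717 n49 (.cons 839 n458 (.cons 716 n79 .nil))
noncomputable def n1171 : Strat := .move 717 n1159 (.cons 839 n40 (.cons 800 n79 (.cons 677 n1089 (.cons 676 n1109 .nil))))
noncomputable def n1172 : Strat := .win 922 6 757
noncomputable def n1173 : Strat := .move 755 n610 (.cons 754 n609 .nil)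
noncomputable def n1174 : Strat := .move 756 n608 (.cons 715 n1173 .nil)
noncomputable def n1175 : Strat := .move 798 n1172 (.cons 922 n1174 .nil)
noncomputable def n1176 : Strat := .move 757 n22 (.cons 716 n1175 .nil)
noncomputable def n1177 : Strat := .move 839 n134 (.cons 717 n1176 .nil)
noncomputable def n1178 : Strat := .move 880 n15 (.cons 921 n1177 .nil)
noncomputable def n1179 : Strat := .move 881 n140 (.cons 923 n1178 (.cons 717 n86 .nil))
noncomputable def n1180 : Strat := .move 881 n86 (.cons 757 n313 (.cons 882 n69 .nil))
noncomputable def n1181 : Strat := .move 758 n50 (.cons 881 n1168 (.cons 839 n1169 (.cons 757 n1110 (.cons 882 n1170 (.cons 716 n1171 (.cons 676 n1179 (.cons 717 n1180 .nil)))))))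
noncomputable def n1182 : Strat := .move 923 n58 (.cons 964 n570 .nil)
noncomputable def n1183 : Strat := .move 921 n66 (.cons 962 n1182 .nil)
noncomputable def n1184 : Strat := .move 922 n390 (.cons 963 n1183 .nil)
noncomputable def n1185 : Strat := .move 922 n371 (.cons 839 n397 (.cons 923 n425 .nil))
noncomputable def n1186 : Strat := .move 922 n406 (.cons 963 n397 (.cons 923 n366 .nil))
noncomputable def n1187 : Strat := .move 717 n18 (.cons 841 n953 .nil)
noncomputable def n1188 : Strat := .move 882 n16 (.cons 923 n1187 .nil)
noncomputable def n1189 : Strat := .move 798 n293 (.cons 922 n1188 .nil)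
noncomputable def n1190 : Strat := .move 757 n22 (.cons 716 n1189 .nil)
noncomputable def n1191 : Strat := .move 841 n126 (.cons 717 n1121 .nil)
noncomputable def n1192 : Strat := .move 882 n16 (.cons 923 n1191 .nil)
noncomputable def n1193 : Strat := .move 800 n187 (.cons 922 n1192 .nil)
noncomputable def n1194 : Strat := .move 759 n24 (.cons 718 n1193 .nil)
noncomputable def n1195 : Strat := .move 758 n224 (.cons 759 n1190 (.cons 716 n1194 (.cons 922 n695 .nil)))
noncomputable def n1196 : Strat := .move 882 n16 (.cons 923 n1075 .nil)
noncomputable def n1197 : Strat := .move 759 n24 (.cons 718 n1196 .nil)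
noncomputable def n1198 : Strat := .move 757 n22 (.cons 716 n1197 .nil)
noncomputable def n1199 : Strat := .move 882 n16 (.cons 923 n1083 .nil)
noncomputable def n1200 : Strat := .win 797 4 755
noncomputable def n1201 : Strat := .win 795 4 754
noncomputable def n1202 : Strat := .move 755 n1201 (.cons 795 n743 .nil)
noncomputable def n1203 : Strat := .move 796 n1200 (.cons 797 n1202 .nil)
noncomputable def n1204 : Strat := .move 756 n740 (.cons 801 n744 (.cons 800 n1203 (.cons 755 n751 .nil)))
noncomputable def n1205 : Strat := .move 759 n24 (.cons 718 n1204 .nil)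
noncomputable def n1206 : Strat := .move 757 n22 (.cons 716 n1205 .nil)
noncomputable def n1207 : Strat := .move 758 n695 (.cons 757 n651 (.cons 923 n1084 (.cons 717 n1198 (.cons 841 n1199 (.cons 882 n1206 .nil)))))
noncomputable def n1208 : Strat := .move 881 n1184 (.cons 882 n544 (.cons 759 n1185 (.cons 757 n1186 (.cons 923 n937 (.cons 921 n1195 (.cons 922 n1207 .nil))))))
noncomputable def n1209 : Strat := .move 758 n53 (.cons 759 n56 (.cons 757 n61 .nil))
noncomputable def n1210 : Strat := .move 842 n151 (.cons 843 n1001 .nil)
noncomputable def n1211 : Strat := .move 841 n674 (.cons 963 n1210 .nil)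
noncomputable def n1212 : Strat := .move 800 n357 (.cons 759 n1211 .nil)
noncomputable def n1213 : Strat := .move 798 n355 (.cons 757 n1212 .nil)
noncomputable def n1214 : Strat := .move 922 n1213 (.cons 841 n736 .nil)
noncomputable def n1215 : Strat := .move 758 n132 (.cons 882 n513 .nil)
noncomputable def n1216 : Strat := .move 922 n401 (.cons 964 n477 (.cons 758 n406 .nil))
noncomputable def n1217 : Strat := .move 758 n56 (.cons 882 n69 (.cons 716 n1114 .nil))
noncomputable def n1218 : Strat := .move 758 n884 (.cons 757 n84 (.cons 759 n86 (.cons 922 n1206 .nil)))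
noncomputable def n1219 : Strat := .move 881 n1209 (.cons 758 n1214 (.cons 923 n1006 (.cons 922 n1215 (.cons 757 n1216 (.cons 759 n1217 (.cons 841 n1218 .nil))))))
noncomputable def n1220 : Strat := .win 798 4 797
noncomputable def n1221 : Strat := .move 801 n163 (.cons 802 n1220 .nil)
noncomputable def n1222 : Strat := .move 800 n160 (.cons 837 n1221 .nil)
noncomputable def n1223 : Strat := .win 798 5 795
noncomputable def n1224 : Strat := .win 878 4 836
noncomputable def n1225 : Strat := .win 876 4 835
noncomputable def n1226 : Strat := .move 877 n1224 (.cons 878 n1225 .nil)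
noncomputable def n1227 : Strat := .move 836 n1223 (.cons 798 n1226 .nil)
noncomputable def n1228 : Strat := .move 841 n1094 (.cons 797 n1098 .nil)
noncomputable def n1229 : Strat := .move 796 n1093 (.cons 795 n1228 .nil)
noncomputable def n1230 : Strat := .move 878 n1097 (.cons 877 n1229 .nil)
noncomputable def n1231 : Strat := .win 796 2 795
noncomputable def n1232 : Strat := .win 794 2 794
noncomputable def n1233 : Strat := .move 795 n1231 (.cons 796 n1232 .nil)
noncomputable def n1234 : Strat := .move 836 n1223 (.cons 798 n1233 .nil)
noncomputable def n1235 : Strat := .move 837 n1227 (.cons 798 n1230 (.cons 878 n1234 .nil))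
noncomputable def n1236 : Strat := .move 837 n1092 (.cons 800 n1230 .nil)
noncomputable def n1237 : Strat := .win 674 6 674
noncomputable def n1238 : Strat := .win 880 6 715
noncomputable def n1239 : Strat := .move 715 n1237 (.cons 674 n1238 .nil)
noncomputable def n1240 : Strat := .move 756 n380 (.cons 755 n1239 .nil)
noncomputable def n1241 : Strat := .move 798 n372 (.cons 842 n1240 .nil)
noncomputable def n1242 : Strat := .move 797 n1054 (.cons 796 n1241 .nil)
noncomputable def n1243 : Strat := .move 800 n159 (.cons 801 n1242 .nil)
noncomputable def n1244 : Strat := .win 964 7 799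
noncomputable def n1245 : Strat := .move 879 n975 (.cons 880 n827 .nil)
noncomputable def n1246 : Strat := .move 843 n1051 (.cons 844 n154 .nil)
noncomputable def n1247 : Strat := .move 842 n1245 (.cons 878 n1246 .nil)
noncomputable def n1248 : Strat := .move 923 n1244 (.cons 964 n1247 .nil)
noncomputable def n1249 : Strat := .move 882 n967 (.cons 883 n1248 .nil)
noncomputable def n1250 : Strat := .move 800 n159 (.cons 801 n1249 .nil)
noncomputable def n1251 : Strat := .win 881 1 717
noncomputable def n1252 : Strat := .win 677 1 676
noncomputable def n1253 : Strat := .move 718 n1251 (.cons 881 n1252 .nil)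
noncomputable def n1254 : Strat := .move 881 n180 (.cons 922 n987 .nil)
noncomputable def n1255 : Strat := .win 798 5 756
noncomputable def n1256 : Strat := .move 760 n1120 (.cons 719 n1255 .nil)
noncomputable def n1257 : Strat := .move 759 n1253 (.cons 677 n1254 (.cons 881 n1256 .nil))
noncomputable def n1258 : Strat := .move 882 n967 (.cons 883 n1257 .nil)
noncomputable def n1259 : Strat := .move 797 n1054 (.cons 796 n1258 .nil)
noncomputable def n1260 : Strat := .move 800 n159 (.cons 801 n1259 .nil)
noncomputable def n1261 : Strat := .move 879 n827 (.cons 878 n975 .nil)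
noncomputable def n1262 : Strat := .move 842 n1103 (.cons 798 n1261 .nil)
noncomputable def n1263 : Strat := .move 797 n1054 (.cons 796 n1262 .nil)
noncomputable def n1264 : Strat := .move 842 n166 (.cons 884 n1245 .nil)
noncomputable def n1265 : Strat := .move 883 n969 (.cons 882 n1264 .nil)
noncomputable def n1266 : Strat := .move 800 n159 (.cons 801 n1265 .nil)
noncomputable def n1267 : Strat := .move 841 n1243 (.cons 797 n1250 (.cons 842 n1260 (.cons 800 n1263 (.cons 798 n1266 .nil))))
noncomputable def n1268 : Strat := .move 838 n1222 (.cons 800 n1235 (.cons 798 n1236 (.cons 837 n1267 .nil)))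
noncomputable def n1269 : Strat := .win 716 6 716
noncomputable def n1270 : Strat := .move 881 n1269 (.cons 716 n293 .nil)
noncomputable def n1271 : Strat := .win 877 5 836
noncomputable def n1272 : Strat := .move 878 n247 (.cons 841 n1271 .nil)
noncomputable def n1273 : Strat := .move 879 n639 (.cons 920 n1272 .nil)
noncomputable def n1274 : Strat := .win 962 3 798
noncomputable def n1275 : Strat := .win 961 1 797
noncomputable def n1276 : Strat := .win 879 1 756
noncomputable def n1277 : Strat := .move 920 n1275 (.cons 961 n1276 .nil)
noncomputable def n1278 : Strat := .move 921 n1274 (.cons 962 n1277 .nil)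
noncomputable def n1279 : Strat := .win 797 7 756
noncomputable def n1280 : Strat := .move 756 n1279 (.cons 797 n608 .nil)
noncomputable def n1281 : Strat := .move 921 n1274 (.cons 962 n1280 .nil)
noncomputable def n1282 : Strat := .move 880 n1273 (.cons 877 n1278 (.cons 879 n1281 .nil))
noncomputable def n1283 : Strat := .move 881 n1269 (.cons 716 n1282 .nil)
noncomputable def n1284 : Strat := .win 880 7 715
noncomputable def n1285 : Strat := .win 797 2 755
noncomputable def n1286 : Strat := .move 800 n1285 (.cons 797 n1011 .nil)
noncomputable def n1287 : Strat := .move 755 n610 (.cons 754 n1286 .nil)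
noncomputable def n1288 : Strat := .move 756 n1284 (.cons 880 n1287 .nil)
noncomputable def n1289 : Strat := .move 715 n446 (.cons 674 n1288 .nil)
noncomputable def n1290 : Strat := .move 716 n939 (.cons 675 n1289 .nil)
noncomputable def n1291 : Strat := .move 881 n293 (.cons 922 n1282 .nil)
noncomputable def n1292 : Strat := .move 757 n1270 (.cons 922 n1283 (.cons 881 n1290 (.cons 716 n1291 .nil)))
noncomputable def n1293 : Strat := .move 841 n283 (.cons 796 n282 .nil)
noncomputable def n1294 : Strat := .win 800 2 755
noncomputable def n1295 : Strat := .win 878 3 714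
noncomputable def n1296 : Strat := .move 837 n1295 (.cons 878 n532 .nil)
noncomputable def n1297 : Strat := .move 715 n1237 (.cons 674 n1296 .nil)
noncomputable def n1298 : Strat := .move 756 n1294 (.cons 800 n1297 .nil)
noncomputable def n1299 : Strat := .move 755 n527 (.cons 754 n1298 .nil)
noncomputable def n1300 : Strat := .move 796 n485 (.cons 795 n1299 .nil)
noncomputable def n1301 : Strat := .move 759 n809 (.cons 760 n1253 .nil)
noncomputable def n1302 : Strat := .move 841 n372 (.cons 842 n1301 .nil)
noncomputable def n1303 : Strat := .move 881 n987 (.cons 718 n187 .nil)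
noncomputable def n1304 : Strat := .move 759 n809 (.cons 760 n1303 .nil)
noncomputable def n1305 : Strat := .move 841 n372 (.cons 842 n1304 .nil)
noncomputable def n1306 : Strat := .win 759 5 756
noncomputable def n1307 : Strat := .move 760 n408 (.cons 761 n1306 .nil)
noncomputable def n1308 : Strat := .move 801 n163 (.cons 802 n1307 .nil)
noncomputable def n1309 : Strat := .move 841 n372 (.cons 842 n1308 .nil)
noncomputable def n1310 : Strat := .move 760 n1306 (.cons 759 n408 .nil)
noncomputable def n1311 : Strat := .move 801 n163 (.cons 802 n1310 .nil)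
noncomputable def n1312 : Strat := .move 801 n163 (.cons 802 n536 .nil)
noncomputable def n1313 : Strat := .move 842 n535 (.cons 841 n1312 .nil)
noncomputable def n1314 : Strat := .move 800 n1302 (.cons 677 n1305 (.cons 718 n1309 (.cons 841 n1311 (.cons 759 n1313 .nil))))
noncomputable def n1315 : Strat := .move 797 n1293 (.cons 841 n1300 (.cons 796 n1314 .nil))
noncomputable def n1316 : Strat := .win 676 3 675
noncomputable def n1317 : Strat := .win 718 4 714
noncomputable def n1318 : Strat := .move 755 n1317 (.cons 718 n610 .nil)
noncomputable def n1319 : Strat := .move 717 n1316 (.cons 676 n1318 .nil)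
noncomputable def n1320 : Strat := .move 756 n1284 (.cons 880 n1319 .nil)
noncomputable def n1321 : Strat := .move 715 n446 (.cons 674 n1320 .nil)
noncomputable def n1322 : Strat := .move 716 n939 (.cons 675 n1321 .nil)
noncomputable def n1323 : Strat := .move 881 n1172 (.cons 922 n1273 .nil)
noncomputable def n1324 : Strat := .move 920 n1276 (.cons 879 n1275 .nil)
noncomputable def n1325 : Strat := .move 921 n1274 (.cons 962 n1324 .nil)
noncomputable def n1326 : Strat := .win 881 6 757
noncomputable def n1327 : Strat := .move 921 n1274 (.cons 962 n582 .nil)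
noncomputable def n1328 : Strat := .move 922 n1326 (.cons 881 n1327 .nil)
noncomputable def n1329 : Strat := .move 880 n1323 (.cons 881 n1325 (.cons 879 n1328 .nil))
noncomputable def n1330 : Strat := .move 757 n1270 (.cons 881 n1322 (.cons 716 n1329 .nil))
noncomputable def n1331 : Strat := .win 881 6 716
noncomputable def n1332 : Strat := .move 716 n939 (.cons 675 n1331 .nil)
noncomputable def n1333 : Strat := .move 921 n1279 (.cons 797 n1274 .nil)
noncomputable def n1334 : Strat := .move 756 n608 (.cons 715 n1333 .nil)
noncomputable def n1335 : Strat := .move 755 n1285 (.cons 797 n610 .nil)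
noncomputable def n1336 : Strat := .move 800 n1011 (.cons 801 n1335 .nil)
noncomputable def n1337 : Strat := .move 756 n608 (.cons 715 n1336 .nil)
noncomputable def n1338 : Strat := .move 880 n1278 (.cons 961 n1334 (.cons 921 n1337 .nil))
noncomputable def n1339 : Strat := .move 881 n293 (.cons 922 n1338 .nil)
noncomputable def n1340 : Strat := .move 757 n1270 (.cons 922 n1332 (.cons 881 n1290 (.cons 716 n1339 .nil)))
noncomputable def n1341 : Strat := .win 757 2 756
noncomputable def n1342 : Strat := .move 756 n1341 (.cons 757 n380 .nil)
noncomputable def n1343 : Strat := .move 801 n163 (.cons 802 n1342 .nil)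
noncomputable def n1344 : Strat := .win 921 7 756
noncomputable def n1345 : Strat := .win 757 7 715
noncomputable def n1346 : Strat := .move 715 n1345 (.cons 757 n1237 .nil)
noncomputable def n1347 : Strat := .move 880 n1344 (.cons 921 n1346 .nil)
noncomputable def n1348 : Strat := .move 756 n380 (.cons 755 n1347 .nil)
noncomputable def n1349 : Strat := .move 800 n1343 (.cons 801 n1348 (.cons 755 n1308 .nil))
noncomputable def n1350 : Strat := .move 841 n282 (.cons 842 n1349 .nil)
noncomputable def n1351 : Strat := .move 797 n1293 (.cons 842 n487 (.cons 841 n1300 (.cons 796 n1350 .nil)))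
noncomputable def n1352 : Strat := .move 800 n1301 (.cons 677 n1343 .nil)
noncomputable def n1353 : Strat := .move 797 n283 (.cons 796 n1352 .nil)
noncomputable def n1354 : Strat := .win 923 1 759
noncomputable def n1355 : Strat := .win 719 1 718
noncomputable def n1356 : Strat := .move 882 n1354 (.cons 923 n1355 .nil)
noncomputable def n1357 : Strat := .win 720 3 719
noncomputable def n1358 : Strat := .win 800 5 757
noncomputable def n1359 : Strat := .move 761 n1357 (.cons 720 n1358 .nil)
noncomputable def n1360 : Strat := .move 760 n1356 (.cons 719 n1359 .nil)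
noncomputable def n1361 : Strat := .move 883 n166 (.cons 884 n1360 .nil)
noncomputable def n1362 : Strat := .move 801 n972 (.cons 802 n1361 .nil)
noncomputable def n1363 : Strat := .move 842 n151 (.cons 843 n1362 .nil)
noncomputable def n1364 : Strat := .move 841 n957 (.cons 843 n301 (.cons 842 n1353 (.cons 797 n1363 .nil)))
noncomputable def n1365 : Strat := .move 922 n355 (.cons 757 n479 .nil)
noncomputable def n1366 : Strat := .move 757 n1269 (.cons 716 n293 .nil)
noncomputable def n1367 : Strat := .move 757 n1269 (.cons 716 n1282 .nil)
noncomputable def n1368 : Strat := .move 961 n556 (.cons 960 n555 .nil)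
noncomputable def n1369 : Strat := .move 920 n1368 (.cons 880 n554 .nil)
noncomputable def n1370 : Strat := .move 923 n58 (.cons 964 n1369 .nil)
noncomputable def n1371 : Strat := .move 921 n66 (.cons 962 n1370 .nil)
noncomputable def n1372 : Strat := .move 922 n479 (.cons 963 n1371 .nil)
noncomputable def n1373 : Strat := .move 881 n1365 (.cons 963 n1366 (.cons 922 n1367 (.cons 757 n1372 .nil)))
noncomputable def n1374 : Strat := .win 882 1 718
noncomputable def n1375 : Strat := .win 678 1 677
noncomputable def n1376 : Strat := .move 719 n1374 (.cons 882 n1375 .nil)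
noncomputable def n1377 : Strat := .move 760 n408 (.cons 761 n1376 .nil)
noncomputable def n1378 : Strat := .move 841 n1001 (.cons 797 n1377 .nil)
noncomputable def n1379 : Strat := .move 842 n536 (.cons 843 n1378 .nil)
noncomputable def n1380 : Strat := .move 801 n163 (.cons 802 n1379 .nil)
noncomputable def n1381 : Strat := .win 718 6 718
noncomputable def n1382 : Strat := .win 924 7 759
noncomputable def n1383 : Strat := .move 759 n1381 (.cons 718 n1382 .nil)
noncomputable def n1384 : Strat := .move 883 n166 (.cons 884 n1383 .nil)
noncomputable def n1385 : Strat := .move 841 n1001 (.cons 797 n1384 .nil)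
noncomputable def n1386 : Strat := .move 842 n536 (.cons 843 n1385 .nil)
noncomputable def n1387 : Strat := .move 801 n163 (.cons 802 n1386 .nil)
noncomputable def n1388 : Strat := .win 925 6 760
noncomputable def n1389 : Strat := .win 841 0 839
noncomputable def n1390 : Strat := .move 884 n1388 (.cons 925 n1389 .nil)
noncomputable def n1391 : Strat := .win 718 7 718
noncomputable def n1392 : Strat := .move 759 n1391 (.cons 718 n1382 .nil)
noncomputable def n1393 : Strat := .move 883 n1390 (.cons 841 n1392 .nil)
noncomputable def n1394 : Strat := .move 760 n408 (.cons 761 n1393 .nil)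
noncomputable def n1395 : Strat := .move 842 n536 (.cons 843 n1394 .nil)
noncomputable def n1396 : Strat := .move 801 n163 (.cons 802 n1395 .nil)
noncomputable def n1397 : Strat := .move 922 n355 (.cons 757 n674 .nil)
noncomputable def n1398 : Strat := .move 797 n809 (.cons 760 n283 .nil)
noncomputable def n1399 : Strat := .move 759 n987 (.cons 718 n1398 .nil)
noncomputable def n1400 : Strat := .move 881 n1397 (.cons 963 n988 (.cons 922 n1399 .nil))
noncomputable def n1401 : Strat := .win 882 6 759
noncomputable def n1402 : Strat := .win 965 7 800
noncomputable def n1403 : Strat := .move 924 n1401 (.cons 882 n1402 .nil)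
noncomputable def n1404 : Strat := .move 759 n1381 (.cons 718 n1403 .nil)
noncomputable def n1405 : Strat := .move 883 n166 (.cons 884 n1404 .nil)
noncomputable def n1406 : Strat := .move 842 n151 (.cons 843 n1405 .nil)
noncomputable def n1407 : Strat := .move 841 n1002 (.cons 842 n1400 (.cons 797 n1406 .nil))
noncomputable def n1408 : Strat := .move 796 n486 (.cons 841 n485 .nil)
noncomputable def n1409 : Strat := .move 797 n1306 (.cons 759 n1408 .nil)
noncomputable def n1410 : Strat := .move 760 n408 (.cons 761 n1409 .nil)
noncomputable def n1411 : Strat := .move 801 n163 (.cons 802 n1410 .nil)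
noncomputable def n1412 : Strat := .win 883 7 718
noncomputable def n1413 : Strat := .move 842 n1412 (.cons 883 n536 .nil)
noncomputable def n1414 : Strat := .move 718 n1252 (.cons 677 n1413 .nil)
noncomputable def n1415 : Strat := .move 759 n811 (.cons 797 n1414 .nil)
noncomputable def n1416 : Strat := .move 760 n408 (.cons 761 n1415 .nil)
noncomputable def n1417 : Strat := .move 801 n163 (.cons 802 n1416 .nil)
noncomputable def n1418 : Strat := .move 800 n1380 (.cons 719 n1387 (.cons 797 n1396 (.cons 801 n1407 (.cons 843 n1411 (.cons 841 n1417 .nil)))))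
noncomputable def n1419 : Strat := .move 798 n1292 (.cons 757 n1315 (.cons 797 n1330 (.cons 841 n1340 (.cons 881 n1351 (.cons 715 n1364 (.cons 755 n1373 (.cons 756 n1418 .nil)))))))
noncomputable def n1420 : Strat := .win 882 0 837
noncomputable def n1421 : Strat := .win 880 0 836
noncomputable def n1422 : Strat := .move 836 n1421 (.cons 880 n1233 .nil)
noncomputable def n1423 : Strat := .move 881 n1420 (.cons 882 n1422 .nil)
noncomputable def n1424 : Strat := .win 920 6 755
noncomputable def n1425 : Strat := .win 714 6 714
noncomputable def n1426 : Strat := .move 879 n1424 (.cons 920 n1425 .nil)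
noncomputable def n1427 : Strat := .win 919 3 755
noncomputable def n1428 : Strat := .win 715 1 714
noncomputable def n1429 : Strat := .move 756 n1427 (.cons 919 n1428 .nil)
noncomputable def n1430 : Strat := .win 960 3 796
noncomputable def n1431 : Strat := .win 756 3 755
noncomputable def n1432 : Strat := .move 919 n1430 (.cons 960 n1431 .nil)
noncomputable def n1433 : Strat := .win 798 2 754
noncomputable def n1434 : Strat := .win 713 7 713
noncomputable def n1435 : Strat := .move 754 n1433 (.cons 798 n1434 .nil)
noncomputable def n1436 : Strat := .move 797 n1429 (.cons 715 n1432 (.cons 919 n1435 .nil))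
noncomputable def n1437 : Strat := .move 755 n1426 (.cons 714 n1436 .nil)
noncomputable def n1438 : Strat := .move 878 n1097 (.cons 877 n1437 .nil)
noncomputable def n1439 : Strat := .move 796 n1093 (.cons 795 n1438 .nil)
noncomputable def n1440 : Strat := .move 837 n1227 (.cons 798 n1423 (.cons 836 n1439 .nil))
noncomputable def n1441 : Strat := .win 841 4 837
noncomputable def n1442 : Strat := .win 756 1 755
noncomputable def n1443 : Strat := .move 797 n1442 (.cons 756 n1430 .nil)
noncomputable def n1444 : Strat := .win 836 0 836
noncomputable def n1445 : Strat := .move 880 n252 (.cons 918 n1444 .nil)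
noncomputable def n1446 : Strat := .move 919 n1443 (.cons 960 n1445 .nil)
noncomputable def n1447 : Strat := .move 881 n1420 (.cons 882 n1446 .nil)
noncomputable def n1448 : Strat := .move 879 n1441 (.cons 841 n1447 .nil)
noncomputable def n1449 : Strat := .move 878 n1097 (.cons 877 n1448 .nil)
noncomputable def n1450 : Strat := .move 837 n1230 (.cons 795 n1449 (.cons 878 n1423 .nil))
noncomputable def n1451 : Strat := .win 841 2 796
noncomputable def n1452 : Strat := .move 878 n1097 (.cons 877 n1429 .nil)
noncomputable def n1453 : Strat := .move 797 n1451 (.cons 841 n1452 .nil)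
noncomputable def n1454 : Strat := .move 796 n1093 (.cons 795 n1453 .nil)
noncomputable def n1455 : Strat := .move 837 n1234 (.cons 796 n1227 (.cons 836 n1454 .nil))
noncomputable def n1456 : Strat := .move 836 n1223 (.cons 798 n1421 .nil)
noncomputable def n1457 : Strat := .move 881 n1420 (.cons 882 n1456 .nil)
noncomputable def n1458 : Strat := .win 881 0 837
noncomputable def n1459 : Strat := .move 882 n1458 (.cons 881 n967 .nil)
noncomputable def n1460 : Strat := .move 841 n1098 (.cons 879 n1459 .nil)
noncomputable def n1461 : Strat := .move 878 n1097 (.cons 877 n1460 .nil)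
noncomputable def n1462 : Strat := .move 837 n1227 (.cons 877 n1457 (.cons 836 n1461 .nil))
noncomputable def n1463 : Strat := .move 881 n1420 (.cons 882 n1421 .nil)
noncomputable def n1464 : Strat := .move 836 n1223 (.cons 798 n1463 .nil)
noncomputable def n1465 : Strat := .move 841 n1094 (.cons 797 n1459 .nil)
noncomputable def n1466 : Strat := .move 796 n1093 (.cons 795 n1465 .nil)
noncomputable def n1467 : Strat := .move 837 n1234 (.cons 798 n1423 (.cons 795 n1464 (.cons 836 n1466 .nil)))
noncomputable def n1468 : Strat := .move 842 n1103 (.cons 798 n970 .nil)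
noncomputable def n1469 : Strat := .move 797 n1054 (.cons 796 n1468 .nil)
noncomputable def n1470 : Strat := .win 844 4 840
noncomputable def n1471 : Strat := .move 843 n1470 (.cons 844 n154 .nil)
noncomputable def n1472 : Strat := .move 842 n975 (.cons 880 n1471 .nil)
noncomputable def n1473 : Strat := .move 879 n827 (.cons 878 n1472 .nil)
noncomputable def n1474 : Strat := .move 881 n135 (.cons 837 n1473 .nil)
noncomputable def n1475 : Strat := .move 882 n967 (.cons 883 n1474 .nil)
noncomputable def n1476 : Strat := .move 837 n1097 (.cons 877 n1458 .nil)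
noncomputable def n1477 : Strat := .move 878 n1098 (.cons 879 n1476 .nil)
noncomputable def n1478 : Strat := .move 797 n1054 (.cons 796 n1477 .nil)
noncomputable def n1479 : Strat := .move 882 n967 (.cons 883 n1478 .nil)
noncomputable def n1480 : Strat := .move 841 n1263 (.cons 880 n1469 (.cons 797 n1475 (.cons 842 n1479 .nil)))
noncomputable def n1481 : Strat := .move 841 n1054 (.cons 796 n1262 .nil)
noncomputable def n1482 : Strat := .win 756 6 756
noncomputable def n1483 : Strat := .move 921 n1274 (.cons 962 n1482 .nil)
noncomputable def n1484 : Strat := .move 841 n827 (.cons 878 n640 .nil)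
noncomputable def n1485 : Strat := .move 880 n1483 (.cons 921 n1484 .nil)
noncomputable def n1486 : Strat := .move 842 n1103 (.cons 798 n975 .nil)
noncomputable def n1487 : Strat := .move 841 n827 (.cons 878 n1486 .nil)
noncomputable def n1488 : Strat := .win 920 3 756
noncomputable def n1489 : Strat := .win 716 1 715
noncomputable def n1490 : Strat := .move 757 n1488 (.cons 920 n1489 .nil)
noncomputable def n1491 : Strat := .move 798 n282 (.cons 842 n1490 .nil)
noncomputable def n1492 : Strat := .move 841 n827 (.cons 878 n1491 .nil)
noncomputable def n1493 : Strat := .win 715 6 715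
noncomputable def n1494 : Strat := .win 921 6 756
noncomputable def n1495 : Strat := .move 880 n1493 (.cons 715 n1494 .nil)
noncomputable def n1496 : Strat := .win 880 6 756
noncomputable def n1497 : Strat := .win 962 6 797
noncomputable def n1498 : Strat := .win 798 3 756
noncomputable def n1499 : Strat := .win 716 3 715
noncomputable def n1500 : Strat := .move 757 n1498 (.cons 798 n1499 .nil)
noncomputable def n1501 : Strat := .move 920 n1497 (.cons 962 n1500 .nil)
noncomputable def n1502 : Strat := .move 921 n1496 (.cons 880 n1501 .nil)
noncomputable def n1503 : Strat := .move 798 n1488 (.cons 920 n1239 .nil)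
noncomputable def n1504 : Strat := .move 757 n1499 (.cons 716 n1503 .nil)
noncomputable def n1505 : Strat := .win 714 7 714
noncomputable def n1506 : Strat := .move 755 n610 (.cons 754 n1505 .nil)
noncomputable def n1507 : Strat := .move 798 n1488 (.cons 920 n1506 .nil)
noncomputable def n1508 : Strat := .move 757 n1499 (.cons 716 n1507 .nil)
noncomputable def n1509 : Strat := .move 756 n1495 (.cons 715 n1502 (.cons 921 n1504 (.cons 880 n1508 .nil)))
noncomputable def n1510 : Strat := .move 879 n1485 (.cons 962 n1487 (.cons 880 n1492 (.cons 878 n1509 .nil)))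
noncomputable def n1511 : Strat := .move 756 n1494 (.cons 921 n1493 .nil)
noncomputable def n1512 : Strat := .move 880 n640 (.cons 842 n1511 .nil)
noncomputable def n1513 : Strat := .move 879 n827 (.cons 878 n1512 .nil)
noncomputable def n1514 : Strat := .move 841 n1054 (.cons 796 n1513 .nil)
noncomputable def n1515 : Strat := .move 841 n1054 (.cons 796 n1468 .nil)
noncomputable def n1516 : Strat := .win 794 0 794
noncomputable def n1517 : Strat := .win 798 0 795
noncomputable def n1518 : Strat := .move 795 n1516 (.cons 794 n1517 .nil)
noncomputable def n1519 : Strat := .move 796 n1451 (.cons 841 n1518 .nil)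
noncomputable def n1520 : Strat := .win 879 6 756
noncomputable def n1521 : Strat := .move 921 n1274 (.cons 962 n1520 .nil)
noncomputable def n1522 : Strat := .move 880 n1493 (.cons 715 n1521 .nil)
noncomputable def n1523 : Strat := .win 798 6 674
noncomputable def n1524 : Strat := .win 634 3 633
noncomputable def n1525 : Strat := .win 716 3 674
noncomputable def n1526 : Strat := .move 675 n1524 (.cons 634 n1525 .nil)
noncomputable def n1527 : Strat := .move 674 n1523 (.cons 798 n1526 .nil)
noncomputable def n1528 : Strat := .move 715 n1238 (.cons 880 n1527 .nil)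
noncomputable def n1529 : Strat := .win 919 1 755
noncomputable def n1530 : Strat := .move 878 n1271 (.cons 877 n1529 .nil)
noncomputable def n1531 : Strat := .move 880 n1494 (.cons 921 n1530 .nil)
noncomputable def n1532 : Strat := .move 757 n345 (.cons 798 n1499 .nil)
noncomputable def n1533 : Strat := .win 961 3 797
noncomputable def n1534 : Strat := .win 757 1 756
noncomputable def n1535 : Strat := .move 798 n1533 (.cons 961 n1534 .nil)
noncomputable def n1536 : Strat := .win 796 7 755
noncomputable def n1537 : Strat := .move 755 n1536 (.cons 796 n1505 .nil)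
noncomputable def n1538 : Strat := .move 920 n1532 (.cons 716 n1535 (.cons 798 n1537 .nil))
noncomputable def n1539 : Strat := .move 880 n1530 (.cons 919 n1538 .nil)
noncomputable def n1540 : Strat := .win 960 1 796
noncomputable def n1541 : Strat := .win 878 1 755
noncomputable def n1542 : Strat := .move 919 n1540 (.cons 960 n1541 .nil)
noncomputable def n1543 : Strat := .move 920 n1497 (.cons 962 n1542 .nil)
noncomputable def n1544 : Strat := .move 921 n1496 (.cons 880 n1543 .nil)
noncomputable def n1545 : Strat := .move 879 n1531 (.cons 921 n1539 (.cons 877 n1544 (.cons 880 n1508 .nil)))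
noncomputable def n1546 : Strat := .move 920 n1498 (.cons 798 n1542 .nil)
noncomputable def n1547 : Strat := .move 757 n1499 (.cons 716 n1546 .nil)
noncomputable def n1548 : Strat := .win 920 7 755
noncomputable def n1549 : Strat := .move 795 n1517 (.cons 798 n1516 .nil)
noncomputable def n1550 : Strat := .move 796 n1548 (.cons 920 n1549 .nil)
noncomputable def n1551 : Strat := .move 755 n1505 (.cons 714 n1550 .nil)
noncomputable def n1552 : Strat := .win 755 7 714
noncomputable def n1553 : Strat := .win 673 7 673
noncomputable def n1554 : Strat := .win 757 3 715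
noncomputable def n1555 : Strat := .win 675 3 674
noncomputable def n1556 : Strat := .move 716 n1554 (.cons 757 n1555 .nil)
noncomputable def n1557 : Strat := .move 715 n1553 (.cons 673 n1556 .nil)
noncomputable def n1558 : Strat := .move 714 n1552 (.cons 755 n1557 .nil)
noncomputable def n1559 : Strat := .move 879 n1508 (.cons 754 n1547 (.cons 757 n1551 (.cons 798 n1558 .nil)))
noncomputable def n1560 : Strat := .move 756 n1522 (.cons 879 n1528 (.cons 715 n1545 (.cons 880 n1559 .nil)))
noncomputable def n1561 : Strat := .move 797 n1481 (.cons 796 n1510 (.cons 798 n1514 (.cons 879 n1515 (.cons 842 n1519 (.cons 841 n1560 .nil)))))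
noncomputable def n1562 : Strat := .move 838 n1235 (.cons 841 n1440 (.cons 798 n1450 (.cons 879 n1455 (.cons 796 n1462 (.cons 878 n1467 (.cons 836 n1480 (.cons 837 n1561 .nil)))))))
noncomputable def n1563 : Strat := .move 837 n1092 (.cons 800 n1423 .nil)
noncomputable def n1564 : Strat := .move 837 n1092 (.cons 800 n1449 .nil)
noncomputable def n1565 : Strat := .move 797 n1054 (.cons 796 n1511 .nil)
noncomputable def n1566 : Strat := .move 880 n640 (.cons 842 n1565 .nil)
noncomputable def n1567 : Strat := .move 879 n827 (.cons 878 n1566 .nil)
noncomputable def n1568 : Strat := .win 760 3 718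
noncomputable def n1569 : Strat := .move 719 n789 (.cons 678 n1568 .nil)
noncomputable def n1570 : Strat := .move 718 n1252 (.cons 677 n1569 .nil)
noncomputable def n1571 : Strat := .win 881 1 758
noncomputable def n1572 : Strat := .move 923 n574 (.cons 963 n1244 .nil)
noncomputable def n1573 : Strat := .move 922 n1571 (.cons 881 n1572 .nil)
noncomputable def n1574 : Strat := .move 759 n1253 (.cons 677 n1254 (.cons 881 n1570 (.cons 718 n1573 .nil)))
noncomputable def n1575 : Strat := .move 882 n967 (.cons 883 n1574 .nil)
noncomputable def n1576 : Strat := .move 800 n159 (.cons 801 n1575 .nil)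
noncomputable def n1577 : Strat := .move 841 n1266 (.cons 800 n1567 (.cons 879 n1576 .nil))
noncomputable def n1578 : Strat := .move 838 n1236 (.cons 800 n1450 (.cons 878 n1563 (.cons 795 n1564 (.cons 837 n1577 .nil))))
noncomputable def n1579 : Strat := .win 798 4 795
noncomputable def n1580 : Strat := .move 877 n1225 (.cons 876 n1224 .nil)
noncomputable def n1581 : Strat := .move 836 n1579 (.cons 798 n1580 .nil)
noncomputable def n1582 : Strat := .move 797 n1451 (.cons 841 n1581 .nil)
noncomputable def n1583 : Strat := .move 796 n1093 (.cons 795 n1582 .nil)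
noncomputable def n1584 : Strat := .move 837 n1092 (.cons 800 n1583 .nil)
noncomputable def n1585 : Strat := .move 801 n1102 (.cons 800 n972 .nil)
noncomputable def n1586 : Strat := .move 842 n1103 (.cons 798 n1585 .nil)
noncomputable def n1587 : Strat := .move 797 n1054 (.cons 796 n1586 .nil)
noncomputable def n1588 : Strat := .move 800 n374 (.cons 801 n1240 .nil)
noncomputable def n1589 : Strat := .move 798 n282 (.cons 842 n1588 .nil)
noncomputable def n1590 : Strat := .move 797 n1054 (.cons 796 n1589 .nil)
noncomputable def n1591 : Strat := .move 880 n1494 (.cons 921 n1493 .nil)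
noncomputable def n1592 : Strat := .win 798 2 755
noncomputable def n1593 : Strat := .move 755 n1505 (.cons 714 n1592 .nil)
noncomputable def n1594 : Strat := .move 756 n1591 (.cons 715 n1593 .nil)
noncomputable def n1595 : Strat := .move 879 n827 (.cons 878 n1594 .nil)
noncomputable def n1596 : Strat := .move 797 n1054 (.cons 796 n1595 .nil)
noncomputable def n1597 : Strat := .move 800 n159 (.cons 801 n1596 .nil)
noncomputable def n1598 : Strat := .move 842 n972 (.cons 802 n970 .nil)
noncomputable def n1599 : Strat := .move 801 n1102 (.cons 800 n1598 .nil)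
noncomputable def n1600 : Strat := .move 841 n1587 (.cons 802 n1590 (.cons 842 n1597 (.cons 797 n1599 (.cons 800 n1263 .nil))))
noncomputable def n1601 : Strat := .move 842 n975 (.cons 880 n970 .nil)
noncomputable def n1602 : Strat := .move 879 n827 (.cons 878 n1601 .nil)
noncomputable def n1603 : Strat := .move 841 n1263 (.cons 797 n1602 (.cons 879 n1469 (.cons 842 n1101 .nil)))
noncomputable def n1604 : Strat := .move 838 n1584 (.cons 837 n1600 (.cons 798 n1236 (.cons 878 n1222 (.cons 800 n1603 .nil))))
noncomputable def n1605 : Strat := .move 838 n160 (.cons 837 n1221 .nil)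
noncomputable def n1606 : Strat := .move 756 n380 (.cons 755 n1341 .nil)
noncomputable def n1607 : Strat := .move 797 n535 (.cons 841 n1606 .nil)
noncomputable def n1608 : Strat := .move 842 n536 (.cons 843 n1607 .nil)
noncomputable def n1609 : Strat := .move 757 n1009 (.cons 756 n1270 .nil)
noncomputable def n1610 : Strat := .move 798 n1608 (.cons 756 n1379 (.cons 842 n1609 .nil))
noncomputable def n1611 : Strat := .move 801 n163 (.cons 802 n1610 .nil)
noncomputable def n1612 : Strat := .move 881 n987 (.cons 718 n180 .nil)
noncomputable def n1613 : Strat := .move 759 n1253 (.cons 677 n1612 (.cons 881 n1570 (.cons 718 n1573 .nil)))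
noncomputable def n1614 : Strat := .move 882 n967 (.cons 883 n1613 .nil)
noncomputable def n1615 : Strat := .move 841 n159 (.cons 801 n1614 .nil)
noncomputable def n1616 : Strat := .move 838 n160 (.cons 837 n1615 .nil)
noncomputable def n1617 : Strat := .move 798 n372 (.cons 842 n1301 .nil)
noncomputable def n1618 : Strat := .move 797 n1054 (.cons 796 n1617 .nil)
noncomputable def n1619 : Strat := .move 879 n827 (.cons 878 n1490 .nil)
noncomputable def n1620 : Strat := .move 798 n372 (.cons 842 n1619 .nil)
noncomputable def n1621 : Strat := .move 797 n1054 (.cons 796 n1620 .nil)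
noncomputable def n1622 : Strat := .move 841 n1618 (.cons 798 n1614 (.cons 677 n1621 .nil))
noncomputable def n1623 : Strat := .move 838 n160 (.cons 837 n1622 .nil)
noncomputable def n1624 : Strat := .move 800 n1605 (.cons 838 n1611 (.cons 798 n1616 (.cons 801 n1623 .nil)))
noncomputable def n1625 : Strat := .move 838 n374 (.cons 801 n1240 .nil)
noncomputable def n1626 : Strat := .move 800 n1625 (.cons 838 n1301 .nil)
noncomputable def n1627 : Strat := .move 797 n283 (.cons 796 n1626 .nil)
noncomputable def n1628 : Strat := .move 716 n1331 (.cons 881 n939 .nil)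
noncomputable def n1629 : Strat := .move 757 n1009 (.cons 756 n1628 .nil)
noncomputable def n1630 : Strat := .move 800 n377 (.cons 838 n1629 .nil)
noncomputable def n1631 : Strat := .move 801 n972 (.cons 802 n1630 .nil)
noncomputable def n1632 : Strat := .move 842 n151 (.cons 843 n1631 .nil)
noncomputable def n1633 : Strat := .move 798 n957 (.cons 843 n301 (.cons 842 n1627 (.cons 797 n1632 .nil)))
noncomputable def n1634 : Strat := .move 759 n1382 (.cons 924 n1381 .nil)
noncomputable def n1635 : Strat := .move 800 n162 (.cons 838 n1634 .nil)
noncomputable def n1636 : Strat := .move 883 n166 (.cons 884 n1635 .nil)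
noncomputable def n1637 : Strat := .move 801 n972 (.cons 802 n1636 .nil)
noncomputable def n1638 : Strat := .win 881 4 839
noncomputable def n1639 : Strat := .move 884 n156 (.cons 883 n155 .nil)
noncomputable def n1640 : Strat := .move 843 n1638 (.cons 881 n1639 .nil)
noncomputable def n1641 : Strat := .move 880 n978 (.cons 879 n1640 .nil)
noncomputable def n1642 : Strat := .move 880 n1638 (.cons 881 n978 .nil)
noncomputable def n1643 : Strat := .move 843 n1051 (.cons 844 n1642 .nil)
noncomputable def n1644 : Strat := .move 800 n162 (.cons 838 n1643 .nil)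
noncomputable def n1645 : Strat := .move 801 n972 (.cons 802 n1644 .nil)
noncomputable def n1646 : Strat := .move 842 n1637 (.cons 801 n1641 (.cons 883 n1645 .nil))
noncomputable def n1647 : Strat := .move 881 n1172 (.cons 922 n1269 .nil)
noncomputable def n1648 : Strat := .win 800 2 756
noncomputable def n1649 : Strat := .move 756 n608 (.cons 715 n1648 .nil)
noncomputable def n1650 : Strat := .move 757 n1628 (.cons 675 n1647 (.cons 881 n1649 .nil))
noncomputable def n1651 : Strat := .move 880 n978 (.cons 879 n1650 .nil)
noncomputable def n1652 : Strat := .move 801 n972 (.cons 802 n1651 .nil)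
noncomputable def n1653 : Strat := .move 798 n152 (.cons 797 n1652 .nil)
noncomputable def n1654 : Strat := .win 801 5 798
noncomputable def n1655 : Strat := .win 803 5 799
noncomputable def n1656 : Strat := .move 802 n1654 (.cons 801 n1655 .nil)
noncomputable def n1657 : Strat := .move 843 n154 (.cons 798 n1656 .nil)
noncomputable def n1658 : Strat := .move 843 n1638 (.cons 881 n1051 .nil)
noncomputable def n1659 : Strat := .move 800 n1658 (.cons 844 n1634 .nil)
noncomputable def n1660 : Strat := .move 880 n978 (.cons 879 n1659 .nil)
noncomputable def n1661 : Strat := .move 883 n166 (.cons 884 n1660 .nil)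
noncomputable def n1662 : Strat := .move 801 n972 (.cons 802 n1661 .nil)
noncomputable def n1663 : Strat := .move 842 n462 (.cons 843 n1653 (.cons 797 n1657 (.cons 798 n1662 .nil)))
noncomputable def n1664 : Strat := .move 838 n827 (.cons 878 n969 .nil)
noncomputable def n1665 : Strat := .move 879 n975 (.cons 880 n1664 .nil)
noncomputable def n1666 : Strat := .move 883 n166 (.cons 884 n1665 .nil)
noncomputable def n1667 : Strat := .move 798 n152 (.cons 797 n1666 .nil)
noncomputable def n1668 : Strat := .move 842 n462 (.cons 798 n1641 (.cons 843 n1667 .nil))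
noncomputable def n1669 : Strat := .move 838 n1587 (.cons 802 n1590 (.cons 842 n1597 (.cons 797 n1599 (.cons 800 n1263 .nil))))
noncomputable def n1670 : Strat := .move 838 n159 (.cons 801 n1259 .nil)
noncomputable def n1671 : Strat := .move 797 n1306 (.cons 759 n283 .nil)
noncomputable def n1672 : Strat := .move 760 n408 (.cons 761 n1671 .nil)
noncomputable def n1673 : Strat := .move 798 n1629 (.cons 675 n1672 .nil)
noncomputable def n1674 : Strat := .move 801 n163 (.cons 802 n1673 .nil)
noncomputable def n1675 : Strat := .move 838 n159 (.cons 801 n1596 .nil)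
noncomputable def n1676 : Strat := .move 838 n1259 (.cons 882 n1596 (.cons 796 n1575 .nil))
noncomputable def n1677 : Strat := .move 800 n1670 (.cons 838 n1674 (.cons 881 n1675 (.cons 798 n229 (.cons 801 n1676 .nil))))
noncomputable def n1678 : Strat := .win 798 0 798
noncomputable def n1679 : Strat := .move 843 n1678 (.cons 798 n1051 .nil)
noncomputable def n1680 : Strat := .move 800 n162 (.cons 838 n1679 .nil)
noncomputable def n1681 : Strat := .move 801 n972 (.cons 802 n1680 .nil)
noncomputable def n1682 : Strat := .move 842 n462 (.cons 797 n1681 (.cons 798 n1637 .nil))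
noncomputable def n1683 : Strat := .move 841 n1633 (.cons 798 n1646 (.cons 838 n1663 (.cons 801 n1668 (.cons 881 n1669 (.cons 842 n1677 (.cons 880 n1682 .nil))))))
noncomputable def n1684 : Strat := .move 837 n1092 (.cons 800 n1227 .nil)
noncomputable def n1685 : Strat := .move 755 n1424 (.cons 920 n1425 .nil)
noncomputable def n1686 : Strat := .move 796 n1093 (.cons 795 n1685 .nil)
noncomputable def n1687 : Strat := .move 879 n1441 (.cons 841 n1686 .nil)
noncomputable def n1688 : Strat := .move 878 n1097 (.cons 877 n1687 .nil)
noncomputable def n1689 : Strat := .move 837 n1227 (.cons 876 n1457 (.cons 836 n1688 .nil))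
noncomputable def n1690 : Strat := .win 841 5 797
noncomputable def n1691 : Strat := .move 801 n163 (.cons 802 n1690 .nil)
noncomputable def n1692 : Strat := .move 800 n160 (.cons 837 n1691 .nil)
noncomputable def n1693 : Strat := .move 842 n975 (.cons 880 n1246 .nil)
noncomputable def n1694 : Strat := .move 879 n827 (.cons 878 n1693 .nil)
noncomputable def n1695 : Strat := .move 800 n159 (.cons 801 n1694 .nil)
noncomputable def n1696 : Strat := .move 842 n166 (.cons 884 n1246 .nil)
noncomputable def n1697 : Strat := .move 883 n969 (.cons 882 n1696 .nil)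
noncomputable def n1698 : Strat := .move 800 n159 (.cons 801 n1697 .nil)
noncomputable def n1699 : Strat := .move 841 n1250 (.cons 800 n1602 (.cons 882 n1695 (.cons 880 n1698 (.cons 842 n1576 .nil))))
noncomputable def n1700 : Strat := .move 838 n1684 (.cons 800 n1689 (.cons 798 n1692 (.cons 837 n1699 .nil)))
noncomputable def n1701 : Strat := .move 837 n1227 (.cons 878 n1234 (.cons 798 n1230 .nil))
noncomputable def n1702 : Strat := .move 837 n1092 (.cons 800 n1234 .nil)
noncomputable def n1703 : Strat := .move 841 n159 (.cons 801 n1259 .nil)
noncomputable def n1704 : Strat := .move 841 n1259 (.cons 882 n1596 (.cons 796 n1575 .nil))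
noncomputable def n1705 : Strat := .move 800 n1703 (.cons 841 n1221 (.cons 798 n1691 (.cons 801 n1704 .nil)))
noncomputable def n1706 : Strat := .move 838 n1684 (.cons 800 n1701 (.cons 798 n1236 (.cons 878 n1702 (.cons 837 n1705 .nil))))
noncomputable def n1707 : Strat := .move 838 n160 (.cons 837 n1220 .nil)
noncomputable def n1708 : Strat := .move 801 n163 (.cons 802 n1707 .nil)
noncomputable def n1709 : Strat := .move 841 n1001 (.cons 797 n1629 .nil)
noncomputable def n1710 : Strat := .move 842 n536 (.cons 843 n1709 .nil)
noncomputable def n1711 : Strat := .move 842 n1001 (.cons 797 n1629 .nil)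
noncomputable def n1712 : Strat := .move 842 n1001 (.cons 797 n1377 .nil)
noncomputable def n1713 : Strat := .move 841 n1711 (.cons 842 n1629 (.cons 757 n1712 .nil))
noncomputable def n1714 : Strat := .move 798 n1710 (.cons 843 n1713 (.cons 797 n1609 (.cons 757 n1379 .nil)))
noncomputable def n1715 : Strat := .move 801 n163 (.cons 802 n1714 .nil)
noncomputable def n1716 : Strat := .move 838 n160 (.cons 837 n1690 .nil)
noncomputable def n1717 : Strat := .move 801 n163 (.cons 802 n1716 .nil)
noncomputable def n1718 : Strat := .move 798 n1001 (.cons 797 n151 .nil)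
noncomputable def n1719 : Strat := .move 883 n166 (.cons 884 n969 .nil)
noncomputable def n1720 : Strat := .move 798 n151 (.cons 843 n1719 .nil)
noncomputable def n1721 : Strat := .move 842 n1718 (.cons 797 n1720 (.cons 798 n970 .nil))
noncomputable def n1722 : Strat := .move 842 n1718 (.cons 797 n1052 (.cons 798 n1261 .nil))
noncomputable def n1723 : Strat := .move 841 n1721 (.cons 842 n1575 (.cons 882 n1722 .nil))
noncomputable def n1724 : Strat := .move 838 n160 (.cons 837 n1723 .nil)
noncomputable def n1725 : Strat := .move 800 n1708 (.cons 838 n1715 (.cons 798 n1717 (.cons 801 n1724 .nil)))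
noncomputable def n1726 : Strat := .move 801 n1220 (.cons 798 n1690 .nil)
noncomputable def n1727 : Strat := .move 838 n160 (.cons 837 n1726 .nil)
noncomputable def n1728 : Strat := .move 838 n1220 (.cons 798 n1690 .nil)
noncomputable def n1729 : Strat := .move 801 n163 (.cons 802 n1728 .nil)
noncomputable def n1730 : Strat := .move 842 n1053 (.cons 798 n1245 .nil)
noncomputable def n1731 : Strat := .move 797 n1054 (.cons 796 n1730 .nil)
noncomputable def n1732 : Strat := .move 843 n1051 (.cons 844 n157 .nil)
noncomputable def n1733 : Strat := .move 842 n975 (.cons 880 n1732 .nil)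
noncomputable def n1734 : Strat := .move 879 n827 (.cons 878 n1733 .nil)
noncomputable def n1735 : Strat := .move 841 n1242 (.cons 755 n1731 (.cons 797 n1694 (.cons 842 n1596 (.cons 798 n1734 (.cons 880 n1618 .nil)))))
noncomputable def n1736 : Strat := .move 838 n160 (.cons 837 n1735 .nil)
noncomputable def n1737 : Strat := .move 797 n535 (.cons 841 n1310 .nil)
noncomputable def n1738 : Strat := .move 842 n536 (.cons 843 n1737 .nil)
noncomputable def n1739 : Strat := .move 798 n1608 (.cons 843 n1609 (.cons 757 n1738 .nil))
noncomputable def n1740 : Strat := .move 801 n163 (.cons 802 n1739 .nil)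
noncomputable def n1741 : Strat := .move 800 n1708 (.cons 798 n1717 (.cons 802 n1727 (.cons 837 n1729 (.cons 801 n1736 (.cons 838 n1740 .nil)))))
noncomputable def n1742 : Strat := .move 838 n160 (.cons 837 n1691 .nil)
noncomputable def n1743 : Strat := .move 963 n358 (.cons 841 n1028 .nil)
noncomputable def n1744 : Strat := .move 922 n357 (.cons 759 n1743 .nil)
noncomputable def n1745 : Strat := .move 798 n355 (.cons 757 n479 .nil)
noncomputable def n1746 : Strat := .move 922 n357 (.cons 759 n1745 .nil)
noncomputable def n1747 : Strat := .move 962 n363 (.cons 1003 n362 .nil)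
noncomputable def n1748 : Strat := .move 963 n358 (.cons 841 n1747 .nil)
noncomputable def n1749 : Strat := .move 922 n357 (.cons 759 n1748 .nil)
noncomputable def n1750 : Strat := .win 841 1 717
noncomputable def n1751 : Strat := .move 718 n1252 (.cons 677 n1750 .nil)
noncomputable def n1752 : Strat := .move 759 n187 (.cons 922 n1751 .nil)
noncomputable def n1753 : Strat := .move 715 n1238 (.cons 880 n1237 .nil)
noncomputable def n1754 : Strat := .move 756 n380 (.cons 755 n1753 .nil)
noncomputable def n1755 : Strat := .move 797 n487 (.cons 841 n1754 .nil)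
noncomputable def n1756 : Strat := .move 798 n1365 (.cons 963 n1366 (.cons 922 n1755 .nil))
noncomputable def n1757 : Strat := .move 759 n809 (.cons 760 n987 .nil)
noncomputable def n1758 : Strat := .move 798 n372 (.cons 842 n1757 .nil)
noncomputable def n1759 : Strat := .move 797 n1054 (.cons 796 n1758 .nil)
noncomputable def n1760 : Strat := .move 798 n151 (.cons 843 n1001 .nil)
noncomputable def n1761 : Strat := .move 842 n166 (.cons 884 n1760 .nil)
noncomputable def n1762 : Strat := .move 883 n969 (.cons 882 n1761 .nil)
noncomputable def n1763 : Strat := .move 882 n1120 (.cons 719 n967 .nil)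
noncomputable def n1764 : Strat := .move 797 n1255 (.cons 798 n1054 .nil)
noncomputable def n1765 : Strat := .move 760 n1763 (.cons 883 n1764 .nil)
noncomputable def n1766 : Strat := .move 759 n987 (.cons 718 n1765 .nil)
noncomputable def n1767 : Strat := .move 843 n1060 (.cons 880 n1051 .nil)
noncomputable def n1768 : Strat := .move 842 n166 (.cons 884 n1767 .nil)
noncomputable def n1769 : Strat := .move 883 n969 (.cons 882 n1768 .nil)
noncomputable def n1770 : Strat := .move 841 n1759 (.cons 796 n1762 (.cons 842 n1766 (.cons 797 n1697 (.cons 798 n1769 .nil))))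
noncomputable def n1771 : Strat := .move 881 n1744 (.cons 841 n1746 (.cons 798 n1749 (.cons 963 n1752 (.cons 759 n1756 (.cons 922 n1770 .nil)))))
noncomputable def n1772 : Strat := .move 838 n160 (.cons 837 n1771 .nil)
noncomputable def n1773 : Strat := .move 800 n1708 (.cons 838 n1740 (.cons 798 n1742 (.cons 802 n1727 (.cons 801 n1772 .nil))))
noncomputable def n1774 : Strat := .move 798 n1609 (.cons 922 n1608 (.cons 757 n1738 .nil))
noncomputable def n1775 : Strat := .move 801 n163 (.cons 802 n1774 .nil)
noncomputable def n1776 : Strat := .move 841 n1242 (.cons 755 n1618 (.cons 797 n1694 (.cons 798 n1567 (.cons 842 n1596 .nil))))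
noncomputable def n1777 : Strat := .move 838 n160 (.cons 837 n1776 .nil)
noncomputable def n1778 : Strat := .move 800 n1605 (.cons 802 n1727 (.cons 837 n1729 (.cons 838 n1775 (.cons 801 n1777 (.cons 798 n1742 .nil)))))
noncomputable def n1779 : Strat := .win 800 4 796
noncomputable def n1780 : Strat := .win 836 5 795
noncomputable def n1781 : Strat := .move 837 n1779 (.cons 800 n1780 .nil)
noncomputable def n1782 : Strat := .move 800 n374 (.cons 801 n1754 .nil)
noncomputable def n1783 : Strat := .win 879 6 714
noncomputable def n1784 : Strat := .win 673 6 673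
noncomputable def n1785 : Strat := .move 714 n1783 (.cons 879 n1784 .nil)
noncomputable def n1786 : Strat := .move 755 n527 (.cons 754 n1785 .nil)
noncomputable def n1787 : Strat := .move 796 n485 (.cons 795 n1786 .nil)
noncomputable def n1788 : Strat := .move 837 n1780 (.cons 836 n1787 .nil)
noncomputable def n1789 : Strat := .move 838 n1781 (.cons 837 n1782 (.cons 800 n1788 .nil))
noncomputable def n1790 : Strat := .move 838 n375 (.cons 837 n374 .nil)
noncomputable def n1791 : Strat := .move 801 n163 (.cons 802 n1341 .nil)
noncomputable def n1792 : Strat := .move 756 n380 (.cons 755 n1791 .nil)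
noncomputable def n1793 : Strat := .move 838 n375 (.cons 837 n1754 .nil)
noncomputable def n1794 : Strat := .move 800 n1790 (.cons 838 n1792 (.cons 801 n1793 .nil))
noncomputable def n1795 : Strat := .win 918 1 754
noncomputable def n1796 : Strat := .win 838 4 836
noncomputable def n1797 : Strat := .move 877 n1795 (.cons 918 n1796 .nil)
noncomputable def n1798 : Strat := .win 715 3 714
noncomputable def n1799 : Strat := .move 756 n1798 (.cons 715 n1427 .nil)
noncomputable def n1800 : Strat := .move 878 n1797 (.cons 838 n1799 .nil)
noncomputable def n1801 : Strat := .move 755 n527 (.cons 754 n1800 .nil)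
noncomputable def n1802 : Strat := .move 837 n532 (.cons 836 n1801 .nil)
noncomputable def n1803 : Strat := .move 796 n485 (.cons 795 n1802 .nil)
noncomputable def n1804 : Strat := .move 838 n1779 (.cons 800 n1786 .nil)
noncomputable def n1805 : Strat := .move 837 n532 (.cons 836 n1804 .nil)
noncomputable def n1806 : Strat := .move 796 n485 (.cons 795 n1805 .nil)
noncomputable def n1807 : Strat := .move 796 n485 (.cons 795 n532 .nil)
noncomputable def n1808 : Strat := .move 837 n531 (.cons 838 n1807 .nil)
noncomputable def n1809 : Strat := .move 800 n1790 (.cons 801 n1808 (.cons 838 n1311 .nil))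
noncomputable def n1810 : Strat := .move 800 n528 (.cons 756 n563 .nil)
noncomputable def n1811 : Strat := .move 755 n527 (.cons 754 n1810 .nil)
noncomputable def n1812 : Strat := .move 796 n485 (.cons 795 n1811 .nil)
noncomputable def n1813 : Strat := .move 797 n1789 (.cons 838 n1300 (.cons 796 n1794 (.cons 800 n1803 (.cons 715 n1806 (.cons 755 n1809 (.cons 837 n1812 .nil))))))
noncomputable def n1814 : Strat := .move 838 n1444 (.cons 836 n1092 .nil)
noncomputable def n1815 : Strat := .move 838 n1420 (.cons 882 n1444 .nil)
noncomputable def n1816 : Strat := .move 838 n1420 (.cons 882 n1092 .nil)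
noncomputable def n1817 : Strat := .move 878 n248 (.cons 836 n1271 .nil)
noncomputable def n1818 : Strat := .move 837 n1814 (.cons 800 n1815 (.cons 836 n1816 (.cons 838 n1817 .nil)))
noncomputable def n1819 : Strat := .move 879 n639 (.cons 920 n1818 .nil)
noncomputable def n1820 : Strat := .move 880 n1278 (.cons 961 n1334 (.cons 921 n1819 .nil))
noncomputable def n1821 : Strat := .move 881 n293 (.cons 922 n1820 .nil)
noncomputable def n1822 : Strat := .win 879 1 715
noncomputable def n1823 : Strat := .move 837 n1092 (.cons 800 n1780 .nil)
noncomputable def n1824 : Strat := .move 838 n1822 (.cons 879 n1823 .nil)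
noncomputable def n1825 : Strat := .move 716 n939 (.cons 675 n1824 .nil)
noncomputable def n1826 : Strat := .move 757 n1332 (.cons 675 n1270 (.cons 716 n1821 (.cons 881 n1825 .nil)))
noncomputable def n1827 : Strat := .move 801 n163 (.cons 802 n1609 .nil)
noncomputable def n1828 : Strat := .win 838 5 796
noncomputable def n1829 : Strat := .move 880 n1345 (.cons 757 n1344 .nil)
noncomputable def n1830 : Strat := .move 715 n1237 (.cons 674 n1829 .nil)
noncomputable def n1831 : Strat := .move 756 n380 (.cons 755 n1830 .nil)
noncomputable def n1832 : Strat := .move 797 n1807 (.cons 836 n1831 .nil)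
noncomputable def n1833 : Strat := .move 837 n1828 (.cons 838 n1832 .nil)
noncomputable def n1834 : Strat := .move 800 n378 (.cons 838 n1827 (.cons 802 n704 (.cons 801 n1833 .nil)))
noncomputable def n1835 : Strat := .win 675 1 674
noncomputable def n1836 : Strat := .move 716 n1331 (.cons 881 n1835 .nil)
noncomputable def n1837 : Strat := .move 881 n293 (.cons 922 n1269 .nil)
noncomputable def n1838 : Strat := .move 716 n1822 (.cons 879 n1835 .nil)
noncomputable def n1839 : Strat := .move 796 n527 (.cons 754 n485 .nil)
noncomputable def n1840 : Strat := .move 755 n528 (.cons 756 n1839 .nil)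
noncomputable def n1841 : Strat := .move 757 n1836 (.cons 675 n1837 (.cons 881 n1838 (.cons 716 n1840 .nil)))
noncomputable def n1842 : Strat := .move 838 n375 (.cons 837 n1841 .nil)
noncomputable def n1843 : Strat := .move 757 n1331 (.cons 881 n1835 .nil)
noncomputable def n1844 : Strat := .move 757 n1822 (.cons 879 n1331 .nil)
noncomputable def n1845 : Strat := .move 757 n1822 (.cons 879 n1835 .nil)
noncomputable def n1846 : Strat := .move 715 n1555 (.cons 675 n1237 .nil)
noncomputable def n1847 : Strat := .move 716 n1843 (.cons 675 n1844 (.cons 881 n1845 (.cons 757 n1846 .nil)))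
noncomputable def n1848 : Strat := .move 756 n380 (.cons 755 n1847 .nil)
noncomputable def n1849 : Strat := .move 838 n375 (.cons 837 n1848 .nil)
noncomputable def n1850 : Strat := .move 759 n809 (.cons 760 n529 .nil)
noncomputable def n1851 : Strat := .move 796 n485 (.cons 795 n1850 .nil)
noncomputable def n1852 : Strat := .move 797 n1842 (.cons 796 n1849 (.cons 755 n1808 (.cons 838 n1851 .nil)))
noncomputable def n1853 : Strat := .move 800 n378 (.cons 838 n1827 (.cons 802 n704 (.cons 801 n1852 .nil)))
noncomputable def n1854 : Strat := .move 755 n528 (.cons 756 n527 .nil)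
noncomputable def n1855 : Strat := .move 796 n485 (.cons 795 n1854 .nil)
noncomputable def n1856 : Strat := .move 797 n1793 (.cons 838 n1855 (.cons 756 n1808 .nil))
noncomputable def n1857 : Strat := .move 800 n704 (.cons 838 n1417 (.cons 801 n1856 .nil))
noncomputable def n1858 : Strat := .move 757 n1326 (.cons 881 n1277 .nil)
noncomputable def n1859 : Strat := .move 922 n582 (.cons 963 n1858 .nil)
noncomputable def n1860 : Strat := .move 921 n1274 (.cons 962 n1859 .nil)
noncomputable def n1861 : Strat := .move 757 n1326 (.cons 881 n1280 .nil)
noncomputable def n1862 : Strat := .move 922 n582 (.cons 963 n1861 .nil)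
noncomputable def n1863 : Strat := .move 921 n1274 (.cons 962 n1862 .nil)
noncomputable def n1864 : Strat := .win 965 0 920
noncomputable def n1865 : Strat := .win 881 6 799
noncomputable def n1866 : Strat := .move 964 n1864 (.cons 965 n1865 .nil)
noncomputable def n1867 : Strat := .move 879 n730 (.cons 878 n419 .nil)
noncomputable def n1868 : Strat := .move 923 n1866 (.cons 881 n1867 .nil)
noncomputable def n1869 : Strat := .move 920 n1275 (.cons 961 n1868 .nil)
noncomputable def n1870 : Strat := .move 922 n582 (.cons 963 n1869 .nil)
noncomputable def n1871 : Strat := .move 921 n1274 (.cons 962 n1870 .nil)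
noncomputable def n1872 : Strat := .move 923 n730 (.cons 878 n419 .nil)
noncomputable def n1873 : Strat := .move 879 n1534 (.cons 757 n1872 .nil)
noncomputable def n1874 : Strat := .move 920 n1275 (.cons 961 n1873 .nil)
noncomputable def n1875 : Strat := .move 922 n582 (.cons 963 n1874 .nil)
noncomputable def n1876 : Strat := .move 921 n1274 (.cons 962 n1875 .nil)
noncomputable def n1877 : Strat := .move 757 n1276 (.cons 879 n1628 .nil)
noncomputable def n1878 : Strat := .move 920 n1275 (.cons 961 n1877 .nil)
noncomputable def n1879 : Strat := .move 921 n1274 (.cons 962 n1878 .nil)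
noncomputable def n1880 : Strat := .move 881 n1269 (.cons 716 n1172 .nil)
noncomputable def n1881 : Strat := .move 921 n1279 (.cons 797 n1275 .nil)
noncomputable def n1882 : Strat := .move 920 n1276 (.cons 879 n1881 .nil)
noncomputable def n1883 : Strat := .move 756 n608 (.cons 715 n1882 .nil)
noncomputable def n1884 : Strat := .move 881 n1172 (.cons 922 n1883 .nil)
noncomputable def n1885 : Strat := .win 838 1 715
noncomputable def n1886 : Strat := .move 879 n639 (.cons 920 n1885 .nil)
noncomputable def n1887 : Strat := .move 716 n939 (.cons 675 n1886 .nil)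
noncomputable def n1888 : Strat := .move 757 n1880 (.cons 922 n1332 (.cons 716 n1884 (.cons 881 n1887 .nil)))
noncomputable def n1889 : Strat := .move 757 n1269 (.cons 716 n1172 .nil)
noncomputable def n1890 : Strat := .move 883 n237 (.cons 838 n238 .nil)
noncomputable def n1891 : Strat := .win 923 0 879
noncomputable def n1892 : Strat := .move 879 n1891 (.cons 923 n639 .nil)
noncomputable def n1893 : Strat := .move 883 n320 (.cons 925 n238 .nil)
noncomputable def n1894 : Strat := .move 924 n1892 (.cons 920 n1893 .nil)
noncomputable def n1895 : Strat := .move 757 n1269 (.cons 716 n1894 .nil)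
noncomputable def n1896 : Strat := .win 838 0 837
noncomputable def n1897 : Strat := .move 757 n639 (.cons 920 n1269 .nil)
noncomputable def n1898 : Strat := .move 920 n346 (.cons 919 n1534 .nil)
noncomputable def n1899 : Strat := .move 879 n1897 (.cons 716 n1898 (.cons 920 n1817 .nil))
noncomputable def n1900 : Strat := .move 837 n1896 (.cons 838 n1899 .nil)
noncomputable def n1901 : Strat := .move 882 n137 (.cons 837 n1890 (.cons 838 n1895 (.cons 883 n1900 .nil)))
noncomputable def n1902 : Strat := .win 882 0 879
noncomputable def n1903 : Strat := .move 924 n1902 (.cons 882 n681 .nil)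
noncomputable def n1904 : Strat := .move 879 n418 (.cons 878 n1903 .nil)
noncomputable def n1905 : Strat := .move 923 n58 (.cons 964 n1904 .nil)
noncomputable def n1906 : Strat := .move 922 n479 (.cons 963 n1905 .nil)
noncomputable def n1907 : Strat := .move 881 n1889 (.cons 922 n1901 (.cons 757 n1906 .nil))
noncomputable def n1908 : Strat := .move 880 n1860 (.cons 961 n1863 (.cons 757 n1871 (.cons 881 n1876 (.cons 922 n1879 (.cons 962 n1888 (.cons 921 n1907 .nil))))))
noncomputable def n1909 : Strat := .move 800 n357 (.cons 759 n704 .nil)
noncomputable def n1910 : Strat := .move 922 n479 (.cons 963 n1909 .nil)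
noncomputable def n1911 : Strat := .move 838 n1092 (.cons 800 n1780 .nil)
noncomputable def n1912 : Strat := .move 878 n1271 (.cons 877 n248 .nil)
noncomputable def n1913 : Strat := .move 879 n639 (.cons 920 n1912 .nil)
noncomputable def n1914 : Strat := .move 796 n532 (.cons 836 n485 .nil)
noncomputable def n1915 : Strat := .move 921 n484 (.cons 756 n1274 .nil)
noncomputable def n1916 : Strat := .move 797 n1914 (.cons 795 n1915 .nil)
noncomputable def n1917 : Strat := .move 880 n1278 (.cons 921 n1913 (.cons 879 n1916 .nil))
noncomputable def n1918 : Strat := .move 838 n1092 (.cons 800 n1420 .nil)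
noncomputable def n1919 : Strat := .move 837 n1911 (.cons 838 n1917 (.cons 836 n1918 .nil))
noncomputable def n1920 : Strat := .move 757 n1269 (.cons 716 n1919 .nil)
noncomputable def n1921 : Strat := .move 881 n1365 (.cons 757 n1910 (.cons 963 n1366 (.cons 922 n1920 .nil)))
noncomputable def n1922 : Strat := .move 800 n160 (.cons 837 n374 .nil)
noncomputable def n1923 : Strat := .move 838 n1822 (.cons 879 n1922 .nil)
noncomputable def n1924 : Strat := .move 716 n939 (.cons 675 n1923 .nil)
noncomputable def n1925 : Strat := .move 800 n374 (.cons 801 n160 .nil)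
noncomputable def n1926 : Strat := .move 921 n1275 (.cons 961 n1274 .nil)
noncomputable def n1927 : Strat := .move 920 n1276 (.cons 879 n1926 .nil)
noncomputable def n1928 : Strat := .move 838 n1925 (.cons 837 n1927 .nil)
noncomputable def n1929 : Strat := .move 881 n1172 (.cons 922 n1928 .nil)
noncomputable def n1930 : Strat := .move 756 n608 (.cons 715 n1277 .nil)
noncomputable def n1931 : Strat := .move 921 n1274 (.cons 962 n1930 .nil)
noncomputable def n1932 : Strat := .move 881 n1172 (.cons 922 n1819 .nil)
noncomputable def n1933 : Strat := .move 880 n1929 (.cons 881 n1931 (.cons 921 n1932 (.cons 920 n1328 .nil)))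
noncomputable def n1934 : Strat := .move 757 n1332 (.cons 881 n1924 (.cons 675 n1270 (.cons 716 n1933 .nil)))
noncomputable def n1935 : Strat := .move 881 n1172 (.cons 922 n1278 .nil)
noncomputable def n1936 : Strat := .move 880 n1929 (.cons 961 n1932 (.cons 837 n1935 (.cons 881 n1325 (.cons 920 n1328 .nil))))
noncomputable def n1937 : Strat := .move 757 n1332 (.cons 675 n1270 (.cons 881 n1825 (.cons 716 n1936 .nil)))
noncomputable def n1938 : Strat := .move 798 n1813 (.cons 838 n1340 (.cons 801 n1826 (.cons 879 n1834 (.cons 880 n1853 (.cons 757 n1857 (.cons 800 n1908 (.cons 715 n1921 (.cons 797 n1934 (.cons 756 n1937 .nil)))))))))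
noncomputable def n1939 : Strat := .move 839 n1268 (.cons 838 n1419 (.cons 800 n1562 (.cons 798 n1578 (.cons 881 n1604 (.cons 880 n1624 (.cons 837 n1683 (.cons 797 n1700 (.cons 842 n1706 (.cons 796 n1725 (.cons 882 n1741 (.cons 879 n1773 (.cons 883 n1778 (.cons 841 n1938 .nil)))))))))))))
noncomputable def n1940 : Strat := .win 883 6 718
noncomputable def n1941 : Strat := .move 842 n1940 (.cons 883 n1718 .nil)
noncomputable def n1942 : Strat := .win 676 7 676
noncomputable def n1943 : Strat := .move 715 n106 (.cons 714 n105 .nil)
noncomputable def n1944 : Strat := .move 716 n0 (.cons 675 n1943 .nil)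
noncomputable def n1945 : Strat := .move 758 n9 (.cons 882 n1944 .nil)
noncomputable def n1946 : Strat := .move 717 n1942 (.cons 676 n1945 .nil)
noncomputable def n1947 : Strat := .move 841 n1941 (.cons 842 n1946 .nil)
noncomputable def n1948 : Strat := .move 759 n1252 (.cons 677 n1947 .nil)
noncomputable def n1949 : Strat := .move 842 n1940 (.cons 883 n1760 .nil)
noncomputable def n1950 : Strat := .move 717 n1942 (.cons 676 n1949 .nil)
noncomputable def n1951 : Strat := .win 882 3 718
noncomputable def n1952 : Strat := .move 719 n1951 (.cons 882 n789 .nil)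
noncomputable def n1953 : Strat := .win 801 5 757
noncomputable def n1954 : Strat := .move 761 n1953 (.cons 801 n885 .nil)
noncomputable def n1955 : Strat := .move 760 n1952 (.cons 678 n1954 .nil)
noncomputable def n1956 : Strat := .move 798 n1001 (.cons 797 n1955 .nil)
noncomputable def n1957 : Strat := .move 842 n1940 (.cons 883 n1956 .nil)
noncomputable def n1958 : Strat := .win 716 0 716
noncomputable def n1959 : Strat := .move 717 n1958 (.cons 716 n1942 .nil)
noncomputable def n1960 : Strat := .move 761 n885 (.cons 762 n1959 .nil)
noncomputable def n1961 : Strat := .move 760 n1951 (.cons 882 n1960 .nil)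
noncomputable def n1962 : Strat := .move 719 n789 (.cons 678 n1961 .nil)
noncomputable def n1963 : Strat := .move 841 n1950 (.cons 843 n1957 (.cons 842 n1962 .nil))
noncomputable def n1964 : Strat := .move 759 n1252 (.cons 677 n1963 .nil)
noncomputable def n1965 : Strat := .move 802 n923 (.cons 844 n658 .nil)
noncomputable def n1966 : Strat := .move 843 n924 (.cons 842 n1965 .nil)
noncomputable def n1967 : Strat := .move 719 n1951 (.cons 882 n1375 .nil)
noncomputable def n1968 : Strat := .move 760 n408 (.cons 761 n1967 .nil)
noncomputable def n1969 : Strat := .move 801 n660 (.cons 839 n1966 (.cons 803 n407 (.cons 802 n1968 .nil)))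
noncomputable def n1970 : Strat := .move 798 n1398 (.cons 796 n1002 (.cons 797 n1969 .nil))
noncomputable def n1971 : Strat := .move 760 n210 (.cons 761 n143 .nil)
noncomputable def n1972 : Strat := .win 674 2 674
noncomputable def n1973 : Strat := .win 758 7 675
noncomputable def n1974 : Strat := .move 675 n1972 (.cons 674 n1973 .nil)
noncomputable def n1975 : Strat := .move 716 n1971 (.cons 715 n1974 .nil)
noncomputable def n1976 : Strat := .move 719 n789 (.cons 678 n1975 .nil)
noncomputable def n1977 : Strat := .move 717 n1942 (.cons 676 n1976 .nil)
noncomputable def n1978 : Strat := .move 758 n9 (.cons 882 n793 .nil)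
noncomputable def n1979 : Strat := .move 717 n1942 (.cons 676 n1978 .nil)
noncomputable def n1980 : Strat := .move 841 n1946 (.cons 717 n1970 (.cons 882 n1977 (.cons 760 n1979 .nil)))
noncomputable def n1981 : Strat := .move 759 n1252 (.cons 677 n1980 .nil)
noncomputable def n1982 : Strat := .win 842 6 718
noncomputable def n1983 : Strat := .win 924 6 759
noncomputable def n1984 : Strat := .move 719 n1568 (.cons 760 n789 .nil)
noncomputable def n1985 : Strat := .move 882 n1983 (.cons 924 n1984 .nil)
noncomputable def n1986 : Strat := .move 883 n1982 (.cons 842 n1985 .nil)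
noncomputable def n1987 : Strat := .win 758 1 716
noncomputable def n1988 : Strat := .move 880 n978 (.cons 879 n1987 .nil)
noncomputable def n1989 : Strat := .move 839 n161 (.cons 837 n164 (.cons 801 n1988 .nil))
noncomputable def n1990 : Strat := .move 842 n1940 (.cons 883 n1989 .nil)
noncomputable def n1991 : Strat := .move 717 n1942 (.cons 676 n1990 .nil)
noncomputable def n1992 : Strat := .move 841 n1946 (.cons 758 n1986 (.cons 882 n1991 .nil))
noncomputable def n1993 : Strat := .move 759 n1252 (.cons 677 n1992 .nil)
noncomputable def n1994 : Strat := .win 758 7 758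
noncomputable def n1995 : Strat := .move 923 n1244 (.cons 964 n1994 .nil)
noncomputable def n1996 : Strat := .move 882 n1568 (.cons 760 n1995 .nil)
noncomputable def n1997 : Strat := .move 719 n789 (.cons 678 n1996 .nil)
noncomputable def n1998 : Strat := .move 841 n1946 (.cons 758 n1962 (.cons 882 n1977 (.cons 717 n1997 (.cons 760 n1979 .nil))))
noncomputable def n1999 : Strat := .move 759 n1252 (.cons 677 n1998 .nil)
noncomputable def n2000 : Strat := .win 923 7 758
noncomputable def n2001 : Strat := .move 882 n126 (.cons 717 n2000 .nil)
noncomputable def n2002 : Strat := .move 758 n2001 (.cons 717 n1949 .nil)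
noncomputable def n2003 : Strat := .move 758 n126 (.cons 717 n2000 .nil)
noncomputable def n2004 : Strat := .move 923 n1994 (.cons 758 n1244 .nil)
noncomputable def n2005 : Strat := .move 882 n2003 (.cons 717 n2004 (.cons 758 n1569 .nil))
noncomputable def n2006 : Strat := .move 841 n2002 (.cons 842 n2005 (.cons 717 n1941 .nil))
noncomputable def n2007 : Strat := .move 759 n1252 (.cons 677 n2006 .nil)
noncomputable def n2008 : Strat := .move 841 n1941 (.cons 883 n1970 (.cons 842 n1997 .nil))
noncomputable def n2009 : Strat := .move 759 n1252 (.cons 677 n2008 .nil)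
noncomputable def n2010 : Strat := .move 841 n1941 (.cons 842 n1977 .nil)
noncomputable def n2011 : Strat := .move 759 n1252 (.cons 677 n2010 .nil)
noncomputable def n2012 : Strat := .move 842 n1053 (.cons 798 n1719 .nil)
noncomputable def n2013 : Strat := .move 797 n1054 (.cons 796 n2012 .nil)
noncomputable def n2014 : Strat := .move 758 n2000 (.cons 923 n126 .nil)
noncomputable def n2015 : Strat := .move 882 n967 (.cons 883 n2014 .nil)
noncomputable def n2016 : Strat := .move 841 n2013 (.cons 884 n1731 (.cons 797 n2015 .nil))
noncomputable def n2017 : Strat := .move 838 n160 (.cons 837 n2016 .nil)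
noncomputable def n2018 : Strat := .move 798 n377 (.cons 838 n1608 .nil)
noncomputable def n2019 : Strat := .move 801 n163 (.cons 802 n2018 .nil)
noncomputable def n2020 : Strat := .move 758 n7 (.cons 880 n2 .nil)
noncomputable def n2021 : Strat := .move 758 n281 (.cons 676 n7 .nil)
noncomputable def n2022 : Strat := .move 758 n281 (.cons 676 n2 .nil)
noncomputable def n2023 : Strat := .move 716 n1316 (.cons 676 n939 .nil)
noncomputable def n2024 : Strat := .move 717 n2020 (.cons 677 n2021 (.cons 880 n2022 (.cons 758 n2023 .nil)))
noncomputable def n2025 : Strat := .move 757 n1009 (.cons 756 n2024 .nil)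
noncomputable def n2026 : Strat := .win 758 3 757
noncomputable def n2027 : Strat := .move 921 n2026 (.cons 758 n1274 .nil)
noncomputable def n2028 : Strat := .win 921 3 757
noncomputable def n2029 : Strat := .move 758 n2028 (.cons 921 n134 .nil)
noncomputable def n2030 : Strat := .move 841 n978 (.cons 879 n1001 .nil)
noncomputable def n2031 : Strat := .move 880 n2027 (.cons 962 n2029 (.cons 758 n2030 .nil))
noncomputable def n2032 : Strat := .move 842 n536 (.cons 843 n2031 .nil)
noncomputable def n2033 : Strat := .move 798 n1608 (.cons 842 n2025 (.cons 757 n2032 .nil))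
noncomputable def n2034 : Strat := .move 801 n163 (.cons 802 n2033 .nil)
noncomputable def n2035 : Strat := .move 839 n1708 (.cons 798 n1717 (.cons 801 n2017 (.cons 837 n2019 (.cons 838 n2034 .nil))))
noncomputable def n2036 : Strat := .win 759 1 676
noncomputable def n2037 : Strat := .win 758 3 676
noncomputable def n2038 : Strat := .win 678 5 674
noncomputable def n2039 : Strat := .win 676 5 673
noncomputable def n2040 : Strat := .move 714 n2039 (.cons 676 n203 .nil)
noncomputable def n2041 : Strat := .move 715 n2038 (.cons 678 n2040 .nil)
noncomputable def n2042 : Strat := .win 715 5 674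
noncomputable def n2043 : Strat := .win 719 5 675
noncomputable def n2044 : Strat := .win 680 4 676
noncomputable def n2045 : Strat := .move 679 n2043 (.cons 719 n2044 .nil)
noncomputable def n2046 : Strat := .move 678 n2042 (.cons 715 n2045 .nil)
noncomputable def n2047 : Strat := .win 798 6 675
noncomputable def n2048 : Strat := .move 757 n2047 (.cons 798 n112 .nil)
noncomputable def n2049 : Strat := .move 675 n1972 (.cons 674 n2048 .nil)
noncomputable def n2050 : Strat := .win 680 5 676
noncomputable def n2051 : Strat := .win 678 5 675
noncomputable def n2052 : Strat := .move 679 n2050 (.cons 680 n2051 .nil)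
noncomputable def n2053 : Strat := .move 720 n857 (.cons 760 n2052 .nil)
noncomputable def n2054 : Strat := .move 719 n2049 (.cons 675 n2053 .nil)
noncomputable def n2055 : Strat := .win 675 2 674
noncomputable def n2056 : Strat := .move 674 n2055 (.cons 675 n115 .nil)
noncomputable def n2057 : Strat := .move 719 n2056 (.cons 673 n212 .nil)
noncomputable def n2058 : Strat := .move 755 n206 (.cons 754 n205 .nil)
noncomputable def n2059 : Strat := .move 714 n2039 (.cons 676 n2058 .nil)
noncomputable def n2060 : Strat := .move 715 n2040 (.cons 714 n2057 (.cons 674 n2059 .nil))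
noncomputable def n2061 : Strat := .move 716 n2041 (.cons 676 n2046 (.cons 715 n2054 (.cons 678 n2060 .nil)))
noncomputable def n2062 : Strat := .move 717 n2037 (.cons 758 n2061 .nil)
noncomputable def n2063 : Strat := .move 677 n2036 (.cons 759 n2062 .nil)
noncomputable def n2064 : Strat := .win 841 4 799
noncomputable def n2065 : Strat := .win 761 5 758
noncomputable def n2066 : Strat := .win 763 5 759
noncomputable def n2067 : Strat := .move 762 n2065 (.cons 761 n2066 .nil)
noncomputable def n2068 : Strat := .move 803 n2064 (.cons 841 n2067 .nil)
noncomputable def n2069 : Strat := .move 802 n659 (.cons 839 n2068 .nil)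
noncomputable def n2070 : Strat := .win 757 2 757
noncomputable def n2071 : Strat := .move 717 n9 (.cons 882 n193 .nil)
noncomputable def n2072 : Strat := .move 758 n2070 (.cons 757 n2071 .nil)
noncomputable def n2073 : Strat := .move 841 n658 (.cons 803 n2072 .nil)
noncomputable def n2074 : Strat := .move 798 n928 (.cons 760 n924 .nil)
noncomputable def n2075 : Strat := .move 843 n923 (.cons 844 n2074 .nil)
noncomputable def n2076 : Strat := .move 761 n927 (.cons 762 n2075 .nil)
noncomputable def n2077 : Strat := .move 802 n2068 (.cons 763 n2073 (.cons 803 n2076 .nil))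
noncomputable def n2078 : Strat := .move 839 n163 (.cons 802 n1707 .nil)
noncomputable def n2079 : Strat := .move 842 n536 (.cons 843 n1001 .nil)
noncomputable def n2080 : Strat := .move 839 n377 (.cons 838 n1672 .nil)
noncomputable def n2081 : Strat := .move 883 n166 (.cons 884 n165 .nil)
noncomputable def n2082 : Strat := .move 839 n377 (.cons 838 n2081 .nil)
noncomputable def n2083 : Strat := .move 842 n536 (.cons 843 n2082 .nil)
noncomputable def n2084 : Strat := .move 798 n2079 (.cons 842 n2080 (.cons 797 n2083 .nil))
noncomputable def n2085 : Strat := .move 923 n1994 (.cons 758 n657 .nil)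
noncomputable def n2086 : Strat := .move 923 n1244 (.cons 964 n657 .nil)
noncomputable def n2087 : Strat := .win 758 6 717
noncomputable def n2088 : Strat := .move 717 n1942 (.cons 676 n2087 .nil)
noncomputable def n2089 : Strat := .move 759 n2088 (.cons 758 n1984 .nil)
noncomputable def n2090 : Strat := .move 882 n2085 (.cons 760 n2014 (.cons 758 n2086 (.cons 923 n2089 .nil)))
noncomputable def n2091 : Strat := .move 839 n162 (.cons 838 n2090 .nil)
noncomputable def n2092 : Strat := .move 798 n1001 (.cons 797 n536 .nil)
noncomputable def n2093 : Strat := .move 842 n2092 (.cons 843 n2081 .nil)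
noncomputable def n2094 : Strat := .move 839 n162 (.cons 838 n2093 .nil)
noncomputable def n2095 : Strat := .move 798 n536 (.cons 843 n1001 .nil)
noncomputable def n2096 : Strat := .win 760 1 759
noncomputable def n2097 : Strat := .move 923 n1994 (.cons 758 n2096 .nil)
noncomputable def n2098 : Strat := .win 964 3 800
noncomputable def n2099 : Strat := .move 923 n2098 (.cons 964 n2096 .nil)
noncomputable def n2100 : Strat := .win 839 0 839
noncomputable def n2101 : Strat := .move 884 n266 (.cons 885 n2100 .nil)
noncomputable def n2102 : Strat := .move 882 n2097 (.cons 760 n2014 (.cons 758 n2099 (.cons 923 n2101 .nil)))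
noncomputable def n2103 : Strat := .move 883 n165 (.cons 759 n2102 .nil)
noncomputable def n2104 : Strat := .move 842 n2095 (.cons 797 n1679 (.cons 798 n2103 .nil))
noncomputable def n2105 : Strat := .move 923 n2098 (.cons 964 n657 .nil)
noncomputable def n2106 : Strat := .move 882 n2088 (.cons 758 n2105 .nil)
noncomputable def n2107 : Strat := .move 759 n1940 (.cons 883 n2106 .nil)
noncomputable def n2108 : Strat := .move 842 n2095 (.cons 797 n1679 (.cons 798 n2107 .nil))
noncomputable def n2109 : Strat := .move 839 n377 (.cons 838 n575 .nil)
noncomputable def n2110 : Strat := .move 797 n283 (.cons 796 n1606 .nil)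
noncomputable def n2111 : Strat := .move 839 n377 (.cons 838 n2110 .nil)
noncomputable def n2112 : Strat := .move 921 n1274 (.cons 962 n2026 .nil)
noncomputable def n2113 : Strat := .move 842 n978 (.cons 879 n536 .nil)
noncomputable def n2114 : Strat := .move 880 n2029 (.cons 717 n2112 (.cons 921 n2113 .nil))
noncomputable def n2115 : Strat := .move 839 n377 (.cons 838 n2114 .nil)
noncomputable def n2116 : Strat := .move 798 n2079 (.cons 843 n2109 (.cons 842 n2111 (.cons 797 n2115 .nil)))
noncomputable def n2117 : Strat := .move 841 n2084 (.cons 842 n2091 (.cons 760 n2094 (.cons 838 n2104 (.cons 839 n2108 (.cons 759 n2116 .nil)))))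
noncomputable def n2118 : Strat := .move 801 n2069 (.cons 839 n2077 (.cons 803 n2078 (.cons 802 n2117 .nil)))
noncomputable def n2119 : Strat := .move 718 n1948 (.cons 758 n1964 (.cons 883 n1981 (.cons 798 n1993 (.cons 842 n1999 (.cons 676 n2007 (.cons 717 n2009 (.cons 882 n2011 (.cons 759 n2035 (.cons 841 n2063 (.cons 677 n2118 .nil))))))))))
noncomputable def n2120 : Strat := .win 761 1 760
noncomputable def n2121 : Strat := .move 802 n2120 (.cons 761 n1655 .nil)
noncomputable def n2122 : Strat := .move 924 n1402 (.cons 965 n2121 .nil)
noncomputable def n2123 : Strat := .move 883 n2100 (.cons 839 n2122 .nil)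
noncomputable def n2124 : Strat := .move 884 n155 (.cons 885 n2123 .nil)
noncomputable def n2125 : Strat := .move 843 n1051 (.cons 844 n2124 .nil)
noncomputable def n2126 : Strat := .move 880 n978 (.cons 879 n2029 .nil)
noncomputable def n2127 : Strat := .move 838 n160 (.cons 837 n970 .nil)
noncomputable def n2128 : Strat := .move 839 n2126 (.cons 880 n2127 .nil)
noncomputable def n2129 : Strat := .move 798 n1001 (.cons 797 n2128 .nil)
noncomputable def n2130 : Strat := .move 842 n1718 (.cons 798 n2125 (.cons 843 n2129 .nil))
noncomputable def n2131 : Strat := .win 965 6 800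
noncomputable def n2132 : Strat := .win 759 6 759
noncomputable def n2133 : Strat := .move 921 n728 (.cons 884 n393 .nil)
noncomputable def n2134 : Strat := .move 883 n2132 (.cons 759 n2133 .nil)
noncomputable def n2135 : Strat := .move 924 n2131 (.cons 965 n2134 .nil)
noncomputable def n2136 : Strat := .move 922 n574 (.cons 963 n2135 .nil)
noncomputable def n2137 : Strat := .move 923 n1244 (.cons 964 n2136 .nil)
noncomputable def n2138 : Strat := .move 761 n328 (.cons 798 n885 .nil)
noncomputable def n2139 : Strat := .move 760 n1120 (.cons 719 n2138 .nil)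
noncomputable def n2140 : Strat := .move 758 n126 (.cons 717 n2139 .nil)
noncomputable def n2141 : Strat := .move 718 n1252 (.cons 677 n1984 .nil)
noncomputable def n2142 : Strat := .move 718 n1252 (.cons 677 n1942 .nil)
noncomputable def n2143 : Strat := .move 717 n2087 (.cons 758 n2142 .nil)
noncomputable def n2144 : Strat := .move 759 n2140 (.cons 758 n2141 (.cons 760 n2143 .nil))
noncomputable def n2145 : Strat := .move 882 n2003 (.cons 758 n2137 (.cons 923 n2144 .nil))
noncomputable def n2146 : Strat := .win 924 1 760
noncomputable def n2147 : Strat := .win 720 1 719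
noncomputable def n2148 : Strat := .move 761 n2146 (.cons 924 n2147 .nil)
noncomputable def n2149 : Strat := .move 802 n1655 (.cons 803 n2148 .nil)
noncomputable def n2150 : Strat := .move 883 n2100 (.cons 839 n2149 .nil)
noncomputable def n2151 : Strat := .move 884 n155 (.cons 885 n2150 .nil)
noncomputable def n2152 : Strat := .move 843 n1051 (.cons 844 n2151 .nil)
noncomputable def n2153 : Strat := .move 880 n978 (.cons 879 n2027 .nil)
noncomputable def n2154 : Strat := .move 798 n1001 (.cons 797 n2153 .nil)
noncomputable def n2155 : Strat := .move 838 n160 (.cons 837 n1245 .nil)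
noncomputable def n2156 : Strat := .move 838 n160 (.cons 837 n1054 .nil)
noncomputable def n2157 : Strat := .move 797 n1053 (.cons 798 n2156 .nil)
noncomputable def n2158 : Strat := .move 839 n2154 (.cons 798 n2155 (.cons 880 n2157 .nil))
noncomputable def n2159 : Strat := .move 842 n1718 (.cons 798 n2152 (.cons 843 n2158 .nil))
noncomputable def n2160 : Strat := .move 838 n160 (.cons 837 n1261 .nil)
noncomputable def n2161 : Strat := .move 839 n2127 (.cons 838 n1405 (.cons 884 n2160 .nil))
noncomputable def n2162 : Strat := .move 798 n1001 (.cons 797 n2161 .nil)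
noncomputable def n2163 : Strat := .move 842 n1718 (.cons 843 n2162 (.cons 797 n1052 (.cons 798 n2125 .nil)))
noncomputable def n2164 : Strat := .move 757 n112 (.cons 756 n111 .nil)
noncomputable def n2165 : Strat := .win 759 3 677
noncomputable def n2166 : Strat := .move 678 n861 (.cons 679 n2165 .nil)
noncomputable def n2167 : Strat := .move 719 n2164 (.cons 720 n2166 .nil)
noncomputable def n2168 : Strat := .move 716 n0 (.cons 675 n2167 .nil)
noncomputable def n2169 : Strat := .move 718 n2 (.cons 677 n2168 .nil)
noncomputable def n2170 : Strat := .move 717 n193 (.cons 676 n2169 .nil)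
noncomputable def n2171 : Strat := .move 717 n9 (.cons 882 n2169 .nil)
noncomputable def n2172 : Strat := .move 718 n1982 (.cons 842 n1252 .nil)
noncomputable def n2173 : Strat := .move 883 n1983 (.cons 924 n2172 .nil)
noncomputable def n2174 : Strat := .win 838 0 838
noncomputable def n2175 : Strat := .win 842 0 839
noncomputable def n2176 : Strat := .move 884 n2175 (.cons 842 n266 .nil)
noncomputable def n2177 : Strat := .move 839 n2174 (.cons 838 n2176 .nil)
noncomputable def n2178 : Strat := .move 883 n1983 (.cons 924 n2177 .nil)
noncomputable def n2179 : Strat := .move 759 n1570 (.cons 678 n2173 (.cons 718 n2178 .nil))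
noncomputable def n2180 : Strat := .move 882 n2000 (.cons 923 n2179 .nil)
noncomputable def n2181 : Strat := .move 758 n1014 (.cons 882 n2170 (.cons 676 n2171 (.cons 717 n2180 .nil)))
noncomputable def n2182 : Strat := .move 883 n1982 (.cons 842 n1983 .nil)
noncomputable def n2183 : Strat := .move 718 n1252 (.cons 677 n2182 .nil)
noncomputable def n2184 : Strat := .move 759 n1121 (.cons 762 n1570 (.cons 760 n2183 .nil))
noncomputable def n2185 : Strat := .move 882 n2000 (.cons 923 n2184 .nil)
noncomputable def n2186 : Strat := .move 758 n1014 (.cons 676 n2001 (.cons 717 n2185 (.cons 882 n2170 .nil)))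
noncomputable def n2187 : Strat := .move 842 n1760 (.cons 797 n1246 (.cons 843 n2081 .nil))
noncomputable def n2188 : Strat := .move 839 n7 (.cons 880 n2187 .nil)
noncomputable def n2189 : Strat := .move 718 n2 (.cons 677 n2188 .nil)
noncomputable def n2190 : Strat := .move 717 n193 (.cons 676 n2189 .nil)
noncomputable def n2191 : Strat := .move 838 n967 (.cons 883 n160 .nil)
noncomputable def n2192 : Strat := .move 883 n166 (.cons 884 n2174 .nil)
noncomputable def n2193 : Strat := .move 880 n2028 (.cons 921 n978 .nil)
noncomputable def n2194 : Strat := .move 839 n2191 (.cons 837 n2192 (.cons 883 n2193 .nil))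
noncomputable def n2195 : Strat := .move 798 n151 (.cons 843 n2194 .nil)
noncomputable def n2196 : Strat := .move 839 n2191 (.cons 837 n2192 (.cons 883 n2160 (.cons 838 n1732 .nil)))
noncomputable def n2197 : Strat := .move 798 n1001 (.cons 797 n2194 .nil)
noncomputable def n2198 : Strat := .move 842 n1718 (.cons 797 n2195 (.cons 798 n2196 (.cons 843 n2197 .nil)))
noncomputable def n2199 : Strat := .move 882 n2000 (.cons 923 n2198 .nil)
noncomputable def n2200 : Strat := .move 758 n1014 (.cons 882 n2190 (.cons 676 n2001 (.cons 717 n2199 .nil)))
noncomputable def n2201 : Strat := .move 718 n1252 (.cons 677 n1946 .nil)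
noncomputable def n2202 : Strat := .move 797 n283 (.cons 796 n372 .nil)
noncomputable def n2203 : Strat := .move 760 n811 (.cons 797 n93 .nil)
noncomputable def n2204 : Strat := .move 882 n1120 (.cons 719 n2000 .nil)
noncomputable def n2205 : Strat := .move 760 n93 (.cons 761 n2204 .nil)
noncomputable def n2206 : Strat := .move 798 n2202 (.cons 796 n2203 (.cons 797 n2205 .nil))
noncomputable def n2207 : Strat := .win 757 2 715
noncomputable def n2208 : Strat := .move 715 n2207 (.cons 757 n106 .nil)
noncomputable def n2209 : Strat := .move 760 n144 (.cons 761 n2208 .nil)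
noncomputable def n2210 : Strat := .move 716 n0 (.cons 675 n2209 .nil)
noncomputable def n2211 : Strat := .move 717 n193 (.cons 676 n2210 .nil)
noncomputable def n2212 : Strat := .move 758 n1014 (.cons 717 n2206 (.cons 882 n2211 .nil))
noncomputable def n2213 : Strat := .move 718 n1252 (.cons 677 n1977 .nil)
noncomputable def n2214 : Strat := .move 882 n1568 (.cons 760 n2014 .nil)
noncomputable def n2215 : Strat := .move 719 n789 (.cons 678 n2214 .nil)
noncomputable def n2216 : Strat := .move 718 n1252 (.cons 677 n2215 .nil)
noncomputable def n2217 : Strat := .move 716 n210 (.cons 761 n143 .nil)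
noncomputable def n2218 : Strat := .move 717 n1942 (.cons 676 n2217 .nil)
noncomputable def n2219 : Strat := .move 760 n1951 (.cons 882 n2218 .nil)
noncomputable def n2220 : Strat := .move 719 n789 (.cons 678 n2219 .nil)
noncomputable def n2221 : Strat := .move 718 n1252 (.cons 677 n2220 .nil)
noncomputable def n2222 : Strat := .win 758 4 757
noncomputable def n2223 : Strat := .move 761 n2222 (.cons 758 n885 .nil)
noncomputable def n2224 : Strat := .move 798 n811 (.cons 797 n2223 .nil)
noncomputable def n2225 : Strat := .move 760 n1951 (.cons 882 n2224 .nil)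
noncomputable def n2226 : Strat := .move 719 n789 (.cons 678 n2225 .nil)
noncomputable def n2227 : Strat := .move 718 n1252 (.cons 677 n2226 .nil)
noncomputable def n2228 : Strat := .move 718 n1252 (.cons 677 n1979 .nil)
noncomputable def n2229 : Strat := .move 759 n2201 (.cons 718 n2212 (.cons 882 n2213 (.cons 676 n2216 (.cons 758 n2221 (.cons 717 n2227 (.cons 760 n2228 .nil))))))
noncomputable def n2230 : Strat := .move 841 n2130 (.cons 842 n2145 (.cons 882 n2159 (.cons 758 n2163 (.cons 798 n2181 (.cons 884 n2186 (.cons 924 n2200 (.cons 883 n2229 .nil)))))))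
noncomputable def n2231 : Strat := .move 801 n408 (.cons 761 n1342 .nil)
noncomputable def n2232 : Strat := .move 760 n1306 (.cons 759 n2231 .nil)
noncomputable def n2233 : Strat := .move 797 n372 (.cons 842 n2232 .nil)
noncomputable def n2234 : Strat := .win 923 3 759
noncomputable def n2235 : Strat := .move 882 n2234 (.cons 923 n1355 .nil)
noncomputable def n2236 : Strat := .move 760 n408 (.cons 761 n2235 .nil)
noncomputable def n2237 : Strat := .win 758 2 757
noncomputable def n2238 : Strat := .move 757 n2237 (.cons 758 n1009 .nil)
noncomputable def n2239 : Strat := .move 802 n658 (.cons 803 n2238 .nil)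
noncomputable def n2240 : Strat := .move 801 n1377 (.cons 678 n2236 (.cons 760 n2239 .nil))
noncomputable def n2241 : Strat := .move 842 n151 (.cons 843 n2240 .nil)
noncomputable def n2242 : Strat := .move 797 n283 (.cons 796 n2232 .nil)
noncomputable def n2243 : Strat := .move 841 n2202 (.cons 796 n2233 (.cons 797 n2241 (.cons 842 n2242 .nil)))
noncomputable def n2244 : Strat := .move 718 n1940 (.cons 883 n1252 .nil)
noncomputable def n2245 : Strat := .move 883 n1983 (.cons 924 n1381 .nil)
noncomputable def n2246 : Strat := .move 760 n93 (.cons 761 n1120 .nil)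
noncomputable def n2247 : Strat := .move 759 n2244 (.cons 677 n2245 (.cons 883 n2246 .nil))
noncomputable def n2248 : Strat := .move 758 n126 (.cons 717 n2247 .nil)
noncomputable def n2249 : Strat := .win 801 3 759
noncomputable def n2250 : Strat := .move 760 n2249 (.cons 801 n1120 .nil)
noncomputable def n2251 : Strat := .move 759 n2244 (.cons 677 n2250 .nil)
noncomputable def n2252 : Strat := .move 923 n1244 (.cons 964 n2251 .nil)
noncomputable def n2253 : Strat := .move 882 n2004 (.cons 964 n2003 (.cons 923 n2248 (.cons 758 n2252 .nil)))
noncomputable def n2254 : Strat := .move 842 n151 (.cons 843 n2253 .nil)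
noncomputable def n2255 : Strat := .move 841 n2202 (.cons 797 n2254 (.cons 842 n2242 .nil))
noncomputable def n2256 : Strat := .move 802 n658 (.cons 803 n929 .nil)
noncomputable def n2257 : Strat := .move 801 n1341 (.cons 757 n2256 .nil)
noncomputable def n2258 : Strat := .move 756 n380 (.cons 755 n2257 .nil)
noncomputable def n2259 : Strat := .move 797 n283 (.cons 796 n2258 .nil)
noncomputable def n2260 : Strat := .move 801 n1377 (.cons 678 n2239 .nil)
noncomputable def n2261 : Strat := .move 842 n151 (.cons 843 n2260 .nil)
noncomputable def n2262 : Strat := .move 841 n1002 (.cons 843 n2202 (.cons 842 n2259 (.cons 797 n2261 .nil)))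
noncomputable def n2263 : Strat := .win 879 3 715
noncomputable def n2264 : Strat := .move 838 n2263 (.cons 879 n375 .nil)
noncomputable def n2265 : Strat := .move 716 n939 (.cons 675 n2264 .nil)
noncomputable def n2266 : Strat := .move 757 n1011 (.cons 801 n2265 .nil)
noncomputable def n2267 : Strat := .move 756 n380 (.cons 755 n2266 .nil)
noncomputable def n2268 : Strat := .move 759 n809 (.cons 760 n2267 .nil)
noncomputable def n2269 : Strat := .move 797 n526 (.cons 796 n2268 .nil)
noncomputable def n2270 : Strat := .move 841 n372 (.cons 842 n2232 .nil)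
noncomputable def n2271 : Strat := .move 716 n2263 (.cons 879 n1835 .nil)
noncomputable def n2272 : Strat := .move 838 n375 (.cons 837 n2271 .nil)
noncomputable def n2273 : Strat := .move 757 n1011 (.cons 801 n2272 .nil)
noncomputable def n2274 : Strat := .move 756 n380 (.cons 755 n2273 .nil)
noncomputable def n2275 : Strat := .move 718 n1942 (.cons 676 n1252 .nil)
noncomputable def n2276 : Strat := .move 717 n2087 (.cons 758 n2275 .nil)
noncomputable def n2277 : Strat := .win 883 6 759
noncomputable def n2278 : Strat := .move 924 n2131 (.cons 965 n2277 .nil)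
noncomputable def n2279 : Strat := .move 923 n1244 (.cons 964 n2278 .nil)
noncomputable def n2280 : Strat := .move 882 n2014 (.cons 717 n1995 (.cons 923 n2276 (.cons 758 n2279 .nil)))
noncomputable def n2281 : Strat := .move 759 n809 (.cons 760 n2280 .nil)
noncomputable def n2282 : Strat := .move 841 n372 (.cons 842 n2281 .nil)
noncomputable def n2283 : Strat := .move 797 n2270 (.cons 841 n2274 (.cons 756 n2282 .nil))
noncomputable def n2284 : Strat := .move 841 n372 (.cons 842 n2267 .nil)
noncomputable def n2285 : Strat := .move 796 n486 (.cons 841 n1854 .nil)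
noncomputable def n2286 : Strat := .move 797 n526 (.cons 796 n2284 (.cons 842 n2285 (.cons 841 n2267 .nil)))
noncomputable def n2287 : Strat := .win 758 5 755
noncomputable def n2288 : Strat := .move 796 n2287 (.cons 758 n1854 .nil)
noncomputable def n2289 : Strat := .move 759 n809 (.cons 760 n2288 .nil)
noncomputable def n2290 : Strat := .move 837 n531 (.cons 838 n532 .nil)
noncomputable def n2291 : Strat := .move 796 n2287 (.cons 758 n2290 .nil)
noncomputable def n2292 : Strat := .move 759 n809 (.cons 760 n2291 .nil)
noncomputable def n2293 : Strat := .move 797 n2289 (.cons 760 n2267 (.cons 756 n2292 .nil))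
noncomputable def n2294 : Strat := .move 797 n526 (.cons 842 n2285 (.cons 841 n2289 (.cons 796 n2282 .nil)))
noncomputable def n2295 : Strat := .move 797 n283 (.cons 796 n2281 .nil)
noncomputable def n2296 : Strat := .move 841 n1002 (.cons 842 n2295 (.cons 797 n2254 .nil))
noncomputable def n2297 : Strat := .move 841 n1377 (.cons 678 n2236 (.cons 760 n2239 .nil))
noncomputable def n2298 : Strat := .move 842 n536 (.cons 843 n2297 .nil)
noncomputable def n2299 : Strat := .move 761 n928 (.cons 760 n927 .nil)
noncomputable def n2300 : Strat := .move 802 n2237 (.cons 758 n2299 .nil)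
noncomputable def n2301 : Strat := .move 757 n1009 (.cons 756 n2300 .nil)
noncomputable def n2302 : Strat := .move 843 n924 (.cons 842 n923 .nil)
noncomputable def n2303 : Strat := .move 802 n2237 (.cons 758 n2302 .nil)
noncomputable def n2304 : Strat := .move 757 n1009 (.cons 756 n2303 .nil)
noncomputable def n2305 : Strat := .win 759 2 758
noncomputable def n2306 : Strat := .move 758 n2305 (.cons 759 n2070 .nil)
noncomputable def n2307 : Strat := .move 803 n2064 (.cons 841 n2306 .nil)
noncomputable def n2308 : Strat := .move 802 n927 (.cons 762 n2307 .nil)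
noncomputable def n2309 : Strat := .move 761 n928 (.cons 760 n2308 .nil)
noncomputable def n2310 : Strat := .move 842 n536 (.cons 843 n2309 .nil)
noncomputable def n2311 : Strat := .move 841 n1374 (.cons 882 n1375 .nil)
noncomputable def n2312 : Strat := .win 841 1 718
noncomputable def n2313 : Strat := .move 882 n1354 (.cons 923 n2312 .nil)
noncomputable def n2314 : Strat := .win 759 7 718
noncomputable def n2315 : Strat := .win 677 7 677
noncomputable def n2316 : Strat := .move 718 n2314 (.cons 759 n2315 .nil)
noncomputable def n2317 : Strat := .move 883 n2313 (.cons 841 n2316 .nil)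
noncomputable def n2318 : Strat := .win 718 7 677
noncomputable def n2319 : Strat := .win 636 7 636
noncomputable def n2320 : Strat := .win 841 1 677
noncomputable def n2321 : Strat := .move 678 n2319 (.cons 636 n2320 .nil)
noncomputable def n2322 : Strat := .move 677 n2318 (.cons 718 n2321 .nil)
noncomputable def n2323 : Strat := .win 638 3 637
noncomputable def n2324 : Strat := .win 720 3 678
noncomputable def n2325 : Strat := .move 679 n2323 (.cons 638 n2324 .nil)
noncomputable def n2326 : Strat := .move 677 n2319 (.cons 636 n2318 .nil)
noncomputable def n2327 : Strat := .move 678 n2325 (.cons 720 n2326 .nil)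
noncomputable def n2328 : Strat := .move 719 n2311 (.cons 678 n2317 (.cons 882 n2322 (.cons 841 n2327 .nil)))
noncomputable def n2329 : Strat := .move 842 n536 (.cons 843 n2328 .nil)
noncomputable def n2330 : Strat := .move 760 n408 (.cons 761 n2329 .nil)
noncomputable def n2331 : Strat := .move 801 n2298 (.cons 841 n2301 (.cons 760 n2304 (.cons 756 n2310 (.cons 802 n2330 .nil))))
noncomputable def n2332 : Strat := .move 798 n2243 (.cons 802 n2255 (.cons 759 n2262 (.cons 843 n2269 (.cons 796 n2283 (.cons 760 n2286 (.cons 841 n2293 (.cons 801 n2294 (.cons 756 n2296 (.cons 797 n2331 .nil)))))))))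
noncomputable def n2333 : Strat := .move 798 n924 (.cons 842 n928 .nil)
noncomputable def n2334 : Strat := .move 843 n923 (.cons 844 n2333 .nil)
noncomputable def n2335 : Strat := .move 761 n927 (.cons 762 n2334 .nil)
noncomputable def n2336 : Strat := .move 802 n659 (.cons 839 n2335 .nil)
noncomputable def n2337 : Strat := .move 797 n380 (.cons 755 n1310 .nil)
noncomputable def n2338 : Strat := .move 756 n1341 (.cons 757 n2337 .nil)
noncomputable def n2339 : Strat := .move 839 n377 (.cons 838 n2338 .nil)
noncomputable def n2340 : Strat := .move 718 n1412 (.cons 883 n1252 .nil)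
noncomputable def n2341 : Strat := .move 842 n536 (.cons 843 n2340 .nil)
noncomputable def n2342 : Strat := .move 759 n811 (.cons 797 n2341 .nil)
noncomputable def n2343 : Strat := .move 760 n408 (.cons 761 n2342 .nil)
noncomputable def n2344 : Strat := .move 717 n1987 (.cons 758 n2023 .nil)
noncomputable def n2345 : Strat := .move 880 n2029 (.cons 717 n2112 (.cons 921 n2344 (.cons 758 n1278 .nil)))
noncomputable def n2346 : Strat := .move 757 n1009 (.cons 756 n2345 .nil)
noncomputable def n2347 : Strat := .move 839 n377 (.cons 838 n2346 .nil)
noncomputable def n2348 : Strat := .move 798 n2339 (.cons 839 n2343 (.cons 760 n2347 .nil))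
noncomputable def n2349 : Strat := .win 843 0 799
noncomputable def n2350 : Strat := .win 845 0 800
noncomputable def n2351 : Strat := .move 844 n2349 (.cons 843 n2350 .nil)
noncomputable def n2352 : Strat := .move 803 n2305 (.cons 759 n2351 .nil)
noncomputable def n2353 : Strat := .move 758 n2070 (.cons 757 n2352 .nil)
noncomputable def n2354 : Strat := .win 798 5 757
noncomputable def n2355 : Strat := .win 638 1 637
noncomputable def n2356 : Strat := .win 842 1 678
noncomputable def n2357 : Strat := .move 679 n2355 (.cons 638 n2356 .nil)
noncomputable def n2358 : Strat := .move 759 n503 (.cons 721 n329 .nil)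
noncomputable def n2359 : Strat := .move 720 n2357 (.cons 842 n2358 .nil)
noncomputable def n2360 : Strat := .move 758 n2070 (.cons 757 n2359 .nil)
noncomputable def n2361 : Strat := .move 760 n2354 (.cons 798 n2360 .nil)
noncomputable def n2362 : Strat := .move 761 n927 (.cons 762 n2361 .nil)
noncomputable def n2363 : Strat := .move 802 n2335 (.cons 761 n2353 (.cons 844 n2362 .nil))
noncomputable def n2364 : Strat := .move 802 n659 (.cons 839 n2353 .nil)
noncomputable def n2365 : Strat := .move 760 n2354 (.cons 798 n2359 .nil)
noncomputable def n2366 : Strat := .move 758 n2070 (.cons 757 n2365 .nil)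
noncomputable def n2367 : Strat := .move 761 n927 (.cons 762 n2366 .nil)
noncomputable def n2368 : Strat := .move 802 n659 (.cons 839 n2367 .nil)
noncomputable def n2369 : Strat := .move 801 n2336 (.cons 802 n2348 (.cons 839 n2363 (.cons 761 n2364 (.cons 843 n2368 .nil))))
noncomputable def n2370 : Strat := .move 882 n967 (.cons 883 n2003 .nil)
noncomputable def n2371 : Strat := .move 841 n2013 (.cons 797 n2370 (.cons 883 n1242 .nil))
noncomputable def n2372 : Strat := .move 838 n160 (.cons 837 n2371 .nil)
noncomputable def n2373 : Strat := .move 842 n536 (.cons 843 n1377 .nil)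
noncomputable def n2374 : Strat := .move 717 n9 (.cons 882 n281 .nil)
noncomputable def n2375 : Strat := .move 880 n2028 (.cons 921 n134 .nil)
noncomputable def n2376 : Strat := .move 797 n380 (.cons 755 n283 .nil)
noncomputable def n2377 : Strat := .move 756 n1341 (.cons 757 n2376 .nil)
noncomputable def n2378 : Strat := .move 758 n814 (.cons 880 n2374 (.cons 676 n2375 (.cons 717 n2377 .nil)))
noncomputable def n2379 : Strat := .move 841 n2079 (.cons 797 n2373 (.cons 843 n1712 (.cons 842 n2378 .nil)))
noncomputable def n2380 : Strat := .move 797 n380 (.cons 755 n1408 .nil)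
noncomputable def n2381 : Strat := .move 756 n1341 (.cons 757 n2380 .nil)
noncomputable def n2382 : Strat := .move 880 n2027 (.cons 962 n2029 (.cons 758 n1278 (.cons 921 n2344 .nil)))
noncomputable def n2383 : Strat := .move 757 n1009 (.cons 756 n2382 .nil)
noncomputable def n2384 : Strat := .move 798 n2379 (.cons 842 n2381 (.cons 841 n2383 (.cons 756 n1379 .nil)))
noncomputable def n2385 : Strat := .move 801 n163 (.cons 802 n2384 .nil)
noncomputable def n2386 : Strat := .move 839 n1708 (.cons 801 n2372 (.cons 838 n2385 (.cons 798 n1717 .nil)))
noncomputable def n2387 : Strat := .move 801 n377 (.cons 838 n1377 .nil)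
noncomputable def n2388 : Strat := .move 839 n2387 (.cons 801 n2126 .nil)
noncomputable def n2389 : Strat := .move 842 n151 (.cons 843 n2388 .nil)
noncomputable def n2390 : Strat := .move 839 n374 (.cons 801 n1754 .nil)
noncomputable def n2391 : Strat := .move 838 n375 (.cons 837 n2390 .nil)
noncomputable def n2392 : Strat := .move 797 n283 (.cons 796 n2391 .nil)
noncomputable def n2393 : Strat := .move 841 n2202 (.cons 796 n1002 (.cons 797 n2389 (.cons 842 n2392 .nil)))
noncomputable def n2394 : Strat := .win 841 4 838
noncomputable def n2395 : Strat := .move 879 n639 (.cons 920 n2394 .nil)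
noncomputable def n2396 : Strat := .move 880 n2029 (.cons 717 n2112 (.cons 921 n2395 .nil))
noncomputable def n2397 : Strat := .move 757 n1009 (.cons 756 n2396 .nil)
noncomputable def n2398 : Strat := .move 842 n536 (.cons 843 n2397 .nil)
noncomputable def n2399 : Strat := .move 801 n377 (.cons 838 n2398 .nil)
noncomputable def n2400 : Strat := .move 842 n151 (.cons 843 n1245 .nil)
noncomputable def n2401 : Strat := .move 841 n2015 (.cons 882 n2400 .nil)
noncomputable def n2402 : Strat := .move 838 n160 (.cons 837 n2401 .nil)
noncomputable def n2403 : Strat := .move 801 n377 (.cons 838 n1395 .nil)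
noncomputable def n2404 : Strat := .move 801 n2398 (.cons 758 n1395 (.cons 843 n2346 .nil))
noncomputable def n2405 : Strat := .move 839 n2399 (.cons 801 n2402 (.cons 758 n2403 (.cons 841 n704 (.cons 838 n2404 .nil))))
noncomputable def n2406 : Strat := .move 801 n2339 (.cons 839 n2343 (.cons 760 n2347 .nil))
noncomputable def n2407 : Strat := .win 839 0 838
noncomputable def n2408 : Strat := .move 883 n1983 (.cons 924 n2407 .nil)
noncomputable def n2409 : Strat := .move 882 n2014 (.cons 717 n1995 (.cons 923 n2408 .nil))
noncomputable def n2410 : Strat := .move 759 n809 (.cons 760 n2409 .nil)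
noncomputable def n2411 : Strat := .move 838 n375 (.cons 837 n2410 .nil)
noncomputable def n2412 : Strat := .move 841 n372 (.cons 842 n2411 .nil)
noncomputable def n2413 : Strat := .move 880 n1344 (.cons 921 n1493 .nil)
noncomputable def n2414 : Strat := .move 756 n380 (.cons 755 n2413 .nil)
noncomputable def n2415 : Strat := .move 759 n2287 (.cons 758 n809 .nil)
noncomputable def n2416 : Strat := .move 796 n485 (.cons 795 n2415 .nil)
noncomputable def n2417 : Strat := .move 839 n1754 (.cons 674 n2414 (.cons 756 n2416 .nil))
noncomputable def n2418 : Strat := .move 838 n375 (.cons 837 n2417 .nil)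
noncomputable def n2419 : Strat := .move 797 n526 (.cons 796 n2412 (.cons 841 n2418 .nil))
noncomputable def n2420 : Strat := .move 797 n1307 (.cons 759 n487 .nil)
noncomputable def n2421 : Strat := .move 716 n939 (.cons 675 n2420 .nil)
noncomputable def n2422 : Strat := .move 757 n1009 (.cons 756 n2421 .nil)
noncomputable def n2423 : Strat := .move 839 n1379 (.cons 842 n2422 (.cons 841 n2338 (.cons 797 n2398 .nil)))
noncomputable def n2424 : Strat := .move 797 n1306 (.cons 759 n1606 .nil)
noncomputable def n2425 : Strat := .move 760 n408 (.cons 761 n2424 .nil)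
noncomputable def n2426 : Strat := .win 886 2 841
noncomputable def n2427 : Strat := .win 882 2 840
noncomputable def n2428 : Strat := .move 885 n2426 (.cons 886 n2427 .nil)
noncomputable def n2429 : Strat := .move 884 n2100 (.cons 839 n2428 .nil)
noncomputable def n2430 : Strat := .move 883 n1383 (.cons 924 n2429 .nil)
noncomputable def n2431 : Strat := .move 841 n1001 (.cons 797 n2430 .nil)
noncomputable def n2432 : Strat := .move 842 n536 (.cons 843 n2431 .nil)
noncomputable def n2433 : Strat := .move 839 n2379 (.cons 842 n2381 (.cons 841 n2383 (.cons 756 n1379 .nil)))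
noncomputable def n2434 : Strat := .move 884 n2100 (.cons 839 n1388 .nil)
noncomputable def n2435 : Strat := .move 883 n1383 (.cons 924 n2434 .nil)
noncomputable def n2436 : Strat := .move 841 n1376 (.cons 678 n2235 (.cons 882 n2435 .nil))
noncomputable def n2437 : Strat := .move 760 n408 (.cons 761 n2436 .nil)
noncomputable def n2438 : Strat := .move 842 n536 (.cons 843 n2437 .nil)
noncomputable def n2439 : Strat := .move 801 n2423 (.cons 842 n2425 (.cons 760 n2432 (.cons 759 n2433 (.cons 797 n2438 .nil))))
noncomputable def n2440 : Strat := .move 841 n283 (.cons 796 n2391 .nil)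
noncomputable def n2441 : Strat := .move 796 n486 (.cons 841 n2290 .nil)
noncomputable def n2442 : Strat := .move 759 n809 (.cons 760 n2287 .nil)
noncomputable def n2443 : Strat := .move 796 n486 (.cons 841 n2442 .nil)
noncomputable def n2444 : Strat := .move 797 n2440 (.cons 796 n2391 (.cons 801 n2441 (.cons 838 n2443 .nil)))
noncomputable def n2445 : Strat := .move 838 n375 (.cons 837 n537 .nil)
noncomputable def n2446 : Strat := .move 797 n535 (.cons 841 n2445 .nil)
noncomputable def n2447 : Strat := .move 842 n536 (.cons 843 n2446 .nil)
noncomputable def n2448 : Strat := .move 797 n535 (.cons 841 n1342 .nil)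
noncomputable def n2449 : Strat := .move 842 n536 (.cons 843 n2448 .nil)
noncomputable def n2450 : Strat := .move 797 n1306 (.cons 759 n1342 .nil)
noncomputable def n2451 : Strat := .move 760 n408 (.cons 761 n2450 .nil)
noncomputable def n2452 : Strat := .move 839 n2449 (.cons 797 n1395 (.cons 841 n2451 .nil))
noncomputable def n2453 : Strat := .move 797 n375 (.cons 837 n1606 .nil)
noncomputable def n2454 : Strat := .move 838 n537 (.cons 839 n2453 .nil)
noncomputable def n2455 : Strat := .move 839 n377 (.cons 838 n1395 .nil)
noncomputable def n2456 : Strat := .move 801 n2447 (.cons 838 n2452 (.cons 842 n2454 (.cons 839 n1738 (.cons 797 n2455 .nil))))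
noncomputable def n2457 : Strat := .move 839 n374 (.cons 801 n1753 .nil)
noncomputable def n2458 : Strat := .move 756 n380 (.cons 755 n2457 .nil)
noncomputable def n2459 : Strat := .move 838 n375 (.cons 837 n2458 .nil)
noncomputable def n2460 : Strat := .move 797 n526 (.cons 841 n2459 .nil)
noncomputable def n2461 : Strat := .move 757 n1489 (.cons 716 n1488 .nil)
noncomputable def n2462 : Strat := .move 879 n827 (.cons 878 n2461 .nil)
noncomputable def n2463 : Strat := .move 839 n374 (.cons 801 n2462 .nil)
noncomputable def n2464 : Strat := .move 838 n375 (.cons 837 n2463 .nil)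
noncomputable def n2465 : Strat := .move 797 n283 (.cons 796 n2464 .nil)
noncomputable def n2466 : Strat := .move 839 n704 (.cons 837 n2387 (.cons 838 n2126 .nil))
noncomputable def n2467 : Strat := .move 842 n151 (.cons 843 n2466 .nil)
noncomputable def n2468 : Strat := .move 841 n1002 (.cons 843 n2202 (.cons 842 n2465 (.cons 797 n2467 .nil)))
noncomputable def n2469 : Strat := .move 798 n2393 (.cons 797 n2405 (.cons 841 n2406 (.cons 801 n2419 (.cons 838 n2439 (.cons 842 n2444 (.cons 758 n2456 (.cons 760 n2460 (.cons 839 n2255 (.cons 756 n2468 .nil)))))))))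
noncomputable def n2470 : Strat := .move 798 n1379 (.cons 842 n2422 (.cons 841 n2338 (.cons 797 n2398 .nil)))
noncomputable def n2471 : Strat := .move 839 n163 (.cons 802 n2470 .nil)
noncomputable def n2472 : Strat := .move 803 n2064 (.cons 841 n2351 .nil)
noncomputable def n2473 : Strat := .move 798 n924 (.cons 842 n2299 .nil)
noncomputable def n2474 : Strat := .move 843 n923 (.cons 844 n2473 .nil)
noncomputable def n2475 : Strat := .move 802 n2068 (.cons 761 n2472 (.cons 803 n2474 .nil))
noncomputable def n2476 : Strat := .move 802 n659 (.cons 839 n2472 .nil)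
noncomputable def n2477 : Strat := .move 798 n2423 (.cons 842 n2425 (.cons 760 n2432 (.cons 759 n2433 (.cons 797 n2438 .nil))))
noncomputable def n2478 : Strat := .move 801 n2471 (.cons 839 n2475 (.cons 843 n2069 (.cons 761 n2476 (.cons 802 n2477 (.cons 841 n2336 .nil)))))
noncomputable def n2479 : Strat := .move 758 n2070 (.cons 757 n2001 .nil)
noncomputable def n2480 : Strat := .move 841 n658 (.cons 803 n2479 .nil)
noncomputable def n2481 : Strat := .move 802 n659 (.cons 839 n2480 .nil)
noncomputable def n2482 : Strat := .move 839 n163 (.cons 802 n162 .nil)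
noncomputable def n2483 : Strat := .move 802 n659 (.cons 839 n658 .nil)
noncomputable def n2484 : Strat := .win 759 3 718
noncomputable def n2485 : Strat := .move 882 n2484 (.cons 759 n2234 .nil)
noncomputable def n2486 : Strat := .move 719 n1375 (.cons 678 n2485 .nil)
noncomputable def n2487 : Strat := .move 760 n2354 (.cons 798 n2486 .nil)
noncomputable def n2488 : Strat := .move 761 n927 (.cons 762 n2487 .nil)
noncomputable def n2489 : Strat := .move 802 n658 (.cons 803 n2488 .nil)
noncomputable def n2490 : Strat := .move 797 n283 (.cons 796 n1342 .nil)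
noncomputable def n2491 : Strat := .move 719 n2484 (.cons 759 n1375 .nil)
noncomputable def n2492 : Strat := .move 882 n2234 (.cons 923 n2491 .nil)
noncomputable def n2493 : Strat := .move 760 n408 (.cons 761 n2492 .nil)
noncomputable def n2494 : Strat := .move 798 n2490 (.cons 755 n1672 (.cons 797 n2493 .nil))
noncomputable def n2495 : Strat := .move 839 n162 (.cons 838 n2494 .nil)
noncomputable def n2496 : Strat := .move 841 n2482 (.cons 838 n2483 (.cons 839 n2489 (.cons 802 n2495 .nil)))
noncomputable def n2497 : Strat := .move 839 n377 (.cons 838 n2422 .nil)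
noncomputable def n2498 : Strat := .move 797 n1306 (.cons 759 n487 .nil)
noncomputable def n2499 : Strat := .move 760 n408 (.cons 761 n2498 .nil)
noncomputable def n2500 : Strat := .move 839 n377 (.cons 838 n2499 .nil)
noncomputable def n2501 : Strat := .move 798 n2497 (.cons 838 n2425 (.cons 757 n2500 (.cons 797 n2347 .nil)))
noncomputable def n2502 : Strat := .move 841 n658 (.cons 803 n2488 .nil)
noncomputable def n2503 : Strat := .win 884 7 719
noncomputable def n2504 : Strat := .win 678 6 678
noncomputable def n2505 : Strat := .move 719 n2503 (.cons 884 n2504 .nil)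
noncomputable def n2506 : Strat := .move 843 n923 (.cons 844 n2505 .nil)
noncomputable def n2507 : Strat := .move 760 n2354 (.cons 798 n2506 .nil)
noncomputable def n2508 : Strat := .move 761 n927 (.cons 762 n2507 .nil)
noncomputable def n2509 : Strat := .move 802 n2480 (.cons 758 n2502 (.cons 923 n2068 (.cons 803 n2508 .nil)))
noncomputable def n2510 : Strat := .move 801 n2481 (.cons 758 n2496 (.cons 803 n2078 (.cons 802 n2501 (.cons 839 n2509 .nil))))
noncomputable def n2511 : Strat := .move 798 n377 (.cons 838 n2398 .nil)
noncomputable def n2512 : Strat := .move 801 n163 (.cons 802 n2511 .nil)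
noncomputable def n2513 : Strat := .move 798 n2398 (.cons 758 n1395 (.cons 843 n2346 .nil))
noncomputable def n2514 : Strat := .move 801 n163 (.cons 802 n2513 .nil)
noncomputable def n2515 : Strat := .move 838 n160 (.cons 837 n159 .nil)
noncomputable def n2516 : Strat := .move 884 n266 (.cons 885 n2175 .nil)
noncomputable def n2517 : Strat := .move 883 n1983 (.cons 924 n2516 .nil)
noncomputable def n2518 : Strat := .move 759 n2276 (.cons 717 n2517 .nil)
noncomputable def n2519 : Strat := .move 882 n2004 (.cons 964 n2003 (.cons 923 n2518 (.cons 758 n2086 .nil)))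
noncomputable def n2520 : Strat := .move 801 n163 (.cons 802 n2519 .nil)
noncomputable def n2521 : Strat := .move 838 n160 (.cons 837 n2370 .nil)
noncomputable def n2522 : Strat := .move 841 n229 (.cons 802 n2515 (.cons 838 n2520 (.cons 801 n2521 .nil)))
noncomputable def n2523 : Strat := .move 798 n2399 (.cons 801 n2402 (.cons 758 n2403 (.cons 841 n704 (.cons 838 n2404 .nil))))
noncomputable def n2524 : Strat := .move 798 n2015 (.cons 882 n2400 .nil)
noncomputable def n2525 : Strat := .win 798 3 757
noncomputable def n2526 : Strat := .move 921 n2525 (.cons 798 n1274 .nil)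
noncomputable def n2527 : Strat := .move 758 n134 (.cons 717 n2526 .nil)
noncomputable def n2528 : Strat := .move 880 n640 (.cons 842 n2527 .nil)
noncomputable def n2529 : Strat := .move 879 n827 (.cons 878 n2528 .nil)
noncomputable def n2530 : Strat := .move 842 n1246 (.cons 798 n1245 .nil)
noncomputable def n2531 : Strat := .move 923 n1244 (.cons 964 n2530 .nil)
noncomputable def n2532 : Strat := .move 882 n967 (.cons 883 n2531 .nil)
noncomputable def n2533 : Strat := .move 841 n2524 (.cons 883 n2529 (.cons 758 n2532 (.cons 798 n2370 .nil)))
noncomputable def n2534 : Strat := .move 838 n160 (.cons 837 n2533 .nil)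
noncomputable def n2535 : Strat := .move 839 n2512 (.cons 838 n2514 (.cons 841 n1708 (.cons 798 n2522 (.cons 802 n2523 (.cons 801 n2534 .nil)))))
noncomputable def n2536 : Strat := .move 797 n526 (.cons 841 n1342 .nil)
noncomputable def n2537 : Strat := .move 839 n377 (.cons 838 n2536 .nil)
noncomputable def n2538 : Strat := .move 797 n1306 (.cons 759 n526 .nil)
noncomputable def n2539 : Strat := .move 760 n408 (.cons 761 n2538 .nil)
noncomputable def n2540 : Strat := .move 798 n2537 (.cons 839 n2539 (.cons 797 n2347 .nil))
noncomputable def n2541 : Strat := .move 757 n1009 (.cons 756 n2237 .nil)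
noncomputable def n2542 : Strat := .move 798 n928 (.cons 760 n2541 .nil)
noncomputable def n2543 : Strat := .move 761 n927 (.cons 762 n2542 .nil)
noncomputable def n2544 : Strat := .move 803 n2064 (.cons 841 n2305 .nil)
noncomputable def n2545 : Strat := .move 758 n2070 (.cons 757 n2544 .nil)
noncomputable def n2546 : Strat := .move 802 n2068 (.cons 803 n2543 (.cons 762 n2545 .nil))
noncomputable def n2547 : Strat := .move 801 n2078 (.cons 838 n2069 (.cons 802 n2540 (.cons 839 n2546 .nil)))
noncomputable def n2548 : Strat := .move 841 n2013 (.cons 842 n2370 (.cons 882 n1731 .nil))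
noncomputable def n2549 : Strat := .move 838 n160 (.cons 837 n2548 .nil)
noncomputable def n2550 : Strat := .move 841 n1001 (.cons 797 n2153 .nil)
noncomputable def n2551 : Strat := .move 842 n536 (.cons 843 n2550 .nil)
noncomputable def n2552 : Strat := .move 798 n2551 (.cons 841 n2346 (.cons 880 n1608 .nil))
noncomputable def n2553 : Strat := .move 801 n163 (.cons 802 n2552 .nil)
noncomputable def n2554 : Strat := .move 839 n1605 (.cons 798 n1717 (.cons 801 n2549 (.cons 838 n2553 .nil)))
noncomputable def n2555 : Strat := .move 841 n2370 (.cons 882 n1731 .nil)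
noncomputable def n2556 : Strat := .move 838 n160 (.cons 837 n2555 .nil)
noncomputable def n2557 : Strat := .move 798 n1379 (.cons 842 n1410 (.cons 841 n1416 (.cons 797 n1395 (.cons 760 n2551 .nil))))
noncomputable def n2558 : Strat := .move 801 n163 (.cons 802 n2557 .nil)
noncomputable def n2559 : Strat := .move 839 n1708 (.cons 837 n1729 (.cons 801 n2556 (.cons 798 n1717 (.cons 838 n2558 .nil))))
noncomputable def n2560 : Strat := .move 839 n163 (.cons 802 n1716 .nil)
noncomputable def n2561 : Strat := .move 802 n2068 (.cons 841 n2335 (.cons 761 n2472 .nil))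
noncomputable def n2562 : Strat := .move 839 n377 (.cons 838 n1608 .nil)
noncomputable def n2563 : Strat := .move 797 n1310 (.cons 761 n487 .nil)
noncomputable def n2564 : Strat := .move 716 n939 (.cons 675 n2563 .nil)
noncomputable def n2565 : Strat := .move 757 n1009 (.cons 756 n2564 .nil)
noncomputable def n2566 : Strat := .move 839 n377 (.cons 838 n2565 .nil)
noncomputable def n2567 : Strat := .move 797 n535 (.cons 841 n1307 .nil)
noncomputable def n2568 : Strat := .move 842 n536 (.cons 843 n2567 .nil)
noncomputable def n2569 : Strat := .move 798 n2562 (.cons 842 n2566 (.cons 841 n2339 (.cons 839 n2568 (.cons 797 n2455 .nil))))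
noncomputable def n2570 : Strat := .move 801 n2078 (.cons 798 n2560 (.cons 839 n2561 (.cons 802 n2569 .nil)))
noncomputable def n2571 : Strat := .win 759 7 759
noncomputable def n2572 : Strat := .move 924 n2571 (.cons 759 n1402 .nil)
noncomputable def n2573 : Strat := .move 883 n166 (.cons 884 n2572 .nil)
noncomputable def n2574 : Strat := .move 839 n162 (.cons 838 n2573 .nil)
noncomputable def n2575 : Strat := .move 843 n923 (.cons 844 n2072 .nil)
noncomputable def n2576 : Strat := .move 802 n658 (.cons 803 n2575 .nil)
noncomputable def n2577 : Strat := .move 801 n2483 (.cons 802 n2574 (.cons 839 n2576 .nil))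
noncomputable def n2578 : Strat := .move 838 n160 (.cons 837 n969 .nil)
noncomputable def n2579 : Strat := .move 883 n166 (.cons 884 n2578 .nil)
noncomputable def n2580 : Strat := .move 801 n163 (.cons 802 n2573 .nil)
noncomputable def n2581 : Strat := .move 839 n229 (.cons 801 n2579 (.cons 838 n2580 .nil))
noncomputable def n2582 : Strat := .move 883 n2146 (.cons 924 n2147 .nil)
noncomputable def n2583 : Strat := .win 721 3 720
noncomputable def n2584 : Strat := .win 801 5 758
noncomputable def n2585 : Strat := .move 762 n2583 (.cons 721 n2584 .nil)
noncomputable def n2586 : Strat := .move 761 n2582 (.cons 720 n2585 .nil)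
noncomputable def n2587 : Strat := .move 884 n155 (.cons 885 n2586 .nil)
noncomputable def n2588 : Strat := .move 802 n1655 (.cons 803 n2587 .nil)
noncomputable def n2589 : Strat := .move 843 n1051 (.cons 844 n2588 .nil)
noncomputable def n2590 : Strat := .move 801 n659 (.cons 839 n2072 .nil)
noncomputable def n2591 : Strat := .move 802 n1655 (.cons 803 n2590 .nil)
noncomputable def n2592 : Strat := .move 843 n1051 (.cons 844 n2591 .nil)
noncomputable def n2593 : Strat := .move 839 n156 (.cons 883 n161 .nil)
noncomputable def n2594 : Strat := .move 884 n155 (.cons 885 n2593 .nil)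
noncomputable def n2595 : Strat := .move 843 n1051 (.cons 844 n2594 .nil)
noncomputable def n2596 : Strat := .move 842 n2577 (.cons 843 n2581 (.cons 801 n2125 (.cons 839 n2589 (.cons 883 n2592 (.cons 802 n2595 .nil)))))
noncomputable def n2597 : Strat := .move 842 n975 (.cons 880 n1719 .nil)
noncomputable def n2598 : Strat := .move 879 n827 (.cons 878 n2597 .nil)
noncomputable def n2599 : Strat := .move 838 n160 (.cons 837 n2598 .nil)
noncomputable def n2600 : Strat := .win 842 1 718
noncomputable def n2601 : Strat := .move 719 n2600 (.cons 842 n1375 .nil)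
noncomputable def n2602 : Strat := .move 760 n2234 (.cons 923 n2601 .nil)
noncomputable def n2603 : Strat := .move 759 n1570 (.cons 718 n2517 .nil)
noncomputable def n2604 : Strat := .move 924 n2131 (.cons 965 n2132 .nil)
noncomputable def n2605 : Strat := .move 883 n2516 (.cons 842 n2604 .nil)
noncomputable def n2606 : Strat := .move 923 n1244 (.cons 964 n2605 .nil)
noncomputable def n2607 : Strat := .move 882 n2086 (.cons 964 n2602 (.cons 923 n2603 (.cons 760 n2606 .nil)))
noncomputable def n2608 : Strat := .move 801 n163 (.cons 802 n2607 .nil)
noncomputable def n2609 : Strat := .move 839 n2515 (.cons 801 n2599 (.cons 837 n229 (.cons 838 n2608 .nil)))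
noncomputable def n2610 : Strat := .win 803 2 758
noncomputable def n2611 : Strat := .move 801 n2610 (.cons 803 n659 .nil)
noncomputable def n2612 : Strat := .win 757 0 757
noncomputable def n2613 : Strat := .move 801 n2612 (.cons 757 n2610 .nil)
noncomputable def n2614 : Strat := .move 801 n2612 (.cons 757 n659 .nil)
noncomputable def n2615 : Strat := .move 761 n329 (.cons 803 n885 .nil)
noncomputable def n2616 : Strat := .move 802 n2611 (.cons 839 n2613 (.cons 803 n2614 (.cons 801 n2615 .nil)))
noncomputable def n2617 : Strat := .move 760 n1120 (.cons 719 n2616 .nil)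
noncomputable def n2618 : Strat := .move 759 n1570 (.cons 678 n2173 (.cons 718 n2617 .nil))
noncomputable def n2619 : Strat := .move 758 n126 (.cons 717 n2618 .nil)
noncomputable def n2620 : Strat := .move 801 n657 (.cons 760 n2483 .nil)
noncomputable def n2621 : Strat := .move 923 n1244 (.cons 964 n2620 .nil)
noncomputable def n2622 : Strat := .move 882 n2004 (.cons 964 n2003 (.cons 923 n2619 (.cons 758 n2621 .nil)))
noncomputable def n2623 : Strat := .move 882 n2087 (.cons 758 n1984 .nil)
noncomputable def n2624 : Strat := .move 717 n1942 (.cons 676 n2623 .nil)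
noncomputable def n2625 : Strat := .move 718 n1252 (.cons 677 n2624 .nil)
noncomputable def n2626 : Strat := .move 883 n1983 (.cons 924 n1982 .nil)
noncomputable def n2627 : Strat := .move 882 n2087 (.cons 758 n2626 .nil)
noncomputable def n2628 : Strat := .move 717 n1942 (.cons 676 n2627 .nil)
noncomputable def n2629 : Strat := .move 718 n1252 (.cons 677 n2628 .nil)
noncomputable def n2630 : Strat := .move 756 n88 (.cons 755 n87 .nil)
noncomputable def n2631 : Strat := .move 756 n97 (.cons 714 n88 .nil)
noncomputable def n2632 : Strat := .win 716 2 715
noncomputable def n2633 : Strat := .move 760 n2632 (.cons 716 n1120 .nil)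
noncomputable def n2634 : Strat := .move 715 n2631 (.cons 755 n2633 .nil)
noncomputable def n2635 : Strat := .move 882 n2000 (.cons 923 n2634 .nil)
noncomputable def n2636 : Strat := .win 801 2 757
noncomputable def n2637 : Strat := .move 719 n336 (.cons 720 n1951 .nil)
noncomputable def n2638 : Strat := .move 760 n2204 (.cons 923 n2637 (.cons 719 n2615 .nil))
noncomputable def n2639 : Strat := .move 802 n2636 (.cons 801 n2638 .nil)
noncomputable def n2640 : Strat := .move 757 n221 (.cons 802 n2630 (.cons 801 n2635 (.cons 756 n2639 .nil)))
noncomputable def n2641 : Strat := .move 758 n2001 (.cons 882 n2211 (.cons 717 n2640 .nil))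
noncomputable def n2642 : Strat := .move 882 n1568 (.cons 760 n2626 .nil)
noncomputable def n2643 : Strat := .move 719 n789 (.cons 678 n2642 .nil)
noncomputable def n2644 : Strat := .move 718 n1252 (.cons 677 n2643 .nil)
noncomputable def n2645 : Strat := .move 759 n2625 (.cons 678 n2629 (.cons 718 n2641 (.cons 882 n2213 (.cons 758 n2644 .nil))))
noncomputable def n2646 : Strat := .move 801 n657 (.cons 760 n2482 .nil)
noncomputable def n2647 : Strat := .move 923 n1244 (.cons 964 n2646 .nil)
noncomputable def n2648 : Strat := .move 802 n2610 (.cons 803 n659 .nil)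
noncomputable def n2649 : Strat := .move 802 n2070 (.cons 757 n2610 .nil)
noncomputable def n2650 : Strat := .move 839 n162 (.cons 838 n163 .nil)
noncomputable def n2651 : Strat := .move 801 n2648 (.cons 839 n2649 (.cons 803 n2650 (.cons 802 n1570 .nil)))
noncomputable def n2652 : Strat := .move 758 n126 (.cons 717 n2651 .nil)
noncomputable def n2653 : Strat := .move 883 n1983 (.cons 924 n1569 .nil)
noncomputable def n2654 : Strat := .move 718 n1252 (.cons 677 n2653 .nil)
noncomputable def n2655 : Strat := .move 758 n126 (.cons 717 n2617 .nil)
noncomputable def n2656 : Strat := .move 759 n2652 (.cons 758 n2654 (.cons 718 n2655 (.cons 719 n2143 .nil)))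
noncomputable def n2657 : Strat := .move 882 n2004 (.cons 758 n2647 (.cons 964 n2003 (.cons 923 n2656 .nil)))
noncomputable def n2658 : Strat := .move 838 n160 (.cons 837 n1567 .nil)
noncomputable def n2659 : Strat := .move 843 n1051 (.cons 844 n1639 .nil)
noncomputable def n2660 : Strat := .win 801 4 798
noncomputable def n2661 : Strat := .move 843 n1051 (.cons 844 n1655 .nil)
noncomputable def n2662 : Strat := .move 802 n2660 (.cons 801 n2661 .nil)
noncomputable def n2663 : Strat := .move 842 n2580 (.cons 801 n2659 (.cons 884 n2662 .nil))
noncomputable def n2664 : Strat := .move 839 n2515 (.cons 801 n2658 (.cons 837 n229 (.cons 838 n2663 .nil)))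
noncomputable def n2665 : Strat := .move 717 n193 (.cons 676 n230 .nil)
noncomputable def n2666 : Strat := .move 801 n659 (.cons 839 n658 .nil)
noncomputable def n2667 : Strat := .move 761 n885 (.cons 762 n329 .nil)
noncomputable def n2668 : Strat := .move 760 n1120 (.cons 719 n2667 .nil)
noncomputable def n2669 : Strat := .move 843 n1655 (.cons 803 n1051 .nil)
noncomputable def n2670 : Strat := .move 842 n2669 (.cons 844 n2244 .nil)
noncomputable def n2671 : Strat := .move 759 n1570 (.cons 718 n2668 (.cons 760 n2670 .nil))
noncomputable def n2672 : Strat := .move 801 n659 (.cons 839 n2070 .nil)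
noncomputable def n2673 : Strat := .move 802 n2666 (.cons 801 n2671 (.cons 803 n2672 .nil))
noncomputable def n2674 : Strat := .move 882 n2000 (.cons 923 n2673 .nil)
noncomputable def n2675 : Strat := .move 758 n1014 (.cons 676 n2001 (.cons 882 n2665 (.cons 717 n2674 .nil)))
noncomputable def n2676 : Strat := .move 923 n2098 (.cons 964 n1994 .nil)
noncomputable def n2677 : Strat := .move 882 n2014 (.cons 717 n2676 (.cons 923 n1732 .nil))
noncomputable def n2678 : Strat := .move 801 n163 (.cons 802 n2677 .nil)
noncomputable def n2679 : Strat := .move 882 n2098 (.cons 964 n1994 .nil)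
noncomputable def n2680 : Strat := .move 882 n2096 (.cons 760 n2098 .nil)
noncomputable def n2681 : Strat := .move 882 n2096 (.cons 760 n1994 .nil)
noncomputable def n2682 : Strat := .win 964 1 800
noncomputable def n2683 : Strat := .move 924 n2682 (.cons 964 n1402 .nil)
noncomputable def n2684 : Strat := .move 923 n2679 (.cons 758 n2680 (.cons 964 n2681 (.cons 882 n2683 .nil)))
noncomputable def n2685 : Strat := .move 883 n166 (.cons 884 n2684 .nil)
noncomputable def n2686 : Strat := .move 801 n163 (.cons 802 n2685 .nil)
noncomputable def n2687 : Strat := .move 842 n2678 (.cons 843 n2686 (.cons 801 n2659 (.cons 883 n2662 .nil)))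
noncomputable def n2688 : Strat := .move 839 n2515 (.cons 801 n2521 (.cons 837 n229 (.cons 838 n2687 .nil)))
noncomputable def n2689 : Strat := .move 759 n2652 (.cons 758 n2141 (.cons 719 n2143 (.cons 718 n2655 .nil)))
noncomputable def n2690 : Strat := .move 882 n2004 (.cons 964 n2003 (.cons 758 n2621 (.cons 923 n2689 .nil)))
noncomputable def n2691 : Strat := .move 841 n2596 (.cons 801 n2181 (.cons 758 n2609 (.cons 838 n2622 (.cons 839 n2645 (.cons 842 n2657 (.cons 882 n2664 (.cons 924 n2675 (.cons 759 n2688 (.cons 883 n2690 .nil)))))))))
noncomputable def n2692 : Strat := .move 800 n2119 (.cons 801 n2230 (.cons 839 n2332 (.cons 841 n2369 (.cons 759 n2386 (.cons 802 n2469 (.cons 838 n2478 (.cons 842 n2510 (.cons 797 n2535 (.cons 843 n2547 (.cons 760 n2554 (.cons 756 n2559 (.cons 879 n2570 (.cons 798 n2691 .nil)))))))))))))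
noncomputable def n2693 : Strat := .move 799 n123 (.cons 673 n175 (.cons 798 n280 (.cons 800 n315 (.cons 717 n435 (.cons 922 n475 (.cons 882 n547 (.cons 716 n653 (.cons 718 n699 (.cons 841 n776 (.cons 921 n898 (.cons 760 n914 (.cons 923 n1086 (.cons 757 n1158 (.cons 759 n1181 (.cons 880 n1208 (.cons 839 n1219 (.cons 758 n1939 (.cons 881 n2692 .nil))))))))))))))))))

end Vale.Agent.Snaky.R6_1
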